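import Crest.Agent.R204.AMU_898

/-!
# Row 204, A5/P2 part 2 (helper898): contractible functors over `F2`

`CF`: differential functor with a natural augmentation and a contraction on the standard simplices.
Instances: `CF.ofN` (normalised chains of a functor `G : SS → SS` with a cone on `G (std n)`), `CF.N1`,
tensor products `CF.tens`.  Involutions `CF.Inv`.  Uniqueness theorems in augmentation form.
-/

set_option autoImplicit false
set_option linter.unusedSectionVars false

namespace Crest.Agent.R204.AMU898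

open Finsupp EZ271 TensorProduct QC134

/-- contractible functor over `F2` -/
structure CF where
  T : SS → Type
  [ag : ∀ K, AddCommGroup (T K)]
  [md : ∀ K, Module F2 (T K)]
  map : ∀ {K L : SS}, SS.Hom K L → T K →ₗ[F2] T L
  map_id : ∀ (K : SS) (x : T K), map (SS.Hom.id K) x = x
  map_comp : ∀ {K L M : SS} (f : SS.Hom K L) (g : SS.Hom L M) (x : T K),
    map (g.comp f) x = map g (map f x)
  d : ∀ K, T K →ₗ[F2] T K
  map_d : ∀ {K L : SS} (f : SS.Hom K L) (x : T K), map f (d K x) = d L (map f x)
  eps : ∀ K, T K →ₗ[F2] F2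
  eps_map : ∀ {K L : SS} (f : SS.Hom K L) (x : T K), eps L (map f x) = eps K x
  eps_d : ∀ (K : SS) (x : T K), eps K (d K x) = 0
  con : ∀ n : ℕ, ∃ (h : T (SS.std n) →ₗ[F2] T (SS.std n)) (v : T (SS.std n)), d _ v = 0 ∧
    eps _ v = 1 ∧ (∀ x, eps _ (h x) = 0) ∧ ∀ x, d _ (h x) + h (d _ x) = x + eps _ x • v

attribute [instance] CF.ag CF.md

namespace CF

/-- the associated functor with `T0 = ker eps` -/
noncomputable def toMF (F : CF) : MF F2 where
  T := F.T
  map := F.map
  map_id := F.map_id
  map_comp := F.map_comp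
  d := F.d
  map_d := F.map_d
  T0 K := LinearMap.ker (F.eps K)
  T0_map f x hx := by
    rw [LinearMap.mem_ker] at hx ⊢
    rw [F.eps_map, hx]
  acyc n z hz hd := by
    obtain ⟨h, v, -, -, h3, h4⟩ := F.con n
    refine ⟨h z, LinearMap.mem_ker.2 (h3 z), ?_⟩
    have h5 := h4 z
    rw [LinearMap.mem_ker] at hz
    rw [hd, hz, map_zero, zero_smul, add_zero, add_zero] at h5
    exact h5

/-- normalised chains of a functor of simplicial sets with cones on models -/
noncomputable def ofN (G : SS → SS) (Gm : ∀ {K L : SS}, SS.Hom K L → SS.Hom (G K) (G L))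
    (Gid : ∀ K, Gm (SS.Hom.id K) = SS.Hom.id (G K))
    (Gcomp : ∀ {K L M : SS} (f : SS.Hom K L) (g : SS.Hom L M), Gm (g.comp f) = (Gm g).comp (Gm f))
    (cone : ∀ n, Cone (G (SS.std n))) : CF where
  T K := N F2 (G K)
  map f := N.map F2 (Gm f)
  map_id K x := by rw [Gid, map_idHom]
  map_comp f g x := by rw [Gcomp, map_map]
  d K := N.bd F2 (G K)
  map_d f x := map_bd' F2 _ x
  eps K := aug F2
  eps_map f x := aug_map F2 _ x
  eps_d K x := aug_bd F2 x
  con n := ⟨(cone n).c F2, N.sx F2 (cone n).bot, bd_sx_zero F2 _, aug_sx_zero F2 _,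
    fun x => (cone n).aug_c F2 x, fun x => by
      rw [(cone n).bd_c F2 x, sub_eq', sub_eq']
      have := add_self' ((cone n).c F2 (N.bd F2 _ x))
      calc _ = x + aug F2 x • N.sx F2 (cone n).bot +
            ((cone n).c F2 (N.bd F2 _ x) + (cone n).c F2 (N.bd F2 _ x)) := by abel
        _ = _ := by rw [this, add_zero]⟩

/-- normalised chains -/
noncomputable def N1 : CF := ofN (fun K => K) (fun f => f) (fun _ => rfl) (fun _ _ => rfl) Cone.std

/-- augmentation of a tensor product -/
noncomputable def epsT {M M' : Type} [AddCommGroup M] [Module F2 M] [AddCommGroup M'] [Module F2 M']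
    (e : M →ₗ[F2] F2) (e' : M' →ₗ[F2] F2) : M ⊗[F2] M' →ₗ[F2] F2 :=
  (TensorProduct.lid F2 F2 : F2 ⊗[F2] F2 →ₗ[F2] F2) ∘ₗ TensorProduct.map e e'

@[simp] theorem epsT_tmul {M M' : Type} [AddCommGroup M] [Module F2 M] [AddCommGroup M'] [Module F2 M']
    (e : M →ₗ[F2] F2) (e' : M' →ₗ[F2] F2) (x : M) (y : M') : epsT e e' (x ⊗ₜ y) = e x * e' y := by
  simp [epsT]

/-- tensor product -/
noncomputable def tens (F G : CF) : CF where
  T K := F.T K ⊗[F2] G.T K
  map f := TensorProduct.map (F.map f) (G.map f)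
  map_id K x := by
    induction x using TensorProduct.induction_on with
    | zero => simp
    | add x y hx hy => rw [map_add, hx, hy]
    | tmul x y => rw [TensorProduct.map_tmul, F.map_id, G.map_id]
  map_comp f g x := by
    induction x using TensorProduct.induction_on with
    | zero => simp
    | add x y hx hy => simp only [map_add, hx, hy]
    | tmul x y => simp only [TensorProduct.map_tmul, F.map_comp, G.map_comp]
  d K := dT (F.d K) (G.d K)
  map_d f x := by
    induction x using TensorProduct.induction_on with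
    | zero => simp
    | add x y hx hy => simp only [map_add, hx, hy]
    | tmul x y => simp [F.map_d, G.map_d]
  eps K := epsT (F.eps K) (G.eps K)
  eps_map f x := by
    induction x using TensorProduct.induction_on with
    | zero => simp
    | add x y hx hy => simp only [map_add, hx, hy]
    | tmul x y => simp [F.eps_map, G.eps_map]
  eps_d K x := by
    induction x using TensorProduct.induction_on with
    | zero => simp
    | add x y hx hy => simp only [map_add, hx, hy, add_zero]
    | tmul x y => simp [F.eps_d, G.eps_d]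
  con n := by
    obtain ⟨h, v, h1, h2, h3, h4⟩ := F.con n
    obtain ⟨h', v', h1', h2', h3', h4'⟩ := G.con n
    refine ⟨TensorProduct.map h LinearMap.id +
      TensorProduct.map (LinearMap.toSpanSingleton F2 _ v ∘ₗ F.eps _) h', v ⊗ₜ v', ?_, ?_, ?_, ?_⟩
    · simp [h1, h1']
    · simp [h2, h2']
    · intro x
      induction x using TensorProduct.induction_on with
      | zero => simp
      | add x y hx hy => rw [map_add, map_add, hx, hy, add_zero]
      | tmul x y => simp [h3, h3']
    · intro x
      induction x using TensorProduct.induction_on with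
      | zero => simp
      | add x y hx hy =>
        simp only [map_add, add_smul] at hx hy ⊢
        calc _ = _ + _ := ?_
          _ = _ := congrArg₂ (· + ·) hx hy
          _ = _ := ?_
        · abel
        · abel
      | tmul x y =>
        simp only [LinearMap.add_apply, TensorProduct.map_tmul, LinearMap.id_apply,
          LinearMap.comp_apply, LinearMap.toSpanSingleton_apply, map_add, dT_tmul, map_smul, h1,
          smul_zero, TensorProduct.zero_tmul, zero_add, F.eps_d, zero_smul, epsT_tmul, add_zero]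
        have e1 := h4 x
        have e2 := h4' y
        have a1 : F.d _ (h x) = x + F.eps _ x • v + h (F.d _ x) := by
          rw [← e1, add_add_self]
        have a2 : G.d _ (h' y) = y + G.eps _ y • v' + h' (G.d _ y) := by
          rw [← e2, add_add_self]
        rw [a1, a2]
        simp only [TensorProduct.add_tmul, TensorProduct.tmul_add, TensorProduct.smul_tmul',
          TensorProduct.tmul_smul, smul_smul]
        have b1 := add_self' (h (F.d (SS.std n) x) ⊗ₜ[F2] y)
        have b2 := add_self' (h x ⊗ₜ[F2] G.d (SS.std n) y)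
        have b3 := add_self' (F.eps _ x • (v ⊗ₜ[F2] y))
        have b4 := add_self' (F.eps _ x • (v ⊗ₜ[F2] h' (G.d _ y)))
        have c1 : (G.eps (SS.std n) y * F.eps (SS.std n) x) • (v ⊗ₜ[F2] v') =
          (F.eps (SS.std n) x * G.eps (SS.std n) y) • (v ⊗ₜ[F2] v') := by rw [mul_comm]
        simp only [TensorProduct.smul_tmul'] at b3 b4 c1 ⊢
        rw [c1]
        have key : ∀ A B C D E F' : F.T (SS.std n) ⊗[F2] G.T (SS.std n), B + B = 0 → C + C = 0 →
            D + D = 0 → F' + F' = 0 →
            A + B + C + D + (B + E + F') + (C + (D + F')) = A + E := by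
          intro A B C D E F' hB hC hD hF
          calc _ = A + E + (B + B) + (C + C) + (D + D) + (F' + F') := by abel
            _ = A + E := by rw [hB, hC, hD, hF]; simp only [add_zero]
        exact key _ _ _ _ _ _ b3 b1 b2 b4

/-- natural involution of a contractible functor -/
structure Inv (F : CF) where
  t : ∀ K, F.T K →ₗ[F2] F.T K
  t_map : ∀ {K L : SS} (f : SS.Hom K L) (x : F.T K), F.map f (t K x) = t L (F.map f x)
  d_t : ∀ (K : SS) (x : F.T K), F.d K (t K x) = t K (F.d K x)
  t_t : ∀ (K : SS) (x : F.T K), t K (t K x) = x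
  eps_t : ∀ (K : SS) (x : F.T K), F.eps K (t K x) = F.eps K x

/-- the trivial involution -/
def Inv.one (F : CF) : Inv F where
  t _ := LinearMap.id
  t_map _ _ := rfl
  d_t _ _ := rfl
  t_t _ _ := rfl
  eps_t _ _ := rfl

/-- the swap of `F ⊗ F` -/
noncomputable def Inv.swap (F : CF) : Inv (F.tens F) where
  t K := tau (F.T K)
  t_map f x := map_tau (F.map f) x
  d_t K x := (tau_dT (F.d K) x).symm
  t_t K x := tau_tau x
  eps_t K x := by
    change epsT (F.eps K) (F.eps K) (tau (F.T K) x) = epsT (F.eps K) (F.eps K) x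
    induction x using TensorProduct.induction_on with
    | zero => simp
    | add x y hx hy => simp only [map_add, hx, hy]
    | tmul x y => rw [tau_tmul, epsT_tmul, epsT_tmul, mul_comm]

/-- tensor product of involutions -/
noncomputable def Inv.tens {F G : CF} (t : Inv F) (s : Inv G) : Inv (F.tens G) where
  t K := TensorProduct.map (t.t K) (s.t K)
  t_map {K L} f x := by
    change TensorProduct.map (F.map f) (G.map f) (TensorProduct.map (t.t K) (s.t K) x) =
      TensorProduct.map (t.t L) (s.t L) (TensorProduct.map (F.map f) (G.map f) x)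
    induction x using TensorProduct.induction_on with
    | zero => simp
    | add x y hx hy => simp only [map_add, hx, hy]
    | tmul x y => simp only [TensorProduct.map_tmul, t.t_map, s.t_map]
  d_t K x := by
    change dT (F.d K) (G.d K) (TensorProduct.map (t.t K) (s.t K) x) =
      TensorProduct.map (t.t K) (s.t K) (dT (F.d K) (G.d K) x)
    induction x using TensorProduct.induction_on with
    | zero => simp
    | add x y hx hy => simp only [map_add, hx, hy]
    | tmul x y => simp only [TensorProduct.map_tmul, dT_tmul, map_add, t.d_t, s.d_t]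
  t_t K x := by
    have h : ∀ x : F.T K ⊗[F2] G.T K,
        TensorProduct.map (t.t K) (s.t K) (TensorProduct.map (t.t K) (s.t K) x) = x := by
      intro x
      induction x using TensorProduct.induction_on with
      | zero => simp
      | add x y hx hy => simp only [map_add, hx, hy]
      | tmul x y => simp only [TensorProduct.map_tmul, t.t_t, s.t_t]
    exact h x
  eps_t K x := by
    change epsT (F.eps K) (G.eps K) (TensorProduct.map (t.t K) (s.t K) x) = epsT (F.eps K) (G.eps K) x
    induction x using TensorProduct.induction_on with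
    | zero => simp
    | add x y hx hy => simp only [map_add, hx, hy]
    | tmul x y => simp only [TensorProduct.map_tmul, epsT_tmul, t.eps_t, s.eps_t]

/-- involution of `N (G K)` induced by a natural simplicial involution of `G` -/
noncomputable def Inv.ofN (G : SS → SS) (Gm : ∀ {K L : SS}, SS.Hom K L → SS.Hom (G K) (G L))
    (Gid : ∀ K, Gm (SS.Hom.id K) = SS.Hom.id (G K))
    (Gcomp : ∀ {K L M : SS} (f : SS.Hom K L) (g : SS.Hom L M), Gm (g.comp f) = (Gm g).comp (Gm f))
    (cone : ∀ n, Cone (G (SS.std n)))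
    (g : ∀ K, SS.Hom (G K) (G K)) (g_nat : ∀ {K L : SS} (f : SS.Hom K L),
      (Gm f).comp (g K) = (g L).comp (Gm f)) (g_g : ∀ K, (g K).comp (g K) = SS.Hom.id (G K)) :
    Inv (ofN G Gm Gid Gcomp cone) where
  t K := N.map F2 (g K)
  t_map {K L} f x := by
    have h : ∀ x : N F2 (G K),
        N.map F2 (Gm f) (N.map F2 (g K) x) = N.map F2 (g L) (N.map F2 (Gm f) x) := by
      intro x
      rw [EZ271.map_map, EZ271.map_map, g_nat]
    exact h x
  d_t K x := (map_bd' F2 (g K) x).symm
  t_t K x := by
    have h : ∀ x : N F2 (G K), N.map F2 (g K) (N.map F2 (g K) x) = x := by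
      intro x
      rw [EZ271.map_map, g_g, map_idHom]
    exact h x
  eps_t K x := aug_map F2 (g K) x

theorem mem_T0 (F : CF) (K : SS) (x : F.T K) : x ∈ F.toMF.T0 K ↔ F.eps K x = 0 :=
  LinearMap.mem_ker (f := F.eps K)

theorem mem_ker' (F : CF) (K : SS) (x y : F.T K) (h : F.eps K x = F.eps K y) :
    x + y ∈ F.toMF.T0 K := by
  rw [mem_T0, map_add, h, add_self']

/-- **uniqueness of natural `Z/2`-families**, augmentation form, on cycles -/
theorem family (F : CF) (t : Inv F) (θ θ' : ∀ K, ℕ → N F2 K →ₗ[F2] F.T K)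
    (nat : ∀ {K L : SS} (f : SS.Hom K L) (i : ℕ) (x : N F2 K), F.map f (θ K i x) = θ L i (N.map F2 f x))
    (nat' : ∀ {K L : SS} (f : SS.Hom K L) (i : ℕ) (x : N F2 K),
      F.map f (θ' K i x) = θ' L i (N.map F2 f x))
    (ch : ∀ (K : SS) (i : ℕ) (x : N F2 K), F.d K (θ K i x) + θ K i (N.bd F2 K x) =
      prev (fun j => θ K j x) i + t.t K (prev (fun j => θ K j x) i))
    (ch' : ∀ (K : SS) (i : ℕ) (x : N F2 K), F.d K (θ' K i x) + θ' K i (N.bd F2 K x) =
      prev (fun j => θ' K j x) i + t.t K (prev (fun j => θ' K j x) i))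
    (val : ∀ (K : SS) (i : ℕ) (x : N F2 K), F.eps K (θ K i x) = F.eps K (θ' K i x))
    (K : SS) (x : N F2 K) (hx : N.bd F2 K x = 0) :
    ∃ w : ℕ → F.T K, ∀ i, θ K i x + θ' K i x = F.d K (w i) + (prev w i + t.t K (prev w i)) :=
  F.toMF.family t.t t.t_map t.d_t t.t_t
    (fun K x hx => (F.mem_T0 K _).2 ((t.eps_t K x).trans ((F.mem_T0 K _).1 hx)))
    θ θ' nat nat' ch ch' (fun K i x => F.mem_ker' _ _ _ (val K i x)) K x hx

/-- functional form -/
theorem family_functional (F : CF) (t : Inv F) (θ θ' : ∀ K, ℕ → N F2 K →ₗ[F2] F.T K)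
    (nat : ∀ {K L : SS} (f : SS.Hom K L) (i : ℕ) (x : N F2 K), F.map f (θ K i x) = θ L i (N.map F2 f x))
    (nat' : ∀ {K L : SS} (f : SS.Hom K L) (i : ℕ) (x : N F2 K),
      F.map f (θ' K i x) = θ' L i (N.map F2 f x))
    (ch : ∀ (K : SS) (i : ℕ) (x : N F2 K), F.d K (θ K i x) + θ K i (N.bd F2 K x) =
      prev (fun j => θ K j x) i + t.t K (prev (fun j => θ K j x) i))
    (ch' : ∀ (K : SS) (i : ℕ) (x : N F2 K), F.d K (θ' K i x) + θ' K i (N.bd F2 K x) =
      prev (fun j => θ' K j x) i + t.t K (prev (fun j => θ' K j x) i))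
    (val : ∀ (K : SS) (i : ℕ) (x : N F2 K), F.eps K (θ K i x) = F.eps K (θ' K i x))
    (K : SS) (lam : F.T K →ₗ[F2] F2) (hd : ∀ y, lam (F.d K y) = 0) (ht : ∀ y, lam (t.t K y) = lam y)
    (x : N F2 K) (hx : N.bd F2 K x = 0) (i : ℕ) : lam (θ K i x) = lam (θ' K i x) := by
  obtain ⟨w, hw⟩ := F.family t θ θ' nat nat' ch ch' val K x hx
  have h1 := congrArg lam (hw i)
  simp only [map_add, hd, ht, zero_add] at h1
  rw [add_self'] at h1
  exact eq_of_add_eq_zero h1

/-- **uniqueness of natural `V`-families**, functional form, augmentation hypothesis -/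
theorem vfamily_functional (F : CF) (t s : Inv F) (t_s : ∀ (K : SS) (x : F.T K),
      t.t K (s.t K x) = s.t K (t.t K x))
    (θ θ' : ∀ K, ℕ → ℕ → N F2 K →ₗ[F2] F.T K)
    (nat : ∀ {K L : SS} (f : SS.Hom K L) (i j : ℕ) (x : N F2 K),
      F.map f (θ K i j x) = θ L i j (N.map F2 f x))
    (nat' : ∀ {K L : SS} (f : SS.Hom K L) (i j : ℕ) (x : N F2 K),
      F.map f (θ' K i j x) = θ' L i j (N.map F2 f x))
    (ch : ∀ (K : SS) (i j : ℕ) (x : N F2 K), F.d K (θ K i j x) + θ K i j (N.bd F2 K x) =
      (prev (fun a => θ K a j x) i + t.t K (prev (fun a => θ K a j x) i)) +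
      (prev (fun b => θ K i b x) j + s.t K (prev (fun b => θ K i b x) j)))
    (ch' : ∀ (K : SS) (i j : ℕ) (x : N F2 K), F.d K (θ' K i j x) + θ' K i j (N.bd F2 K x) =
      (prev (fun a => θ' K a j x) i + t.t K (prev (fun a => θ' K a j x) i)) +
      (prev (fun b => θ' K i b x) j + s.t K (prev (fun b => θ' K i b x) j)))
    (val : ∀ (K : SS) (i j : ℕ) (x : N F2 K), F.eps K (θ K i j x) = F.eps K (θ' K i j x))
    (K : SS) (lam : F.T K →ₗ[F2] F2) (hd : ∀ y, lam (F.d K y) = 0) (ht : ∀ y, lam (t.t K y) = lam y)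
    (hs : ∀ y, lam (s.t K y) = lam y)
    (x : N F2 K) (hx : N.bd F2 K x = 0) (i j : ℕ) : lam (θ K i j x) = lam (θ' K i j x) :=
  F.toMF.vfamily_functional t.t s.t t.t_map s.t_map t.d_t s.d_t t.t_t s.t_t t_s
    (fun K x hx => (F.mem_T0 K _).2 ((t.eps_t K x).trans ((F.mem_T0 K _).1 hx)))
    (fun K x hx => (F.mem_T0 K _).2 ((s.eps_t K x).trans ((F.mem_T0 K _).1 hx)))
    θ θ' nat nat' ch ch' (fun K i j x => F.mem_ker' _ _ _ (val K i j x)) K lam hd ht hs x hx i j

theorem single_aux (F : MF F2) (θ : ∀ K, N F2 K →ₗ[F2] F.T K)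
    (nat : ∀ {K L : SS} (f : SS.Hom K L) (x : N F2 K), F.map f (θ K x) = θ L (N.map F2 f x))
    (ch : ∀ (K : SS) (x : N F2 K), F.d K (θ K x) = θ K (N.bd F2 K x))
    (val : ∀ (K : SS) (x : N F2 K), θ K x ∈ F.T0 K)
    (K : SS) (x : N F2 K) (hx : N.bd F2 K x = 0) : ∃ w : F.T K, θ K x = F.d K w := by
  obtain ⟨H, -, -, h⟩ := F.homotopy (fun K => θ K ∘ₗ (Ch.Dg F2 K).mkQ)
    (fun {K L} f c => by
      change F.map f (θ K ((Ch.Dg F2 K).mkQ c)) = θ L ((Ch.Dg F2 L).mkQ (Ch.map F2 f c))
      rw [nat]; rfl)
    (fun K c => by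
      change F.d K (θ K ((Ch.Dg F2 K).mkQ c)) = θ K ((Ch.Dg F2 K).mkQ (Ch.bd F2 K c))
      rw [ch]; rfl)
    (fun K c => val K _)
  obtain ⟨c, hc, rfl⟩ := exists_lift x hx
  refine ⟨H K c, ?_⟩
  have h3 := h K c
  rw [hc, map_zero, add_zero] at h3
  exact h3

/-- the plain case: two natural chain maps with the same augmentation agree on cycles up to boundaries -/
theorem single (F : CF) (θ θ' : ∀ K, N F2 K →ₗ[F2] F.T K)
    (nat : ∀ {K L : SS} (f : SS.Hom K L) (x : N F2 K), F.map f (θ K x) = θ L (N.map F2 f x))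
    (nat' : ∀ {K L : SS} (f : SS.Hom K L) (x : N F2 K), F.map f (θ' K x) = θ' L (N.map F2 f x))
    (ch : ∀ (K : SS) (x : N F2 K), F.d K (θ K x) = θ K (N.bd F2 K x))
    (ch' : ∀ (K : SS) (x : N F2 K), F.d K (θ' K x) = θ' K (N.bd F2 K x))
    (val : ∀ (K : SS) (x : N F2 K), F.eps K (θ K x) = F.eps K (θ' K x))
    (K : SS) (x : N F2 K) (hx : N.bd F2 K x = 0) : ∃ w : F.T K, θ K x + θ' K x = F.d K w :=
  single_aux F.toMF (fun K => (θ K + θ' K : N F2 K →ₗ[F2] F.T K))
    (fun {K L} f x => by
      change F.map f (θ K x + θ' K x) = θ L (N.map F2 f x) + θ' L (N.map F2 f x)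
      rw [map_add, nat, nat'])
    (fun K x => by
      change F.d K (θ K x + θ' K x) = θ K (N.bd F2 K x) + θ' K (N.bd F2 K x)
      rw [map_add, ch, ch'])
    (fun K x => F.mem_ker' _ _ _ (val K x)) K x hx

end CF

/-- prepend a vertex -/
def consV {V : Type} {n : ℕ} (v : V) (x : (SS.EG V).S n) : (SS.EG V).S (n + 1) :=
  (Fin.cons v x : Fin (n + 1 + 1) → V)

@[simp] theorem consV_zero {V : Type} {n : ℕ} (v : V) (x : (SS.EG V).S n) : consV v x 0 = v := rfl
@[simp] theorem consV_succ {V : Type} {n : ℕ} (v : V) (x : (SS.EG V).S n) (a : Fin (n + 1)) :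
    consV v x a.succ = x a := rfl

/-- the cone structure on `EG V` with base point `v` -/
def coneEG (V : Type) (v : V) : Cone (SS.EG V) where
  bot := fun _ => v
  k x := consV v x
  h_cons α x := by
    funext a
    rw [SS.EG_act]
    induction a using Fin.cases with
    | zero => rw [Op.cons_zero, consV_zero, consV_zero]
    | succ a => rw [Op.cons_succ, consV_succ, SS.EG_act]
  h_star α x := by
    funext a
    rw [SS.EG_act]
    induction a using Fin.cases with
    | zero => rw [Op.star_zero, consV_zero, consV_zero]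
    | succ a => rw [Op.star_succ, consV_succ, consV_succ, SS.EG_act]
  h_face x := by
    funext a
    rw [SS.EG_act, face_zero_apply, consV_succ]
  h_vert α x h := by
    funext a
    have : a = 0 := Fin.ext (by omega)
    subst this
    rw [SS.EG_act, h, consV_zero]
  h_bot := by
    funext a
    induction a using Fin.cases with
    | zero => rfl
    | succ a => rfl

namespace CF

/-- `N F2 (A × (K × K))` for a fixed `A` with a cone -/
noncomputable def NAKK (A : SS) (c : Cone A) : CF :=
  ofN (fun K => A.prod (K.prod K)) (fun f => SS.prodMap (SS.Hom.id A) (SS.prodMap f f))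
    (fun _ => rfl) (fun _ _ => rfl) (fun n => c.prod ((Cone.std n).prod (Cone.std n)))

/-- the involution of `N F2 (A × (K × K))` given by an involution of `A` and the swap -/
noncomputable def invAKK (A : SS) (c : Cone A) (g : SS.Hom A A) (hg : g.comp g = SS.Hom.id A) :
    Inv (NAKK A c) :=
  Inv.ofN (fun K => A.prod (K.prod K)) (fun f => SS.prodMap (SS.Hom.id A) (SS.prodMap f f))
    (fun _ => rfl) (fun _ _ => rfl) (fun n => c.prod ((Cone.std n).prod (Cone.std n)))
    (fun K => SS.prodMap g (SS.swap K K)) (fun f => rfl) (fun K => by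
    have h : ∀ (n : ℕ) (a : A.S n), g.app n (g.app n a) = a := fun n a => by
      have := congrArg (fun f : SS.Hom A A => f.app n a) hg
      exact this
    refine SS.Hom.ext (funext fun n => funext fun x => ?_)
    exact Prod.ext (h n x.1) rfl)

end CF

end Crest.Agent.R204.AMU898
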