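import Crest.Agent.R204.Defs

/-!
# Row 204 (helper265): `EG V` (simplices = tuples) and skeleta `sk M K`
-/

set_option autoImplicit false

namespace Crest.Agent.R204

namespace SS

/-- `E V`: `n`-simplices are `(n+1)`-tuples -/
def EG (V : Type) : SS where
  S n := Fin (n + 1) → V
  act f x := fun i => x (f i)
  act_id _ := rfl
  act_comp _ _ _ := rfl

@[simp] theorem EG_act {V : Type} {m n : ℕ} (f : Op m n) (x : (EG V).S n) (i : Fin (m + 1)) :
    (EG V).act f x i = x (f i) := rfl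

/-- functoriality of `EG` -/
def EGmap {V W : Type} (φ : V → W) : Hom (EG V) (EG W) := ⟨fun _ x i => φ (x i), fun _ _ => rfl⟩

@[simp] theorem EGmap_app {V W : Type} (φ : V → W) {n : ℕ} (x : (EG V).S n) (i : Fin (n + 1)) :
    (EGmap φ).app n x i = φ (x i) := rfl

/-- `x` factors through a simplex of dimension `≤ M` -/
def IsSk (M : ℕ) (K : SS) {n : ℕ} (x : K.S n) : Prop :=
  ∃ p, p ≤ M ∧ ∃ (f : Op n p) (y : K.S p), x = K.act f y

theorem isSk_of_le {M : ℕ} {K : SS} {n : ℕ} (h : n ≤ M) (x : K.S n) : IsSk M K x :=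
  ⟨n, h, OrderHom.id, x, (K.act_id x).symm⟩

theorem IsSk.act {M : ℕ} {K : SS} {n : ℕ} {x : K.S n} (hx : IsSk M K x) {m : ℕ} (f : Op m n) :
    IsSk M K (K.act f x) := by
  obtain ⟨p, hp, g, y, rfl⟩ := hx
  exact ⟨p, hp, g.comp f, y, (K.act_comp f g y).symm⟩

theorem IsSk.map {M : ℕ} {K L : SS} (φ : Hom K L) {n : ℕ} {x : K.S n} (hx : IsSk M K x) :
    IsSk M L (φ.app n x) := by
  obtain ⟨p, hp, g, y, rfl⟩ := hx
  exact ⟨p, hp, g, φ.app p y, φ.nat g y⟩

theorem IsSk.mono {M M' : ℕ} (h : M ≤ M') {K : SS} {n : ℕ} {x : K.S n} (hx : IsSk M K x) :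
    IsSk M' K x := by
  obtain ⟨p, hp, g, y, rfl⟩ := hx
  exact ⟨p, hp.trans h, g, y, rfl⟩

/-- the `M`-skeleton -/
def sk (M : ℕ) (K : SS) : SS where
  S n := {x : K.S n // IsSk M K x}
  act f x := ⟨K.act f x.1, x.2.act f⟩
  act_id x := Subtype.ext (K.act_id x.1)
  act_comp f g x := Subtype.ext (K.act_comp f g x.1)

/-- inclusion of the skeleton -/
def skIncl (M : ℕ) (K : SS) : Hom (sk M K) K := ⟨fun _ x => x.1, fun _ _ => rfl⟩

/-- functoriality of the skeleton -/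
def skMap (M : ℕ) {K L : SS} (φ : Hom K L) : Hom (sk M K) (sk M L) :=
  ⟨fun n x => ⟨φ.app n x.1, x.2.map φ⟩, fun f x => Subtype.ext (φ.nat f x.1)⟩

/-- monotonicity of the skeleton -/
def skMono {M M' : ℕ} (h : M ≤ M') (K : SS) : Hom (sk M K) (sk M' K) :=
  ⟨fun _ x => ⟨x.1, x.2.mono h⟩, fun _ _ => rfl⟩

@[simp] theorem skIncl_app {M : ℕ} {K : SS} {n : ℕ} (x : (sk M K).S n) :
    (skIncl M K).app n x = x.1 := rfl

@[simp] theorem skMap_app_val {M : ℕ} {K L : SS} (φ : Hom K L) {n : ℕ} (x : (sk M K).S n) :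
    ((skMap M φ).app n x).1 = φ.app n x.1 := rfl

end SS

end Crest.Agent.R204
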