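import Crest.Agent.R204.QC_134

/-!
# Row 204, leaf A-QC part 2 (helper134): homology of `W ⊗_{Z/2} (C ⊗ C)`

* `HBasis d b` : the family `b` of cycles is a basis of the homology of `(M,d)`.
* `HBasis.tensor` : Künneth.
* `HBasis.quad` : `{e_i ⊗ b_j ⊗ b_j} ∪ {e_0 ⊗ b_j ⊗ b_k, j < k}` is a homology basis of
  `W ⊗_{Z/2} (M ⊗ M)`.
* `Eop i : Hd d →ₗ Hd (dQ d)`, `[x] ↦ [e_i ⊗ x ⊗ x]` (additive!), `Bop : Hd d →ₗ Hd d →ₗ Hd (dQ d)`.
-/

set_option autoImplicit false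
set_option linter.unusedSectionVars false
set_option linter.unusedSimpArgs false

namespace Crest.Agent.R204.QC134

open Finsupp TensorProduct

variable {M M' : Type*} [AddCommGroup M] [Module F2 M] [AddCommGroup M'] [Module F2 M']

/-- the family `b` (of cycles) is a basis of the homology of `(M,d)` -/
def HBasis {J : Type*} (d : M →ₗ[F2] M) (b : J → M) : Prop :=
  QI (0 : (J →₀ F2) →ₗ[F2] (J →₀ F2)) d (Finsupp.linearCombination F2 b)

theorem HBasis.cyc {J : Type*} {d : M →ₗ[F2] M} {b : J → M} (h : HBasis d b) (j : J) :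
    d (b j) = 0 := by
  have := h.comm (single j 1)
  simp only [LinearMap.zero_apply, map_zero, Finsupp.linearCombination_single, one_smul] at this
  exact this.symm

theorem HBasis.iff {J : Type*} {d : M →ₗ[F2] M} {b : J → M} :
    HBasis d b ↔ (∀ j, d (b j) = 0) ∧
      (∀ z, d z = 0 → ∃ (c : J →₀ F2) (w : M), z = Finsupp.linearCombination F2 b c + d w) ∧
      (∀ c : J →₀ F2, (∃ w, d w = Finsupp.linearCombination F2 b c) → c = 0) := by
  constructor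
  · intro h
    refine ⟨h.cyc, ?_, ?_⟩
    · intro z hz
      obtain ⟨c, w, -, h2⟩ := h.surj z hz
      exact ⟨c, w, h2⟩
    · intro c hc
      obtain ⟨w, hw⟩ := h.inj c rfl hc
      simpa using hw.symm
  · rintro ⟨h1, h2, h3⟩
    refine ⟨?_, ?_, ?_⟩
    · intro x
      rw [LinearMap.zero_apply, map_zero]
      induction x using Finsupp.induction_linear with
      | zero => simp
      | add f g hf hg => rw [map_add, map_add, ← hf, ← hg, add_zero]
      | single j r => simp [h1]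
    · intro z hz
      obtain ⟨c, w, h⟩ := h2 z hz
      exact ⟨c, w, rfl, h⟩
    · intro c _ hc
      exact ⟨0, by rw [h3 c hc]; simp⟩

theorem HBasis.lc_cyc {J : Type*} {d : M →ₗ[F2] M} {b : J → M} (h : HBasis d b) (c : J →₀ F2) :
    d (Finsupp.linearCombination F2 b c) = 0 := by
  have := h.comm c
  simp only [LinearMap.zero_apply, map_zero] at this
  exact this.symm

theorem lc_mk {J : Type*} {d : M →ₗ[F2] M} {b : J → M} (hb : ∀ j, d (b j) = 0) (c : J →₀ F2)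
    (h : d (Finsupp.linearCombination F2 b c) = 0) :
    Finsupp.linearCombination F2 (fun j => Hd.mk d (b j) (hb j)) c =
      Hd.mk d (Finsupp.linearCombination F2 b c) h := by
  have e1 : (⟨Finsupp.linearCombination F2 b c, h⟩ : LinearMap.ker d) =
      Finsupp.linearCombination F2 (fun j => (⟨b j, hb j⟩ : LinearMap.ker d)) c := by
    apply Subtype.ext
    show _ = (LinearMap.ker d).subtype _
    rw [Finsupp.apply_linearCombination]
    rfl
  unfold Hd.mk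
  rw [e1]
  show _ = Submodule.mkQ _ _
  rw [Finsupp.apply_linearCombination]
  rfl

/-- the classes of a homology basis form a basis of `Hd d` -/
noncomputable def HBasis.toBasis {J : Type*} {d : M →ₗ[F2] M} {b : J → M} (h : HBasis d b) :
    Module.Basis J F2 (Hd d) :=
  Module.Basis.mk (v := fun j => Hd.mk d (b j) (h.cyc j))
    (by
      rw [linearIndependent_iff]
      intro c hc
      rw [lc_mk h.cyc c (h.lc_cyc c), Hd.mk_eq_zero] at hc
      exact (HBasis.iff.1 h).2.2 c hc)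
    (by
      rintro x -
      obtain ⟨z, hz, rfl⟩ := Hd.mk_surj d x
      obtain ⟨c, w, hw⟩ := (HBasis.iff.1 h).2.1 z hz
      have : Hd.mk d z hz = Finsupp.linearCombination F2 (fun j => Hd.mk d (b j) (h.cyc j)) c := by
        rw [lc_mk h.cyc c (h.lc_cyc c), Hd.mk_eq_mk]
        exact ⟨w, by rw [hw, sub_eq', add_comm (Finsupp.linearCombination F2 b c),
          add_add_self]⟩
      rw [this]
      exact (Finsupp.mem_span_range_iff_exists_finsupp).2 ⟨c, rfl⟩)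

@[simp] theorem HBasis.toBasis_apply {J : Type*} {d : M →ₗ[F2] M} {b : J → M} (h : HBasis d b)
    (j : J) : h.toBasis j = Hd.mk d (b j) (h.cyc j) := by
  simp [HBasis.toBasis]

/-- conversely any basis of `Hd d` gives a homology basis -/
theorem HBasis.of_basis {J : Type*} {d : M →ₗ[F2] M} (B : Module.Basis J F2 (Hd d)) {b : J → M}
    (hb : ∀ j, d (b j) = 0) (hB : ∀ j, B j = Hd.mk d (b j) (hb j)) : HBasis d b := by
  have hcyc : ∀ c : J →₀ F2, d (Finsupp.linearCombination F2 b c) = 0 := by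
    intro c
    induction c using Finsupp.induction_linear with
    | zero => simp
    | add f g hf hg => rw [map_add, map_add, hf, hg, add_zero]
    | single j r => simp [hb]
  have hlc : ∀ c : J →₀ F2, Finsupp.linearCombination F2 B c =
      Hd.mk d (Finsupp.linearCombination F2 b c) (hcyc c) := by
    intro c
    rw [← lc_mk hb]
    congr 1
    exact congrArg _ (funext hB)
  refine HBasis.iff.2 ⟨hb, ?_, ?_⟩
  · intro z hz
    have h1 : Hd.mk d z hz = Finsupp.linearCombination F2 B (B.repr (Hd.mk d z hz)) :=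
      (B.linearCombination_repr _).symm
    rw [hlc, Hd.mk_eq_mk] at h1
    obtain ⟨w, hw⟩ := h1
    exact ⟨_, w, by rw [hw, sub_eq', add_comm z, ← add_assoc, add_self', zero_add]⟩
  · intro c hc
    rw [← Hd.mk_eq_zero (hz := hcyc c), ← hlc] at hc
    have := linearIndependent_iff.1 B.linearIndependent c hc
    exact this

theorem exists_HBasis.{u} {M : Type u} [AddCommGroup M] [Module F2 M] (d : M →ₗ[F2] M) :
    ∃ (J : Type u) (b : J → M), HBasis d b := by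
  let B := Module.Basis.ofVectorSpace F2 (Hd d)
  choose b hb hB using fun j => Hd.mk_surj d (B j)
  exact ⟨_, b, HBasis.of_basis B hb hB⟩

/-- a quasi-isomorphism maps a homology basis to a homology basis -/
theorem HBasis.map {J : Type*} {d : M →ₗ[F2] M} {d' : M' →ₗ[F2] M'} {f : M →ₗ[F2] M'} {b : J → M}
    (h : HBasis d b) (hf : QI d d' f) : HBasis d' (fun j => f (b j)) := by
  have := hf.comp h
  unfold HBasis
  convert this using 1
  ext j
  simp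

/-- Künneth theorem in basis form -/
theorem HBasis.tensor {J J' : Type*} {d : M →ₗ[F2] M} {d' : M' →ₗ[F2] M'} {b : J → M} {b' : J' → M'}
    (hdd : ∀ x, d (d x) = 0) (hdd' : ∀ x, d' (d' x) = 0)
    (h : HBasis d b) (h' : HBasis d' b') : HBasis (dT d d') (fun p : J × J' => b p.1 ⊗ₜ[F2] b' p.2) := by
  have h1 := QI.tensor (fun _ => rfl) hdd h (fun _ => rfl) hdd' h'
  have h2 := QI.of_equiv (d := 0) (d' := dT (0 : (J →₀ F2) →ₗ[F2] (J →₀ F2))
    (0 : (J' →₀ F2) →ₗ[F2] (J' →₀ F2))) (finsuppTensorFinsupp' F2 J J').symm (by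
      intro x
      rw [LinearMap.zero_apply, map_zero, dT]
      simp [TensorProduct.map_zero_left, TensorProduct.map_zero_right])
  have h3 := h1.comp h2
  unfold HBasis
  convert h3 using 1
  ext ⟨j, j'⟩
  simp [finsuppTensorFinsupp'_symm_single_eq_single_one_tmul]

theorem HBasis.qi_tensor {J J' : Type*} {d : M →ₗ[F2] M} {d' : M' →ₗ[F2] M'} {b : J → M} {b' : J' → M'}
    (hdd : ∀ x, d (d x) = 0) (hdd' : ∀ x, d' (d' x) = 0)
    (h : HBasis d b) (h' : HBasis d' b') : QI 0 (dT d d')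
      (Finsupp.linearCombination F2 (fun p : J × J' => b p.1 ⊗ₜ[F2] b' p.2)) :=
  h.tensor hdd hdd' h'

/-- the swap of `M ⊗ M` -/
noncomputable def tau (M : Type*) [AddCommGroup M] [Module F2 M] : (M ⊗[F2] M) →ₗ[F2] (M ⊗[F2] M) :=
  (TensorProduct.comm F2 M M : (M ⊗[F2] M) →ₗ[F2] (M ⊗[F2] M))

@[simp] theorem tau_tmul (x y : M) : tau M (x ⊗ₜ y) = y ⊗ₜ x := by simp [tau]

theorem tau_tau (x : M ⊗[F2] M) : tau M (tau M x) = x := by
  induction x using TensorProduct.induction_on with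
  | zero => simp
  | add x y hx hy => simp only [map_add, hx, hy]
  | tmul x y => simp

theorem tau_dT (d : M →ₗ[F2] M) (x : M ⊗[F2] M) : tau M (dT d d x) = dT d d (tau M x) :=
  comm_dT d d x

/-- differential of the quadratic construction `W ⊗_{Z/2} (M ⊗ M)` -/
noncomputable def dQ (d : M →ₗ[F2] M) : (ℕ →₀ (M ⊗[F2] M)) →ₗ[F2] (ℕ →₀ (M ⊗[F2] M)) :=
  QD (dT d d) (tau M)

theorem dQ_dQ {d : M →ₗ[F2] M} (hdd : ∀ x, d (d x) = 0) (x : ℕ →₀ (M ⊗[F2] M)) :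
    dQ d (dQ d x) = 0 :=
  QD_QD (dT_dT hdd hdd) tau_tau (tau_dT d) x

/-- the family of standard cycles of the quadratic construction -/
noncomputable def qfam {J : Type*} [LinearOrder J] (b : J → M) : QIdx J → (ℕ →₀ (M ⊗[F2] M))
  | Sum.inl (i, j) => single i (b j ⊗ₜ b j)
  | Sum.inr p => single 0 (b p.1.1 ⊗ₜ b p.1.2)

/-- **homology of the quadratic construction** -/
theorem HBasis.quad {J : Type*} [LinearOrder J] {d : M →ₗ[F2] M} {b : J → M}
    (hdd : ∀ x, d (d x) = 0) (h : HBasis d b) : HBasis (dQ d) (qfam b) := by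
  have h1 := HBasis.qi_tensor hdd hdd h h
  have h2 := h1.Q (τ := swapJ) (τ' := tau M) (fun _ => rfl) (dT_dT hdd hdd)
    (by intro x; ext p; simp [swapJ_apply]) tau_tau (by intro x; simp) (tau_dT d) (by
      intro x
      induction x using Finsupp.induction_linear with
      | zero => simp
      | add f g hf hg => simp only [map_add, hf, hg]
      | single p r =>
        simp [swapJ, Finsupp.mapDomain_single])
  have h3 := h2.comp qcyc_QI
  unfold HBasis dQ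
  convert h3 using 1
  ext a
  rcases a with ⟨i, j⟩ | p
  · simp [qfam, qcyc]
  · simp [qfam, qcyc]

/-! ## naturality -/

/-- functoriality of the quadratic construction -/
noncomputable def Qf (f : M →ₗ[F2] M') : (ℕ →₀ (M ⊗[F2] M)) →ₗ[F2] (ℕ →₀ (M' ⊗[F2] M')) :=
  Qmap (TensorProduct.map f f)

@[simp] theorem Qf_single (f : M →ₗ[F2] M') (i : ℕ) (x y : M) :
    Qf f (single i (x ⊗ₜ y)) = single i (f x ⊗ₜ f y) := by
  simp [Qf]

theorem map_tau (f : M →ₗ[F2] M') (x : M ⊗[F2] M) :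
    TensorProduct.map f f (tau M x) = tau M' (TensorProduct.map f f x) := by
  induction x using TensorProduct.induction_on with
  | zero => simp
  | add x y hx hy => simp only [map_add, hx, hy]
  | tmul x y => simp

theorem map_dT {d : M →ₗ[F2] M} {d' : M' →ₗ[F2] M'} {f : M →ₗ[F2] M'}
    (hf : ∀ x, f (d x) = d' (f x)) (x : M ⊗[F2] M) :
    TensorProduct.map f f (dT d d x) = dT d' d' (TensorProduct.map f f x) := by
  induction x using TensorProduct.induction_on with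
  | zero => simp
  | add x y hx hy => simp only [map_add, hx, hy]
  | tmul x y => simp [hf]

theorem Qf_dQ {d : M →ₗ[F2] M} {d' : M' →ₗ[F2] M'} {f : M →ₗ[F2] M'}
    (hf : ∀ x, f (d x) = d' (f x)) (x : ℕ →₀ (M ⊗[F2] M)) :
    Qf f (dQ d x) = dQ d' (Qf f x) :=
  Qmap_QD (map_dT hf) (map_tau f) x

/-- quasi-isomorphisms induce quasi-isomorphisms of quadratic constructions -/
theorem QI.Qf {d : M →ₗ[F2] M} {d' : M' →ₗ[F2] M'} {f : M →ₗ[F2] M'}
    (hdd : ∀ x, d (d x) = 0) (hdd' : ∀ x, d' (d' x) = 0) (h : QI d d' f) :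
    QI (dQ d) (dQ d') (Qf f) :=
  (h.tensor hdd hdd' hdd hdd' h).Q (dT_dT hdd hdd) (dT_dT hdd' hdd') tau_tau tau_tau
    (tau_dT d) (tau_dT d') (map_tau f)

/-! ## the operations `[x] ↦ [e_i ⊗ x ⊗ x]` and `[x],[y] ↦ [e_0 ⊗ x ⊗ y]` -/

theorem dQ_single_zero (d : M →ₗ[F2] M) (x y : M) :
    dQ d (single 0 (x ⊗ₜ y)) = single 0 (d x ⊗ₜ y + x ⊗ₜ d y) := by
  simp [dQ]

theorem dQ_single_succ (d : M →ₗ[F2] M) (i : ℕ) (x y : M) :
    dQ d (single (i + 1) (x ⊗ₜ y)) = single (i + 1) (d x ⊗ₜ y + x ⊗ₜ d y) +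
      single i (x ⊗ₜ y + y ⊗ₜ x) := by
  simp [dQ]

theorem dQ_sq (d : M →ₗ[F2] M) (i : ℕ) (x : M) (hx : d x = 0) :
    dQ d (single i (x ⊗ₜ x)) = 0 := by
  rcases i with _ | i
  · rw [dQ_single_zero]; simp [hx]
  · rw [dQ_single_succ, add_self']; simp [hx]

theorem dQ_mul (d : M →ₗ[F2] M) (x y : M) (hx : d x = 0) (hy : d y = 0) :
    dQ d (single 0 (x ⊗ₜ y)) = 0 := by
  rw [dQ_single_zero]; simp [hx, hy]

theorem sq_bd (d : M →ₗ[F2] M) (hdd : ∀ x, d (d x) = 0) (i : ℕ) (w : M) :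
    ∃ v, dQ d v = single i (d w ⊗ₜ d w) := by
  rcases i with _ | i
  · exact ⟨single 0 (w ⊗ₜ d w), by rw [dQ_single_zero]; simp [hdd]⟩
  · refine ⟨single (i + 1) (w ⊗ₜ d w) + single i (w ⊗ₜ w), ?_⟩
    rw [map_add, dQ_single_succ, hdd, TensorProduct.tmul_zero, add_zero]
    have : dQ d (single i (w ⊗ₜ w)) = single i (w ⊗ₜ d w + d w ⊗ₜ w) := by
      rcases i with _ | i
      · rw [dQ_single_zero, add_comm]
      · rw [dQ_single_succ, add_self', Finsupp.single_zero, add_zero, add_comm (d w ⊗ₜ[F2] w)]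
    rw [this, add_add_self]

theorem sq_add (d : M →ₗ[F2] M) (i : ℕ) (x y : M) (hx : d x = 0) (hy : d y = 0) :
    ∃ v, dQ d v = single i ((x + y) ⊗ₜ (x + y)) - (single i (x ⊗ₜ x) + single i (y ⊗ₜ y)) := by
  refine ⟨single (i + 1) (x ⊗ₜ y), ?_⟩
  rw [dQ_single_succ, hx, hy, TensorProduct.zero_tmul, TensorProduct.tmul_zero, add_zero,
    Finsupp.single_zero, zero_add, ← Finsupp.single_add, ← Finsupp.single_sub]
  congr 1
  rw [TensorProduct.add_tmul, TensorProduct.tmul_add, TensorProduct.tmul_add]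
  abel

/-- auxiliary: on cycles -/
noncomputable def EopAux (d : M →ₗ[F2] M) (i : ℕ) : LinearMap.ker d →+ Hd (dQ d) where
  toFun z := Hd.mk (dQ d) (single i (z.1 ⊗ₜ z.1)) (dQ_sq d i z.1 z.2)
  map_zero' := by
    rw [Hd.mk_eq_zero]
    exact ⟨0, by simp⟩
  map_add' x y := by
    have : Hd.mk (dQ d) (single i (x.1 ⊗ₜ x.1)) (dQ_sq d i x.1 x.2) +
        Hd.mk (dQ d) (single i (y.1 ⊗ₜ y.1)) (dQ_sq d i y.1 y.2) =
        Hd.mk (dQ d) (single i (x.1 ⊗ₜ x.1) + single i (y.1 ⊗ₜ y.1)) (by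
          rw [map_add, dQ_sq d i x.1 x.2, dQ_sq d i y.1 y.2, add_zero]) := rfl
    rw [this, Hd.mk_eq_mk]
    exact sq_add d i x.1 y.1 x.2 y.2

/-- `[x] ↦ [e_i ⊗ x ⊗ x]` -/
noncomputable def Eop (d : M →ₗ[F2] M) (hdd : ∀ x, d (d x) = 0) (i : ℕ) : Hd d →ₗ[F2] Hd (dQ d) :=
  Submodule.liftQ _ ((EopAux d i).toZModLinearMap 2) (by
    rintro ⟨z, hz⟩ hz'
    obtain ⟨w, hw⟩ := hz'
    simp only [Submodule.subtype_apply] at hw
    subst hw
    rw [LinearMap.mem_ker]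
    show Hd.mk (dQ d) (single i (d w ⊗ₜ d w)) _ = 0
    rw [Hd.mk_eq_zero]
    exact sq_bd d hdd i w)

@[simp] theorem Eop_mk (d : M →ₗ[F2] M) (hdd : ∀ x, d (d x) = 0) (i : ℕ) (z : M) (hz : d z = 0) :
    Eop d hdd i (Hd.mk d z hz) = Hd.mk (dQ d) (single i (z ⊗ₜ z)) (dQ_sq d i z hz) := rfl

theorem mul_bd (d : M →ₗ[F2] M) (x w : M) (hx : d x = 0) :
    dQ d (single 0 (x ⊗ₜ w)) = single 0 (x ⊗ₜ d w) := by
  rw [dQ_single_zero, hx]; simp

theorem bd_mul (d : M →ₗ[F2] M) (w x : M) (hx : d x = 0) :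
    dQ d (single 0 (w ⊗ₜ x)) = single 0 (d w ⊗ₜ x) := by
  rw [dQ_single_zero, hx]; simp

/-- `M ⊗ M → Hd (dQ d)` on cycles, `x ⊗ y ↦ [e_0 ⊗ x ⊗ y]` -/
noncomputable def BopAux (d : M →ₗ[F2] M) :
    LinearMap.ker d →ₗ[F2] LinearMap.ker d →ₗ[F2] Hd (dQ d) :=
  LinearMap.mk₂ F2 (fun x y => Hd.mk (dQ d) (single 0 (x.1 ⊗ₜ y.1)) (dQ_mul d x.1 y.1 x.2 y.2))
    (by
      intro x x' y
      show Hd.mk _ _ _ = Hd.mk _ _ _ + Hd.mk _ _ _
      have : Hd.mk (dQ d) (single 0 (x.1 ⊗ₜ y.1)) (dQ_mul d x.1 y.1 x.2 y.2) +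
        Hd.mk (dQ d) (single 0 (x'.1 ⊗ₜ y.1)) (dQ_mul d x'.1 y.1 x'.2 y.2) =
        Hd.mk (dQ d) (single 0 (x.1 ⊗ₜ y.1) + single 0 (x'.1 ⊗ₜ y.1)) (by
          rw [map_add, dQ_mul d x.1 y.1 x.2 y.2, dQ_mul d x'.1 y.1 x'.2 y.2, add_zero]) := rfl
      rw [this, Hd.mk_eq_mk]
      exact ⟨0, by simp [TensorProduct.add_tmul]⟩)
    (by
      intro r x y
      show Hd.mk _ _ _ = r • Hd.mk _ _ _
      have : r • Hd.mk (dQ d) (single 0 (x.1 ⊗ₜ y.1)) (dQ_mul d x.1 y.1 x.2 y.2) =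
        Hd.mk (dQ d) (r • single 0 (x.1 ⊗ₜ y.1)) (by
          rw [map_smul, dQ_mul d x.1 y.1 x.2 y.2, smul_zero]) := rfl
      rw [this, Hd.mk_eq_mk]
      exact ⟨0, by simp [TensorProduct.smul_tmul']⟩)
    (by
      intro x y y'
      show Hd.mk _ _ _ = Hd.mk _ _ _ + Hd.mk _ _ _
      have : Hd.mk (dQ d) (single 0 (x.1 ⊗ₜ y.1)) (dQ_mul d x.1 y.1 x.2 y.2) +
        Hd.mk (dQ d) (single 0 (x.1 ⊗ₜ y'.1)) (dQ_mul d x.1 y'.1 x.2 y'.2) =
        Hd.mk (dQ d) (single 0 (x.1 ⊗ₜ y.1) + single 0 (x.1 ⊗ₜ y'.1)) (by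
          rw [map_add, dQ_mul d x.1 y.1 x.2 y.2, dQ_mul d x.1 y'.1 x.2 y'.2, add_zero]) := rfl
      rw [this, Hd.mk_eq_mk]
      exact ⟨0, by simp [TensorProduct.tmul_add]⟩)
    (by
      intro r x y
      show Hd.mk _ _ _ = r • Hd.mk _ _ _
      have : r • Hd.mk (dQ d) (single 0 (x.1 ⊗ₜ y.1)) (dQ_mul d x.1 y.1 x.2 y.2) =
        Hd.mk (dQ d) (r • single 0 (x.1 ⊗ₜ y.1)) (by
          rw [map_smul, dQ_mul d x.1 y.1 x.2 y.2, smul_zero]) := rfl
      rw [this, Hd.mk_eq_mk]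
      exact ⟨0, by simp⟩)

/-- `[x], [y] ↦ [e_0 ⊗ x ⊗ y]` -/
noncomputable def Bop (d : M →ₗ[F2] M) : Hd d →ₗ[F2] Hd d →ₗ[F2] Hd (dQ d) :=
  Submodule.liftQ _ (LinearMap.flip (Submodule.liftQ _ (LinearMap.flip (BopAux d)) (by
    rintro ⟨z, hz⟩ hz'
    obtain ⟨w, hw⟩ := hz'
    simp only [Submodule.subtype_apply] at hw
    subst hw
    rw [LinearMap.mem_ker]
    ext ⟨x, hx⟩
    show Hd.mk (dQ d) (single 0 (x ⊗ₜ d w)) _ = 0
    rw [Hd.mk_eq_zero]
    exact ⟨_, mul_bd d x w hx⟩))) (by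
    rintro ⟨z, hz⟩ hz'
    obtain ⟨w, hw⟩ := hz'
    simp only [Submodule.subtype_apply] at hw
    subst hw
    rw [LinearMap.mem_ker]
    ext ⟨x, hx⟩
    show Hd.mk (dQ d) (single 0 (d w ⊗ₜ x)) _ = 0
    rw [Hd.mk_eq_zero]
    exact ⟨_, bd_mul d w x hx⟩)

@[simp] theorem Bop_mk (d : M →ₗ[F2] M) (x y : M) (hx : d x = 0) (hy : d y = 0) :
    Bop d (Hd.mk d x hx) (Hd.mk d y hy) =
      Hd.mk (dQ d) (single 0 (x ⊗ₜ y)) (dQ_mul d x y hx hy) := rfl

theorem Bop_comm (d : M →ₗ[F2] M) (x y : Hd d) : Bop d x y = Bop d y x := by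
  obtain ⟨x, hx, rfl⟩ := Hd.mk_surj d x
  obtain ⟨y, hy, rfl⟩ := Hd.mk_surj d y
  rw [Bop_mk, Bop_mk, Hd.mk_eq_mk]
  refine ⟨single 1 (x ⊗ₜ y), ?_⟩
  rw [show (1 : ℕ) = 0 + 1 from rfl, dQ_single_succ, hx, hy, sub_eq', Finsupp.single_add]
  simp

theorem Bop_self (d : M →ₗ[F2] M) (hdd : ∀ x, d (d x) = 0) (x : Hd d) :
    Bop d x x = Eop d hdd 0 x := by
  obtain ⟨x, hx, rfl⟩ := Hd.mk_surj d x
  rfl

/-- for any homology basis, a basis of `Hd (dQ d)` in terms of `Eop` and `Bop` -/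
theorem quadBasis_inl {J : Type*} [LinearOrder J] {d : M →ₗ[F2] M} {b : J → M}
    (hdd : ∀ x, d (d x) = 0) (h : HBasis d b) (i : ℕ) (j : J) :
    (h.quad hdd).toBasis (Sum.inl (i, j)) = Eop d hdd i (h.toBasis j) := by
  simp [qfam]

theorem quadBasis_inr {J : Type*} [LinearOrder J] {d : M →ₗ[F2] M} {b : J → M}
    (hdd : ∀ x, d (d x) = 0) (h : HBasis d b) (p : {p : J × J // p.1 < p.2}) :
    (h.quad hdd).toBasis (Sum.inr p) = Bop d (h.toBasis p.1.1) (h.toBasis p.1.2) := by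
  simp [qfam]

/-- `Hd (dQ d)` is spanned by the `e_i ⊗ x ⊗ x` and `e_0 ⊗ x ⊗ y` -/
theorem quad_span (d : M →ₗ[F2] M) (hdd : ∀ x, d (d x) = 0) :
    Submodule.span F2 ({y | ∃ i x, y = Eop d hdd i x} ∪ {z | ∃ x y, z = Bop d x y}) = ⊤ := by
  classical
  obtain ⟨J, b, hb⟩ := exists_HBasis d
  let _ : LinearOrder J := linearOrderOfSTO (WellOrderingRel (α := J))
  rw [eq_top_iff, ← (hb.quad hdd).toBasis.span_eq]
  refine Submodule.span_mono ?_
  rintro _ ⟨⟨i, j⟩ | p, rfl⟩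
  · exact Or.inl ⟨i, _, quadBasis_inl hdd hb i j⟩
  · exact Or.inr ⟨_, _, quadBasis_inr hdd hb p⟩

theorem Eop_map {d : M →ₗ[F2] M} {d' : M' →ₗ[F2] M'} (hdd : ∀ x, d (d x) = 0)
    (hdd' : ∀ x, d' (d' x) = 0) (f : M →ₗ[F2] M') (hf : f ∘ₗ d = d' ∘ₗ f)
    (hQ : Qf f ∘ₗ dQ d = dQ d' ∘ₗ Qf f) (i : ℕ) (x : Hd d) :
    Hd.map (Qf f) hQ (Eop d hdd i x) = Eop d' hdd' i (Hd.map f hf x) := by
  obtain ⟨x, hx, rfl⟩ := Hd.mk_surj d x
  simp

theorem Bop_map {d : M →ₗ[F2] M} {d' : M' →ₗ[F2] M'} (f : M →ₗ[F2] M') (hf : f ∘ₗ d = d' ∘ₗ f)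
    (hQ : Qf f ∘ₗ dQ d = dQ d' ∘ₗ Qf f) (x y : Hd d) :
    Hd.map (Qf f) hQ (Bop d x y) = Bop d' (Hd.map f hf x) (Hd.map f hf y) := by
  obtain ⟨x, hx, rfl⟩ := Hd.mk_surj d x
  obtain ⟨y, hy, rfl⟩ := Hd.mk_surj d y
  simp

end Crest.Agent.R204.QC134
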