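import Crest.Agent.R204.EZCross_271

set_option autoImplicit false

/-!
# Row 204, leaf S3 / P2: acyclic models, uniqueness up to natural homotopy (mod 2, no signs)

`CT` = cosimplicial differential `F2`-module `T n` (think `T n = F(Δ^n)`) with augmentation and
a contraction natural for the degeneracies.  `Cells C I` = a system of "cells" (free `F2[G]`-complex)
acting on it; `Fam C X` = natural families `θ_i` with `[d, θ_i] = (lower cells)`, as elements
`v i n ∈ T n` (value on the universal simplex).  Two families with the same augmentation are naturally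
homotopic (`exists_htpy`), and for every realisation (`Real`) in which the cells act as zero they are
chain homotopic (`Real.uniq`), so equal on cycles after a cocycle (`Real.uniq_lam`).
-/

namespace Crest.Agent.R204.AM596

open Finsupp EZ271

/-- cosimplicial contractible differential module over `F2` -/
structure CT where
  T : ℕ → Type
  [acg : ∀ n, AddCommGroup (T n)]
  [mod : ∀ n, Module F2 (T n)]
  map : ∀ {m n : ℕ}, Op m n → T m →ₗ[F2] T n
  map_id : ∀ {n : ℕ} (x : T n), map (OrderHom.id : Op n n) x = x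
  map_comp : ∀ {l m n : ℕ} (f : Op l m) (g : Op m n) (x : T l), map (g.comp f) x = map g (map f x)
  d : ∀ n, T n →ₗ[F2] T n
  d_d : ∀ n x, d n (d n x) = 0
  map_d : ∀ {m n : ℕ} (f : Op m n) (x : T m), map f (d m x) = d n (map f x)
  aug : ∀ n, T n →ₗ[F2] F2
  aug_d : ∀ n x, aug n (d n x) = 0
  aug_map : ∀ {m n : ℕ} (f : Op m n) (x : T m), aug n (map f x) = aug m x
  bot : ∀ n, T n
  d_bot : ∀ n, d n (bot n) = 0
  aug_bot : ∀ n, aug n (bot n) = 1
  map_bot : ∀ {n : ℕ} (j : Fin (n + 1)), map (Op.dgn j) (bot (n + 1)) = bot n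
  c : ∀ n, T n →ₗ[F2] T n
  d_c : ∀ n x, d n (c n x) = x + c n (d n x) + aug n x • bot n
  aug_c : ∀ n x, aug n (c n x) = 0
  map_c : ∀ {n : ℕ} (j : Fin (n + 1)) (x : T (n + 1)),
    map (Op.dgn j) (c (n + 1) x) = c n (map (Op.dgn j) x)

attribute [instance] CT.acg CT.mod

theorem add_self {M : Type*} [AddCommGroup M] [Module F2 M] (x : M) : x + x = 0 := by
  have h : ((1 : F2) + 1) • x = 0 := by
    rw [show ((1 : F2) + 1) = 0 by decide, zero_smul]
  rwa [add_smul, one_smul] at h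

theorem add_add_cancel_self {M : Type*} [AddCommGroup M] [Module F2 M] (x y : M) :
    x + (x + y) = y := by rw [← add_assoc, add_self, zero_add]

theorem eq_of_add_eq_zero {M : Type*} [AddCommGroup M] [Module F2 M] {x y : M} (h : x + y = 0) :
    x = y := by
  have := congrArg (· + y) h
  simpa [add_assoc, add_self] using this

theorem two_nsmul_F2 {M : Type*} [AddCommGroup M] [Module F2 M] (x : M) : (2 : ℕ) • x = 0 := by
  rw [two_nsmul, add_self]

theorem two_zsmul_F2 {M : Type*} [AddCommGroup M] [Module F2 M] (x : M) : (2 : ℤ) • x = 0 := by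
  rw [two_zsmul, add_self]

theorem four_nsmul_F2 {M : Type*} [AddCommGroup M] [Module F2 M] (x : M) : (4 : ℕ) • x = 0 := by
  rw [show (4 : ℕ) = 2 * 2 from rfl, mul_smul, two_nsmul_F2]

theorem four_zsmul_F2 {M : Type*} [AddCommGroup M] [Module F2 M] (x : M) : (4 : ℤ) • x = 0 := by
  rw [show (4 : ℤ) = 2 * 2 from rfl, mul_smul, two_zsmul_F2]

/-- additive identities in `F2`-modules -/
macro "char2" : tactic => `(tactic| (
  apply eq_of_add_eq_zero
  abel_nf
  try simp only [two_nsmul_F2, two_zsmul_F2, four_nsmul_F2, four_zsmul_F2, add_zero, zero_add]))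

theorem neg_one_pow_F2 (k : ℕ) : ((-1 : F2) ^ k) = 1 := by
  have : (-1 : F2) = 1 := by decide
  rw [this, one_pow]

namespace CT

variable (C : CT)

/-- evaluation of operators at an element -/
noncomputable def ev {n : ℕ} (v : C.T n) (m : ℕ) : Ch F2 (SS.std m) →ₗ[F2] C.T m :=
  Finsupp.linearCombination F2 (fun t : (SS.std m).T =>
    if h : t.1 = n then C.map (h ▸ t.2 : Op n m) v else 0)

theorem ev_single {n m : ℕ} (v : C.T n) (f : Op n m) (r : F2) :
    C.ev v m (single (⟨n, f⟩ : (SS.std m).T) r) = r • C.map f v := by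
  simp [ev]

theorem ev_single_ne {n m k : ℕ} (v : C.T n) (f : Op k m) (r : F2) (h : k ≠ n) :
    C.ev v m (single (⟨k, f⟩ : (SS.std m).T) r) = 0 := by
  simp [ev, h]

/-- sum of the faces -/
noncomputable def fc {n : ℕ} (v : C.T n) : C.T (n + 1) := ∑ k : Fin (n + 2), C.map (Op.face k) v

theorem fc_add {n : ℕ} (v w : C.T n) : C.fc (v + w) = C.fc v + C.fc w := by
  simp [fc, Finset.sum_add_distrib]

@[simp] theorem fc_zero {n : ℕ} : C.fc (0 : C.T n) = 0 := by simp [fc]

theorem d_fc {n : ℕ} (v : C.T n) : C.d _ (C.fc v) = C.fc (C.d _ v) := by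
  simp [fc, map_sum, C.map_d]

theorem aug_fc {n : ℕ} (v : C.T n) (h : C.aug n v = 0) : C.aug _ (C.fc v) = 0 := by
  simp [fc, map_sum, C.aug_map, h]

theorem ev_bd {n m : ℕ} (v : C.T n) (f : Op (n + 1) m) :
    C.ev v m (Ch.bd F2 _ (single (⟨n + 1, f⟩ : (SS.std m).T) 1)) = C.map f (C.fc v) := by
  rw [Ch.bd_single_succ, map_sum, fc, map_sum]
  refine Finset.sum_congr rfl fun k _ => ?_
  rw [ev_single, neg_one_pow_F2, one_mul, one_smul]
  exact C.map_comp _ _ _

theorem fc_fc {n : ℕ} (v : C.T n) : C.fc (C.fc v) = 0 := by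
  have h := congrArg (C.ev v (n + 2)) (Ch.bd_bd (R := F2)
    (single (⟨n + 2, OrderHom.id⟩ : (SS.std (n + 2)).T) 1))
  rw [map_zero, Ch.bd_single_succ, map_sum, map_sum] at h
  rw [← h]
  conv_lhs => rw [fc]
  refine Finset.sum_congr rfl fun k _ => ?_
  rw [neg_one_pow_F2, one_mul]
  exact (C.ev_bd v _).symm

theorem ev_Dg {n m : ℕ} (v : C.T n) (hv : ∀ (l : ℕ) (e : n = l + 1) (j : Fin (l + 1)),
    C.map (Op.dgn j) (e ▸ v) = 0) {c : Ch F2 (SS.std m)} (hc : c ∈ Ch.Dg F2 (SS.std m)) :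
    C.ev v m c = 0 := by
  refine Submodule.span_induction (p := fun c _ => C.ev v m c = 0) ?_ ?_ ?_ ?_ hc
  · rintro _ ⟨⟨k, x⟩, hx, rfl⟩
    rcases k with _ | k
    · exact hx.elim
    · obtain ⟨j, y, rfl⟩ := hx
      by_cases h : k + 1 = n
      · subst h
        rw [ev_single, one_smul]
        have : (SS.std m).act (Op.dgn j) y = OrderHom.comp y (Op.dgn j) := rfl
        rw [this, C.map_comp, hv k rfl j, map_zero]
      · exact C.ev_single_ne _ _ _ h
  · simp
  · intro a b _ _ ha hb; rw [map_add, ha, hb, add_zero]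
  · intro r a _ ha; rw [map_smul, ha, smul_zero]

/-- the faces of a normalised element are normalised -/
theorem map_dgn_fc {n : ℕ} (v : C.T n) (hv : ∀ (l : ℕ) (e : n = l + 1) (j : Fin (l + 1)),
    C.map (Op.dgn j) (e ▸ v) = 0) (j : Fin (n + 1)) : C.map (Op.dgn j) (C.fc v) = 0 := by
  rw [← C.ev_bd]
  refine C.ev_Dg v hv (Ch.bd_mem_Dg (Submodule.subset_span ⟨_, ?_, rfl⟩))
  exact ⟨j, OrderHom.id, rfl⟩

end CT

/-- a system of cells acting on `C` -/
structure Cells (C : CT) (I : Type) where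
  rk : I → ℕ
  L : ∀ n, (I → C.T n) →ₗ[F2] (I → C.T n)
  loc : ∀ (n : ℕ) (h h' : I → C.T n) (i : I), (∀ j, rk j < rk i → h j = h' j) → L n h i = L n h' i
  L_L : ∀ (n : ℕ) (h : I → C.T n), L n (L n h) = 0
  L_map : ∀ {m n : ℕ} (f : Op m n) (h : I → C.T m) (i : I),
    C.map f (L m h i) = L n (fun j => C.map f (h j)) i
  L_d : ∀ (n : ℕ) (h : I → C.T n) (i : I), C.d n (L n h i) = L n (fun j => C.d n (h j)) i
  L_aug : ∀ (n : ℕ) (h : I → C.T n), (∀ j, C.aug n (h j) = 0) → ∀ i, C.aug n (L n h i) = 0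

/-- natural families -/
structure Fam (C : CT) {I : Type} (X : Cells C I) where
  v : I → ∀ n, C.T n
  dgn : ∀ (i : I) (n : ℕ) (j : Fin (n + 1)), C.map (Op.dgn j) (v i (n + 1)) = 0
  d_zero : ∀ i, C.d 0 (v i 0) = X.L 0 (fun j => v j 0) i
  d_succ : ∀ i n, C.d (n + 1) (v i (n + 1)) = C.fc (v i n) + X.L (n + 1) (fun j => v j (n + 1)) i

section

variable {C : CT} {I : Type} {X : Cells C I}

/-- sum of two families -/
def Fam.add (θ θ' : Fam C X) : Fam C X where
  v i n := θ.v i n + θ'.v i n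
  dgn i n j := by rw [map_add, θ.dgn, θ'.dgn, add_zero]
  d_zero i := by
    rw [map_add, θ.d_zero, θ'.d_zero]
    have : (fun j => θ.v j 0 + θ'.v j 0) = (fun j => θ.v j 0) + (fun j => θ'.v j 0) := rfl
    rw [this, map_add]; rfl
  d_succ i n := by
    rw [map_add, θ.d_succ, θ'.d_succ, CT.fc_add]
    have : (fun j => θ.v j (n + 1) + θ'.v j (n + 1)) =
      (fun j => θ.v j (n + 1)) + (fun j => θ'.v j (n + 1)) := rfl
    rw [this, map_add]
    simp only [Pi.add_apply]
    abel

variable (δ : Fam C X)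

open Classical in
/-- the universal homotopy -/
noncomputable def hv (i : I) : (n : ℕ) → C.T n
  | 0 => C.c 0 (δ.v i 0 + X.L 0 (fun j => if X.rk j < X.rk i then hv j 0 else 0) i)
  | n + 1 => C.c (n + 1) (δ.v i (n + 1) + C.fc (hv i n) +
      X.L (n + 1) (fun j => if X.rk j < X.rk i then hv j (n + 1) else 0) i)
  termination_by n => (X.rk i, n)
  decreasing_by
    · exact Prod.Lex.left _ _ (by assumption)
    · exact Prod.Lex.right _ (Nat.lt_succ_self _)
    · exact Prod.Lex.left _ _ (by assumption)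

theorem L_trunc (n : ℕ) (i : I) (h : I → C.T n) [DecidablePred fun j => X.rk j < X.rk i] :
    X.L n (fun j => if X.rk j < X.rk i then h j else 0) i = X.L n h i :=
  X.loc n _ _ i fun j hj => by simp [hj]

theorem hv_zero (i : I) : hv δ i 0 = C.c 0 (δ.v i 0 + X.L 0 (fun j => hv δ j 0) i) := by
  rw [hv, L_trunc]

theorem hv_succ (i : I) (n : ℕ) : hv δ i (n + 1) = C.c (n + 1) (δ.v i (n + 1) + C.fc (hv δ i n) +
      X.L (n + 1) (fun j => hv δ j (n + 1)) i) := by
  rw [hv, L_trunc]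

theorem aug_hv (i : I) (n : ℕ) : C.aug n (hv δ i n) = 0 := by
  rcases n with _ | n
  · rw [hv_zero, C.aug_c]
  · rw [hv_succ, C.aug_c]

theorem dgn_hv : ∀ (r : ℕ) (i : I), X.rk i = r → ∀ (n : ℕ) (j : Fin (n + 1)),
    C.map (Op.dgn j) (hv δ i (n + 1)) = 0 := by
  intro r
  induction r using Nat.strong_induction_on with
  | _ r ihr =>
    intro i hi n
    induction n with
    | zero =>
      intro j
      rw [hv_succ, C.map_c, map_add (C.map _), map_add (C.map _), δ.dgn, X.L_map, zero_add]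
      rw [C.map_dgn_fc _ (fun l e => by omega), zero_add]
      rw [X.loc _ _ (fun _ => 0) i (fun k hk => ihr _ (hi ▸ hk) k rfl 0 j)]
      have : (fun _ : I => (0 : C.T 0)) = 0 := rfl
      rw [this, map_zero]
      simp
    | succ n ihn =>
      intro j
      rw [hv_succ, C.map_c, map_add (C.map _), map_add (C.map _), δ.dgn, X.L_map, zero_add]
      rw [C.map_dgn_fc _ (fun l e j => by
        obtain rfl : n = l := by omega
        exact ihn j), zero_add]
      rw [X.loc _ _ (fun _ => 0) i (fun k hk => ihr _ (hi ▸ hk) k rfl (n + 1) j)]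
      have : (fun _ : I => (0 : C.T (n + 1))) = 0 := rfl
      rw [this, map_zero]
      simp

variable (haug : ∀ i n, C.aug n (δ.v i n) = 0)
include haug

theorem d_hv : ∀ (r : ℕ) (i : I), X.rk i = r →
    (C.d 0 (hv δ i 0) = δ.v i 0 + X.L 0 (fun j => hv δ j 0) i) ∧
    ∀ n : ℕ, C.d (n + 1) (hv δ i (n + 1)) = δ.v i (n + 1) + C.fc (hv δ i n) +
      X.L (n + 1) (fun j => hv δ j (n + 1)) i := by
  intro r
  induction r using Nat.strong_induction_on with
  | _ r ihr =>
    intro i hi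
    have h0 : C.d 0 (hv δ i 0) = δ.v i 0 + X.L 0 (fun j => hv δ j 0) i := by
      have e1 : C.d 0 (δ.v i 0 + X.L 0 (fun j => hv δ j 0) i) = 0 := by
        rw [map_add, δ.d_zero, X.L_d]
        rw [X.loc 0 (fun j => C.d 0 (hv δ j 0)) (fun j => δ.v j 0 + X.L 0 (fun j => hv δ j 0) j) i
          (fun j hj => (ihr _ (hi ▸ hj) j rfl).1)]
        have : (fun j => δ.v j 0 + X.L 0 (fun j => hv δ j 0) j) =
          (fun j => δ.v j 0) + X.L 0 (fun j => hv δ j 0) := rfl
        rw [this, map_add, X.L_L, add_zero, add_self]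
      have e2 : C.aug 0 (δ.v i 0 + X.L 0 (fun j => hv δ j 0) i) = 0 := by
        rw [map_add, haug, X.L_aug 0 _ (fun j => aug_hv δ j 0), add_zero]
      conv_lhs => rw [hv_zero]
      rw [C.d_c, e1, e2, map_zero, zero_smul, add_zero, add_zero]
    refine ⟨h0, ?_⟩
    -- the general step
    have key : ∀ n : ℕ, C.d (n + 1) (C.fc (hv δ i n)) = C.fc (δ.v i n) +
        X.L (n + 1) (fun j => C.fc (hv δ j n)) i →
        C.d (n + 1) (hv δ i (n + 1)) = δ.v i (n + 1) + C.fc (hv δ i n) +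
      X.L (n + 1) (fun j => hv δ j (n + 1)) i := by
      intro n hn
      have e1 : C.d (n + 1) (δ.v i (n + 1) + C.fc (hv δ i n) +
          X.L (n + 1) (fun j => hv δ j (n + 1)) i) = 0 := by
        rw [map_add, map_add, δ.d_succ, hn, X.L_d]
        rw [X.loc (n + 1) (fun j => C.d (n + 1) (hv δ j (n + 1)))
          (fun j => δ.v j (n + 1) + C.fc (hv δ j n) + X.L (n + 1) (fun j => hv δ j (n + 1)) j) i
          (fun j hj => (ihr _ (hi ▸ hj) j rfl).2 n)]
        have : (fun j => δ.v j (n + 1) + C.fc (hv δ j n) + X.L (n + 1) (fun j => hv δ j (n + 1)) j)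
          = ((fun j => δ.v j (n + 1)) + (fun j => C.fc (hv δ j n))) +
            X.L (n + 1) (fun j => hv δ j (n + 1)) := rfl
        rw [this, map_add, X.L_L, add_zero, map_add]
        simp only [Pi.add_apply]
        generalize C.fc (δ.v i n) = a
        generalize X.L (n + 1) (fun j => δ.v j (n + 1)) i = b
        generalize X.L (n + 1) (fun j => C.fc (hv δ j n)) i = c
        have : a + b + (a + c) + (b + c) = (a + a) + (b + b) + (c + c) := by abel
        rw [this, add_self a, add_self b, add_self c, add_zero, add_zero]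
      have e2 : C.aug (n + 1) (δ.v i (n + 1) + C.fc (hv δ i n) +
          X.L (n + 1) (fun j => hv δ j (n + 1)) i) = 0 := by
        rw [map_add, map_add, haug, C.aug_fc _ (aug_hv δ i n),
          X.L_aug (n + 1) _ (fun j => aug_hv δ j (n + 1)), add_zero, add_zero]
      conv_lhs => rw [hv_succ]
      rw [C.d_c, e1, e2, map_zero, zero_smul, add_zero, add_zero]
    have Lfc : ∀ (n : ℕ) (h : I → C.T n), C.fc (X.L n h i) = X.L (n + 1) (fun j => C.fc (h j)) i := by
      intro n h
      have : (fun j => C.fc (h j)) = ∑ k : Fin (n + 2), (fun j => C.map (Op.face k) (h j)) := by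
        funext j; simp [CT.fc]
      rw [this, map_sum, Finset.sum_apply, CT.fc]
      exact Finset.sum_congr rfl fun k _ => X.L_map _ _ _
    intro n
    induction n with
    | zero =>
      apply key
      rw [C.d_fc, h0, CT.fc_add, Lfc]
    | succ n ihn =>
      apply key
      rw [C.d_fc, ihn, CT.fc_add, CT.fc_add, C.fc_fc, add_zero, Lfc]

/-- UNIQUENESS: the universal homotopy between two natural families -/
theorem exists_htpy : ∃ h : I → ∀ n, C.T n,
    (∀ (i : I) (n : ℕ) (j : Fin (n + 1)), C.map (Op.dgn j) (h i (n + 1)) = 0) ∧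
    (∀ i n, C.aug n (h i n) = 0) ∧
    (∀ i, δ.v i 0 = C.d 0 (h i 0) + X.L 0 (fun j => h j 0) i) ∧
    (∀ i n, δ.v i (n + 1) = C.d (n + 1) (h i (n + 1)) + C.fc (h i n) +
      X.L (n + 1) (fun j => h j (n + 1)) i) := by
  refine ⟨hv δ, fun i n j => dgn_hv δ _ i rfl n j, aug_hv δ, fun i => ?_, fun i n => ?_⟩
  · rw [(d_hv δ haug _ i rfl).1, add_assoc, add_self, add_zero]
  · rw [(d_hv δ haug _ i rfl).2 n]
    generalize δ.v i (n + 1) = a
    generalize C.fc (hv δ i n) = b
    generalize X.L (n + 1) (fun j => hv δ j (n + 1)) i = c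
    have : a + b + c + b + c = a + (b + b) + (c + c) := by abel
    rw [this, add_self, add_self, add_zero, add_zero]

end

/-! ## realisations -/

/-- realisation of `C` over a simplicial set `J` in a differential module `P` -/
structure Real (C : CT) (J : SS) (P : Type*) [AddCommGroup P] [Module F2 P] where
  d : P →ₗ[F2] P
  r : ∀ {n : ℕ}, J.S n → C.T n →ₗ[F2] P
  r_act : ∀ {m n : ℕ} (α : Op m n) (x : J.S n) (y : C.T m), r (J.act α x) y = r x (C.map α y)
  r_d : ∀ {n : ℕ} (x : J.S n) (y : C.T n), r x (C.d n y) = d (r x y)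

namespace Real

variable {C : CT} {J : SS} {P : Type*} [AddCommGroup P] [Module F2 P] (ρ : Real C J P)

/-- the map on normalised chains given by normalised elements -/
noncomputable def out (v : ∀ n, C.T n)
    (hv : ∀ (n : ℕ) (j : Fin (n + 1)), C.map (Op.dgn j) (v (n + 1)) = 0) : N F2 J →ₗ[F2] P :=
  liftN (fun n x => ρ.r x (v n)) (fun n j y => by rw [ρ.r_act, hv, map_zero])

@[simp] theorem out_sx (v : ∀ n, C.T n)
    (hv : ∀ (n : ℕ) (j : Fin (n + 1)), C.map (Op.dgn j) (v (n + 1)) = 0) {n : ℕ} (x : J.S n) :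
    ρ.out v hv (N.sx F2 x) = ρ.r x (v n) := by simp [out]

theorem out_bd_sx (v : ∀ n, C.T n)
    (hv : ∀ (n : ℕ) (j : Fin (n + 1)), C.map (Op.dgn j) (v (n + 1)) = 0) {n : ℕ}
    (x : J.S (n + 1)) : ρ.out v hv (N.bd F2 J (N.sx F2 x)) = ρ.r x (C.fc (v n)) := by
  rw [bd_sx_succ, map_sum, CT.fc, map_sum]
  refine Finset.sum_congr rfl fun k _ => ?_
  rw [neg_one_pow_F2, one_smul, out_sx, ρ.r_act]

/-- THEOREM: two natural families with the same augmentation are chain homotopic in every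
realisation in which the cells act as zero. -/
theorem uniq {I : Type} {X : Cells C I} (θ θ' : Fam C X)
    (haug : ∀ i n, C.aug n (θ.v i n) = C.aug n (θ'.v i n))
    (hL : ∀ (i : I) (n : ℕ) (x : J.S n) (h : I → C.T n), ρ.r x (X.L n h i) = 0) (i : I) :
    ∃ H : N F2 J →ₗ[F2] P, ∀ z, ρ.out (θ.v i) (θ.dgn i) z + ρ.out (θ'.v i) (θ'.dgn i) z =
      ρ.d (H z) + H (N.bd F2 J z) := by
  obtain ⟨h, h1, -, h3, h4⟩ := exists_htpy (θ.add θ') (fun i n => by
    change C.aug n (θ.v i n + θ'.v i n) = 0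
    rw [map_add, haug, ← map_add, add_self, map_zero])
  refine ⟨ρ.out (h i) (h1 i), fun z => ?_⟩
  have : ρ.out (θ.v i) (θ.dgn i) + ρ.out (θ'.v i) (θ'.dgn i) =
      ρ.d ∘ₗ ρ.out (h i) (h1 i) + ρ.out (h i) (h1 i) ∘ₗ N.bd F2 J := by
    refine hom_ext fun n x => ?_
    simp only [LinearMap.add_apply, LinearMap.comp_apply, out_sx]
    rw [← map_add]
    rcases n with _ | n
    · change ρ.r x ((θ.add θ').v i 0) = _
      rw [h3, bd_sx_zero, map_zero, add_zero, map_add, hL, add_zero, ρ.r_d]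
    · change ρ.r x ((θ.add θ').v i (n + 1)) = _
      rw [h4, out_bd_sx, map_add, map_add, hL, add_zero, ρ.r_d]
  exact LinearMap.congr_fun this z

/-- homologous values on cycles -/
theorem uniq_cycle {I : Type} {X : Cells C I} (θ θ' : Fam C X)
    (haug : ∀ i n, C.aug n (θ.v i n) = C.aug n (θ'.v i n))
    (hL : ∀ (i : I) (n : ℕ) (x : J.S n) (h : I → C.T n), ρ.r x (X.L n h i) = 0) (i : I)
    (z : N F2 J) (hz : N.bd F2 J z = 0) :
    ∃ w, ρ.d w = ρ.out (θ.v i) (θ.dgn i) z - ρ.out (θ'.v i) (θ'.dgn i) z := by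
  obtain ⟨H, hH⟩ := ρ.uniq θ θ' haug hL i
  refine ⟨H z, ?_⟩
  have := hH z
  rw [hz, map_zero, add_zero] at this
  rw [← this, sub_eq_add_neg, neg_eq_of_add_eq_zero_left (add_self _)]

/-- equal values of cocycles on cycles (`ρ.d = 0`) -/
theorem uniq_lam {I : Type} {X : Cells C I} (θ θ' : Fam C X)
    (haug : ∀ i n, C.aug n (θ.v i n) = C.aug n (θ'.v i n))
    (hL : ∀ (i : I) (n : ℕ) (x : J.S n) (h : I → C.T n), ρ.r x (X.L n h i) = 0)
    (hd : ρ.d = 0) (i : I) (z : N F2 J) (hz : N.bd F2 J z = 0) :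
    ρ.out (θ.v i) (θ.dgn i) z = ρ.out (θ'.v i) (θ'.dgn i) z := by
  obtain ⟨w, hw⟩ := ρ.uniq_cycle θ θ' haug hL i z hz
  rw [hd, LinearMap.zero_apply] at hw
  exact (sub_eq_zero.1 hw.symm)

end Real

end Crest.Agent.R204.AM596
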