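import Crest.Agent.R204.AM_596

set_option autoImplicit false

/-!
# Row 204, leaf S3 / P2: instances of `CT` (normalised chains of cosimplicial spaces with cones,
tensor products), cells for `Z/2` and `Z/2 × Z/2`, natural families from natural maps.
-/

namespace Crest.Agent.R204.AM596

open Finsupp EZ271 TensorProduct

theorem sub_eq_add' {M : Type*} [AddCommGroup M] [Module F2 M] (x y : M) : x - y = x + y := by
  rw [sub_eq_add_neg, neg_eq_of_add_eq_zero_left (add_self y)]

theorem IsConeMap_bot {K L : SS} {A : Cone K} {B : Cone L} {f : SS.Hom K L}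
    (h : IsConeMap A B f) : f.app 0 A.bot = B.bot := by
  have h1 : K.act (⟨fun _ => 0, fun _ _ _ => le_rfl⟩ : Op 0 1) (A.k A.bot) = A.bot :=
    A.h_vert _ _ rfl
  rw [← h1, f.nat, h.k]
  exact B.h_vert _ _ rfl

namespace CT

/-- normalised chains of a cosimplicial simplicial set with cones -/
noncomputable def ofSS (F : ℕ → SS) (Fm : ∀ {m n : ℕ}, Op m n → SS.Hom (F m) (F n))
    (Fm_id : ∀ n, Fm (OrderHom.id : Op n n) = SS.Hom.id (F n))
    (Fm_comp : ∀ {l m n : ℕ} (f : Op l m) (g : Op m n), Fm (g.comp f) = (Fm g).comp (Fm f))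
    (A : ∀ n, Cone (F n))
    (hA : ∀ (n : ℕ) (j : Fin (n + 1)), IsConeMap (A (n + 1)) (A n) (Fm (Op.dgn j))) : CT where
  T n := N F2 (F n)
  map f := N.map F2 (Fm f)
  map_id x := by rw [Fm_id, map_idHom]
  map_comp f g x := by rw [Fm_comp, ← EZ271.map_map]
  d n := N.bd F2 (F n)
  d_d n x := N.bd_bd x
  map_d f x := map_bd' F2 _ x
  aug n := EZ271.aug F2
  aug_d n x := aug_bd F2 x
  aug_map f x := EZ271.aug_map F2 _ x
  bot n := N.sx F2 (A n).bot
  d_bot n := bd_sx_zero F2 _
  aug_bot n := aug_sx_zero F2 _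
  map_bot j := by rw [N.map_sx, IsConeMap_bot (hA _ j)]
  c n := (A n).c F2
  d_c n x := by
    rw [Cone.bd_c, sub_eq_add', sub_eq_add']
  aug_c n x := Cone.aug_c _ _ _
  map_c j x := (hA _ j).c F2 x

/-- normalised chains of the standard simplices -/
noncomputable abbrev std : CT :=
  ofSS SS.std (fun f => stdMap f) (fun _ => rfl) (fun _ _ => rfl) Cone.std
    (fun _ j => isConeMap_stdMap _ (dgn_apply_zero j))

/-- augmentation of a tensor product -/
noncomputable def augT {A B : Type*} [AddCommGroup A] [Module F2 A] [AddCommGroup B] [Module F2 B]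
    (f : A →ₗ[F2] F2) (g : B →ₗ[F2] F2) : A ⊗[F2] B →ₗ[F2] F2 :=
  LinearMap.mul' F2 F2 ∘ₗ TensorProduct.map f g

@[simp] theorem augT_tmul {A B : Type*} [AddCommGroup A] [Module F2 A] [AddCommGroup B]
    [Module F2 B] (f : A →ₗ[F2] F2) (g : B →ₗ[F2] F2) (a : A) (b : B) :
    augT f g (a ⊗ₜ b) = f a * g b := by simp [augT]

/-- differential of a tensor product -/
noncomputable def dT {A B : Type*} [AddCommGroup A] [Module F2 A] [AddCommGroup B] [Module F2 B]
    (d : A →ₗ[F2] A) (d' : B →ₗ[F2] B) : A ⊗[F2] B →ₗ[F2] A ⊗[F2] B :=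
  TensorProduct.map d LinearMap.id + TensorProduct.map LinearMap.id d'

@[simp] theorem dT_tmul {A B : Type*} [AddCommGroup A] [Module F2 A] [AddCommGroup B] [Module F2 B]
    (d : A →ₗ[F2] A) (d' : B →ₗ[F2] B) (a : A) (b : B) :
    dT d d' (a ⊗ₜ b) = d a ⊗ₜ b + a ⊗ₜ d' b := by simp [dT]

/-- two linear maps out of a tensor product agree -/
theorem tens_ext {A B M : Type*} [AddCommGroup A] [Module F2 A] [AddCommGroup B] [Module F2 B]
    [AddCommGroup M] [Module F2 M] {f g : A ⊗[F2] B →ₗ[F2] M}
    (h : ∀ a b, f (a ⊗ₜ b) = g (a ⊗ₜ b)) (x : A ⊗[F2] B) : f x = g x :=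
  LinearMap.congr_fun (TensorProduct.ext' h) x

theorem dT_dT {A B : Type*} [AddCommGroup A] [Module F2 A] [AddCommGroup B] [Module F2 B]
    {d : A →ₗ[F2] A} {d' : B →ₗ[F2] B} (hd : ∀ x, d (d x) = 0) (hd' : ∀ x, d' (d' x) = 0)
    (x : A ⊗[F2] B) : dT d d' (dT d d' x) = 0 := by
  have := tens_ext (f := dT d d' ∘ₗ dT d d') (g := 0) (fun a b => by
    rw [LinearMap.comp_apply, dT_tmul, map_add, dT_tmul, dT_tmul, hd, hd', zero_tmul, tmul_zero,
      zero_add, add_zero, add_self, LinearMap.zero_apply]) x
  exact this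

/-- tensor product of cosimplicial contractible modules -/
noncomputable def tensor (C D : CT) : CT where
  T n := C.T n ⊗[F2] D.T n
  map f := TensorProduct.map (C.map f) (D.map f)
  map_id {n} x := by
    have := tens_ext (f := TensorProduct.map (C.map (OrderHom.id : Op n n)) (D.map OrderHom.id))
      (g := LinearMap.id) (fun a b => by
        rw [TensorProduct.map_tmul, C.map_id, D.map_id, LinearMap.id_apply]) x
    exact this
  map_comp f g x := by
    have := tens_ext (f := TensorProduct.map (C.map (g.comp f)) (D.map (g.comp f)))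
      (g := TensorProduct.map (C.map g) (D.map g) ∘ₗ TensorProduct.map (C.map f) (D.map f))
      (fun a b => by
        rw [TensorProduct.map_tmul, C.map_comp, D.map_comp, LinearMap.comp_apply,
          TensorProduct.map_tmul, TensorProduct.map_tmul]) x
    exact this
  d n := dT (C.d n) (D.d n)
  d_d n x := dT_dT (C.d_d n) (D.d_d n) x
  map_d {m n} f x := by
    have := tens_ext (f := TensorProduct.map (C.map f) (D.map f) ∘ₗ dT (C.d m) (D.d m))
      (g := dT (C.d n) (D.d n) ∘ₗ TensorProduct.map (C.map f) (D.map f)) (fun a b => by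
        simp only [LinearMap.comp_apply, dT_tmul, map_add, TensorProduct.map_tmul, C.map_d,
          D.map_d]) x
    exact this
  aug n := augT (C.aug n) (D.aug n)
  aug_d n x := by
    have := tens_ext (f := augT (C.aug n) (D.aug n) ∘ₗ dT (C.d n) (D.d n)) (g := 0) (fun a b => by
        simp only [LinearMap.comp_apply, dT_tmul, map_add, augT_tmul, C.aug_d, D.aug_d, zero_mul,
          mul_zero, add_zero, LinearMap.zero_apply]) x
    exact this
  aug_map {m n} f x := by
    have := tens_ext (f := augT (C.aug n) (D.aug n) ∘ₗ TensorProduct.map (C.map f) (D.map f))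
      (g := augT (C.aug m) (D.aug m)) (fun a b => by
        simp only [LinearMap.comp_apply, TensorProduct.map_tmul, augT_tmul, C.aug_map,
          D.aug_map]) x
    exact this
  bot n := C.bot n ⊗ₜ D.bot n
  d_bot n := by rw [dT_tmul, C.d_bot, D.d_bot, zero_tmul, tmul_zero, add_zero]
  aug_bot n := by rw [augT_tmul, C.aug_bot, D.aug_bot, one_mul]
  map_bot j := by rw [TensorProduct.map_tmul, C.map_bot, D.map_bot]
  c n := TensorProduct.map (C.c n) LinearMap.id +
    TensorProduct.map (LinearMap.toSpanSingleton F2 _ (C.bot n) ∘ₗ C.aug n) (D.c n)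
  d_c n x := by
    have := tens_ext (f := dT (C.d n) (D.d n) ∘ₗ (TensorProduct.map (C.c n) LinearMap.id +
        TensorProduct.map (LinearMap.toSpanSingleton F2 _ (C.bot n) ∘ₗ C.aug n) (D.c n)))
      (g := LinearMap.id + (TensorProduct.map (C.c n) LinearMap.id +
        TensorProduct.map (LinearMap.toSpanSingleton F2 _ (C.bot n) ∘ₗ C.aug n) (D.c n)) ∘ₗ
          dT (C.d n) (D.d n) +
        LinearMap.toSpanSingleton F2 _ (C.bot n ⊗ₜ D.bot n) ∘ₗ augT (C.aug n) (D.aug n))
      (fun a b => by
        simp only [LinearMap.comp_apply, LinearMap.add_apply, dT_tmul, TensorProduct.map_tmul,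
          map_add, LinearMap.id_apply, LinearMap.toSpanSingleton_apply, augT_tmul, C.d_c, D.d_c,
          map_smul, C.d_bot, smul_zero, zero_tmul, C.aug_d, zero_smul, add_zero, zero_add,
          add_tmul, tmul_add, smul_tmul, tmul_smul]
        rw [smul_add, smul_add, smul_smul]
        char2) x
    exact this
  aug_c n x := by
    have := tens_ext (f := augT (C.aug n) (D.aug n) ∘ₗ (TensorProduct.map (C.c n) LinearMap.id +
        TensorProduct.map (LinearMap.toSpanSingleton F2 _ (C.bot n) ∘ₗ C.aug n) (D.c n)))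
      (g := 0) (fun a b => by
        simp only [LinearMap.comp_apply, LinearMap.add_apply, TensorProduct.map_tmul,
          map_add, augT_tmul, C.aug_c, D.aug_c, zero_mul, mul_zero, add_zero,
          LinearMap.zero_apply]) x
    exact this
  map_c {n} j x := by
    have := tens_ext
      (f := TensorProduct.map (C.map (Op.dgn j)) (D.map (Op.dgn j)) ∘ₗ
        (TensorProduct.map (C.c (n + 1)) LinearMap.id +
        TensorProduct.map (LinearMap.toSpanSingleton F2 _ (C.bot (n + 1)) ∘ₗ C.aug (n + 1))
          (D.c (n + 1))))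
      (g := (TensorProduct.map (C.c n) LinearMap.id +
        TensorProduct.map (LinearMap.toSpanSingleton F2 _ (C.bot n) ∘ₗ C.aug n) (D.c n)) ∘ₗ
        TensorProduct.map (C.map (Op.dgn j)) (D.map (Op.dgn j))) (fun a b => by
        simp only [LinearMap.comp_apply, LinearMap.add_apply, TensorProduct.map_tmul,
          map_add, LinearMap.id_apply, LinearMap.toSpanSingleton_apply, map_smul, C.map_c, D.map_c,
          C.map_bot, C.aug_map]) x
    exact this

end CT

/-! ## families from natural maps -/

/-- natural maps from the normalised chains of the standard simplices -/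
structure NFam (C : CT) {I : Type} (X : Cells C I) where
  Θ : I → ∀ n, N F2 (SS.std n) →ₗ[F2] C.T n
  nat : ∀ (i : I) {m n : ℕ} (f : Op m n) (z : N F2 (SS.std m)),
    C.map f (Θ i m z) = Θ i n (N.map F2 (stdMap f) z)
  eq : ∀ (i : I) (n : ℕ) (z : N F2 (SS.std n)),
    C.d n (Θ i n z) = Θ i n (N.bd F2 _ z) + X.L n (fun j => Θ j n z) i

/-- the family of the values at the universal simplices -/
noncomputable def NFam.fam {C : CT} {I : Type} {X : Cells C I} (θ : NFam C X) : Fam C X where
  v i n := θ.Θ i n (N.sx F2 (K := SS.std n) (OrderHom.id : Op n n))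
  dgn i n j := by
    rw [θ.nat, N.map_sx]
    have : (stdMap (Op.dgn j)).app (n + 1) (OrderHom.id : Op (n + 1) (n + 1)) =
      (SS.std n).act (Op.dgn j) (OrderHom.id : Op n n) := rfl
    rw [this, N.sx_dgn, map_zero]
  d_zero i := by
    rw [θ.eq, bd_sx_zero, map_zero, zero_add]
  d_succ i n := by
    rw [θ.eq]
    congr 1
    rw [bd_sx_succ, map_sum, CT.fc]
    refine Finset.sum_congr rfl fun k _ => ?_
    rw [neg_one_pow_F2, one_smul, θ.nat, N.map_sx]
    rfl

/-! ## cells for `Z/2` and `Z/2 × Z/2` -/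

/-- an involution of `C` -/
structure Inv (C : CT) where
  t : ∀ n, C.T n →ₗ[F2] C.T n
  t_t : ∀ n x, t n (t n x) = x
  map_t : ∀ {m n : ℕ} (f : Op m n) (x : C.T m), C.map f (t m x) = t n (C.map f x)
  d_t : ∀ n x, C.d n (t n x) = t n (C.d n x)
  aug_t : ∀ n x, C.aug n (t n x) = C.aug n x

/-- the cells `e_i`, `i ≥ 0` of `Z/2` -/
def cellsZ2 {C : CT} (τ : Inv C) : Cells C ℕ where
  rk i := i
  L n :=
    { toFun := fun h i => match i with
        | 0 => 0
        | i + 1 => h i + τ.t n (h i)
      map_add' := fun h h' => by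
        funext i
        rcases i with _ | i
        · simp
        · simp only [Pi.add_apply, map_add]; abel
      map_smul' := fun r h => by
        funext i
        rcases i with _ | i
        · simp
        · simp only [Pi.smul_apply, map_smul, RingHom.id_apply, smul_add] }
  loc n h h' i hh := by
    rcases i with _ | i
    · rfl
    · simp only [LinearMap.coe_mk, AddHom.coe_mk]
      rw [hh i (Nat.lt_succ_self i)]
  L_L n h := by
    funext i
    rcases i with _ | _ | i
    · rfl
    · simp
    · simp only [LinearMap.coe_mk, AddHom.coe_mk, map_add, τ.t_t, Pi.zero_apply]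
      rw [add_comm (τ.t n (h i)) (h i), add_self]
  L_map f h i := by
    rcases i with _ | i
    · simp
    · simp only [LinearMap.coe_mk, AddHom.coe_mk, map_add, τ.map_t]
  L_d n h i := by
    rcases i with _ | i
    · simp
    · simp only [LinearMap.coe_mk, AddHom.coe_mk, map_add, τ.d_t]
  L_aug n h hh i := by
    rcases i with _ | i
    · simp
    · simp only [LinearMap.coe_mk, AddHom.coe_mk, map_add, τ.aug_t, hh, add_zero]

@[simp] theorem cellsZ2_L_zero {C : CT} (τ : Inv C) (n : ℕ) (h : ℕ → C.T n) :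
    (cellsZ2 τ).L n h 0 = 0 := rfl

@[simp] theorem cellsZ2_L_succ {C : CT} (τ : Inv C) (n : ℕ) (h : ℕ → C.T n) (i : ℕ) :
    (cellsZ2 τ).L n h (i + 1) = h i + τ.t n (h i) := rfl

/-- lower part in one direction -/
def low {M : Type*} [AddCommGroup M] [Module F2 M] (t : M →ₗ[F2] M) (h : ℕ → M) : ℕ → M
  | 0 => 0
  | i + 1 => h i + t (h i)

/-- the cells `e_i ⊗ e_j` of `Z/2 × Z/2` -/
def cellsV {C : CT} (τ τ' : Inv C) (hc : ∀ n x, τ.t n (τ'.t n x) = τ'.t n (τ.t n x)) :
    Cells C (ℕ × ℕ) where
  rk p := p.1 + p.2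
  L n :=
    { toFun := fun h p => low (τ.t n) (fun i => h (i, p.2)) p.1 +
        low (τ'.t n) (fun j => h (p.1, j)) p.2
      map_add' := fun h h' => by
        funext ⟨i, j⟩
        rcases i with _ | i <;> rcases j with _ | j <;>
          simp only [low, Pi.add_apply, map_add, add_zero, zero_add] <;> try abel
      map_smul' := fun r h => by
        funext ⟨i, j⟩
        rcases i with _ | i <;> rcases j with _ | j <;>
          simp only [low, Pi.smul_apply, map_smul, RingHom.id_apply, smul_add, smul_zero] }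
  loc n h h' p hh := by
    obtain ⟨i, j⟩ := p
    simp only [LinearMap.coe_mk, AddHom.coe_mk]
    congr 1
    · rcases i with _ | i
      · rfl
      · simp only [low]; rw [hh (i, j) (by show i + j < i + 1 + j; omega)]
    · rcases j with _ | j
      · rfl
      · simp only [low]; rw [hh (i, j) (by simp)]
  L_L n h := by
    funext ⟨i, j⟩
    simp only [LinearMap.coe_mk, AddHom.coe_mk, Pi.zero_apply]
    rcases i with _ | _ | i <;> rcases j with _ | _ | j <;>
      simp only [low, map_add, τ.t_t, τ'.t_t, hc, map_zero, add_zero, zero_add] <;> char2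
  L_map f h p := by
    obtain ⟨i, j⟩ := p
    rcases i with _ | i <;> rcases j with _ | j <;>
      simp only [LinearMap.coe_mk, AddHom.coe_mk, low, map_add, map_zero, τ.map_t, τ'.map_t]
  L_d n h p := by
    obtain ⟨i, j⟩ := p
    rcases i with _ | i <;> rcases j with _ | j <;>
      simp only [LinearMap.coe_mk, AddHom.coe_mk, low, map_add, map_zero, τ.d_t, τ'.d_t]
  L_aug n h hh p := by
    obtain ⟨i, j⟩ := p
    rcases i with _ | i <;> rcases j with _ | j <;>
      simp only [LinearMap.coe_mk, AddHom.coe_mk, low, map_add, map_zero, τ.aug_t, τ'.aug_t, hh,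
        add_zero]

end Crest.Agent.R204.AM596
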