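import Crest.Agent.R204.Sigma_330

/-!
# Row 204, block E (helper330): adjoints of spherical simplices on chains,
H-level loop suspension
-/

set_option autoImplicit false

noncomputable section

namespace Crest.Agent.R204.Sus330

open Cone330
open EZ271 (cross cross_sx map_cross map_map map_bd' map_idHom aug bd_sx_succ bd_sx_zero hom_ext
  aug_map aug_cross bd_cross sg_sx yo_iota comp_yo)
open scoped unitInterval

variable (R : Type) [CommRing R]
variable {P Y : Type} [TopologicalSpace P] [TopologicalSpace Y] {g0 : P} {y0 : Y}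

theorem mem_gr_congr {K : SS} {m n : ℕ} (h : m = n) {c : N R K} (hc : c ∈ N.gr R K m) :
    c ∈ N.gr R K n := h ▸ hc

theorem neg_eq_self_F2 {M : Type*} [AddCommGroup M] [Module F2 M] (x : M) : -x = x := by
  have h : ((2 : ℕ) : F2) • x = 0 := by
    rw [show ((2 : ℕ) : F2) = 0 from rfl, zero_smul]
  rw [Nat.cast_smul_eq_nsmul, two_nsmul] at h
  exact (eq_neg_of_add_eq_zero_left h).symm

/-- the simplicial map of a homotopy `I × Δ^N → P` -/
def gH {N' : ℕ} (G : C(I × Dl N', P)) : SS.Hom ((SS.std 1).prod (SS.std N')) (SS.Sing P) where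
  app q x := G.comp ((lam1.comp ⟨stdSimplex.map (so x.1), stdSimplex.continuous_map (so x.1)⟩).prodMk
    ⟨stdSimplex.map (so x.2), stdSimplex.continuous_map (so x.2)⟩)
  nat f x := by
    refine ContinuousMap.ext fun u => ?_
    show G (lam1 (stdSimplex.map ((so x.1).comp f) u), stdSimplex.map ((so x.2).comp f) u) =
      G (lam1 (stdSimplex.map (so x.1) (stdSimplex.map f u)), stdSimplex.map (so x.2)
        (stdSimplex.map f u))
    rw [stdSimplex.map_comp_apply, stdSimplex.map_comp_apply]
    rfl

theorem gH_apply {N' : ℕ} (G : C(I × Dl N', P)) {q : ℕ} (θ : Op q 1) (φ : Op q N') (u : Dl q) :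
    sg ((gH G).app q (θ, φ)) u = G (lam1 (stdSimplex.map θ u), stdSimplex.map φ u) := rfl

/-- a homotopy rel boundary between spherical simplices gives a chain -/
theorem exists_chain_homotopy {N' : ℕ} (a a' : (SS.Sing P).S N') (G : C(I × Dl N', P))
    (h0 : ∀ u, G (0, u) = sg a u) (h1 : ∀ u, G (1, u) = sg a' u)
    (hb : ∀ r u, u ∈ Bdy N' → G (r, u) = g0) :
    ∃ w ∈ N.gr R (SS.Sing P) (N' + 1), N.bd R _ w = N.sx R a' - N.sx R a := by
  refine ⟨N.map R (gH G) (cross R (N.sx R io) (N.sx R (K := SS.std N')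
    (OrderHom.id : Op N' N'))), ?_, ?_⟩
  · exact mem_gr_congr R (add_comm 1 N') (map_mem_gr R _ (cross_mem_gr R (mem_gr_sx R _)
      (mem_gr_sx R _)))
  have hv1 : N.map R (gH G) (cross R (N.sx R (ve 1)) (N.sx R (K := SS.std N')
      (OrderHom.id : Op N' N'))) = N.sx R a' := by
    rw [cross_vertex, map_map, N.map_sx]
    congr 1
    refine ContinuousMap.ext fun u => ?_
    show G (lam1 (stdSimplex.map (so (base (SS.std 1) (ve 1) N')) u),
      stdSimplex.map (OrderHom.id : Op N' N') u) = _
    have e1 : lam1 (stdSimplex.map (so (base (SS.std 1) (ve 1) N')) u) = 1 := by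
      refine Subtype.ext ?_
      rw [LoopStr.map_one_val]
      have : ∀ a, so (base (SS.std 1) (ve 1) N') a = 1 := fun _ => rfl
      simp only [this, if_true]
      exact stdSimplex.sum_eq_one u
    rw [e1]
    have e2 : stdSimplex.map (OrderHom.id : Op N' N') u = u := stdSimplex.map_id_apply u
    rw [e2, h1]
  have hv0 : N.map R (gH G) (cross R (N.sx R (ve 0)) (N.sx R (K := SS.std N')
      (OrderHom.id : Op N' N'))) = N.sx R a := by
    rw [cross_vertex, map_map, N.map_sx]
    congr 1
    refine ContinuousMap.ext fun u => ?_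
    show G (lam1 (stdSimplex.map (so (base (SS.std 1) (ve 0) N')) u),
      stdSimplex.map (OrderHom.id : Op N' N') u) = _
    have e1 : lam1 (stdSimplex.map (so (base (SS.std 1) (ve 0) N')) u) = 0 := by
      refine Subtype.ext ?_
      rw [LoopStr.map_one_val]
      have : ∀ a, so (base (SS.std 1) (ve 0) N') a ≠ 1 := fun a h => by
        have h2 : so (base (SS.std 1) (ve 0) N') a = 0 := rfl
        rw [h2] at h
        exact absurd h (by decide)
      simp only [this, if_false]
      simp
    rw [e1]
    have e2 : stdSimplex.map (OrderHom.id : Op N' N') u = u := stdSimplex.map_id_apply u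
    rw [e2, h0]
  have hbd : N.map R (gH G) (cross R (EZ271.sg R (N.sx R io)) (N.bd R _ (N.sx R (K := SS.std N')
      (OrderHom.id : Op N' N')))) = 0 := by
    rcases N' with _ | N'
    · rw [bd_sx_zero, map_zero, map_zero]
    · rw [bd_sx_succ, map_sum, map_sum]
      refine Finset.sum_eq_zero fun i _ => ?_
      rw [map_smul, map_smul, sg_sx, map_smul, LinearMap.smul_apply, map_smul]
      have : N.map R (gH G) (cross R (N.sx R io) (N.sx R ((SS.std (N' + 1)).act (Op.face i)
          (OrderHom.id : Op (N' + 1) (N' + 1))))) = 0 := by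
        rw [cross_sx, map_map, map_constHom R _ (LoopStr.cY g0 0)]
        · rw [← EZ271.cross_iota, aug_cross,
            show aug R (N.sx R (K := SS.std 1) (n := 1) (OrderHom.id : Op 1 1)) = 0 from
              EZ271.aug_sx_succ R _, zero_mul, zero_smul]
        · intro n x
          refine ContinuousMap.ext fun u => ?_
          refine hb _ _ (map_mem_Bdy _ ?_ u)
          intro hs
          obtain ⟨b, hb'⟩ := hs i
          have h3 := congrArg Fin.val hb'
          change ((Op.face i (so x.2 b) : Fin (N' + 2)) : ℕ) = i at h3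
          rw [Ch.face_val] at h3
          split_ifs at h3 <;> omega
      rw [this, smul_zero, smul_zero]
  rw [← map_bd', bd_cross, map_add, bd_io, map_sub, LinearMap.sub_apply, map_sub, hv1, hv0]
  rw [hbd, add_zero]

namespace LoopStr

variable (Λ : LoopStr P Y g0 y0)

/-- E0 on chains: the adjoint `x` of a spherical simplex `a`, with `σ(a') = x` exactly for a
spherical simplex `a'` homologous to `a` -/
theorem exists_adj_chain {q : ℕ} (a : (SS.Sing P).S q) (ha : IsSph (K := SS.Sing P) (cY g0 0) a) :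
    ∃ (x : (SS.Sing Y).S (q + 1)) (a' : (SS.Sing P).S q),
      IsSph (K := SS.Sing Y) (cY y0 0) x ∧ IsSph (K := SS.Sing P) (cY g0 0) a' ∧
      (∀ (R : Type) [CommRing R], Λ.sig R (N.sx R a') = N.sx R x) ∧
      (∀ (R : Type) [CommRing R], ∃ w ∈ N.gr R (SS.Sing P) (q + 1),
        N.bd R _ w = N.sx R a' - N.sx R a) := by
  obtain ⟨x, a', G, hx, ha', hev, h0, h1, hb⟩ := Λ.exists_adjoint' a ha
  exact ⟨x, a', hx, ha', fun R _ => Λ.sig_adj R a' x hev,
    fun R _ => exists_chain_homotopy R a a' G h0 h1 hb⟩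

/-! ## homology -/

/-- loop suspension on mod 2 homology -/
def sigma : H F2 (SS.Sing P) →ₗ[F2] H F2 (SS.Sing Y) :=
  Hd.map (Λ.sig F2) (by
    refine LinearMap.ext fun c => ?_
    rw [LinearMap.comp_apply, LinearMap.comp_apply, bd_sig, neg_eq_self_F2])

theorem sigma_mk (z : N F2 (SS.Sing P)) (hz : N.bd F2 _ z = 0) :
    Λ.sigma (Hd.mk _ z hz) = Hd.mk _ (Λ.sig F2 z) (by rw [bd_sig, hz, map_zero, neg_zero]) := rfl

end LoopStr

end Crest.Agent.R204.Sus330
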