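import Crest.Agent.R204.Sus_330

/-!
# Row 204, block E (helper330): adjoints of spherical simplices (E0), topological half
-/

set_option autoImplicit false

noncomputable section

namespace Crest.Agent.R204.Sus330

open Crest.Agent.R204 Crest.Agent.R204.Cone330
open scoped unitInterval

/-! ## tail sums -/

/-- tail sums -/
def tl {n : ℕ} (u : Dl n) (i : ℕ) : ℝ := ∑ a : Fin (n + 1), if i ≤ (a : ℕ) then u a else 0

theorem tl_zero {n : ℕ} (u : Dl n) : tl u 0 = 1 := by
  simp only [tl, Nat.zero_le, if_true]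
  exact stdSimplex.sum_eq_one u

theorem tl_big {n : ℕ} (u : Dl n) {i : ℕ} (h : n < i) : tl u i = 0 :=
  Finset.sum_eq_zero fun a _ => by
    have := a.isLt
    rw [if_neg (by omega)]

theorem tl_succ_le {n : ℕ} (u : Dl n) (i : ℕ) : tl u (i + 1) ≤ tl u i := by
  refine Finset.sum_le_sum fun a _ => ?_
  have h0 := stdSimplex.zero_le u a
  split_ifs <;> first | exact le_rfl | exact h0 | omega

theorem tl_nonneg {n : ℕ} (u : Dl n) (i : ℕ) : 0 ≤ tl u i := by
  refine Finset.sum_nonneg fun a _ => ?_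
  have h0 := stdSimplex.zero_le u a
  split_ifs <;> first | exact le_rfl | exact h0

theorem tl_sub {n : ℕ} (u : Dl n) (i : Fin (n + 1)) : tl u i - tl u (i + 1) = u i := by
  rw [tl, tl, ← Finset.sum_sub_distrib, Finset.sum_eq_single i]
  · simp
  · intro a _ ha
    have : (a : ℕ) ≠ i := fun h => ha (Fin.ext h)
    by_cases h1 : (i : ℕ) ≤ a
    · rw [if_pos h1, if_pos (by omega), sub_self]
    · rw [if_neg h1, if_neg (by omega), sub_self]
  · simp

theorem continuous_coord {n : ℕ} (i : Fin (n + 1)) : Continuous fun u : Dl n => u i :=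
  (continuous_apply i).comp continuous_subtype_val

theorem continuous_tl {n : ℕ} (i : ℕ) : Continuous fun u : Dl n => tl u i := by
  refine continuous_finsetSum _ fun a _ => ?_
  split_ifs
  · exact continuous_coord a
  · exact continuous_const

theorem tl_map {m n : ℕ} (f : Fin (m + 1) → Fin (n + 1)) (u : Dl m) (i : ℕ) :
    tl (stdSimplex.map f u) i = ∑ a, if i ≤ (f a : ℕ) then u a else 0 := by
  unfold tl
  have : ∀ b : Fin (n + 1), (if i ≤ (b : ℕ) then stdSimplex.map f u b else 0) =
      ∑ a, if f a = b then (if i ≤ (b : ℕ) then u a else 0) else 0 := by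
    intro b
    rw [map_app]
    split_ifs
    · rfl
    · simp
  simp only [this]
  rw [Finset.sum_comm]
  refine Finset.sum_congr rfl fun a _ => ?_
  rw [Finset.sum_ite_eq]
  simp

/-- a point of the simplex from its tail sums -/
def ofTail (n : ℕ) (c : ℕ → ℝ) (h0 : c 0 = 1) (hn : c (n + 1) = 0) (ha : ∀ i, c (i + 1) ≤ c i) :
    Dl n :=
  ⟨fun i => c i - c (i + 1), fun i => sub_nonneg.2 (ha i), by
    rw [Fin.sum_univ_eq_sum_range (fun i => c i - c (i + 1)), Finset.sum_range_sub', h0, hn,
      sub_zero]⟩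

theorem ofTail_app (n : ℕ) (c : ℕ → ℝ) (h0 hn ha) (i : Fin (n + 1)) :
    ofTail n c h0 hn ha i = c i - c (i + 1) := rfl

/-! ## the two collapse maps `I × Δ^N → Δ^{N+1}` -/

/-- tails of the piecewise linear collapse -/
def cP {N : ℕ} (s : ℝ) (u : Dl N) : ℕ → ℝ
  | 0 => 1
  | i + 1 => min s (tl u i)

/-- the piecewise linear collapse, realisation of the poset map `[1] × [N] → [N+1]` -/
def qP {N : ℕ} (p : I × Dl N) : Dl (N + 1) :=
  ofTail (N + 1) (cP (p.1 : ℝ) p.2) rfl
    (by show min _ _ = (0 : ℝ); rw [tl_big _ (Nat.lt_succ_self N)]; exact min_eq_right p.1.2.1)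
    (fun i => by
      rcases i with _ | i
      · exact (min_le_right _ _).trans (tl_zero _).le
      · exact min_le_min le_rfl (tl_succ_le _ _))

theorem qP_zero {N : ℕ} (p : I × Dl N) : qP p 0 = 1 - p.1 := by
  show (1 : ℝ) - min (p.1 : ℝ) (tl p.2 0) = _
  rw [tl_zero, min_eq_left p.1.2.2]

theorem qP_succ {N : ℕ} (p : I × Dl N) (i : Fin (N + 1)) :
    qP p i.succ = min (p.1 : ℝ) (tl p.2 i) - min (p.1 : ℝ) (tl p.2 (i + 1)) := by
  show cP _ _ ((i.succ : Fin (N + 2)) : ℕ) - cP _ _ (((i.succ : Fin (N + 2)) : ℕ) + 1) = _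
  rw [Fin.val_succ]
  rfl

theorem continuous_qP {N : ℕ} : Continuous (qP : I × Dl N → Dl (N + 1)) := by
  refine Continuous.subtype_mk (continuous_pi fun i => ?_) _
  have hs : Continuous fun p : I × Dl N => (p.1 : ℝ) := by fun_prop
  have ht : ∀ j, Continuous fun p : I × Dl N => tl p.2 j := fun j =>
    (continuous_tl j).comp continuous_snd
  have hc : ∀ j, Continuous fun p : I × Dl N => cP (p.1 : ℝ) p.2 j := by
    intro j
    rcases j with _ | j
    · exact continuous_const
    · exact hs.min (ht j)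
  exact (hc _).sub (hc _)

/-- the bilinear collapse -/
def qB {N : ℕ} (p : I × Dl N) : Dl (N + 1) :=
  ⟨Fin.cons (1 - (p.1 : ℝ)) (fun i : Fin (N + 1) => (p.1 : ℝ) * p.2 i), by
    intro i
    induction i using Fin.cases with
    | zero => exact sub_nonneg.2 p.1.2.2
    | succ i => exact mul_nonneg p.1.2.1 (stdSimplex.zero_le _ _), by
    rw [Fin.sum_univ_succ]
    simp only [Fin.cons_zero, Fin.cons_succ]
    rw [← Finset.mul_sum, stdSimplex.sum_eq_one]
    ring⟩

theorem qB_zero {N : ℕ} (p : I × Dl N) : qB p 0 = 1 - p.1 := rfl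
theorem qB_succ {N : ℕ} (p : I × Dl N) (i : Fin (N + 1)) : qB p i.succ = p.1 * p.2 i := rfl

theorem continuous_qB {N : ℕ} : Continuous (qB : I × Dl N → Dl (N + 1)) := by
  refine Continuous.subtype_mk (continuous_pi fun i => ?_) _
  have hs : Continuous fun p : I × Dl N => (p.1 : ℝ) := by fun_prop
  induction i using Fin.cases with
  | zero => exact continuous_const.sub hs
  | succ i => exact hs.mul ((continuous_coord i).comp continuous_snd)

/-- convex combination -/
def mix {n : ℕ} (r : I) (v w : Dl n) : Dl n :=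
  ⟨fun i => (1 - (r : ℝ)) * v i + r * w i, fun i =>
    add_nonneg (mul_nonneg (sub_nonneg.2 r.2.2) (stdSimplex.zero_le _ _))
      (mul_nonneg r.2.1 (stdSimplex.zero_le _ _)), by
    rw [Finset.sum_add_distrib, ← Finset.mul_sum, ← Finset.mul_sum, stdSimplex.sum_eq_one,
      stdSimplex.sum_eq_one]
    ring⟩

theorem mix_app {n : ℕ} (r : I) (v w : Dl n) (i : Fin (n + 1)) :
    mix r v w i = (1 - (r : ℝ)) * v i + r * w i := rfl

theorem continuous_mix {n : ℕ} : Continuous fun p : I × (Dl n × Dl n) => mix p.1 p.2.1 p.2.2 := by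
  refine Continuous.subtype_mk (continuous_pi fun i => ?_) _
  have hs : Continuous fun p : I × (Dl n × Dl n) => (p.1 : ℝ) := by fun_prop
  have h1 : Continuous fun p : I × (Dl n × Dl n) => p.2.1 i := (continuous_coord i).comp (by fun_prop)
  have h2 : Continuous fun p : I × (Dl n × Dl n) => p.2.2 i := (continuous_coord i).comp (by fun_prop)
  exact ((continuous_const.sub hs).mul h1).add (hs.mul h2)

theorem mix_self {n : ℕ} (r : I) (v : Dl n) : mix r v v = v :=
  stdSimplex.ext (funext fun i => by rw [mix_app]; ring)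

theorem mix_zero {n : ℕ} (v w : Dl n) : mix 0 v w = v :=
  stdSimplex.ext (funext fun i => by rw [mix_app]; simp)

theorem mix_one {n : ℕ} (v w : Dl n) : mix 1 v w = w :=
  stdSimplex.ext (funext fun i => by rw [mix_app]; simp)

/-- the vertex `0` -/
theorem qB_left {N : ℕ} (u : Dl N) : qB (0, u) = qP (0, u) := by
  refine stdSimplex.ext (funext fun i => ?_)
  induction i using Fin.cases with
  | zero => rw [qB_zero, qP_zero]
  | succ i =>
    rw [qB_succ, qP_succ]
    show (0 : ℝ) * _ = min 0 _ - min 0 _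
    rw [min_eq_left (tl_nonneg _ _), min_eq_left (tl_nonneg _ _)]
    ring

theorem qB_right {N : ℕ} (u : Dl N) : qB (1, u) = qP (1, u) := by
  refine stdSimplex.ext (funext fun i => ?_)
  have h1 : ∀ j, tl u j ≤ 1 := by
    intro j
    induction j with
    | zero => exact (tl_zero u).le
    | succ j ih => exact (tl_succ_le u j).trans ih
  induction i using Fin.cases with
  | zero => rw [qB_zero, qP_zero]
  | succ i =>
    rw [qB_succ, qP_succ]
    show (1 : ℝ) * _ = min 1 _ - min 1 _
    rw [min_eq_right (h1 _), min_eq_right (h1 _), tl_sub]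
    ring

/-- boundary points: `s = 0` -/
theorem qB_zero_mem {N : ℕ} (u : Dl N) : qB (0, u) ∈ Bdy (N + 1) :=
  ⟨(0 : Fin (N + 1)).succ, by rw [qB_succ]; show (0 : ℝ) * _ = 0; ring⟩

theorem qB_one_mem {N : ℕ} (u : Dl N) : qB (1, u) ∈ Bdy (N + 1) :=
  ⟨0, by rw [qB_zero]; show (1 : ℝ) - 1 = 0; ring⟩

theorem mix_mem {N : ℕ} (r : I) (s : I) {u : Dl N} (hu : u ∈ Bdy N) :
    mix r (qB (s, u)) (qP (s, u)) ∈ Bdy (N + 1) := by
  obtain ⟨i, hi⟩ := hu
  refine ⟨i.succ, ?_⟩
  rw [mix_app, qB_succ, qP_succ]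
  have h := tl_sub u i
  rw [hi] at h
  have h' : tl u i = tl u (i + 1) := by linarith
  show _ * ((s : ℝ) * u i) + _ * (min (s : ℝ) (tl u i) - min (s : ℝ) (tl u (i + 1))) = 0
  rw [hi, h']
  ring

/-! ## the adjoint simplex -/

theorem qB_surjective {N : ℕ} : Function.Surjective (qB : I × Dl N → Dl (N + 1)) := by
  intro v
  have hs := stdSimplex.sum_eq_one v
  rw [Fin.sum_univ_succ] at hs
  by_cases h : v 0 = 1
  · have hz : ∀ i : Fin (N + 1), v i.succ = 0 := by
      have h1 : ∑ i : Fin (N + 1), v i.succ = 0 := by rw [h] at hs; linarith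
      intro i
      exact (Finset.sum_eq_zero_iff_of_nonneg (fun i _ => stdSimplex.zero_le v _)).1 h1 i
        (Finset.mem_univ _)
    refine ⟨(0, Classical.arbitrary _), stdSimplex.ext (funext fun i => ?_)⟩
    induction i using Fin.cases with
    | zero => rw [qB_zero, h]; show (1 : ℝ) - 0 = 1; ring
    | succ i => rw [qB_succ, hz]; show (0 : ℝ) * _ = 0; ring
  · have h0 := stdSimplex.zero_le v 0
    have h1 := stdSimplex.le_one v 0
    have hpos : 0 < 1 - v 0 := by
      have : v 0 < 1 := lt_of_le_of_ne h1 h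
      linarith
    refine ⟨(⟨1 - v 0, hpos.le, by linarith⟩, ⟨fun i => v i.succ / (1 - v 0), fun i =>
      div_nonneg (stdSimplex.zero_le _ _) hpos.le, ?_⟩), stdSimplex.ext (funext fun i => ?_)⟩
    · rw [← Finset.sum_div, div_eq_one_iff_eq hpos.ne']
      linarith
    · induction i using Fin.cases with
      | zero => rw [qB_zero]; show (1 : ℝ) - (1 - v 0) = v 0; ring
      | succ i =>
        rw [qB_succ]
        show (1 - v 0) * (v i.succ / (1 - v 0)) = v i.succ
        field_simp

theorem isQuotientMap_qB {N : ℕ} : Topology.IsQuotientMap (qB : I × Dl N → Dl (N + 1)) :=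
  continuous_qB.isClosedMap.isQuotientMap continuous_qB qB_surjective

variable {P Y : Type} [TopologicalSpace P] [TopologicalSpace Y] {g0 : P} {y0 : Y}

namespace LoopStr

variable (Λ : LoopStr P Y g0 y0)

/-- `x` is the adjoint of `a` (bilinear collapse) -/
theorem exists_adjoint {N : ℕ} (a : (SS.Sing P).S N)
    (ha : IsSph (K := SS.Sing P) (cY g0 0) a) :
    ∃ x : (SS.Sing Y).S (N + 1), IsSph (K := SS.Sing Y) (cY y0 0) x ∧
      ∀ (s : I) (u : Dl N), sg x (qB (s, u)) = Λ.ev (s, sg a u) := by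
  rw [isSph_iff] at ha
  have hf : ∀ p p' : I × Dl N, qB p = qB p' → Λ.ev (p.1, sg a p.2) = Λ.ev (p'.1, sg a p'.2) := by
    rintro ⟨s, u⟩ ⟨s', u'⟩ h
    have h0 := congrArg (fun v : Dl (N + 1) => v 0) h
    simp only [qB_zero] at h0
    have hs : s = s' := Subtype.ext (by linarith)
    subst hs
    by_cases hz : (s : ℝ) = 0
    · have : s = 0 := Subtype.ext hz
      subst this
      rw [Λ.ev_zero, Λ.ev_zero]
    · have : u = u' := by
        refine stdSimplex.ext (funext fun i => ?_)
        have hi := congrArg (fun v : Dl (N + 1) => v i.succ) h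
        simp only [qB_succ] at hi
        exact mul_left_cancel₀ hz hi
      rw [this]
  let F : C(I × Dl N, Y) := ⟨fun p => Λ.ev (p.1, sg a p.2),
    Λ.ev.continuous.comp (continuous_fst.prodMk ((sg a).continuous.comp continuous_snd))⟩
  let qBc : C(I × Dl N, Dl (N + 1)) := ⟨qB, continuous_qB⟩
  have hq : Topology.IsQuotientMap qBc := isQuotientMap_qB
  let x : C(Dl (N + 1), Y) := hq.lift F (fun p p' h => hf p p' h)
  have hx : ∀ (s : I) (u : Dl N), x (qB (s, u)) = Λ.ev (s, sg a u) := by
    intro s u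
    exact congrArg (fun f : C(I × Dl N, Y) => f (s, u))
      (hq.lift_comp F (fun p p' h => hf p p' h))
  refine ⟨x, ?_, hx⟩
  rw [isSph_iff]
  intro v hv
  obtain ⟨⟨s, u⟩, rfl⟩ := qB_surjective v
  show x (qB (s, u)) = y0
  rw [hx]
  obtain ⟨i, hi⟩ := hv
  induction i using Fin.cases with
  | zero =>
    rw [qB_zero] at hi
    have : s = 1 := Subtype.ext (by show (s : ℝ) = 1; linarith)
    rw [this, Λ.ev_one]
  | succ i =>
    rw [qB_succ] at hi
    rcases mul_eq_zero.1 hi with h | h
    · have : s = 0 := Subtype.ext h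
      rw [this, Λ.ev_zero]
    · rw [ha u ⟨i, h⟩, Λ.ev_base]

/-- data of the adjoint relation used at chain level: `x : Δ^{N+1} → Y` spherical, `a'` the
piecewise linear adjoint of `x`, `G` a homotopy from `a` to `a'` rel boundary -/
theorem exists_adjoint' {N : ℕ} (a : (SS.Sing P).S N)
    (ha : IsSph (K := SS.Sing P) (cY g0 0) a) :
    ∃ (x : (SS.Sing Y).S (N + 1)) (a' : (SS.Sing P).S N) (G : C(I × Dl N, P)),
      IsSph (K := SS.Sing Y) (cY y0 0) x ∧ IsSph (K := SS.Sing P) (cY g0 0) a' ∧
      (∀ (s : I) (u : Dl N), Λ.ev (s, sg a' u) = sg x (qP (s, u))) ∧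
      (∀ u, G (0, u) = sg a u) ∧ (∀ u, G (1, u) = sg a' u) ∧
      (∀ r u, u ∈ Bdy N → G (r, u) = g0) := by
  obtain ⟨x, hx, hxa⟩ := Λ.exists_adjoint a ha
  have hx' := (isSph_iff y0 x).1 hx
  -- the homotopy
  let F : C(I × (I × Dl N), Y) := ⟨fun p => sg x (mix p.2.1 (qB (p.1, p.2.2)) (qP (p.1, p.2.2))), by
    refine (sg x).continuous.comp ?_
    have h1 : Continuous fun p : I × (I × Dl N) => (p.1, p.2.2) := by fun_prop
    exact continuous_mix.comp ((by fun_prop : Continuous fun p : I × (I × Dl N) => p.2.1).prodMk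
      ((continuous_qB.comp h1).prodMk (continuous_qP.comp h1)))⟩
  have hF0 : ∀ t, F (0, t) = y0 := by
    rintro ⟨r, u⟩
    show sg x (mix r (qB (0, u)) (qP (0, u))) = y0
    rw [← qB_left, mix_self]
    exact hx' _ (qB_zero_mem u)
  have hF1 : ∀ t, F (1, t) = y0 := by
    rintro ⟨r, u⟩
    show sg x (mix r (qB (1, u)) (qP (1, u))) = y0
    rw [← qB_right, mix_self]
    exact hx' _ (qB_one_mem u)
  obtain ⟨G, hG⟩ := Λ.curry F hF0 hF1
  let a' : C(Dl N, P) := ⟨fun u => G (1, u), by fun_prop⟩
  have hbd : ∀ r u, u ∈ Bdy N → G (r, u) = g0 := by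
    intro r u hu
    refine Λ.inj _ _ fun s => ?_
    rw [hG, Λ.ev_base]
    exact hx' _ (mix_mem r s hu)
  refine ⟨x, a', G, hx, ?_, ?_, ?_, fun _ => rfl, hbd⟩
  · rw [isSph_iff]
    intro v hv
    exact hbd 1 v hv
  · intro s u
    show Λ.ev (s, G (1, u)) = _
    rw [hG]
    show sg x (mix 1 _ _) = _
    rw [mix_one]
  · intro u
    refine Λ.inj _ _ fun s => ?_
    rw [hG, ← hxa]
    show sg x (mix 0 _ _) = _
    rw [mix_zero]

end LoopStr

/-! ## the poset map `[1] × [N] → [N+1]` and its realisation -/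

/-- `(0,i) ↦ 0`, `(1,i) ↦ i+1` -/
def piO {m N : ℕ} (θ : Op m 1) (φ : Op m N) : Op m (N + 1) :=
  ⟨fun a => if θ a = 0 then 0 else (φ a).succ, by
    intro a b hab
    have h1 := θ.monotone hab
    have h2 := φ.monotone hab
    simp only
    split_ifs with ha hb hb
    · exact le_rfl
    · exact Fin.zero_le _
    · rw [hb] at h1
      exact absurd (Fin.le_zero_iff.1 h1) ha
    · exact Fin.succ_le_succ_iff.2 h2⟩

theorem piO_apply {m N : ℕ} (θ : Op m 1) (φ : Op m N) (a : Fin (m + 1)) :
    piO θ φ a = if θ a = 0 then 0 else (φ a).succ := rfl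

/-- the simplicial map `std 1 × std N → std (N+1)` -/
def piH (N : ℕ) : SS.Hom ((SS.std 1).prod (SS.std N)) (SS.std (N + 1)) :=
  ⟨fun _ x => piO x.1 x.2, fun _ _ => rfl⟩

/-- the piecewise linear collapse realises `piO` -/
theorem qP_map {m N : ℕ} (θ : Op m 1) (φ : Op m N) (u : Dl m) :
    qP (lam1 (stdSimplex.map θ u), stdSimplex.map φ u) = stdSimplex.map (piO θ φ) u := by
  have key : ∀ i : ℕ, min (lam1 (stdSimplex.map θ u) : ℝ) (tl (stdSimplex.map φ u) i) =
      ∑ a, if θ a = 1 ∧ i ≤ (φ a : ℕ) then u a else 0 := by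
    intro i
    rw [tl_map, lam1_val, map_app]
    -- the two sets of indices are nested
    by_cases hn : ∀ a, θ a = 1 → i ≤ (φ a : ℕ)
    · rw [min_eq_left]
      · refine Finset.sum_congr rfl fun a _ => ?_
        by_cases h : θ a = 1
        · rw [if_pos h, if_pos ⟨h, hn a h⟩]
        · rw [if_neg h, if_neg (fun h' => h h'.1)]
      · refine Finset.sum_le_sum fun a _ => ?_
        have h0 := stdSimplex.zero_le u a
        by_cases h : θ a = 1
        · rw [if_pos h, if_pos (hn a h)]
        · rw [if_neg h]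
          split_ifs
          · exact h0
          · exact le_rfl
    · push Not at hn
      obtain ⟨b, hb1, hb2⟩ := hn
      have hn' : ∀ a, i ≤ (φ a : ℕ) → θ a = 1 := by
        intro a ha
        have hab : b ≤ a := by
          by_contra hcon
          have h3 := φ.monotone (le_of_not_ge hcon)
          rw [Fin.le_def] at h3
          omega
        have h4 := θ.monotone hab
        rw [hb1] at h4
        exact le_antisymm (Fin.le_last _) h4
      rw [min_eq_right]
      · refine Finset.sum_congr rfl fun a _ => ?_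
        by_cases h : i ≤ (φ a : ℕ)
        · rw [if_pos h, if_pos ⟨hn' a h, h⟩]
        · rw [if_neg h, if_neg (fun h' => h h'.2)]
      · refine Finset.sum_le_sum fun a _ => ?_
        have h0 := stdSimplex.zero_le u a
        by_cases h : i ≤ (φ a : ℕ)
        · rw [if_pos h, if_pos (hn' a h)]
        · rw [if_neg h]
          split_ifs
          · exact h0
          · exact le_rfl
  have htl : ∀ i : ℕ, tl (stdSimplex.map (piO θ φ) u) (i + 1) =
      ∑ a, if θ a = 1 ∧ i ≤ (φ a : ℕ) then u a else 0 := by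
    intro i
    rw [tl_map]
    refine Finset.sum_congr rfl fun a _ => ?_
    have hiff : i + 1 ≤ (piO θ φ a : ℕ) ↔ θ a = 1 ∧ i ≤ (φ a : ℕ) := by
      rw [piO_apply]
      by_cases h : θ a = 0
      · rw [if_pos h, h]
        simp
      · have h1 : θ a = 1 := by
          refine Fin.ext ?_
          have h2 := (θ a).isLt
          have : (θ a : ℕ) ≠ 0 := fun h' => h (Fin.ext h')
          show (θ a : ℕ) = 1
          omega
        rw [if_neg h, h1]
        simp
    simp only [hiff]
  refine stdSimplex.ext (funext fun i => ?_)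
  induction i using Fin.cases with
  | zero =>
    rw [qP_zero, ← tl_sub (stdSimplex.map (piO θ φ) u) 0]
    show _ = tl _ 0 - tl _ (0 + 1)
    rw [tl_zero, htl, ← key, tl_zero, min_eq_left (lam1 _).2.2]
  | succ i =>
    rw [qP_succ, ← tl_sub (stdSimplex.map (piO θ φ) u) i.succ]
    simp only [Fin.val_succ]
    rw [htl, htl, key, key]

end Crest.Agent.R204.Sus330
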