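import Mathlib

/-!
# Row 204, block H (Hopf invariant one): frozen models (captain helper472)

* `CR X A`   : continuous functions `X → ℂ` constant on `A` (the algebra of the quotient `X/A`).
* `wedge y z` : the wedge inside `Y × Z`.
* `SA N`     : functions on `I^N` constant on the boundary (`N` any index type): the sphere `S^N`.
* `bdI N`    : boundary of `I^N × I`.
* `ConeAlg y f` : functions on the mapping cone of `f : (I^N, bd) → (Y, y)`; `t = 0` glued by `f`,
   `t = 1` (and `bd × I`) is the base point.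
* `CoH Y y`  : a co-H-structure in the form needed for the diagonal: two based deformations `W, W'` of the
   identity such that every point is killed at time `1` by one of the two.
-/

set_option autoImplicit false

open scoped unitInterval Topology Topology.Homotopy

noncomputable section

namespace Crest.Agent.R204.H472

section CR

variable (X : Type) [TopologicalSpace X] (A : Set X)

/-- continuous functions constant on `A` -/
def CR : Subalgebra ℂ C(X, ℂ) where
  carrier := {a | ∀ x ∈ A, ∀ y ∈ A, a x = a y}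
  mul_mem' := by
    intro a b ha hb x hx y hy
    simp only [ContinuousMap.mul_apply, ha x hx y hy, hb x hx y hy]
  add_mem' := by
    intro a b ha hb x hx y hy
    simp only [ContinuousMap.add_apply, ha x hx y hy, hb x hx y hy]
  algebraMap_mem' := by
    intro r x _ y _
    rfl

variable {X A}

theorem mem_CR {a : C(X, ℂ)} : a ∈ CR X A ↔ ∀ x ∈ A, ∀ y ∈ A, a x = a y := Iff.rfl

theorem isClosed_CR [CompactSpace X] : IsClosed ((CR X A : Subalgebra ℂ C(X, ℂ)) : Set C(X, ℂ)) := by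
  have : ((CR X A : Subalgebra ℂ C(X, ℂ)) : Set C(X, ℂ))
      = ⋂ x ∈ A, ⋂ y ∈ A, {a : C(X, ℂ) | a x = a y} := by
    ext a
    simp [mem_CR]
  rw [this]
  refine isClosed_biInter fun x _ => isClosed_biInter fun y _ => ?_
  exact isClosed_eq (continuous_eval_const x) (continuous_eval_const y)

instance [CompactSpace X] : CompleteSpace (CR X A) := isClosed_CR.completeSpace_coe

/-- evaluation at a point, as a character -/
def CR.ev (x : X) : CR X A →ₐ[ℂ] ℂ :=
  (ContinuousMap.evalAlgHom ℂ ℂ x).comp (CR X A).val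

@[simp] theorem CR.ev_apply (x : X) (a : CR X A) : CR.ev x a = (a : C(X, ℂ)) x := rfl

variable {Y : Type} [TopologicalSpace Y] {B : Set Y}

/-- a continuous map of pairs (`A` goes into `B`) induces a homomorphism of algebras -/
def CR.comap (g : C(X, Y)) (hg : Set.MapsTo g A B) : CR Y B →ₐ[ℂ] CR X A :=
  ((ContinuousMap.compRightAlgHom ℂ ℂ g).comp (CR Y B).val).codRestrict (CR X A)
    (fun b x hx y hy => b.2 _ (hg hx) _ (hg hy))

@[simp] theorem CR.comap_apply (g : C(X, Y)) (hg : Set.MapsTo g A B) (b : CR Y B) (x : X) :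
    ((CR.comap g hg b : CR X A) : C(X, ℂ)) x = (b : C(Y, ℂ)) (g x) := rfl

end CR

/-- the wedge inside a product -/
def wedge {Y Z : Type} (y : Y) (z : Z) : Set (Y × Z) := {p | p.1 = y ∨ p.2 = z}

/-- functions on the smash product `Y ∧ Z` -/
abbrev Smash {Y Z : Type} [TopologicalSpace Y] [TopologicalSpace Z] (y : Y) (z : Z) :
    Subalgebra ℂ C(Y × Z, ℂ) := CR (Y × Z) (wedge y z)

/-- functions on the sphere `I^N / bd` -/
abbrev SA (N : Type) : Subalgebra ℂ C(N → I, ℂ) := CR (N → I) (Cube.boundary N)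

/-- boundary of `I^N × I` -/
def bdI (N : Type) : Set ((N → I) × I) := {p | p.1 ∈ Cube.boundary N ∨ p.2 = 0 ∨ p.2 = 1}

/-- functions on `S^{N+1} = (I^N × I)/bd` -/
abbrev SA' (N : Type) : Subalgebra ℂ C((N → I) × I, ℂ) := CR ((N → I) × I) (bdI N)

section Cone

variable {N : Type} {Y : Type} [TopologicalSpace Y] (y : Y) (f : GenLoop N Y y)

/-- functions on the mapping cone of `f : (I^N, bd) → (Y, y)` -/
def ConeAlg : Subalgebra ℂ (C((N → I) × I, ℂ) × C(Y, ℂ)) where
  carrier := {p | (∀ x, p.1 (x, 0) = p.2 (f x)) ∧ (∀ x t, x ∈ Cube.boundary N → p.1 (x, t) = p.2 y) ∧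
    (∀ x, p.1 (x, 1) = p.2 y)}
  mul_mem' := by
    rintro a b ⟨ha1, ha2, ha3⟩ ⟨hb1, hb2, hb3⟩
    refine ⟨fun x => ?_, fun x t hx => ?_, fun x => ?_⟩
    · simp [ha1, hb1]
    · simp [ha2 x t hx, hb2 x t hx]
    · simp [ha3, hb3]
  add_mem' := by
    rintro a b ⟨ha1, ha2, ha3⟩ ⟨hb1, hb2, hb3⟩
    refine ⟨fun x => ?_, fun x t hx => ?_, fun x => ?_⟩
    · simp [ha1, hb1]
    · simp [ha2 x t hx, hb2 x t hx]
    · simp [ha3, hb3]
  algebraMap_mem' := by
    intro r
    refine ⟨fun x => ?_, fun x t hx => ?_, fun x => ?_⟩ <;> simp [Prod.algebraMap_apply]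

variable {y f}

theorem mem_ConeAlg {p : C((N → I) × I, ℂ) × C(Y, ℂ)} : p ∈ ConeAlg y f ↔
    (∀ x, p.1 (x, 0) = p.2 (f x)) ∧ (∀ x t, x ∈ Cube.boundary N → p.1 (x, t) = p.2 y) ∧
    (∀ x, p.1 (x, 1) = p.2 y) := Iff.rfl

theorem isClosed_ConeAlg [CompactSpace Y] :
    IsClosed ((ConeAlg y f : Subalgebra ℂ _) : Set (C((N → I) × I, ℂ) × C(Y, ℂ))) := by
  have e1 : ∀ q : (N → I) × I, Continuous fun p : C((N → I) × I, ℂ) × C(Y, ℂ) => p.1 q := fun q =>
    (continuous_eval_const q).comp continuous_fst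
  have e2 : ∀ q : Y, Continuous fun p : C((N → I) × I, ℂ) × C(Y, ℂ) => p.2 q := fun q =>
    (continuous_eval_const q).comp continuous_snd
  have : ((ConeAlg y f : Subalgebra ℂ _) : Set (C((N → I) × I, ℂ) × C(Y, ℂ)))
      = ({p | ∀ x, p.1 (x, 0) = p.2 (f x)} ∩ {p | ∀ x t, x ∈ Cube.boundary N → p.1 (x, t) = p.2 y}) ∩
        {p | ∀ x, p.1 (x, 1) = p.2 y} := by
    ext p
    simp only [SetLike.mem_coe, mem_ConeAlg, Set.mem_inter_iff, Set.mem_ofPred_eq, and_assoc]
  rw [this]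
  refine (IsClosed.inter ?_ ?_).inter ?_
  · simp only [Set.ofPred_forall]
    exact isClosed_iInter fun x => isClosed_eq (e1 _) (e2 _)
  · simp only [Set.ofPred_forall]
    exact isClosed_iInter fun x => isClosed_iInter fun t => isClosed_iInter fun _ =>
      isClosed_eq (e1 _) (e2 _)
  · simp only [Set.ofPred_forall]
    exact isClosed_iInter fun x => isClosed_eq (e1 _) (e2 _)

instance [CompactSpace Y] : CompleteSpace (ConeAlg y f) := isClosed_ConeAlg.completeSpace_coe

/-- restriction to `Y` (dual to the inclusion `Y → C_f`) -/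
def ConeAlg.res : ConeAlg y f →ₐ[ℂ] C(Y, ℂ) :=
  (AlgHom.snd ℂ C((N → I) × I, ℂ) C(Y, ℂ)).comp (ConeAlg y f).val

@[simp] theorem ConeAlg.res_apply (p : ConeAlg y f) : ConeAlg.res p = (p : C((N → I) × I, ℂ) × C(Y, ℂ)).2 :=
  rfl

/-- base point of the mapping cone -/
def ConeAlg.ev : ConeAlg y f →ₐ[ℂ] ℂ := (ContinuousMap.evalAlgHom ℂ ℂ y).comp ConeAlg.res

/-- the map dual to `q : C_f → C_f / Y = S^{N+1}` -/
def ConeAlg.q (x₀ : N → I) : SA' N →ₐ[ℂ] ConeAlg y f :=
  (((SA' N).val).prod ((Algebra.ofId ℂ C(Y, ℂ)).comp (CR.ev ((x₀, 0) : (N → I) × I)))).codRestrict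
    (ConeAlg y f) (by
      intro a
      have h0 : ((x₀, 0) : (N → I) × I) ∈ bdI N := Or.inr (Or.inl rfl)
      refine ⟨fun x => ?_, fun x t hx => ?_, fun x => ?_⟩
      · exact a.2 _ (Or.inr (Or.inl rfl)) _ h0
      · exact a.2 _ (Or.inl hx) _ h0
      · exact a.2 _ (Or.inr (Or.inr rfl)) _ h0)

@[simp] theorem ConeAlg.q_fst (x₀ : N → I) (a : SA' N) :
    ((ConeAlg.q x₀ a : ConeAlg y f) : C((N → I) × I, ℂ) × C(Y, ℂ)).1 = (a : C((N → I) × I, ℂ)) := rfl

@[simp] theorem ConeAlg.q_snd (x₀ : N → I) (a : SA' N) (z : Y) :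
    ((ConeAlg.q x₀ a : ConeAlg y f) : C((N → I) × I, ℂ) × C(Y, ℂ)).2 z = (a : C((N → I) × I, ℂ)) (x₀, 0) :=
  rfl

end Cone

/-- co-H structure in the form needed for the diagonal -/
structure CoH (Y : Type) [TopologicalSpace Y] (y : Y) where
  W : C(I × Y, Y)
  W' : C(I × Y, Y)
  W_zero : ∀ p, W (0, p) = p
  W'_zero : ∀ p, W' (0, p) = p
  W_base : ∀ t, W (t, y) = y
  W'_base : ∀ t, W' (t, y) = y
  one : ∀ p, W (1, p) = y ∨ W' (1, p) = y

end Crest.Agent.R204.H472
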