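import Mathlib

/-!
# Row 204, block H, leaf DEG (helper160), part A

Suspension of generalised loops through a map `e : Y × I → Z`, as a group homomorphism
`π_{n+1}(Y) → π_{n+2}(Z)`, and generation of `π_n(S^n)` by one class, assuming surjectivity.
-/

set_option autoImplicit false

open scoped unitInterval Topology Topology.Homotopy

namespace Crest.Agent.R204.HDeg160

universe u v

/-- data of a map `Y × I → Z`, `Y × {0,1} ∪ {y₀} × I ↦ z₀` (adjoint of `Y → Ω Z`). -/
structure SuspData (Y : Type u) (Z : Type v) [TopologicalSpace Y] [TopologicalSpace Z]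
    (y₀ : Y) (z₀ : Z) where
  e : C(Y × I, Z)
  e_zero : ∀ y, e (y, 0) = z₀
  e_one : ∀ y, e (y, 1) = z₀
  e_base : ∀ t, e (y₀, t) = z₀

variable {Y : Type u} {Z : Type v} [TopologicalSpace Y] [TopologicalSpace Z] {y₀ : Y} {z₀ : Z}

namespace SuspData

variable (S : SuspData Y Z y₀ z₀)

/-- suspension of a generalised loop, new coordinate = last -/
def susp {n : ℕ} (g : Ω^ (Fin n) Y y₀) : Ω^ (Fin (n + 1)) Z z₀ :=
  ⟨⟨fun t => S.e (g (Fin.init t), t (Fin.last n)), by
      refine S.e.continuous.comp ((g.1.continuous.comp ?_).prodMk (continuous_apply _))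
      exact continuous_pi fun i => continuous_apply (Fin.castSucc i)⟩, by
    rintro t ⟨i, hi⟩
    refine Fin.lastCases (motive := fun i => (t i = 0 ∨ t i = 1) → _) ?_ ?_ i hi
    · rintro (h | h)
      · show S.e (g (Fin.init t), t (Fin.last n)) = z₀
        rw [h]; exact S.e_zero _
      · show S.e (g (Fin.init t), t (Fin.last n)) = z₀
        rw [h]; exact S.e_one _
    · intro j hj
      show S.e (g (Fin.init t), t (Fin.last n)) = z₀
      have : g (Fin.init t) = y₀ := g.2 _ ⟨j, hj⟩
      rw [this]; exact S.e_base _⟩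

@[simp] theorem susp_apply {n : ℕ} (g : Ω^ (Fin n) Y y₀) (t : I^ Fin (n + 1)) :
    S.susp g t = S.e (g (Fin.init t), t (Fin.last n)) := rfl

theorem susp_homotopic {n : ℕ} {g g' : Ω^ (Fin n) Y y₀} (h : GenLoop.Homotopic g g') :
    GenLoop.Homotopic (S.susp g) (S.susp g') := by
  obtain ⟨H⟩ := h
  refine ⟨⟨⟨⟨fun p => S.e (H (p.1, Fin.init p.2), p.2 (Fin.last n)), ?_⟩, ?_, ?_⟩, ?_⟩⟩
  · refine S.e.continuous.comp ((H.continuous.comp ?_).prodMk ?_)
    · refine continuous_fst.prodMk ?_
      exact continuous_pi fun i => (continuous_apply (Fin.castSucc i)).comp continuous_snd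
    · exact (continuous_apply _).comp continuous_snd
  · intro t
    show S.e (H (0, Fin.init t), t (Fin.last n)) = S.e (g (Fin.init t), t (Fin.last n))
    rw [H.apply_zero]; rfl
  · intro t
    show S.e (H (1, Fin.init t), t (Fin.last n)) = S.e (g' (Fin.init t), t (Fin.last n))
    rw [H.apply_one]; rfl
  · intro s t ht
    show S.e (H (s, Fin.init t), t (Fin.last n)) = S.susp g t
    obtain ⟨i, hi⟩ := ht
    rw [susp_apply]
    refine Fin.lastCases (motive := fun i => (t i = 0 ∨ t i = 1) → _) ?_ ?_ i hi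
    · rintro (h | h) <;> rw [h]
      · rw [S.e_zero, S.e_zero]
      · rw [S.e_one, S.e_one]
    · intro j hj
      have h1 : H (s, Fin.init t) = g.1 (Fin.init t) := H.prop' s _ ⟨j, hj⟩
      rw [h1]; rfl

theorem susp_transAt {n : ℕ} (i : Fin n) (f g : Ω^ (Fin n) Y y₀) :
    S.susp (GenLoop.transAt i f g) = GenLoop.transAt i.castSucc (S.susp f) (S.susp g) := by
  ext t
  rw [susp_apply]
  simp only [GenLoop.transAt, GenLoop.coe_copy]
  have hlast : (Fin.last n) ≠ i.castSucc := (Fin.castSucc_lt_last i).ne'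
  have hin : ∀ s : I, Fin.init (Function.update t i.castSucc s) = Function.update (Fin.init t) i s := by
    intro s
    funext j
    by_cases hj : j = i
    · subst hj; simp [Fin.init]
    · have : j.castSucc ≠ i.castSucc := fun h => hj (Fin.castSucc_injective _ h)
      simp [Fin.init, Function.update_of_ne hj, Function.update_of_ne this]
  have hi : Fin.init t i = t i.castSucc := rfl
  rw [hi]
  split_ifs with h
  · rw [susp_apply, hin, Function.update_of_ne hlast]
  · rw [susp_apply, hin, Function.update_of_ne hlast]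

end SuspData

/-- homotopy class of a generalised loop -/
def cls {N : Type*} {y : Y} (g : Ω^ N Y y) : HomotopyGroup N Y y :=
  Quotient.mk (GenLoop.Homotopic.setoid N y) g

theorem cls_eq_iff {N : Type*} {y : Y} {f g : Ω^ N Y y} :
    cls f = cls g ↔ GenLoop.Homotopic f g :=
  ⟨fun h => Quotient.exact h, fun h => Quotient.sound h⟩

theorem cls_surj {N : Type*} {y : Y} (a : HomotopyGroup N Y y) : ∃ g, cls g = a :=
  Quotient.exists_rep a

theorem cls_mul {N : Type*} [DecidableEq N] [Nonempty N] {y : Y} (i : N) (f g : Ω^ N Y y) :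
    cls f * cls g = cls (GenLoop.transAt i g f) :=
  HomotopyGroup.mul_spec (i := i) (p := f) (q := g)

theorem cls_const {N : Type*} [DecidableEq N] [Nonempty N] {y : Y} :
    cls (GenLoop.const : Ω^ N Y y) = 1 := rfl

theorem cls_inv {N : Type*} [DecidableEq N] [Nonempty N] {y : Y} (i : N) (f : Ω^ N Y y) :
    (cls f)⁻¹ = cls (GenLoop.symmAt i f) :=
  HomotopyGroup.inv_spec (i := i) (p := f)

namespace SuspData

variable (S : SuspData Y Z y₀ z₀)

/-- the suspension homomorphism -/
noncomputable def suspHom (n : ℕ) :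
    HomotopyGroup (Fin (n + 1)) Y y₀ →* HomotopyGroup (Fin (n + 2)) Z z₀ :=
  MonoidHom.mk' (fun a => Quotient.map (sa := GenLoop.Homotopic.setoid (Fin (n + 1)) y₀)
      (sb := GenLoop.Homotopic.setoid (Fin (n + 2)) z₀) S.susp (fun _ _ h => S.susp_homotopic h) a) (by
    intro a b
    obtain ⟨a, rfl⟩ := cls_surj a
    obtain ⟨b, rfl⟩ := cls_surj b
    rw [cls_mul 0]
    show cls (S.susp (GenLoop.transAt 0 b a)) = cls (S.susp a) * cls (S.susp b)
    rw [cls_mul (Fin.castSucc 0), susp_transAt])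

@[simp] theorem suspHom_cls (n : ℕ) (g : Ω^ (Fin (n + 1)) Y y₀) :
    S.suspHom n (cls g) = cls (S.susp g) := rfl

/-- if `π_{n+1}(Y)` is generated by `ι` and suspension is onto, then `π_{n+2}(Z)` is generated by
the suspension of `ι`. -/
theorem gen_step {n : ℕ} (ι : Ω^ (Fin (n + 1)) Y y₀)
    (hgen : ∀ g : Ω^ (Fin (n + 1)) Y y₀, ∃ D : ℤ, cls g = cls ι ^ D)
    (hsurj : ∀ f : Ω^ (Fin (n + 2)) Z z₀, ∃ g : Ω^ (Fin (n + 1)) Y y₀,
      GenLoop.Homotopic (S.susp g) f) (f : Ω^ (Fin (n + 2)) Z z₀) :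
    ∃ D : ℤ, cls f = cls (S.susp ι) ^ D := by
  obtain ⟨g, hg⟩ := hsurj f
  obtain ⟨D, hD⟩ := hgen g
  refine ⟨D, ?_⟩
  rw [← cls_eq_iff.2 hg, ← suspHom_cls, hD, map_zpow, suspHom_cls]

end SuspData

/-- abstract degree lemma: a homotopy invariant additive functional on `π_{n+1}(Y)` takes the value
`D • φ ι` on `ι ^ D`. -/
theorem additive_degree {A : Type*} [AddCommGroup A] {N : Type*} [DecidableEq N] [Nonempty N]
    {y : Y} (i : N) (φ : Ω^ N Y y → A)
    (hinv : ∀ f g, GenLoop.Homotopic f g → φ f = φ g)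
    (hadd : ∀ f g, φ (GenLoop.transAt i f g) = φ f + φ g)
    (ι g : Ω^ N Y y) (D : ℤ) (h : cls g = cls ι ^ D) :
    φ g = D • φ ι := by
  let Φ : HomotopyGroup N Y y →* Multiplicative A :=
    MonoidHom.mk' (fun a => Quotient.lift (s := GenLoop.Homotopic.setoid N y)
      (fun f => Multiplicative.ofAdd (φ f)) (fun f g h => by rw [hinv f g h]) a) (by
      intro a b
      obtain ⟨a, rfl⟩ := cls_surj a
      obtain ⟨b, rfl⟩ := cls_surj b
      rw [cls_mul i]
      show Multiplicative.ofAdd (φ (GenLoop.transAt i b a)) =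
        Multiplicative.ofAdd (φ a) * Multiplicative.ofAdd (φ b)
      rw [hadd, ofAdd_add, mul_comm])
  have h2 : Φ (cls g) = Φ (cls ι) ^ D := by rw [h, map_zpow]
  have h3 : Multiplicative.ofAdd (φ g) = Multiplicative.ofAdd (φ ι) ^ D := h2
  rw [← ofAdd_zsmul] at h3
  exact Multiplicative.ofAdd.injective h3

end Crest.Agent.R204.HDeg160
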