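import Mathlib

/-!
# Row 204, block H, leaf H-EX (helper837)

Exactness and gluing for idempotent matrices over rings (pure algebra part).
-/

set_option autoImplicit false
set_option linter.unusedSectionVars false
set_option linter.unusedSimpArgs false

namespace Crest.Agent.R204.Ex837

open Matrix

universe u

section Whitehead

variable {A B : Type*} [Ring A] [Ring B] {I J : Type*} [Fintype I] [Fintype J]
  [DecidableEq I] [DecidableEq J]

/-- elementary block matrices -/
def E12 (x : Matrix I J A) : Matrix (I ⊕ J) (I ⊕ J) A := fromBlocks 1 x 0 1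
/-- elementary block matrices -/
def E21 (x : Matrix J I A) : Matrix (I ⊕ J) (I ⊕ J) A := fromBlocks 1 0 x 1

theorem E12_mul (x y : Matrix I J A) : E12 x * E12 y = E12 (x + y) := by
  simp [E12, fromBlocks_multiply, add_comm]

theorem E21_mul (x y : Matrix J I A) : E21 x * E21 y = E21 (x + y) := by
  simp [E21, fromBlocks_multiply, add_comm]

theorem E12_zero : E12 (0 : Matrix I J A) = 1 := by simp [E12, fromBlocks_one]
theorem E21_zero : E21 (0 : Matrix J I A) = 1 := by simp [E21, fromBlocks_one]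

theorem E12_neg_mul (x : Matrix I J A) : E12 (-x) * E12 x = 1 := by
  rw [E12_mul, neg_add_cancel, E12_zero]
theorem E12_mul_neg (x : Matrix I J A) : E12 x * E12 (-x) = 1 := by
  rw [E12_mul, add_neg_cancel, E12_zero]
theorem E21_neg_mul (x : Matrix J I A) : E21 (-x) * E21 x = 1 := by
  rw [E21_mul, neg_add_cancel, E21_zero]
theorem E21_mul_neg (x : Matrix J I A) : E21 x * E21 (-x) = 1 := by
  rw [E21_mul, add_neg_cancel, E21_zero]

theorem E12_map (φ : A →+* B) (x : Matrix I J A) : (E12 x).map φ = E12 (x.map φ) := by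
  simp [E12, fromBlocks_map]
theorem E21_map (φ : A →+* B) (x : Matrix J I A) : (E21 x).map φ = E21 (x.map φ) := by
  simp [E21, fromBlocks_map]

/-- the Whitehead matrix of a pair `(u, v)`; equals `diag(u, v)` if `u v = 1 = v u`. -/
def Wh (u v : Matrix I I A) : Matrix (I ⊕ I) (I ⊕ I) A :=
  E12 u * E21 (-v) * E12 u * (E12 (-1) * E21 1 * E12 (-1))

/-- its inverse -/
def WhInv (u v : Matrix I I A) : Matrix (I ⊕ I) (I ⊕ I) A :=
  (E12 1 * E21 (-1) * E12 1) * (E12 (-u) * E21 v * E12 (-u))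

theorem Wh_mul_inv (u v : Matrix I I A) : Wh u v * WhInv u v = 1 := by
  have h1 : (E12 (-1) * E21 1 * E12 (-1) : Matrix (I ⊕ I) (I ⊕ I) A) *
      (E12 1 * E21 (-1) * E12 1) = 1 := by
    calc (E12 (-1) * E21 1 * E12 (-1) : Matrix (I ⊕ I) (I ⊕ I) A) *
      (E12 1 * E21 (-1) * E12 1) = E12 (-1) * (E21 1 * (E12 (-1) * E12 1) * E21 (-1)) * E12 1 := by
          simp only [Matrix.mul_assoc]
      _ = 1 := by rw [E12_neg_mul, Matrix.mul_one, E21_mul_neg, Matrix.mul_one, E12_neg_mul]
  calc Wh u v * WhInv u v = E12 u * E21 (-v) * E12 u * ((E12 (-1) * E21 1 * E12 (-1)) *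
      (E12 1 * E21 (-1) * E12 1)) * (E12 (-u) * E21 v * E12 (-u)) := by
        simp only [Wh, WhInv, Matrix.mul_assoc]
    _ = E12 u * (E21 (-v) * (E12 u * E12 (-u)) * E21 v) * E12 (-u) := by
        rw [h1]; simp only [Matrix.mul_assoc, Matrix.mul_one, Matrix.one_mul]
    _ = 1 := by rw [E12_mul_neg, Matrix.mul_one, E21_neg_mul, Matrix.mul_one, E12_mul_neg]

theorem Wh_inv_mul (u v : Matrix I I A) : WhInv u v * Wh u v = 1 := by
  have h1 : (E12 (-u) * E21 v * E12 (-u)) * (E12 u * E21 (-v) * E12 u) = 1 := by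
    calc (E12 (-u) * E21 v * E12 (-u)) * (E12 u * E21 (-v) * E12 u)
        = E12 (-u) * (E21 v * (E12 (-u) * E12 u) * E21 (-v)) * E12 u := by
          simp only [Matrix.mul_assoc]
      _ = 1 := by rw [E12_neg_mul, Matrix.mul_one, E21_mul_neg, Matrix.mul_one, E12_neg_mul]
  calc WhInv u v * Wh u v = (E12 1 * E21 (-1) * E12 1) * ((E12 (-u) * E21 v * E12 (-u)) *
        (E12 u * E21 (-v) * E12 u)) * (E12 (-1) * E21 1 * E12 (-1)) := by
        simp only [Wh, WhInv, Matrix.mul_assoc]
    _ = E12 1 * (E21 (-1) * (E12 1 * E12 (-1)) * E21 1) * E12 (-1) := by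
        rw [h1]; simp only [Matrix.mul_assoc, Matrix.mul_one, Matrix.one_mul]
    _ = 1 := by rw [E12_mul_neg, Matrix.mul_one, E21_neg_mul, Matrix.mul_one, E12_mul_neg]

theorem Wh_eq {u v : Matrix I I A} (h1 : u * v = 1) (h2 : v * u = 1) :
    Wh u v = fromBlocks u 0 0 v := by
  simp [Wh, E12, E21, fromBlocks_multiply, h1, h2]

theorem WhInv_eq {u v : Matrix I I A} (h1 : u * v = 1) (h2 : v * u = 1) :
    WhInv u v = fromBlocks v 0 0 u := by
  have e1 := Wh_inv_mul u v
  rw [Wh_eq h1 h2] at e1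
  calc WhInv u v = WhInv u v * (fromBlocks u 0 0 v * fromBlocks v 0 0 u) := by
        simp [fromBlocks_multiply, h1, h2, fromBlocks_one]
    _ = fromBlocks v 0 0 u := by rw [← Matrix.mul_assoc, e1, Matrix.one_mul]

theorem Wh_map (φ : A →+* B) (u v : Matrix I I A) : (Wh u v).map φ = Wh (u.map φ) (v.map φ) := by
  have hn : ∀ x : Matrix I I A, (-x).map φ = -(x.map φ) := fun x => by
    ext; simp
  simp [Wh, Matrix.map_mul, E12_map, E21_map, hn]

theorem WhInv_map (φ : A →+* B) (u v : Matrix I I A) :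
    (WhInv u v).map φ = WhInv (u.map φ) (v.map φ) := by
  have hn : ∀ x : Matrix I I A, (-x).map φ = -(x.map φ) := fun x => by
    ext; simp
  simp [WhInv, Matrix.map_mul, E12_map, E21_map, hn]

/-- a matrix over `B` lifts along a surjection. -/
theorem exists_map {φ : A →+* B} (hφ : Function.Surjective φ) (x : Matrix I J B) :
    ∃ y : Matrix I J A, y.map φ = x := by
  choose g hg using hφ
  exact ⟨x.map g, by ext; simp [hg]⟩

/-- **Whitehead lemma**: `diag(u, u⁻¹)` lifts to an invertible matrix. -/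
theorem lift_diag {φ : A →+* B} (hφ : Function.Surjective φ) {u v : Matrix I I B}
    (h1 : u * v = 1) (h2 : v * u = 1) :
    ∃ U V : Matrix (I ⊕ I) (I ⊕ I) A, U * V = 1 ∧ V * U = 1 ∧ U.map φ = fromBlocks u 0 0 v ∧
      V.map φ = fromBlocks v 0 0 u := by
  obtain ⟨u', hu⟩ := exists_map hφ u
  obtain ⟨v', hv⟩ := exists_map hφ v
  exact ⟨Wh u' v', WhInv u' v', Wh_mul_inv _ _, Wh_inv_mul _ _,
    by rw [Wh_map, hu, hv, Wh_eq h1 h2], by rw [WhInv_map, hu, hv, WhInv_eq h1 h2]⟩

end Whitehead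

section MvN

variable {A B : Type*} [Ring A] [Ring B] {I J K : Type*} [Fintype I] [Fintype J] [Fintype K]
  [DecidableEq I] [DecidableEq J] [DecidableEq K]

/-- `(v, w)` is a Murray-von Neumann equivalence from `e` to `f`. -/
structure IsMvN (e : Matrix I I A) (f : Matrix J J A) (v : Matrix I J A) (w : Matrix J I A) :
    Prop where
  vw : v * w = e
  wv : w * v = f
  ev : e * v = v
  vf : v * f = v
  we : w * e = w
  fw : f * w = w

/-- Murray-von Neumann equivalence of idempotent matrices -/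
def MvN (e : Matrix I I A) (f : Matrix J J A) : Prop :=
  ∃ (v : Matrix I J A) (w : Matrix J I A), v * w = e ∧ w * v = f

theorem MvN.norm {e : Matrix I I A} {f : Matrix J J A} (he : e * e = e) (hf : f * f = f)
    {v : Matrix I J A} {w : Matrix J I A} (h1 : v * w = e) (h2 : w * v = f) :
    IsMvN e f (e * v * f) (f * w * e) := by
  have hev : e * v = v * f := by rw [← h1, ← h2, Matrix.mul_assoc]
  have hwe : w * e = f * w := by rw [← h1, ← h2, Matrix.mul_assoc]
  have h3 : e * v * f = e * v := by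
    rw [Matrix.mul_assoc, ← hev, ← Matrix.mul_assoc, he]
  have h4 : f * w * e = f * w := by
    rw [Matrix.mul_assoc, hwe, ← Matrix.mul_assoc, hf]
  rw [h3, h4]
  refine ⟨?_, ?_, ?_, ?_, ?_, ?_⟩
  · calc e * v * (f * w) = e * (v * f) * w := by simp only [Matrix.mul_assoc]
      _ = e := by rw [← hev, ← Matrix.mul_assoc e e v, he, Matrix.mul_assoc, h1, he]
  · calc f * w * (e * v) = f * (w * e) * v := by simp only [Matrix.mul_assoc]
      _ = f := by rw [hwe, ← Matrix.mul_assoc f f w, hf, Matrix.mul_assoc, h2, hf]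
  · rw [← Matrix.mul_assoc, he]
  · rw [Matrix.mul_assoc, ← hev, ← Matrix.mul_assoc, he]
  · rw [Matrix.mul_assoc, hwe, ← Matrix.mul_assoc, hf]
  · rw [← Matrix.mul_assoc, hf]

/-- the symmetry which exchanges `e ⊕ 0` and `0 ⊕ f` -/
def sym (e : Matrix I I A) (f : Matrix J J A) (v : Matrix I J A) (w : Matrix J I A) :
    Matrix (I ⊕ J) (I ⊕ J) A := fromBlocks (1 - e) v w (1 - f)

theorem IsMvN.idem_left {e : Matrix I I A} {f : Matrix J J A} {v : Matrix I J A}
    {w : Matrix J I A} (h : IsMvN e f v w) : e * e = e := by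
  calc e * e = e * v * w := by rw [Matrix.mul_assoc, h.vw]
    _ = e := by rw [h.ev, h.vw]

theorem IsMvN.idem_right {e : Matrix I I A} {f : Matrix J J A} {v : Matrix I J A}
    {w : Matrix J I A} (h : IsMvN e f v w) : f * f = f := by
  calc f * f = f * w * v := by rw [Matrix.mul_assoc, h.wv]
    _ = f := by rw [h.fw, h.wv]

theorem sym_sq {e : Matrix I I A} {f : Matrix J J A} {v : Matrix I J A} {w : Matrix J I A}
    (h : IsMvN e f v w) : sym e f v w * sym e f v w = 1 := by
  have he := h.idem_left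
  have hf := h.idem_right
  simp only [sym, fromBlocks_multiply, Matrix.sub_mul, Matrix.mul_sub, Matrix.one_mul,
    Matrix.mul_one, he, hf, h.vw, h.wv, h.ev, h.vf, h.we, h.fw, sub_self, sub_zero, zero_add,
    add_zero, sub_add_cancel, add_sub_cancel, fromBlocks_one]

theorem sym_conj {e : Matrix I I A} {f : Matrix J J A} {v : Matrix I J A} {w : Matrix J I A}
    (h : IsMvN e f v w) :
    sym e f v w * fromBlocks e 0 0 0 * sym e f v w = fromBlocks 0 0 0 f := by
  have he := h.idem_left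
  have hf := h.idem_right
  simp only [sym, fromBlocks_multiply, Matrix.sub_mul, Matrix.mul_sub, Matrix.one_mul,
    Matrix.mul_one, Matrix.mul_zero, Matrix.zero_mul, he, hf, h.vw, h.wv, h.ev, h.vf, h.we, h.fw,
    sub_self, sub_zero, zero_add, add_zero]

theorem sym_map (φ : A →+* B) (e : Matrix I I A) (f : Matrix J J A) (v : Matrix I J A)
    (w : Matrix J I A) : (sym e f v w).map φ = sym (e.map φ) (f.map φ) (v.map φ) (w.map φ) := by
  ext (i | i) (j | j) <;> simp [sym, fromBlocks, Matrix.one_apply, apply_ite φ]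

/-- **Middle exactness**, exact form: if `φ e ~ φ f` then a conjugate of `e ⊕ 0` maps exactly to
`(0 ⊕ φ f) ⊕ 0`. -/
theorem middle {φ : A →+* B} (hφ : Function.Surjective φ) {e : Matrix I I A} {f : Matrix J J A}
    {v : Matrix I J B} {w : Matrix J I B} (h : IsMvN (e.map φ) (f.map φ) v w) :
    ∃ U V : Matrix ((I ⊕ J) ⊕ (I ⊕ J)) ((I ⊕ J) ⊕ (I ⊕ J)) A, U * V = 1 ∧ V * U = 1 ∧
      (U * fromBlocks (fromBlocks e 0 0 0) 0 0 0 * V).map φ =
        fromBlocks (fromBlocks 0 0 0 (f.map φ)) 0 0 0 := by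
  obtain ⟨U, V, h1, h2, h3, h4⟩ := lift_diag hφ (sym_sq h) (sym_sq h)
  refine ⟨U, V, h1, h2, ?_⟩
  rw [Matrix.map_mul, Matrix.map_mul, h3, h4, fromBlocks_map, fromBlocks_map]
  simp only [Matrix.map_zero _ (map_zero φ), fromBlocks_multiply, Matrix.mul_zero,
    Matrix.zero_mul, add_zero, zero_add]
  rw [sym_conj h]

end MvN

end Crest.Agent.R204.Ex837
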