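import Mathlib
import Crest.Agent.R204.Ex_837

/-!
# Row 204, block H, leaf H-EX (helper837): lifting of invertible matrices connected to `1`
-/

set_option autoImplicit false
set_option linter.unusedSectionVars false

namespace Crest.Agent.R204.Ex837

open Matrix Topology

section Norms
open scoped Matrix.Norms.Operator

theorem hasSummableGeomSeries_matrix (n : Type*) [Fintype n] [DecidableEq n] (A : Type*)
    [NormedRing A] [CompleteSpace A] : HasSummableGeomSeries (Matrix n n A) := by
  have h1 : @CompleteSpace (Matrix n n A) (PseudoMetricSpace.toUniformSpace) :=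
    (inferInstance : @CompleteSpace (Matrix n n A) (Matrix.instUniformSpace n n A))
  infer_instance

theorem isOpen_isUnit_matrix' (n : Type*) [Fintype n] [DecidableEq n] (A : Type*)
    [NormedRing A] [CompleteSpace A] : IsOpen {x : Matrix n n A | IsUnit x} := by
  have := hasSummableGeomSeries_matrix n A
  exact Units.isOpen

theorem isOpenEmbedding_val_matrix' (n : Type*) [Fintype n] [DecidableEq n] (A : Type*)
    [NormedRing A] [CompleteSpace A] :
    IsOpenEmbedding (Units.val : (Matrix n n A)ˣ → Matrix n n A) := by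
  have := hasSummableGeomSeries_matrix n A
  exact Units.isOpenEmbedding_val

end Norms

section

variable {n : Type*} [Fintype n] [DecidableEq n] {A B : Type*} [NormedRing A] [CompleteSpace A]
  [NormedRing B] [CompleteSpace B]

/-- invertible matrices over a Banach algebra form an open set (product topology). -/
theorem isOpen_isUnit_matrix (n : Type*) [Fintype n] [DecidableEq n] (A : Type*)
    [NormedRing A] [CompleteSpace A] : IsOpen {x : Matrix n n A | IsUnit x} :=
  isOpen_isUnit_matrix' n A

/-- the units embed as an open set (product topology). -/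
theorem isOpenEmbedding_val_matrix (n : Type*) [Fintype n] [DecidableEq n] (A : Type*)
    [NormedRing A] [CompleteSpace A] :
    IsOpenEmbedding (Units.val : (Matrix n n A)ˣ → Matrix n n A) :=
  isOpenEmbedding_val_matrix' n A

theorem isOpenMap_matrix_map {φ : A →+* B} (h : IsOpenMap φ) :
    IsOpenMap (fun M : Matrix n n A => M.map φ) := by
  have h1 : IsOpenMap (Pi.map (fun _ : n => (φ : A → B)) : (n → A) → (n → B)) :=
    IsOpenMap.piMap (fun _ => h) (by simp [Filter.cofinite_eq_bot])
  have h2 : IsOpenMap (Pi.map (fun _ : n => (Pi.map (fun _ : n => (φ : A → B)) :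
      (n → A) → (n → B))) : (n → n → A) → (n → n → B)) :=
    IsOpenMap.piMap (fun _ => h1) (by simp [Filter.cofinite_eq_bot])
  exact h2

/-- the units which lift form an open subgroup -/
theorem isOpen_range_units {φ : A →+* B} (h : IsOpenMap φ) :
    IsOpen ((Units.map (φ.mapMatrix (m := n) : Matrix n n A →* Matrix n n B)).range :
      Set (Matrix n n B)ˣ) := by
  apply Subgroup.isOpen_of_mem_nhds (g := 1)
  have h1 : IsOpen ((fun M : Matrix n n A => M.map φ) '' {x : Matrix n n A | IsUnit x}) :=
    isOpenMap_matrix_map h _ (isOpen_isUnit_matrix n A)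
  have h2 := h1.preimage (Units.continuous_val (M := Matrix n n B))
  refine Filter.mem_of_superset (h2.mem_nhds ?_) ?_
  · exact ⟨1, isUnit_one, by simp⟩
  · rintro u ⟨x, ⟨y, rfl⟩, hx⟩
    exact ⟨y, Units.ext hx⟩

/-- **lifting of invertible matrices in the identity component** -/
theorem lift_of_mem_connectedComponent {φ : A →+* B} (h : IsOpenMap φ) {u : (Matrix n n B)ˣ}
    (hu : u ∈ connectedComponent (1 : (Matrix n n B)ˣ)) :
    ∃ U : (Matrix n n A)ˣ, (U : Matrix n n A).map φ = u := by
  have h1 := isOpen_range_units (n := n) h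
  have h2 : IsClopen ((Units.map (φ.mapMatrix (m := n) : Matrix n n A →* Matrix n n B)).range :
      Set (Matrix n n B)ˣ) := ⟨Subgroup.isClosed_of_isOpen _ h1, h1⟩
  obtain ⟨U, hU⟩ := h2.connectedComponent_subset (Subgroup.one_mem _) hu
  exact ⟨U, congrArg Units.val hU⟩

/-- a path of invertible matrices -/
theorem mem_connectedComponent_of_path (H : unitInterval → Matrix n n B) (hH : Continuous H)
    (hu : ∀ t, IsUnit (H t)) (u : (Matrix n n B)ˣ) (h0 : H 0 = 1) (h1 : H 1 = u) :
    u ∈ connectedComponent (1 : (Matrix n n B)ˣ) := by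
  choose G hG using hu
  have hGc : Continuous G := by
    rw [(isOpenEmbedding_val_matrix n B).isEmbedding.continuous_iff]
    have : Units.val ∘ G = H := funext hG
    rw [this]; exact hH
  have h2 : IsPreconnected (Set.range G) := isPreconnected_range hGc
  have h3 : G 0 = 1 := Units.ext (by rw [hG, h0]; rfl)
  have h4 : G 1 = u := Units.ext (by rw [hG, h1])
  exact h2.subset_connectedComponent ⟨0, h3⟩ ⟨1, h4⟩

/-- **lifting along a path** -/
theorem lift_of_path {φ : A →+* B} (h : IsOpenMap φ) (H : unitInterval → Matrix n n B)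
    (hH : Continuous H) (hu : ∀ t, IsUnit (H t)) (h0 : H 0 = 1) {u v : Matrix n n B}
    (huv : u * v = 1) (hvu : v * u = 1) (h1 : H 1 = u) :
    ∃ U V : Matrix n n A, U * V = 1 ∧ V * U = 1 ∧ U.map φ = u ∧ V.map φ = v := by
  obtain ⟨U, hU⟩ := lift_of_mem_connectedComponent h
    (mem_connectedComponent_of_path H hH hu ⟨u, v, huv, hvu⟩ h0 h1)
  refine ⟨U, ↑U⁻¹, U.mul_inv, U.inv_mul, hU, ?_⟩
  have h2 : (U : Matrix n n A).map φ * (↑U⁻¹ : Matrix n n A).map φ = 1 := by
    rw [← Matrix.map_mul, U.mul_inv, Matrix.map_one _ (map_zero φ) (map_one φ)]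
  have h3 : (U : Matrix n n A).map φ = u := hU
  calc (↑U⁻¹ : Matrix n n A).map φ = v * (u * (↑U⁻¹ : Matrix n n A).map φ) := by
        rw [← Matrix.mul_assoc, hvu, Matrix.one_mul]
    _ = v := by rw [← h3, h2, Matrix.mul_one]

end

section Tietze

variable {X Y : Type*} [TopologicalSpace X] [TopologicalSpace Y] [CompactSpace X] [CompactSpace Y]
  [NormalSpace X]

/-- restriction along a closed embedding is a surjective ring hom -/
theorem restrict_surjective {i : C(Y, X)} (hi : IsClosedEmbedding i) :
    Function.Surjective (ContinuousMap.compRightAlgHom ℂ ℂ i) := fun f => by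
  obtain ⟨g, hg⟩ := f.exists_extension hi
  exact ⟨g, hg⟩

/-- restriction along a closed embedding is open -/
theorem restrict_isOpenMap {i : C(Y, X)} (hi : IsClosedEmbedding i) :
    IsOpenMap (ContinuousMap.compRightAlgHom ℂ ℂ i) := by
  let f : C(X, ℂ) →L[ℂ] C(Y, ℂ) :=
    ⟨(ContinuousMap.compRightAlgHom ℂ ℂ i).toLinearMap,
      ContinuousMap.compRightAlgHom_continuous ℂ ℂ i⟩
  exact f.isOpenMap (restrict_surjective hi)

end Tietze

end Crest.Agent.R204.Ex837
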