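import Mathlib
import Crest.Agent.R204.Ex2_837

/-!
# Row 204, block H, leaf H2 (helper313): paths of idempotents in a topological ring with open units
-/

set_option autoImplicit false

universe w

open Set Topology Filter
open scoped unitInterval

namespace Crest.Agent.R204.Banach313

section general

variable {R : Type*} [Ring R]

/-- the intertwiner `f e + (1 - f) (1 - e)` -/
def wt (f e : R) : R := f * e + (1 - f) * (1 - e)

theorem wt_self {e : R} (he : IsIdempotentElem e) : wt e e = 1 := by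
  have h1 : (1 - e) * (1 - e) = 1 - e := he.one_sub
  unfold wt
  rw [he.eq, h1]
  abel

/-- `f w = w e` -/
theorem mul_wt {e f : R} (he : IsIdempotentElem e) (hf : IsIdempotentElem f) :
    f * wt f e = wt f e * e := by
  unfold wt
  have h1 : f * (1 - f) = 0 := by rw [mul_sub, mul_one, hf.eq, sub_self]
  have h2 : (1 - e) * e = 0 := by rw [sub_mul, one_mul, he.eq, sub_self]
  rw [mul_add, ← mul_assoc, hf.eq, ← mul_assoc f, h1, zero_mul, add_zero, add_mul, mul_assoc f e e,
    he.eq, mul_assoc, h2, mul_zero, add_zero]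

theorem map_wt {S : Type*} [Ring S] (ρ : R →+* S) (f e : R) : ρ (wt f e) = wt (ρ f) (ρ e) := by
  simp [wt]

variable [TopologicalSpace R] [IsTopologicalRing R]

theorem continuous_wt : Continuous (fun p : R × R => wt p.1 p.2) := by
  unfold wt
  fun_prop

/-- truncation of the parameter -/
noncomputable def mt (N i : ℕ) (t : I) : I :=
  ⟨min (t : ℝ) ((i : ℝ) / N), le_min t.2.1 (by positivity), (min_le_left _ _).trans t.2.2⟩

theorem continuous_mt (N i : ℕ) : Continuous (mt N i) := by
  unfold mt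
  fun_prop

theorem mt_zero (N : ℕ) (t : I) : mt N 0 t = 0 := by
  ext
  simp only [mt, Nat.cast_zero, zero_div, Icc.coe_zero]
  exact min_eq_right t.2.1

theorem mt_at_zero (N i : ℕ) : mt N i 0 = 0 := by
  ext
  simp only [mt, Icc.coe_zero]
  exact min_eq_left (by positivity)

theorem mt_self {N : ℕ} (hN : 0 < N) (t : I) : mt N N t = t := by
  ext
  simp only [mt]
  rw [div_self (by positivity)]
  exact min_eq_left t.2.2

theorem dist_mt {N : ℕ} (hN : 0 < N) (i : ℕ) (t : I) : dist (mt N (i + 1) t) (mt N i t) ≤ 1 / N := by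
  rw [Subtype.dist_eq, Real.dist_eq]
  have hN' : (0 : ℝ) < N := by exact_mod_cast hN
  have h1 : ((i : ℝ) + 1) / N = (i : ℝ) / N + 1 / N := by ring
  have h2 : (0 : ℝ) < 1 / N := by positivity
  simp only [mt, Nat.cast_add, Nat.cast_one, h1]
  have e : |min (t : ℝ) ((i : ℝ) / N + 1 / N) - min (t : ℝ) ((i : ℝ) / N)|
      ≤ max |(t : ℝ) - t| |((i : ℝ) / N + 1 / N) - (i : ℝ) / N| :=
    abs_min_sub_min_le_max _ _ _ _
  refine e.trans ?_
  rw [sub_self, abs_zero, add_sub_cancel_left, abs_of_pos h2]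
  exact max_le h2.le le_rfl

/-- **Path lifting for idempotents**: a path of idempotents is conjugated to its initial point by a
path of units starting at `1`; wherever a ring homomorphism `ρ` makes the path constant, it makes
the units trivial. -/
theorem exists_path_conj (hR : IsOpenEmbedding (Units.val : Rˣ → R)) (e : I → R)
    (hc : Continuous e) (he : ∀ t, IsIdempotentElem (e t)) :
    ∃ g : I → Rˣ, Continuous g ∧ g 0 = 1 ∧ (∀ t, e t * g t = g t * e 0) ∧
      ∀ {S : Type w} [Ring S] (ρ : R →+* S), (∀ t, ρ (e t) = ρ (e 0)) → ∀ t, ρ (g t) = 1 := by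
  -- a uniform `δ`
  have hF : Continuous (fun p : I × I => wt (e p.1) (e p.2)) :=
    continuous_wt.comp ((hc.comp continuous_fst).prodMk (hc.comp continuous_snd))
  have hU : IsOpen {p : I × I | wt (e p.1) (e p.2) ∈ range (Units.val : Rˣ → R)} :=
    hR.isOpen_range.preimage hF
  have hmem : {p : I × I | wt (e p.1) (e p.2) ∈ range (Units.val : Rˣ → R)} ∈ uniformity I := by
    rw [← nhdsSet_diagonal_eq_uniformity, hU.mem_nhdsSet]
    rintro ⟨a, b⟩ hab
    have : a = b := hab
    subst this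
    exact ⟨1, by simp [wt_self (he a)]⟩
  obtain ⟨δ, hδ, hδU⟩ := Metric.mem_uniformity_dist.mp hmem
  obtain ⟨N, hN⟩ := exists_nat_one_div_lt hδ
  have hN' : (1 : ℝ) / (N + 1 : ℕ) < δ := by exact_mod_cast hN
  have hunit : ∀ (i : ℕ) (t : I),
      wt (e (mt (N + 1) (i + 1) t)) (e (mt (N + 1) i t)) ∈ range (Units.val : Rˣ → R) :=
    fun i t => hδU ((dist_mt N.succ_pos i t).trans_lt hN')
  have key : ∀ i : ℕ, ∃ g : I → Rˣ, Continuous g ∧ g 0 = 1 ∧
      (∀ t, e (mt (N + 1) i t) * g t = g t * e 0) ∧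
      ∀ {S : Type w} [Ring S] (ρ : R →+* S), (∀ t, ρ (e t) = ρ (e 0)) → ∀ t, ρ (g t) = 1 := by
    intro i
    induction i with
    | zero =>
      refine ⟨fun _ => 1, continuous_const, rfl, fun t => ?_, fun ρ _ t => ?_⟩
      · rw [mt_zero]
        simp
      · simp
    | succ i ih =>
      obtain ⟨g, hg, hg0, hge, hgρ⟩ := ih
      choose u hu using hunit i
      have huc : Continuous u := by
        rw [hR.isEmbedding.continuous_iff]
        have : Units.val ∘ u = fun t => wt (e (mt (N + 1) (i + 1) t)) (e (mt (N + 1) i t)) :=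
          funext hu
        rw [this]
        exact continuous_wt.comp ((hc.comp (continuous_mt _ _)).prodMk
          (hc.comp (continuous_mt _ _)))
      refine ⟨fun t => u t * g t, huc.mul hg, ?_, fun t => ?_, fun ρ hρ t => ?_⟩
      · show u 0 * g 0 = 1
        rw [hg0, mul_one]
        ext
        rw [hu, mt_at_zero, mt_at_zero, wt_self (he 0)]
        rfl
      · rw [Units.val_mul, ← mul_assoc, hu, mul_wt (he _) (he _), mul_assoc, hge, mul_assoc]
      · rw [Units.val_mul, map_mul, hgρ ρ hρ t, mul_one, hu, map_wt, hρ, hρ (mt (N + 1) i t)]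
        exact wt_self ((he 0).map ρ)
  obtain ⟨g, hg, hg0, hge, hgρ⟩ := key (N + 1)
  refine ⟨g, hg, hg0, fun t => ?_, fun ρ hρ t => hgρ ρ hρ t⟩
  have := hge t
  rwa [mt_self N.succ_pos] at this

/-- Endpoint version: the two ends of a path of idempotents are conjugate by a unit. -/
theorem exists_conj_of_path (hR : IsOpenEmbedding (Units.val : Rˣ → R)) (e : I → R)
    (hc : Continuous e) (he : ∀ t, IsIdempotentElem (e t)) :
    ∃ g : Rˣ, e 1 = g * e 0 * ((g⁻¹ : Rˣ) : R) := by
  obtain ⟨g, -, -, h, -⟩ := exists_path_conj.{0} hR e hc he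
  exact ⟨g 1, by rw [Units.eq_mul_inv_iff_mul_eq, h 1]⟩

end general

section matrix

variable {n : Type*} [Fintype n] [DecidableEq n] {A B : Type*} [NormedRing A] [CompleteSpace A]
  [NormedRing B] [CompleteSpace B]

/-- Path lifting for idempotent matrices over a Banach algebra. -/
theorem exists_path_conj_matrix (e : I → Matrix n n A) (hc : Continuous e)
    (he : ∀ t, e t * e t = e t) :
    ∃ g g' : I → Matrix n n A, Continuous g ∧ Continuous g' ∧ (∀ t, g t * g' t = 1) ∧
      (∀ t, g' t * g t = 1) ∧ g 0 = 1 ∧ g' 0 = 1 ∧ (∀ t, e t = g t * e 0 * g' t) ∧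
      ∀ {S : Type w} [Ring S] (ρ : Matrix n n A →+* S), (∀ t, ρ (e t) = ρ (e 0)) →
        ∀ t, ρ (g t) = 1 ∧ ρ (g' t) = 1 := by
  obtain ⟨g, hg, hg0, hge, hgρ⟩ := exists_path_conj
    (Crest.Agent.R204.Ex837.isOpenEmbedding_val_matrix n A) e hc he
  refine ⟨fun t => g t, fun t => ((g t)⁻¹ : (Matrix n n A)ˣ), Units.continuous_val.comp hg,
    Units.continuous_val.comp hg.inv, fun t => (g t).mul_inv, fun t => (g t).inv_mul, ?_, ?_,
    fun t => ?_, fun ρ hρ t => ?_⟩
  · simp only [hg0, Units.val_one]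
  · simp only [hg0, inv_one, Units.val_one]
  · show e t = (g t : Matrix n n A) * e 0 * ((g t)⁻¹ : (Matrix n n A)ˣ)
    rw [Units.eq_mul_inv_iff_mul_eq, hge t]
  · have h1 := hgρ ρ hρ t
    refine ⟨h1, ?_⟩
    have h2 : ρ ((g t : Matrix n n A) * ((g t)⁻¹ : (Matrix n n A)ˣ)) = 1 := by
      rw [Units.mul_inv, map_one]
    rw [map_mul, h1, one_mul] at h2
    exact h2

/-- the two ends of a path of idempotent matrices are equivalent in `K₀` -/
theorem mvn_of_path (e : I → Matrix n n A) (hc : Continuous e) (he : ∀ t, e t * e t = e t) :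
    ∃ u v : Matrix n n A, u * v = e 1 ∧ v * u = e 0 := by
  obtain ⟨g, g', -, -, h1, h2, -, -, h3, -⟩ := exists_path_conj_matrix.{0} e hc he
  refine ⟨g 1 * e 0, e 0 * g' 1, ?_, ?_⟩
  · rw [Matrix.mul_assoc, ← Matrix.mul_assoc (e 0), he, h3 1, Matrix.mul_assoc]
  · rw [Matrix.mul_assoc, ← Matrix.mul_assoc (g' 1), h2, Matrix.one_mul, he]

/-- Homotopy invariance on the level of idempotents. -/
theorem mvn_of_homotopy (φ : I → A →+* B) (hφ : ∀ a, Continuous fun t => φ t a)
    {e : Matrix n n A} (he : e * e = e) :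
    ∃ u v : Matrix n n B, u * v = e.map (φ 1) ∧ v * u = e.map (φ 0) := by
  refine mvn_of_path (fun t => e.map (φ t)) ?_ fun t => ?_
  · exact continuous_matrix fun i j => hφ (e i j)
  · rw [← Matrix.map_mul, he]

end matrix

end Crest.Agent.R204.Banach313
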