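import Mathlib
import Crest.Agent.R204.HDegA_160
import Crest.Agent.R204.HDefs_472
import Crest.Agent.R204.HInv_313

/-!
# Row 204, block H, leaf DEG (helper160), part C

K-theory side: for `x ∈ K0 C(Y, ℂ)` the functional `g ↦ g^* x - const^* x ∈ K0 (SA N)` on
generalised loops `g : Ω^ N Y y` is homotopy invariant and additive.
-/

set_option autoImplicit false

open scoped unitInterval Topology Topology.Homotopy

namespace Crest.Agent.R204.HDeg160

open Crest.Agent.R204.K357 Crest.Agent.R204.HInv313 Crest.Agent.R204.H472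

section rot

variable {M : Type*} [Ring M] [Algebra ℂ M]

/-- the rotated idempotent is idempotent -/
theorem rot11 {a b : M} (ha : a * a = a) (hb : b * b = b) {c s : ℂ} (h : c * c + s * s = 1) :
    ((c * c) • a + (s * s) • b) * ((c * c) • a + (s * s) • b) +
      ((c * s) • (a - b)) * ((c * s) • (a - b)) = (c * c) • a + (s * s) • b := by
  have e : ((c * c) • a + (s * s) • b) * ((c * c) • a + (s * s) • b) +
      ((c * s) • (a - b)) * ((c * s) • (a - b)) =
      (c * c * (c * c + s * s)) • a + (s * s * (c * c + s * s)) • b := by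
    simp only [add_mul, mul_add, sub_mul, mul_sub, smul_mul_smul_comm, smul_sub, ha, hb,
      add_smul, mul_add]
    rw [show c * s * (c * s) = c * c * (s * s) by ring, show s * s * (c * c) = c * c * (s * s) by ring]
    abel
  rw [e, h, mul_one, mul_one]

theorem rot12 {a b : M} (ha : a * a = a) (hb : b * b = b) {c s : ℂ} (h : c * c + s * s = 1) :
    ((c * c) • a + (s * s) • b) * ((c * s) • (a - b)) +
      ((c * s) • (a - b)) * ((s * s) • a + (c * c) • b) = (c * s) • (a - b) := by
  have e : ((c * c) • a + (s * s) • b) * ((c * s) • (a - b)) +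
      ((c * s) • (a - b)) * ((s * s) • a + (c * c) • b) =
      ((c * c + s * s) * (c * s)) • (a - b) := by
    simp only [add_mul, mul_add, sub_mul, mul_sub, smul_mul_smul_comm, smul_sub, ha, hb,
      add_smul, mul_add]
    rw [show c * s * (s * s) = s * s * (c * s) by ring, show c * s * (c * c) = c * c * (c * s) by ring]
    abel
  rw [e, h, one_mul]

theorem rot21 {a b : M} (ha : a * a = a) (hb : b * b = b) {c s : ℂ} (h : c * c + s * s = 1) :
    ((c * s) • (a - b)) * ((c * c) • a + (s * s) • b) +
      ((s * s) • a + (c * c) • b) * ((c * s) • (a - b)) = (c * s) • (a - b) := by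
  have e : ((c * s) • (a - b)) * ((c * c) • a + (s * s) • b) +
      ((s * s) • a + (c * c) • b) * ((c * s) • (a - b)) =
      ((c * c + s * s) * (c * s)) • (a - b) := by
    simp only [add_mul, mul_add, sub_mul, mul_sub, smul_mul_smul_comm, smul_sub, ha, hb,
      add_smul, mul_add]
    rw [show c * s * (s * s) = s * s * (c * s) by ring, show c * s * (c * c) = c * c * (c * s) by ring]
    abel
  rw [e, h, one_mul]

theorem rot22 {a b : M} (ha : a * a = a) (hb : b * b = b) {c s : ℂ} (h : c * c + s * s = 1) :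
    ((c * s) • (a - b)) * ((c * s) • (a - b)) +
      ((s * s) • a + (c * c) • b) * ((s * s) • a + (c * c) • b) = (s * s) • a + (c * c) • b := by
  have e : ((c * s) • (a - b)) * ((c * s) • (a - b)) +
      ((s * s) • a + (c * c) • b) * ((s * s) • a + (c * c) • b) =
      (s * s * (c * c + s * s)) • a + (c * c * (c * c + s * s)) • b := by
    simp only [add_mul, mul_add, sub_mul, mul_sub, smul_mul_smul_comm, smul_sub, ha, hb,
      add_smul, mul_add]
    rw [show c * s * (c * s) = c * c * (s * s) by ring, show s * s * (c * c) = c * c * (s * s) by ring]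
    abel
  rw [e, h, mul_one, mul_one]

/-- rotated block idempotent -/
def rotM {n : Type*} {B : Type*} [Ring B] [Algebra ℂ B] (c s : ℂ) (M P Q b : Matrix n n B) :
    Matrix (n ⊕ n) (n ⊕ n) B :=
  Matrix.fromBlocks ((c * c) • M + (s * s) • P) ((c * s) • (Q - b)) ((c * s) • (Q - b))
    ((s * s) • Q + (c * c) • b)

theorem rotM_idem {n : Type*} [Fintype n] [DecidableEq n] {B : Type*} [Ring B] [Algebra ℂ B]
    {c s : ℂ} (h : c * c + s * s = 1) {M P Q b : Matrix n n B} (hM : M * M = M) (hb : b * b = b)
    (hh : (M = P ∧ Q = b) ∨ (M = Q ∧ P = b)) :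
    rotM c s M P Q b * rotM c s M P Q b = rotM c s M P Q b := by
  unfold rotM
  rw [Matrix.fromBlocks_multiply]
  rcases hh with ⟨rfl, rfl⟩ | ⟨rfl, rfl⟩
  · simp only [sub_self, smul_zero, Matrix.zero_mul, Matrix.mul_zero, add_zero, zero_add,
      ← add_smul]
    rw [add_comm (s * s), h, one_smul, one_smul, hM, hb]
  · rw [rot11 hM hb h, rot12 hM hb h, rot21 hM hb h, rot22 hM hb h]

theorem rotM_map {n : Type*} {B C : Type*} [Ring B] [Algebra ℂ B] [Ring C] [Algebra ℂ C]
    (φ : B →ₐ[ℂ] C) (c s : ℂ) (M P Q b : Matrix n n B) :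
    (rotM c s M P Q b).map φ = rotM c s (M.map φ) (P.map φ) (Q.map φ) (b.map φ) := by
  ext (i | i) (j | j) <;> simp [rotM]

theorem idem_algmap {n : Type*} [Fintype n] {B C : Type*} [Ring B] [Algebra ℂ B] [Ring C]
    [Algebra ℂ C] (φ : B →ₐ[ℂ] C) {e : Matrix n n B} (he : e * e = e) :
    e.map φ * e.map φ = e.map φ :=
  idem_map φ.toRingHom he

/-- generic additivity lemma (rotation path) -/
theorem gen_add {n : Type} [Fintype n] [DecidableEq n] {B : Type} [NormedRing B]
    [NormedAlgebra ℂ B] [CompleteSpace B] {X : Type} (ev : X → B →ₐ[ℂ] ℂ)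
    (hsep : ∀ a b : B, (∀ x, ev x a = ev x b) → a = b) {M P Q b : Matrix n n B}
    (hM : M * M = M) (hP : P * P = P) (hQ : Q * Q = Q) (hb : b * b = b)
    (hh : ∀ x, (M.map (ev x) = P.map (ev x) ∧ Q.map (ev x) = b.map (ev x)) ∨
      (M.map (ev x) = Q.map (ev x) ∧ P.map (ev x) = b.map (ev x))) :
    K0.cls M + K0.cls b = K0.cls P + K0.cls Q := by
  let c : I → ℂ := fun s => (Real.cos ((s : ℝ) * (Real.pi / 2)) : ℂ)
  let s : I → ℂ := fun s => (Real.sin ((s : ℝ) * (Real.pi / 2)) : ℂ)
  have hcs : ∀ t, c t * c t + s t * s t = 1 := by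
    intro t
    simp only [c, s]
    norm_cast
    rw [← sq, ← sq]
    exact Real.cos_sq_add_sin_sq _
  have hc : Continuous c := by fun_prop
  have hs : Continuous s := by fun_prop
  let E : I → Matrix (n ⊕ n) (n ⊕ n) B := fun t => rotM (c t) (s t) M P Q b
  have hE : Continuous E := by
    refine continuous_matrix fun a a' => ?_
    rcases a with a | a <;> rcases a' with a' | a'
    · exact ((hc.mul hc).smul continuous_const).add ((hs.mul hs).smul continuous_const)
    · exact (hc.mul hs).smul continuous_const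
    · exact (hc.mul hs).smul continuous_const
    · exact ((hs.mul hs).smul continuous_const).add ((hc.mul hc).smul continuous_const)
  have hEi : ∀ t, E t * E t = E t := by
    intro t
    have hpt : ∀ x : X, (E t * E t).map (ev x) = (E t).map (ev x) := by
      intro x
      have h1 : (E t * E t).map (ev x) = (E t).map (ev x) * (E t).map (ev x) :=
        Matrix.map_mul (f := (ev x).toRingHom)
      rw [h1]
      simp only [E, rotM_map]
      exact rotM_idem (hcs t) (idem_algmap (ev x) hM) (idem_algmap (ev x) hb) (hh x)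
    ext a a'
    refine hsep _ _ fun x => ?_
    exact congrFun (congrFun (hpt x) a) a'
  have key := cls_of_path E hE hEi
  have e0 : E 0 = Matrix.fromBlocks M 0 0 b := by
    simp [E, rotM, c, s]
  have e1 : E 1 = Matrix.fromBlocks P 0 0 Q := by
    simp [E, rotM, c, s]
  rwa [e0, e1, K0.cls_sum hM hb, K0.cls_sum hP hQ] at key

end rot

section pull

variable {N : Type} {Y : Type} [TopologicalSpace Y] {y : Y}

/-- pull back of functions along a generalised loop -/
noncomputable def pull (g : Ω^ N Y y) : C(Y, ℂ) →ₐ[ℂ] SA N :=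
  (ContinuousMap.compRightAlgHom ℂ ℂ g.1).codRestrict (SA N) (fun a x hx x' hx' => by
    show a (g x) = a (g x')
    rw [GenLoop.boundary g x hx, GenLoop.boundary g x' hx'])

@[simp] theorem pull_apply (g : Ω^ N Y y) (a : C(Y, ℂ)) (x : N → I) :
    ((pull g a : SA N) : C(N → I, ℂ)) x = a (g x) := rfl

/-- the map induced on `K0` by a generalised loop -/
noncomputable def pullK (g : Ω^ N Y y) : K0 C(Y, ℂ) →+ K0 (SA N) := K0.map (pull g).toRingHom

theorem pullK_cls (g : Ω^ N Y y) {n : Type} [Fintype n] {e : Matrix n n C(Y, ℂ)}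
    (he : e * e = e) : pullK g (K0.cls e) = K0.cls (e.map (pull g)) :=
  K0.map_cls _ he

/-- homotopic loops induce the same map on `K0` -/
theorem pull_homotopic [Finite N] {f g : Ω^ N Y y} (h : GenLoop.Homotopic f g) :
    pullK f = pullK g := by
  obtain ⟨H⟩ := h
  have hb : ∀ t : I, ∀ x ∈ Cube.boundary N, H (t, x) = y := fun t x hx =>
    (H.prop' t x hx).trans (GenLoop.boundary f x hx)
  let F : I → Ω^ N Y y := fun t => ⟨H.toContinuousMap.curry t, fun x hx => hb t x hx⟩
  have key := map_eq_of_homotopy (A := C(Y, ℂ)) (B := SA N)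
    (fun t => (pull (F t)).toRingHom) (fun a => by
      refine Continuous.subtype_mk ?_ _
      exact (ContinuousMap.continuous_postcomp a).comp (H.toContinuousMap.curry).continuous)
  have e0 : F 0 = f := by
    ext x; exact H.apply_zero x
  have e1 : F 1 = g := by
    ext x; exact H.apply_one x
  simp only [e0, e1] at key
  exact key

theorem transAt_const_right [DecidableEq N] (i : N) (f : Ω^ N Y y) :
    GenLoop.Homotopic (GenLoop.transAt i f GenLoop.const) f := by
  have : Nonempty N := ⟨i⟩
  rw [← cls_eq_iff, ← cls_mul i, cls_const, one_mul]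

theorem transAt_const_left [DecidableEq N] (i : N) (f : Ω^ N Y y) :
    GenLoop.Homotopic (GenLoop.transAt i GenLoop.const f) f := by
  have : Nonempty N := ⟨i⟩
  rw [← cls_eq_iff, ← cls_mul i, cls_const, mul_one]

theorem transAt_cases [DecidableEq N] (i : N) (f g : Ω^ N Y y) (x : N → I) :
    (GenLoop.transAt i f g x = GenLoop.transAt i f GenLoop.const x ∧
      GenLoop.transAt i GenLoop.const g x = y) ∨
    (GenLoop.transAt i f g x = GenLoop.transAt i GenLoop.const g x ∧
      GenLoop.transAt i f GenLoop.const x = y) := by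
  simp only [GenLoop.transAt, GenLoop.coe_copy]
  by_cases h : (x i : ℝ) ≤ 1 / 2
  · left
    simp only [if_pos h, true_and]
    rfl
  · right
    simp only [if_neg h, true_and]
    rfl

/-- the key additivity, on classes of idempotents -/
theorem cls_transAt [DecidableEq N] [Finite N] (i : N) (f g : Ω^ N Y y) {n : Type}
    [Fintype n] [DecidableEq n] {e : Matrix n n C(Y, ℂ)} (he : e * e = e) :
    K0.cls (e.map (pull (GenLoop.transAt i f g))) +
        K0.cls (e.map (pull (GenLoop.const : Ω^ N Y y))) =
      K0.cls (e.map (pull f)) + K0.cls (e.map (pull g)) := by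
  have i1 := idem_algmap (B := C(Y, ℂ)) (C := SA N) (pull (GenLoop.transAt i f g)) he
  have i2 := idem_algmap (B := C(Y, ℂ)) (C := SA N) (pull (GenLoop.transAt i f (GenLoop.const : Ω^ N Y y))) he
  have i3 := idem_algmap (B := C(Y, ℂ)) (C := SA N) (pull (GenLoop.transAt i (GenLoop.const : Ω^ N Y y) g)) he
  have i4 := idem_algmap (B := C(Y, ℂ)) (C := SA N) (pull (GenLoop.const : Ω^ N Y y)) he
  have key := gen_add (B := SA N) (X := N → I) (fun x => CR.ev x)
    (fun a b h => Subtype.ext (ContinuousMap.ext h)) i1 i2 i3 i4 (fun x => by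
      have hmap : ∀ k : Ω^ N Y y, (e.map (pull k)).map (CR.ev x : SA N →ₐ[ℂ] ℂ) =
          e.map (fun a => a (k x)) := by
        intro k; ext a a'; rfl
      rw [hmap, hmap, hmap, hmap]
      rcases transAt_cases i f g x with ⟨h2, h3⟩ | ⟨h2, h3⟩
      · left
        rw [h2, h3]
        exact ⟨rfl, rfl⟩
      · right
        rw [h2, h3]
        exact ⟨rfl, rfl⟩)
  have hh : ∀ {k k' : Ω^ N Y y}, GenLoop.Homotopic k k' →
      K0.cls (e.map (pull k)) = K0.cls (e.map (pull k')) := by
    intro k k' hk
    rw [← pullK_cls _ he, ← pullK_cls _ he, pull_homotopic hk]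
  rwa [hh (transAt_const_right i f), hh (transAt_const_left i g)] at key

/-- additivity of `g ↦ g^* x` -/
theorem map_transAt [DecidableEq N] [Finite N] (i : N) (f g : Ω^ N Y y) (x : K0 C(Y, ℂ)) :
    pullK (GenLoop.transAt i f g) x + pullK (GenLoop.const : Ω^ N Y y) x =
      pullK f x + pullK g x := by
  have h : pullK (GenLoop.transAt i f g) + pullK (GenLoop.const : Ω^ N Y y) =
      pullK f + pullK g := by
    refine K0.addHom_ext fun n e he => ?_
    simp only [AddMonoidHom.add_apply, pullK_cls _ he]
    exact cls_transAt i f g he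
  exact DFunLike.congr_fun h x

/-- the K-theory functional of a class `x` -/
noncomputable def kfun (x : K0 C(Y, ℂ)) (g : Ω^ N Y y) : K0 (SA N) :=
  pullK g x - pullK (GenLoop.const : Ω^ N Y y) x

theorem kfun_transAt [DecidableEq N] [Finite N] (i : N) (x : K0 C(Y, ℂ)) (f g : Ω^ N Y y) :
    kfun x (GenLoop.transAt i f g) = kfun x f + kfun x g := by
  unfold kfun
  have := map_transAt i f g x
  rw [sub_eq_iff_eq_add]
  rw [← eq_sub_iff_add_eq] at this
  rw [this]
  abel

theorem kfun_homotopic [Finite N] (x : K0 C(Y, ℂ)) {f g : Ω^ N Y y}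
    (h : GenLoop.Homotopic f g) : kfun x f = kfun x g := by
  unfold kfun
  rw [pull_homotopic h]

/-- restriction to the base point -/
noncomputable def resK (y : Y) : K0 C(Y, ℂ) →+ K0 ℂ :=
  K0.map (ContinuousMap.evalAlgHom ℂ ℂ y : C(Y, ℂ) →ₐ[ℂ] ℂ).toRingHom

/-- if `x` restricts to `0` at the base point then the constant loop contributes `0` -/
theorem map_pull_const (x : K0 C(Y, ℂ)) (hx : resK y x = 0) :
    pullK (GenLoop.const : Ω^ N Y y) x = 0 := by
  have h : (pull (GenLoop.const : Ω^ N Y y)).toRingHom =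
      (algebraMap ℂ (SA N)).comp
        (ContinuousMap.evalAlgHom ℂ ℂ y : C(Y, ℂ) →ₐ[ℂ] ℂ).toRingHom := by
    ext a x; rfl
  unfold pullK
  rw [h, K0.map_comp]
  exact (congrArg _ hx).trans (map_zero _)

/-- **K-degree**: if `cls g = cls ι ^ D` then `g^* x = D • ι^* x` for every reduced class `x`. -/
theorem k_degree [DecidableEq N] [Nonempty N] [Finite N] (x : K0 C(Y, ℂ)) (hx : resK y x = 0)
    (ι g : Ω^ N Y y) (D : ℤ) (h : cls g = cls ι ^ D) :
    pullK g x = D • pullK ι x := by
  have i : N := Classical.arbitrary N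
  have := additive_degree i (kfun x) (fun f g h => kfun_homotopic x h)
    (fun f g => kfun_transAt i x f g) ι g D h
  unfold kfun at this
  rw [map_pull_const x hx, sub_zero, sub_zero] at this
  exact this

end pull

end Crest.Agent.R204.HDeg160
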