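import Crest.Agent.R204.HDefs_472

/-!
# Row 204, block H: identifications of the sphere algebras (helper472)

`CR.comapEquiv`: a relative homeomorphism `(X, A) → (X', A')` (continuous, onto, identifying only points of `A`,
`A = p⁻¹ A'`) of compact spaces induces an isomorphism `CR X' A' ≃ₐ CR X A`.
-/

set_option autoImplicit false

open scoped unitInterval Topology Topology.Homotopy

noncomputable section

namespace Crest.Agent.R204.H472

section

variable {X X' : Type} [TopologicalSpace X] [TopologicalSpace X'] {A : Set X} {A' : Set X'}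

theorem CR.comap_injective (p : C(X, X')) (hp : Set.MapsTo p A A') (hs : Function.Surjective p) :
    Function.Injective (CR.comap p hp) := by
  intro a b hab
  apply Subtype.ext
  apply ContinuousMap.ext
  intro x'
  obtain ⟨x, rfl⟩ := hs x'
  have := congrArg (fun c : CR X A => (c : C(X, ℂ)) x) hab
  simpa using this

theorem CR.comap_surjective [CompactSpace X] [T2Space X'] (p : C(X, X')) (hp : Set.MapsTo p A A')
    (hs : Function.Surjective p) (hA : ∀ x, p x ∈ A' → x ∈ A)
    (hf : ∀ x z, p x = p z → x = z ∨ (x ∈ A ∧ z ∈ A)) :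
    Function.Surjective (CR.comap p hp) := by
  intro a
  have hq : Topology.IsQuotientMap p := (p.continuous.isClosedMap).isQuotientMap p.continuous hs
  let b : C(X', ℂ) := hq.lift (a : C(X, ℂ)) (by
    intro x z hxz
    rcases hf x z hxz with h | ⟨h1, h2⟩
    · rw [h]
    · exact a.2 _ h1 _ h2)
  have hb : ∀ x, b (p x) = (a : C(X, ℂ)) x := by
    intro x
    have := congrArg (fun c : C(X, ℂ) => c x) (hq.lift_comp (a : C(X, ℂ)) (by
      intro x z hxz
      rcases hf x z hxz with h | ⟨h1, h2⟩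
      · rw [h]
      · exact a.2 _ h1 _ h2))
    exact this
  refine ⟨⟨b, ?_⟩, ?_⟩
  · intro x' hx' y' hy'
    obtain ⟨x, rfl⟩ := hs x'
    obtain ⟨z, rfl⟩ := hs y'
    rw [hb, hb]
    exact a.2 _ (hA _ hx') _ (hA _ hy')
  · apply Subtype.ext
    apply ContinuousMap.ext
    intro x
    exact hb x

/-- relative homeomorphisms induce isomorphisms -/
def CR.comapEquiv [CompactSpace X] [T2Space X'] (p : C(X, X')) (hp : Set.MapsTo p A A')
    (hs : Function.Surjective p) (hA : ∀ x, p x ∈ A' → x ∈ A)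
    (hf : ∀ x z, p x = p z → x = z ∨ (x ∈ A ∧ z ∈ A)) : CR X' A' ≃ₐ[ℂ] CR X A :=
  AlgEquiv.ofBijective (CR.comap p hp) ⟨CR.comap_injective p hp hs, CR.comap_surjective p hp hs hA hf⟩

end

/-- a collapse map `I^N → Y` exhibiting `Y` as `I^N / bd` with base point `y` -/
structure Collapse (N : Type) (Y : Type) [TopologicalSpace Y] (y : Y) where
  p : C(N → I, Y)
  surj : Function.Surjective p
  fib : ∀ x z, p x = p z → x = z ∨ (x ∈ Cube.boundary N ∧ z ∈ Cube.boundary N)
  bd : ∀ x, p x = y ↔ x ∈ Cube.boundary N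

namespace Collapse

variable {N M : Type} {Y Z : Type} [TopologicalSpace Y] [TopologicalSpace Z] {y : Y} {z : Z}

/-- the collapse map as a generalised loop -/
def loop (c : Collapse N Y y) : GenLoop N Y y := ⟨c.p, fun x hx => (c.bd x).2 hx⟩

/-- all continuous functions on `Y` are constant on the base point -/
def top (Y : Type) [TopologicalSpace Y] (y : Y) : C(Y, ℂ) ≃ₐ[ℂ] CR Y {y} where
  toFun a := ⟨a, by
    intro x hx x' hx'
    rw [Set.mem_singleton_iff.1 hx, Set.mem_singleton_iff.1 hx']⟩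
  invFun a := a
  left_inv _ := rfl
  right_inv _ := rfl
  map_mul' _ _ := rfl
  map_add' _ _ := rfl
  commutes' _ := rfl

/-- `C(Y) ≃ SA N` -/
def equiv [T2Space Y] (c : Collapse N Y y) : C(Y, ℂ) ≃ₐ[ℂ] SA N :=
  (top Y y).trans (CR.comapEquiv c.p (fun x hx => (c.bd x).2 hx) c.surj
    (fun x hx => (c.bd x).1 hx) c.fib)

@[simp] theorem equiv_apply [T2Space Y] (c : Collapse N Y y) (a : C(Y, ℂ)) (x : N → I) :
    ((c.equiv a : SA N) : C(N → I, ℂ)) x = a (c.p x) := rfl

/-- boundary of a product of cubes -/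
def bd2 (N M : Type) : Set ((N → I) × (M → I)) := {q | q.1 ∈ Cube.boundary N ∨ q.2 ∈ Cube.boundary M}

/-- the smash product of two spheres -/
def smashEquiv [T2Space Y] [T2Space Z] (c : Collapse N Y y) (d : Collapse M Z z) :
    Smash y z ≃ₐ[ℂ] CR ((N → I) × (M → I)) (bd2 N M) :=
  CR.comapEquiv (c.p.prodMap d.p)
    (by
      rintro ⟨x, x'⟩ (h | h)
      · exact Or.inl ((c.bd x).2 h)
      · exact Or.inr ((d.bd x').2 h))
    (by
      rintro ⟨a, b⟩
      obtain ⟨x, rfl⟩ := c.surj a
      obtain ⟨x', rfl⟩ := d.surj b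
      exact ⟨(x, x'), rfl⟩)
    (by
      rintro ⟨x, x'⟩ (h | h)
      · exact Or.inl ((c.bd x).1 h)
      · exact Or.inr ((d.bd x').1 h))
    (by
      rintro ⟨x, x'⟩ ⟨w, w'⟩ h
      have h1 : c.p x = c.p w := congrArg Prod.fst h
      have h2 : d.p x' = d.p w' := congrArg Prod.snd h
      rcases c.fib _ _ h1 with h3 | ⟨h3, h4⟩
      · rcases d.fib _ _ h2 with h5 | ⟨h5, h6⟩
        · left; rw [h3, h5]
        · right; exact ⟨Or.inr h5, Or.inr h6⟩
      · right; exact ⟨Or.inl h3, Or.inl h4⟩)

@[simp] theorem smashEquiv_apply [T2Space Y] [T2Space Z] (c : Collapse N Y y) (d : Collapse M Z z)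
    (a : Smash y z) (q : (N → I) × (M → I)) :
    ((c.smashEquiv d a : CR ((N → I) × (M → I)) (bd2 N M)) : C((N → I) × (M → I), ℂ)) q
      = (a : C(Y × Z, ℂ)) (c.p q.1, d.p q.2) := rfl

end Collapse

/-- general homeomorphism invariance -/
def CR.congr {X X' : Type} [TopologicalSpace X] [TopologicalSpace X'] {A : Set X} {A' : Set X'}
    (h : X ≃ₜ X') (hA : ∀ x, x ∈ A ↔ h x ∈ A') : CR X' A' ≃ₐ[ℂ] CR X A where
  toFun := CR.comap ⟨h, h.continuous⟩ (fun x hx => (hA x).1 hx)
  invFun := CR.comap ⟨h.symm, h.symm.continuous⟩ (fun x hx => (hA _).2 (by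
    show h (h.symm x) ∈ A'
    rw [h.apply_symm_apply]; exact hx))
  left_inv a := by
    apply Subtype.ext
    apply ContinuousMap.ext
    intro x
    show (a : C(X', ℂ)) (h (h.symm x)) = _
    rw [h.apply_symm_apply]
  right_inv a := by
    apply Subtype.ext
    apply ContinuousMap.ext
    intro x
    show (a : C(X, ℂ)) (h.symm (h x)) = _
    rw [h.symm_apply_apply]
  map_mul' a b := map_mul _ a b
  map_add' a b := map_add _ a b
  commutes' r := AlgHom.commutes _ r

@[simp] theorem CR.congr_apply {X X' : Type} [TopologicalSpace X] [TopologicalSpace X'] {A : Set X} {A' : Set X'}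
    (h : X ≃ₜ X') (hA : ∀ x, x ∈ A ↔ h x ∈ A') (a : CR X' A') (x : X) :
    ((CR.congr h hA a : CR X A) : C(X, ℂ)) x = (a : C(X', ℂ)) (h x) := rfl

/-- `I^N × I ≃ₜ I^(N+1)`, new coordinate last -/
def snocHomeo (N : ℕ) : ((Fin N → I) × I) ≃ₜ (Fin (N + 1) → I) where
  toFun q := Fin.snoc (α := fun _ => I) q.1 q.2
  invFun w := (Fin.init w, w (Fin.last N))
  left_inv q := by simp
  right_inv w := by simp
  continuous_toFun := by
    refine continuous_pi fun i => ?_
    refine Fin.lastCases ?_ (fun j => ?_) i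
    · simp only [Fin.snoc_last]; exact continuous_snd
    · simp only [Fin.snoc_castSucc]; exact (continuous_apply j).comp continuous_fst
  continuous_invFun := by
    refine Continuous.prodMk (continuous_pi fun i => continuous_apply _) (continuous_apply _)

theorem snocHomeo_mem (N : ℕ) (q : (Fin N → I) × I) :
    q ∈ bdI (Fin N) ↔ snocHomeo N q ∈ Cube.boundary (Fin (N + 1)) := by
  constructor
  · rintro (⟨i, hi⟩ | h | h)
    · refine ⟨i.castSucc, ?_⟩
      simpa [snocHomeo] using hi
    · refine ⟨Fin.last N, Or.inl ?_⟩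
      simpa [snocHomeo] using h
    · refine ⟨Fin.last N, Or.inr ?_⟩
      simpa [snocHomeo] using h
  · rintro ⟨i, hi⟩
    revert hi
    refine Fin.lastCases (fun hi => ?_) (fun j hi => ?_) i
    · right
      simpa [snocHomeo] using hi
    · left
      refine ⟨j, ?_⟩
      simpa [snocHomeo] using hi

/-- `I^N × I^M ≃ₜ I^(N+M)` -/
def appendHomeo (N M : ℕ) : ((Fin N → I) × (Fin M → I)) ≃ₜ (Fin (N + M) → I) where
  toFun q := Fin.append q.1 q.2
  invFun w := (fun i => w (Fin.castAdd M i), fun j => w (Fin.natAdd N j))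
  left_inv q := by simp
  right_inv w := by
    ext i
    refine Fin.addCases (fun j => ?_) (fun j => ?_) i <;> simp
  continuous_toFun := by
    refine continuous_pi fun i => ?_
    refine Fin.addCases (fun j => ?_) (fun j => ?_) i
    · simp only [Fin.append_left]; exact (continuous_apply j).comp continuous_fst
    · simp only [Fin.append_right]; exact (continuous_apply j).comp continuous_snd
  continuous_invFun := by
    refine Continuous.prodMk (continuous_pi fun i => continuous_apply _)
      (continuous_pi fun i => continuous_apply _)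

theorem appendHomeo_mem (N M : ℕ) (q : (Fin N → I) × (Fin M → I)) :
    q ∈ Collapse.bd2 (Fin N) (Fin M) ↔ appendHomeo N M q ∈ Cube.boundary (Fin (N + M)) := by
  constructor
  · rintro (⟨i, hi⟩ | ⟨i, hi⟩)
    · refine ⟨Fin.castAdd M i, ?_⟩
      simpa [appendHomeo] using hi
    · refine ⟨Fin.natAdd N i, ?_⟩
      simpa [appendHomeo] using hi
  · rintro ⟨i, hi⟩
    revert hi
    refine Fin.addCases (fun j hi => ?_) (fun j hi => ?_) i
    · left
      refine ⟨j, ?_⟩
      simpa [appendHomeo] using hi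
    · right
      refine ⟨j, ?_⟩
      simpa [appendHomeo] using hi

/-- `SA (Fin (N+M)) ≃ CR (I^N × I^M) bd` -/
def appendEquiv (N M : ℕ) :
    SA (Fin (N + M)) ≃ₐ[ℂ] CR ((Fin N → I) × (Fin M → I)) (Collapse.bd2 (Fin N) (Fin M)) :=
  CR.congr (appendHomeo N M) (appendHomeo_mem N M)

/-- `SA (Fin (N+1)) ≃ SA' (Fin N)` -/
def snocEquiv (N : ℕ) : SA (Fin (N + 1)) ≃ₐ[ℂ] SA' (Fin N) :=
  CR.congr (snocHomeo N) (snocHomeo_mem N)

end Crest.Agent.R204.H472
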