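import Crest.Agent.R204.HAlg_472

/-!
# Row 204, block H: the K-theoretic Hopf invariant one theorem, ring level (helper472)

`P = K(C_f)`, `S = K(S^{2m})` (via `q : C_f → S^{2m}`), `T = K(S^m)` (via the inclusion), `U = K(pt)`.
-/

set_option autoImplicit false

namespace Crest.Agent.R204.H472

theorem hopf_core {P S T U : Type*} [CommRing P] [CommRing S] [CommRing T] [CommRing U]
    (q : S →+* P) (res : P →+* T) (evS : S →+* U) (evT : T →+* U)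
    (ψ2P ψ3P : P →+* P) (ψ2S ψ3S : S →+* S) (ψ2T ψ3T : T →+* T)
    (n2q : ∀ s, ψ2P (q s) = q (ψ2S s)) (n3q : ∀ s, ψ3P (q s) = q (ψ3S s))
    (n2r : ∀ x, ψ2T (res x) = res (ψ2P x)) (n3r : ∀ x, ψ3T (res x) = res (ψ3P x))
    (hcomm : ∀ r, ψ2P (ψ3P r) = ψ3P (ψ2P r)) (h2 : ∀ r, ∃ s, ψ2P r = r ^ 2 + 2 * s)
    {a : ℕ} (ha : 1 ≤ a)
    (bT : T) (hbT : evT bT = 0) (freeT : ∀ n : ℤ, n • bT = 0 → n = 0)
    (genT : ∀ t, evT t = 0 → ∃ n : ℤ, t = n • bT)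
    (bS : S) (hbS : evS bS = 0) (freeS : ∀ n : ℤ, n • bS = 0 → n = 0)
    (genS : ∀ s, evS s = 0 → ∃ n : ℤ, s = n • bS)
    (ψ2b : ψ2T bT = (2 : ℤ) ^ a • bT) (ψ3b : ψ3T bT = (3 : ℤ) ^ a • bT)
    (ψ2c : ψ2S bS = (4 : ℤ) ^ a • bS) (ψ3c : ψ3S bS = (9 : ℤ) ^ a • bS)
    (res_q : ∀ s, evS s = 0 → res (q s) = 0)
    (ex : ∀ x, res x = 0 → ∃ s, evS s = 0 ∧ q s = x)
    (surj : ∃ x, res x = bT)
    (inj : ∀ s, evS s = 0 → q s = 0 → s = 0)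
    (htwo : ∀ u : U, 2 * u = 0 → u = 0)
    (sq : ∀ x, res x = bT → ∃ D : ℤ, Odd D ∧ x ^ 2 = D • q bS) : a = 1 ∨ a = 2 ∨ a = 4 := by
  obtain ⟨x, hx⟩ := surj
  obtain ⟨D, hD, hxx⟩ := sq x hx
  have hμ2 : ∃ μ2 : ℤ, ψ2P x = (2 : ℤ) ^ a • x + μ2 • q bS := by
    obtain ⟨s, hs0, hs⟩ := ex (ψ2P x - (2 : ℤ) ^ a • x) (by
      rw [map_sub, map_zsmul, ← n2r, hx, ψ2b, sub_self])
    obtain ⟨n, rfl⟩ := genS s hs0
    exact ⟨n, by rw [← map_zsmul, hs]; abel⟩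
  have hμ3 : ∃ μ3 : ℤ, ψ3P x = (3 : ℤ) ^ a • x + μ3 • q bS := by
    obtain ⟨s, hs0, hs⟩ := ex (ψ3P x - (3 : ℤ) ^ a • x) (by
      rw [map_sub, map_zsmul, ← n3r, hx, ψ3b, sub_self])
    obtain ⟨n, rfl⟩ := genS s hs0
    exact ⟨n, by rw [← map_zsmul, hs]; abel⟩
  obtain ⟨μ2, hμ2⟩ := hμ2
  obtain ⟨μ3, hμ3⟩ := hμ3
  have hev : ∀ n : ℤ, evS (n • bS) = 0 := fun n => by rw [map_zsmul, hbS, smul_zero]
  have htf : ∀ n : ℤ, n • q bS = 0 → n = 0 := by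
    intro n hn
    apply freeS
    apply inj _ (hev n)
    rw [map_zsmul, hn]
  refine adams_core ψ2P ψ3P hcomm h2 ha hμ2 hμ3 ?_ ?_ hxx hD htf ?_
  · rw [n2q, ψ2c, map_zsmul]
  · rw [n3q, ψ3c, map_zsmul]
  · intro n w hw
    have h1 : 2 * res w = 0 := by
      have : res (n • q bS) = res (2 * w) := by rw [hw]
      rw [map_zsmul, res_q bS hbS, smul_zero, map_mul, map_ofNat] at this
      exact this.symm
    have h3 : evT (res w) = 0 := htwo _ (by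
      have : evT (2 * res w) = 0 := by rw [h1, map_zero]
      rwa [map_mul, map_ofNat] at this)
    obtain ⟨k, hk⟩ := genT _ h3
    have h4 : (2 * k) • bT = 0 := by
      rw [mul_smul, ← hk, two_smul, ← two_mul, h1]
    have hk0 : k = 0 := by
      have := freeT _ h4
      omega
    have h5 : res w = 0 := by rw [hk, hk0, zero_smul]
    obtain ⟨s, hs0, hs⟩ := ex w h5
    obtain ⟨c, rfl⟩ := genS s hs0
    have h6 : (n - 2 * c) • q bS = 0 := by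
      rw [sub_smul, hw, ← hs, map_zsmul, mul_smul, two_smul, two_mul, sub_self]
    have h7 := htf _ h6
    exact ⟨c, by omega⟩

end Crest.Agent.R204.H472
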