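import Mathlib
import Crest.Agent.R204.HDefs_472

/-!
# Row 204, block H, leaf DIAG (helper484): clamps and the explicit Hopf map

* `wl`, `wr` : the two "stretch" clamps of the unit interval,
* `CoP X A` : relative co-H data on a pair `(X, A)`; instances: cubes (`CoP.cube i`), `Q × I` (`CoP.cyl`),
* `G P c f` : the Hopf map `X × I → Y × Y` of a map of pairs `f : (X, A) → (Y, y)`.
-/

set_option autoImplicit false

open scoped unitInterval Topology Topology.Homotopy

noncomputable section

namespace Crest.Agent.R204.HopfMap484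

open Crest.Agent.R204.H472

/-! ## clamps -/

/-- left clamp `min 1 ((1+t) s)` -/
def wl (t s : I) : I := Set.projIcc (0 : ℝ) 1 zero_le_one ((1 + (t : ℝ)) * s)

/-- right clamp `max 0 ((1+t) s - t)` -/
def wr (t s : I) : I := Set.projIcc (0 : ℝ) 1 zero_le_one ((1 + (t : ℝ)) * s - t)

theorem continuous_wl : Continuous fun p : I × I => wl p.1 p.2 := by
  unfold wl
  exact continuous_projIcc.comp (by fun_prop)

theorem continuous_wr : Continuous fun p : I × I => wr p.1 p.2 := by
  unfold wr
  exact continuous_projIcc.comp (by fun_prop)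

@[fun_prop] theorem Continuous.wl {X : Type*} [TopologicalSpace X] {f g : X → I}
    (hf : Continuous f) (hg : Continuous g) : Continuous fun x => wl (f x) (g x) :=
  continuous_wl.comp (hf.prodMk hg)

@[fun_prop] theorem Continuous.wr {X : Type*} [TopologicalSpace X] {f g : X → I}
    (hf : Continuous f) (hg : Continuous g) : Continuous fun x => wr (f x) (g x) :=
  continuous_wr.comp (hf.prodMk hg)

@[simp] theorem wl_zero (s : I) : wl 0 s = s := by
  simp only [wl, Set.Icc.coe_zero, add_zero, one_mul]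
  exact Set.projIcc_val _ s

@[simp] theorem wr_zero (s : I) : wr 0 s = s := by
  simp only [wr, Set.Icc.coe_zero, add_zero, one_mul, sub_zero]
  exact Set.projIcc_val _ s

@[simp] theorem wl_right_zero (t : I) : wl t 0 = 0 := by
  simp only [wl, Set.Icc.coe_zero, mul_zero]
  exact Set.projIcc_left _

@[simp] theorem wl_right_one (t : I) : wl t 1 = 1 := by
  simp only [wl, Set.Icc.coe_one, mul_one]
  exact Set.projIcc_of_right_le _ (by linarith [t.2.1])

@[simp] theorem wr_right_zero (t : I) : wr t 0 = 0 := by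
  simp only [wr, Set.Icc.coe_zero, mul_zero, zero_sub]
  exact Set.projIcc_of_le_left _ (by linarith [t.2.1])

@[simp] theorem wr_right_one (t : I) : wr t 1 = 1 := by
  simp only [wr, Set.Icc.coe_one, mul_one, add_sub_cancel_right]
  exact Set.projIcc_right _

theorem wl_one_or (s : I) : wl 1 s = 1 ∨ wr 1 s = 0 := by
  rcases le_total (1 / 2 : ℝ) (s : ℝ) with h | h
  · left
    exact Set.projIcc_of_right_le _ (by simp only [Set.Icc.coe_one]; linarith)
  · right
    exact Set.projIcc_of_le_left _ (by simp only [Set.Icc.coe_one]; linarith)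

theorem wr_le_wl (t s : I) : wr t s ≤ wl t s :=
  Set.monotone_projIcc _ (by linarith [t.2.1])

/-- positive part of `t (1 + s) - s` -/
def pp (s t : I) : I := Set.projIcc (0 : ℝ) 1 zero_le_one ((t : ℝ) * (1 + s) - s)
/-- negative part of `t (1 + s) - s` -/
def nn (s t : I) : I := Set.projIcc (0 : ℝ) 1 zero_le_one ((s : ℝ) - t * (1 + s))

@[fun_prop] theorem Continuous.pp {X : Type*} [TopologicalSpace X] {f g : X → I}
    (hf : Continuous f) (hg : Continuous g) : Continuous fun x => pp (f x) (g x) := by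
  unfold HopfMap484.pp
  exact continuous_projIcc.comp (by fun_prop)

@[fun_prop] theorem Continuous.nn {X : Type*} [TopologicalSpace X] {f g : X → I}
    (hf : Continuous f) (hg : Continuous g) : Continuous fun x => nn (f x) (g x) := by
  unfold HopfMap484.nn
  exact continuous_projIcc.comp (by fun_prop)

@[simp] theorem pp_zero_left (t : I) : pp 0 t = t := by
  simp only [pp, Set.Icc.coe_zero, add_zero, mul_one, sub_zero]
  exact Set.projIcc_val _ t
@[simp] theorem nn_zero_left (t : I) : nn 0 t = 0 :=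
  Set.projIcc_of_le_left _ (by simp only [Set.Icc.coe_zero]; linarith [t.2.1])
@[simp] theorem pp_zero_right (s : I) : pp s 0 = 0 :=
  Set.projIcc_of_le_left _ (by simp only [Set.Icc.coe_zero]; linarith [s.2.1])
@[simp] theorem nn_zero_right (s : I) : nn s 0 = s := by
  simp only [nn, Set.Icc.coe_zero, zero_mul, sub_zero]
  exact Set.projIcc_val _ s
@[simp] theorem pp_one_right (s : I) : pp s 1 = 1 :=
  Set.projIcc_of_right_le _ (by simp only [Set.Icc.coe_one]; linarith)
@[simp] theorem nn_one_right (s : I) : nn s 1 = 0 :=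
  Set.projIcc_of_le_left _ (by simp only [Set.Icc.coe_one]; linarith)

/-- positive part of `2 t - 1` -/
abbrev up (t : I) : I := pp 1 t
/-- negative part of `2 t - 1` -/
abbrev dn (t : I) : I := nn 1 t

theorem coe_up (t : I) : (up t : ℝ) = max 0 (2 * (t : ℝ) - 1) := by
  have : (up t : ℝ) = max 0 (min 1 ((t : ℝ) * (1 + ((1 : I) : ℝ)) - ((1 : I) : ℝ))) := by
    simp only [pp, Set.coe_projIcc]
  rw [this]
  simp only [Set.Icc.coe_one]
  rw [min_eq_right (by linarith [t.2.2])]
  congr 1; ring

theorem coe_dn (t : I) : (dn t : ℝ) = max 0 (1 - 2 * (t : ℝ)) := by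
  have : (dn t : ℝ) = max 0 (min 1 (((1 : I) : ℝ) - (t : ℝ) * (1 + ((1 : I) : ℝ)))) := by
    simp only [nn, Set.coe_projIcc]
  rw [this]
  simp only [Set.Icc.coe_one]
  rw [min_eq_right (by linarith [t.2.1])]
  congr 1; ring

theorem up_of_le {t : I} (h : (t : ℝ) ≤ 1 / 2) : up t = 0 :=
  Set.projIcc_of_le_left _ (by simp only [Set.Icc.coe_one]; linarith)
theorem dn_of_ge {t : I} (h : (1 / 2 : ℝ) ≤ (t : ℝ)) : dn t = 0 :=
  Set.projIcc_of_le_left _ (by simp only [Set.Icc.coe_one]; linarith)

/-! ## relative co-H data -/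

/-- relative co-H data on a pair `(X, A)` -/
structure CoP (X : Type) [TopologicalSpace X] (A : Set X) where
  /-- first deformation of the identity -/
  w : C(I × X, X)
  /-- second deformation of the identity -/
  w' : C(I × X, X)
  w_zero : ∀ x, w (0, x) = x
  w'_zero : ∀ x, w' (0, x) = x
  w_mem : ∀ t x, x ∈ A → w (t, x) ∈ A
  w'_mem : ∀ t x, x ∈ A → w' (t, x) ∈ A
  one : ∀ x, w (1, x) ∈ A ∨ w' (1, x) ∈ A

/-- cubes, clamping the coordinate `i` -/
def CoP.cube {N : Type} [DecidableEq N] (i : N) : CoP (N → I) (Cube.boundary N) where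
  w := ⟨fun p => Function.update p.2 i (wl p.1 (p.2 i)), by fun_prop⟩
  w' := ⟨fun p => Function.update p.2 i (wr p.1 (p.2 i)), by fun_prop⟩
  w_zero x := by simp
  w'_zero x := by simp
  w_mem t x := by
    rintro ⟨j, hj⟩
    by_cases h : j = i
    · subst h
      refine ⟨j, ?_⟩
      simp only [ContinuousMap.coe_mk, Function.update_self]
      rcases hj with hj | hj
      · left; rw [hj, wl_right_zero]
      · right; rw [hj, wl_right_one]
    · exact ⟨j, by simpa [Function.update_of_ne h] using hj⟩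
  w'_mem t x := by
    rintro ⟨j, hj⟩
    by_cases h : j = i
    · subst h
      refine ⟨j, ?_⟩
      simp only [ContinuousMap.coe_mk, Function.update_self]
      rcases hj with hj | hj
      · left; rw [hj, wr_right_zero]
      · right; rw [hj, wr_right_one]
    · exact ⟨j, by simpa [Function.update_of_ne h] using hj⟩
  one x := by
    rcases wl_one_or (x i) with h | h
    · left; exact ⟨i, Or.inr (by simpa using h)⟩
    · right; exact ⟨i, Or.inl (by simpa using h)⟩

theorem CoP.cube_w {N : Type} [DecidableEq N] (i : N) (t : I) (x : N → I) :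
    (CoP.cube i).w (t, x) = Function.update x i (wl t (x i)) := rfl
theorem CoP.cube_w' {N : Type} [DecidableEq N] (i : N) (t : I) (x : N → I) :
    (CoP.cube i).w' (t, x) = Function.update x i (wr t (x i)) := rfl

/-- cylinders `Q × I` over a pair `(Q, B)` -/
def CoP.cyl {Q : Type} [TopologicalSpace Q] (B : Set Q) :
    CoP (Q × I) {p | p.1 ∈ B ∨ p.2 = 0 ∨ p.2 = 1} where
  w := ⟨fun p => (p.2.1, wl p.1 p.2.2), by fun_prop⟩
  w' := ⟨fun p => (p.2.1, wr p.1 p.2.2), by fun_prop⟩
  w_zero x := by simp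
  w'_zero x := by simp
  w_mem t x := by
    rintro (h | h | h)
    · exact Or.inl h
    · exact Or.inr (Or.inl (by simp [h]))
    · exact Or.inr (Or.inr (by simp [h]))
  w'_mem t x := by
    rintro (h | h | h)
    · exact Or.inl h
    · exact Or.inr (Or.inl (by simp [h]))
    · exact Or.inr (Or.inr (by simp [h]))
  one x := by
    rcases wl_one_or x.2 with h | h
    · left; exact Or.inr (Or.inr h)
    · right; exact Or.inr (Or.inl h)

theorem CoP.cyl_w {Q : Type} [TopologicalSpace Q] (B : Set Q) (t : I) (q : Q) (s : I) :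
    (CoP.cyl B).w (t, (q, s)) = (q, wl t s) := rfl
theorem CoP.cyl_w' {Q : Type} [TopologicalSpace Q] (B : Set Q) (t : I) (q : Q) (s : I) :
    (CoP.cyl B).w' (t, (q, s)) = (q, wr t s) := rfl

/-! ## the Hopf map -/

section hopf

variable {X Y : Type} [TopologicalSpace X] [TopologicalSpace Y] {A : Set X} {y : Y}

/-- the master map: `(x, p, n) ↦ (W n (f (w p x)), W' n (f (w' p x)))` -/
def GG (P : CoP X A) (c : CoH Y y) (f : C(X, Y)) : C(X × I × I, Y × Y) where
  toFun x := (c.W (x.2.2, f (P.w (x.2.1, x.1))), c.W' (x.2.2, f (P.w' (x.2.1, x.1))))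
  continuous_toFun := by fun_prop

theorem GG_apply (P : CoP X A) (c : CoH Y y) (f : C(X, Y)) (x : X) (p n : I) :
    GG P c f (x, p, n) = (c.W (n, f (P.w (p, x))), c.W' (n, f (P.w' (p, x)))) := rfl

theorem GG_mem_of_mem (P : CoP X A) (c : CoH Y y) (f : C(X, Y)) (hf : ∀ x ∈ A, f x = y) {x : X}
    (hx : x ∈ A) (p n : I) : GG P c f (x, p, n) ∈ wedge y y := by
  left
  show c.W (n, f (P.w (p, x))) = y
  rw [hf _ (P.w_mem p x hx), c.W_base]

theorem GG_one_zero (P : CoP X A) (c : CoH Y y) (f : C(X, Y)) (hf : ∀ x ∈ A, f x = y) (x : X) :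
    GG P c f (x, 1, 0) ∈ wedge y y := by
  rcases P.one x with h | h
  · left
    show c.W (0, f (P.w (1, x))) = y
    rw [hf _ h, c.W_base]
  · right
    show c.W' (0, f (P.w' (1, x))) = y
    rw [hf _ h, c.W'_base]

theorem GG_zero_one (P : CoP X A) (c : CoH Y y) (f : C(X, Y)) (x : X) :
    GG P c f (x, 0, 1) ∈ wedge y y := by
  rw [GG_apply, P.w_zero, P.w'_zero]
  exact c.one _

theorem GG_zero (P : CoP X A) (c : CoH Y y) (f : C(X, Y)) (x : X) (n : I) :
    GG P c f (x, 0, n) = (c.W (n, f x), c.W' (n, f x)) := by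
  rw [GG_apply, P.w_zero, P.w'_zero]

theorem GG_right_zero (P : CoP X A) (c : CoH Y y) (f : C(X, Y)) (x : X) (p : I) :
    GG P c f (x, p, 0) = (f (P.w (p, x)), f (P.w' (p, x))) := by
  rw [GG_apply, c.W_zero, c.W'_zero]

/-- the Hopf map of `f : (X, A) → (Y, y)`: for `t ≥ 1/2` it is
`(f (w u x), f (w' u x))`, `u = 2 t - 1`, and for `t ≤ 1/2` it is `(W v (f x), W' v (f x))`,
`v = 1 - 2 t`. -/
def G (P : CoP X A) (c : CoH Y y) (f : C(X, Y)) : C(X × I, Y × Y) where
  toFun x := GG P c f (x.1, up x.2, dn x.2)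
  continuous_toFun := by fun_prop

theorem G_apply (P : CoP X A) (c : CoH Y y) (f : C(X, Y)) (x : X) (t : I) :
    G P c f (x, t) = GG P c f (x, up t, dn t) := rfl

theorem G_of_ge (P : CoP X A) (c : CoH Y y) (f : C(X, Y)) (x : X) (t : I)
    (h : (1 / 2 : ℝ) ≤ (t : ℝ)) :
    G P c f (x, t) = (f (P.w (up t, x)), f (P.w' (up t, x))) := by
  rw [G_apply, dn_of_ge h, GG_right_zero]

theorem G_of_le (P : CoP X A) (c : CoH Y y) (f : C(X, Y)) (x : X) (t : I)
    (h : (t : ℝ) ≤ 1 / 2) :
    G P c f (x, t) = (c.W (dn t, f x), c.W' (dn t, f x)) := by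
  rw [G_apply, up_of_le h, GG_zero]

theorem G_mem_of_mem (P : CoP X A) (c : CoH Y y) (f : C(X, Y)) (hf : ∀ x ∈ A, f x = y) {x : X}
    (hx : x ∈ A) (t : I) : G P c f (x, t) ∈ wedge y y := GG_mem_of_mem P c f hf hx _ _

theorem G_zero (P : CoP X A) (c : CoH Y y) (f : C(X, Y)) (x : X) :
    G P c f (x, 0) ∈ wedge y y := by
  rw [G_apply]
  simp only [up, dn, pp_zero_right, nn_zero_right]
  exact GG_zero_one P c f x

theorem G_one (P : CoP X A) (c : CoH Y y) (f : C(X, Y)) (hf : ∀ x ∈ A, f x = y) (x : X) :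
    G P c f (x, 1) ∈ wedge y y := by
  rw [G_apply]
  simp only [up, dn, pp_one_right, nn_one_right]
  exact GG_one_zero P c f hf x

/-- the Hopf map is a map of pairs -/
theorem G_mapsTo {N : Type} (P : CoP (N → I) (Cube.boundary N)) (c : CoH Y y) (f : C(N → I, Y))
    (hf : ∀ x ∈ Cube.boundary N, f x = y) :
    Set.MapsTo (G P c f) (bdI N) (wedge y y) := by
  rintro ⟨x, t⟩ (h | h | h)
  · exact G_mem_of_mem P c f hf h t
  · simp only at h; subst h; exact G_zero P c f x
  · simp only at h; subst h; exact G_one P c f hf x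

end hopf

end Crest.Agent.R204.HopfMap484
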