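import Mathlib
import Crest.Agent.R204.HDefs_472
import Crest.Agent.R204.HopfMap_484
import Crest.Agent.R204.KDefs_357
import Crest.Agent.R204.HInv_313

/-!
# Row 204, block H, leaf DIAG (helper484): the diagonal of a mapping cone factors through the Hopf map

* `toCone` : a homomorphism to `ConeAlg y f` from a cell part and a base part,
* `K0.map` of `toCone` is homotopy invariant,
* `CC`, `CW` : functions on `C × C` and `C ∧ C` (`C` the mapping cone),
* `diag_eq` : on `K0 (CW)`, diagonal = collapse ∘ Hopf map ∘ restriction to `Y ∧ Y`.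
-/

set_option autoImplicit false

open scoped unitInterval Topology Topology.Homotopy

noncomputable section

namespace Crest.Agent.R204.Diag484

open Crest.Agent.R204.H472 Crest.Agent.R204.HopfMap484 Crest.Agent.R204.K357

variable {N : Type} {Y : Type} [TopologicalSpace Y] {y : Y} {f : GenLoop N Y y}

/-- `K0` of a homomorphism of subalgebras -/
abbrev kS {R R' : Type} [Ring R] [Ring R'] [Algebra ℂ R] [Algebra ℂ R'] {S : Subalgebra ℂ R}
    {S' : Subalgebra ℂ R'} (φ : S →ₐ[ℂ] S') : K0 S →+ K0 S' := K0.map (φ : S →+* S')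

theorem kS_comp {R R' R'' : Type} [Ring R] [Ring R'] [Ring R''] [Algebra ℂ R] [Algebra ℂ R']
    [Algebra ℂ R''] {S : Subalgebra ℂ R} {S' : Subalgebra ℂ R'} {S'' : Subalgebra ℂ R''}
    (ψ : S' →ₐ[ℂ] S'') (φ : S →ₐ[ℂ] S') (x : K0 S) : kS (ψ.comp φ) x = kS ψ (kS φ x) :=
  K0.map_comp (ψ : S' →+* S'') (φ : S →+* S') x

section toCone

variable {Z : Type} [TopologicalSpace Z]

/-- compatibility of a cell part and a base part on the functions in `S` -/
structure Compat (f : GenLoop N Y y) (S : Subalgebra ℂ C(Z, ℂ)) (α : (N → I) × I → Z)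
    (β : Y → Z) : Prop where
  zero : ∀ h ∈ S, ∀ x, h (α (x, 0)) = h (β (f x))
  bd : ∀ h ∈ S, ∀ x t, x ∈ Cube.boundary N → h (α (x, t)) = h (β y)
  one : ∀ h ∈ S, ∀ x, h (α (x, 1)) = h (β y)

/-- homomorphism to the algebra of the mapping cone -/
def toCone (S : Subalgebra ℂ C(Z, ℂ)) (α : C((N → I) × I, Z)) (β : C(Y, Z))
    (h : Compat f S α β) : S →ₐ[ℂ] ConeAlg y f :=
  ((((ContinuousMap.compRightAlgHom ℂ ℂ α).prod (ContinuousMap.compRightAlgHom ℂ ℂ β))).comp
    S.val).codRestrict (ConeAlg y f) (fun a =>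
      ⟨fun x => h.zero a.1 a.2 x, fun x t hx => h.bd a.1 a.2 x t hx, fun x => h.one a.1 a.2 x⟩)

@[simp] theorem toCone_fst (S : Subalgebra ℂ C(Z, ℂ)) (α : C((N → I) × I, Z)) (β : C(Y, Z))
    (h : Compat f S α β) (a : S) (p : (N → I) × I) :
    ((toCone S α β h a : ConeAlg y f) : C((N → I) × I, ℂ) × C(Y, ℂ)).1 p = (a : C(Z, ℂ)) (α p) := rfl

@[simp] theorem toCone_snd (S : Subalgebra ℂ C(Z, ℂ)) (α : C((N → I) × I, Z)) (β : C(Y, Z))
    (h : Compat f S α β) (a : S) (p : Y) :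
    ((toCone S α β h a : ConeAlg y f) : C((N → I) × I, ℂ) × C(Y, ℂ)).2 p = (a : C(Z, ℂ)) (β p) := rfl

/-- slice of a homotopy -/
def slice {P Q : Type} [TopologicalSpace P] [TopologicalSpace Q] (H : C(I × P, Q)) (s : I) : C(P, Q) :=
  H.curry s

@[simp] theorem slice_apply {P Q : Type} [TopologicalSpace P] [TopologicalSpace Q] (H : C(I × P, Q))
    (s : I) (p : P) : slice H s p = H (s, p) := rfl

theorem continuous_comp_slice {P Q : Type} [TopologicalSpace P] [TopologicalSpace Q]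
    (H : C(I × P, Q)) (a : C(Q, ℂ)) : Continuous fun s : I => a.comp (slice H s) := by
  exact ((a.comp H).curry).continuous

theorem toCone_homotopy [CompactSpace Y] (S : Subalgebra ℂ C(Z, ℂ)) (α : C(I × ((N → I) × I), Z))
    (β : C(I × Y, Z)) (h : ∀ s, Compat f S (slice α s) (slice β s)) :
    kS (toCone S (slice α 0) (slice β 0) (h 0)) = kS (toCone S (slice α 1) (slice β 1) (h 1)) := by
  have key := HInv313.map_eq_of_homotopy (A := S) (B := ConeAlg y f)
    (fun s => ((toCone S (slice α s) (slice β s) (h s) : S →ₐ[ℂ] ConeAlg y f) : S →+* ConeAlg y f))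
    (fun a => ?_)
  · exact key
  · refine Continuous.subtype_mk ?_ _
    exact (continuous_comp_slice α a.1).prodMk (continuous_comp_slice β a.1)

theorem toCone_congr (S : Subalgebra ℂ C(Z, ℂ)) {α α' : C((N → I) × I, Z)} {β β' : C(Y, Z)}
    (h : Compat f S α β) (h' : Compat f S α' β') (hα : ∀ a ∈ S, ∀ p, a (α p) = a (α' p))
    (hβ : ∀ a ∈ S, ∀ p, a (β p) = a (β' p)) : toCone S α β h = toCone S α' β' h' := by
  refine AlgHom.ext fun a => Subtype.ext (Prod.ext ?_ ?_)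
  · ext p; exact hα a.1 a.2 p
  · ext p; exact hβ a.1 a.2 p

end toCone

/-! ## functions on `C × C` and `C ∧ C` -/

/-- cell ⊔ base -/
abbrev Zc (N Y : Type) : Type := ((N → I) × I) ⊕ Y

/-- the gluing relation of the mapping cone -/
def Glue (f : GenLoop N Y y) : Zc N Y → Zc N Y → Prop
  | Sum.inl p, Sum.inr z => (p.2 = 0 ∧ z = f p.1) ∨ (p.1 ∈ Cube.boundary N ∧ z = y) ∨ (p.2 = 1 ∧ z = y)
  | _, _ => False

theorem glue_zero (f : GenLoop N Y y) (x : N → I) : Glue f (Sum.inl (x, 0)) (Sum.inr (f x)) :=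
  Or.inl ⟨rfl, rfl⟩
theorem glue_bd (f : GenLoop N Y y) {x : N → I} (hx : x ∈ Cube.boundary N) (t : I) :
    Glue f (Sum.inl (x, t)) (Sum.inr y) := Or.inr (Or.inl ⟨hx, rfl⟩)
theorem glue_one (f : GenLoop N Y y) (x : N → I) : Glue f (Sum.inl (x, 1)) (Sum.inr y) :=
  Or.inr (Or.inr ⟨rfl, rfl⟩)

/-- functions on `C × C` -/
def CC (f : GenLoop N Y y) : Subalgebra ℂ C(Zc N Y × Zc N Y, ℂ) where
  carrier := {h | ∀ z z' w, Glue f z z' → h (z, w) = h (z', w) ∧ h (w, z) = h (w, z')}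
  mul_mem' := by
    intro a b ha hb z z' w hz
    simp only [ContinuousMap.mul_apply, (ha z z' w hz).1, (ha z z' w hz).2, (hb z z' w hz).1,
      (hb z z' w hz).2, and_self]
  add_mem' := by
    intro a b ha hb z z' w hz
    simp only [ContinuousMap.add_apply, (ha z z' w hz).1, (ha z z' w hz).2, (hb z z' w hz).1,
      (hb z z' w hz).2, and_self]
  algebraMap_mem' := by
    intro r z z' w _
    exact ⟨rfl, rfl⟩

theorem CC_left {h : C(Zc N Y × Zc N Y, ℂ)} (hh : h ∈ CC f) {z z' : Zc N Y} (w : Zc N Y)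
    (hz : Glue f z z') : h (z, w) = h (z', w) := (hh z z' w hz).1
theorem CC_right {h : C(Zc N Y × Zc N Y, ℂ)} (hh : h ∈ CC f) {z z' : Zc N Y} (w : Zc N Y)
    (hz : Glue f z z') : h (w, z) = h (w, z') := (hh z z' w hz).2
theorem CC_both {h : C(Zc N Y × Zc N Y, ℂ)} (hh : h ∈ CC f) {z z' w w' : Zc N Y}
    (hz : Glue f z z') (hw : Glue f w w') : h (z, w) = h (z', w') :=
  (CC_left hh w hz).trans (CC_right hh z' hw)

theorem isClosed_CC [CompactSpace Y] (f : GenLoop N Y y) :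
    IsClosed ((CC f : Subalgebra ℂ C(Zc N Y × Zc N Y, ℂ)) : Set C(Zc N Y × Zc N Y, ℂ)) := by
  have : ((CC f : Subalgebra ℂ C(Zc N Y × Zc N Y, ℂ)) : Set C(Zc N Y × Zc N Y, ℂ))
      = ⋂ z, ⋂ z', ⋂ w, ⋂ (_ : Glue f z z'),
        ({a : C(Zc N Y × Zc N Y, ℂ) | a (z, w) = a (z', w)} ∩ {a | a (w, z) = a (w, z')}) := by
    ext a
    simp only [Set.mem_iInter, Set.mem_inter_iff, Set.mem_ofPred_eq]
    exact Iff.rfl
  rw [this]
  refine isClosed_iInter fun z => isClosed_iInter fun z' => isClosed_iInter fun w =>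
    isClosed_iInter fun _ => ?_
  exact (isClosed_eq (continuous_eval_const _) (continuous_eval_const _)).inter
    (isClosed_eq (continuous_eval_const _) (continuous_eval_const _))

instance [CompactSpace Y] : CompleteSpace (CC f) := (isClosed_CC f).completeSpace_coe

/-- functions on `C ∧ C` -/
def CW (f : GenLoop N Y y) : Subalgebra ℂ C(Zc N Y × Zc N Y, ℂ) :=
  CC f ⊓ CR (Zc N Y × Zc N Y) (wedge (Sum.inr y) (Sum.inr y))

theorem CW_base_left {h : C(Zc N Y × Zc N Y, ℂ)} (hh : h ∈ CW f) (w : Zc N Y) :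
    h (Sum.inr y, w) = h (Sum.inr y, Sum.inr y) :=
  hh.2 _ (Or.inl rfl) _ (Or.inl rfl)
theorem CW_base_right {h : C(Zc N Y × Zc N Y, ℂ)} (hh : h ∈ CW f) (w : Zc N Y) :
    h (w, Sum.inr y) = h (Sum.inr y, Sum.inr y) :=
  hh.2 _ (Or.inr rfl) _ (Or.inl rfl)
theorem CW_left {h : C(Zc N Y × Zc N Y, ℂ)} (hh : h ∈ CW f) {z : Zc N Y} (w : Zc N Y)
    (hz : Glue f z (Sum.inr y)) : h (z, w) = h (Sum.inr y, Sum.inr y) :=
  (CC_left hh.1 w hz).trans (CW_base_left hh w)
theorem CW_right {h : C(Zc N Y × Zc N Y, ℂ)} (hh : h ∈ CW f) {z : Zc N Y} (w : Zc N Y)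
    (hz : Glue f z (Sum.inr y)) : h (w, z) = h (Sum.inr y, Sum.inr y) :=
  (CC_right hh.1 w hz).trans (CW_base_right hh w)

/-- inclusion `CW → CC`, dual to `C × C → C ∧ C` -/
def incl (f : GenLoop N Y y) : CW f →ₐ[ℂ] CC f := Subalgebra.inclusion inf_le_left

@[simp] theorem incl_coe (a : CW f) : ((incl f a : CC f) : C(Zc N Y × Zc N Y, ℂ)) = a := rfl

/-- the diagonal `C → C × C` -/
theorem compat_diag (f : GenLoop N Y y) : Compat f (CC f)
    (⟨fun p => (Sum.inl p, Sum.inl p), by fun_prop⟩ : C((N → I) × I, Zc N Y × Zc N Y))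
    (⟨fun p => (Sum.inr p, Sum.inr p), by fun_prop⟩ : C(Y, Zc N Y × Zc N Y)) where
  zero _ hh x := CC_both hh (glue_zero f x) (glue_zero f x)
  bd _ hh _ t hx := CC_both hh (glue_bd f hx t) (glue_bd f hx t)
  one _ hh x := CC_both hh (glue_one f x) (glue_one f x)

/-- diagonal homomorphism -/
def Δ (f : GenLoop N Y y) : CC f →ₐ[ℂ] ConeAlg y f := toCone (CC f) _ _ (compat_diag f)

@[simp] theorem Δ_fst (a : CC f) (p : (N → I) × I) :
    ((Δ f a : ConeAlg y f) : C((N → I) × I, ℂ) × C(Y, ℂ)).1 p =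
      (a : C(Zc N Y × Zc N Y, ℂ)) (Sum.inl p, Sum.inl p) := rfl
@[simp] theorem Δ_snd (a : CC f) (p : Y) :
    ((Δ f a : ConeAlg y f) : C((N → I) × I, ℂ) × C(Y, ℂ)).2 p =
      (a : C(Zc N Y × Zc N Y, ℂ)) (Sum.inr p, Sum.inr p) := rfl

variable (f) in
/-- restriction `C ∧ C ⊇ Y ∧ Y` -/
def res : CW f →ₐ[ℂ] Smash y y :=
  ((ContinuousMap.compRightAlgHom ℂ ℂ
    (⟨fun p => (Sum.inr p.1, Sum.inr p.2), by fun_prop⟩ : C(Y × Y, Zc N Y × Zc N Y))).comp
      (CW f).val).codRestrict (Smash y y) (by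
        intro a x hx z hz
        have key : ∀ p ∈ wedge y y, (a : C(Zc N Y × Zc N Y, ℂ)) (Sum.inr p.1, Sum.inr p.2) =
            (a : C(Zc N Y × Zc N Y, ℂ)) (Sum.inr y, Sum.inr y) := by
          rintro ⟨p1, p2⟩ (h | h)
          · simp only at h; subst h; exact CW_base_left a.2 _
          · simp only at h; subst h; exact CW_base_right a.2 _
        exact (key x hx).trans (key z hz).symm)

@[simp] theorem res_apply (f : GenLoop N Y y) (a : CW f) (p : Y × Y) :
    ((res f a : Smash y y) : C(Y × Y, ℂ)) p = (a : C(Zc N Y × Zc N Y, ℂ)) (Sum.inr p.1, Sum.inr p.2) :=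
  rfl

/-! ## the homotopies -/

variable (P : CoP (N → I) (Cube.boundary N)) (c : CoH Y y)

/-- constant base homotopy -/
def βc : C(I × Y, Zc N Y × Zc N Y) := ⟨fun p => (Sum.inr p.2, Sum.inr p.2), by fun_prop⟩

/-- stage 1 -/
def α1 : C(I × ((N → I) × I), Zc N Y × Zc N Y) :=
  ⟨fun p => (Sum.inl (P.w (p.1 * p.2.2, p.2.1), p.2.2), Sum.inl (P.w' (p.1 * p.2.2, p.2.1), p.2.2)),
    by fun_prop⟩

/-- stage 2 -/
def α2 : C(I × ((N → I) × I), Zc N Y × Zc N Y) :=
  ⟨fun p => (Sum.inl (P.w (p.2.2, p.2.1), σ p.1 * p.2.2), Sum.inl (P.w' (p.2.2, p.2.1), σ p.1 * p.2.2)),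
    by fun_prop⟩

theorem compat1 (s : I) : Compat f (CW f) (slice (α1 P) s) (slice (βc (N := N) (Y := Y)) s) where
  zero h hh x := by
    simp only [slice_apply, α1, βc, ContinuousMap.coe_mk, mul_zero, P.w_zero, P.w'_zero]
    exact CC_both hh.1 (glue_zero f x) (glue_zero f x)
  bd h hh x t hx := by
    simp only [slice_apply, α1, βc, ContinuousMap.coe_mk]
    exact CW_left hh _ (glue_bd f (P.w_mem _ _ hx) _)
  one h hh x := by
    simp only [slice_apply, α1, βc, ContinuousMap.coe_mk]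
    exact CW_left hh _ (glue_one f _)

theorem compat2 (s : I) : Compat f (CW f) (slice (α2 P) s) (slice (βc (N := N) (Y := Y)) s) where
  zero h hh x := by
    simp only [slice_apply, α2, βc, ContinuousMap.coe_mk, mul_zero, P.w_zero, P.w'_zero]
    exact CC_both hh.1 (glue_zero f x) (glue_zero f x)
  bd h hh x t hx := by
    simp only [slice_apply, α2, βc, ContinuousMap.coe_mk]
    exact CW_left hh _ (glue_bd f (P.w_mem _ _ hx) _)
  one h hh x := by
    simp only [slice_apply, α2, βc, ContinuousMap.coe_mk]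
    rcases P.one x with hx | hx
    · exact CW_left hh _ (glue_bd f hx _)
    · exact CW_right hh _ (glue_bd f hx _)

/-- stage 3, cell part -/
def α3 (f : GenLoop N Y y) : C(I × ((N → I) × I), Y × Y) :=
  ⟨fun p => GG P c (f : C(N → I, Y)) (p.2.1, pp p.1 p.2.2, nn p.1 p.2.2), by fun_prop⟩

/-- stage 3, base part -/
def β3 : C(I × Y, Y × Y) := ⟨fun p => (c.W p, c.W' p), c.W.continuous.prodMk c.W'.continuous⟩

theorem f_bd (f : GenLoop N Y y) : ∀ x ∈ Cube.boundary N, (f : C(N → I, Y)) x = y := f.2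

theorem compat3 (s : I) : Compat f (Smash y y) (slice (α3 P c f) s) (slice (β3 c) s) where
  zero h hh x := by
    simp only [slice_apply, α3, β3, ContinuousMap.coe_mk, pp_zero_right, nn_zero_right, GG_zero]
    rfl
  bd h hh x t hx := by
    simp only [slice_apply, α3, β3, ContinuousMap.coe_mk]
    refine hh _ (GG_mem_of_mem P c _ (f_bd f) hx _ _) _ (Or.inl ?_)
    exact c.W_base s
  one h hh x := by
    simp only [slice_apply, α3, β3, ContinuousMap.coe_mk, pp_one_right, nn_one_right]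
    refine hh _ (GG_one_zero P c _ (f_bd f) x) _ (Or.inl ?_)
    exact c.W_base s

/-- the Hopf homomorphism `G^* : C(Y ∧ Y) → C(S^{N+1})` -/
def Gstar (f : GenLoop N Y y) : Smash y y →ₐ[ℂ] SA' N :=
  CR.comap (G P c (f : C(N → I, Y))) (G_mapsTo P c _ (f_bd f))

theorem stage3_end (x₀ : N → I) :
    toCone (Smash y y) (slice (α3 P c f) 1) (slice (β3 c) 1) (compat3 P c 1) =
      (ConeAlg.q x₀ : SA' N →ₐ[ℂ] ConeAlg y f).comp (Gstar P c f) := by
  refine AlgHom.ext fun a => Subtype.ext (Prod.ext ?_ ?_)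
  · ext p; rfl
  · ext p
    show (a : C(Y × Y, ℂ)) (c.W (1, p), c.W' (1, p)) = (a : C(Y × Y, ℂ)) (G P c (f : C(N → I, Y)) (x₀, 0))
    exact a.2 _ (c.one p) _ (G_zero P c _ x₀)

theorem stage3_start (f : GenLoop N Y y) :
    (toCone (Smash y y) (slice (α3 P c f) 0) (slice (β3 c) 0) (compat3 P c 0)).comp (res f) =
      toCone (CW f) (slice (α2 P) 1) (slice (βc (N := N) (Y := Y)) 1) (compat2 P 1) := by
  refine AlgHom.ext fun a => Subtype.ext (Prod.ext ?_ ?_)
  · ext p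
    obtain ⟨x, t⟩ := p
    show (a : C(Zc N Y × Zc N Y, ℂ))
      (Sum.inr (GG P c (f : C(N → I, Y)) (x, pp 0 t, nn 0 t)).1,
        Sum.inr (GG P c (f : C(N → I, Y)) (x, pp 0 t, nn 0 t)).2) =
      (a : C(Zc N Y × Zc N Y, ℂ)) (Sum.inl (P.w (t, x), σ 1 * t), Sum.inl (P.w' (t, x), σ 1 * t))
    rw [pp_zero_left, nn_zero_left, GG_right_zero, unitInterval.symm_one, zero_mul]
    exact (CC_both a.2.1 (glue_zero f _) (glue_zero f _)).symm
  · ext p
    show (a : C(Zc N Y × Zc N Y, ℂ)) (Sum.inr (c.W (0, p)), Sum.inr (c.W' (0, p))) =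
      (a : C(Zc N Y × Zc N Y, ℂ)) (Sum.inr p, Sum.inr p)
    rw [c.W_zero, c.W'_zero]

theorem stage1_start :
    toCone (CW f) (slice (α1 P) 0) (slice (βc (N := N) (Y := Y)) 0) (compat1 P 0) =
      (Δ f).comp (incl f) := by
  refine AlgHom.ext fun a => Subtype.ext (Prod.ext ?_ ?_)
  · ext p
    obtain ⟨x, t⟩ := p
    show (a : C(Zc N Y × Zc N Y, ℂ)) (Sum.inl (P.w (0 * t, x), t), Sum.inl (P.w' (0 * t, x), t)) =
      (a : C(Zc N Y × Zc N Y, ℂ)) (Sum.inl (x, t), Sum.inl (x, t))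
    rw [zero_mul, P.w_zero, P.w'_zero]
  · ext p; rfl

theorem stage12 :
    toCone (CW f) (slice (α1 P) 1) (slice (βc (N := N) (Y := Y)) 1) (compat1 P 1) =
      toCone (CW f) (slice (α2 P) 0) (slice (βc (N := N) (Y := Y)) 0) (compat2 P 0) := by
  refine AlgHom.ext fun a => Subtype.ext (Prod.ext ?_ ?_)
  · ext p
    obtain ⟨x, t⟩ := p
    show (a : C(Zc N Y × Zc N Y, ℂ)) (Sum.inl (P.w (1 * t, x), t), Sum.inl (P.w' (1 * t, x), t)) =
      (a : C(Zc N Y × Zc N Y, ℂ)) (Sum.inl (P.w (t, x), σ 0 * t), Sum.inl (P.w' (t, x), σ 0 * t))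
    rw [one_mul, unitInterval.symm_zero, one_mul]
  · ext p; rfl

/-- **DIAG**: on `K0` of `C ∧ C` the diagonal of the mapping cone is collapse, then Hopf map, then
restriction to `Y ∧ Y`. -/
theorem diag_eq [CompactSpace Y] (x₀ : N → I) (B : K0 (CW f)) :
    kS (Δ f) (kS (incl f) B) =
      kS (ConeAlg.q x₀ : SA' N →ₐ[ℂ] ConeAlg y f) (kS (Gstar P c f) (kS (res f) B)) := by
  rw [← kS_comp, ← stage1_start P, toCone_homotopy (CW f) (α1 P) βc (compat1 P), stage12,
    toCone_homotopy (CW f) (α2 P) βc (compat2 P), ← stage3_start P c, kS_comp,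
    toCone_homotopy (Smash y y) (α3 P c f) (β3 c) (compat3 P c), stage3_end P c x₀, kS_comp]

end Crest.Agent.R204.Diag484
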