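import Mathlib
import Crest.Agent.R204.Ex_837
import Crest.Agent.R204.Ex2_837

/-!
# Row 204, block H, leaf H-EX (helper837): Milnor patching for idempotent matrices

`Sq P A B C` : pullback square of rings `P = A ×_C B`.
-/

set_option autoImplicit false
set_option linter.unusedSectionVars false
set_option linter.unusedSimpArgs false

namespace Crest.Agent.R204.Ex837

open Matrix

/-! ## calculus of `MvN` -/

section Calc

variable {A B : Type*} [Ring A] [Ring B] {I J K I' J' : Type*} [Fintype I] [Fintype J] [Fintype K]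
  [Fintype I'] [Fintype J'] [DecidableEq I] [DecidableEq J] [DecidableEq K] [DecidableEq I']
  [DecidableEq J']

theorem MvN.refl {e : Matrix I I A} (he : e * e = e) : MvN e e := ⟨e, e, he, he⟩

theorem MvN.symm {e : Matrix I I A} {f : Matrix J J A} (h : MvN e f) : MvN f e := by
  obtain ⟨v, w, h1, h2⟩ := h
  exact ⟨w, v, h2, h1⟩

theorem MvN.exists_isMvN {e : Matrix I I A} {f : Matrix J J A} (h : MvN e f) (he : e * e = e)
    (hf : f * f = f) : ∃ v w, IsMvN e f v w := by
  obtain ⟨v, w, h1, h2⟩ := h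
  exact ⟨_, _, MvN.norm he hf h1 h2⟩

theorem IsMvN.mvN {e : Matrix I I A} {f : Matrix J J A} {v : Matrix I J A} {w : Matrix J I A}
    (h : IsMvN e f v w) : MvN e f := ⟨v, w, h.vw, h.wv⟩

theorem MvN.trans {e : Matrix I I A} {f : Matrix J J A} {g : Matrix K K A} (he : e * e = e)
    (hf : f * f = f) (hg : g * g = g) (h1 : MvN e f) (h2 : MvN f g) : MvN e g := by
  obtain ⟨v, w, h⟩ := h1.exists_isMvN he hf
  obtain ⟨v', w', h'⟩ := h2.exists_isMvN hf hg
  refine ⟨v * v', w' * w, ?_, ?_⟩
  · calc v * v' * (w' * w) = v * (v' * w') * w := by simp only [Matrix.mul_assoc]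
      _ = e := by rw [h'.vw, h.vf, h.vw]
  · calc w' * w * (v * v') = w' * (w * v) * v' := by simp only [Matrix.mul_assoc]
      _ = g := by rw [h.wv, h'.we, h'.wv]

theorem MvN.map (φ : A →+* B) {e : Matrix I I A} {f : Matrix J J A} (h : MvN e f) :
    MvN (e.map φ) (f.map φ) := by
  obtain ⟨v, w, h1, h2⟩ := h
  exact ⟨v.map φ, w.map φ, by rw [← Matrix.map_mul, h1], by rw [← Matrix.map_mul, h2]⟩

theorem IsMvN.map (φ : A →+* B) {e : Matrix I I A} {f : Matrix J J A} {v : Matrix I J A}
    {w : Matrix J I A} (h : IsMvN e f v w) : IsMvN (e.map φ) (f.map φ) (v.map φ) (w.map φ) :=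
  ⟨by rw [← Matrix.map_mul, h.vw], by rw [← Matrix.map_mul, h.wv],
    by rw [← Matrix.map_mul, h.ev], by rw [← Matrix.map_mul, h.vf],
    by rw [← Matrix.map_mul, h.we], by rw [← Matrix.map_mul, h.fw]⟩

theorem MvN.conj {e : Matrix I I A} (he : e * e = e) {U V : Matrix I I A} (h2 : V * U = 1) :
    MvN e (U * e * V) := by
  refine ⟨e * V, U * e, ?_, ?_⟩
  · calc e * V * (U * e) = e * (V * U) * e := by simp only [Matrix.mul_assoc]
      _ = e := by rw [h2, Matrix.mul_one, he]
  · calc U * e * (e * V) = U * (e * e) * V := by simp only [Matrix.mul_assoc]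
      _ = U * e * V := by rw [he]

theorem idem_conj {e : Matrix I I A} (he : e * e = e) {U V : Matrix I I A} (h2 : V * U = 1) :
    (U * e * V) * (U * e * V) = U * e * V := by
  calc (U * e * V) * (U * e * V) = U * e * (V * U) * e * V := by simp only [Matrix.mul_assoc]
    _ = U * e * V := by rw [h2, Matrix.mul_one, Matrix.mul_assoc U e e, he]

/-- direct sum of square matrices -/
abbrev dsum (e : Matrix I I A) (f : Matrix J J A) : Matrix (I ⊕ J) (I ⊕ J) A := fromBlocks e 0 0 f

theorem idem_dsum {e : Matrix I I A} {f : Matrix J J A} (he : e * e = e) (hf : f * f = f) :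
    dsum e f * dsum e f = dsum e f := by
  simp [dsum, fromBlocks_multiply, he, hf]

theorem dsum_mul (e e' : Matrix I I A) (f f' : Matrix J J A) :
    dsum e f * dsum e' f' = dsum (e * e') (f * f') := by
  simp [dsum, fromBlocks_multiply]

theorem dsum_one : dsum (1 : Matrix I I A) (1 : Matrix J J A) = 1 := fromBlocks_one

theorem dsum_map (φ : A →+* B) (e : Matrix I I A) (f : Matrix J J A) :
    (dsum e f).map φ = dsum (e.map φ) (f.map φ) := by
  simp [dsum, fromBlocks_map]

theorem MvN.dsum {e : Matrix I I A} {f : Matrix J J A} {e' : Matrix I' I' A}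
    {f' : Matrix J' J' A} (h : MvN e e') (h' : MvN f f') : MvN (dsum e f) (dsum e' f') := by
  obtain ⟨v, w, h1, h2⟩ := h
  obtain ⟨v', w', h1', h2'⟩ := h'
  exact ⟨fromBlocks v 0 0 v', fromBlocks w 0 0 w', by
    simp [Ex837.dsum, fromBlocks_multiply, h1, h1'], by
    simp [Ex837.dsum, fromBlocks_multiply, h2, h2']⟩

/-- `e ⊕ 0 ~ e` -/
theorem MvN.dsum_zero {e : Matrix I I A} (he : e * e = e) :
    MvN (Ex837.dsum e (0 : Matrix J J A)) e := by
  refine ⟨fromRows e 0, fromCols e 0, ?_, ?_⟩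
  · ext (i | i) (j | j) <;>
      simp [Ex837.dsum, fromRows_mul_fromCols, he]
  · simp [fromCols_mul_fromRows, he]

/-- `0 ⊕ e ~ e` -/
theorem MvN.zero_dsum {e : Matrix I I A} (he : e * e = e) :
    MvN (Ex837.dsum (0 : Matrix J J A) e) e := by
  refine ⟨fromRows 0 e, fromCols 0 e, ?_, ?_⟩
  · ext (i | i) (j | j) <;>
      simp [Ex837.dsum, fromRows_mul_fromCols, he]
  · simp [fromCols_mul_fromRows, he]

/-- `e ⊕ f ~ f ⊕ e` -/
theorem MvN.dsum_comm {e : Matrix I I A} {f : Matrix J J A} (he : e * e = e) (hf : f * f = f) :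
    MvN (Ex837.dsum e f) (Ex837.dsum f e) :=
  ⟨fromBlocks 0 e f 0, fromBlocks 0 f e 0, by
    simp [Ex837.dsum, fromBlocks_multiply, he, hf], by
    simp [Ex837.dsum, fromBlocks_multiply, he, hf]⟩

/-- reindexing -/
theorem MvN.reindex (σ : I ≃ J) {e : Matrix I I A} (he : e * e = e) :
    MvN e (e.submatrix σ.symm σ.symm) := by
  refine ⟨e.submatrix id σ.symm, e.submatrix σ.symm id, ?_, ?_⟩
  · rw [Matrix.submatrix_mul_equiv, he]; rfl
  · rw [← Matrix.submatrix_mul _ _ _ _ _ Function.bijective_id, he]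

/-- `e ⊕ (1 - e) ~ 1` -/
theorem MvN.dsum_compl {e : Matrix I I A} (he : e * e = e) :
    MvN (Ex837.dsum e (1 - e)) (1 : Matrix I I A) := by
  refine ⟨fromRows e (1 - e), fromCols e (1 - e), ?_, ?_⟩
  · ext (i | i) (j | j) <;>
      simp [Ex837.dsum, fromRows_mul_fromCols, he, Matrix.mul_sub, Matrix.sub_mul]
  · simp [fromCols_mul_fromRows, he, Matrix.mul_sub, Matrix.sub_mul]

end Calc

/-! ## pullback squares -/

/-- pullback square of rings -/
structure Sq (P A B C : Type*) [Ring P] [Ring A] [Ring B] [Ring C] where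
  p1 : P →+* A
  p2 : P →+* B
  al : A →+* C
  be : B →+* C
  comm : ∀ x, al (p1 x) = be (p2 x)
  lift : ∀ a b, al a = be b → ∃ x, p1 x = a ∧ p2 x = b
  inj : ∀ x y, p1 x = p1 y → p2 x = p2 y → x = y

namespace Sq

variable {P A B C : Type*} [Ring P] [Ring A] [Ring B] [Ring C] (S : Sq P A B C)
  {I J K : Type*} [Fintype I] [Fintype J] [Fintype K] [DecidableEq I] [DecidableEq J]
  [DecidableEq K]

theorem exists_lift (a : Matrix I J A) (b : Matrix I J B) (h : a.map S.al = b.map S.be) :
    ∃ x : Matrix I J P, x.map S.p1 = a ∧ x.map S.p2 = b := by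
  have h1 : ∀ i j, ∃ x, S.p1 x = a i j ∧ S.p2 x = b i j := fun i j =>
    S.lift _ _ (congrFun (congrFun h i) j)
  choose x hx using h1
  exact ⟨x, by ext i j; exact (hx i j).1, by ext i j; exact (hx i j).2⟩

theorem ext_matrix {x y : Matrix I J P} (h1 : x.map S.p1 = y.map S.p1)
    (h2 : x.map S.p2 = y.map S.p2) : x = y := by
  ext i j
  exact S.inj _ _ (congrFun (congrFun h1 i) j) (congrFun (congrFun h2 i) j)

theorem comm_matrix (x : Matrix I J P) : (x.map S.p1).map S.al = (x.map S.p2).map S.be := by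
  ext i j
  simp [S.comm]

theorem idem_of {x : Matrix I I P} (h1 : x.map S.p1 * x.map S.p1 = x.map S.p1)
    (h2 : x.map S.p2 * x.map S.p2 = x.map S.p2) : x * x = x :=
  S.ext_matrix (by rw [Matrix.map_mul, h1]) (by rw [Matrix.map_mul, h2])

/-- **Milnor patching**: idempotents over `A` and `B`, equivalent over `C`, come (up to adding
zeros, exactly on the `B` side) from an idempotent over `P`. -/
theorem mid (hal : Function.Surjective S.al) {e : Matrix I I B} {f : Matrix J J A}
    (he : e * e = e) (hf : f * f = f) (h : MvN (e.map S.be) (f.map S.al)) :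
    ∃ x : Matrix ((I ⊕ J) ⊕ (I ⊕ J)) ((I ⊕ J) ⊕ (I ⊕ J)) P, x * x = x ∧
      x.map S.p2 = dsum (dsum e 0) 0 ∧
      ∃ U V : Matrix ((I ⊕ J) ⊕ (I ⊕ J)) ((I ⊕ J) ⊕ (I ⊕ J)) A, U * V = 1 ∧ V * U = 1 ∧
        x.map S.p1 = U * dsum (dsum 0 f) 0 * V := by
  have he' : e.map S.be * e.map S.be = e.map S.be := by rw [← Matrix.map_mul, he]
  have hf' : f.map S.al * f.map S.al = f.map S.al := by rw [← Matrix.map_mul, hf]
  obtain ⟨v, w, hvw⟩ := h.exists_isMvN he' hf'
  have hs := sym_sq hvw
  have hc := sym_conj hvw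
  obtain ⟨U, V, h1, h2, h3, h4⟩ := lift_diag hal hs hs
  have hc' : sym (e.map S.be) (f.map S.al) v w * fromBlocks 0 0 0 (f.map S.al) *
      sym (e.map S.be) (f.map S.al) v w = fromBlocks (e.map S.be) 0 0 0 := by
    rw [← hc]
    calc _ = (sym (e.map S.be) (f.map S.al) v w * sym (e.map S.be) (f.map S.al) v w) *
          fromBlocks (e.map S.be) 0 0 0 *
          (sym (e.map S.be) (f.map S.al) v w * sym (e.map S.be) (f.map S.al) v w) := by
          simp only [Matrix.mul_assoc]
      _ = _ := by rw [hs, Matrix.one_mul, Matrix.mul_one]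
  have hf2 : dsum (dsum (0 : Matrix I I A) f) (0 : Matrix (I ⊕ J) (I ⊕ J) A) *
      dsum (dsum 0 f) 0 = dsum (dsum 0 f) 0 :=
    idem_dsum (idem_dsum (by simp) hf) (by simp)
  obtain ⟨x, hx1, hx2⟩ := S.exists_lift (U * dsum (dsum 0 f) 0 * V) (dsum (dsum e 0) 0) (by
    rw [Matrix.map_mul, Matrix.map_mul, h3, h4]
    simp only [dsum, fromBlocks_map, Matrix.map_zero _ (map_zero S.al),
      Matrix.map_zero _ (map_zero S.be), fromBlocks_multiply, Matrix.mul_zero,
      Matrix.zero_mul, add_zero, zero_add]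
    rw [hc'])
  refine ⟨x, S.idem_of ?_ ?_, hx2, U, V, h1, h2, hx1⟩
  · rw [hx1]; exact idem_conj hf2 h2
  · rw [hx2]; exact idem_dsum (idem_dsum he (by simp)) (by simp)

/-- gluing two trivialisations -/
theorem glue_triv {q : Matrix J J P} {v : Matrix J I A} {w : Matrix I J A}
    (h1 : v * w = q.map S.p1) (h2 : w * v = 1) {v' : Matrix J I B} {w' : Matrix I J B}
    (h3 : v' * w' = q.map S.p2) (h4 : w' * v' = 1) {U V : Matrix I I A} (hUV : U * V = 1)
    (hVU : V * U = 1) (hU : U.map S.al = w.map S.al * v'.map S.be) :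
    MvN q (1 : Matrix I I P) := by
  have hone1 : (1 : Matrix I I A).map S.al = 1 := Matrix.map_one _ (map_zero _) (map_one _)
  have hone2 : (1 : Matrix I I B).map S.be = 1 := Matrix.map_one _ (map_zero _) (map_one _)
  have hq := S.comm_matrix q
  rw [← h1, ← h3, Matrix.map_mul, Matrix.map_mul] at hq
  have e2 : w.map S.al * v.map S.al = 1 := by rw [← Matrix.map_mul, h2, hone1]
  have e4 : w'.map S.be * v'.map S.be = 1 := by rw [← Matrix.map_mul, h4, hone2]
  -- inverse of `g`
  have hV : V.map S.al = w'.map S.be * v.map S.al := by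
    have e5 : (w'.map S.be * v.map S.al) * U.map S.al = 1 := by
      rw [hU]
      calc _ = w'.map S.be * (v.map S.al * w.map S.al) * v'.map S.be := by
            simp only [Matrix.mul_assoc]
        _ = (w'.map S.be * v'.map S.be) * (w'.map S.be * v'.map S.be) := by
            rw [hq]; simp only [Matrix.mul_assoc]
        _ = 1 := by rw [e4, Matrix.mul_one]
    have e6 : U.map S.al * V.map S.al = 1 := by rw [← Matrix.map_mul, hUV, hone1]
    calc V.map S.al = (w'.map S.be * v.map S.al) * U.map S.al * V.map S.al := by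
          rw [e5, Matrix.one_mul]
      _ = w'.map S.be * v.map S.al := by rw [Matrix.mul_assoc _ _ (V.map _), e6, Matrix.mul_one]
  obtain ⟨x, hx1, hx2⟩ := S.exists_lift (v * U) v' (by
    rw [Matrix.map_mul, hU, ← Matrix.mul_assoc, hq, Matrix.mul_assoc, e4, Matrix.mul_one])
  obtain ⟨y, hy1, hy2⟩ := S.exists_lift (V * w) w' (by
    rw [Matrix.map_mul, hV, Matrix.mul_assoc, hq, ← Matrix.mul_assoc, e4, Matrix.one_mul])
  refine ⟨x, y, S.ext_matrix ?_ ?_, S.ext_matrix ?_ ?_⟩
  · rw [Matrix.map_mul, hx1, hy1]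
    calc v * U * (V * w) = v * (U * V) * w := by simp only [Matrix.mul_assoc]
      _ = q.map S.p1 := by rw [hUV, Matrix.mul_one, h1]
  · rw [Matrix.map_mul, hx2, hy2, h3]
  · rw [Matrix.map_mul, hx1, hy1, Matrix.map_one _ (map_zero _) (map_one _)]
    calc V * w * (v * U) = V * (w * v) * U := by simp only [Matrix.mul_assoc]
      _ = 1 := by rw [h2, Matrix.mul_one, hVU]
  · rw [Matrix.map_mul, hx2, hy2, h4, Matrix.map_one _ (map_zero _) (map_one _)]

/-- the matrix over `C` comparing two trivialisations is invertible -/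
theorem comparison_inv {q : Matrix J J P} {v : Matrix J I A} {w : Matrix I J A}
    (h1 : v * w = q.map S.p1) (h2 : w * v = 1) {v' : Matrix J I B} {w' : Matrix I J B}
    (h3 : v' * w' = q.map S.p2) (h4 : w' * v' = 1) :
    (w.map S.al * v'.map S.be) * (w'.map S.be * v.map S.al) = 1 ∧
      (w'.map S.be * v.map S.al) * (w.map S.al * v'.map S.be) = 1 := by
  have hone1 : (1 : Matrix I I A).map S.al = 1 := Matrix.map_one _ (map_zero _) (map_one _)
  have hone2 : (1 : Matrix I I B).map S.be = 1 := Matrix.map_one _ (map_zero _) (map_one _)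
  have hq := S.comm_matrix q
  rw [← h1, ← h3, Matrix.map_mul, Matrix.map_mul] at hq
  have e2 : w.map S.al * v.map S.al = 1 := by rw [← Matrix.map_mul, h2, hone1]
  have e4 : w'.map S.be * v'.map S.be = 1 := by rw [← Matrix.map_mul, h4, hone2]
  constructor
  · calc _ = w.map S.al * (v'.map S.be * w'.map S.be) * v.map S.al := by
          simp only [Matrix.mul_assoc]
      _ = (w.map S.al * v.map S.al) * (w.map S.al * v.map S.al) := by
          rw [← hq]; simp only [Matrix.mul_assoc]
      _ = 1 := by rw [e2, Matrix.mul_one]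
  · calc _ = w'.map S.be * (v.map S.al * w.map S.al) * v'.map S.be := by
          simp only [Matrix.mul_assoc]
      _ = (w'.map S.be * v'.map S.be) * (w'.map S.be * v'.map S.be) := by
          rw [hq]; simp only [Matrix.mul_assoc]
      _ = 1 := by rw [e4, Matrix.mul_one]

end Sq

/-- every invertible matrix over `C` lifts to `A` after adding an identity matrix. -/
def StLift {A C : Type*} [Ring A] [Ring C] (φ : A →+* C) : Prop :=
  ∀ (n : ℕ) (g g' : Matrix (Fin n) (Fin n) C), g * g' = 1 → g' * g = 1 →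
    ∃ (l : ℕ) (U V : Matrix (Fin n ⊕ Fin l) (Fin n ⊕ Fin l) A), U * V = 1 ∧ V * U = 1 ∧
      U.map φ = dsum g 1

namespace Sq

variable {P A B C : Type*} [Ring P] [Ring A] [Ring B] [Ring C] (S : Sq P A B C)
  {J : Type*} [Fintype J] [DecidableEq J]

/-- **injectivity**: a projective module over `P` which is free over `A` and over `B` is stably
free if `GL(A) → GL(C)` is stably onto. -/
theorem inj_stable (hst : StLift S.al) {q : Matrix J J P} {n : ℕ}
    (hA : MvN (q.map S.p1) (1 : Matrix (Fin n) (Fin n) A))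
    (hB : MvN (q.map S.p2) (1 : Matrix (Fin n) (Fin n) B)) :
    ∃ l : ℕ, MvN (dsum q (1 : Matrix (Fin l) (Fin l) P)) (1 : Matrix (Fin n ⊕ Fin l) _ P) := by
  obtain ⟨v, w, h1, h2⟩ := hA
  obtain ⟨v', w', h3, h4⟩ := hB
  obtain ⟨h5, h6⟩ := S.comparison_inv h1 h2 h3 h4
  obtain ⟨l, U, V, hUV, hVU, hU⟩ := hst n _ _ h5 h6
  have hone1 : (1 : Matrix (Fin l) (Fin l) A).map S.al = 1 :=
    Matrix.map_one _ (map_zero _) (map_one _)
  have hone2 : (1 : Matrix (Fin l) (Fin l) B).map S.be = 1 :=
    Matrix.map_one _ (map_zero _) (map_one _)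
  have hone3 : (1 : Matrix (Fin l) (Fin l) P).map S.p1 = 1 :=
    Matrix.map_one _ (map_zero _) (map_one _)
  have hone4 : (1 : Matrix (Fin l) (Fin l) P).map S.p2 = 1 :=
    Matrix.map_one _ (map_zero _) (map_one _)
  refine ⟨l, S.glue_triv (v := fromBlocks v 0 0 1) (w := fromBlocks w 0 0 1)
    (v' := fromBlocks v' 0 0 1) (w' := fromBlocks w' 0 0 1) (U := U) (V := V)
    ?_ ?_ ?_ ?_ hUV hVU ?_⟩
  · simp [dsum, fromBlocks_multiply, fromBlocks_map, h1, hone3]
  · simp [fromBlocks_multiply, h2, fromBlocks_one]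
  · simp [dsum, fromBlocks_multiply, fromBlocks_map, h3, hone4]
  · simp [fromBlocks_multiply, h4, fromBlocks_one]
  · rw [hU]
    simp [dsum, fromBlocks_multiply, fromBlocks_map, hone1, hone2]

end Sq

end Crest.Agent.R204.Ex837
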