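import Mathlib
import Crest.Agent.R204.HDefs_472
import Crest.Agent.R204.Ex3_837

/-!
# Row 204, block H: the model side of exactness (helper515)

* `sqCR`   : `CR X A → C(X,ℂ)`, `CR X A → ℂ` (point of `A`) is the pullback of `C(X,ℂ) → C(A,ℂ) ← ℂ`;
* `sqCone` : `ConeAlg y f` is the pullback of `C(I^N × I,ℂ) → C(bdI N,ℂ) ← C(Y,ℂ)`;
* `sqQ`    : `SA' N` is the pullback of `ConeAlg y f → C(Y,ℂ) ← ℂ`.

All first maps are surjective and open; the map `C(Y,ℂ) → C(bdI N,ℂ)` factors through `SA N`.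
-/

set_option autoImplicit false

open scoped unitInterval Topology Topology.Homotopy

noncomputable section

namespace Crest.Agent.R204.ExM515

open H472 Ex837

/-! ## restriction to a closed subset -/

section Rst

variable {X : Type} [TopologicalSpace X]

/-- restriction of continuous functions to a subset -/
def rst (A : Set X) : C(X, ℂ) →ₐ[ℂ] C(A, ℂ) :=
  ContinuousMap.compRightAlgHom ℂ ℂ ⟨Subtype.val, continuous_subtype_val⟩

@[simp] theorem rst_apply (A : Set X) (a : C(X, ℂ)) (x : A) : rst A a x = a x := rfl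

theorem rst_surjective [CompactSpace X] [NormalSpace X] {A : Set X} (hA : IsClosed A) :
    Function.Surjective (rst A) := by
  have : CompactSpace A := isCompact_iff_compactSpace.1 hA.isCompact
  exact restrict_surjective (i := ⟨Subtype.val, continuous_subtype_val⟩) hA.isClosedEmbedding_subtypeVal

theorem rst_isOpenMap [CompactSpace X] [NormalSpace X] {A : Set X} (hA : IsClosed A)
    [CompactSpace A] : IsOpenMap (rst A) :=
  restrict_isOpenMap (i := ⟨Subtype.val, continuous_subtype_val⟩) hA.isClosedEmbedding_subtypeVal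

/-- functions constant on `A` as a pullback -/
def sqCR (A : Set X) (a₀ : X) (h₀ : a₀ ∈ A) : Sq (CR X A) C(X, ℂ) ℂ C(A, ℂ) where
  p1 := ((CR X A).val : CR X A →ₐ[ℂ] C(X, ℂ))
  p2 := (CR.ev a₀ : CR X A →ₐ[ℂ] ℂ)
  al := (rst A : C(X, ℂ) →ₐ[ℂ] C(A, ℂ))
  be := (Algebra.ofId ℂ C(A, ℂ) : ℂ →ₐ[ℂ] C(A, ℂ))
  comm := fun a => by
    ext x
    exact a.2 _ x.2 _ h₀
  lift := fun a c h => by
    have h' : ∀ x ∈ A, a x = c := fun x hx => DFunLike.congr_fun h (⟨x, hx⟩ : A)
    exact ⟨⟨a, fun x hx y hy => by rw [h' x hx, h' y hy]⟩, rfl, h' a₀ h₀⟩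
  inj := fun a b h _ => Subtype.ext h

end Rst

/-! ## boundary of the cube -/

section Bdry

variable {N : Type} [Finite N]

theorem isClosed_boundary : IsClosed (Cube.boundary N) := by
  have h : Cube.boundary N = ⋃ i : N, ({x | x i = 0} ∪ {x | x i = 1}) := by
    ext x
    simp [Cube.boundary]
  rw [h]
  exact isClosed_iUnion_of_finite fun i =>
    (isClosed_eq (continuous_apply i) continuous_const).union
      (isClosed_eq (continuous_apply i) continuous_const)

theorem isClosed_bdI : IsClosed (bdI N) := by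
  have h : bdI N = (Prod.fst ⁻¹' Cube.boundary N) ∪ ({p | p.2 = 0} ∪ {p | p.2 = 1}) := by
    ext p
    simp [bdI]
  rw [h]
  exact (isClosed_boundary.preimage continuous_fst).union
    ((isClosed_eq continuous_snd continuous_const).union
      (isClosed_eq continuous_snd continuous_const))

instance : CompactSpace (bdI N) := isCompact_iff_compactSpace.1 isClosed_bdI.isCompact

end Bdry

/-! ## the cone square -/

section Cone

variable {N : Type} {Y : Type} [TopologicalSpace Y] {y : Y} {f : GenLoop N Y y}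

theorem loop_bd (f : GenLoop N Y y) {x : N → I} (hx : x ∈ Cube.boundary N) : f x = y := f.2 x hx

/-- pull back along the loop -/
def fst' (f : GenLoop N Y y) : C(Y, ℂ) →ₐ[ℂ] SA N :=
  (ContinuousMap.compRightAlgHom ℂ ℂ f.1).codRestrict (SA N) (by
    intro b x hx x' hx'
    show b (f x) = b (f x')
    rw [loop_bd f hx, loop_bd f hx'])

@[simp] theorem fst'_apply (b : C(Y, ℂ)) (x : N → I) :
    ((fst' f b : SA N) : C(N → I, ℂ)) x = b (f x) := rfl

/-- the auxiliary interpolation: `a` at `t = 0`, the value at `x₀` at `t = 1` -/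
def kapFun (x₀ : N → I) (a : C(N → I, ℂ)) : C((N → I) × I, ℂ) :=
  ⟨fun p => (1 - ((p.2 : ℝ) : ℂ)) * a p.1 + ((p.2 : ℝ) : ℂ) * a x₀, by fun_prop⟩

theorem kapFun_bd {x₀ : N → I} (a : SA N) (h₀ : x₀ ∈ Cube.boundary N) (p : bdI N) :
    kapFun x₀ (a : C(N → I, ℂ)) (p : (N → I) × I) =
      if (p : (N → I) × I).2 = 0 then (a : C(N → I, ℂ)) (p : (N → I) × I).1
        else (a : C(N → I, ℂ)) x₀ := by
  obtain ⟨⟨x, t⟩, hp⟩ := p
  simp only [kapFun, ContinuousMap.coe_mk]
  split_ifs with h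
  · subst h
    simp
  · rcases hp with h1 | h1 | h1
    · rw [a.2 x h1 x₀ h₀]; ring
    · exact absurd h1 h
    · simp only at h1
      subst h1
      simp

variable {x₀ : N → I}

/-- `SA N → C(bdI N)`, dual to the map `bdI N → S^N` collapsing everything except `t = 0` -/
def kap (h₀ : x₀ ∈ Cube.boundary N) : SA N →ₐ[ℂ] C(bdI N, ℂ) :=
  AlgHom.ofLinearMap
    { toFun := fun a => rst (bdI N) (kapFun x₀ (a : C(N → I, ℂ)))
      map_add' := fun a b => by
        ext p
        simp [kapFun]; ring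
      map_smul' := fun c a => by
        ext p
        simp [kapFun]; ring }
    (by
      ext p
      simp [kapFun])
    (fun a b => by
      ext p
      simp only [LinearMap.coe_mk, AddHom.coe_mk, rst_apply, kapFun_bd _ h₀,
        ContinuousMap.mul_apply]
      split_ifs <;> simp)

theorem kap_apply (h₀ : x₀ ∈ Cube.boundary N) (a : SA N) (p : bdI N) :
    kap h₀ a p = if (p : (N → I) × I).2 = 0 then (a : C(N → I, ℂ)) (p : (N → I) × I).1
        else (a : C(N → I, ℂ)) x₀ := kapFun_bd a h₀ p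

/-- the attaching map `bdI N → Y` on functions -/
def att (f : GenLoop N Y y) (h₀ : x₀ ∈ Cube.boundary N) : C(Y, ℂ) →ₐ[ℂ] C(bdI N, ℂ) :=
  (kap h₀).comp (fst' f)

theorem att_apply (h₀ : x₀ ∈ Cube.boundary N) (b : C(Y, ℂ)) (p : bdI N) :
    att f h₀ b p = if (p : (N → I) × I).2 = 0 then b (f (p : (N → I) × I).1) else b y := by
  rw [att, AlgHom.comp_apply, kap_apply]
  simp only [fst'_apply]
  rw [loop_bd f h₀]

theorem att_eq_iff (h₀ : x₀ ∈ Cube.boundary N) (a : C((N → I) × I, ℂ)) (b : C(Y, ℂ)) :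
    rst (bdI N) a = att f h₀ b ↔ (a, b) ∈ ConeAlg y f := by
  rw [mem_ConeAlg]
  constructor
  · intro h
    have h' : ∀ p (hp : p ∈ bdI N), a p = if p.2 = 0 then b (f p.1) else b y := fun p hp => by
      have := DFunLike.congr_fun h (⟨p, hp⟩ : bdI N)
      rwa [rst_apply, att_apply] at this
    refine ⟨fun x => ?_, fun x t hx => ?_, fun x => ?_⟩
    · have := h' (x, 0) (Or.inr (Or.inl rfl))
      simpa using this
    · have := h' (x, t) (Or.inl hx)
      simp only at this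
      rw [this]
      split_ifs
      · rw [loop_bd f hx]
      · rfl
    · have := h' (x, 1) (Or.inr (Or.inr rfl))
      simpa using this
  · rintro ⟨h1, h2, h3⟩
    ext ⟨⟨x, t⟩, hp⟩
    rw [rst_apply, att_apply]
    simp only
    split_ifs with h
    · subst h
      exact h1 x
    · rcases hp with h' | h' | h'
      · exact h2 x t h'
      · exact absurd h' h
      · simp only at h'
        subst h'
        exact h3 x

/-- **the mapping cone as a pullback** -/
def sqCone (f : GenLoop N Y y) (h₀ : x₀ ∈ Cube.boundary N) :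
    Sq (ConeAlg y f) C((N → I) × I, ℂ) C(Y, ℂ) C(bdI N, ℂ) where
  p1 := ((AlgHom.fst ℂ C((N → I) × I, ℂ) C(Y, ℂ)).comp (ConeAlg y f).val :
    ConeAlg y f →ₐ[ℂ] C((N → I) × I, ℂ))
  p2 := (ConeAlg.res : ConeAlg y f →ₐ[ℂ] C(Y, ℂ))
  al := (rst (bdI N) : C((N → I) × I, ℂ) →ₐ[ℂ] C(bdI N, ℂ))
  be := (att f h₀ : C(Y, ℂ) →ₐ[ℂ] C(bdI N, ℂ))
  comm := fun p => (att_eq_iff h₀ _ _).2 p.2
  lift := fun a b h => ⟨⟨(a, b), (att_eq_iff h₀ _ _).1 h⟩, rfl, rfl⟩
  inj := fun _ _ h1 h2 => Subtype.ext (Prod.ext h1 h2)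

theorem sqCone_be_factor (h₀ : x₀ ∈ Cube.boundary N) :
    (sqCone f h₀).be = ((kap h₀ : SA N →ₐ[ℂ] C(bdI N, ℂ)) : SA N →+* C(bdI N, ℂ)).comp
      ((fst' f : C(Y, ℂ) →ₐ[ℂ] SA N) : C(Y, ℂ) →+* SA N) := rfl

theorem sqCone_al_surjective [Finite N] (h₀ : x₀ ∈ Cube.boundary N) :
    Function.Surjective (sqCone f h₀).al := rst_surjective isClosed_bdI

theorem sqCone_al_isOpenMap [Finite N] (h₀ : x₀ ∈ Cube.boundary N) :
    IsOpenMap (sqCone f h₀).al := rst_isOpenMap isClosed_bdI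

theorem res_surjective [Finite N] [Nonempty N] :
    Function.Surjective (ConeAlg.res : ConeAlg y f →ₐ[ℂ] C(Y, ℂ)) := by
  intro b
  have h₀ : (fun _ => 0 : N → I) ∈ Cube.boundary N := ⟨Classical.arbitrary N, Or.inl rfl⟩
  obtain ⟨a, ha⟩ := rst_surjective isClosed_bdI (att f h₀ b)
  exact ⟨⟨(a, b), (att_eq_iff h₀ _ _).1 ha⟩, rfl⟩

theorem res_continuous [CompactSpace Y] :
    Continuous (ConeAlg.res : ConeAlg y f →ₐ[ℂ] C(Y, ℂ)) :=
  continuous_snd.comp continuous_subtype_val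

theorem res_isOpenMap [Finite N] [Nonempty N] [CompactSpace Y] :
    IsOpenMap (ConeAlg.res : ConeAlg y f →ₐ[ℂ] C(Y, ℂ)) := by
  let g : ConeAlg y f →L[ℂ] C(Y, ℂ) := ⟨(ConeAlg.res : ConeAlg y f →ₐ[ℂ] C(Y, ℂ)).toLinearMap,
    res_continuous⟩
  have hs : Function.Surjective g := res_surjective (f := f)
  exact ContinuousLinearMap.isOpenMap (𝕜 := ℂ) (𝕜' := ℂ) (E := ConeAlg y f) (F := C(Y, ℂ)) g hs

/-- **the quotient `C_f / Y = S^{N+1}` as a pullback** -/
def sqQ (f : GenLoop N Y y) (x₀ : N → I) :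
    Sq (SA' N) (ConeAlg y f) ℂ C(Y, ℂ) where
  p1 := (ConeAlg.q x₀ : SA' N →ₐ[ℂ] ConeAlg y f)
  p2 := (CR.ev (x₀, 0) : SA' N →ₐ[ℂ] ℂ)
  al := (ConeAlg.res : ConeAlg y f →ₐ[ℂ] C(Y, ℂ))
  be := (Algebra.ofId ℂ C(Y, ℂ) : ℂ →ₐ[ℂ] C(Y, ℂ))
  comm := fun a => by
    ext z
    rfl
  lift := fun p c h => by
    have h' : ∀ z, (p : C((N → I) × I, ℂ) × C(Y, ℂ)).2 z = c := fun z => DFunLike.congr_fun h z
    obtain ⟨h1, h2, h3⟩ := p.2
    have hc : ∀ q ∈ bdI N, (p : C((N → I) × I, ℂ) × C(Y, ℂ)).1 q = c := by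
      rintro ⟨x, t⟩ (hq | hq | hq)
      · rw [h2 x t hq, h']
      · simp only at hq
        rw [hq, h1, h']
      · simp only at hq
        rw [hq, h3, h']
    refine ⟨⟨(p : C((N → I) × I, ℂ) × C(Y, ℂ)).1, fun q hq q' hq' => by
      rw [hc q hq, hc q' hq']⟩, ?_, hc _ (Or.inr (Or.inl rfl))⟩
    apply Subtype.ext
    refine Prod.ext rfl ?_
    ext z
    exact (hc (x₀, 0) (Or.inr (Or.inl rfl))).trans (h' z).symm
  inj := fun a b h _ => by
    apply Subtype.ext
    exact congrArg (fun p : ConeAlg y f => (p : C((N → I) × I, ℂ) × C(Y, ℂ)).1) h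

end Cone

end Crest.Agent.R204.ExM515
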