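import Mathlib
import Crest.Agent.R204.ExM_515
import Crest.Agent.R204.Ex5_837

/-!
# Row 204, block H: exactness for the frozen models (helper515)

* `E1`      : `x ∈ K0 C(X,ℂ)`, zero on `A` ⇒ `x` comes from `CR X A` (`A` closed, `a₀ ∈ A`);
* `E1_inj`  : injectivity of `K0 (CR X A) → K0 C(X,ℂ)` if matrices lift stably (or `K1Triv C(A,ℂ)`);
* `E2`      : `K0 (Smash y z) → K0 C(Y × Z,ℂ)` is injective;
* `E3`      : `K̃(Y) ← K̃(C_f)` onto if `K̃(S^N) = 0`;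
* `E5`      : exactness of `K̃(S^{N+1}) → K̃(C_f) → K̃(Y)`;
* `E4`      : `K̃(S^{N+1}) → K̃(C_f)` injective if `K1Triv C(Y,ℂ)`.
-/

set_option autoImplicit false

open scoped unitInterval Topology Topology.Homotopy

noncomputable section

namespace Crest.Agent.R204.ExM515

open H472 Ex837
open K357 (K0)

/-! ## named ring homomorphisms -/

section Homs

variable {X : Type} [TopologicalSpace X]

/-- inclusion `CR X A → C(X,ℂ)` -/
abbrev incR (A : Set X) : CR X A →+* C(X, ℂ) := ((CR X A).val : CR X A →ₐ[ℂ] C(X, ℂ))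

/-- evaluation on `CR X A` -/
abbrev evR (A : Set X) (a₀ : X) : CR X A →+* ℂ := (CR.ev a₀ : CR X A →ₐ[ℂ] ℂ)

/-- restriction `C(X,ℂ) → C(A,ℂ)` -/
abbrev rstR (A : Set X) : C(X, ℂ) →+* C(A, ℂ) := (rst A : C(X, ℂ) →ₐ[ℂ] C(A, ℂ))

/-- evaluation on `C(X,ℂ)` -/
abbrev evw (x : X) : C(X, ℂ) →+* ℂ := (ContinuousMap.evalAlgHom ℂ ℂ x : C(X, ℂ) →ₐ[ℂ] ℂ)

variable {N : Type} {Y : Type} [TopologicalSpace Y] {y : Y}

/-- restriction of the mapping cone to `Y` -/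
abbrev resR (f : GenLoop N Y y) : ConeAlg y f →+* C(Y, ℂ) :=
  (ConeAlg.res : ConeAlg y f →ₐ[ℂ] C(Y, ℂ))

/-- base point of the mapping cone -/
abbrev evCR (f : GenLoop N Y y) : ConeAlg y f →+* ℂ := (ConeAlg.ev : ConeAlg y f →ₐ[ℂ] ℂ)

/-- dual of the collapse `C_f → S^{N+1}` -/
abbrev qR (f : GenLoop N Y y) (x₀ : N → I) : SA' N →+* ConeAlg y f :=
  (ConeAlg.q x₀ : SA' N →ₐ[ℂ] ConeAlg y f)

/-- dual of `f : S^N → Y` -/
abbrev fR (f : GenLoop N Y y) : C(Y, ℂ) →+* SA N := (fst' f : C(Y, ℂ) →ₐ[ℂ] SA N)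

/-- the same on `K0` -/
abbrev incK (A : Set X) : K0 (CR X A) →+ K0 C(X, ℂ) := K0.map (A := CR X A) (B := C(X, ℂ)) (incR A)
abbrev evK (A : Set X) (a₀ : X) : K0 (CR X A) →+ K0 ℂ := K0.map (A := CR X A) (B := ℂ) (evR A a₀)
abbrev rstK (A : Set X) : K0 C(X, ℂ) →+ K0 C(A, ℂ) :=
  K0.map (A := C(X, ℂ)) (B := C(A, ℂ)) (rstR A)
abbrev evwK (x : X) : K0 C(X, ℂ) →+ K0 ℂ := K0.map (A := C(X, ℂ)) (B := ℂ) (evw x)
abbrev resK (f : GenLoop N Y y) : K0 (ConeAlg y f) →+ K0 C(Y, ℂ) :=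
  K0.map (A := ConeAlg y f) (B := C(Y, ℂ)) (resR f)
abbrev evCK (f : GenLoop N Y y) : K0 (ConeAlg y f) →+ K0 ℂ :=
  K0.map (A := ConeAlg y f) (B := ℂ) (evCR f)
abbrev qK (f : GenLoop N Y y) (x₀ : N → I) : K0 (SA' N) →+ K0 (ConeAlg y f) :=
  K0.map (A := SA' N) (B := ConeAlg y f) (qR f x₀)
abbrev fK (f : GenLoop N Y y) : K0 C(Y, ℂ) →+ K0 (SA N) :=
  K0.map (A := C(Y, ℂ)) (B := SA N) (fR f)

end Homs

/-! ## pairs `(X, A)` -/

section Pairs

variable {X : Type} [TopologicalSpace X]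

theorem K0_map_ev (A : Set X) (a₀ : X) (x : K0 (CR X A)) :
    evK A a₀ x =
      evwK a₀
        (incK A x) := by
  rw [← K0.map_comp]
  rfl

theorem E1 [CompactSpace X] [NormalSpace X] {A : Set X} (hA : IsClosed A) {a₀ : X} (h₀ : a₀ ∈ A)
    {x : K0 C(X, ℂ)}
    (hx : rstK A x = 0) :
    ∃ z : K0 (CR X A), incK A z = x ∧
      evK A a₀ z = 0 :=
  (sqCR A a₀ h₀).exists_rel (rst_surjective hA) hx

theorem E1_inj {A : Set X} {a₀ : X} (h₀ : a₀ ∈ A)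
    (hst : StLift (rstR A)) {x : K0 (CR X A)}
    (hx : incK A x = 0) : x = 0 :=
  (sqCR A a₀ h₀).K0_inj hst hx (by
    have h := K0_map_ev A a₀ x
    rw [hx, map_zero] at h
    exact h)

theorem stLift_rst [CompactSpace X] [NormalSpace X] {A : Set X} (hA : IsClosed A) [CompactSpace A]
    (hK : K1Triv C(A, ℂ)) : StLift (rstR A) :=
  stLift_of_k1Triv (rst_isOpenMap hA) hK

theorem E1_inj' [CompactSpace X] [NormalSpace X] {A : Set X} (hA : IsClosed A) [CompactSpace A]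
    (hK : K1Triv C(A, ℂ)) {a₀ : X} (h₀ : a₀ ∈ A) {x : K0 (CR X A)}
    (hx : incK A x = 0) : x = 0 :=
  E1_inj h₀ (stLift_rst hA hK) hx

end Pairs

/-! ## smash products -/

section Smash

variable {Y Z : Type} [TopologicalSpace Y] [TopologicalSpace Z]

omit [TopologicalSpace Y] [TopologicalSpace Z] in
theorem mem_wedge_left (y : Y) (z : Z) (a : Y) : (a, z) ∈ wedge y z := Or.inr rfl

omit [TopologicalSpace Y] [TopologicalSpace Z] in
theorem mem_wedge_right (y : Y) (z : Z) (b : Z) : (y, b) ∈ wedge y z := Or.inl rfl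

/-- `h ↦ ((a,b) ↦ h(a,z))` -/
def wl (y : Y) (z : Z) : C(wedge y z, ℂ) →+* C(Y × Z, ℂ) :=
  ((ContinuousMap.compRightAlgHom ℂ ℂ
    (⟨fun p => ⟨(p.1, z), mem_wedge_left y z p.1⟩, by fun_prop⟩ : C(Y × Z, wedge y z)) :
    C(wedge y z, ℂ) →ₐ[ℂ] C(Y × Z, ℂ)) : C(wedge y z, ℂ) →+* C(Y × Z, ℂ))

/-- `h ↦ ((a,b) ↦ h(y,b))` -/
def wr (y : Y) (z : Z) : C(wedge y z, ℂ) →+* C(Y × Z, ℂ) :=
  ((ContinuousMap.compRightAlgHom ℂ ℂ
    (⟨fun p => ⟨(y, p.2), mem_wedge_right y z p.2⟩, by fun_prop⟩ : C(Y × Z, wedge y z)) :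
    C(wedge y z, ℂ) →ₐ[ℂ] C(Y × Z, ℂ)) : C(wedge y z, ℂ) →+* C(Y × Z, ℂ))

/-- `h ↦ ((a,b) ↦ h(y,z))` -/
def wc (y : Y) (z : Z) : C(wedge y z, ℂ) →+* C(Y × Z, ℂ) :=
  ((ContinuousMap.compRightAlgHom ℂ ℂ
    (⟨fun _ => ⟨(y, z), mem_wedge_right y z z⟩, by fun_prop⟩ : C(Y × Z, wedge y z)) :
    C(wedge y z, ℂ) →ₐ[ℂ] C(Y × Z, ℂ)) : C(wedge y z, ℂ) →+* C(Y × Z, ℂ))

theorem ext_ev {X : Type} [TopologicalSpace X] {ι κ : Type*} {M M' : Matrix ι κ C(X, ℂ)}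
    (h : ∀ x, M.map (evw x) = M'.map (evw x)) : M = M' := by
  ext i j x
  exact congrFun (congrFun (h x) i) j

theorem stLift_wedge (y : Y) (z : Z) :
    StLift (rstR (wedge y z)) := by
  intro n g g' h1 h2
  have hw : ∀ (φ : C(wedge y z, ℂ) →+* C(Y × Z, ℂ)), g.map φ * g'.map φ = 1 := fun φ => by
    rw [← Matrix.map_mul, h1, Matrix.map_one _ (map_zero _) (map_one _)]
  have hw' : ∀ (φ : C(wedge y z, ℂ) →+* C(Y × Z, ℂ)), g'.map φ * g.map φ = 1 := fun φ => by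
    rw [← Matrix.map_mul, h2, Matrix.map_one _ (map_zero _) (map_one _)]
  let U := g.map (wl y z) * g'.map (wc y z) * g.map (wr y z)
  let V := g'.map (wr y z) * g.map (wc y z) * g'.map (wl y z)
  have hUV : U * V = 1 := by
    calc U * V = g.map (wl y z) * (g'.map (wc y z) * (g.map (wr y z) * g'.map (wr y z)) *
          g.map (wc y z)) * g'.map (wl y z) := by simp only [U, V, Matrix.mul_assoc]
      _ = 1 := by rw [hw, Matrix.mul_one, hw', Matrix.mul_one, hw]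
  have hVU : V * U = 1 := by
    calc V * U = g'.map (wr y z) * (g.map (wc y z) * (g'.map (wl y z) * g.map (wl y z)) *
          g'.map (wc y z)) * g.map (wr y z) := by simp only [U, V, Matrix.mul_assoc]
      _ = 1 := by rw [hw', Matrix.mul_one, hw, Matrix.mul_one, hw']
  refine ⟨0, dsum U 1, dsum V 1, by rw [dsum_mul, hUV, Matrix.one_mul, dsum_one],
    by rw [dsum_mul, hVU, Matrix.one_mul, dsum_one], ?_⟩
  rw [dsum_map, Matrix.map_one _ (map_zero _) (map_one _)]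
  congr 1
  apply ext_ev
  rintro ⟨⟨a, b⟩, hp⟩
  have e1 : ∀ (q : wedge y z), g.map (evw q) * g'.map (evw q) = 1 := fun q => by
    rw [← Matrix.map_mul, h1, Matrix.map_one _ (map_zero _) (map_one _)]
  have e2 : ∀ (q : wedge y z), g'.map (evw q) * g.map (evw q) = 1 := fun q => by
    rw [← Matrix.map_mul, h2, Matrix.map_one _ (map_zero _) (map_one _)]
  have e3 : (U.map (rstR (wedge y z))).map (evw (⟨(a, b), hp⟩ : wedge y z)) =
      g.map (evw ⟨(a, z), mem_wedge_left y z a⟩) * g'.map (evw ⟨(y, z), mem_wedge_right y z z⟩) *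
        g.map (evw ⟨(y, b), mem_wedge_right y z b⟩) := by
    simp only [U, Matrix.map_mul]
    rfl
  rw [e3]
  rcases hp with h | h
  · simp only at h
    subst h
    rw [e1, Matrix.one_mul]
  · simp only at h
    subst h
    rw [Matrix.mul_assoc, e2, Matrix.mul_one]

/-- **(E2)** `K(Y ∧ Z) → K(Y × Z)` is injective -/
theorem E2 (y : Y) (z : Z) {x : K0 (Smash y z)}
    (hx : incK (wedge y z) x
      = 0) : x = 0 :=
  E1_inj (mem_wedge_left y z y) (stLift_wedge y z) hx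

theorem E2_injective (y : Y) (z : Z) : Function.Injective
    (incK (wedge y z)) :=
  (injective_iff_map_eq_zero _).2 fun _ hx => E2 y z hx

end Smash

/-! ## the mapping cone -/

section Cone

variable {N : Type} [Finite N] {Y : Type} [TopologicalSpace Y] {y : Y} {f : GenLoop N Y y}
  {x₀ : N → I}

/-- **(E3)** surjectivity of `K̃(C_f) → K̃(Y)` if `K̃(S^N) = 0`. -/
theorem E3 (h₀ : x₀ ∈ Cube.boundary N)
    (hN : ∀ x : K0 (SA N), evK (Cube.boundary N) x₀ x = 0 → x = 0)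
    {v : K0 C(Y, ℂ)} (hv : evwK y v = 0) :
    ∃ x : K0 (ConeAlg y f), resK f x = v ∧ evCK f x = 0 := by
  have h1 : fK f v = 0 := by
    apply hN
    have h2 : (evR (Cube.boundary N) x₀).comp (fR f) = evw y := by
      ext b
      show b (f x₀) = b y
      rw [loop_bd f h₀]
    have h3 := K0.map_comp (A := C(Y, ℂ)) (B := SA N) (C := ℂ) (evR (Cube.boundary N) x₀) (fR f) v
    rw [h2, hv] at h3
    exact h3.symm
  let kR : SA N →+* C(bdI N, ℂ) := (kap h₀ : SA N →ₐ[ℂ] C(bdI N, ℂ))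
  have h4 : K0.map (A := C(Y, ℂ)) (B := C(bdI N, ℂ)) (kR.comp (fR f)) v = 0 := by
    have h5 := K0.map_comp (A := C(Y, ℂ)) (B := SA N) (C := C(bdI N, ℂ)) kR (fR f) v
    have h6 : K0.map (A := C(Y, ℂ)) (B := SA N) (fR f) v = 0 := h1
    rw [h6, map_zero] at h5
    exact h5
  obtain ⟨x, -, hx⟩ := (sqCone f h₀).K0_mid (a := 0) (b := v) (sqCone_al_surjective h₀)
    (by rw [map_zero]; exact h4.symm)
  refine ⟨x, hx, ?_⟩
  have h7 : resK f x = v := hx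
  have h8 := K0.map_comp (A := ConeAlg y f) (B := C(Y, ℂ)) (C := ℂ) (evw y) (resR f) x
  have h9 : evwK y (resK f x) = 0 := by rw [h7, hv]
  exact h8.trans h9

/-- **(E5)** exactness at `K̃(C_f)`. -/
theorem E5 [Nonempty N] (x₀ : N → I) {x : K0 (ConeAlg y f)} (hx : resK f x = 0) :
    ∃ z : K0 (SA' N), qK f x₀ z = x ∧ evK (bdI N) (x₀, 0) z = 0 :=
  (sqQ f x₀).exists_rel res_surjective hx

omit [Finite N] in
theorem ev_comp_q (x₀ : N → I) (z : K0 (SA' N)) :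
    evCK f
      (qK f x₀ z) =
      evK (bdI N) (x₀, 0) z := by
  rw [← K0.map_comp]
  rfl

/-- **(E4)** injectivity of `K(S^{N+1}) → K(C_f)` if `K1 C(Y) = 0`. -/
theorem E4 [Nonempty N] [CompactSpace Y] (hY : K1Triv C(Y, ℂ)) (x₀ : N → I) {z : K0 (SA' N)}
    (hz : qK f x₀ z = 0) :
    z = 0 := by
  refine (sqQ f x₀).K0_inj (stLift_of_k1Triv (A := ConeAlg y f) (res_isOpenMap (f := f)) hY) hz ?_
  have h := ev_comp_q (f := f) x₀ z
  rw [hz, map_zero] at h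
  exact h.symm

theorem E4_injective [Nonempty N] [CompactSpace Y] (hY : K1Triv C(Y, ℂ)) (x₀ : N → I) :
    Function.Injective
      (qK f x₀) :=
  (injective_iff_map_eq_zero _).2 fun _ hx => E4 hY x₀ hx

omit [Finite N] in
/-- the composite `K̃(S^{N+1}) → K̃(C_f) → K̃(Y)` is zero. -/
theorem res_comp_q (x₀ : N → I) {z : K0 (SA' N)}
    (hz : evK (bdI N) (x₀, 0) z = 0) :
    resK f
      (qK f x₀ z) = 0 := by
  have h : (resR f).comp (qR f x₀) =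
      ((Algebra.ofId ℂ C(Y, ℂ) : ℂ →ₐ[ℂ] C(Y, ℂ)) : ℂ →+* C(Y, ℂ)).comp
        (evR (bdI N) (x₀, 0)) := rfl
  rw [← K0.map_comp, h, K0.map_comp, hz, map_zero]

end Cone

end Crest.Agent.R204.ExM515
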