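import Mathlib
import Crest.Agent.R204.Diag_484
import Crest.Agent.R204.ExMb_515
import Crest.Agent.R204.Ex7_837

/-!
# Row 204, block H: K-theory side, squares in the mapping cone (helper515)

* `pdCone f` : the formal product `PD ℂ (ConeAlg y f) (ConeAlg y f) (CC f)`;
* `smCone f` : `CW f` is its smash algebra;
* `square`   : `x` reduced ⇒ `x * x = q^* (G^* (res x ∧ res x))`.
-/

set_option autoImplicit false

open scoped unitInterval Topology Topology.Homotopy

noncomputable section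

namespace Crest.Agent.R204.HMain515

open H472 Ex837 ExM515 Diag484 HopfMap484
open K357 (K0)

variable {N : Type} {Y : Type} [TopologicalSpace Y] {y : Y} {f : GenLoop N Y y}

/-- elements of the cone algebra as functions on cell ⊔ base -/
def cz : ConeAlg y f →ₐ[ℂ] C(Zc N Y, ℂ) where
  toFun p := ⟨Sum.elim (p : C((N → I) × I, ℂ) × C(Y, ℂ)).1 (p : C((N → I) × I, ℂ) × C(Y, ℂ)).2,
    by fun_prop⟩
  map_one' := by
    ext (z | z) <;> simp
  map_mul' a b := by
    ext (z | z) <;> simp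
  map_zero' := by
    ext (z | z) <;> simp
  map_add' a b := by
    ext (z | z) <;> simp
  commutes' r := by
    ext (z | z) <;> rfl

@[simp] theorem cz_inl (p : ConeAlg y f) (z : (N → I) × I) :
    cz p (Sum.inl z) = (p : C((N → I) × I, ℂ) × C(Y, ℂ)).1 z := rfl
@[simp] theorem cz_inr (p : ConeAlg y f) (z : Y) :
    cz p (Sum.inr z) = (p : C((N → I) × I, ℂ) × C(Y, ℂ)).2 z := rfl

theorem cz_glue (p : ConeAlg y f) {z z' : Zc N Y} (h : Glue f z z') : cz p z = cz p z' := by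
  obtain ⟨h1, h2, h3⟩ := p.2
  rcases z with ⟨x, t⟩ | z <;> rcases z' with ⟨x', t'⟩ | z'
  · exact h.elim
  · rcases h with ⟨ht, hz⟩ | ⟨hx, hz⟩ | ⟨ht, hz⟩
    · simp only at ht hz
      subst ht hz
      exact h1 x
    · simp only at hx
      subst hz
      exact h2 x t hx
    · simp only at ht
      subst ht hz
      exact h3 x
  · exact h.elim
  · exact h.elim

/-- pullback along the first projection -/
def ci1 : ConeAlg y f →ₐ[ℂ] CC f :=
  ((ContinuousMap.compRightAlgHom ℂ ℂ (ContinuousMap.fst : C(Zc N Y × Zc N Y, Zc N Y))).comp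
    cz).codRestrict (CC f) (fun p _ _ _ h => ⟨cz_glue p h, rfl⟩)

/-- pullback along the second projection -/
def ci2 : ConeAlg y f →ₐ[ℂ] CC f :=
  ((ContinuousMap.compRightAlgHom ℂ ℂ (ContinuousMap.snd : C(Zc N Y × Zc N Y, Zc N Y))).comp
    cz).codRestrict (CC f) (fun p _ _ _ h => ⟨rfl, cz_glue p h⟩)

@[simp] theorem ci1_apply (p : ConeAlg y f) (w : Zc N Y × Zc N Y) :
    ((ci1 p : CC f) : C(Zc N Y × Zc N Y, ℂ)) w = cz p w.1 := rfl
@[simp] theorem ci2_apply (p : ConeAlg y f) (w : Zc N Y × Zc N Y) :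
    ((ci2 p : CC f) : C(Zc N Y × Zc N Y, ℂ)) w = cz p w.2 := rfl

theorem compat_l (f : GenLoop N Y y) : Compat f (CC f)
    (⟨fun p => (Sum.inl p, Sum.inr y), by fun_prop⟩ : C((N → I) × I, Zc N Y × Zc N Y))
    (⟨fun p => (Sum.inr p, Sum.inr y), by fun_prop⟩ : C(Y, Zc N Y × Zc N Y)) where
  zero _ hh x := CC_left hh _ (glue_zero f x)
  bd _ hh _ t hx := CC_left hh _ (glue_bd f hx t)
  one _ hh x := CC_left hh _ (glue_one f x)

theorem compat_r (f : GenLoop N Y y) : Compat f (CC f)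
    (⟨fun p => (Sum.inr y, Sum.inl p), by fun_prop⟩ : C((N → I) × I, Zc N Y × Zc N Y))
    (⟨fun p => (Sum.inr y, Sum.inr p), by fun_prop⟩ : C(Y, Zc N Y × Zc N Y)) where
  zero _ hh x := CC_right hh _ (glue_zero f x)
  bd _ hh _ t hx := CC_right hh _ (glue_bd f hx t)
  one _ hh x := CC_right hh _ (glue_one f x)

/-- restriction to the first axis -/
def cr1 : CC f →ₐ[ℂ] ConeAlg y f := toCone (CC f) _ _ (compat_l f)
/-- restriction to the second axis -/
def cr2 : CC f →ₐ[ℂ] ConeAlg y f := toCone (CC f) _ _ (compat_r f)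

theorem coneExt {p q : ConeAlg y f} (h : ∀ z, cz p z = cz q z) : p = q := by
  refine Subtype.ext (Prod.ext ?_ ?_)
  · ext z; exact h (Sum.inl z)
  · ext z; exact h (Sum.inr z)

theorem cz_cr1 (F : CC f) (z : Zc N Y) :
    cz (cr1 F) z = (F : C(Zc N Y × Zc N Y, ℂ)) (z, Sum.inr y) := by
  rcases z with z | z <;> rfl

theorem cz_cr2 (F : CC f) (z : Zc N Y) :
    cz (cr2 F) z = (F : C(Zc N Y × Zc N Y, ℂ)) (Sum.inr y, z) := by
  rcases z with z | z <;> rfl

theorem cz_Δ (F : CC f) (z : Zc N Y) :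
    cz (Δ f F) z = (F : C(Zc N Y × Zc N Y, ℂ)) (z, z) := by
  rcases z with z | z <;> rfl

/-- the formal product of the cone algebra with itself -/
def pdCone (f : GenLoop N Y y) : PD ℂ (ConeAlg y f) (ConeAlg y f) (CC f) where
  e := ConeAlg.ev
  e' := ConeAlg.ev
  i1 := ci1
  i2 := ci2
  r1 := cr1
  r2 := cr2
  r1_i1 b := coneExt fun z => by rw [cz_cr1]; rfl
  r2_i2 b := coneExt fun z => by rw [cz_cr2]; rfl
  r1_i2 b := coneExt fun z => by rw [cz_cr1]; rcases z with z | z <;> rfl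
  r2_i1 b := coneExt fun z => by rw [cz_cr2]; rcases z with z | z <;> rfl
  e_r F := rfl

/-- `CW f` is the smash algebra -/
def smCone (f : GenLoop N Y y) : (pdCone f).Sm (CW f) where
  inc := incl f
  ev := (ContinuousMap.evalAlgHom ℂ ℂ ((Sum.inr y, Sum.inr y) : Zc N Y × Zc N Y)).comp (CW f).val
  r1_inc s := coneExt fun z => by
    change cz (cr1 (incl f s)) z = _
    rw [cz_cr1, incl_coe, CW_base_right s.2]
    rcases z with z | z <;> rfl
  r2_inc s := coneExt fun z => by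
    change cz (cr2 (incl f s)) z = _
    rw [cz_cr2, incl_coe, CW_base_left s.2]
    rcases z with z | z <;> rfl
  inj' a b h := Subtype.ext (congrArg (fun F : CC f => (F : C(Zc N Y × Zc N Y, ℂ))) h)
  lift' F c h1 h2 := by
    have e1 : ∀ z, (F : C(Zc N Y × Zc N Y, ℂ)) (z, Sum.inr y) = c := fun z => by
      have := congrArg (fun p : ConeAlg y f => cz p z) h1
      change cz (cr1 F) z = cz (algebraMap ℂ (ConeAlg y f) c) z at this
      rw [cz_cr1] at this
      rw [this]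
      rcases z with z | z <;> rfl
    have e2 : ∀ z, (F : C(Zc N Y × Zc N Y, ℂ)) (Sum.inr y, z) = c := fun z => by
      have := congrArg (fun p : ConeAlg y f => cz p z) h2
      change cz (cr2 F) z = cz (algebraMap ℂ (ConeAlg y f) c) z at this
      rw [cz_cr2] at this
      rw [this]
      rcases z with z | z <;> rfl
    have e3 : ∀ p ∈ wedge (Sum.inr y : Zc N Y) (Sum.inr y : Zc N Y),
        (F : C(Zc N Y × Zc N Y, ℂ)) p = c := by
      rintro ⟨z, w⟩ (h | h)
      · simp only at h; subst h; exact e2 w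
      · simp only at h; subst h; exact e1 z
    exact ⟨⟨F, F.2, fun p hp q hq => by rw [e3 p hp, e3 q hq]⟩, rfl⟩

/-! ## the square of a reduced class -/

/-- `K0` of a commutative ring (instance path through `CommRing`) -/
abbrev KC (A : Type) [CommRing A] : Type := @K0 A CommRing.toRing

/-- induced ring homomorphism -/
abbrev KM {A B : Type} [CommRing A] [CommRing B] (φ : A →+* B) : KC A →+* KC B := K0.mapRing φ

section KM

variable {A B C : Type} [CommRing A] [CommRing B] [CommRing C]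

theorem KM_comp (φ : A →+* B) (ψ : B →+* C) (χ : A →+* C) (h : ∀ a, ψ (φ a) = χ a) (x : KC A) :
    KM ψ (KM φ x) = KM χ x := by
  have h1 : χ = ψ.comp φ := RingHom.ext fun a => (h a).symm
  subst h1
  exact (K0.map_comp ψ φ x).symm

theorem KM_id (φ : A →+* A) (h : ∀ a, φ a = a) (x : KC A) : KM φ x = x := by
  have : φ = RingHom.id A := RingHom.ext h
  subst this
  exact K0.map_id x

end KM

/-- restriction `C × C ⊇ Y × Y` -/
def rho (f : GenLoop N Y y) : CC f →ₐ[ℂ] C(Y × Y, ℂ) :=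
  (ContinuousMap.compRightAlgHom ℂ ℂ
    (⟨fun p => (Sum.inr p.1, Sum.inr p.2), by fun_prop⟩ : C(Y × Y, Zc N Y × Zc N Y))).comp
      (CC f).val

theorem Δ_ci1 (p : ConeAlg y f) : Δ f (ci1 p) = p := coneExt fun z => by rw [cz_Δ]; rfl
theorem Δ_ci2 (p : ConeAlg y f) : Δ f (ci2 p) = p := coneExt fun z => by rw [cz_Δ]; rfl

/-! named homomorphisms on `K0` -/

/-- `CW → CC` -/
abbrev kInc (f : GenLoop N Y y) : KC (CW f) →+* KC (CC f) :=
  KM (A := CW f) (B := CC f) (incl f).toRingHom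
/-- diagonal -/
abbrev kDl (f : GenLoop N Y y) : KC (CC f) →+* KC (ConeAlg y f) :=
  KM (A := CC f) (B := ConeAlg y f) (Δ f).toRingHom
/-- first projection -/
abbrev kI1 (f : GenLoop N Y y) : KC (ConeAlg y f) →+* KC (CC f) :=
  KM (A := ConeAlg y f) (B := CC f) (pdCone f).i1.toRingHom
/-- second projection -/
abbrev kI2 (f : GenLoop N Y y) : KC (ConeAlg y f) →+* KC (CC f) :=
  KM (A := ConeAlg y f) (B := CC f) (pdCone f).i2.toRingHom
/-- base point of the cone -/
abbrev kE (f : GenLoop N Y y) : KC (ConeAlg y f) →+* KC ℂ :=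
  KM (A := ConeAlg y f) (B := ℂ) (pdCone f).e.toRingHom
/-- `CW → C(Y ∧ Y)` -/
abbrev kW (f : GenLoop N Y y) : KC (CW f) →+* KC (Smash y y) :=
  KM (A := CW f) (B := Smash y y) (Diag484.res f).toRingHom
/-- restriction to `Y` -/
abbrev kR (f : GenLoop N Y y) : KC (ConeAlg y f) →+* KC C(Y, ℂ) :=
  KM (A := ConeAlg y f) (B := C(Y, ℂ)) (resR f)
/-- `CC → C(Y × Y)` -/
abbrev kRho (f : GenLoop N Y y) : KC (CC f) →+* KC C(Y × Y, ℂ) :=
  KM (A := CC f) (B := C(Y × Y, ℂ)) (rho f).toRingHom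
/-- collapse -/
abbrev kQ (f : GenLoop N Y y) (x₀ : N → I) : KC (SA' N) →+* KC (ConeAlg y f) :=
  KM (A := SA' N) (B := ConeAlg y f) (qR f x₀)
/-- Hopf map -/
abbrev kG (P : CoP (N → I) (Cube.boundary N)) (c : CoH Y y) (f : GenLoop N Y y) :
    KC (Smash y y) →+* KC (SA' N) := KM (A := Smash y y) (B := SA' N) (Gstar P c f).toRingHom
/-- base point of `Y` -/
abbrev kY (y : Y) : KC C(Y, ℂ) →+* KC ℂ := KM (A := C(Y, ℂ)) (B := ℂ) (pdC y y).e.toRingHom

theorem kDl_kI1 (x : KC (ConeAlg y f)) : kDl f (kI1 f x) = x :=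
  (KM_comp (A := ConeAlg y f) (B := CC f) (C := ConeAlg y f) _ _ (RingHom.id _) Δ_ci1 x).trans
    (KM_id _ (fun _ => rfl) x)

theorem kDl_kI2 (x : KC (ConeAlg y f)) : kDl f (kI2 f x) = x :=
  (KM_comp (A := ConeAlg y f) (B := CC f) (C := ConeAlg y f) _ _ (RingHom.id _) Δ_ci2 x).trans
    (KM_id _ (fun _ => rfl) x)

theorem kY_kR (x : KC (ConeAlg y f)) : kY y (kR f x) = kE f x :=
  KM_comp (A := ConeAlg y f) (B := C(Y, ℂ)) (C := ℂ) _ _ _ (fun _ => rfl) x

theorem kInc_ext {x : KC (ConeAlg y f)} (hx : kE f x = 0) :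
    kInc f ((smCone f).ext x x) = kI1 f x * kI2 f x :=
  (smCone f).inc_ext (x := x) (y := x) hx hx

/-- `Δ^* (i₁ x · i₂ x) = x²` -/
theorem delta_ext {x : KC (ConeAlg y f)} (hx : kE f x = 0) :
    kDl f (kInc f ((smCone f).ext x x)) = x * x := by
  rw [kInc_ext hx, map_mul, kDl_kI1, kDl_kI2]

theorem kRho_kInc (z : KC (CW f)) : kRho f (kInc f z) =
    KM (A := Smash y y) (B := C(Y × Y, ℂ)) (smC y y).inc.toRingHom (kW f z) := by
  have a1 := KM_comp (A := CW f) (B := CC f) (C := C(Y × Y, ℂ)) (incl f).toRingHom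
    (rho f).toRingHom ((rho f).toRingHom.comp (incl f).toRingHom) (fun _ => rfl) z
  have a2 := KM_comp (A := CW f) (B := Smash y y) (C := C(Y × Y, ℂ)) (Diag484.res f).toRingHom
    (smC y y).inc.toRingHom ((rho f).toRingHom.comp (incl f).toRingHom) (fun _ => rfl) z
  exact a1.trans a2.symm

theorem kRho_kI1 (x : KC (ConeAlg y f)) : kRho f (kI1 f x) =
    KM (A := C(Y, ℂ)) (B := C(Y × Y, ℂ)) (pdC y y).i1.toRingHom (kR f x) := by
  have a1 := KM_comp (A := ConeAlg y f) (B := CC f) (C := C(Y × Y, ℂ)) (pdCone f).i1.toRingHom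
    (rho f).toRingHom ((pdC y y).i1.toRingHom.comp (resR f)) (fun _ => rfl) x
  have a2 := KM_comp (A := ConeAlg y f) (B := C(Y, ℂ)) (C := C(Y × Y, ℂ)) (resR f)
    (pdC y y).i1.toRingHom ((pdC y y).i1.toRingHom.comp (resR f)) (fun _ => rfl) x
  exact a1.trans a2.symm

theorem kRho_kI2 (x : KC (ConeAlg y f)) : kRho f (kI2 f x) =
    KM (A := C(Y, ℂ)) (B := C(Y × Y, ℂ)) (pdC y y).i2.toRingHom (kR f x) := by
  have a1 := KM_comp (A := ConeAlg y f) (B := CC f) (C := C(Y × Y, ℂ)) (pdCone f).i2.toRingHom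
    (rho f).toRingHom ((pdC y y).i2.toRingHom.comp (resR f)) (fun _ => rfl) x
  have a2 := KM_comp (A := ConeAlg y f) (B := C(Y, ℂ)) (C := C(Y × Y, ℂ)) (resR f)
    (pdC y y).i2.toRingHom ((pdC y y).i2.toRingHom.comp (resR f)) (fun _ => rfl) x
  exact a1.trans a2.symm

/-- restriction of the external square to `Y ∧ Y` -/
theorem res_ext {x : KC (ConeAlg y f)} (hx : kE f x = 0) :
    kW f ((smCone f).ext x x) = (smC y y).ext (kR f x) (kR f x) := by
  have hr : kY y (kR f x) = 0 := by rw [kY_kR, hx]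
  refine (smC y y).eq_ext (x := kR f x) (y := kR f x) hr hr ?_ ?_
  · change KM (A := Smash y y) (B := C(Y × Y, ℂ)) (smC y y).inc.toRingHom
      (kW f ((smCone f).ext x x)) =
      KM (A := C(Y, ℂ)) (B := C(Y × Y, ℂ)) (pdC y y).i1.toRingHom (kR f x) *
        KM (A := C(Y, ℂ)) (B := C(Y × Y, ℂ)) (pdC y y).i2.toRingHom (kR f x)
    rw [← kRho_kInc, kInc_ext hx, map_mul, kRho_kI1, kRho_kI2]
  · have a1 := KM_comp (A := CW f) (B := Smash y y) (C := ℂ) (Diag484.res f).toRingHom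
      (smC y y).ev.toRingHom (smCone f).ev.toRingHom (fun _ => rfl) ((smCone f).ext x x)
    exact a1.trans ((smCone f).ev_ext (x := x) (y := x) hx hx)

/-- 484's diagonal theorem on the `CommRing` path -/
theorem diag_KM [CompactSpace Y] (P : CoP (N → I) (Cube.boundary N)) (c : CoH Y y) (x₀ : N → I)
    (B : KC (CW f)) : kDl f (kInc f B) = kQ f x₀ (kG P c f (kW f B)) :=
  diag_eq P c x₀ B

/-- **THE SQUARE** of a reduced class of the mapping cone -/
theorem square [CompactSpace Y] (P : CoP (N → I) (Cube.boundary N)) (c : CoH Y y) (x₀ : N → I)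
    {x : KC (ConeAlg y f)} (hx : kE f x = 0) :
    x * x = kQ f x₀ (kG P c f ((smC y y).ext (kR f x) (kR f x))) := by
  rw [← delta_ext hx, diag_KM P c x₀, res_ext hx]

end Crest.Agent.R204.HMain515
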