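import Crest.Agent.R204.KDefs_357

/-!
# Row 204, block H: `K₀` of a field is `ℤ` (helper472)
-/

set_option autoImplicit false

open Matrix Module

namespace Crest.Agent.R204.H472

open K357

variable {F : Type*} [Field F]

theorem exists_MvN_one {n : ℕ} (e : Matrix (Fin n) (Fin n) F) (he : e * e = e) :
    ∃ r : ℕ, MvN e (1 : Matrix (Fin r) (Fin r) F) := by
  classical
  set L : (Fin n → F) →ₗ[F] (Fin n → F) := Matrix.toLin' e with hL
  have hLL : ∀ x, L (L x) = L x := by
    intro x
    rw [hL, ← LinearMap.comp_apply, ← Matrix.toLin'_mul, he]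
  let V := LinearMap.range L
  let b := finBasis F V
  refine ⟨finrank F V, LinearMap.toMatrix' (V.subtype ∘ₗ (b.equivFun.symm : (Fin (finrank F V) → F) →ₗ[F] V)),
    LinearMap.toMatrix' ((b.equivFun : V →ₗ[F] (Fin (finrank F V) → F)) ∘ₗ L.rangeRestrict), ?_, ?_⟩
  · rw [← LinearMap.toMatrix'_comp]
    have : (V.subtype ∘ₗ (b.equivFun.symm : (Fin (finrank F V) → F) →ₗ[F] V)) ∘ₗ
        ((b.equivFun : V →ₗ[F] (Fin (finrank F V) → F)) ∘ₗ L.rangeRestrict) = L := by
      apply LinearMap.ext
      intro x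
      simp only [LinearMap.comp_apply, LinearEquiv.coe_coe, LinearEquiv.symm_apply_apply,
        Submodule.subtype_apply]
      rfl
    rw [this, hL, LinearMap.toMatrix'_toLin']
  · rw [← LinearMap.toMatrix'_comp]
    have : ((b.equivFun : V →ₗ[F] (Fin (finrank F V) → F)) ∘ₗ L.rangeRestrict) ∘ₗ
        (V.subtype ∘ₗ (b.equivFun.symm : (Fin (finrank F V) → F) →ₗ[F] V)) = LinearMap.id := by
      apply LinearMap.ext
      intro x
      simp only [LinearMap.comp_apply, LinearEquiv.coe_coe, Submodule.subtype_apply,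
        LinearMap.id_apply]
      have h1 : L.rangeRestrict ((b.equivFun.symm x : V) : Fin n → F) = b.equivFun.symm x := by
        apply Subtype.ext
        obtain ⟨y, hy⟩ := (b.equivFun.symm x).2
        show L ((b.equivFun.symm x : V) : Fin n → F) = _
        rw [← hy, hLL]
      rw [h1, LinearEquiv.apply_symm_apply]
    rw [this, LinearMap.toMatrix'_id]

theorem K0_field_surj (x : K0 F) : ∃ n : ℤ, x = (n : K0 F) := by
  obtain ⟨n, m, e, he, rfl⟩ := K0.exists_rep_one x
  obtain ⟨r, hr⟩ := exists_MvN_one e he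
  refine ⟨(r : ℤ) - m, ?_⟩
  rw [K0.cls_eq he (by simp) hr, K0.cls_one_fin, K0.cls_one_fin]
  push_cast
  rfl

theorem K0_field_natCast_inj {n : ℕ} (h : (n : K0 F) = 0) : n = 0 := by
  rw [← K0.cls_one_fin, ← K0.cls_zero (I := Fin 0)] at h
  obtain ⟨k, u, v, h1, h2⟩ := (K0.cls_eq_iff (by simp) (by simp)).1 h
  have h2' : v * u = 1 := by
    rw [h2]
    have : (0 : Matrix (Fin 0) (Fin 0) F) = 1 := by ext i; exact i.elim0
    rw [this, fromBlocks_one]
  have h1' : u * v = 1 := by rw [h1, fromBlocks_one]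
  have := Matrix.square_of_invertible u v h1' h2'
  simp only [Fintype.card_sum, Fintype.card_fin] at this
  omega

theorem K0_field_intCast_inj {n : ℤ} (h : (n : K0 F) = 0) : n = 0 := by
  rcases Int.eq_nat_or_neg n with ⟨m, rfl | rfl⟩
  · rw [Int.cast_natCast] at h
    rw [K0_field_natCast_inj h]; rfl
  · rw [Int.cast_neg, Int.cast_natCast, neg_eq_zero] at h
    rw [K0_field_natCast_inj h]; rfl

/-- `K₀` of a field has no 2-torsion -/
theorem K0_field_two (u : K0 F) (h : 2 * u = 0) : u = 0 := by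
  obtain ⟨n, rfl⟩ := K0_field_surj u
  have h1 : ((2 * n : ℤ) : K0 F) = 0 := by push_cast; exact h
  have h2 := K0_field_intCast_inj h1
  have h3 : n = 0 := by omega
  rw [h3, Int.cast_zero]

end Crest.Agent.R204.H472
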