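import Crest.Agent.R204.PsiC_357

/-!
# Adams operations on `K0 A` (row 204, block H, leaf H1), part D

`psi p` and `psi q` commute, `p ≠ q` primes.
-/

open Matrix
open scoped Kronecker BigOperators

namespace Crest.Agent.R204.K357

universe u v w

set_option linter.unusedSectionVars false

noncomputable section

variable {p q : ℕ} [Fact p.Prime] [Fact q.Prime] {A : Type u} [CommRing A] [Algebra ℂ A]
variable {I X Y : Type*} [Fintype I] [Fintype X] [Fintype Y]

/-- tensor power of a representation -/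
def MRep.tpow (p : ℕ) [Fact p.Prime] (R : MRep q Y A) : MRep q (ZMod p → Y) A where
  ρ b := tp (ZMod p) (R.ρ b)
  zero' := by
    classical
    rw [R.zero', tp_def, tpf_one]
    congr!
  add' a b := by rw [R.add', tp_mul]

theorem cl_add_mul {G N P : Matrix X X A} (hG : G * G = G) (hN : N * N = N) (hP : P * P = P)
    (hGN : G * N = 0) (hNG : N * G = 0) (hGP : G * P = P * G) (hNP : N * P = P * N) :
    cl ((G + N) * P) = cl (G * P) + cl (N * P) := by
  rw [Matrix.add_mul]
  refine cl_add (idem_mul_of_comm hG hP hGP) (idem_mul_of_comm hN hP hNP) ?_ ?_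
  · calc G * P * (N * P) = G * (P * N) * P := by simp only [Matrix.mul_assoc]
      _ = (G * N) * (P * P) := by rw [← hNP]; simp only [Matrix.mul_assoc]
      _ = 0 := by rw [hGN, Matrix.zero_mul]
  · calc N * P * (G * P) = N * (P * G) * P := by simp only [Matrix.mul_assoc]
      _ = (N * G) * (P * P) := by rw [← hGP]; simp only [Matrix.mul_assoc]
      _ = 0 := by rw [hNG, Matrix.zero_mul]

/-- the doubly indexed components of `e^{⊗ pq}` -/
def dbl (p q : ℕ) [Fact p.Prime] [Fact q.Prime] (a : ZMod p) (b : ZMod q) (e : Matrix I I A) :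
    Matrix (ZMod p → ZMod q → I) (ZMod p → ZMod q → I) A :=
  tp (ZMod p) (tp (ZMod q) e) * (MRep.tpow p (shift q I A)).proj b *
    (shift p (ZMod q → I) A).proj a

theorem compMat_mul_rho (j : ZMod q) (e : Matrix I I A) (a : ZMod q) :
    compMat q j e * (shift q I A).ρ a = chi q A (j * a) • compMat q j e := by
  rw [compMat, Matrix.mul_assoc, MRep.proj_mul_rho, Matrix.mul_smul]

theorem sum_compMat (e : Matrix I I A) : ∑ j, compMat q j e = tp (ZMod q) e := by
  simp only [compMat]
  rw [← Finset.mul_sum, MRep.mul_sum_proj]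

theorem compMat_orth {i l : ZMod q} (hil : i ≠ l) (e : Matrix I I A) :
    compMat q i e * compMat q l e = 0 := by
  rw [compMat, compMat]
  calc tp (ZMod q) e * (shift q I A).proj i * (tp (ZMod q) e * (shift q I A).proj l)
        = tp (ZMod q) e * ((shift q I A).proj i * tp (ZMod q) e) *
          (shift q I A).proj l := by simp only [Matrix.mul_assoc]
      _ = (tp (ZMod q) e * tp (ZMod q) e) * ((shift q I A).proj i *
          (shift q I A).proj l) := by
          rw [proj_mul_tp]; simp only [Matrix.mul_assoc]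
      _ = 0 := by rw [MRep.proj_orth _ hil, Matrix.mul_zero]

theorem chi_sum {ι : Type*} (s : Finset ι) (f : ι → ZMod q) :
    ∏ k ∈ s, chi q A (f k) = chi q A (∑ k ∈ s, f k) := by
  classical
  induction s using Finset.induction_on with
  | empty => simp
  | insert a s ha ih => rw [Finset.prod_insert ha, Finset.sum_insert ha, ih, chi_add]

/-- the `b`-isotypical part of `(e^{⊗q})^{⊗p}` for the diagonal action of `ZMod q` -/
theorem tp_mul_proj (b : ZMod q) (e : Matrix I I A) :
    tp (ZMod p) (tp (ZMod q) e) * (MRep.tpow p (shift q I A)).proj b =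
      ∑ t ∈ Finset.univ.filter (fun t : ZMod p → ZMod q => ∑ k, t k = b),
        tpf (fun k => compMat q (t k) e) := by
  have h1 : tp (ZMod p) (tp (ZMod q) e) =
      ∑ t : ZMod p → ZMod q, tpf (fun k => compMat q (t k) e) := by
    rw [← sum_compMat e, tp_def, tpf_sum (fun _ : ZMod p => fun j => compMat q j e)]
  rw [h1, Matrix.sum_mul, Finset.sum_filter]
  refine Finset.sum_congr rfl fun t _ => ?_
  refine MRep.mul_proj_of_eigen _ _ _ (fun a => ?_) b
  have h2 : (MRep.tpow p (shift q I A)).ρ a = tp (ZMod p) ((shift q I A).ρ a) := rfl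
  have h3 : tpf (fun k => compMat q (t k) e) * tp (ZMod p) ((shift q I A).ρ a) =
      tpf (fun k => chi q A (t k * a) • compMat q (t k) e) := by
    rw [tp_def, tpf_mul]
    congr 1
    funext k
    exact compMat_mul_rho _ _ a
  rw [h2, h3, tpf_smul, chi_sum, Finset.sum_mul]

/-- the key computation -/
theorem dbl_sub (hpq : (p : ZMod q) ≠ 0) (c : ZMod q) {e : Matrix I I A} (he : e * e = e) :
    K0.of (cl (dbl p q 0 ((p : ZMod q) * c) e)) - K0.of (cl (dbl p q 1 ((p : ZMod q) * c) e)) =
      psi p A (K0.of (cl (compMat q c e))) := by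
  classical
  set b : ZMod q := (p : ZMod q) * c with hb
  set G : (ZMod p → ZMod q) → Matrix (ZMod p → ZMod q → I) (ZMod p → ZMod q → I) A :=
    fun t => tpf (fun k => compMat q (t k) e) with hG
  have hGi : ∀ t, G t * G t = G t := tpf_idem (fun s => compMat q s e) (fun s => compMat_idem s he)
  have hGo : ∀ t t', t ≠ t' → G t * G t' = 0 :=
    tpf_orth (fun s => compMat q s e) (fun s s' h => compMat_orth h e)
  have hR : ∀ t a, (shift p (ZMod q → I) A).ρ a * G t =
      G (fun k => t (k - a)) * (shift p (ZMod q → I) A).ρ a :=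
    fun t a => shiftMat_mul_tpf a (fun k => compMat q (t k) e)
  set T : Finset (ZMod p → ZMod q) := (ncs p (ZMod q)).filter (fun t => ∑ k, t k = b) with hT
  have hTs : ∀ t ∈ T, ∀ a : ZMod p, (fun k => t (k + a)) ∈ T := by
    intro t ht a
    rw [hT, Finset.mem_filter] at ht ⊢
    refine ⟨ncs_shift ht.1 a, ?_⟩
    rw [← ht.2]
    exact Equiv.sum_comp (Equiv.addRight a) t
  have hTn : ∀ t ∈ T, ∀ s, t ≠ fun _ => s := fun t ht =>
    mem_ncs.1 (Finset.mem_filter.1 ht).1
  have hsplit : Finset.univ.filter (fun t : ZMod p → ZMod q => ∑ k, t k = b) =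
      insert (fun _ => c) T := by
    ext t
    rw [Finset.mem_insert, hT, Finset.mem_filter, Finset.mem_filter, mem_ncs]
    constructor
    · rintro ⟨-, h⟩
      by_cases h' : ∃ s, t = fun _ => s
      · left
        obtain ⟨s, rfl⟩ := h'
        rw [Finset.sum_const, Finset.card_univ, ZMod.card, nsmul_eq_mul, hb] at h
        funext _
        exact mul_left_cancel₀ hpq h
      · right
        exact ⟨fun s hs => h' ⟨s, hs⟩, h⟩
    · rintro (rfl | ⟨_, h⟩)
      · refine ⟨Finset.mem_univ _, ?_⟩
        rw [Finset.sum_const, Finset.card_univ, ZMod.card, nsmul_eq_mul]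
      · exact ⟨Finset.mem_univ _, h⟩
  have hcT : (fun _ => c) ∉ T := fun h => hTn _ h c rfl
  have hdbl : ∀ a : ZMod p, dbl p q a b e =
      (G (fun _ => c) + ∑ t ∈ T, G t) * (shift p (ZMod q → I) A).proj a := by
    intro a
    rw [dbl, tp_mul_proj, hsplit, Finset.sum_insert hcT]
  have hN : (∑ t ∈ T, G t) * (∑ t ∈ T, G t) = ∑ t ∈ T, G t :=
    idem_finset_sum _ G (fun t _ => hGi t) (fun t _ t' _ => hGo t t')
  have hNρ : ∀ a, (shift p (ZMod q → I) A).ρ a * (∑ t ∈ T, G t) =
      (∑ t ∈ T, G t) * (shift p (ZMod q → I) A).ρ a := by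
    intro a
    rw [Finset.mul_sum, Finset.sum_mul]
    refine Finset.sum_equiv (shEquiv a) ?_ ?_
    · intro t
      constructor
      · intro ht
        have := hTs t ht (-a)
        simpa [shEquiv, sub_eq_add_neg] using this
      · intro ht
        have := hTs _ ht a
        simpa [shEquiv] using this
    · intro t _
      exact hR t a
  have hcl : ∀ a : ZMod p, cl (dbl p q a b e) = V.comp p a (cl (compMat q c e)) +
      cl ((∑ t ∈ T, G t) * (shift p (ZMod q → I) A).proj 0) := by
    intro a
    rw [hdbl, cl_add_mul (hGi _) hN (MRep.proj_idem _ _) ?_ ?_ ?_ ?_, V.comp_cl a (compMat_idem c he),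
      cl_graded (shift p (ZMod q → I) A) G T (fun t _ => hGi t) (fun t _ t' _ => hGo t t')
        hTs hTn hR a 0]
    · rfl
    · rw [Finset.mul_sum]
      exact Finset.sum_eq_zero fun t ht => hGo _ _ (Ne.symm (hTn t ht c))
    · rw [Finset.sum_mul]
      exact Finset.sum_eq_zero fun t ht => hGo _ _ (hTn t ht c)
    · exact (proj_mul_tp a (compMat q c e)).symm
    · exact (MRep.proj_mul_of_comm _ _ _ hNρ a).symm
  rw [hcl, hcl, map_add, map_add, psi_of]
  abel

/-- `ψ^p ψ^q` in terms of the doubly indexed components -/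
theorem psi_psi (hpq : (p : ZMod q) ≠ 0) {e : Matrix I I A} (he : e * e = e) :
    psi p A (psi q A (K0.of (cl e))) =
      K0.of (cl (dbl p q 0 0 e)) - K0.of (cl (dbl p q 1 0 e)) -
      (K0.of (cl (dbl p q 0 1 e)) - K0.of (cl (dbl p q 1 1 e))) := by
  have h0 := dbl_sub (p := p) hpq 0 he
  have h1 := dbl_sub (p := p) hpq ((p : ZMod q)⁻¹) he
  rw [mul_zero] at h0
  rw [mul_inv_cancel₀ hpq] at h1
  rw [h0, h1, psi_of, map_sub, ← V.comp_cl _ he, ← V.comp_cl _ he,
    V.comp_eq_comp_one _ (inv_ne_zero hpq)]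

theorem mul_tp_shiftMat (l : ZMod q) (M : Matrix Y (ZMod p → ZMod q → I) A) (x : Y)
    (y : ZMod p → ZMod q → I) :
    (M * tp (ZMod p) (shiftMat q I A l)) x y = M x (fun k k' => y k (k' - l)) := by
  classical
  rw [Matrix.mul_apply, Finset.sum_eq_single (fun k k' => y k (k' - l))]
  · rw [tp_apply]
    have : ∀ k : ZMod p, shiftMat q I A l ((fun k k' => y k (k' - l)) k) (y k) = 1 := by
      intro k
      simp [shiftMat]
    rw [Finset.prod_congr rfl fun k _ => this k]
    simp
  · intro z _ hz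
    rw [tp_apply]
    have : ∃ k, ∃ k', z k k' ≠ y k (k' - l) := by
      by_contra h
      push Not at h
      apply hz
      funext k k'
      exact h k k'
    obtain ⟨k, k', hk⟩ := this
    rw [Finset.prod_eq_zero (Finset.mem_univ k), mul_zero]
    rw [shiftMat, Matrix.of_apply, if_neg]
    intro h
    apply hk
    rw [← congrFun h (k' - l)]
    simp
  · simp

theorem dbl_apply (a : ZMod p) (b : ZMod q) (e : Matrix I I A) (x y : ZMod p → ZMod q → I) :
    dbl p q a b e x y = ∑ m : ZMod p, ∑ l : ZMod q, (ip p A * chi p A (-(a * m))) *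
      (ip q A * chi q A (-(b * l))) * ∏ k, ∏ k', e (x k k') (y (k - m) (k' - l)) := by
  rw [dbl, MRep.proj, MRep.proj, Matrix.mul_sum, Matrix.sum_apply]
  refine Finset.sum_congr rfl fun m _ => ?_
  rw [Matrix.mul_smul, Matrix.smul_apply, shift_rho, mul_shiftMat, Matrix.mul_sum,
    Matrix.sum_apply, Finset.smul_sum]
  refine Finset.sum_congr rfl fun l _ => ?_
  have h : (MRep.tpow p (shift q I A)).ρ l = tp (ZMod p) (shiftMat q I A l) := rfl
  rw [Matrix.mul_smul, Matrix.smul_apply, h, mul_tp_shiftMat, smul_smul, tp_apply, smul_eq_mul]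
  rfl

theorem dbl_idem (a : ZMod p) (b : ZMod q) {e : Matrix I I A} (he : e * e = e) :
    dbl p q a b e * dbl p q a b e = dbl p q a b e := by
  have h1 : ∀ l, (MRep.tpow p (shift q I A)).ρ l * tp (ZMod p) (tp (ZMod q) e) =
      tp (ZMod p) (tp (ZMod q) e) * (MRep.tpow p (shift q I A)).ρ l := by
    intro l
    have h : (MRep.tpow p (shift q I A)).ρ l = tp (ZMod p) (shiftMat q I A l) := rfl
    rw [h, tp_mul, tp_mul, shiftMat_mul_tp]
  have h2 := MRep.proj_mul_of_comm _ _ _ h1 b
  have h3 : ∀ m, (shift p (ZMod q → I) A).ρ m * (MRep.tpow p (shift q I A)).proj b =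
      (MRep.tpow p (shift q I A)).proj b * (shift p (ZMod q → I) A).ρ m := by
    intro m
    rw [MRep.proj, Matrix.mul_sum, Matrix.sum_mul]
    refine Finset.sum_congr rfl fun l _ => ?_
    have h : (MRep.tpow p (shift q I A)).ρ l = tp (ZMod p) (shiftMat q I A l) := rfl
    rw [Matrix.mul_smul, Matrix.smul_mul, h, shift_rho, shiftMat_mul_tp]
  have h4 := MRep.proj_mul_of_comm _ _ _ h3 a
  have h5 := proj_mul_tp a (tp (ZMod q) e)
  refine idem_mul_of_comm (idem_mul_of_comm (tp_idem (tp_idem he)) (MRep.proj_idem _ _) h2.symm)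
    (MRep.proj_idem _ _) ?_
  rw [Matrix.mul_assoc, ← h4, ← Matrix.mul_assoc, ← h5, Matrix.mul_assoc]

theorem dbl_swap (a : ZMod p) (b : ZMod q) {e : Matrix I I A} (he : e * e = e) :
    cl (dbl p q a b e) = cl (dbl q p b a e) := by
  refine cl_of_equiv (dbl_idem a b he) (Equiv.piComm (fun (_ : ZMod p) (_ : ZMod q) => I)) ?_
  intro x y
  rw [dbl_apply, dbl_apply, Finset.sum_comm]
  refine Finset.sum_congr rfl fun m _ => Finset.sum_congr rfl fun l _ => ?_
  rw [Finset.prod_comm]
  simp only [Equiv.piComm_apply, Function.swap]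
  ring

/-- **The Adams operations commute.** -/
theorem psi_comm (hpq : p ≠ q) (x : K0 A) : psi p A (psi q A x) = psi q A (psi p A x) := by
  have hp : p.Prime := Fact.out
  have hq : q.Prime := Fact.out
  have h1 : (p : ZMod q) ≠ 0 := by
    rw [Ne, ZMod.natCast_eq_zero_iff]
    intro h
    exact hpq ((Nat.prime_dvd_prime_iff_eq hq hp).1 h).symm
  have h2 : (q : ZMod p) ≠ 0 := by
    rw [Ne, ZMod.natCast_eq_zero_iff]
    intro h
    exact hpq ((Nat.prime_dvd_prime_iff_eq hp hq).1 h)
  have key : ∀ (n : ℕ) (e : Matrix (Fin n) (Fin n) A), e * e = e →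
      psi p A (psi q A (K0.of (cl e))) = psi q A (psi p A (K0.of (cl e))) := by
    intro n e he
    have e1 := psi_psi (p := p) (q := q) h1 he
    have e2 := psi_psi (p := q) (q := p) h2 he
    have s1 := dbl_swap (p := p) (q := q) 0 0 he
    have s2 := dbl_swap (p := p) (q := q) 1 0 he
    have s3 := dbl_swap (p := p) (q := q) 0 1 he
    have s4 := dbl_swap (p := p) (q := q) 1 1 he
    rw [s1, s2, s3, s4] at e1
    rw [e1, e2]
    abel
  induction x using K0.ind with
  | _ n m e f he hf =>
    rw [K0.cls_def, K0.cls_def, map_sub, map_sub, map_sub, map_sub, key n e he, key m f hf]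

end

end Crest.Agent.R204.K357
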