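import Mathlib
import Crest.Agent.R204.HMain_515
import Crest.Agent.R204.HCore_472
import Crest.Agent.R204.KPt_472
import Crest.Agent.R204.PsiD_357

/-!
# Row 204, block H: the K-theoretic Hopf invariant one theorem for a mapping cone (helper515)

`hopfK` : `a ∈ {1, 2, 4}` from: `K̃(Y) = ℤ b_T`, `ψ^k b_T = k^a b_T`, `K̃(S^N) = 0`, `K1Triv C(Y)`,
`K̃(S^{N+1}) = ℤ b_S`, `ψ^k b_S = k^{2a} b_S` and `G^*(b_T ∧ b_T) = D b_S` with `D` odd, `G` the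
Hopf map of `f`.
-/

set_option autoImplicit false

open scoped unitInterval Topology Topology.Homotopy

noncomputable section

namespace Crest.Agent.R204.HMain515

open H472 Ex837 ExM515 Diag484 HopfMap484
open K357 (K0 psi psi_map psi_comm psi_two)

instance fact_two : Fact (Nat.Prime 2) := ⟨Nat.prime_two⟩
instance fact_three : Fact (Nat.Prime 3) := ⟨Nat.prime_three⟩

variable {N : Type} {Y : Type} [TopologicalSpace Y] {y : Y}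

/-- base point of `S^N` -/
abbrev kN (x₀ : N → I) : KC (SA N) →+* KC ℂ :=
  KM (A := SA N) (B := ℂ) (CR.ev x₀ : SA N →ₐ[ℂ] ℂ).toRingHom

/-- base point of `S^{N+1}` -/
abbrev kN' (x₀ : N → I) : KC (SA' N) →+* KC ℂ :=
  KM (A := SA' N) (B := ℂ) (CR.ev (x₀, 0) : SA' N →ₐ[ℂ] ℂ).toRingHom

theorem psi_KM {A B : Type} [CommRing A] [CommRing B] [Algebra ℂ A] [Algebra ℂ B] (p : ℕ)
    [Fact p.Prime] (φ : A →ₐ[ℂ] B) (ψ : A →+* B) (h : ∀ a, ψ a = φ a) (x : KC A) :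
    psi p B (KM ψ x) = KM ψ (psi p A x) := by
  have : ψ = (φ : A →+* B) := RingHom.ext h
  subst this
  exact psi_map φ x

theorem psi_kQ (p : ℕ) [Fact p.Prime] (f : GenLoop N Y y) (x₀ : N → I) (s : KC (SA' N)) :
    psi p (ConeAlg y f) (kQ f x₀ s) = kQ f x₀ (psi p (SA' N) s) := by
  have h := psi_KM (A := SA' N) (B := ConeAlg y f) p (ConeAlg.q x₀) (qR f x₀) (fun _ => rfl) s
  exact h

theorem psi_kR (p : ℕ) [Fact p.Prime] (f : GenLoop N Y y) (s : KC (ConeAlg y f)) :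
    psi p C(Y, ℂ) (kR f s) = kR f (psi p (ConeAlg y f) s) := by
  have h := psi_KM (A := ConeAlg y f) (B := C(Y, ℂ)) p ConeAlg.res (resR f) (fun _ => rfl) s
  exact h

theorem E3' [Finite N] {f : GenLoop N Y y} {x₀ : N → I} (h₀ : x₀ ∈ Cube.boundary N)
    (hN : ∀ x : KC (SA N), kN x₀ x = 0 → x = 0) {v : KC C(Y, ℂ)} (hv : kY y v = 0) :
    ∃ x : KC (ConeAlg y f), kR f x = v :=
  (E3 (f := f) h₀ hN (v := v) hv).imp fun _ h => h.1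

theorem E5' [Finite N] [Nonempty N] {f : GenLoop N Y y} (x₀ : N → I) {x : KC (ConeAlg y f)}
    (hx : kR f x = 0) : ∃ z : KC (SA' N), kN' x₀ z = 0 ∧ kQ f x₀ z = x :=
  (E5 (f := f) x₀ (x := x) hx).imp fun _ h => ⟨h.2, h.1⟩

theorem E4' [Finite N] [Nonempty N] [CompactSpace Y] {f : GenLoop N Y y} (hY : K1Triv C(Y, ℂ))
    (x₀ : N → I) {z : KC (SA' N)} (hz : kQ f x₀ z = 0) : z = 0 :=
  E4 (f := f) hY x₀ (z := z) hz

theorem res_q' {f : GenLoop N Y y} (x₀ : N → I) {z : KC (SA' N)} (hz : kN' x₀ z = 0) :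
    kR f (kQ f x₀ z) = 0 :=
  res_comp_q (f := f) x₀ (z := z) hz

/-- **the K-theoretic Hopf invariant one theorem** -/
theorem hopfK [Finite N] [Nonempty N] [CompactSpace Y] (P : CoP (N → I) (Cube.boundary N))
    (c : CoH Y y) {x₀ : N → I} (h₀ : x₀ ∈ Cube.boundary N) (f : GenLoop N Y y)
    (hSN : ∀ x : KC (SA N), kN x₀ x = 0 → x = 0) (hK1 : K1Triv C(Y, ℂ))
    {a : ℕ} (ha : 1 ≤ a)
    (bT : KC C(Y, ℂ)) (hbT : kY y bT = 0) (freeT : ∀ n : ℤ, n • bT = 0 → n = 0)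
    (genT : ∀ t, kY y t = 0 → ∃ n : ℤ, t = n • bT)
    (ψ2T : psi 2 C(Y, ℂ) bT = (2 : ℤ) ^ a • bT) (ψ3T : psi 3 C(Y, ℂ) bT = (3 : ℤ) ^ a • bT)
    (bS : KC (SA' N)) (hbS : kN' x₀ bS = 0) (freeS : ∀ n : ℤ, n • bS = 0 → n = 0)
    (genS : ∀ s, kN' x₀ s = 0 → ∃ n : ℤ, s = n • bS)
    (ψ2S : psi 2 (SA' N) bS = (4 : ℤ) ^ a • bS) (ψ3S : psi 3 (SA' N) bS = (9 : ℤ) ^ a • bS)
    {D : ℤ} (hD : Odd D) (hG : kG P c f ((smC y y).ext bT bT) = D • bS) :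
    a = 1 ∨ a = 2 ∨ a = 4 := by
  refine hopf_core (P := KC (ConeAlg y f)) (S := KC (SA' N)) (T := KC C(Y, ℂ)) (U := KC ℂ)
    (kQ f x₀) (kR f) (kN' x₀) (kY y) (psi 2 (ConeAlg y f)) (psi 3 (ConeAlg y f)) (psi 2 (SA' N))
    (psi 3 (SA' N)) (psi 2 C(Y, ℂ)) (psi 3 C(Y, ℂ)) (psi_kQ 2 f x₀) (psi_kQ 3 f x₀)
    (psi_kR 2 f) (psi_kR 3 f) (psi_comm (p := 2) (q := 3) (by norm_num)) psi_two ha bT hbT freeT
    genT bS hbS freeS genS ψ2T ψ3T ψ2S ψ3S (fun s hs => res_q' x₀ hs) (fun x hx => E5' x₀ hx)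
    (E3' h₀ hSN hbT) (fun s _ hs => E4' hK1 x₀ hs) (fun u hu => K0_field_two u hu) ?_
  intro x hx
  refine ⟨D, hD, ?_⟩
  have hx0 : kE f x = 0 := by rw [← kY_kR, hx, hbT]
  rw [pow_two, square P c x₀ hx0, hx, hG, map_zsmul]

end Crest.Agent.R204.HMain515
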