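import Mathlib
import Crest.Agent.R204.HMainB_515
import Crest.Agent.R204.HIso_472
import Crest.Agent.R204.HDegC_160

/-!
# Row 204, block H: K-theoretic Hopf invariant one, form with degrees (helper515)

* `psi_ext` : `ψ^p (x ∧ y) = ψ^p x ∧ ψ^p y`;
* `KIn a y` : the K-theoretic input for the space `Y` (an even sphere `S^{2a}`);
* `hopf_of_degree` : if the Hopf map `G` of `f`, followed by the smash collapse `Y × Y → W`, is a
  loop `g` with `cls g = cls q ^ D`, `q` the cell of `W`, `D` odd, then `a ∈ {1, 2, 4}`.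
-/

set_option autoImplicit false

open scoped unitInterval Topology Topology.Homotopy

noncomputable section

namespace Crest.Agent.R204.HMain515

open H472 Ex837 ExM515 Diag484 HopfMap484 HDeg160
open K357 (K0 psi psi_map psi_comm psi_two)

/-! ## Adams operations and external products -/

section PsiExt

variable {B B' Pr S : Type} [CommRing B] [CommRing B'] [CommRing Pr] [CommRing S]
  [Algebra ℂ B] [Algebra ℂ B'] [Algebra ℂ Pr] [Algebra ℂ S] {D : PD ℂ B B' Pr} (Z : D.Sm S)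

theorem psi_ext (p : ℕ) [Fact p.Prime] {x : KC B} {y : KC B'} (hx : KM D.e.toRingHom x = 0)
    (hy : KM D.e'.toRingHom y = 0) : psi p S (Z.ext x y) = Z.ext (psi p B x) (psi p B' y) := by
  have n1 : ∀ s : KC S, KM Z.inc.toRingHom (psi p S s) = psi p Pr (KM Z.inc.toRingHom s) :=
    fun s => (psi_KM p Z.inc _ (fun _ => rfl) s).symm
  have n2 : ∀ s : KC S, KM Z.ev.toRingHom (psi p S s) = psi p ℂ (KM Z.ev.toRingHom s) :=
    fun s => (psi_KM p Z.ev _ (fun _ => rfl) s).symm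
  have n3 : ∀ s : KC B, KM D.i1.toRingHom (psi p B s) = psi p Pr (KM D.i1.toRingHom s) :=
    fun s => (psi_KM p D.i1 _ (fun _ => rfl) s).symm
  have n4 : ∀ s : KC B', KM D.i2.toRingHom (psi p B' s) = psi p Pr (KM D.i2.toRingHom s) :=
    fun s => (psi_KM p D.i2 _ (fun _ => rfl) s).symm
  have n5 : ∀ s : KC B, KM D.e.toRingHom (psi p B s) = psi p ℂ (KM D.e.toRingHom s) :=
    fun s => (psi_KM p D.e _ (fun _ => rfl) s).symm
  have n6 : ∀ s : KC B', KM D.e'.toRingHom (psi p B' s) = psi p ℂ (KM D.e'.toRingHom s) :=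
    fun s => (psi_KM p D.e' _ (fun _ => rfl) s).symm
  have h1 : KM Z.inc.toRingHom (Z.ext x y) = KM D.i1.toRingHom x * KM D.i2.toRingHom y :=
    Z.inc_ext hx hy
  have h2 : KM Z.ev.toRingHom (Z.ext x y) = 0 := Z.ev_ext hx hy
  have hx' : KM D.e.toRingHom (psi p B x) = 0 := by rw [n5, hx, map_zero]
  have hy' : KM D.e'.toRingHom (psi p B' y) = 0 := by rw [n6, hy, map_zero]
  refine Z.eq_ext hx' hy' ?_ ?_
  · change KM Z.inc.toRingHom (psi p S (Z.ext x y)) =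
      KM D.i1.toRingHom (psi p B x) * KM D.i2.toRingHom (psi p B' y)
    rw [n1, h1, map_mul, n3, n4]
  · change KM Z.ev.toRingHom (psi p S (Z.ext x y)) = 0
    rw [n2, h2, map_zero]

end PsiExt

/-! ## isomorphisms on `K0` -/

section Iso

variable {A B : Type} [CommRing A] [CommRing B] [Algebra ℂ A] [Algebra ℂ B]

theorem KM_symm_self (e : A ≃ₐ[ℂ] B) (x : KC A) :
    KM (e.symm : B →ₐ[ℂ] A).toRingHom (KM (e : A →ₐ[ℂ] B).toRingHom x) = x :=
  (KM_comp _ _ (RingHom.id A) (fun a => e.symm_apply_apply a) x).trans (KM_id _ (fun _ => rfl) x)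

theorem KM_self_symm (e : A ≃ₐ[ℂ] B) (x : KC B) :
    KM (e : A →ₐ[ℂ] B).toRingHom (KM (e.symm : B →ₐ[ℂ] A).toRingHom x) = x :=
  (KM_comp _ _ (RingHom.id B) (fun a => e.apply_symm_apply a) x).trans (KM_id _ (fun _ => rfl) x)

end Iso

/-- K-theoretic input for `Y = S^{2a}` -/
structure KIn (a : ℕ) {Y : Type} [TopologicalSpace Y] [CompactSpace Y] (y : Y) where
  b : KC C(Y, ℂ)
  hb : kY y b = 0
  free : ∀ n : ℤ, n • b = 0 → n = 0
  gen : ∀ t, kY y t = 0 → ∃ n : ℤ, t = n • b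
  psi2 : psi 2 C(Y, ℂ) b = (2 : ℤ) ^ a • b
  psi3 : psi 3 C(Y, ℂ) b = (3 : ℤ) ^ a • b
  k1 : K1Triv C(Y, ℂ)
  sfree : ∀ n : ℤ, n • (smC y y).ext b b = 0 → n = 0
  sgen : ∀ t : KC (Smash y y), KM (A := Smash y y) (B := ℂ) (smC y y).ev.toRingHom t = 0 →
    ∃ n : ℤ, t = n • (smC y y).ext b b

section Smash

variable {Y W : Type} [TopologicalSpace Y] [CompactSpace Y] [TopologicalSpace W] [T2Space W]
  {y : Y} {w₀ : W}

/-- a smash collapse `Y × Y → W` -/
structure SmashMap (y : Y) (w₀ : W) where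
  sm : C(Y × Y, W)
  surj : Function.Surjective sm
  iff : ∀ z, sm z = w₀ ↔ z ∈ wedge y y
  inj : ∀ z z', sm z = sm z' → z = z' ∨ (z ∈ wedge y y ∧ z' ∈ wedge y y)

/-- `C(W) ≃ C(Y ∧ Y)` -/
def SmashMap.equiv (s : SmashMap y w₀) : C(W, ℂ) ≃ₐ[ℂ] Smash y y :=
  (Collapse.top W w₀).trans (CR.comapEquiv s.sm (fun z hz => (s.iff z).2 hz) s.surj
    (fun z hz => (s.iff z).1 hz) s.inj)

@[simp] theorem SmashMap.equiv_apply (s : SmashMap y w₀) (a : C(W, ℂ)) (z : Y × Y) :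
    ((s.equiv a : Smash y y) : C(Y × Y, ℂ)) z = a (s.sm z) := rfl

variable {n : ℕ}

/-- `Smash y y ≃ SA' (Fin n)`, from the cell `q` of `W` -/
def smIso (s : SmashMap y w₀) (q : Collapse (Fin (n + 1)) W w₀) : Smash y y ≃ₐ[ℂ] SA' (Fin n) :=
  (s.equiv.symm.trans q.equiv).trans (snocEquiv n)

theorem smIso_equiv (s : SmashMap y w₀) (q : Collapse (Fin (n + 1)) W w₀) (a : C(W, ℂ)) :
    smIso s q (s.equiv a) = snocEquiv n (q.equiv a) := by
  simp only [smIso, AlgEquiv.trans_apply, AlgEquiv.symm_apply_apply]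

/-- the class `b_S` -/
def bS (s : SmashMap y w₀) (q : Collapse (Fin (n + 1)) W w₀) (β : KC (Smash y y)) :
    KC (SA' (Fin n)) :=
  KM (A := Smash y y) (B := SA' (Fin n)) (smIso s q : Smash y y →ₐ[ℂ] SA' (Fin n)).toRingHom β

theorem bS_zsmul (s : SmashMap y w₀) (q : Collapse (Fin (n + 1)) W w₀) (β : KC (Smash y y))
    (m : ℤ) : bS s q (m • β) = m • bS s q β := map_zsmul _ _ _

theorem bS_zero (s : SmashMap y w₀) (q : Collapse (Fin (n + 1)) W w₀) :
    bS s q 0 = 0 := map_zero _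

theorem bS_inj (s : SmashMap y w₀) (q : Collapse (Fin (n + 1)) W w₀) {β : KC (Smash y y)}
    (h : bS s q β = 0) : β = 0 := by
  have h1 := KM_symm_self (A := Smash y y) (B := SA' (Fin n)) (smIso s q) β
  have h2 : KM (A := SA' (Fin n)) (B := Smash y y)
      ((smIso s q).symm : SA' (Fin n) →ₐ[ℂ] Smash y y).toRingHom (bS s q β) = β := h1
  rw [h, map_zero] at h2
  exact h2.symm

theorem psi_bS (p : ℕ) [Fact p.Prime] (s : SmashMap y w₀) (q : Collapse (Fin (n + 1)) W w₀)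
    (β : KC (Smash y y)) : psi p (SA' (Fin n)) (bS s q β) = bS s q (psi p (Smash y y) β) := by
  have h := psi_KM (A := Smash y y) (B := SA' (Fin n)) p (smIso s q).toAlgHom
    (smIso s q : Smash y y →ₐ[ℂ] SA' (Fin n)).toRingHom (fun _ => rfl) β
  exact h

/-- base points correspond -/
theorem ev_smIso (s : SmashMap y w₀) (q : Collapse (Fin (n + 1)) W w₀) (x₀ : Fin n → I)
    (F : Smash y y) : CR.ev (A := bdI (Fin n)) (x₀, 0) (smIso s q F) = CR.ev (y, y) F := by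
  obtain ⟨a, rfl⟩ := s.equiv.surjective F
  rw [smIso_equiv]
  change a (q.p (snocHomeo n (x₀, 0))) = a (s.sm (y, y))
  congr 1
  rw [(s.iff (y, y)).2 (Or.inl rfl), q.bd, ← snocHomeo_mem]
  exact Or.inr (Or.inl rfl)

theorem kN'_bS (s : SmashMap y w₀) (q : Collapse (Fin (n + 1)) W w₀) (x₀ : Fin n → I)
    (β : KC (Smash y y)) :
    kN' x₀ (bS s q β) = KM (A := Smash y y) (B := ℂ) (smC y y).ev.toRingHom β := by
  have h := KM_comp (A := Smash y y) (B := SA' (Fin n)) (C := ℂ)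
    (smIso s q : Smash y y →ₐ[ℂ] SA' (Fin n)).toRingHom
    (CR.ev (x₀, 0) : SA' (Fin n) →ₐ[ℂ] ℂ).toRingHom (smC y y).ev.toRingHom
    (fun F => ev_smIso s q x₀ F) β
  exact h

theorem exists_bS (s : SmashMap y w₀) (q : Collapse (Fin (n + 1)) W w₀)
    (t : KC (SA' (Fin n))) : ∃ β, bS s q β = t := by
  have h := KM_self_symm (A := Smash y y) (B := SA' (Fin n)) (smIso s q) t
  exact ⟨_, h⟩

variable (P : CoP (Fin n → I) (Cube.boundary (Fin n))) (c : CoH Y y)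

/-- `G^*` on `C(W)` is the pull back along the loop `g` -/
theorem Gstar_equiv (s : SmashMap y w₀) (f : GenLoop (Fin n) Y y)
    (g : GenLoop (Fin (n + 1)) W w₀)
    (hg : ∀ z, g (snocHomeo n z) = s.sm (G P c (f : C(Fin n → I, Y)) z)) (a : C(W, ℂ)) :
    Gstar P c f (s.equiv a) = snocEquiv n (pull g a) := by
  refine Subtype.ext (ContinuousMap.ext fun z => ?_)
  change a (s.sm (G P c (f : C(Fin n → I, Y)) z)) = a (g (snocHomeo n z))
  rw [hg]

/-- **degree formula** -/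
theorem kG_degree [NeZero n] (s : SmashMap y w₀) (q : Collapse (Fin (n + 1)) W w₀)
    (f : GenLoop (Fin n) Y y) (g : GenLoop (Fin (n + 1)) W w₀)
    (hg : ∀ z, g (snocHomeo n z) = s.sm (G P c (f : C(Fin n → I, Y)) z)) {D : ℤ}
    (hD : cls g = cls q.loop ^ D) {β : KC (Smash y y)}
    (hβ : KM (A := Smash y y) (B := ℂ) (smC y y).ev.toRingHom β = 0) :
    kG P c f β = D • bS s q β := by
  set γ : KC C(W, ℂ) := KM (A := Smash y y) (B := C(W, ℂ))
    (s.equiv.symm : Smash y y →ₐ[ℂ] C(W, ℂ)).toRingHom β with hγ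
  have hβγ : KM (A := C(W, ℂ)) (B := Smash y y) (s.equiv : C(W, ℂ) →ₐ[ℂ] Smash y y).toRingHom γ
      = β := KM_self_symm (A := C(W, ℂ)) (B := Smash y y) s.equiv β
  -- reducedness of `γ`
  have hγ0 : KM (A := C(W, ℂ)) (B := ℂ)
      (ContinuousMap.evalAlgHom ℂ ℂ w₀ : C(W, ℂ) →ₐ[ℂ] ℂ).toRingHom γ = 0 := by
    have h := KM_comp (A := C(W, ℂ)) (B := Smash y y) (C := ℂ)
      (s.equiv : C(W, ℂ) →ₐ[ℂ] Smash y y).toRingHom (smC y y).ev.toRingHom
      (ContinuousMap.evalAlgHom ℂ ℂ w₀ : C(W, ℂ) →ₐ[ℂ] ℂ).toRingHom (fun a => by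
        change a (s.sm (y, y)) = a w₀
        rw [(s.iff (y, y)).2 (Or.inl rfl)]) γ
    rw [hβγ, hβ] at h
    exact h.symm
  have hk : KM (A := C(W, ℂ)) (B := SA (Fin (n + 1))) (pull g).toRingHom γ =
      D • KM (A := C(W, ℂ)) (B := SA (Fin (n + 1))) (pull q.loop).toRingHom γ :=
    k_degree (x := γ) hγ0 q.loop g D hD
  have e1 : kG P c f β = KM (A := SA (Fin (n + 1))) (B := SA' (Fin n))
      (snocEquiv n : SA (Fin (n + 1)) →ₐ[ℂ] SA' (Fin n)).toRingHom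
      (KM (A := C(W, ℂ)) (B := SA (Fin (n + 1))) (pull g).toRingHom γ) := by
    rw [← hβγ]
    have a1 := KM_comp (A := C(W, ℂ)) (B := Smash y y) (C := SA' (Fin n))
      (s.equiv : C(W, ℂ) →ₐ[ℂ] Smash y y).toRingHom (Gstar P c f).toRingHom
      ((Gstar P c f).toRingHom.comp (s.equiv : C(W, ℂ) →ₐ[ℂ] Smash y y).toRingHom)
      (fun _ => rfl) γ
    have a2 := KM_comp (A := C(W, ℂ)) (B := SA (Fin (n + 1))) (C := SA' (Fin n))
      (pull g).toRingHom (snocEquiv n : SA (Fin (n + 1)) →ₐ[ℂ] SA' (Fin n)).toRingHom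
      ((Gstar P c f).toRingHom.comp (s.equiv : C(W, ℂ) →ₐ[ℂ] Smash y y).toRingHom)
      (fun a => (Gstar_equiv P c s f g hg a).symm) γ
    exact a1.trans a2.symm
  have e2 : bS s q β = KM (A := SA (Fin (n + 1))) (B := SA' (Fin n))
      (snocEquiv n : SA (Fin (n + 1)) →ₐ[ℂ] SA' (Fin n)).toRingHom
      (KM (A := C(W, ℂ)) (B := SA (Fin (n + 1))) (pull q.loop).toRingHom γ) := by
    rw [← hβγ]
    have a1 := KM_comp (A := C(W, ℂ)) (B := Smash y y) (C := SA' (Fin n))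
      (s.equiv : C(W, ℂ) →ₐ[ℂ] Smash y y).toRingHom
      (smIso s q : Smash y y →ₐ[ℂ] SA' (Fin n)).toRingHom
      ((smIso s q : Smash y y →ₐ[ℂ] SA' (Fin n)).toRingHom.comp
        (s.equiv : C(W, ℂ) →ₐ[ℂ] Smash y y).toRingHom) (fun _ => rfl) γ
    have a2 := KM_comp (A := C(W, ℂ)) (B := SA (Fin (n + 1))) (C := SA' (Fin n))
      (pull q.loop).toRingHom (snocEquiv n : SA (Fin (n + 1)) →ₐ[ℂ] SA' (Fin n)).toRingHom
      ((smIso s q : Smash y y →ₐ[ℂ] SA' (Fin n)).toRingHom.comp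
        (s.equiv : C(W, ℂ) →ₐ[ℂ] Smash y y).toRingHom)
      (fun a => (smIso_equiv s q a).symm) γ
    exact a1.trans a2.symm
  rw [e1, hk, map_zsmul, ← e2]

/-- **K-theoretic Hopf invariant one, degree form** -/
theorem hopf_of_degree [NeZero n] {a : ℕ} (ha : 1 ≤ a) (K : KIn a y)
    (hSN : ∀ x : KC (SA (Fin n)), kN (fun _ => 0) x = 0 → x = 0)
    (s : SmashMap y w₀) (q : Collapse (Fin (n + 1)) W w₀)
    (f : GenLoop (Fin n) Y y) (g : GenLoop (Fin (n + 1)) W w₀)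
    (hg : ∀ z, g (snocHomeo n z) = s.sm (G P c (f : C(Fin n → I, Y)) z)) {D : ℤ}
    (hD : cls g = cls q.loop ^ D) (hodd : Odd D) : a = 1 ∨ a = 2 ∨ a = 4 := by
  have hb0 : KM (A := C(Y, ℂ)) (B := ℂ) (pdC y y).e.toRingHom K.b = 0 := K.hb
  have hβ : KM (A := Smash y y) (B := ℂ) (smC y y).ev.toRingHom ((smC y y).ext K.b K.b) = 0 :=
    (smC y y).ev_ext hb0 hb0
  have h₀ : (fun _ => 0 : Fin n → I) ∈ Cube.boundary (Fin n) :=
    ⟨⟨0, Nat.pos_of_ne_zero (NeZero.ne n)⟩, Or.inl rfl⟩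
  have hpsi : ∀ (p : ℕ) [Fact p.Prime] (m : ℤ), psi p C(Y, ℂ) K.b = m • K.b →
      psi p (SA' (Fin n)) (bS s q ((smC y y).ext K.b K.b)) =
        (m * m) • bS s q ((smC y y).ext K.b K.b) := by
    intro p _ m hm
    rw [psi_bS]
    have h1 := psi_ext (smC y y) p (x := K.b) (y := K.b) hb0 hb0
    have h2 : (smC y y).ext (m • K.b) (m • K.b) = (m * m) • (smC y y).ext K.b K.b := by
      have h3 : KM (A := C(Y, ℂ)) (B := ℂ) (pdC y y).e.toRingHom (m • K.b) = 0 := by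
        rw [map_zsmul, hb0, smul_zero]
      rw [(smC y y).ext_zsmul_left hb0 h3, (smC y y).ext_zsmul_right hb0 hb0, mul_smul]
    have h4 : psi p (Smash y y) ((smC y y).ext K.b K.b) = (m * m) • (smC y y).ext K.b K.b := by
      rw [← h2, ← hm]
      exact h1
    rw [h4, bS_zsmul]
  have h2 := hpsi 2 _ K.psi2
  have h3 := hpsi 3 _ K.psi3
  rw [← mul_pow] at h2 h3
  have : Nonempty (Fin n) := ⟨⟨0, Nat.pos_of_ne_zero (NeZero.ne n)⟩⟩
  refine hopfK P c h₀ f hSN K.k1 ha K.b K.hb K.free K.gen K.psi2 K.psi3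
    (bS s q ((smC y y).ext K.b K.b)) ?_ ?_ ?_ (by simpa using h2) (by simpa using h3) hodd
    (kG_degree P c s q f g hg hD hβ)
  · rw [kN'_bS]
    exact hβ
  · intro m hm
    rw [← bS_zsmul] at hm
    exact K.sfree m (bS_inj s q hm)
  · intro t ht
    obtain ⟨β, rfl⟩ := exists_bS s q t
    rw [kN'_bS] at ht
    obtain ⟨m, rfl⟩ := K.sgen β ht
    exact ⟨m, bS_zsmul s q _ m⟩

end Smash

end Crest.Agent.R204.HMain515
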