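import Crest.Agent.R204.HopfGlueC_339
import Crest.Agent.R204.HMainC_515

/-!
# Row 204, block H, leaf H12 (helper339), part D

`KSide` from `KIn` (K-theory of the even spheres) and `K~(SA (odd)) = 0`.
-/

set_option autoImplicit false

open scoped unitInterval Topology Topology.Homotopy TensorProduct

noncomputable section

namespace Crest.Agent.R204.HopfGlue339

open Crest.Agent.R204.HopfF2477 Crest.Agent.R204.SS
open Crest.Agent.R204.Freud661 Crest.Agent.R204.CubeSph661 Crest.Agent.R204.HDeg160
open Crest.Agent.R204.H472 Crest.Agent.R204.HopfMap484 Crest.Agent.R204.Freu297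
open HMain515

section

variable {n m : ℕ} {S W : Type} [TopologicalSpace S] [T2Space S] [CompactSpace S]
  [TopologicalSpace W] [T2Space W]

/-- the smash collapse of cube spheres -/
def smap (P : CubeSphere (n + 1) S) (R : CubeSphere ((n + 1) + (n + 1)) W) :
    SmashMap P.pt R.pt where
  sm := smash P P R
  surj := smash_surjective P P R
  iff z := smash_eq_pt_iff P P R n.succ_pos n.succ_pos z
  inj _ _ h := smash_inj P P R n.succ_pos n.succ_pos h

omit [T2Space W] in
/-- the collapse of a cube sphere -/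
def coll (R : CubeSphere (m + 1) W) : Collapse (Fin (m + 1)) W R.pt where
  p := R.p
  surj := R.surj
  fib x z h := R.inj x z h
  bd x := ⟨fun h => R.mem_bdry_of_p_eq m.succ_pos h, R.bdry x⟩

end

/-- `K~(S^n) = 0` for odd `n` -/
def KOdd : Prop := ∀ n : ℕ, Odd n → ∀ x : KC (SA (Fin n)), kN (fun _ => 0) x = 0 → x = 0

/-- K-theory of even spheres -/
def KEven : Prop := ∀ e a : ℕ, e + 1 + 1 = 2 * a → Nonempty (KIn a (pt (e + 1 + 1)))

/-- **K-side** -/
theorem kside (h1 : KOdd) (h2 : KEven) : KSide := by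
  intro e q he hq f D hD hcls
  obtain ⟨k, hk⟩ := he
  obtain ⟨K⟩ := h2 e (k + 1) (by omega)
  have hN : Odd (q + 1) := ⟨e + 1, by omega⟩
  have h := hopf_of_degree (n := q + 1) (CoP.cube (Fin.last q)) (coH (sphCube (e + 1)))
    (a := k + 1) (by omega) K (h1 (q + 1) hN)
    (smap (sphCube (e + 1)) (castCS hq (sphCube (q + 1)))) (coll (sphCube (q + 1))) f (gS hq f)
    (fun z => gf_snoc (sphCube (e + 1)) (castCS hq (sphCube (q + 1))) f z.1 z.2) hcls hD
  omega

end Crest.Agent.R204.HopfGlue339
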