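import Crest.Agent.R204.BottConn_671

/-!
# Row 204, block H (helper313): density of Laurent polynomials in `C(Circle, R)`, Bott step B1
-/

set_option autoImplicit false
set_option linter.unusedSectionVars false

open Filter Topology Polynomial Set
open scoped unitInterval

namespace Crest.Agent.R204.BottApprox313

open Crest.Agent.R204.Bott671

section density

variable (R : Type*) [NormedCommRing R] [NormedAlgebra ℂ R] [CompleteSpace R]

/-- The algebra of loops `z^{-N} p(z)`. -/
noncomputable def Lau : Subalgebra ℂ C(Circle, R) where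
  carrier := {G | ∃ (N : ℕ) (p : R[X]), zc ^ N * G = loop p}
  mul_mem' := by
    rintro F G ⟨N, p, hp⟩ ⟨M, q, hq⟩
    exact ⟨N + M, p * q, by rw [map_mul, ← hp, ← hq, pow_add]; ring⟩
  add_mem' := by
    rintro F G ⟨N, p, hp⟩ ⟨M, q, hq⟩
    refine ⟨N + M, X ^ M * p + X ^ N * q, ?_⟩
    rw [map_add, map_mul, map_mul, map_pow, map_pow, loop_X, ← hp, ← hq, pow_add]
    ring
  algebraMap_mem' := by
    intro r
    refine ⟨0, C (algebraMap ℂ R r), ?_⟩
    rw [loop_C, pow_zero, one_mul]
    rfl

variable {R}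

theorem mem_Lau {G : C(Circle, R)} : G ∈ Lau R ↔ ∃ (N : ℕ) (p : R[X]), zc ^ N * G = loop p :=
  Iff.rfl

theorem zc_mem : (zc : C(Circle, R)) ∈ Lau R := ⟨0, X, by simp⟩

theorem zi_mem : (zi : C(Circle, R)) ∈ Lau R := ⟨1, 1, by rw [pow_one, zc_mul_zi, map_one]⟩

theorem C_mem (r : R) : (ContinuousMap.C r : C(Circle, R)) ∈ Lau R := ⟨0, C r, by simp⟩

/-- scalar functions as `R`-valued functions -/
noncomputable def scal : C(Circle, ℂ) →ₐ[ℂ] C(Circle, R) :=
  AlgHom.compLeftContinuous ℂ (Algebra.ofId ℂ R) (algebraMapCLM ℂ R).continuous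

@[simp] theorem scal_apply (φ : C(Circle, ℂ)) (z : Circle) :
    (scal φ : C(Circle, R)) z = algebraMap ℂ R (φ z) := rfl

theorem continuous_scal : Continuous (scal : C(Circle, ℂ) → C(Circle, R)) :=
  ContinuousMap.continuous_postcomp _

theorem scal_mem (φ : C(Circle, ℂ)) : (scal φ : C(Circle, R)) ∈ (Lau R).topologicalClosure := by
  have h0 : (StarAlgebra.adjoin ℂ {(zc : C(Circle, ℂ))}).topologicalClosure = ⊤ := by
    refine ContinuousMap.starSubalgebra_topologicalClosure_eq_top_of_separatesPoints _ ?_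
    intro x y hxy
    refine ⟨_, ⟨zc, StarAlgebra.self_mem_adjoin_singleton ℂ _, rfl⟩, ?_⟩
    simpa using fun h => hxy (Circle.ext h)
  have h1 : (StarAlgebra.adjoin ℂ {(zc : C(Circle, ℂ))}).toSubalgebra ≤
      (Lau R).comap (scal : C(Circle, ℂ) →ₐ[ℂ] C(Circle, R)) := by
    rw [StarAlgebra.adjoin_toSubalgebra, Algebra.adjoin_le_iff]
    rintro f (hf | hf)
    · rw [mem_singleton_iff] at hf
      subst hf
      have : (scal (zc : C(Circle, ℂ)) : C(Circle, R)) = zc := by
        ext z
        simp
      show scal _ ∈ Lau R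
      rw [this]
      exact zc_mem
    · have hf' : star f = zc := hf
      have : (scal f : C(Circle, R)) = zi := by
        ext z
        have h2 : f z = star ((star f) z) := by simp
        rw [scal_apply, h2, hf', zc_apply, zi_apply, Circle.coe_inv_eq_conj]
        rfl
      show scal _ ∈ Lau R
      rw [this]
      exact zi_mem
  have h2 : φ ∈ closure ((StarAlgebra.adjoin ℂ {(zc : C(Circle, ℂ))} :
      StarSubalgebra ℂ C(Circle, ℂ)) : Set C(Circle, ℂ)) := by
    have : φ ∈ (⊤ : StarSubalgebra ℂ C(Circle, ℂ)) := trivial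
    rw [← h0] at this
    exact this
  have h3 := map_mem_closure (continuous_scal (R := R)) h2 (t := (Lau R : Set C(Circle, R)))
    (fun f hf => h1 hf)
  exact h3

/-- **Density of Laurent polynomials.** -/
theorem dense_Lau : Dense (Lau R : Set C(Circle, R)) := by
  intro F
  have hcl : IsClosed ((Lau R).topologicalClosure : Set C(Circle, R)) :=
    (Lau R).isClosed_topologicalClosure
  have hF : F ∈ closure ((Lau R).topologicalClosure : Set C(Circle, R)) := by
    rw [Metric.mem_closure_iff]
    intro ε hε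
    -- a finite cover
    let U : Circle → Set Circle := fun z => {w | dist (F w) (F z) < ε / 2}
    have hU : ∀ z, IsOpen (U z) := fun z =>
      isOpen_lt (F.continuous.dist continuous_const) continuous_const
    obtain ⟨t, ht⟩ := isCompact_univ.elim_finite_subcover U hU (fun z _ =>
      mem_iUnion.2 ⟨z, by simpa [U] using hε⟩)
    let e := t.equivFin
    let s : Fin t.card → Set Circle := fun i => U (e.symm i)
    have hs : (univ : Set Circle) ⊆ ⋃ i, s i := by
      intro z hz
      obtain ⟨x, hx, hzx⟩ := mem_iUnion₂.1 (ht hz)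
      exact mem_iUnion.2 ⟨e ⟨x, hx⟩, by simpa [s] using hzx⟩
    obtain ⟨f, hf1, hf2, hf3, -⟩ := exists_continuous_sum_one_of_isOpen_isCompact
      (fun i => hU (e.symm i : Circle)) isCompact_univ hs
    let g : Fin t.card → C(Circle, ℂ) := fun i =>
      ⟨fun z => (f i z : ℂ), Complex.continuous_ofReal.comp (f i).continuous⟩
    refine ⟨∑ i, scal (g i) * ContinuousMap.C (F (e.symm i : Circle)), ?_, ?_⟩
    · exact Subalgebra.sum_mem _ fun i _ => Subalgebra.mul_mem _ (scal_mem _)
        ((Lau R).le_topologicalClosure (C_mem _))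
    · have h2 : ∀ z, ∑ i, f i z = 1 := fun z => by
        have := hf2 (mem_univ z)
        simpa using this
      rw [dist_eq_norm]
      refine lt_of_le_of_lt ?_ (half_lt_self hε)
      rw [ContinuousMap.norm_le _ (half_pos hε).le]
      intro z
      have h3 : (F - ∑ i, scal (g i) * ContinuousMap.C (F (e.symm i : Circle))) z
          = ∑ i, ((f i z : ℝ) : ℂ) • (F z - F (e.symm i : Circle)) := by
        have h4 : F z = ∑ i, ((f i z : ℝ) : ℂ) • F z := by
          rw [← Finset.sum_smul, ← Complex.ofReal_sum, h2, Complex.ofReal_one, one_smul]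
        simp only [smul_sub, Finset.sum_sub_distrib, ← h4]
        simp [g, Algebra.smul_def, ContinuousMap.sum_apply]
      rw [h3]
      calc ‖∑ i, ((f i z : ℝ) : ℂ) • (F z - F (e.symm i : Circle))‖
          ≤ ∑ i, ‖((f i z : ℝ) : ℂ) • (F z - F (e.symm i : Circle))‖ := norm_sum_le _ _
        _ ≤ ∑ i, f i z * (ε / 2) := by
            refine Finset.sum_le_sum fun i _ => ?_
            rw [norm_smul, Complex.norm_real, Real.norm_of_nonneg (hf3 i z).1]
            by_cases h0 : f i z = 0
            · simp [h0]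
            · have hz : z ∈ s i := hf1 i (subset_tsupport _ h0)
              have hz' : dist (F z) (F (e.symm i : Circle)) < ε / 2 := hz
              rw [dist_eq_norm] at hz'
              exact mul_le_mul_of_nonneg_left hz'.le (hf3 i z).1
        _ = ε / 2 := by rw [← Finset.sum_mul, h2, one_mul]
  rw [hcl.closure_eq] at hF
  exact hF

end density

section units

variable {R : Type*} [NormedCommRing R] [NormedAlgebra ℂ R] [CompleteSpace R]
  {ι : Type*} [Fintype ι] [DecidableEq ι]

/-- Invertible matrices over a commutative topological ring with open units form an open set. -/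
theorem isOpen_isUnit_matrix {S : Type*} [CommRing S] [TopologicalSpace S] [IsTopologicalRing S]
    (hS : IsOpen {x : S | IsUnit x}) : IsOpen {M : Matrix ι ι S | IsUnit M} := by
  have h : {M : Matrix ι ι S | IsUnit M} = (fun M : Matrix ι ι S => M.det) ⁻¹' {x | IsUnit x} := by
    ext M
    exact Matrix.isUnit_iff_isUnit_det M
  rw [h]
  exact hS.preimage (Continuous.matrix_det continuous_id)

theorem isOpen_isUnit_circle : IsOpen {M : Matrix ι ι C(Circle, R) | IsUnit M} :=
  isOpen_isUnit_matrix Units.isOpen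

/-- The matrices with Laurent polynomial entries. -/
theorem dense_mat : Dense {M : Matrix ι ι C(Circle, R) | ∃ (N : ℕ) (p : Matrix ι ι R[X]),
    M = (zi : C(Circle, R)) ^ N • loopM p} := by
  have h1 : Dense (Set.pi univ fun _ : ι => Set.pi univ fun _ : ι =>
      ((Lau R : Set C(Circle, R)))) :=
    dense_pi _ fun _ _ => dense_pi _ fun _ _ => dense_Lau
  have h2 : (Set.pi univ fun _ : ι => Set.pi univ fun _ : ι => ((Lau R : Set C(Circle, R)))) ⊆
      {M : Matrix ι ι C(Circle, R) | ∃ (N : ℕ) (p : Matrix ι ι R[X]),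
        M = (zi : C(Circle, R)) ^ N • loopM p} := by
    intro M hM
    have hM' : ∀ i j, ∃ (N : ℕ) (p : R[X]), zc ^ N * M i j = loop p := fun i j =>
      mem_Lau.1 (hM i trivial j trivial)
    choose N p hp using hM'
    let K := Finset.univ.sup fun i => Finset.univ.sup fun j => N i j
    have hK : ∀ i j, N i j ≤ K := fun i j =>
      (Finset.le_sup (f := fun j => N i j) (Finset.mem_univ j)).trans
        (Finset.le_sup (f := fun i => Finset.univ.sup fun j => N i j) (Finset.mem_univ i))
    refine ⟨K, Matrix.of fun i j => X ^ (K - N i j) * p i j, ?_⟩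
    refine Matrix.ext fun i j => ?_
    have h3 : loop (X ^ (K - N i j) * p i j) = zc ^ K * M i j := by
      rw [map_mul, ← hp, map_pow, loop_X, ← mul_assoc, ← pow_add, Nat.sub_add_cancel (hK i j)]
    show M i j = zi ^ K * loop (X ^ (K - N i j) * p i j)
    rw [h3, ← mul_assoc, ← mul_pow, zi_mul_zc, one_pow, one_mul]
  exact h1.mono h2

/-- **(B1)**: a unit loop is joined by a straight line of unit loops to a Laurent polynomial. -/
theorem exists_laurent {F : Matrix ι ι C(Circle, R)} (hF : IsUnit F) :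
    ∃ (N : ℕ) (p : Matrix ι ι R[X]), ∀ t : I,
      IsUnit (((1 - (t : ℝ) : ℝ) : ℂ) • F + ((t : ℝ) : ℂ) • ((zi : C(Circle, R)) ^ N • loopM p)) := by
  have hU := isOpen_isUnit_circle (R := R) (ι := ι)
  have hc : Continuous (fun x : Matrix ι ι C(Circle, R) × I =>
      ((1 - (x.2 : ℝ) : ℝ) : ℂ) • F + ((x.2 : ℝ) : ℂ) • x.1) := by
    have e1 : Continuous fun x : Matrix ι ι C(Circle, R) × I => ((1 - (x.2 : ℝ) : ℝ) : ℂ) :=
      Complex.continuous_ofReal.comp
        (continuous_const.sub (continuous_subtype_val.comp continuous_snd))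
    have e2 : Continuous fun x : Matrix ι ι C(Circle, R) × I => (((x.2 : ℝ)) : ℂ) :=
      Complex.continuous_ofReal.comp (continuous_subtype_val.comp continuous_snd)
    exact (e1.smul continuous_const).add (e2.smul continuous_fst)
  have h1 : ∀ᶠ G : Matrix ι ι C(Circle, R) in 𝓝 F, ∀ t ∈ (univ : Set I),
      IsUnit (((1 - (t : ℝ) : ℝ) : ℂ) • F + ((t : ℝ) : ℂ) • G) := by
    refine isCompact_univ.eventually_forall_of_forall_eventually fun t _ => ?_
    refine (hU.preimage hc).mem_nhds ?_
    show IsUnit (((1 - (t : ℝ) : ℝ) : ℂ) • F + ((t : ℝ) : ℂ) • F)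
    rw [← add_smul, ← Complex.ofReal_add, sub_add_cancel, Complex.ofReal_one, one_smul]
    exact hF
  obtain ⟨G, ⟨N, p, rfl⟩, hG⟩ := (dense_mat (R := R) (ι := ι)).inter_nhds_nonempty h1
  exact ⟨N, p, fun t => hG t trivial⟩

theorem isUnit_zi_pow (N : ℕ) : IsUnit ((zi : C(Circle, R)) ^ N) :=
  IsUnit.pow N (IsUnit.of_mul_eq_one _ zi_mul_zc)

theorem isUnit_zc_pow (N : ℕ) : IsUnit ((zc : C(Circle, R)) ^ N) :=
  IsUnit.pow N (IsUnit.of_mul_eq_one _ zc_mul_zi)

theorem isUnit_smul {S : Type*} [CommRing S] {M : Matrix ι ι S} {c : S} (hc : IsUnit c)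
    (hM : IsUnit M) : IsUnit (c • M) := by
  obtain ⟨c, rfl⟩ := hc
  exact (hM.smul c)

/-- **(B1)**, the form used for surjectivity: `z^N F` is joined to a polynomial loop. -/
theorem exists_conn {F : Matrix ι ι C(Circle, R)} (hF : IsUnit F) :
    ∃ (N : ℕ) (p : Matrix ι ι R[X]), IsUnit (loopM p) ∧
      Conn ((zc : C(Circle, R)) ^ N • F) (loopM p) := by
  obtain ⟨N, p, h⟩ := exists_laurent hF
  have e : (zc : C(Circle, R)) ^ N • ((zi : C(Circle, R)) ^ N • loopM p) = loopM p := by
    rw [smul_smul, ← mul_pow, zc_mul_zi, one_pow, one_smul]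
  have hC : Conn ((zc : C(Circle, R)) ^ N • F) (loopM p) := by
    refine ⟨⟨⟨fun t : I => (zc : C(Circle, R)) ^ N • (((1 - (t : ℝ) : ℝ) : ℂ) • F + ((t : ℝ) : ℂ) •
      ((zi : C(Circle, R)) ^ N • loopM p)), ?_⟩, ?_, ?_⟩, fun t => ?_⟩
    · have e1 : Continuous fun x : I => ((1 - (x : ℝ) : ℝ) : ℂ) :=
        Complex.continuous_ofReal.comp (continuous_const.sub continuous_subtype_val)
      have e2 : Continuous fun x : I => (((x : ℝ)) : ℂ) :=
        Complex.continuous_ofReal.comp continuous_subtype_val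
      have e3 : Continuous fun t : I => ((1 - (t : ℝ) : ℝ) : ℂ) • F + ((t : ℝ) : ℂ) •
          ((zi : C(Circle, R)) ^ N • loopM p) :=
        (e1.smul (continuous_const (y := F))).add
          (e2.smul (continuous_const (y := (zi : C(Circle, R)) ^ N • loopM p)))
      exact e3.const_smul ((zc : C(Circle, R)) ^ N)
    · simp
    · simp [e]
    · exact isUnit_smul (isUnit_zc_pow N) (h t)
  exact ⟨N, p, hC.right, hC⟩

end units

end Crest.Agent.R204.BottApprox313
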