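import Crest.Agent.R204.BottCoef_671

/-!
# Linear pencils `a + z b` invertible on the circle: spectral idempotent, Birkhoff factorisation
-/

set_option autoImplicit false
set_option linter.unusedSectionVars false

open Filter Topology

namespace Crest.Agent.R204.Bott671

variable {R : Type*} [NormedCommRing R] [NormedAlgebra ℂ R] [CompleteSpace R]

/-- The coordinate `z⁻¹`. -/
noncomputable def zi : C(Circle, R) :=
  ⟨fun z => algebraMap ℂ R ((z⁻¹ : Circle) : ℂ),
    (algebraMapCLM ℂ R).continuous.comp (continuous_subtype_val.comp continuous_inv)⟩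

@[simp] theorem zi_apply (z : Circle) : (zi : C(Circle, R)) z = algebraMap ℂ R ((z⁻¹ : Circle) : ℂ) :=
  rfl

theorem zi_mul_zc : (zi : C(Circle, R)) * zc = 1 := by
  ext z
  simp only [ContinuousMap.mul_apply, zi_apply, zc_apply, ContinuousMap.one_apply]
  rw [← map_mul, ← Circle.coe_mul]
  simp

theorem zc_mul_zi : (zc : C(Circle, R)) * zi = 1 := by rw [mul_comm, zi_mul_zc]

section

variable {ι : Type*} [Fintype ι] [DecidableEq ι]

theorem cM_mul {κ l : Type*} [Fintype κ] (x : Matrix l κ R) {m : Type*} (y : Matrix κ m R) :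
    cM (x * y) = cM x * cM y := by
  ext i j : 2
  simp [cM, Matrix.mul_apply]

theorem cM_add {κ l : Type*} (x y : Matrix l κ R) : cM (x + y) = cM x + cM y := by
  ext i j : 2
  simp [cM]

theorem cM_sub {κ l : Type*} (x y : Matrix l κ R) : cM (x - y) = cM x - cM y := by
  ext i j : 2
  simp [cM]

theorem cM_one : cM (1 : Matrix ι ι R) = 1 := by
  simp [cM]

theorem cM_zero {κ l : Type*} : cM (0 : Matrix l κ R) = 0 := by
  ext i j : 2
  simp [cM]

/-- The pencil `a + z b` as a matrix of loops. -/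
noncomputable def pl (a b : Matrix ι ι R) : Matrix ι ι C(Circle, R) :=
  cM a + (zc : C(Circle, R)) • cM b

variable (R ι) in
/-- A linear pencil invertible on the circle, together with its inverse. -/
structure Pen where
  a : Matrix ι ι R
  b : Matrix ι ι R
  G : Matrix ι ι C(Circle, R)
  fG : pl a b * G = 1
  Gf : G * pl a b = 1

namespace Pen

variable (p : Pen R ι)

/-- The Fourier coefficients of the inverse. -/
noncomputable def c (k : ℤ) : Matrix ι ι R := coefM p.G k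

theorem rel1 (k : ℤ) : p.a * p.c k + p.b * p.c (k - 1) = if k = 0 then 1 else 0 := by
  have h := congrArg (fun F => coefM F k) p.fG
  simp only [pl, add_mul, smul_mul_assoc, coefM_add, coefM_cM_mul, coefM_zc_smul, coefM_one] at h
  exact h

theorem rel2 (k : ℤ) : p.c k * p.a + p.c (k - 1) * p.b = if k = 0 then 1 else 0 := by
  have h := congrArg (fun F => coefM F k) p.Gf
  simp only [pl, mul_add, mul_smul_comm, coefM_add, coefM_mul_cM, coefM_zc_smul, coefM_one] at h
  exact h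

theorem rel1_zero : p.a * p.c 0 + p.b * p.c (-1) = 1 := by
  simpa using p.rel1 0

theorem rel2_zero : p.c 0 * p.a + p.c (-1) * p.b = 1 := by
  simpa using p.rel2 0

theorem b_mul {k : ℤ} (hk : k ≠ 0) : p.b * p.c (k - 1) = -(p.a * p.c k) := by
  have := p.rel1 k
  rw [if_neg hk] at this
  exact eq_neg_of_add_eq_zero_right this

theorem mul_b {k : ℤ} (hk : k ≠ 0) : p.c (k - 1) * p.b = -(p.c k * p.a) := by
  have := p.rel2 k
  rw [if_neg hk] at this
  exact eq_neg_of_add_eq_zero_right this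

theorem tendsto_c_atTop : Tendsto (fun n : ℕ => p.c (n : ℤ)) atTop (𝓝 0) := by
  refine tendsto_pi_nhds.2 fun i => tendsto_pi_nhds.2 fun j => ?_
  exact tendsto_coef_atTop (p.G i j)

theorem tendsto_c_atBot : Tendsto (fun n : ℕ => p.c (-(n : ℤ))) atTop (𝓝 0) := by
  refine tendsto_pi_nhds.2 fun i => tendsto_pi_nhds.2 fun j => ?_
  exact tendsto_coef_atBot (p.G i j)

theorem tendsto_c_atTop' (i : ℤ) : Tendsto (fun n : ℕ => p.c (i + n)) atTop (𝓝 0) := by
  refine tendsto_pi_nhds.2 fun j => tendsto_pi_nhds.2 fun k => ?_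
  refine (tendsto_coef_cofinite (p.G j k)).comp ?_
  rw [← Nat.cofinite_eq_atTop]
  exact Function.Injective.tendsto_cofinite fun a b h => by simpa using h

theorem tendsto_c_atBot' (i : ℤ) : Tendsto (fun n : ℕ => p.c (i - n)) atTop (𝓝 0) := by
  refine tendsto_pi_nhds.2 fun j => tendsto_pi_nhds.2 fun k => ?_
  refine (tendsto_coef_cofinite (p.G j k)).comp ?_
  rw [← Nat.cofinite_eq_atTop]
  exact Function.Injective.tendsto_cofinite fun a b h => by simpa using h

/-- nonneg · a · neg = 0 -/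
theorem Z1 (i j : ℕ) : p.c i * p.a * p.c (-1 - j) = 0 := by
  have hD : ∀ m : ℕ, p.c i * p.a * p.c (-1 - j) = p.c (i + m) * p.a * p.c ((-1 - j) - m) := by
    intro m
    induction m with
    | zero => simp
    | succ m ih =>
      rw [ih]
      have h1 : p.a * p.c ((-1 - j) - m) = -(p.b * p.c ((-1 - j) - m - 1)) := by
        rw [p.b_mul (by omega), neg_neg]
      have h2 : p.c (i + m) * p.b = -(p.c (i + m + 1) * p.a) := by
        have := p.mul_b (k := i + m + 1) (by omega)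
        rwa [add_sub_cancel_right] at this
      rw [mul_assoc, h1, mul_neg, ← mul_assoc, h2, neg_mul, neg_neg]
      push_cast
      rw [show (i : ℤ) + (m + 1) = i + m + 1 by ring,
        show (-1 - (j : ℤ)) - (m + 1) = -1 - j - m - 1 by ring]
  have ht : Tendsto (fun m : ℕ => p.c (i + m) * p.a * p.c ((-1 - j) - m)) atTop (𝓝 (0 * p.a * 0)) :=
    ((p.tendsto_c_atTop' i).mul tendsto_const_nhds).mul (p.tendsto_c_atBot' (-1 - j))
  rw [mul_zero] at ht
  exact tendsto_nhds_unique (tendsto_const_nhds.congr hD) ht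

/-- neg · b · nonneg = 0 -/
theorem Z2 (i j : ℕ) : p.c (-1 - j) * p.b * p.c i = 0 := by
  have hD : ∀ m : ℕ, p.c (-1 - j) * p.b * p.c i = p.c ((-1 - j) - m) * p.b * p.c (i + m) := by
    intro m
    induction m with
    | zero => simp
    | succ m ih =>
      rw [ih]
      have h1 : p.b * p.c (i + m) = -(p.a * p.c (i + m + 1)) := by
        have := p.b_mul (k := i + m + 1) (by omega)
        rwa [add_sub_cancel_right] at this
      have h2 : p.c ((-1 - j) - m) * p.a = -(p.c ((-1 - j) - m - 1) * p.b) := by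
        rw [p.mul_b (by omega), neg_neg]
      rw [mul_assoc, h1, mul_neg, ← mul_assoc, h2, neg_mul, neg_neg]
      push_cast
      rw [show (i : ℤ) + (m + 1) = i + m + 1 by ring,
        show (-1 - (j : ℤ)) - (m + 1) = -1 - j - m - 1 by ring]
  have ht : Tendsto (fun m : ℕ => p.c ((-1 - j) - m) * p.b * p.c (i + m)) atTop (𝓝 (0 * p.b * 0)) :=
    ((p.tendsto_c_atBot' (-1 - j)).mul tendsto_const_nhds).mul (p.tendsto_c_atTop' i)
  rw [mul_zero] at ht
  exact tendsto_nhds_unique (tendsto_const_nhds.congr hD) ht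

/-- nonneg · b · neg = 0 -/
theorem Z3 (i j : ℕ) : p.c i * p.b * p.c (-1 - j) = 0 := by
  have h2 : p.c i * p.b = -(p.c (i + 1) * p.a) := by
    have := p.mul_b (k := i + 1) (by omega)
    rwa [add_sub_cancel_right] at this
  have := p.Z1 (i + 1) j
  push_cast at this
  rw [h2, neg_mul, this, neg_zero]

/-- neg · a · nonneg = 0 -/
theorem Z4 (i j : ℕ) : p.c (-1 - j) * p.a * p.c i = 0 := by
  have h2 : p.c (-1 - j) * p.a = -(p.c (-1 - j - 1) * p.b) := by
    rw [p.mul_b (by omega), neg_neg]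
  have := p.Z2 i (j + 1)
  rw [show (-1 - ((j + 1 : ℕ) : ℤ)) = -1 - j - 1 by push_cast; ring] at this
  rw [h2, neg_mul, this, neg_zero]

/-- The spectral idempotent. -/
noncomputable def P : Matrix ι ι R := p.c (-1) * p.b

/-- The spectral idempotent of the target. -/
noncomputable def Q : Matrix ι ι R := p.b * p.c (-1)

theorem P_mul_c_neg (j : ℕ) : p.P * p.c (-1 - j) = p.c (-1 - j) := by
  have h1 : p.c (-1) * p.b = 1 - p.c 0 * p.a := by rw [← p.rel2_zero]; abel
  have h2 := p.Z1 0 j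
  rw [Nat.cast_zero] at h2
  rw [P, h1, sub_mul, one_mul, h2, sub_zero]

theorem c_neg_mul_Q (j : ℕ) : p.c (-1 - j) * p.Q = p.c (-1 - j) := by
  have h1 : p.b * p.c (-1) = 1 - p.a * p.c 0 := by rw [← p.rel1_zero]; abel
  have h2 := p.Z4 0 j
  rw [Nat.cast_zero, mul_assoc] at h2
  rw [Q, h1, mul_sub, mul_one, h2, sub_zero]

theorem P_mul_c : p.P * p.c (-1) = p.c (-1) := by simpa using p.P_mul_c_neg 0

theorem c_mul_Q : p.c (-1) * p.Q = p.c (-1) := by simpa using p.c_neg_mul_Q 0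

theorem P_mul_P : p.P * p.P = p.P := by
  conv_lhs => rw [P, ← mul_assoc]
  change p.P * p.c (-1) * p.b = _
  rw [P_mul_c]; rfl

theorem isIdempotentElem_P : IsIdempotentElem p.P := p.P_mul_P

theorem Q_mul_Q : p.Q * p.Q = p.Q := by
  conv_lhs => rw [Q, mul_assoc]
  change p.b * (p.c (-1) * p.Q) = _
  rw [c_mul_Q]; rfl

theorem P_mul_c_zero : p.P * p.c 0 = 0 := by
  have h := p.Z2 0 0
  rw [Nat.cast_zero, sub_zero] at h
  exact h

theorem c_zero_mul_Q : p.c 0 * p.Q = 0 := by simpa [Q, mul_assoc] using p.Z3 0 0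

theorem a_mul_P : p.a * p.P = p.Q * p.a := by
  have h1 : p.a * p.c (-1) = -(p.b * p.c (-1 - 1)) := by rw [p.b_mul (by norm_num), neg_neg]
  have h2 : p.c (-1 - 1) * p.b = -(p.c (-1) * p.a) := p.mul_b (by norm_num)
  rw [P, ← mul_assoc, h1, neg_mul, mul_assoc, h2, mul_neg, neg_neg, ← mul_assoc, Q]

theorem b_mul_P : p.b * p.P = p.Q * p.b := by rw [P, Q, mul_assoc]

theorem c_neg_succ (j : ℕ) : p.c (-1 - (j + 1 : ℕ)) = -(p.c (-1) * p.a) * p.c (-1 - j) := by
  rw [← p.P_mul_c_neg (j + 1), P, mul_assoc,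
    show (-1 - ((j + 1 : ℕ) : ℤ)) = -1 - j - 1 by push_cast; ring, p.b_mul (by omega)]
  simp [mul_assoc]

theorem c_neg_eq_pow (j : ℕ) : p.c (-1 - j) = (-(p.c (-1) * p.a)) ^ j * p.c (-1) := by
  induction j with
  | zero => simp
  | succ j ih => rw [c_neg_succ, ih, pow_succ', mul_assoc]

/-- `M = c₋₁ a`, `M ^ j → 0`. -/
noncomputable def M : Matrix ι ι R := p.c (-1) * p.a

/-- `N = c₀ b`, `N ^ j → 0`. -/
noncomputable def N : Matrix ι ι R := p.c 0 * p.b

theorem c_pos_succ (j : ℕ) : p.c ((j + 1 : ℕ) : ℤ) = -p.N * p.c j := by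
  have h1 : p.c 0 * p.a = 1 - p.c (-1) * p.b := by rw [← p.rel2_zero]; abel
  have h3 : p.c 0 * p.a * p.c ((j + 1 : ℕ) : ℤ) = p.c ((j + 1 : ℕ) : ℤ) := by
    have h2 := p.Z2 (j + 1) 0
    rw [Nat.cast_zero, sub_zero] at h2
    rw [h1, sub_mul, one_mul, h2, sub_zero]
  have h4 : p.a * p.c ((j + 1 : ℕ) : ℤ) = -(p.b * p.c j) := by
    have := p.b_mul (k := ((j + 1 : ℕ) : ℤ)) (by omega)
    rw [show (((j + 1 : ℕ) : ℤ)) - 1 = j by push_cast; ring] at this
    rw [this, neg_neg]
  rw [← h3, mul_assoc, h4, N]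
  simp [mul_assoc]

theorem c_pos_eq_pow (j : ℕ) : p.c j = (-p.N) ^ j * p.c 0 := by
  induction j with
  | zero => simp
  | succ j ih => rw [c_pos_succ, ih, pow_succ', mul_assoc]

theorem tendsto_M_pow : Tendsto (fun j : ℕ => (-p.M) ^ j) atTop (𝓝 0) := by
  have h1 : ∀ j : ℕ, (-p.M) ^ (j + 1) = -(p.c (-1 - j) * p.a) := by
    intro j
    rw [c_neg_eq_pow, pow_succ, M, mul_neg, mul_assoc]
  refine (tendsto_add_atTop_iff_nat 1).1 ?_
  refine Tendsto.congr (fun j => (h1 j).symm) ?_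
  have := ((p.tendsto_c_atBot' (-1)).mul (tendsto_const_nhds (x := p.a))).neg
  simpa using this

theorem tendsto_N_pow : Tendsto (fun j : ℕ => (-p.N) ^ j) atTop (𝓝 0) := by
  have h1 : ∀ j : ℕ, (-p.N) ^ (j + 1) = -(p.c j * p.b) := by
    intro j
    have h : p.N = p.c 0 * p.b := rfl
    rw [c_pos_eq_pow, pow_succ, mul_neg, mul_assoc, ← h]
  refine (tendsto_add_atTop_iff_nat 1).1 ?_
  refine Tendsto.congr (fun j => (h1 j).symm) ?_
  have := ((p.tendsto_c_atTop).mul (tendsto_const_nhds (x := p.b))).neg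
  simpa using this

theorem P_mul_M : p.P * p.M = p.M := by rw [M, ← mul_assoc, P_mul_c]

theorem M_mul_P : p.M * p.P = p.M := by
  rw [M, mul_assoc, a_mul_P, ← mul_assoc, c_mul_Q]

theorem P_mul_N : p.P * p.N = 0 := by rw [N, ← mul_assoc, P_mul_c_zero, zero_mul]

theorem N_mul_P : p.N * p.P = 0 := by
  rw [N, mul_assoc, b_mul_P, ← mul_assoc, c_zero_mul_Q, zero_mul]

theorem M_mul_N : p.M * p.N = 0 := by
  rw [← M_mul_P, mul_assoc, P_mul_N, mul_zero]

/-- The constant factor. -/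
noncomputable def u : Matrix ι ι R := p.b * p.P + p.a * (1 - p.P)

theorem u_mul : p.u * (p.c (-1) + p.c 0) = 1 := by
  have h1 : p.u * (p.c (-1) + p.c 0)
      = p.b * (p.P * p.c (-1)) + p.b * (p.P * p.c 0) + p.a * (p.c (-1) - p.P * p.c (-1))
        + p.a * (p.c 0 - p.P * p.c 0) := by
    rw [u]; noncomm_ring
  rw [h1, P_mul_c, P_mul_c_zero, sub_self, mul_zero, mul_zero, sub_zero, ← p.rel1_zero]
  abel

theorem mul_u : (p.c (-1) + p.c 0) * p.u = 1 := by
  have h := p.u_mul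
  exact mul_eq_one_comm.1 h

theorem isUnit_u : IsUnit p.u :=
  ⟨⟨p.u, p.c (-1) + p.c 0, p.u_mul, p.mul_u⟩, rfl⟩

theorem u_mul_P : p.u * p.P = p.b * p.P := by
  rw [u, add_mul, mul_assoc, mul_assoc, sub_mul, one_mul, P_mul_P, sub_self, mul_zero, add_zero]

theorem u_mul_M : p.u * p.M = p.a * p.P := by
  rw [M, u]
  have h1 : (p.b * p.P + p.a * (1 - p.P)) * (p.c (-1) * p.a)
      = p.b * (p.P * p.c (-1)) * p.a + p.a * (p.c (-1) - p.P * p.c (-1)) * p.a := by
    noncomm_ring
  rw [h1, P_mul_c, sub_self, mul_zero, zero_mul, add_zero, a_mul_P, Q]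

theorem u_mul_N : p.u * p.N = p.b * (1 - p.P) := by
  rw [N, u]
  have h1 : (p.b * p.P + p.a * (1 - p.P)) * (p.c 0 * p.b)
      = p.b * (p.P * p.c 0) * p.b + p.a * (p.c 0 - p.P * p.c 0) * p.b := by
    noncomm_ring
  rw [h1, P_mul_c_zero, mul_zero, zero_mul, zero_add, sub_zero]
  have h2 : p.a * p.c 0 = 1 - p.b * p.c (-1) := by rw [← p.rel1_zero]; abel
  rw [h2, mul_sub, mul_one, sub_mul, one_mul, b_mul_P, Q]

theorem u_mul_one_sub_P : p.u * (1 - p.P) = p.a * (1 - p.P) := by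
  rw [mul_sub, mul_one, u_mul_P, u]; abel

/-- the basic decomposition `a + z b = u (z P + (1 - P) + M + z N)`. -/
theorem decomp {S : Type*} [CommRing S] [Algebra S (Matrix ι ι R)] (z : S) :
    p.a + z • p.b = p.u * (z • p.P + (1 - p.P) + p.M + z • p.N) := by
  rw [mul_add, mul_add, mul_add, mul_smul_comm, mul_smul_comm, u_mul_P, u_mul_M, u_mul_N,
    u_mul_one_sub_P, mul_sub, mul_sub, mul_one, smul_sub, mul_one]
  abel

end Pen

end

/-- `z P + (1 - P)` as a matrix of loops. -/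
noncomputable def Lam {ι : Type*} [Fintype ι] [DecidableEq ι] (P : Matrix ι ι R) :
    Matrix ι ι C(Circle, R) :=
  (zc : C(Circle, R)) • cM P + cM (1 - P)

section

variable {ι : Type*} [Fintype ι] [DecidableEq ι] (p : Pen R ι)

/-- Birkhoff factorisation of the pencil. -/
theorem Pen.birkhoff :
    pl p.a p.b = cM p.u * Lam p.P * (1 + (zi : C(Circle, R)) • cM p.M)
      * (1 + (zc : C(Circle, R)) • cM p.N) := by
  have hPM : cM p.P * cM p.M = cM p.M := by rw [← cM_mul, p.P_mul_M]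
  have hPN : cM p.P * cM p.N = 0 := by rw [← cM_mul, p.P_mul_N, cM_zero]
  have hMN : cM p.M * cM p.N = 0 := by rw [← cM_mul, p.M_mul_N, cM_zero]
  have huP : cM p.u * cM p.P = cM p.b * cM p.P := by rw [← cM_mul, p.u_mul_P, cM_mul]
  have huM : cM p.u * cM p.M = cM p.a * cM p.P := by rw [← cM_mul, p.u_mul_M, cM_mul]
  have huN : cM p.u * cM p.N = cM p.b - cM p.b * cM p.P := by
    rw [← cM_mul, p.u_mul_N, cM_mul, cM_sub, cM_one, mul_sub, mul_one]
  have hu1 : cM p.u = cM p.b * cM p.P + cM p.a - cM p.a * cM p.P := by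
    rw [Pen.u, cM_add, cM_mul, cM_mul, cM_sub, cM_one, mul_sub, mul_one]; abel
  have e1 : Lam p.P * (1 + (zi : C(Circle, R)) • cM p.M) = Lam p.P + cM p.M := by
    rw [Lam, mul_add, mul_one]
    congr 1
    rw [cM_sub, cM_one, add_mul, sub_mul, one_mul, smul_mul_smul_comm, zc_mul_zi, one_smul,
      hPM, mul_smul_comm, hPM, sub_self, add_zero]
  have e2 : (Lam p.P + cM p.M) * (1 + (zc : C(Circle, R)) • cM p.N)
      = Lam p.P + cM p.M + (zc : C(Circle, R)) • cM p.N := by
    rw [Lam, cM_sub, cM_one, mul_add, mul_one, add_mul, add_mul, sub_mul, one_mul,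
      smul_mul_smul_comm, hPN, smul_zero, mul_smul_comm, hPN, smul_zero, sub_zero, mul_smul_comm,
      hMN, smul_zero]
    abel
  rw [mul_assoc, mul_assoc, ← mul_assoc (Lam p.P), e1, e2, Lam, pl, cM_sub, cM_one]
  rw [mul_add, mul_add, mul_add, mul_smul_comm, mul_smul_comm, huP, huM, huN, mul_sub, mul_one,
    huP, hu1, smul_sub]
  abel

end

end Crest.Agent.R204.Bott671
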