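import Crest.Agent.R204.BottEqv_671
import Crest.Agent.R204.BottApprox_313
import Crest.Agent.R204.BottLoop_313

/-!
# Row 204, block H (helper313): Bott periodicity, surjectivity half of the loop theorem
-/

set_option autoImplicit false
set_option linter.unusedSectionVars false

open Filter Topology Polynomial Set
open scoped unitInterval

namespace Crest.Agent.R204.BottSurj313

open Crest.Agent.R204.Bott671 Crest.Agent.R204.BottApprox313 Crest.Agent.R204.BottLoop313

universe u

section elem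

variable {S : Type*} [CommRing S] [TopologicalSpace S] [IsTopologicalRing S] [Algebra ℂ S]
  [ContinuousSMul ℂ S] {ι κ : Type*} [Fintype ι] [DecidableEq ι] [Fintype κ] [DecidableEq κ]

theorem isUnit_upper {T : Type*} [CommRing T] (B : Matrix ι κ T) :
    IsUnit (Matrix.fromBlocks (1 : Matrix ι ι T) B 0 (1 : Matrix κ κ T)) := by
  rw [Matrix.isUnit_iff_isUnit_det, Matrix.det_fromBlocks_zero₂₁]
  simp

theorem isUnit_lower {T : Type*} [CommRing T] (B : Matrix κ ι T) :
    IsUnit (Matrix.fromBlocks (1 : Matrix ι ι T) 0 B (1 : Matrix κ κ T)) := by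
  rw [Matrix.isUnit_iff_isUnit_det, Matrix.det_fromBlocks_zero₁₂]
  simp

theorem conn_upper (B : Matrix ι κ S) :
    Conn (1 : Matrix (ι ⊕ κ) (ι ⊕ κ) S) (Matrix.fromBlocks 1 B 0 1) := by
  have h : Conn ((fun t : ℝ => Matrix.fromBlocks (1 : Matrix ι ι S) ((t : ℂ) • B) 0
      (1 : Matrix κ κ S)) 0) ((fun t : ℝ => Matrix.fromBlocks (1 : Matrix ι ι S) ((t : ℂ) • B) 0
      (1 : Matrix κ κ S)) 1) := by
    refine Conn.of_real ?_ fun t _ => isUnit_upper (T := S) ((t : ℂ) • B)
    refine Continuous.matrix_fromBlocks continuous_const ?_ continuous_const continuous_const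
    exact Complex.continuous_ofReal.smul continuous_const
  simpa using h

theorem conn_lower (B : Matrix κ ι S) :
    Conn (1 : Matrix (ι ⊕ κ) (ι ⊕ κ) S) (Matrix.fromBlocks 1 0 B 1) := by
  have h : Conn ((fun t : ℝ => Matrix.fromBlocks (1 : Matrix ι ι S) 0 ((t : ℂ) • B)
      (1 : Matrix κ κ S)) 0) ((fun t : ℝ => Matrix.fromBlocks (1 : Matrix ι ι S) 0 ((t : ℂ) • B)
      (1 : Matrix κ κ S)) 1) := by
    refine Conn.of_real ?_ fun t _ => isUnit_lower (T := S) ((t : ℂ) • B)
    refine Continuous.matrix_fromBlocks continuous_const continuous_const ?_ continuous_const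
    exact Complex.continuous_ofReal.smul continuous_const
  simpa using h

/-- `diag(a + z q, 1)` is joined to `[[a, q], [-z, 1]]`. -/
theorem conn_step (a q z : Matrix ι ι S) (h : IsUnit (a + q * z)) :
    Conn (Matrix.fromBlocks (a + q * z) 0 0 (1 : Matrix ι ι S))
      (Matrix.fromBlocks a q (-z) (1 : Matrix ι ι S)) := by
  have e : Matrix.fromBlocks (a + q * z) 0 0 (1 : Matrix ι ι S) =
      Matrix.fromBlocks 1 (-q) 0 1 * Matrix.fromBlocks a q (-z) (1 : Matrix ι ι S) *
        Matrix.fromBlocks 1 0 z 1 := by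
    simp [Matrix.fromBlocks_multiply]
  have hM : IsUnit (Matrix.fromBlocks a q (-z) (1 : Matrix ι ι S)) := by
    rw [Matrix.isUnit_iff_isUnit_det, Matrix.det_fromBlocks_one₂₂]
    rw [Matrix.isUnit_iff_isUnit_det] at h
    simpa using h
  rw [e]
  have h1 := ((conn_upper (-q)).mul (Conn.refl hM)).mul (conn_lower z)
  rw [one_mul, mul_one] at h1
  exact h1.symm

end elem

section lin

variable {R : Type*} [NormedCommRing R] [NormedAlgebra ℂ R] [CompleteSpace R]

theorem loopM_fromBlocks {ι κ l m : Type*} (a : Matrix ι l R[X]) (b : Matrix ι m R[X])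
    (c : Matrix κ l R[X]) (d : Matrix κ m R[X]) :
    loopM (Matrix.fromBlocks a b c d) =
      Matrix.fromBlocks (loopM a) (loopM b) (loopM c) (loopM d) := by
  rw [loopM, Matrix.fromBlocks_map]
  rfl

/-- constant coefficients -/
noncomputable def cf {ι κ : Type*} (k : ℕ) (p : Matrix ι κ R[X]) : Matrix ι κ R :=
  p.map fun q => q.coeff k

theorem eq_ppl {ι : Type*} [Fintype ι] (p : Matrix ι ι R[X]) (h : ∀ i j, (p i j).natDegree ≤ 1) :
    p = ppl (cf 0 p) (cf 1 p) := by
  refine Matrix.ext fun i j => ?_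
  simp only [ppl, cf, Matrix.add_apply, Matrix.map_apply, Matrix.smul_apply, smul_eq_mul]
  conv_lhs => rw [eq_X_add_C_of_natDegree_le_one (h i j)]
  ring

theorem exists_pencil_conn (n : ℕ) : ∀ (ι : Type u) [Fintype ι] [DecidableEq ι]
    (p : Matrix ι ι R[X]), (∀ i j, (p i j).natDegree ≤ n + 1) → IsUnit (loopM p) →
    ∃ (κ : Type u) (_ : Fintype κ) (_ : DecidableEq κ) (a b : Matrix (ι ⊕ κ) (ι ⊕ κ) R),
      Conn (Matrix.fromBlocks (loopM p) 0 0 (1 : Matrix κ κ C(Circle, R))) (pl a b) := by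
  induction n with
  | zero =>
    intro ι _ _ p hp hu
    refine ⟨PEmpty, inferInstance, inferInstance, cf 0 (Matrix.fromBlocks p 0 0 1),
      cf 1 (Matrix.fromBlocks p 0 0 1), ?_⟩
    have h1 : ∀ i j, ((Matrix.fromBlocks p 0 0 (1 : Matrix PEmpty PEmpty R[X])) i j).natDegree
        ≤ 1 := by
      rintro (i | i) (j | j)
      · exact hp i j
      · exact j.elim
      · exact i.elim
      · exact i.elim
    rw [← loopM_ppl, ← eq_ppl _ h1, loopM_fromBlocks]
    have h2 : loopM (1 : Matrix PEmpty PEmpty R[X]) = 1 := loopM_one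
    have h3 : loopM (0 : Matrix ι PEmpty R[X]) = 0 := by ext i j; exact j.elim
    have h4 : loopM (0 : Matrix PEmpty ι R[X]) = 0 := by ext i j; exact i.elim
    rw [h2, h3, h4]
    exact Conn.refl (isUnit_fromBlocks_diag hu isUnit_one)
  | succ n ih =>
    intro ι _ _ p hp hu
    let q : Matrix ι ι R[X] := p.map divX
    have hpq : loopM p = cM (cf 0 p) + loopM q * ((zc : C(Circle, R)) • 1) := by
      refine Matrix.ext fun i j => ?_
      rw [mul_smul_comm, mul_one]
      simp only [loopM, cM, cf, q, Matrix.add_apply, Matrix.map_apply, Matrix.smul_apply,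
        smul_eq_mul]
      conv_lhs => rw [← divX_mul_X_add (p i j)]
      rw [map_add, map_mul, loop_X, loop_C]
      ring
    have hstep := conn_step (cM (cf 0 p)) (loopM q) ((zc : C(Circle, R)) • 1) (hpq ▸ hu)
    rw [← hpq] at hstep
    let p' : Matrix (ι ⊕ ι) (ι ⊕ ι) R[X] :=
      Matrix.fromBlocks ((cf 0 p).map C) q (-((X : R[X]) • 1)) 1
    have hp' : loopM p' = Matrix.fromBlocks (cM (cf 0 p)) (loopM q)
        (-((zc : C(Circle, R)) • 1)) 1 := by
      rw [loopM_fromBlocks, loopM_map_C, loopM_one]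
      congr 1
      refine Matrix.ext fun i j => ?_
      by_cases hij : i = j
      · subst hij
        simp [loopM]
      · simp [loopM, Matrix.one_apply_ne hij]
    have hdeg : ∀ i j, (p' i j).natDegree ≤ n + 1 := by
      rintro (i | i) (j | j)
      · show (C (cf 0 p i j)).natDegree ≤ _
        rw [natDegree_C]
        exact Nat.zero_le _
      · show (divX (p i j)).natDegree ≤ _
        rw [natDegree_divX_eq_natDegree_tsub_one]
        have := hp i j
        omega
      · show (-((X : R[X]) • (1 : Matrix ι ι R[X])) i j).natDegree ≤ _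
        by_cases hij : i = j
        · subst hij
          simp only [Matrix.smul_apply, Matrix.one_apply_eq, smul_eq_mul, mul_one, natDegree_neg]
          exact natDegree_X_le.trans (by omega)
        · simp [Matrix.one_apply_ne hij]
      · show ((1 : Matrix ι ι R[X]) i j).natDegree ≤ _
        by_cases hij : i = j
        · subst hij
          simp
        · simp [Matrix.one_apply_ne hij]
    rw [← hp'] at hstep
    obtain ⟨κ, hκ1, hκ2, a, b, hab⟩ := ih (ι ⊕ ι) p' hdeg hstep.right
    let e : (ι ⊕ ι) ⊕ κ ≃ ι ⊕ (ι ⊕ κ) := Equiv.sumAssoc ι ι κ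
    refine ⟨ι ⊕ κ, inferInstance, inferInstance, Matrix.reindex e e a, Matrix.reindex e e b, ?_⟩
    have h1 : Conn (Matrix.fromBlocks (Matrix.fromBlocks (loopM p) 0 0 (1 : Matrix ι ι _)) 0 0
        (1 : Matrix κ κ C(Circle, R))) (pl a b) :=
      (Conn.blocks hstep (Conn.refl isUnit_one)).trans hab
    have h2 := Conn.reindex e h1
    have e1 : Matrix.reindex e e (Matrix.fromBlocks (Matrix.fromBlocks (loopM p) 0 0
        (1 : Matrix ι ι _)) 0 0 (1 : Matrix κ κ C(Circle, R))) =
        Matrix.fromBlocks (loopM p) 0 0 (1 : Matrix (ι ⊕ κ) (ι ⊕ κ) C(Circle, R)) := by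
      refine Matrix.ext ?_
      rintro (i | i | i) (j | j | j) <;>
        simp [e, Matrix.one_apply]
    have e2 : Matrix.reindex e e (pl a b) = pl (Matrix.reindex e e a) (Matrix.reindex e e b) := by
      refine Matrix.ext fun i j => ?_
      rfl
    rwa [e1, e2] at h2

/-- **Loop theorem, surjectivity**, over the circle. -/
theorem bott_surj {ι : Type u} [Fintype ι] [DecidableEq ι] {F : Matrix ι ι C(Circle, R)}
    (hF : IsUnit F) : ∃ (N m : ℕ) (P c : Matrix (ι ⊕ Fin m) (ι ⊕ Fin m) R), P * P = P ∧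
      IsUnit c ∧ Conn (Matrix.fromBlocks ((zc : C(Circle, R)) ^ N • F) 0 0
        (1 : Matrix (Fin m) (Fin m) C(Circle, R))) (Lam P * cM c) := by
  obtain ⟨N, p, hp, hconn⟩ := exists_conn hF
  obtain ⟨d, hd⟩ := Pen.exists_deg p
  obtain ⟨κ, hκ1, hκ2, a, b, hab⟩ := exists_pencil_conn d ι p
    (fun i j => (hd i j).le.trans (Nat.le_succ d)) hp
  -- reindex
  let e : ι ⊕ κ ≃ ι ⊕ Fin (Fintype.card κ) := Equiv.sumCongr (Equiv.refl ι) (Fintype.equivFin κ)
  have h1 := Conn.reindex e ((Conn.blocks hconn (Conn.refl (isUnit_one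
    (M := Matrix κ κ C(Circle, R))))).trans hab)
  have e1 : Matrix.reindex e e (Matrix.fromBlocks ((zc : C(Circle, R)) ^ N • F) 0 0
      (1 : Matrix κ κ C(Circle, R))) = Matrix.fromBlocks ((zc : C(Circle, R)) ^ N • F) 0 0
        (1 : Matrix (Fin (Fintype.card κ)) (Fin (Fintype.card κ)) C(Circle, R)) := by
    refine Matrix.ext ?_
    rintro (i | i) (j | j) <;> simp [e, Matrix.one_apply]
  have e2 : Matrix.reindex e e (pl a b) = pl (Matrix.reindex e e a) (Matrix.reindex e e b) := by
    refine Matrix.ext fun i j => ?_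
    rfl
  rw [e1, e2] at h1
  obtain ⟨G, hG⟩ := h1.right
  let pen : Pen R (ι ⊕ Fin (Fintype.card κ)) :=
    { a := Matrix.reindex e e a
      b := Matrix.reindex e e b
      G := ((G⁻¹ : (Matrix _ _ C(Circle, R))ˣ) : Matrix _ _ C(Circle, R))
      fG := by rw [← hG]; simp
      Gf := by rw [← hG]; simp }
  have h2 : Conn _ (cM pen.u * Lam pen.P) := h1.trans pen.conn.symm
  obtain ⟨v, hv⟩ := pen.isUnit_u
  obtain ⟨V, W, hVW, hWV, hV⟩ : ∃ V W : Matrix (ι ⊕ Fin (Fintype.card κ)) (ι ⊕ Fin (Fintype.card κ))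
      R, V * W = 1 ∧ W * V = 1 ∧ V = pen.u :=
    ⟨_, ((v⁻¹ : (Matrix _ _ R)ˣ) : Matrix _ _ R), v.mul_inv, v.inv_mul, hv⟩
  have hPP := pen.P_mul_P
  refine ⟨N, Fintype.card κ, V * pen.P * W, pen.u, ?_, ?_, ?_⟩
  · calc V * pen.P * W * (V * pen.P * W)
        = V * pen.P * (W * V) * pen.P * W := by simp only [Matrix.mul_assoc]
      _ = V * (pen.P * pen.P) * W := by
          rw [hWV, mul_one]
          simp only [Matrix.mul_assoc]
      _ = _ := by rw [hPP]
  · exact pen.isUnit_u
  · have e3 : Lam (V * pen.P * W) * cM pen.u = cM pen.u * Lam pen.P := by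
      have e4 : V * pen.P * W * V = V * pen.P := by rw [mul_assoc _ _ V, hWV, mul_one]
      have e5 : (1 - V * pen.P * W) * V = V * (1 - pen.P) := by
        rw [sub_mul, mul_sub, one_mul, mul_one, e4]
      rw [← hV, Lam, Lam, add_mul, mul_add, smul_mul_assoc, mul_smul_comm, ← cM_mul, ← cM_mul,
        ← cM_mul, ← cM_mul, e4, e5]
    rw [e3]
    exact h2

end lin

section loops

variable {A : Type*} [NormedCommRing A] [NormedAlgebra ℂ A] [CompleteSpace A]

/-- shortcut instance -/
instance smulMat {B : Type*} [NormedRing B] [NormedAlgebra ℂ B] {ι κ : Type*} :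
    SMul (LoopAlg B) (Matrix ι κ (LoopAlg B)) :=
  @Matrix.smul ι κ (LoopAlg B) (LoopAlg B) (instSMulOfMul)

/-- `z p + (1 - p)` as a matrix of loops on `[0,1]`. -/
noncomputable def LamL {ι : Type*} [Fintype ι] [DecidableEq ι] (P : Matrix ι ι A) :
    Matrix ι ι (LoopAlg A) :=
  (zL : LoopAlg A) • P.map cst + (1 - P).map cst

theorem map_Lam {ι : Type*} [Fintype ι] [DecidableEq ι] (P : Matrix ι ι A) :
    (Lam P).map (thetaR A) = LamL P := by
  refine Matrix.ext fun i j => ?_
  simp only [Lam, LamL, Matrix.map_apply, Matrix.add_apply, Matrix.smul_apply, smul_eq_mul, map_add,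
    map_mul, thetaR_zc, cM, thetaR_C]

theorem map_cM {ι κ : Type*} (c : Matrix ι κ A) : (cM c).map (thetaR A) = c.map cst := rfl

/-- **Loop theorem, surjectivity**, over `LoopAlg A`. -/
theorem bott_surj_loop {ι : Type u} [Fintype ι] [DecidableEq ι] {F : Matrix ι ι (LoopAlg A)}
    (hF : IsUnit F) : ∃ (N m : ℕ) (P c : Matrix (ι ⊕ Fin m) (ι ⊕ Fin m) A), P * P = P ∧
      IsUnit c ∧ JoinedIn {M | IsUnit M} (Matrix.fromBlocks ((zL : LoopAlg A) ^ N • F) 0 0
        (1 : Matrix (Fin m) (Fin m) (LoopAlg A))) (LamL P * c.map cst) := by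
  obtain ⟨N, m, P, c, hP, hc, h⟩ := bott_surj (isUnit_map_thetaS.2 hF)
  refine ⟨N, m, P, c, hP, hc, ?_⟩
  have h' := joinedIn_theta_iff.2 h
  have e1 : (Matrix.fromBlocks ((zc : C(Circle, A)) ^ N • F.map (thetaS A)) 0 0
        (1 : Matrix (Fin m) (Fin m) C(Circle, A))).map (thetaR A) =
      Matrix.fromBlocks ((zL : LoopAlg A) ^ N • F) 0 0
        (1 : Matrix (Fin m) (Fin m) (LoopAlg A)) := by
    rw [Matrix.fromBlocks_map]
    congr 1
    · refine Matrix.ext fun i j => ?_
      simp [thetaR_zc]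
    · exact Matrix.map_one _ (map_zero _) (map_one _)
  have e2 : (Lam P * cM c).map (thetaR A) = LamL P * c.map cst := by
    rw [Matrix.map_mul, map_Lam, map_cM]
  rw [e1, e2] at h'
  exact h'

end loops

end Crest.Agent.R204.BottSurj313
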