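import Crest.Agent.R204.BottPath_671
import Crest.Agent.R204.BottSurj_313
import Crest.Agent.R204.KDefs_357

/-!
# Row 204, block H (helper313): Bott periodicity, injectivity half of the loop theorem
-/

set_option autoImplicit false
set_option linter.unusedSectionVars false

open Filter Topology Polynomial Set
open scoped unitInterval

namespace Crest.Agent.R204.BottInj313

open Crest.Agent.R204.Bott671 Crest.Agent.R204.BottApprox313 Crest.Agent.R204.BottLoop313
  Crest.Agent.R204.BottSurj313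

section

variable {R : Type*} [NormedCommRing R] [NormedAlgebra ℂ R] [CompleteSpace R]
  {ι : Type} [Fintype ι] [DecidableEq ι]

/-- A path of loops as a loop of paths. -/
noncomputable def flip1 (g : C(I, C(Circle, R))) : C(Circle, C(I, R)) :=
  (g.uncurry.comp ContinuousMap.prodSwap).curry

@[simp] theorem flip1_apply (g : C(I, C(Circle, R))) (z : Circle) (t : I) :
    flip1 g z t = g t z := rfl

/-- Unit matrices over `C(Circle, C(I, R))` are detected pointwise. -/
theorem isUnit_iff_pt (F : Matrix ι ι C(Circle, C(I, R))) :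
    IsUnit F ↔ ∀ (z : Circle) (t : I), IsUnit (evM t (evM z F)) := by
  rw [isUnit_iff_evM]
  exact forall_congr' fun z => isUnit_iff_evM _

/-- index of `X^N p` -/
theorem nu_X_pow_smul (N : ℕ) : ∃ (κ : Type) (_ : Fintype κ) (_ : DecidableEq κ),
    ∀ {p : Matrix ι ι R[X]} (_ : IsUnit (loopM p)) {e : Matrix ι ι R} (_ : e * e = e)
      (_ : NuRel p e), NuRel ((X : R[X]) ^ N • p) (Matrix.fromBlocks e 0 0 (1 : Matrix κ κ R)) := by
  induction N with
  | zero =>
    refine ⟨Empty, inferInstance, inferInstance, fun {p} hp {e} he h => ?_⟩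
    rw [pow_zero, one_smul]
    refine nu_mvn ?_ ?_ h
    · rw [Matrix.fromBlocks_multiply]
      simp [he]
    · have h0 := (MvN.add_zero (κ := Empty) e he).symm
      have h1 : (1 : Matrix Empty Empty R) = 0 := by ext i; exact i.elim
      rw [h1]
      exact h0
  | succ N ih =>
    obtain ⟨κ, i1, i2, h⟩ := ih
    refine ⟨κ ⊕ ι, inferInstance, inferInstance, fun {p} hp {e} he hpe => ?_⟩
    have h1 := h hp he hpe
    have he1 : Matrix.fromBlocks e 0 0 (1 : Matrix κ κ R) * Matrix.fromBlocks e 0 0 1 =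
        Matrix.fromBlocks e 0 0 1 := by
      rw [Matrix.fromBlocks_multiply]
      simp [he]
    have hu : IsUnit (loopM ((X : R[X]) ^ N • p)) := by
      have e2 : loopM ((X : R[X]) ^ N • p) = (zc : C(Circle, R)) ^ N • loopM p := by
        refine Matrix.ext fun i j => ?_
        simp only [loopM, Matrix.map_apply, Matrix.smul_apply, smul_eq_mul, map_mul, map_pow, loop_X]
      rw [e2]
      exact isUnit_smul (isUnit_zc_pow N) hp
    have h2 := nu_X_smul' (pathAlg R) hu he1 h1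
    rw [smul_smul, ← pow_succ'] at h2
    refine nu_mvn ?_ ?_ h2
    · rw [Matrix.fromBlocks_multiply]
      simp [he]
    · have hz : (1 : Matrix (κ ⊕ ι) (κ ⊕ ι) R) = Matrix.fromBlocks 1 0 0 1 :=
        Matrix.fromBlocks_one.symm
      rw [hz]
      refine ⟨(Matrix.fromBlocks (Matrix.fromBlocks e 0 0 1) 0 0 1).submatrix id
          (Equiv.sumAssoc ι κ ι).symm,
        (Matrix.fromBlocks (Matrix.fromBlocks e 0 0 1) 0 0 1).submatrix
          (Equiv.sumAssoc ι κ ι).symm id, ?_, ?_⟩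
      · rw [Matrix.submatrix_mul_equiv, Matrix.fromBlocks_multiply]
        simp [he1]
      · rw [← Matrix.submatrix_mul _ _ _ _ _ Function.bijective_id, Matrix.fromBlocks_multiply]
        refine Matrix.ext ?_
        rintro (i | i | i) (j | j | j) <;> simp [he1, Matrix.one_apply]

/-- A straight line of unit loops between two polynomial loops identifies their indices. -/
theorem nu_line {κ l : Type} [Fintype κ] [DecidableEq κ] [Fintype l] [DecidableEq l]
    {p q : Matrix ι ι R[X]}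
    (h : ∀ t : I, IsUnit (((1 - (t : ℝ) : ℝ) : ℂ) • loopM p + ((t : ℝ) : ℂ) • loopM q))
    {e : Matrix κ κ R} {f : Matrix l l R} (he : e * e = e) (hf : f * f = f)
    (hp : NuRel p e) (hq : NuRel q f) : MvN e f := by
  let A := pathAlg R
  let c : R[X] →+* C(I, R)[X] := Polynomial.mapRingHom (A.cst : R →+* C(I, R))
  let L : Matrix ι ι C(I, R)[X] :=
    (1 - C A.tI : C(I, R)[X]) • p.map c + (C A.tI : C(I, R)[X]) • q.map c
  have hφ : ∀ (φ : C(I, R) →A[ℂ] R) (_ : ∀ r, φ (A.cst r) = r),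
      L.map (Polynomial.mapRingHom (φ : C(I, R) →+* R)) =
        (1 - C (φ A.tI) : R[X]) • p + (C (φ A.tI) : R[X]) • q := by
    intro φ hφ
    refine Matrix.ext fun i j => ?_
    have hcc : ∀ r : R[X], (r.map (A.cst : R →+* C(I, R))).map (φ : C(I, R) →+* R) = r := by
      intro r
      rw [Polynomial.map_map]
      have : (φ : C(I, R) →+* R).comp (A.cst : R →+* C(I, R)) = RingHom.id R := by
        ext r; exact hφ r
      rw [this, Polynomial.map_id]
    simp only [L, c, Matrix.map_apply, Matrix.add_apply, Matrix.smul_apply, smul_eq_mul,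
      Polynomial.coe_mapRingHom, Polynomial.map_add, Polynomial.map_mul, Polynomial.map_sub,
      Polynomial.map_one, Polynomial.map_C, hcc]
    rfl
  have hL : IsUnit (loopM L) := by
    rw [isUnit_iff_pt]
    intro z t
    have h1 := (isUnit_iff_evM _).1 (h t) z
    have h2 : evM t (evM z (loopM L)) =
        evM z (((1 - (t : ℝ) : ℝ) : ℂ) • loopM p + ((t : ℝ) : ℂ) • loopM q) := by
      refine Matrix.ext fun i j => ?_
      have hloop : ∀ r : R[X], loop (r.map (A.cst : R →+* C(I, R))) z t = loop r z := by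
        intro r
        rw [loop_map]
        rfl
      have e1 : (loop (C A.tI : C(I, R)[X])) z t = algebraMap ℂ R ((t : ℝ) : ℂ) := by
        rw [loop_C]
        rfl
      have e3 : ∀ (w : ℂ) (G : C(Circle, R)), (w • G) z = algebraMap ℂ R w * G z := fun w G => by
        rw [ContinuousMap.smul_apply, Algebra.smul_def]
      simp only [evM_apply, L, c, loopM, Matrix.map_apply, Matrix.add_apply, Matrix.smul_apply,
        smul_eq_mul, map_add, map_mul, map_sub, map_one, Polynomial.coe_mapRingHom,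
        ContinuousMap.add_apply, ContinuousMap.mul_apply, ContinuousMap.sub_apply,
        ContinuousMap.one_apply, hloop, e1, e3, Complex.ofReal_sub, Complex.ofReal_one]
    rw [h2]
    exact h1
  have h0 := hφ A.φ0 A.h0
  have h1 := hφ A.φ1 A.h1
  rw [A.ht0, C_0, sub_zero, one_smul, zero_smul, add_zero] at h0
  rw [A.ht1, C_1, sub_self, one_smul, zero_smul, zero_add] at h1
  refine nu_path A hL he hf ?_ ?_
  · rw [h0]; exact hp
  · rw [h1]; exact hq

theorem loopM_X_pow_smul (N : ℕ) (p : Matrix ι ι R[X]) :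
    loopM ((X : R[X]) ^ N • p) = (zc : C(Circle, R)) ^ N • loopM p := by
  refine Matrix.ext fun i j => ?_
  simp only [loopM, Matrix.map_apply, Matrix.smul_apply, smul_eq_mul, map_mul, map_pow, loop_X]

theorem loopM_idem (P : Matrix ι ι R) : loopM (ppl (1 - P) P) = Lam P := by
  rw [loopM_ppl, pl, Lam, add_comm]

theorem exists_laurent2 {F : Matrix ι ι C(Circle, R)} (hF : IsUnit F) :
    ∃ (N : ℕ) (p : Matrix ι ι R[X]), IsUnit (loopM p) ∧ ∀ t : I,
      IsUnit (((1 - (t : ℝ) : ℝ) : ℂ) • ((zc : C(Circle, R)) ^ N • F) +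
        ((t : ℝ) : ℂ) • loopM p) := by
  obtain ⟨N, p, hp⟩ := exists_laurent hF
  have key : ∀ t : I, IsUnit (((1 - (t : ℝ) : ℝ) : ℂ) • ((zc : C(Circle, R)) ^ N • F) +
        ((t : ℝ) : ℂ) • loopM p) := by
    intro t
    have h2 := isUnit_smul (isUnit_zc_pow (R := R) N) (hp t)
    have e1 : (zc : C(Circle, R)) ^ N • (((1 - (t : ℝ) : ℝ) : ℂ) • F +
        ((t : ℝ) : ℂ) • ((zi : C(Circle, R)) ^ N • loopM p)) =
        ((1 - (t : ℝ) : ℝ) : ℂ) • ((zc : C(Circle, R)) ^ N • F) + ((t : ℝ) : ℂ) • loopM p := by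
      rw [smul_add, smul_comm _ ((1 - (t : ℝ) : ℝ) : ℂ), smul_comm _ ((t : ℝ) : ℂ), smul_smul
        (zc ^ N), ← mul_pow, zc_mul_zi, one_pow, one_smul]
    rwa [e1] at h2
  refine ⟨N, p, ?_, key⟩
  simpa using key 1

/-- The evaluation of a Laurent line at a time `s`. -/
theorem isUnit_eval {F : Matrix ι ι C(Circle, C(I, R))} {N : ℕ} {p : Matrix ι ι C(I, R)[X]}
    {t : I} (h : IsUnit (((1 - (t : ℝ) : ℝ) : ℂ) • ((zc : C(Circle, C(I, R))) ^ N • F) +
        ((t : ℝ) : ℂ) • loopM p)) (s : I) (φ : C(I, R) →A[ℂ] R) (hφ : ∀ a, φ a = a s)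
    {G : Matrix ι ι C(Circle, R)} (hG : ∀ i j z, G i j z = F i j z s) :
    IsUnit (((1 - (t : ℝ) : ℝ) : ℂ) • ((zc : C(Circle, R)) ^ N • G) + ((t : ℝ) : ℂ) •
          loopM (p.map (Polynomial.mapRingHom (φ : C(I, R) →+* R)))) := by
  rw [isUnit_iff_evM]
  intro z
  have h3 := (isUnit_iff_pt _).1 h z s
  have e4 : evM z (((1 - (t : ℝ) : ℝ) : ℂ) • ((zc : C(Circle, R)) ^ N • G) + ((t : ℝ) : ℂ) •
          loopM (p.map (Polynomial.mapRingHom (φ : C(I, R) →+* R)))) =
      evM s (evM z (((1 - (t : ℝ) : ℝ) : ℂ) • ((zc : C(Circle, C(I, R))) ^ N • F) +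
        ((t : ℝ) : ℂ) • loopM p)) := by
    refine Matrix.ext fun i j => ?_
    have e1 : (loop ((p i j).map (φ : C(I, R) →+* R))) z = loop (p i j) z s := by
      rw [loop_map, ← hφ]
      rfl
    have e2 : ((zc : C(Circle, C(I, R))) ^ N) z s = ((zc : C(Circle, R)) ^ N) z := by
      rw [ContinuousMap.pow_apply, ContinuousMap.pow_apply, ContinuousMap.pow_apply]
      rfl
    have e3 : evM s (evM z (((1 - (t : ℝ) : ℝ) : ℂ) • ((zc : C(Circle, C(I, R))) ^ N • F) +
        ((t : ℝ) : ℂ) • loopM p)) i j = ((1 - (t : ℝ) : ℝ) : ℂ) • (((zc : C(Circle, C(I, R))) ^ N) z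
        s * F i j z s) + ((t : ℝ) : ℂ) • (loop (p i j) z s) := rfl
    rw [e3, e2, ← e1, ← hG]
    rfl
  rw [e4]
  exact h3

/-- **Loop theorem, injectivity**, over the circle. -/
theorem bott_inj {P Q : Matrix ι ι R} (hP : P * P = P) (hQ : Q * Q = Q)
    (h : Conn (Lam P) (Lam Q)) : ∃ (κ : Type) (_ : Fintype κ) (_ : DecidableEq κ),
      MvN (Matrix.fromBlocks P 0 0 (1 : Matrix κ κ R))
        (Matrix.fromBlocks Q 0 0 (1 : Matrix κ κ R)) := by
  obtain ⟨γ, hγ⟩ := h
  let F : Matrix ι ι C(Circle, C(I, R)) := Matrix.of fun i j =>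
    flip1 ⟨fun t => γ t i j, (continuous_apply_apply i j).comp γ.continuous⟩
  have hFev : ∀ z t, evM t (evM z F) = evM z (γ t) := fun z t => rfl
  have hF : IsUnit F := by
    rw [isUnit_iff_pt]
    intro z t
    rw [hFev]
    exact (isUnit_iff_evM _).1 (hγ t) z
  obtain ⟨N, p, hpu, hp⟩ := exists_laurent2 hF
  obtain ⟨κ, i1, i2, hκ⟩ := nu_X_pow_smul (R := R) (ι := ι) N
  refine ⟨κ, i1, i2, ?_⟩
  have key : ∀ (φ : C(I, R) →A[ℂ] R) (s : I) (_ : ∀ a, φ a = a s) {E : Matrix ι ι R}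
      (_ : E * E = E) (_ : γ s = Lam E) {l : Type} [Fintype l] [DecidableEq l] {e : Matrix l l R}
      (_ : e * e = e) (_ : NuRel (p.map (Polynomial.mapRingHom (φ : C(I, R) →+* R))) e),
      MvN (Matrix.fromBlocks E 0 0 (1 : Matrix κ κ R)) e := by
    intro φ s hφ E hE hs l _ _ e he hne
    have hE1 : Matrix.fromBlocks E 0 0 (1 : Matrix κ κ R) * Matrix.fromBlocks E 0 0 1 =
        Matrix.fromBlocks E 0 0 1 := by
      rw [Matrix.fromBlocks_multiply]
      simp [hE]
    have hLE : IsUnit (loopM (ppl (1 - E) E)) := by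
      rw [loopM_idem]
      exact isUnit_Lam hE
    refine nu_line (p := (X : R[X]) ^ N • ppl (1 - E) E) (fun t => ?_) hE1 he
      (hκ hLE hE (nu_idem hE)) hne
    rw [loopM_X_pow_smul, loopM_idem, ← hs]
    exact isUnit_eval (hp t) s φ hφ (fun i j z => rfl)
  obtain ⟨l0, _, _, e0, he0, hn0⟩ := nu_exists _ (isUnit_loopM_map (pathAlg R).φ0 p hpu)
  obtain ⟨l1, _, _, e1, he1, hn1⟩ := nu_exists _ (isUnit_loopM_map (pathAlg R).φ1 p hpu)
  have h01 : MvN e0 e1 := nu_path (pathAlg R) hpu he0 he1 hn0 hn1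
  have hM0 := key (pathAlg R).φ0 0 (fun _ => rfl) hP γ.source he0 hn0
  have hM1 := key (pathAlg R).φ1 1 (fun _ => rfl) hQ γ.target he1 hn1
  have hP1 : Matrix.fromBlocks P 0 0 (1 : Matrix κ κ R) * Matrix.fromBlocks P 0 0 1 =
      Matrix.fromBlocks P 0 0 1 := by
    rw [Matrix.fromBlocks_multiply]
    simp [hP]
  have hQ1 : Matrix.fromBlocks Q 0 0 (1 : Matrix κ κ R) * Matrix.fromBlocks Q 0 0 1 =
      Matrix.fromBlocks Q 0 0 1 := by
    rw [Matrix.fromBlocks_multiply]
    simp [hQ]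
  exact (hM0.trans hP1 he1 h01).trans hP1 hQ1 hM1.symm

/-- **Loop theorem, injectivity**, over `LoopAlg`. -/
theorem bott_inj_loop {P Q : Matrix ι ι R} (hP : P * P = P) (hQ : Q * Q = Q)
    (h : JoinedIn {M | IsUnit M} (LamL P) (LamL Q)) :
    ∃ (κ : Type) (_ : Fintype κ) (_ : DecidableEq κ),
      MvN (Matrix.fromBlocks P 0 0 (1 : Matrix κ κ R))
        (Matrix.fromBlocks Q 0 0 (1 : Matrix κ κ R)) := by
  rw [← map_Lam, ← map_Lam, joinedIn_theta_iff] at h
  exact bott_inj hP hQ h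

/-- **Loop theorem, injectivity**, conclusion in `K0`. -/
theorem bott_inj_cls {P Q : Matrix ι ι R} (hP : P * P = P) (hQ : Q * Q = Q)
    (h : Conn (Lam P) (Lam Q)) : K357.K0.cls P = K357.K0.cls Q := by
  obtain ⟨κ, i1, i2, u, v, h1, h2⟩ := bott_inj hP hQ h
  have h11 : (1 : Matrix κ κ R) * 1 = 1 := by simp
  have e1 := K357.K0.cls_eq (K357.idem_sum hP h11) (K357.idem_sum hQ h11) ⟨u, v, h1, h2⟩
  rw [K357.K0.cls_sum hP h11, K357.K0.cls_sum hQ h11] at e1
  exact add_right_cancel e1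

end

end Crest.Agent.R204.BottInj313
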