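import Crest.Agent.R204.Bridge_369
import Crest.Agent.R204.BottInj_313

/-!
# Row 204, block H: Bott periodicity for augmented commutative Banach algebras, helper369
-/

set_option autoImplicit false
set_option linter.unusedSectionVars false
set_option linter.unusedSimpArgs false

open Matrix Topology
open scoped unitInterval
open Crest.Agent.R204.K357 Crest.Agent.R204.Clutch369 Crest.Agent.R204.BottLoop313

namespace Crest.Agent.R204.BottK369

noncomputable section

open Crest.Agent.R204.Bott671 (evM evM_apply Conn pl cM zc zc_apply evM_mul)

universe u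

variable (A : Type u) [NormedCommRing A] [NormedAlgebra ℂ A] [CompleteSpace A]

theorem loopS : LoopS A := by
  intro n _ _ u hu
  obtain ⟨N, m, P, c, hP, hc, h⟩ := BottSurj313.bott_surj hu
  refine ⟨N, Fin m, inferInstance, inferInstance, P, c, hP, hc, ?_⟩
  have e : pl (1 - P) P = Bott671.Lam P := by
    rw [Bott671.Lam, pl, add_comm]
  rw [e]
  exact h

theorem loopI : LoopI A := by
  intro n _ _ p q hp hq h
  have e : ∀ P : Matrix n n A, pl (1 - P) P = Bott671.Lam P := fun P => by
    rw [Bott671.Lam, pl, add_comm]
  rw [e, e] at h
  exact BottInj313.bott_inj_cls hp hq h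

theorem bottS : BottS A := bottS_of_loopS (loopS A)

theorem bottI : BottI A := bottI_of_loopI (loopI A)

end

end Crest.Agent.R204.BottK369
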