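import Crest.Agent.R204.LineT3_357
import Crest.Agent.R204.BottFin_369

/-!
# Row 204, block H: Adams operations and Bott periodicity (helper357), part 4

* `map_incl2_Bott` (T3): the image of `Bott ε c` in `K0 (LA (LA A))` is `(c - ε_* c) * b_T`.
* `bT_injective`: `c * b_T = 0 → c = 0` (unconditional, `A` complete).
* `psi_Bott`: `psi p (Bott ε c) = p * Bott ε (psi p c)` for reduced `c`; `psi_Bott_eigen`.
* `map_incl2_inj`: `incl2` is injective on reduced `K`-theory.
-/

set_option autoImplicit false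
set_option linter.unusedSectionVars false
set_option linter.unusedSimpArgs false

open Matrix Topology
open scoped unitInterval Kronecker
open Crest.Agent.R204.K357 Crest.Agent.R204.BottLoop313 Crest.Agent.R204.Clutch369
open Crest.Agent.R204.BottK369

namespace Crest.Agent.R204.LineT357

noncomputable section

section inj

variable (A : Type*) [NormedCommRing A] [NormedAlgebra ℂ A] [CompleteSpace A]

/-- the uniqueness half of the loop theorem in the form used here -/
theorem bottI : LineT357.BottI A := by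
  intro ι _ _ p q hp hq h
  obtain ⟨κ, i1, i2, hm⟩ := BottInj313.bott_inj_loop (P := p) (Q := q) hp hq (by
    have e1 : (lamU hp).val = BottSurj313.LamL p := by
      rw [lamU_val, BottSurj313.LamL]
      congr 1
      ext i j : 2
      by_cases hij : i = j
      · subst hij; simp [Matrix.one_apply]; rfl
      · simp [Matrix.one_apply_ne hij]; rfl
    have e2 : (lamU hq).val = BottSurj313.LamL q := by
      rw [lamU_val, BottSurj313.LamL]
      congr 1
      ext i j : 2
      by_cases hij : i = j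
      · subst hij; simp [Matrix.one_apply]; rfl
      · simp [Matrix.one_apply_ne hij]; rfl
    rw [e1, e2] at h
    exact h)
  have h11 : (1 : Matrix κ κ A) * 1 = 1 := by simp
  have e1 := K0.cls_eq (idem_sum hp h11) (idem_sum hq h11) hm
  rw [K0.cls_sum hp h11, K0.cls_sum hq h11] at e1
  exact add_right_cancel e1

variable {A}

/-- **injectivity of `c ↦ c * b_T`** -/
theorem bT_injective (c : K0 A)
    (h : K0.map ((cc : A →ₐ[ℂ] LA (LA A)) : A →+* LA (LA A)) c * bT A = 0) : c = 0 :=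
  bT_inj (bottI A) c h

end inj

section T3

variable {A : Type} [NormedCommRing A] [NormedAlgebra ℂ A] [CompleteSpace A]
variable {ε : A →ₐ[ℂ] ℂ}
variable {n m k l : Type} [Fintype n] [DecidableEq n] [Fintype m] [DecidableEq m]
  [Fintype k] [DecidableEq k] [Fintype l] [DecidableEq l]

theorem dL_inv (g : (Matrix n n A)ˣ) : dL g⁻¹ = -dL g := by
  have h := dL_mul g g⁻¹
  rw [mul_inv_cancel, dL_one] at h
  exact (neg_eq_of_add_eq_zero_right h.symm).symm

theorem lamU_ev {q : Matrix n n A} (hq : q * q = q) (t : I) :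
    (lamU hq).val.map (LA.ev t) = Lz (zz t) q := by
  rw [lamU_val, Lz]
  ext i j
  rw [Matrix.map_apply, Matrix.add_apply, Matrix.add_apply, map_add]
  congr 1
  · rw [Matrix.smul_apply, Matrix.smul_apply, smul_eq_mul, map_mul]
    change algebraMap ℂ A (circPt t : ℂ) * q i j = (circPt t : ℂ) • q i j
    rw [Algebra.smul_def]
  · rw [Matrix.sub_apply, Matrix.sub_apply, map_sub]
    congr 1
    by_cases h : i = j
    · subst h; simp
    · simp [Matrix.one_apply_ne h]

theorem lamU_inv_ev {q : Matrix n n A} (hq : q * q = q) (t : I) :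
    (lamU hq).inv.map (LA.ev t) = Lz (zi t) q := by
  rw [lamU_inv, Lz]
  ext i j
  rw [Matrix.map_apply, Matrix.add_apply, Matrix.add_apply, map_add]
  congr 1
  · rw [Matrix.smul_apply, Matrix.smul_apply, smul_eq_mul, map_mul]
    change algebraMap ℂ A (((circPt t)⁻¹ : Circle) : ℂ) * q i j =
      (((circPt t)⁻¹ : Circle) : ℂ) • q i j
    rw [Algebra.smul_def]
  · rw [Matrix.sub_apply, Matrix.sub_apply, map_sub]
    congr 1
    by_cases h : i = j
    · subst h; simp
    · simp [Matrix.one_apply_ne h]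

theorem umap_be {p : Matrix n n A} (hp : p * p = p) :
    umap (incl1 ε) (ruU (be (ε := ε) p hp)) = lamU hp * (lamU (sc_idem (ε := ε) hp))⁻¹ := by
  refine Units.ext (matL_ext fun t => ?_)
  rw [Units.val_mul, evL_mul, lamU_ev]
  have h1 : ((lamU (sc_idem (ε := ε) hp))⁻¹ : (Matrix n n (LA A))ˣ).val.map (LA.ev t) =
      Lz (zi t) (sc ε p) := lamU_inv_ev (sc_idem (ε := ε) hp) t
  rw [h1]
  exact be_ev p hp t

/-- **T3**, on classes -/
theorem map_incl2_Bott_cls {p : Matrix n n A} (hp : p * p = p) :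
    K0.map ((incl2 ε : SigA (Sig.aug ε) →ₐ[ℂ] LA (LA A)) : SigA (Sig.aug ε) →+* LA (LA A))
      (Bott ε (K0.cls p)) =
    (K0.map ((cc : A →ₐ[ℂ] LA (LA A)) : A →+* LA (LA A)) (K0.cls p) -
      K0.map ((cc : A →ₐ[ℂ] LA (LA A)) : A →+* LA (LA A))
        (K0.map (algebraMap ℂ A) (K0.map (ε : A →+* ℂ) (K0.cls p)))) * bT A := by
  rw [Bott_cls hp, map_incl2_d, umap_be, dL_mul, dL_inv, dL_lamU, dL_lamU, cls_sc hp]
  ring

/-- **T3** -/
theorem map_incl2_Bott (x : K0 A) :
    K0.map ((incl2 ε : SigA (Sig.aug ε) →ₐ[ℂ] LA (LA A)) : SigA (Sig.aug ε) →+* LA (LA A))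
      (Bott ε x) =
    (K0.map ((cc : A →ₐ[ℂ] LA (LA A)) : A →+* LA (LA A)) x -
      K0.map ((cc : A →ₐ[ℂ] LA (LA A)) : A →+* LA (LA A))
        (K0.map (algebraMap ℂ A) (K0.map (ε : A →+* ℂ) x))) * bT A := by
  induction x using K0.ind with
  | _ n m e f he hf =>
    rw [map_sub, map_sub, map_incl2_Bott_cls he, map_incl2_Bott_cls hf, map_sub, map_sub, map_sub,
      map_sub]
    ring

theorem map_incl2_Bott_red (x : K0 A) (hx : K0.map (ε : A →+* ℂ) x = 0) :
    K0.map ((incl2 ε : SigA (Sig.aug ε) →ₐ[ℂ] LA (LA A)) : SigA (Sig.aug ε) →+* LA (LA A))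
      (Bott ε x) = K0.map ((cc : A →ₐ[ℂ] LA (LA A)) : A →+* LA (LA A)) x * bT A := by
  rw [map_incl2_Bott, hx, map_zero, map_zero, sub_zero]

/-- **Adams operations and Bott periodicity** -/
theorem psi_Bott (p : ℕ) [Fact p.Prime] (x : K0 A)
    (hx : K0.map (ε : A →+* ℂ) x = 0) :
    psi p (SigA (Sig.aug ε)) (Bott ε x) = p * Bott ε (psi p A x) := by
  have hpx : K0.map (ε : A →+* ℂ) (psi p A x) = 0 := by
    rw [← psi_map (p := p) ε x, hx, map_zero]
  have haug : K0.map ((Sig.aug (Sig.aug ε) : SigA (Sig.aug ε) →ₐ[ℂ] ℂ) :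
      SigA (Sig.aug ε) →+* ℂ) (psi p (SigA (Sig.aug ε)) (Bott ε x)) = 0 := by
    have h1 := psi_map (p := p) (Sig.aug (Sig.aug ε) : SigA (Sig.aug ε) →ₐ[ℂ] ℂ) (Bott ε x)
    rw [← h1]
    have h2 := aug_Bott (ε := ε) x
    rw [h2, map_zero]
  obtain ⟨y, hy, hyx⟩ := Bott_surj (bottS A) _ haug
  have h1 := map_incl2_Bott_red y hy
  rw [hyx] at h1
  have h2 := psi_map (p := p) (incl2 ε : SigA (Sig.aug ε) →ₐ[ℂ] LA (LA A)) (Bott ε x)
  rw [← h2, map_incl2_Bott_red x hx, map_mul, psi_map (p := p) (cc : A →ₐ[ℂ] LA (LA A)) x,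
    psi_bT] at h1
  have h3 : K0.map ((cc : A →ₐ[ℂ] LA (LA A)) : A →+* LA (LA A)) (p * psi p A x - y) * bT A = 0 := by
    rw [map_sub, sub_mul, ← h1, K0.map_mul']
    have : K0.map ((cc : A →ₐ[ℂ] LA (LA A)) : A →+* LA (LA A)) (p : K0 A) = p := by
      rw [← K0.mapRing_apply, map_natCast]
    rw [this]
    ring
  have h4 := sub_eq_zero.1 (bT_injective _ h3)
  rw [← hyx, ← h4]
  have h5 : (p : K0 A) * psi p A x = p • psi p A x := by rw [nsmul_eq_mul]
  rw [h5, map_nsmul]
  exact nsmul_eq_mul p (Bott ε (psi p A x) : K0 (SigA (Sig.aug ε)))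

/-- the eigenvalue form: if `psi p x = c x` then `psi p (Bott x) = p c (Bott x)`. -/
theorem psi_Bott_eigen (p : ℕ) [Fact p.Prime] (x : K0 A)
    (hx : K0.map (ε : A →+* ℂ) x = 0) (c : ℕ) (hc : psi p A x = c * x) :
    psi p (SigA (Sig.aug ε)) (Bott ε x) = ((p * c : ℕ) : K0 (SigA (Sig.aug ε))) * Bott ε x := by
  have h5 : (c : K0 A) * x = c • x := by rw [nsmul_eq_mul]
  rw [psi_Bott p x hx, hc, h5, map_nsmul, Nat.cast_mul, mul_assoc]
  congr 1
  exact nsmul_eq_mul c (Bott ε x : K0 (SigA (Sig.aug ε)))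

/-- products of two Bott classes vanish on the torus -/
theorem map_incl2_mul (x y : K0 A) (hx : K0.map (ε : A →+* ℂ) x = 0)
    (hy : K0.map (ε : A →+* ℂ) y = 0) :
    K0.map ((incl2 ε : SigA (Sig.aug ε) →ₐ[ℂ] LA (LA A)) : SigA (Sig.aug ε) →+* LA (LA A))
      (Bott ε x) *
    K0.map ((incl2 ε : SigA (Sig.aug ε) →ₐ[ℂ] LA (LA A)) : SigA (Sig.aug ε) →+* LA (LA A))
      (Bott ε y) = 0 := by
  rw [map_incl2_Bott_red x hx, map_incl2_Bott_red y hy]
  have : ∀ a b c : K0 (LA (LA A)), a * c * (b * c) = a * b * (c * c) := fun a b c => by ring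
  rw [this, bT_sq, mul_zero]

/-- `incl2` is injective on reduced `K`-theory -/
theorem map_incl2_inj (y : K0 (SigA (Sig.aug ε)))
    (hy : K0.map ((Sig.aug (Sig.aug ε) : SigA (Sig.aug ε) →ₐ[ℂ] ℂ) : SigA (Sig.aug ε) →+* ℂ) y = 0)
    (h : K0.map ((incl2 ε : SigA (Sig.aug ε) →ₐ[ℂ] LA (LA A)) : SigA (Sig.aug ε) →+* LA (LA A)) y
      = 0) : y = 0 := by
  obtain ⟨x, hx, rfl⟩ := Bott_surj (bottS A) y hy
  rw [map_incl2_Bott_red x hx] at h
  rw [bT_injective x h, map_zero]

end T3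

end

end Crest.Agent.R204.LineT357
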