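import Crest.Agent.R204.BottFin_369
import Crest.Agent.R204.KPt_472
import Crest.Agent.R204.Ex5_837

/-!
# Row 204, block H: consequences of periodicity, helper369

* `glc_path` : `GL_n(ℂ)` is path connected;
* `k1Triv_of` : `K̃(SigA ε) = 0` implies 837's `K1Triv A`;
* `kn_sig_fst` : `K̃(SigA (fst : ℂ × ℂ → ℂ)) = 0`; `kz_fst` : `K̃(ℂ × ℂ) = ℤ`;
* `KZ.bott`, `KN.bott` : periodicity.
-/

set_option autoImplicit false
set_option linter.unusedSectionVars false
set_option linter.unusedSimpArgs false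

open Matrix Topology
open scoped unitInterval
open Crest.Agent.R204.K357 Crest.Agent.R204.Clutch369 Crest.Agent.R204.BottLoop313

namespace Crest.Agent.R204.BottK369

noncomputable section

universe u v

section glc

variable {n : Type} [Fintype n] [DecidableEq n]

open Polynomial in
/-- `GL_n(ℂ)` is path connected -/
theorem glc_path (c : Matrix n n ℂ) (h : IsUnit c) :
    ∃ γ : I → Matrix n n ℂ, Continuous γ ∧ (∀ t, IsUnit (γ t)) ∧ γ 0 = 1 ∧ γ 1 = c := by
  let P : ℂ[X] := Matrix.det ((1 - X : ℂ[X]) • (1 : Matrix n n ℂ[X]) + (X : ℂ[X]) • c.map C)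
  have hP : ∀ z : ℂ, P.eval z = ((1 - z) • (1 : Matrix n n ℂ) + z • c).det := by
    intro z
    have h1 : P.eval z = (Polynomial.evalRingHom z) P := rfl
    rw [h1, RingHom.map_det]
    congr 1
    ext i j
    by_cases hij : i = j <;> simp [hij, Matrix.one_apply] <;> ring
  have hP0 : P.eval 0 ≠ 0 := by
    rw [hP]
    simp
  have hP1 : P.eval 1 ≠ 0 := by
    rw [hP]
    simpa using ((Matrix.isUnit_iff_isUnit_det _).1 h).ne_zero
  have hne : P ≠ 0 := by
    rintro h0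
    rw [h0] at hP0
    simp at hP0
  have hS : (P.rootSet ℂ).Countable := (P.rootSet_finite ℂ).countable
  have hmem : ∀ z : ℂ, z ∉ P.rootSet ℂ ↔ P.eval z ≠ 0 := by
    intro z
    rw [Polynomial.mem_rootSet]
    simp [hne]
  have hpc := hS.isPathConnected_compl_of_one_lt_rank (E := ℂ) (by
    rw [Complex.rank_real_complex]; norm_num)
  obtain ⟨δ, hδ⟩ := hpc.joinedIn 0 ((hmem 0).2 hP0) 1 ((hmem 1).2 hP1)
  refine ⟨fun t => (1 - δ t) • (1 : Matrix n n ℂ) + δ t • c, ?_, fun t => ?_, ?_, ?_⟩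
  · have := δ.continuous
    fun_prop
  · rw [Matrix.isUnit_iff_isUnit_det, isUnit_iff_ne_zero, ← hP]
    exact (hmem _).1 (hδ t)
  · simp
  · simp

end glc

section k1

variable {A : Type u} [NormedRing A] [NormedAlgebra ℂ A] [CompleteSpace A]
variable {ε : A →ₐ[ℂ] ℂ}

/-- reduced `K` is zero -/
def KN {A : Type u} [NormedRing A] [NormedAlgebra ℂ A] (ε : A →ₐ[ℂ] ℂ) : Prop :=
  ∀ x : K0 A, K0.map (ε : A →+* ℂ) x = 0 → x = 0

/-- reduced `K` is infinite cyclic, generated by `b` -/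
def KZ {A : Type u} [NormedRing A] [NormedAlgebra ℂ A] (ε : A →ₐ[ℂ] ℂ) (b : K0 A) : Prop :=
  K0.map (ε : A →+* ℂ) b = 0 ∧ (∀ x : K0 A, K0.map (ε : A →+* ℂ) x = 0 → ∃ n : ℤ, x = n • b) ∧
    ∀ n : ℤ, n • b = 0 → n = 0

/-- **`K̃(ΣA) = 0` implies that invertible matrices over `A` are stably joined to `1`** -/
theorem k1Triv_of (h : KN (Sig.aug ε)) : Ex837.K1Triv A := by
  intro n g g' h1 h2
  have c1 : g.map ε * g'.map ε = 1 := by
    rw [← eps_mul, h1, Matrix.map_one _ (map_zero _) (map_one _)]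
  have c2 : g'.map ε * g.map ε = 1 := by
    rw [← eps_mul, h2, Matrix.map_one _ (map_zero _) (map_one _)]
  let r : RU ε (Fin n) :=
    { u := g * io A (g'.map ε)
      v := io A (g.map ε) * g'
      uv := by
        calc g * io A (g'.map ε) * (io A (g.map ε) * g') = g * (io A (g'.map ε) * io A (g.map ε)) * g' := by
              simp only [Matrix.mul_assoc]
          _ = 1 := by rw [← io_mul, c2, io_one, Matrix.mul_one, h1]
      vu := by
        calc io A (g.map ε) * g' * (g * io A (g'.map ε)) = io A (g.map ε) * (g' * g) * io A (g'.map ε) := by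
              simp only [Matrix.mul_assoc]
          _ = 1 := by rw [h2, Matrix.mul_one, ← io_mul, c1, io_one]
      eu := by rw [eps_mul, io_map, c1] }
  obtain ⟨M, α, β, cα, cβ, αβ, βα, α0, α1, eα⟩ := jn_of_d r (h _ (aug_d r))
  obtain ⟨γ, cγ, uγ, γ0, γ1⟩ := glc_path (g.map ε) ⟨⟨g.map ε, g'.map ε, c1, c2⟩, rfl⟩
  refine ⟨M, fun t => α t * fromBlocks (io A (γ t)) 0 0 1, ?_, fun t => ?_, ?_, ?_⟩
  · refine cα.matrix_mul (Continuous.matrix_fromBlocks ?_ continuous_const continuous_const continuous_const)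
    unfold io
    exact cγ.matrix_map (continuous_algebraMap ℂ A)
  · refine IsUnit.mul ⟨⟨α t, β t, αβ t, βα t⟩, rfl⟩ ?_
    obtain ⟨w, hw⟩ := uγ t
    have w1 : γ t * (w⁻¹ : (Matrix (Fin n) (Fin n) ℂ)ˣ) = 1 := by rw [← hw, Units.mul_inv]
    have w2 : (w⁻¹ : (Matrix (Fin n) (Fin n) ℂ)ˣ) * γ t = 1 := by rw [← hw, Units.inv_mul]
    refine ⟨⟨fromBlocks (io A (γ t)) 0 0 1,
      fromBlocks (io A ((w⁻¹ : (Matrix (Fin n) (Fin n) ℂ)ˣ) : Matrix (Fin n) (Fin n) ℂ)) 0 0 1, ?_, ?_⟩, rfl⟩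
    · simp only [fromBlocks_multiply, Matrix.zero_mul, Matrix.mul_zero, add_zero, zero_add,
        Matrix.one_mul]
      rw [← io_mul, w1, io_one, fromBlocks_one]
    · simp only [fromBlocks_multiply, Matrix.zero_mul, Matrix.mul_zero, add_zero, zero_add,
        Matrix.one_mul]
      rw [← io_mul, w2, io_one, fromBlocks_one]
  · simp only
    rw [α0, γ0, io_one, fromBlocks_one, Matrix.mul_one]
    rfl
  · simp only
    rw [α1, γ1]
    change fromBlocks (g * io A (g'.map ε)) 0 0 1 * fromBlocks (io A (g.map ε)) 0 0 1 = fromBlocks g 0 0 1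
    simp only [fromBlocks_multiply, Matrix.zero_mul, Matrix.mul_zero, add_zero, zero_add,
        Matrix.one_mul]
    rw [Matrix.mul_assoc, ← io_mul, c2, io_one, Matrix.mul_one]

theorem KN.of_equiv {B : Type v} [NormedRing B] [NormedAlgebra ℂ B] {δ : B →ₐ[ℂ] ℂ} (h : KN ε)
    (φ : A ≃ₐ[ℂ] B) (hφ : ∀ a, δ (φ a) = ε a) : KN δ := by
  intro x hx
  have h1 : K0.map (φ.symm : B →+* A) x = 0 := by
    apply h
    rw [← K0.map_comp]
    rw [← hx]
    congr 2
    ext b
    change ε (φ.symm b) = δ b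
    rw [← hφ, AlgEquiv.apply_symm_apply]
  have h2 := congrArg (K0.map (φ : A →+* B)) h1
  rw [← K0.map_comp, map_zero] at h2
  have : (φ : A →+* B).comp (φ.symm : B →+* A) = RingHom.id B := by
    ext b
    exact φ.apply_symm_apply b
  rwa [this, K0.map_id] at h2

theorem KZ.of_equiv {B : Type v} [NormedRing B] [NormedAlgebra ℂ B] {δ : B →ₐ[ℂ] ℂ} {b : K0 A}
    (h : KZ ε b) (φ : A ≃ₐ[ℂ] B) (hφ : ∀ a, δ (φ a) = ε a) : KZ δ (K0.map (φ : A →+* B) b) := by
  have e1 : (φ : A →+* B).comp (φ.symm : B →+* A) = RingHom.id B := by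
    ext b
    exact φ.apply_symm_apply b
  have e2 : (φ.symm : B →+* A).comp (φ : A →+* B) = RingHom.id A := by
    ext b
    exact φ.symm_apply_apply b
  have e3 : (δ : B →+* ℂ).comp (φ : A →+* B) = (ε : A →+* ℂ) := by
    ext a
    exact hφ a
  have e4 : (ε : A →+* ℂ).comp (φ.symm : B →+* A) = (δ : B →+* ℂ) := by
    rw [← e3, RingHom.comp_assoc, e1, RingHom.comp_id]
  refine ⟨?_, fun x hx => ?_, fun n hn => ?_⟩
  · rw [← K0.map_comp, e3]
    exact h.1
  · obtain ⟨n, hn⟩ := h.2.1 (K0.map (φ.symm : B →+* A) x) (by rw [← K0.map_comp, e4]; exact hx)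
    refine ⟨n, ?_⟩
    rw [← map_zsmul, ← hn, ← K0.map_comp, e1, K0.map_id]
  · apply h.2.2
    have := congrArg (K0.map (φ.symm : B →+* A)) hn
    rwa [map_zsmul, ← K0.map_comp, e2, K0.map_id, map_zero] at this

end k1

section per

variable {A : Type u} [NormedCommRing A] [NormedAlgebra ℂ A] [CompleteSpace A]
variable {ε : A →ₐ[ℂ] ℂ}

theorem KN.bott (h : KN ε) : KN (Sig.aug (Sig.aug ε)) := by
  intro y hy
  obtain ⟨x, hx, rfl⟩ := Bott_surj (bottS A) y hy
  rw [h x hx, map_zero]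

theorem KZ.bott {b : K0 A} (h : KZ ε b) : KZ (Sig.aug (Sig.aug ε)) (Bott ε b) := by
  refine ⟨aug_Bott b, fun y hy => ?_, fun n hn => ?_⟩
  · obtain ⟨x, hx, rfl⟩ := Bott_surj (bottS A) y hy
    obtain ⟨n, rfl⟩ := h.2.1 x hx
    exact ⟨n, map_zsmul _ _ _⟩
  · rw [← map_zsmul] at hn
    refine h.2.2 n (Bott_inj (bottI A) _ ?_ hn)
    rw [map_zsmul, h.1, smul_zero]

end per

section base

/-- the base point of `ℂ × ℂ` -/
abbrev fst0 : (ℂ × ℂ) →ₐ[ℂ] ℂ := AlgHom.fst ℂ ℂ ℂ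

/-- pairing of matrices -/
def prM {n m : Type} (x y : Matrix n m ℂ) : Matrix n m (ℂ × ℂ) := Matrix.of fun i j => (x i j, y i j)

theorem prM_fst {n m : Type} (x y : Matrix n m ℂ) : (prM x y).map Prod.fst = x := rfl
theorem prM_snd {n m : Type} (x y : Matrix n m ℂ) : (prM x y).map Prod.snd = y := rfl

theorem pr_ext {n m : Type} {x y : Matrix n m (ℂ × ℂ)} (h1 : x.map Prod.fst = y.map Prod.fst)
    (h2 : x.map Prod.snd = y.map Prod.snd) : x = y := by
  ext i j : 1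
  exact Prod.ext (congrFun (congrFun h1 i) j) (congrFun (congrFun h2 i) j)

theorem prM_mul {n m k : Type} [Fintype m] (x y : Matrix n m ℂ) (x' y' : Matrix m k ℂ) :
    prM x y * prM x' y' = prM (x * x') (y * y') := by
  refine pr_ext ?_ ?_
  · ext i j
    simp [prM, Matrix.mul_apply, Prod.fst_sum]
  · ext i j
    simp [prM, Matrix.mul_apply, Prod.snd_sum]

theorem prM_one {n : Type} [DecidableEq n] : prM (1 : Matrix n n ℂ) 1 = 1 := by
  refine pr_ext ?_ ?_
  · rw [prM_fst, Matrix.map_one _ rfl rfl]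
  · rw [prM_snd, Matrix.map_one _ rfl rfl]

/-- **`K̃(S¹) = 0`** -/
theorem kn_sig_fst : KN (Sig.aug fst0) := by
  intro y hy
  obtain ⟨r, g, rfl⟩ := exists_d y hy
  let c : Matrix (Fin r) (Fin r) ℂ := g.u.map Prod.snd
  let c' : Matrix (Fin r) (Fin r) ℂ := g.v.map Prod.snd
  have hc : c * c' = 1 := by
    have : (g.u * g.v).map (RingHom.snd ℂ ℂ) = g.u.map (RingHom.snd ℂ ℂ) * g.v.map (RingHom.snd ℂ ℂ) :=
      Matrix.map_mul (f := RingHom.snd ℂ ℂ)
    rw [g.uv, Matrix.map_one _ (map_zero _) (map_one _)] at this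
    exact this.symm
  have hc' : c' * c = 1 := by
    have : (g.v * g.u).map (RingHom.snd ℂ ℂ) = g.v.map (RingHom.snd ℂ ℂ) * g.u.map (RingHom.snd ℂ ℂ) :=
      Matrix.map_mul (f := RingHom.snd ℂ ℂ)
    rw [g.vu, Matrix.map_one _ (map_zero _) (map_one _)] at this
    exact this.symm
  obtain ⟨γ, cγ, uγ, γ0, γ1⟩ := glc_path c ⟨⟨c, c', hc, hc'⟩, rfl⟩
  have cγ' : Continuous fun t => (γ t)⁻¹ := continuous_inv_matrix cγ uγ
  have hd : ∀ t, IsUnit (γ t).det := fun t => (Matrix.isUnit_iff_isUnit_det _).1 (uγ t)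
  have hp : ∀ {f : I → Matrix (Fin r) (Fin r) ℂ}, Continuous f → Continuous fun t => prM 1 (f t) := by
    intro f hf
    exact continuous_matrix fun i j => continuous_const.prodMk (hf.matrix_elem i j)
  have hj : Jn fst0 (RU.one : RU fst0 (Fin r)) g := by
    refine ⟨fun t => prM 1 (γ t), fun t => prM 1 (γ t)⁻¹, hp cγ, hp cγ', fun t => ?_, fun t => ?_, ?_, ?_,
      fun t => ?_⟩
    · rw [prM_mul, Matrix.mul_nonsing_inv _ (hd t), Matrix.one_mul, prM_one]
    · rw [prM_mul, Matrix.nonsing_inv_mul _ (hd t), Matrix.one_mul, prM_one]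
    · simp only
      rw [γ0, prM_one]
      rfl
    · simp only
      rw [γ1]
      refine pr_ext ?_ ?_
      · rw [prM_fst]
        exact g.eu.symm
      · rfl
    · exact prM_fst _ _
  rw [← hj.d_eq, d_one]

/-- the generator `(0, 1)` -/
def e0 : Matrix Unit Unit (ℂ × ℂ) := prM 0 1

theorem e0_idem : e0 * e0 = e0 := by
  rw [e0, prM_mul]
  simp

/-- **`K̃(S⁰) = ℤ`** -/
theorem kz_fst : KZ fst0 (K0.cls e0) := by
  refine ⟨?_, fun x hx => ?_, fun n hn => ?_⟩
  · rw [K0.map_cls _ e0_idem]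
    have : e0.map ((fst0 : (ℂ × ℂ) →ₐ[ℂ] ℂ) : (ℂ × ℂ) →+* ℂ) = 0 := rfl
    rw [this, K0.cls_zero]
  · obtain ⟨n, m, e, he, rfl⟩ := K0.exists_rep_one x
    let e1 : Matrix (Fin n) (Fin n) ℂ := e.map (RingHom.fst ℂ ℂ)
    let e2 : Matrix (Fin n) (Fin n) ℂ := e.map (RingHom.snd ℂ ℂ)
    have h1 : e1 * e1 = e1 := idem_map _ he
    have h2 : e2 * e2 = e2 := idem_map _ he
    obtain ⟨r1, u1, v1, uv1, vu1⟩ := H472.exists_MvN_one e1 h1
    obtain ⟨r2, u2, v2, uv2, vu2⟩ := H472.exists_MvN_one e2 h2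
    have e12 : e = prM e1 e2 := pr_ext rfl rfl
    let f1 : Matrix (Fin r1) (Fin r1) (ℂ × ℂ) := prM 1 0
    let f2 : Matrix (Fin r2) (Fin r2) (ℂ × ℂ) := prM 0 1
    have hf1 : f1 * f1 = f1 := by simp only [f1]; rw [prM_mul]; simp
    have hf2 : f2 * f2 = f2 := by simp only [f2]; rw [prM_mul]; simp
    have hmvn : MvN e (fromBlocks f1 0 0 f2) := by
      refine ⟨prM (fromCols u1 0) (fromCols 0 u2), prM (fromRows v1 0) (fromRows 0 v2), ?_, ?_⟩
      · rw [prM_mul, fromCols_mul_fromRows, fromCols_mul_fromRows, e12, uv1, uv2]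
        simp
      · rw [prM_mul, fromRows_mul_fromCols, fromRows_mul_fromCols, vu1, vu2]
        refine pr_ext ?_ ?_
        · rw [prM_fst, fromBlocks_map, prM_fst, prM_fst]
          simp
        · rw [prM_snd, fromBlocks_map, prM_snd, prM_snd]
          simp
    -- classes of the constant idempotents
    have hk : ∀ r : ℕ, K0.cls (prM (0 : Matrix (Fin r) (Fin r) ℂ) 1) = r • K0.cls e0 := by
      intro r
      induction r with
      | zero =>
        rw [zero_smul]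
        have : prM (0 : Matrix (Fin 0) (Fin 0) ℂ) 1 = 0 := Matrix.ext fun i => i.elim0
        rw [this, K0.cls_zero]
      | succ r ih =>
        have hi : (prM (0 : Matrix (Fin r) (Fin r) ℂ) 1) * prM 0 1 = prM 0 1 := by rw [prM_mul]; simp
        have hi' : (prM (0 : Matrix (Fin (r+1)) (Fin (r+1)) ℂ) 1) * prM 0 1 = prM 0 1 := by
          rw [prM_mul]; simp
        rw [succ_nsmul, ← ih, ← K0.cls_sum hi e0_idem]
        let φ : Fin (r + 1) ≃ (Fin r ⊕ Unit) := Fintype.equivOfCardEq (by simp)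
        refine K0.cls_of_equiv hi' φ fun i j => ?_
        have key : ∀ a b : Fin r ⊕ Unit, fromBlocks (prM (0 : Matrix (Fin r) (Fin r) ℂ) 1) 0 0 e0 a b =
            (0, if a = b then 1 else 0) := by
          rintro (a | a) (b | b) <;> simp [e0, prM, Matrix.one_apply] <;> rfl
        rw [key]
        simp [prM, Matrix.one_apply, φ.injective.eq_iff]
    have hk1 : ∀ r : ℕ, K0.cls (prM (1 : Matrix (Fin r) (Fin r) ℂ) 0) = (r : K0 (ℂ × ℂ)) - r • K0.cls e0 := by
      intro r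
      rw [eq_sub_iff_add_eq, ← hk, ← K0.cls_one_fin]
      have hi1 : (prM (1 : Matrix (Fin r) (Fin r) ℂ) 0) * prM 1 0 = prM 1 0 := by rw [prM_mul]; simp
      have hi2 : (prM (0 : Matrix (Fin r) (Fin r) ℂ) 1) * prM 0 1 = prM 0 1 := by rw [prM_mul]; simp
      rw [← K0.cls_add hi1 hi2]
      · congr 1
        refine pr_ext ?_ ?_
        · ext i j
          simp [prM, Matrix.one_apply, apply_ite Prod.fst]
        · ext i j
          simp [prM, Matrix.one_apply, apply_ite Prod.snd]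
      · rw [prM_mul]
        simp
        rfl
      · rw [prM_mul]
        simp
        rfl
    have hcls : K0.cls e = (r1 : K0 (ℂ × ℂ)) - r1 • K0.cls e0 + r2 • K0.cls e0 := by
      rw [K0.cls_eq he (idem_sum hf1 hf2) hmvn, K0.cls_sum hf1 hf2, hk, hk1]
    have hr : (r1 : ℤ) - m = 0 := by
      have h3 : K0.map ((fst0 : (ℂ × ℂ) →ₐ[ℂ] ℂ) : (ℂ × ℂ) →+* ℂ) (K0.cls e0) = 0 := by
        rw [K0.map_cls _ e0_idem]
        have : e0.map ((fst0 : (ℂ × ℂ) →ₐ[ℂ] ℂ) : (ℂ × ℂ) →+* ℂ) = 0 := rfl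
        rw [this, K0.cls_zero]
      have h4 : ∀ r : ℕ, K0.map ((fst0 : (ℂ × ℂ) →ₐ[ℂ] ℂ) : (ℂ × ℂ) →+* ℂ) (r : K0 (ℂ × ℂ)) = (r : K0 ℂ) := by
        intro r
        rw [← K0.cls_one_fin, map_one_cls, K0.cls_one_fin]
      rw [map_sub, hcls, map_add, map_sub, map_nsmul, map_nsmul, h3, h4, map_one_cls,
        K0.cls_one_fin, smul_zero, smul_zero, sub_zero, add_zero] at hx
      apply H472.K0_field_intCast_inj (F := ℂ)
      push_cast
      exact hx
    have hrm : r1 = m := by omega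
    refine ⟨(r2 : ℤ) - r1, ?_⟩
    rw [hcls, K0.cls_one_fin, hrm, sub_smul, natCast_zsmul, natCast_zsmul]
    abel
  · have h1 := congrArg (K0.map (RingHom.snd ℂ ℂ)) hn
    rw [map_zsmul, K0.map_cls _ e0_idem, map_zero] at h1
    have h2 : e0.map (RingHom.snd ℂ ℂ) = 1 := rfl
    rw [h2, K0.cls_one_unit, zsmul_one] at h1
    exact H472.K0_field_intCast_inj h1

end base

end

end Crest.Agent.R204.BottK369
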