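import Crest.Agent.R204.Banach_313
import Crest.Agent.R204.KDefs_357

/-!
# Row 204, block H: clutching for augmented Banach algebras (T1), helper369

`(A, ε)` augmented complex Banach algebra, `Sig ε = {a ∈ C(I,A) | a 0 = a 1 = ε(a 0)·1, ε(a t) = ε(a 0)}`
(functions on the reduced suspension).
* `RU ε n`      : reduced units, `u v = 1 = v u`, `ε u = 1`.
* `d : RU ε n → K0 (Sig ε)` clutching; additive, homotopy invariant.
* `exists_d`    : its image is the kernel of the augmentation.
* `jn_of_d`     : `d g = 0` implies `g ⊕ 1_M` joined to `1`.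
-/

set_option autoImplicit false
set_option linter.unusedSectionVars false
set_option linter.unusedSimpArgs false

open Matrix Topology
open scoped unitInterval
open Crest.Agent.R204.K357

namespace Crest.Agent.R204.Clutch369

noncomputable section

variable {A : Type*} [NormedRing A] [NormedAlgebra ℂ A]

/-- functions on the reduced suspension -/
def Sig (ε : A →ₐ[ℂ] ℂ) : Subalgebra ℂ C(I, A) where
  carrier := {a | a 0 = algebraMap ℂ A (ε (a 0)) ∧ a 1 = algebraMap ℂ A (ε (a 0)) ∧
    ∀ t, ε (a t) = ε (a 0)}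
  mul_mem' := by
    rintro a b ⟨ha0, ha1, hat⟩ ⟨hb0, hb1, hbt⟩
    refine ⟨?_, ?_, fun t => ?_⟩
    · simp only [ContinuousMap.mul_apply, map_mul]
      rw [← ha0, ← hb0]
    · simp only [ContinuousMap.mul_apply, map_mul]
      rw [← ha1, ← hb1]
    · simp only [ContinuousMap.mul_apply, map_mul, hat t, hbt t]
  add_mem' := by
    rintro a b ⟨ha0, ha1, hat⟩ ⟨hb0, hb1, hbt⟩
    refine ⟨?_, ?_, fun t => ?_⟩
    · simp only [ContinuousMap.add_apply, map_add]
      rw [← ha0, ← hb0]
    · simp only [ContinuousMap.add_apply, map_add]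
      rw [← ha1, ← hb1]
    · simp only [ContinuousMap.add_apply, map_add, hat t, hbt t]
  algebraMap_mem' := by
    intro r
    refine ⟨?_, ?_, fun t => ?_⟩ <;> simp [Algebra.algebraMap_eq_smul_one]

variable {ε : A →ₐ[ℂ] ℂ}

theorem mem_Sig {a : C(I, A)} : a ∈ Sig ε ↔ a 0 = algebraMap ℂ A (ε (a 0)) ∧
    a 1 = algebraMap ℂ A (ε (a 0)) ∧ ∀ t, ε (a t) = ε (a 0) := Iff.rfl

theorem isClosed_Sig [CompleteSpace A] : IsClosed ((Sig ε : Subalgebra ℂ C(I, A)) : Set C(I, A)) := by
  have hε : Continuous ε := map_continuous ε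
  have e1 : ∀ t : I, Continuous fun a : C(I, A) => a t := fun t => continuous_eval_const t
  have h0 : Continuous fun a : C(I, A) => algebraMap ℂ A (ε (a 0)) :=
    (continuous_algebraMap ℂ A).comp (hε.comp (e1 0))
  have : ((Sig ε : Subalgebra ℂ C(I, A)) : Set C(I, A)) =
      ({a | a 0 = algebraMap ℂ A (ε (a 0))} ∩ {a | a 1 = algebraMap ℂ A (ε (a 0))}) ∩
        {a | ∀ t, ε (a t) = ε (a 0)} := by
    ext a
    simp only [SetLike.mem_coe, mem_Sig, Set.mem_inter_iff, Set.mem_ofPred_eq, and_assoc]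
  rw [this]
  refine (IsClosed.inter (isClosed_eq (e1 0) h0) (isClosed_eq (e1 1) h0)).inter ?_
  have : {a : C(I, A) | ∀ t, ε (a t) = ε (a 0)} = ⋂ t, {a : C(I, A) | ε (a t) = ε (a 0)} := by
    ext a; simp
  rw [this]
  exact isClosed_iInter fun t => isClosed_eq (hε.comp (e1 t)) (hε.comp (e1 0))

/-- the algebra `Sig ε` as a type with frozen instances -/
def SigA (ε : A →ₐ[ℂ] ℂ) : Type _ := Sig ε

instance : NormedRing (SigA ε) := inferInstanceAs (NormedRing (Sig ε))
instance : NormedAlgebra ℂ (SigA ε) := inferInstanceAs (NormedAlgebra ℂ (Sig ε))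
instance [CompleteSpace A] : CompleteSpace (SigA ε) :=
  (isClosed_Sig (ε := ε)).completeSpace_coe

/-- the underlying path -/
def SigA.fn (a : SigA ε) : C(I, A) := Subtype.val a

theorem SigA.prop (a : SigA ε) : a.fn ∈ Sig ε := Subtype.property a

theorem SigA.ext {a b : SigA ε} (h : ∀ t, a.fn t = b.fn t) : a = b :=
  Subtype.ext (ContinuousMap.ext h)

/-- constructor -/
def SigA.mk (f : C(I, A)) (h : f ∈ Sig ε) : SigA ε := ⟨f, h⟩

@[simp] theorem SigA.mk_fn (f : C(I, A)) (h : f ∈ Sig ε) : (SigA.mk f h).fn = f := rfl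

variable (ε) in
/-- evaluation -/
def Sig.ev (t : I) : SigA ε →ₐ[ℂ] A where
  toFun a := a.fn t
  map_one' := rfl
  map_mul' _ _ := rfl
  map_zero' := rfl
  map_add' _ _ := rfl
  commutes' r := by
    change (algebraMap ℂ C(I, A) r) t = _
    simp [Algebra.algebraMap_eq_smul_one]

@[simp] theorem Sig.ev_apply (t : I) (a : SigA ε) : Sig.ev ε t a = a.fn t := rfl

variable (ε) in
/-- augmentation of `Sig ε` -/
def Sig.aug : SigA ε →ₐ[ℂ] ℂ := ε.comp (Sig.ev ε 0)

theorem Sig.aug_apply (a : SigA ε) : Sig.aug ε a = ε (a.fn 0) := rfl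

section mat

variable {n m k : Type*}

/-- matrices over `Sig ε` from paths of matrices -/
def mkM (F : I → Matrix n m A) (hF : Continuous F) (c : Matrix n m ℂ)
    (h0 : F 0 = c.map (algebraMap ℂ A)) (h1 : F 1 = c.map (algebraMap ℂ A))
    (hε : ∀ t, (F t).map ε = c) : Matrix n m (SigA ε) := fun i j =>
  SigA.mk ⟨fun t => F t i j, hF.matrix_elem i j⟩ (by
    have e : ∀ t, ε (F t i j) = c i j := fun t => by
      have := congrFun (congrFun (hε t) i) j
      simpa using this
    refine ⟨?_, ?_, fun t => ?_⟩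
    · simp only [ContinuousMap.coe_mk, e]
      rw [h0]; rfl
    · simp only [ContinuousMap.coe_mk, e]
      rw [h1]; rfl
    · simp only [ContinuousMap.coe_mk, e])

@[simp] theorem mkM_ev (F : I → Matrix n m A) (hF : Continuous F) (c : Matrix n m ℂ)
    (h0 : F 0 = c.map (algebraMap ℂ A)) (h1 : F 1 = c.map (algebraMap ℂ A))
    (hε : ∀ t, (F t).map ε = c) (t : I) : (mkM F hF c h0 h1 hε).map (Sig.ev ε t) = F t := rfl

theorem mat_ext {M N : Matrix n m (SigA ε)} (h : ∀ t, M.map (Sig.ev ε t) = N.map (Sig.ev ε t)) :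
    M = N := by
  ext i j
  exact SigA.ext fun t => congrFun (congrFun (h t) i) j

theorem mat_continuous (M : Matrix n m (SigA ε)) : Continuous fun t => M.map (Sig.ev ε t) := by
  refine continuous_matrix fun i j => ?_
  exact (M i j).fn.continuous

theorem mat_aug (M : Matrix n m (SigA ε)) (t : I) :
    (M.map (Sig.ev ε t)).map ε = M.map (Sig.aug ε) := by
  ext i j
  exact (M i j).prop.2.2 t

theorem mat_zero (M : Matrix n m (SigA ε)) :
    M.map (Sig.ev ε 0) = (M.map (Sig.aug ε)).map (algebraMap ℂ A) := by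
  ext i j
  exact (M i j).prop.1

theorem mat_one (M : Matrix n m (SigA ε)) :
    M.map (Sig.ev ε 1) = (M.map (Sig.aug ε)).map (algebraMap ℂ A) := by
  ext i j
  exact (M i j).prop.2.1

end mat

section units

variable (ε) in
/-- reduced units -/
structure RU (n : Type*) [Fintype n] [DecidableEq n] where
  u : Matrix n n A
  v : Matrix n n A
  uv : u * v = 1
  vu : v * u = 1
  eu : u.map ε = 1

variable {n m k l : Type*} [Fintype n] [DecidableEq n] [Fintype m] [DecidableEq m]
  [Fintype k] [DecidableEq k] [Fintype l] [DecidableEq l]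

theorem RU.ev (g : RU ε n) : g.v.map ε = 1 := by
  have h : (g.v * g.u).map ε = g.v.map ε * g.u.map ε := by
    rw [Matrix.map_mul]
  rw [g.vu, g.eu, Matrix.mul_one] at h
  rw [← h]
  simp

/-- inverse -/
def RU.inv (g : RU ε n) : RU ε n := ⟨g.v, g.u, g.vu, g.uv, g.ev⟩

/-- unit element -/
def RU.one : RU ε n := ⟨1, 1, by simp, by simp, by simp⟩

/-- product -/
def RU.mul (g h : RU ε n) : RU ε n where
  u := g.u * h.u
  v := h.v * g.v
  uv := by rw [Matrix.mul_assoc, ← Matrix.mul_assoc h.u, h.uv, Matrix.one_mul, g.uv]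
  vu := by rw [Matrix.mul_assoc, ← Matrix.mul_assoc g.v, g.vu, Matrix.one_mul, h.vu]
  eu := by rw [Matrix.map_mul, g.eu, h.eu, Matrix.mul_one]

/-- block sum -/
def RU.sum (g : RU ε n) (h : RU ε m) : RU ε (n ⊕ m) where
  u := fromBlocks g.u 0 0 h.u
  v := fromBlocks g.v 0 0 h.v
  uv := by simp [fromBlocks_multiply, g.uv, h.uv]
  vu := by simp [fromBlocks_multiply, g.vu, h.vu]
  eu := by
    rw [fromBlocks_map, g.eu, h.eu]
    simp

variable (ε) in
/-- joined by a path of reduced units -/
def Jn (g h : RU ε n) : Prop :=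
  ∃ a b : I → Matrix n n A, Continuous a ∧ Continuous b ∧ (∀ t, a t * b t = 1) ∧
    (∀ t, b t * a t = 1) ∧ a 0 = g.u ∧ a 1 = h.u ∧ ∀ t, (a t).map ε = 1

theorem inv_eq_of {u v v' : Matrix n n A} (h : v * u = 1) (h' : u * v' = 1) : v = v' := by
  calc v = v * (u * v') := by rw [h', Matrix.mul_one]
    _ = v' := by rw [← Matrix.mul_assoc, h, Matrix.one_mul]

theorem Jn.refl (g : RU ε n) : Jn ε g g :=
  ⟨fun _ => g.u, fun _ => g.v, continuous_const, continuous_const, fun _ => g.uv, fun _ => g.vu,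
    rfl, rfl, fun _ => g.eu⟩

theorem Jn.symm {g h : RU ε n} (H : Jn ε g h) : Jn ε h g := by
  obtain ⟨a, b, ca, cb, ab, ba, a0, a1, ea⟩ := H
  exact ⟨fun t => a (σ t), fun t => b (σ t), ca.comp unitInterval.continuous_symm,
    cb.comp unitInterval.continuous_symm, fun t => ab _, fun t => ba _, by simpa using a1,
    by simpa using a0, fun t => ea _⟩

/-- rotations -/
def cs (s : I) : ℂ := (Real.cos (Real.pi / 2 * s) : ℂ)
/-- rotations -/
def sn (s : I) : ℂ := (Real.sin (Real.pi / 2 * s) : ℂ)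

theorem continuous_cs : Continuous cs := by unfold cs; fun_prop
theorem continuous_sn : Continuous sn := by unfold sn; fun_prop

@[simp] theorem cs_zero : cs 0 = 1 := by simp [cs]
@[simp] theorem sn_zero : sn 0 = 0 := by simp [sn]
@[simp] theorem cs_one : cs 1 = 0 := by simp [cs]
@[simp] theorem sn_one : sn 1 = 1 := by simp [sn]

theorem cs_sq (s : I) : cs s * cs s + sn s * sn s = 1 := by
  unfold cs sn
  norm_cast
  nlinarith [Real.sin_sq_add_cos_sq (Real.pi / 2 * s)]

variable (A n) in
/-- rotation matrix -/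
def rot (s : I) : Matrix (n ⊕ n) (n ⊕ n) A :=
  fromBlocks (cs s • 1) (-(sn s • 1))
    (sn s • 1) (cs s • 1)

variable (A n) in
/-- inverse rotation matrix -/
def rot' (s : I) : Matrix (n ⊕ n) (n ⊕ n) A :=
  fromBlocks (cs s • 1) (sn s • 1)
    (-(sn s • 1)) (cs s • 1)

theorem rot_mul (s : I) : rot A n s * rot' A n s = 1 := by
  unfold rot rot'
  rw [fromBlocks_multiply, ← fromBlocks_one]
  congr 1
  · simp [smul_smul, ← add_smul, cs_sq]
  · simp [smul_smul, mul_comm (sn s)]
  · simp [smul_smul, mul_comm (sn s)]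
  · simp [smul_smul, ← add_smul, add_comm (sn s * sn s), cs_sq]

theorem rot'_mul (s : I) : rot' A n s * rot A n s = 1 := by
  unfold rot rot'
  rw [fromBlocks_multiply, ← fromBlocks_one]
  congr 1
  · simp [smul_smul, ← add_smul, cs_sq]
  · simp [smul_smul, mul_comm (sn s)]
  · simp [smul_smul, mul_comm (sn s)]
  · simp [smul_smul, ← add_smul, add_comm (sn s * sn s), cs_sq]

theorem continuous_rot : Continuous (rot A n) := by
  unfold rot
  have h1 := continuous_cs
  have h2 := continuous_sn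
  refine Continuous.matrix_fromBlocks ?_ ?_ ?_ ?_
  · exact h1.smul continuous_const
  · exact (h2.smul continuous_const).neg
  · exact h2.smul continuous_const
  · exact h1.smul continuous_const

theorem continuous_rot' : Continuous (rot' A n) := by
  unfold rot'
  have h1 := continuous_cs
  have h2 := continuous_sn
  refine Continuous.matrix_fromBlocks ?_ ?_ ?_ ?_
  · exact h1.smul continuous_const
  · exact h2.smul continuous_const
  · exact (h2.smul continuous_const).neg
  · exact h1.smul continuous_const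

theorem rot_zero : rot A n 0 = 1 := by simp [rot]
theorem rot'_zero : rot' A n 0 = 1 := by simp [rot']

/-- `W_s`: path from `1` to `h ⊕ h⁻¹` -/
def W (h h' : Matrix n n A) (s : I) : Matrix (n ⊕ n) (n ⊕ n) A :=
  fromBlocks h 0 0 1 * rot A n s * (fromBlocks h' 0 0 1 * rot' A n s)

/-- inverse of `W_s` -/
def W' (h h' : Matrix n n A) (s : I) : Matrix (n ⊕ n) (n ⊕ n) A :=
  rot A n s * fromBlocks h 0 0 1 * (rot' A n s * fromBlocks h' 0 0 1)

theorem W_mul (h h' : Matrix n n A) (e : h * h' = 1) (e' : h' * h = 1) (s : I) :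
    W h h' s * W' h h' s = 1 := by
  have a1 : (fromBlocks h' 0 0 1 : Matrix (n ⊕ n) (n ⊕ n) A) * fromBlocks h 0 0 1 = 1 := by
    simp [fromBlocks_multiply, e']
  have a2 : (fromBlocks h 0 0 1 : Matrix (n ⊕ n) (n ⊕ n) A) * fromBlocks h' 0 0 1 = 1 := by
    simp [fromBlocks_multiply, e]
  calc W h h' s * W' h h' s = fromBlocks h 0 0 1 * (rot A n s * (fromBlocks h' 0 0 1 *
        ((rot' A n s * rot A n s) * (fromBlocks h 0 0 1 * (rot' A n s * fromBlocks h' 0 0 1))))) := by
        unfold W W'; simp only [Matrix.mul_assoc]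
    _ = fromBlocks h 0 0 1 * (rot A n s * ((fromBlocks h' 0 0 1 * fromBlocks h 0 0 1) *
        (rot' A n s * fromBlocks h' 0 0 1))) := by
        rw [rot'_mul, Matrix.one_mul]; simp only [Matrix.mul_assoc]
    _ = fromBlocks h 0 0 1 * ((rot A n s * rot' A n s) * fromBlocks h' 0 0 1) := by
        rw [a1, Matrix.one_mul]; simp only [Matrix.mul_assoc]
    _ = 1 := by rw [rot_mul, Matrix.one_mul, a2]

theorem W'_mul (h h' : Matrix n n A) (e : h * h' = 1) (e' : h' * h = 1) (s : I) :
    W' h h' s * W h h' s = 1 := by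
  have a1 : (fromBlocks h' 0 0 1 : Matrix (n ⊕ n) (n ⊕ n) A) * fromBlocks h 0 0 1 = 1 := by
    simp [fromBlocks_multiply, e']
  have a2 : (fromBlocks h 0 0 1 : Matrix (n ⊕ n) (n ⊕ n) A) * fromBlocks h' 0 0 1 = 1 := by
    simp [fromBlocks_multiply, e]
  calc W' h h' s * W h h' s = rot A n s * (fromBlocks h 0 0 1 * (rot' A n s *
        ((fromBlocks h' 0 0 1 * fromBlocks h 0 0 1) * (rot A n s * (fromBlocks h' 0 0 1 * rot' A n s))))) := by
        unfold W W'; simp only [Matrix.mul_assoc]
    _ = rot A n s * (fromBlocks h 0 0 1 * ((rot' A n s * rot A n s) * (fromBlocks h' 0 0 1 * rot' A n s))) := by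
        rw [a1, Matrix.one_mul]; simp only [Matrix.mul_assoc]
    _ = rot A n s * ((fromBlocks h 0 0 1 * fromBlocks h' 0 0 1) * rot' A n s) := by
        rw [rot'_mul, Matrix.one_mul]; simp only [Matrix.mul_assoc]
    _ = 1 := by rw [a2, Matrix.one_mul, rot_mul]

theorem continuous_W (h h' : Matrix n n A) : Continuous (W h h') := by
  unfold W
  exact (continuous_const.matrix_mul continuous_rot).matrix_mul
    (continuous_const.matrix_mul continuous_rot')

theorem continuous_W' (h h' : Matrix n n A) : Continuous (W' h h') := by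
  unfold W'
  exact (continuous_rot.matrix_mul continuous_const).matrix_mul
    (continuous_rot'.matrix_mul continuous_const)

theorem W_zero (h h' : Matrix n n A) (e : h * h' = 1) : W h h' 0 = 1 := by
  simp [W, rot_zero, rot'_zero, fromBlocks_multiply, e]

theorem W'_zero (h h' : Matrix n n A) (e : h * h' = 1) : W' h h' 0 = 1 := by
  simp [W', rot_zero, rot'_zero, fromBlocks_multiply, e]

theorem W_one (h h' : Matrix n n A) : W h h' 1 = fromBlocks h 0 0 h' := by
  simp [W, rot, rot', fromBlocks_multiply]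

theorem W'_one (h h' : Matrix n n A) : W' h h' 1 = fromBlocks h' 0 0 h := by
  simp [W', rot, rot', fromBlocks_multiply]

theorem rot_map (s : I) : (rot A n s).map ε = rot ℂ n s := by
  unfold rot
  rw [fromBlocks_map]
  congr 1 <;> ext i j <;> by_cases h : i = j <;> simp [Matrix.one_apply, h, Algebra.algebraMap_eq_smul_one]

theorem rot'_map (s : I) : (rot' A n s).map ε = rot' ℂ n s := by
  unfold rot'
  rw [fromBlocks_map]
  congr 1 <;> ext i j <;> by_cases h : i = j <;> simp [Matrix.one_apply, h, Algebra.algebraMap_eq_smul_one]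

theorem W_map {h h' : Matrix n n A} (e : h.map ε = 1) (e' : h'.map ε = 1) (s : I) :
    (W h h' s).map ε = 1 := by
  unfold W
  rw [Matrix.map_mul, Matrix.map_mul, Matrix.map_mul, fromBlocks_map, fromBlocks_map, e, e', rot_map,
    rot'_map]
  simp [rot_mul]

theorem W'_map {h h' : Matrix n n A} (e : h.map ε = 1) (e' : h'.map ε = 1) (s : I) :
    (W' h h' s).map ε = 1 := by
  unfold W'
  rw [Matrix.map_mul, Matrix.map_mul, Matrix.map_mul, fromBlocks_map, fromBlocks_map, e, e', rot_map,
    rot'_map]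
  simp [rot_mul]

end units

end

end Crest.Agent.R204.Clutch369
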