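import Mathlib
import Crest.Agent.R204.Ex6_837
import Crest.Agent.R204.HDefs_472

/-!
# Row 204, block H (helper837): spheres inside tori

* `TA N` : functions on the cube `I^N` periodic in each variable (functions on the torus `T^N`);
* `SP N` : pairs `(c, f)`, `f` a function on `I^N` equal to `c` on the boundary (functions on the sphere
  `S^N = I^N / bd` with base point; `SP 0 = ℂ × ℂ`);
* `torus_inj` : `K0 (SP N) → K0 ℂ × K0 (TA N)` is injective.
-/

set_option autoImplicit false
set_option linter.unusedSectionVars false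

open scoped unitInterval Topology

noncomputable section

namespace Crest.Agent.R204.Bt837

open Ex837
open K357 (K0)

section

variable (N : Type) [DecidableEq N]

/-- functions on the torus -/
def TA : Subalgebra ℂ C(N → I, ℂ) where
  carrier := {f | ∀ x i, f (Function.update x i 0) = f (Function.update x i 1)}
  mul_mem' := by
    intro a b ha hb x i
    simp only [ContinuousMap.mul_apply, ha x i, hb x i]
  add_mem' := by
    intro a b ha hb x i
    simp only [ContinuousMap.add_apply, ha x i, hb x i]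
  algebraMap_mem' := fun _ _ _ => rfl

/-- functions on the pointed sphere `I^N / bd` -/
def SP : Subalgebra ℂ (ℂ × C(N → I, ℂ)) where
  carrier := {p | ∀ x ∈ Cube.boundary N, p.2 x = p.1}
  mul_mem' := by
    intro a b ha hb x hx
    simp only [Prod.fst_mul, Prod.snd_mul, ContinuousMap.mul_apply, ha x hx, hb x hx]
  add_mem' := by
    intro a b ha hb x hx
    simp only [Prod.fst_add, Prod.snd_add, ContinuousMap.add_apply, ha x hx, hb x hx]
  algebraMap_mem' := fun _ _ _ => rfl

/-- functions on the torus with the coordinates in `J` collapsed to the base point `p.1` -/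
def RJ (J : Finset N) : Subalgebra ℂ (ℂ × C(N → I, ℂ)) where
  carrier := {p | (∀ x i, p.2 (Function.update x i 0) = p.2 (Function.update x i 1)) ∧
    ∀ j ∈ J, ∀ x, p.2 (Function.update x j 0) = p.1}
  mul_mem' := by
    rintro a b ⟨ha, ha'⟩ ⟨hb, hb'⟩
    refine ⟨fun x i => ?_, fun j hj x => ?_⟩
    · simp only [Prod.snd_mul, ContinuousMap.mul_apply, ha x i, hb x i]
    · simp only [Prod.fst_mul, Prod.snd_mul, ContinuousMap.mul_apply, ha' j hj x, hb' j hj x]
  add_mem' := by
    rintro a b ⟨ha, ha'⟩ ⟨hb, hb'⟩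
    refine ⟨fun x i => ?_, fun j hj x => ?_⟩
    · simp only [Prod.snd_add, ContinuousMap.add_apply, ha x i, hb x i]
    · simp only [Prod.fst_add, Prod.snd_add, ContinuousMap.add_apply, ha' j hj x, hb' j hj x]
  algebraMap_mem' := fun _ => ⟨fun _ _ => rfl, fun _ _ _ => rfl⟩

/-- the functions in `RJ J` which do not depend on the coordinate `j` -/
def DJ (J : Finset N) (j : N) : Subalgebra ℂ (ℂ × C(N → I, ℂ)) where
  carrier := {p | p ∈ RJ N J ∧ ∀ x, p.2 (Function.update x j 0) = p.2 x}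
  mul_mem' := by
    rintro a b ⟨ha, ha'⟩ ⟨hb, hb'⟩
    refine ⟨mul_mem ha hb, fun x => ?_⟩
    simp only [Prod.snd_mul, ContinuousMap.mul_apply, ha' x, hb' x]
  add_mem' := by
    rintro a b ⟨ha, ha'⟩ ⟨hb, hb'⟩
    refine ⟨add_mem ha hb, fun x => ?_⟩
    simp only [Prod.snd_add, ContinuousMap.add_apply, ha' x, hb' x]
  algebraMap_mem' := fun r => ⟨Subalgebra.algebraMap_mem _ r, fun _ => rfl⟩

variable {N}

theorem mem_TA {f : C(N → I, ℂ)} :
    f ∈ TA N ↔ ∀ x i, f (Function.update x i 0) = f (Function.update x i 1) := Iff.rfl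

theorem mem_SP {p : ℂ × C(N → I, ℂ)} : p ∈ SP N ↔ ∀ x ∈ Cube.boundary N, p.2 x = p.1 := Iff.rfl

theorem mem_RJ {J : Finset N} {p : ℂ × C(N → I, ℂ)} : p ∈ RJ N J ↔
    (∀ x i, p.2 (Function.update x i 0) = p.2 (Function.update x i 1)) ∧
    ∀ j ∈ J, ∀ x, p.2 (Function.update x j 0) = p.1 := Iff.rfl

theorem mem_DJ {J : Finset N} {j : N} {p : ℂ × C(N → I, ℂ)} : p ∈ DJ N J j ↔
    p ∈ RJ N J ∧ ∀ x, p.2 (Function.update x j 0) = p.2 x := Iff.rfl

/-- the continuous map `x ↦ update x j 0` -/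
def upd (j : N) : C(N → I, N → I) :=
  ⟨fun x => Function.update x j 0, continuous_id.update j continuous_const⟩

@[simp] theorem upd_apply (j : N) (x : N → I) : upd j x = Function.update x j 0 := rfl

/-- the base point -/
def RJ.ev (J : Finset N) : RJ N J →ₐ[ℂ] ℂ := (AlgHom.fst ℂ ℂ C(N → I, ℂ)).comp (RJ N J).val

@[simp] theorem RJ.ev_apply (J : Finset N) (p : RJ N J) : RJ.ev J p = (p : ℂ × C(N → I, ℂ)).1 := rfl

/-- freezing a coordinate -/
def fr (J : Finset N) (j : N) (hj : j ∉ J) : RJ N J →ₐ[ℂ] DJ N J j :=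
  (((AlgHom.fst ℂ ℂ C(N → I, ℂ)).prod
    ((ContinuousMap.compRightAlgHom ℂ ℂ (upd j)).comp (AlgHom.snd ℂ ℂ C(N → I, ℂ)))).comp
    (RJ N J).val).codRestrict (DJ N J j) (by
      rintro ⟨p, hp1, hp2⟩
      refine ⟨⟨fun x i => ?_, fun i hi x => ?_⟩, fun x => ?_⟩
      · change p.2 (Function.update (Function.update x i 0) j 0) =
          p.2 (Function.update (Function.update x i 1) j 0)
        by_cases h : i = j
        · subst h; simp
        · rw [Function.update_comm h, Function.update_comm h]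
          exact hp1 _ _
      · change p.2 (Function.update (Function.update x i 0) j 0) = p.1
        have h : i ≠ j := fun h => hj (h ▸ hi)
        rw [Function.update_comm h]
        exact hp2 i hi _
      · change p.2 (Function.update (Function.update x j 0) j 0) = p.2 (Function.update x j 0)
        simp)

@[simp] theorem fr_fst (J : Finset N) (j : N) (hj : j ∉ J) (p : RJ N J) :
    ((fr J j hj p : DJ N J j) : ℂ × C(N → I, ℂ)).1 = (p : ℂ × C(N → I, ℂ)).1 := rfl

@[simp] theorem fr_snd (J : Finset N) (j : N) (hj : j ∉ J) (p : RJ N J) (x : N → I) :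
    ((fr J j hj p : DJ N J j) : ℂ × C(N → I, ℂ)).2 x =
      (p : ℂ × C(N → I, ℂ)).2 (Function.update x j 0) := rfl

/-- forgetting independence -/
def frs (J : Finset N) (j : N) : DJ N J j →ₐ[ℂ] RJ N J :=
  Subalgebra.inclusion (fun _ hp => hp.1)

theorem fr_frs (J : Finset N) (j : N) (hj : j ∉ J) (p : DJ N J j) :
    fr J j hj (frs J j p) = p := by
  refine Subtype.ext (Prod.ext rfl (ContinuousMap.ext fun x => ?_))
  exact p.2.2 x

theorem RJ_le {J J' : Finset N} (h : J ⊆ J') : RJ N J' ≤ RJ N J :=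
  fun _ hp => ⟨hp.1, fun j hj => hp.2 j (h hj)⟩

/-- the collapse square -/
def sqJ (J : Finset N) (j : N) (hj : j ∉ J) : Sq (RJ N (insert j J)) (RJ N J) ℂ (DJ N J j) where
  p1 := (Subalgebra.inclusion (RJ_le (Finset.subset_insert j J))).toRingHom
  p2 := (RJ.ev (insert j J)).toRingHom
  al := (fr J j hj).toRingHom
  be := algebraMap ℂ (DJ N J j)
  comm p := by
    refine Subtype.ext (Prod.ext rfl (ContinuousMap.ext fun x => ?_))
    exact p.2.2 j (Finset.mem_insert_self j J) x
  lift a c h := by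
    have h1 : (a : ℂ × C(N → I, ℂ)).1 = c :=
      congrArg (fun q : DJ N J j => (q : ℂ × C(N → I, ℂ)).1) h
    have h2 : ∀ x, (a : ℂ × C(N → I, ℂ)).2 (Function.update x j 0) = c := fun x =>
      congrArg (fun q : DJ N J j => (q : ℂ × C(N → I, ℂ)).2 x) h
    refine ⟨⟨(a : ℂ × C(N → I, ℂ)), a.2.1, ?_⟩, rfl, h1⟩
    intro i hi x
    rcases Finset.mem_insert.1 hi with rfl | hi
    · rw [h2, h1]
    · exact a.2.2 i hi x
  inj x y h1 _ := Subtype.ext (congrArg (fun q : RJ N J => (q : ℂ × C(N → I, ℂ))) h1)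

theorem RJ_inj (J : Finset N) : ∀ x : K0 (RJ N J),
    K0.map (A := RJ N J) (B := RJ N (∅ : Finset N)) (Subalgebra.inclusion (RJ_le (Finset.empty_subset J))).toRingHom x = 0 → x = 0 := by
  induction J using Finset.induction_on with
  | empty =>
    intro x hx
    have : (Subalgebra.inclusion (RJ_le (Finset.empty_subset (∅ : Finset N)))).toRingHom =
        RingHom.id _ := RingHom.ext fun p => rfl
    rw [this, K0.map_id] at hx
    exact hx
  | insert j J hj ih =>
    intro x hx
    refine (sqJ J j hj).K0_inj (stLift_of_section _ (frs J j).toRingHom (fr_frs J j hj)) ?_ ?_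
    · apply ih
      rw [← K0.map_comp]
      exact hx
    · have := congrArg (K0.map (RJ.ev (∅ : Finset N)).toRingHom) hx
      rw [← K0.map_comp, map_zero] at this
      exact this

/-- functions on the disjoint union of a point and the torus -/
def RJ.tor (J : Finset N) : RJ N J →ₐ[ℂ] TA N :=
  ((AlgHom.snd ℂ ℂ C(N → I, ℂ)).comp (RJ N J).val).codRestrict (TA N) (fun p => p.2.1)

theorem stLift_trivial {A C : Type*} [Ring A] [Ring C] [Subsingleton C] (φ : A →+* C) :
    StLift φ := by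
  intro n g g' _ _
  exact ⟨0, 1, 1, by simp, by simp, Matrix.ext fun i j => Subsingleton.elim _ _⟩

/-- the disjoint union square -/
def sqE : Sq (RJ N (∅ : Finset N)) ℂ (TA N) PUnit.{1} where
  p1 := (RJ.ev ∅).toRingHom
  p2 := (RJ.tor ∅).toRingHom
  al := { toFun := fun _ => PUnit.unit, map_one' := rfl, map_mul' := fun _ _ => rfl,
          map_zero' := rfl, map_add' := fun _ _ => rfl }
  be := { toFun := fun _ => PUnit.unit, map_one' := rfl, map_mul' := fun _ _ => rfl,
          map_zero' := rfl, map_add' := fun _ _ => rfl }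
  comm _ := rfl
  lift c f _ := ⟨⟨(c, f), f.2, fun _ h => absurd h (Finset.notMem_empty _)⟩, rfl, rfl⟩
  inj _ _ h1 h2 := Subtype.ext (Prod.ext h1 (congrArg (fun f : TA N => (f : C(N → I, ℂ))) h2))

theorem RJ_inj' (J : Finset N) (x : K0 (RJ N J)) (h1 : K0.map (A := RJ N J) (B := ℂ) (RJ.ev J).toRingHom x = 0)
    (h2 : K0.map (A := RJ N J) (B := TA N) (RJ.tor J).toRingHom x = 0) : x = 0 := by
  apply RJ_inj
  refine sqE.K0_inj (stLift_trivial _) ?_ ?_
  · rw [← K0.map_comp]
    exact h1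
  · rw [← K0.map_comp]
    exact h2

/-- base point of `SP N` -/
def SP.ev : SP N →ₐ[ℂ] ℂ := (AlgHom.fst ℂ ℂ C(N → I, ℂ)).comp (SP N).val

@[simp] theorem SP.ev_apply (p : SP N) : SP.ev p = (p : ℂ × C(N → I, ℂ)).1 := rfl

theorem mem_bd_upd0 (x : N → I) (i : N) : Function.update x i 0 ∈ Cube.boundary N :=
  ⟨i, Or.inl (by simp)⟩

theorem mem_bd_upd1 (x : N → I) (i : N) : Function.update x i 1 ∈ Cube.boundary N :=
  ⟨i, Or.inr (by simp)⟩

/-- functions on the sphere as functions on the torus -/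
def SP.tor : SP N →ₐ[ℂ] TA N :=
  ((AlgHom.snd ℂ ℂ C(N → I, ℂ)).comp (SP N).val).codRestrict (TA N)
    (fun p x i => by
      change (p : ℂ × C(N → I, ℂ)).2 _ = (p : ℂ × C(N → I, ℂ)).2 _
      rw [p.2 _ (mem_bd_upd0 x i), p.2 _ (mem_bd_upd1 x i)])

@[simp] theorem SP.tor_apply (p : SP N) (x : N → I) :
    ((SP.tor p : TA N) : C(N → I, ℂ)) x = (p : ℂ × C(N → I, ℂ)).2 x := rfl

variable [Fintype N]

theorem SP_eq : SP N = RJ N Finset.univ := by
  ext p
  rw [mem_SP, mem_RJ]
  constructor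
  · intro h
    exact ⟨fun x i => by rw [h _ (mem_bd_upd0 x i), h _ (mem_bd_upd1 x i)],
      fun j _ x => h _ (mem_bd_upd0 x j)⟩
  · rintro ⟨h1, h2⟩ x ⟨i, hi | hi⟩
    · have e : x = Function.update x i 0 := by rw [← hi]; simp
      rw [e, h2 i (Finset.mem_univ i)]
    · have e : x = Function.update x i 1 := by rw [← hi]; simp
      rw [e, ← h1, h2 i (Finset.mem_univ i)]

/-- **the sphere is detected in the torus** -/
theorem torus_inj (x : K0 (SP N)) (h1 : K0.map (A := SP N) (B := ℂ) (SP.ev : SP N →ₐ[ℂ] ℂ).toRingHom x = 0)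
    (h2 : K0.map (A := SP N) (B := TA N) (SP.tor : SP N →ₐ[ℂ] TA N).toRingHom x = 0) : x = 0 := by
  -- transport to `RJ univ`
  let f : SP N →ₐ[ℂ] RJ N Finset.univ := Subalgebra.inclusion (le_of_eq SP_eq)
  let g : RJ N Finset.univ →ₐ[ℂ] SP N := Subalgebra.inclusion (le_of_eq SP_eq.symm)
  have hgf : g.toRingHom.comp f.toRingHom = RingHom.id _ := RingHom.ext fun p => rfl
  have h3 : K0.map (A := SP N) (B := RJ N Finset.univ) f.toRingHom x = 0 := by
    apply RJ_inj'
    · rw [← K0.map_comp]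
      exact h1
    · rw [← K0.map_comp]
      exact h2
  have := congrArg (K0.map (A := RJ N Finset.univ) (B := SP N) g.toRingHom) h3
  rw [← K0.map_comp, hgf, K0.map_id, map_zero] at this
  exact this

theorem torus_ext {x y : K0 (SP N)}
    (h1 : K0.map (A := SP N) (B := ℂ) (SP.ev : SP N →ₐ[ℂ] ℂ).toRingHom x = K0.map (A := SP N) (B := ℂ) (SP.ev : SP N →ₐ[ℂ] ℂ).toRingHom y)
    (h2 : K0.map (A := SP N) (B := TA N) (SP.tor : SP N →ₐ[ℂ] TA N).toRingHom x =
      K0.map (A := SP N) (B := TA N) (SP.tor : SP N →ₐ[ℂ] TA N).toRingHom y) : x = y := by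
  rw [← sub_eq_zero]
  apply torus_inj
  · rw [map_sub, h1, sub_self]
  · rw [map_sub, h2, sub_self]

end

end Crest.Agent.R204.Bt837
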