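import Mathlib
import Crest.Agent.R204.SPT_837
import Crest.Agent.R204.Clutch_369
import Crest.Agent.R204.BottLoop_313

/-!
# Row 204, block H (helper837): the double suspension of the sphere algebra

* `LoopAlg.map`, `incL : SigA ε → LoopAlg A`, `incLL : SigA (Sig.aug ε) → LoopAlg (LoopAlg A)`,
  `cst2 : A → LoopAlg (LoopAlg A)`, `scal2 : LoopAlg (LoopAlg ℂ) → LoopAlg (LoopAlg A)`;
* `Phi m : SigA (Sig.aug (SP.ev : SP (Fin m) → ℂ)) ≃ SP (Fin (m+2))`;
* `Psi m : LoopAlg (LoopAlg (SP (Fin m))) → TA (Fin (m+2))`;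
* `Psi ∘ incLL = SP.tor ∘ Phi`, `Psi ∘ cst2 = pull ∘ SP.tor`, `Psi ∘ scal2 = pull ∘ tau`.
-/

set_option autoImplicit false
set_option linter.unusedSectionVars false

open scoped unitInterval Topology

noncomputable section

namespace Crest.Agent.R204.Bt837

open Ex837 BottLoop313 Clutch369
open K357 (K0)

section loops

variable {A B : Type*} [NormedRing A] [NormedAlgebra ℂ A] [NormedRing B] [NormedAlgebra ℂ B]

/-- functoriality of the loop algebra -/
def LoopAlg.map (φ : A →ₐ[ℂ] B) (hφ : Continuous φ) : LoopAlg A →ₐ[ℂ] LoopAlg B :=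
  ((AlgHom.compLeftContinuous ℂ φ hφ).comp (LoopAlg A).val).codRestrict (LoopAlg B)
    (fun a => congrArg φ a.2)

@[simp] theorem LoopAlg.map_apply (φ : A →ₐ[ℂ] B) (hφ : Continuous φ) (a : LoopAlg A) (t : I) :
    ((LoopAlg.map φ hφ a : LoopAlg B) : C(I, B)) t = φ ((a : C(I, A)) t) := rfl

theorem LoopAlg.continuous_map (φ : A →ₐ[ℂ] B) (hφ : Continuous φ) :
    Continuous (LoopAlg.map φ hφ) := by
  refine Continuous.subtype_mk ?_ _
  exact (ContinuousMap.continuous_postcomp ⟨φ, hφ⟩).comp continuous_subtype_val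

variable (ε : A →ₐ[ℂ] ℂ)

/-- the inclusion `SigA ε → LoopAlg A` -/
def incL : SigA ε →ₐ[ℂ] LoopAlg A where
  toFun a := ⟨a.fn, by rw [mem_LoopAlg]; exact a.prop.1.trans a.prop.2.1.symm⟩
  map_one' := rfl
  map_mul' _ _ := rfl
  map_zero' := rfl
  map_add' _ _ := rfl
  commutes' _ := rfl

@[simp] theorem incL_apply (a : SigA ε) (t : I) : ((incL ε a : LoopAlg A) : C(I, A)) t = a.fn t :=
  rfl

theorem continuous_incL : Continuous (incL ε) := by
  refine Continuous.subtype_mk ?_ _
  exact continuous_subtype_val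

/-- the inclusion `SigA (Sig.aug ε) → LoopAlg (LoopAlg A)` -/
def incLL : SigA (Sig.aug ε) →ₐ[ℂ] LoopAlg (LoopAlg A) :=
  (LoopAlg.map (incL ε) (continuous_incL ε)).comp (incL (Sig.aug ε))

@[simp] theorem incLL_apply (a : SigA (Sig.aug ε)) (s t : I) :
    ((((incLL ε a : LoopAlg (LoopAlg A)) : C(I, LoopAlg A)) s : LoopAlg A) : C(I, A)) t =
      (a.fn s).fn t := rfl

variable (A)

/-- double constants -/
def cst2 : A →ₐ[ℂ] LoopAlg (LoopAlg A) := (cst (A := LoopAlg A)).comp (cst (A := A))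

@[simp] theorem cst2_apply (a : A) (s t : I) :
    ((((cst2 A a : LoopAlg (LoopAlg A)) : C(I, LoopAlg A)) s : LoopAlg A) : C(I, A)) t = a := rfl

theorem continuous_ofId : Continuous (Algebra.ofId ℂ A) := continuous_algebraMap ℂ A

/-- scalar double loops -/
def scal2 : LoopAlg (LoopAlg ℂ) →ₐ[ℂ] LoopAlg (LoopAlg A) :=
  LoopAlg.map (LoopAlg.map (Algebra.ofId ℂ A) (continuous_ofId A))
    (LoopAlg.continuous_map _ _)

@[simp] theorem scal2_apply (a : LoopAlg (LoopAlg ℂ)) (s t : I) :
    ((((scal2 A a : LoopAlg (LoopAlg A)) : C(I, LoopAlg A)) s : LoopAlg A) : C(I, A)) t =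
      algebraMap ℂ A ((((a : C(I, LoopAlg ℂ)) s : LoopAlg ℂ) : C(I, ℂ)) t) := rfl

end loops

section pull

variable {M N : Type} [DecidableEq M] [DecidableEq N]

/-- pull back of torus functions along an embedding of coordinates -/
def pull (e : M ↪ N) : TA M →ₐ[ℂ] TA N :=
  ((ContinuousMap.compRightAlgHom ℂ ℂ
    (⟨fun x i => x (e i), continuous_pi fun i => continuous_apply _⟩ : C(N → I, M → I))).comp
      (TA M).val).codRestrict (TA N) (by
        intro f x i
        change (f : C(M → I, ℂ)) (fun j => Function.update x i 0 (e j)) =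
          (f : C(M → I, ℂ)) (fun j => Function.update x i 1 (e j))
        by_cases h : ∃ k, e k = i
        · obtain ⟨k, rfl⟩ := h
          have e1 : ∀ c : I, (fun j => Function.update x (e k) c (e j)) =
              Function.update (fun j => x (e j)) k c := by
            intro c
            ext1 j
            by_cases hj : j = k
            · subst hj; simp
            · rw [Function.update_of_ne hj, Function.update_of_ne (fun h => hj (e.injective h))]
          rw [e1, e1]
          exact f.2 _ _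
        · have e1 : ∀ c : I, (fun j => Function.update x i c (e j)) = fun j => x (e j) := by
            intro c
            ext1 j
            exact Function.update_of_ne (fun h' => h ⟨j, h'⟩) _ _
          rw [e1, e1])

@[simp] theorem pull_apply (e : M ↪ N) (f : TA M) (x : N → I) :
    ((pull e f : TA N) : C(N → I, ℂ)) x = (f : C(M → I, ℂ)) (fun i => x (e i)) := rfl

theorem pull_comp {L : Type} [DecidableEq L] (e : M ↪ N) (f : N ↪ L) :
    (pull f).toRingHom.comp (pull e).toRingHom = (pull (e.trans f)).toRingHom := rfl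

end pull

section values

variable {A : Type*} [NormedRing A] [NormedAlgebra ℂ A]

/-- values of a double loop -/
def LLv (F : LoopAlg (LoopAlg A)) (s t : I) : A := evL t (evL s F)

theorem LLv_continuous (F : LoopAlg (LoopAlg A)) : Continuous fun p : I × I => LLv F p.1 p.2 := by
  have h1 : Continuous fun p : I × I => ((evL p.1 F : LoopAlg A) : C(I, A)) :=
    continuous_subtype_val.comp ((F : C(I, LoopAlg A)).continuous.comp continuous_fst)
  exact h1.eval continuous_snd

theorem LLv_per1 (F : LoopAlg (LoopAlg A)) (t : I) : LLv F 0 t = LLv F 1 t :=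
  congrArg (fun g : LoopAlg A => evL t g) (mem_LoopAlg.1 F.2)

theorem LLv_per2 (F : LoopAlg (LoopAlg A)) (s : I) : LLv F s 0 = LLv F s 1 :=
  mem_LoopAlg.1 (evL s F).2

theorem LLv_ext {F G : LoopAlg (LoopAlg A)} (h : ∀ s t, LLv F s t = LLv G s t) : F = G :=
  Subtype.ext (ContinuousMap.ext fun s => Subtype.ext (ContinuousMap.ext fun t => h s t))

theorem LLv_mul (F G : LoopAlg (LoopAlg A)) (s t : I) : LLv (F * G) s t = LLv F s t * LLv G s t := rfl
theorem LLv_add (F G : LoopAlg (LoopAlg A)) (s t : I) : LLv (F + G) s t = LLv F s t + LLv G s t := rfl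
theorem LLv_one (s t : I) : LLv (1 : LoopAlg (LoopAlg A)) s t = 1 := rfl
theorem LLv_zero (s t : I) : LLv (0 : LoopAlg (LoopAlg A)) s t = 0 := rfl
theorem LLv_alg (r : ℂ) (s t : I) :
    LLv (algebraMap ℂ (LoopAlg (LoopAlg A)) r) s t = algebraMap ℂ A r := rfl

variable (ε : A →ₐ[ℂ] ℂ)

/-- values of a double suspension function -/
def SSv (F : SigA (Sig.aug ε)) (s t : I) : A := (F.fn s).fn t

variable {ε}

theorem SSv_continuous (F : SigA (Sig.aug ε)) : Continuous fun p : I × I => SSv ε F p.1 p.2 := by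
  have h1 : Continuous fun p : I × I => (F.fn p.1).fn :=
    continuous_subtype_val.comp (F.fn.continuous.comp continuous_fst)
  exact h1.eval continuous_snd

theorem SSv_ext {F G : SigA (Sig.aug ε)} (h : ∀ s t, SSv ε F s t = SSv ε G s t) : F = G :=
  SigA.ext fun s => SigA.ext fun t => h s t

/-- the augmentation -/
theorem SSv_aug (F : SigA (Sig.aug ε)) (s t : I) : ε (SSv ε F s t) = Sig.aug (Sig.aug ε) F := by
  have h1 : ε ((F.fn s).fn t) = ε ((F.fn s).fn 0) := (F.fn s).prop.2.2 t
  have h2 : Sig.aug ε (F.fn s) = Sig.aug ε (F.fn 0) := F.prop.2.2 s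
  exact h1.trans h2

theorem SSv_t0 (F : SigA (Sig.aug ε)) (s : I) :
    SSv ε F s 0 = algebraMap ℂ A (Sig.aug (Sig.aug ε) F) := by
  have h1 : (F.fn s).fn 0 = algebraMap ℂ A (ε ((F.fn s).fn 0)) := (F.fn s).prop.1
  have h2 : ε ((F.fn s).fn 0) = Sig.aug (Sig.aug ε) F := SSv_aug F s 0
  rw [← h2]
  exact h1

theorem SSv_t1 (F : SigA (Sig.aug ε)) (s : I) :
    SSv ε F s 1 = algebraMap ℂ A (Sig.aug (Sig.aug ε) F) := by
  have h1 : (F.fn s).fn 1 = algebraMap ℂ A (ε ((F.fn s).fn 0)) := (F.fn s).prop.2.1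
  have h2 : ε ((F.fn s).fn 0) = Sig.aug (Sig.aug ε) F := SSv_aug F s 0
  rw [← h2]
  exact h1

theorem SSv_s0 (F : SigA (Sig.aug ε)) (t : I) :
    SSv ε F 0 t = algebraMap ℂ A (Sig.aug (Sig.aug ε) F) := by
  have h1 : F.fn 0 = algebraMap ℂ (SigA ε) (Sig.aug ε (F.fn 0)) := F.prop.1
  have h2 : (F.fn 0).fn t = (algebraMap ℂ (SigA ε) (Sig.aug ε (F.fn 0))).fn t := by rw [← h1]
  exact h2

theorem SSv_s1 (F : SigA (Sig.aug ε)) (t : I) :
    SSv ε F 1 t = algebraMap ℂ A (Sig.aug (Sig.aug ε) F) := by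
  have h1 : F.fn 1 = algebraMap ℂ (SigA ε) (Sig.aug ε (F.fn 0)) := F.prop.2.1
  have h2 : (F.fn 1).fn t = (algebraMap ℂ (SigA ε) (Sig.aug ε (F.fn 0))).fn t := by rw [← h1]
  exact h2

theorem LLv_incLL (F : SigA (Sig.aug ε)) (s t : I) : LLv (incLL ε F) s t = SSv ε F s t := rfl

theorem LLv_cst2 (a : A) (s t : I) : LLv (cst2 A a) s t = a := rfl

theorem LLv_scal2 (f : LoopAlg (LoopAlg ℂ)) (s t : I) :
    LLv (scal2 A f) s t = algebraMap ℂ A (LLv f s t) := rfl

/-- construction of elements of the double suspension -/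
theorem exists_SS (F : C(I × I, A)) (c : ℂ) (h1 : ∀ t, F (0, t) = algebraMap ℂ A c)
    (h2 : ∀ t, F (1, t) = algebraMap ℂ A c) (h3 : ∀ s, F (s, 0) = algebraMap ℂ A c)
    (h4 : ∀ s, F (s, 1) = algebraMap ℂ A c) (h5 : ∀ s t, ε (F (s, t)) = c) :
    ∃ G : SigA (Sig.aug ε), ∀ s t, SSv ε G s t = F (s, t) := by
  have hm : ∀ s, F.curry s ∈ Sig ε := by
    intro s
    have e0 : ε (F.curry s 0) = c := h5 s 0
    refine ⟨?_, ?_, fun t => ?_⟩
    · rw [e0]; exact h3 s
    · rw [e0]; exact h4 s
    · rw [e0]; exact h5 s t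
  have hc : Continuous fun s => SigA.mk (F.curry s) (hm s) :=
    Continuous.subtype_mk F.curry.continuous _
  have e0 : Sig.aug ε (SigA.mk (F.curry 0) (hm 0)) = c := h5 0 0
  refine ⟨SigA.mk ⟨fun s => SigA.mk (F.curry s) (hm s), hc⟩ ⟨?_, ?_, fun s => ?_⟩, fun s t => rfl⟩
  · change SigA.mk (F.curry 0) (hm 0) = algebraMap ℂ (SigA ε) (Sig.aug ε (SigA.mk (F.curry 0) (hm 0)))
    rw [e0]
    exact SigA.ext fun t => h1 t
  · change SigA.mk (F.curry 1) (hm 1) = algebraMap ℂ (SigA ε) (Sig.aug ε (SigA.mk (F.curry 0) (hm 0)))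
    rw [e0]
    exact SigA.ext fun t => h2 t
  · exact (h5 s 0).trans (h5 0 0).symm

end values

/-- the torus function of a double loop -/
def tauF (f : LoopAlg (LoopAlg ℂ)) : C(Fin 2 → I, ℂ) :=
  ⟨fun x => LLv f (x 1) (x 0), by
    have h : Continuous fun x : Fin 2 → I => ((x 1, x 0) : I × I) :=
      (continuous_apply 1).prodMk (continuous_apply 0)
    exact (LLv_continuous f).comp h⟩

theorem tauF_mem (f : LoopAlg (LoopAlg ℂ)) : tauF f ∈ TA (Fin 2) := by
  intro x i
  change LLv f _ _ = LLv f _ _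
  fin_cases i
  · simp only [Fin.zero_eta, Fin.isValue, ne_eq, one_ne_zero, not_false_eq_true,
      Function.update_of_ne, Function.update_self]
    exact LLv_per2 f _
  · simp only [Fin.mk_one, Fin.isValue, ne_eq, zero_ne_one, not_false_eq_true,
      Function.update_of_ne, Function.update_self]
    exact LLv_per1 f _

/-- the torus algebra in two variables -/
def tau : LoopAlg (LoopAlg ℂ) →ₐ[ℂ] TA (Fin 2) where
  toFun f := ⟨tauF f, tauF_mem f⟩
  map_one' := rfl
  map_mul' _ _ := rfl
  map_zero' := rfl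
  map_add' _ _ := rfl
  commutes' _ := rfl

@[simp] theorem tau_apply (f : LoopAlg (LoopAlg ℂ)) (x : Fin 2 → I) :
    ((tau f : TA (Fin 2)) : C(Fin 2 → I, ℂ)) x = LLv f (x 1) (x 0) := rfl

section Psi

variable (m : ℕ)

/-- the first `m` coordinates -/
def lo (m : ℕ) : Fin m ↪ Fin (m + 2) := ⟨fun i => i.castSucc.castSucc, fun i j h => by
  simpa using h⟩

/-- the last two coordinates -/
def hi (m : ℕ) : Fin 2 ↪ Fin (m + 2) := ⟨fun i => Fin.natAdd m i, fun i j h => by
  simpa using h⟩

theorem hi_zero : hi m 0 = (Fin.last m).castSucc := rfl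
theorem hi_one : hi m 1 = Fin.last (m + 1) := rfl
theorem lo_apply (i : Fin m) : lo m i = i.castSucc.castSucc := rfl
theorem lo_val (i : Fin m) : ((lo m i : Fin (m + 2)) : ℕ) = i := rfl
theorem hi_val (k : Fin 2) : ((hi m k : Fin (m + 2)) : ℕ) = m + k := rfl

theorem lo_ne_hi (i : Fin m) (k : Fin 2) : lo m i ≠ hi m k := by
  intro h
  have := congrArg Fin.val h
  rw [lo_val, hi_val] at this
  omega

/-- assemble the coordinates -/
def join (y : Fin m → I) (t s : I) : Fin (m + 2) → I :=
  Fin.snoc (α := fun _ => I) (Fin.snoc (α := fun _ => I) y t) s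

@[simp] theorem join_lo (y : Fin m → I) (t s : I) (i : Fin m) : join m y t s (lo m i) = y i := by
  simp only [join, lo_apply, Fin.snoc_castSucc]

@[simp] theorem join_hi0 (y : Fin m → I) (t s : I) : join m y t s (hi m 0) = t := by
  simp only [join, hi_zero, Fin.snoc_castSucc, Fin.snoc_last]

@[simp] theorem join_hi1 (y : Fin m → I) (t s : I) : join m y t s (hi m 1) = s := by
  simp only [join, hi_one, Fin.snoc_last]

@[elab_as_elim]
theorem cases_lohi {P : Fin (m + 2) → Prop} (h1 : ∀ i, P (lo m i)) (h2 : P (hi m 0))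
    (h3 : P (hi m 1)) (i : Fin (m + 2)) : P i := by
  refine Fin.lastCases h3 (fun i => ?_) i
  exact Fin.lastCases h2 (fun i => h1 i) i

theorem join_eta (x : Fin (m + 2) → I) :
    join m (fun i => x (lo m i)) (x (hi m 0)) (x (hi m 1)) = x := by
  funext i
  refine cases_lohi m (fun i => ?_) ?_ ?_ i <;> simp

theorem continuous_join : Continuous fun p : (Fin m → I) × I × I => join m p.1 p.2.1 p.2.2 := by
  refine continuous_pi fun i => ?_
  refine cases_lohi m (fun i => ?_) ?_ ?_ i
  · simp only [join_lo]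
    exact (continuous_apply i).comp continuous_fst
  · simp only [join_hi0]
    exact continuous_fst.comp continuous_snd
  · simp only [join_hi1]
    exact continuous_snd.comp continuous_snd

theorem mem_bd_lohi (x : Fin (m + 2) → I) : x ∈ Cube.boundary (Fin (m + 2)) ↔
    (fun i => x (lo m i)) ∈ Cube.boundary (Fin m) ∨ (x (hi m 0) = 0 ∨ x (hi m 0) = 1) ∨
      (x (hi m 1) = 0 ∨ x (hi m 1) = 1) := by
  constructor
  · rintro ⟨i, hx⟩
    revert hx
    refine cases_lohi m (fun i => ?_) ?_ ?_ i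
    · exact fun h => Or.inl ⟨i, h⟩
    · exact fun h => Or.inr (Or.inl h)
    · exact fun h => Or.inr (Or.inr h)
  · rintro (⟨i, h⟩ | h | h)
    · exact ⟨_, h⟩
    · exact ⟨_, h⟩
    · exact ⟨_, h⟩

/-- the sphere algebra as a type with frozen instances -/
def SPt (N : Type) : Type := SP N

instance (N : Type) : NormedCommRing (SPt N) := inferInstanceAs (NormedCommRing (SP N))
instance (N : Type) : NormedAlgebra ℂ (SPt N) := inferInstanceAs (NormedAlgebra ℂ (SP N))

theorem isClosed_SP {N : Type} : IsClosed ((SP N : Subalgebra ℂ _) : Set (ℂ × C(N → I, ℂ))) := by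
  have : ((SP N : Subalgebra ℂ _) : Set (ℂ × C(N → I, ℂ))) =
      ⋂ x ∈ Cube.boundary N, {p : ℂ × C(N → I, ℂ) | p.2 x = p.1} := by
    ext p
    simp only [SetLike.mem_coe, Set.mem_iInter, Set.mem_ofPred_eq]
    exact Iff.rfl
  rw [this]
  exact isClosed_biInter fun x _ => isClosed_eq ((continuous_eval_const x).comp continuous_snd)
    continuous_fst

instance (N : Type) : CompleteSpace (SPt N) := (isClosed_SP (N := N)).completeSpace_coe

/-- values of sphere functions -/
def SPv {N : Type} (p : SPt N) (y : N → I) : ℂ := (Subtype.val p : ℂ × C(N → I, ℂ)).2 y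

/-- the augmentation -/
def SPe (N : Type) : SPt N →ₐ[ℂ] ℂ := (SP.ev : SP N →ₐ[ℂ] ℂ)

theorem SPv_bd {N : Type} (p : SPt N) {y : N → I} (hy : y ∈ Cube.boundary N) :
    SPv p y = SPe N p := (Subtype.property p : Subtype.val p ∈ SP N) y hy

theorem SPv_ext {N : Type} {p q : SPt N} (h0 : SPe N p = SPe N q) (h : ∀ y, SPv p y = SPv q y) :
    p = q := Subtype.ext (Prod.ext h0 (ContinuousMap.ext h))

theorem SPv_continuous {N X : Type} [TopologicalSpace X] {f : X → SPt N} (hf : Continuous f)
    {g : X → N → I} (hg : Continuous g) : Continuous fun x => SPv (f x) (g x) := by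
  have h1 : Continuous fun x => (Subtype.val (f x) : ℂ × C(N → I, ℂ)).2 :=
    continuous_snd.comp (continuous_subtype_val.comp hf)
  exact h1.eval hg

theorem SPv_per {N : Type} [DecidableEq N] (p : SPt N) (x : N → I) (i : N) :
    SPv p (Function.update x i 0) = SPv p (Function.update x i 1) := by
  rw [SPv_bd p (mem_bd_upd0 x i), SPv_bd p (mem_bd_upd1 x i)]

/-- functions on the sphere as functions on the torus -/
def SPtor (N : Type) [DecidableEq N] : SPt N →ₐ[ℂ] TA N := (SP.tor : SP N →ₐ[ℂ] TA N)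

theorem SPtor_apply {N : Type} [DecidableEq N] (p : SPt N) (x : N → I) :
    ((SPtor N p : TA N) : C(N → I, ℂ)) x = SPv p x := rfl

/-- loops of loops of functions on the sphere are functions on the torus -/
def PsiF (F : LoopAlg (LoopAlg (SPt (Fin m)))) : C(Fin (m + 2) → I, ℂ) :=
  ⟨fun x => SPv (LLv F (x (hi m 1)) (x (hi m 0))) (fun i => x (lo m i)),
    by
      have h : Continuous fun x : Fin (m + 2) → I => ((x (hi m 1), x (hi m 0)) : I × I) :=
        (continuous_apply _).prodMk (continuous_apply _)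
      exact SPv_continuous ((LLv_continuous F).comp h) (continuous_pi fun i => continuous_apply _)⟩

theorem PsiF_mem (F : LoopAlg (LoopAlg (SPt (Fin m)))) : PsiF m F ∈ TA (Fin (m + 2)) := by
  intro x i
  change SPv (LLv F _ _) _ = SPv (LLv F _ _) _
  refine cases_lohi m (fun i => ?_) ?_ ?_ i
  · have e1 : ∀ c : I, (fun j => Function.update x (lo m i) c (lo m j)) =
        Function.update (fun j => x (lo m j)) i c := by
      intro c
      ext1 j
      by_cases hj : j = i
      · subst hj; simp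
      · rw [Function.update_of_ne hj, Function.update_of_ne (fun h => hj ((lo m).injective h))]
    have e2 : ∀ (c : I) (k : Fin 2), Function.update x (lo m i) c (hi m k) = x (hi m k) := by
      intro c k
      exact Function.update_of_ne (lo_ne_hi m i k).symm _ _
    rw [e1, e1, e2, e2, e2, e2]
    exact SPv_per _ _ _
  · have e1 : ∀ c : I, (fun j => Function.update x (hi m 0) c (lo m j)) = fun j => x (lo m j) := by
      intro c
      ext1 j
      exact Function.update_of_ne (lo_ne_hi m j _) _ _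
    have e2 : ∀ (c : I), Function.update x (hi m 0) c (hi m 1) = x (hi m 1) := by
      intro c
      refine Function.update_of_ne ?_ _ _
      intro h
      have := (hi m).injective h
      exact absurd this (by decide)
    rw [e1, e1, e2, e2, Function.update_self, Function.update_self, LLv_per2]
  · have e1 : ∀ c : I, (fun j => Function.update x (hi m 1) c (lo m j)) = fun j => x (lo m j) := by
      intro c
      ext1 j
      exact Function.update_of_ne (lo_ne_hi m j _) _ _
    have e2 : ∀ (c : I), Function.update x (hi m 1) c (hi m 0) = x (hi m 0) := by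
      intro c
      refine Function.update_of_ne ?_ _ _
      intro h
      have := (hi m).injective h
      exact absurd this (by decide)
    rw [e1, e1, e2, e2, Function.update_self, Function.update_self, LLv_per1]

/-- loops of loops of functions on the sphere are functions on the torus -/
def Psi : LoopAlg (LoopAlg (SPt (Fin m))) →ₐ[ℂ] TA (Fin (m + 2)) where
  toFun F := ⟨PsiF m F, PsiF_mem m F⟩
  map_one' := rfl
  map_mul' _ _ := rfl
  map_zero' := rfl
  map_add' _ _ := rfl
  commutes' _ := rfl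

/-- the function of a double suspension element -/
def PhiF (F : SigA (Sig.aug (SPe (Fin m)))) : C(Fin (m + 2) → I, ℂ) :=
  ⟨fun x => SPv (SSv _ F (x (hi m 1)) (x (hi m 0))) (fun i => x (lo m i)), by
    have h : Continuous fun x : Fin (m + 2) → I => ((x (hi m 1), x (hi m 0)) : I × I) :=
      (continuous_apply _).prodMk (continuous_apply _)
    exact SPv_continuous ((SSv_continuous F).comp h) (continuous_pi fun i => continuous_apply _)⟩

theorem PhiF_mem (F : SigA (Sig.aug (SPe (Fin m)))) :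
    ((Sig.aug (Sig.aug (SPe (Fin m))) F, PhiF m F) : ℂ × C(Fin (m + 2) → I, ℂ)) ∈
      SP (Fin (m + 2)) := by
  intro x hx
  change SPv (SSv _ F _ _) _ = Sig.aug (Sig.aug (SPe (Fin m))) F
  rcases (mem_bd_lohi m x).1 hx with h | (h | h) | h | h
  · rw [SPv_bd _ h]
    exact SSv_aug F _ _
  · rw [h, SSv_t0]; rfl
  · rw [h, SSv_t1]; rfl
  · rw [h, SSv_s0]; rfl
  · rw [h, SSv_s1]; rfl

/-- the double suspension of the sphere algebra -/
def Phi : SigA (Sig.aug (SPe (Fin m))) →ₐ[ℂ] SPt (Fin (m + 2)) where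
  toFun F := ⟨(Sig.aug (Sig.aug (SPe (Fin m))) F, PhiF m F), PhiF_mem m F⟩
  map_one' := rfl
  map_mul' _ _ := rfl
  map_zero' := rfl
  map_add' _ _ := rfl
  commutes' _ := rfl

theorem Phi_ev (F : SigA (Sig.aug (SPe (Fin m)))) :
    SPe _ (Phi m F) = Sig.aug (Sig.aug (SPe (Fin m))) F := rfl

theorem Phi_v (F : SigA (Sig.aug (SPe (Fin m)))) (x : Fin (m + 2) → I) :
    SPv (Phi m F) x = SPv (SSv _ F (x (hi m 1)) (x (hi m 0))) (fun i => x (lo m i)) := rfl

theorem Phi_injective : Function.Injective (Phi m) := by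
  intro F G h
  refine SSv_ext fun s t => SPv_ext ?_ fun y => ?_
  · rw [SSv_aug, SSv_aug, ← Phi_ev, ← Phi_ev, h]
  · have := congrArg (fun p => SPv p (join m y t s)) h
    simpa only [Phi_v, join_lo, join_hi0, join_hi1] using this

theorem Phi_surjective : Function.Surjective (Phi m) := by
  intro p
  -- the path of path of sphere functions
  let K : C((I × I) × (Fin m → I), ℂ) :=
    ⟨fun q => SPv p (join m q.2 q.1.2 q.1.1), SPv_continuous continuous_const
      ((continuous_join m).comp (continuous_snd.prodMk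
        ((continuous_snd.comp continuous_fst).prodMk (continuous_fst.comp continuous_fst))))⟩
  have hm : ∀ q : I × I, ((SPe _ p, K.curry q) : ℂ × C(Fin m → I, ℂ)) ∈ SP (Fin m) := by
    intro q y hy
    change SPv p (join m y q.2 q.1) = SPe _ p
    refine SPv_bd p ((mem_bd_lohi m _).2 (Or.inl ?_))
    simpa only [join_lo] using hy
  let F : C(I × I, SPt (Fin m)) := ⟨fun q => ⟨(SPe _ p, K.curry q), hm q⟩,
    Continuous.subtype_mk (continuous_const.prodMk K.curry.continuous) _⟩
  have hF : ∀ s t y, SPv (F (s, t)) y = SPv p (join m y t s) := fun _ _ _ => rfl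
  have hal : ∀ y, SPv (algebraMap ℂ (SPt (Fin m)) (SPe _ p)) y = SPe _ p := fun _ => rfl
  obtain ⟨G, hG⟩ := exists_SS (ε := SPe (Fin m)) F (SPe _ p)
    (fun t => SPv_ext rfl fun y => by
      rw [hF, hal]
      exact SPv_bd p ((mem_bd_lohi m _).2 (Or.inr (Or.inr (Or.inl (by rw [join_hi1]))))))
    (fun t => SPv_ext rfl fun y => by
      rw [hF, hal]
      exact SPv_bd p ((mem_bd_lohi m _).2 (Or.inr (Or.inr (Or.inr (by rw [join_hi1]))))))
    (fun s => SPv_ext rfl fun y => by
      rw [hF, hal]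
      exact SPv_bd p ((mem_bd_lohi m _).2 (Or.inr (Or.inl (Or.inl (by rw [join_hi0]))))))
    (fun s => SPv_ext rfl fun y => by
      rw [hF, hal]
      exact SPv_bd p ((mem_bd_lohi m _).2 (Or.inr (Or.inl (Or.inr (by rw [join_hi0]))))))
    (fun s t => rfl)
  refine ⟨G, SPv_ext ?_ fun x => ?_⟩
  · rw [Phi_ev, ← SSv_aug G 0 0, hG]
    rfl
  · rw [Phi_v, hG, hF, join_eta]

theorem Psi_v (F : LoopAlg (LoopAlg (SPt (Fin m)))) (x : Fin (m + 2) → I) :
    ((Psi m F : TA (Fin (m + 2))) : C(Fin (m + 2) → I, ℂ)) x =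
      SPv (LLv F (x (hi m 1)) (x (hi m 0))) (fun i => x (lo m i)) := rfl

theorem TA_ext {N : Type} [DecidableEq N] {f g : TA N}
    (h : ∀ x, (f : C(N → I, ℂ)) x = (g : C(N → I, ℂ)) x) : f = g :=
  Subtype.ext (ContinuousMap.ext h)

/-- the torus diagram -/
theorem Psi_incLL (F : SigA (Sig.aug (SPe (Fin m)))) :
    Psi m (incLL (SPe (Fin m)) F) = SPtor _ (Phi m F) := by
  refine TA_ext fun x => ?_
  rw [Psi_v, SPtor_apply, Phi_v, LLv_incLL]

theorem Psi_cst2 (p : SPt (Fin m)) : Psi m (cst2 (SPt (Fin m)) p) = pull (lo m) (SPtor _ p) := by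
  refine TA_ext fun x => ?_
  rw [Psi_v, pull_apply, SPtor_apply, LLv_cst2]

theorem SPv_alg {N : Type} (r : ℂ) (y : N → I) : SPv (algebraMap ℂ (SPt N) r) y = r := rfl

theorem Psi_scal2 (f : LoopAlg (LoopAlg ℂ)) :
    Psi m (scal2 (SPt (Fin m)) f) = pull (hi m) (tau f) := by
  refine TA_ext fun x => ?_
  rw [Psi_v, pull_apply, tau_apply, LLv_scal2, SPv_alg]

end Psi

end Crest.Agent.R204.Bt837
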