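import Mathlib
import Crest.Agent.R204.SigSP_837
import Crest.Agent.R204.HIso_472

/-!
# Row 204, block H (helper837): the single suspension of the sphere algebra

* `Phi1 m : SigA (SPe (Fin m)) → SPt (Fin (m+1))`, bijective, compatible with the augmentations,
  continuous with continuous inverse;
* `SPSA m : SPt (Fin (m+1)) ≃ₐ SA (Fin (m+1))`.
-/

set_option autoImplicit false
set_option linter.unusedSectionVars false

open scoped unitInterval Topology

noncomputable section

namespace Crest.Agent.R204.Bt837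

open Ex837 BottLoop313 Clutch369
open H472 (SA CR)
open K357 (K0)

section Phi1

variable (m : ℕ)

/-- the first `m` coordinates -/
def ini (x : Fin (m + 1) → I) : Fin m → I := fun i => x i.castSucc

theorem continuous_ini : Continuous (ini m) := continuous_pi fun i => continuous_apply _

theorem mem_bd_ini (x : Fin (m + 1) → I) : x ∈ Cube.boundary (Fin (m + 1)) ↔
    ini m x ∈ Cube.boundary (Fin m) ∨ (x (Fin.last m) = 0 ∨ x (Fin.last m) = 1) := by
  constructor
  · rintro ⟨i, hx⟩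
    revert hx
    refine Fin.lastCases (fun h => Or.inr h) (fun i h => Or.inl ⟨i, h⟩) i
  · rintro (⟨i, h⟩ | h)
    · exact ⟨_, h⟩
    · exact ⟨_, h⟩

variable {m}

theorem sig_aug (F : SigA (SPe (Fin m))) (t : I) : SPe _ (F.fn t) = Sig.aug (SPe (Fin m)) F :=
  F.prop.2.2 t

theorem sig_zero (F : SigA (SPe (Fin m))) :
    F.fn 0 = algebraMap ℂ (SPt (Fin m)) (Sig.aug (SPe (Fin m)) F) := F.prop.1

theorem sig_one (F : SigA (SPe (Fin m))) :
    F.fn 1 = algebraMap ℂ (SPt (Fin m)) (Sig.aug (SPe (Fin m)) F) := F.prop.2.1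

variable (m)

/-- the function of a suspension element -/
def Phi1F (F : SigA (SPe (Fin m))) : C(Fin (m + 1) → I, ℂ) :=
  ⟨fun x => SPv (F.fn (x (Fin.last m))) (ini m x), by
    have h : Continuous fun x : Fin (m + 1) → I => x (Fin.last m) := continuous_apply _
    exact SPv_continuous (F.fn.continuous.comp h) (continuous_ini m)⟩

theorem Phi1F_mem (F : SigA (SPe (Fin m))) :
    ((Sig.aug (SPe (Fin m)) F, Phi1F m F) : ℂ × C(Fin (m + 1) → I, ℂ)) ∈ SP (Fin (m + 1)) := by
  intro x hx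
  change SPv (F.fn _) _ = Sig.aug (SPe (Fin m)) F
  rcases (mem_bd_ini m x).1 hx with h | h | h
  · rw [SPv_bd _ h]
    exact sig_aug F _
  · rw [h, sig_zero]; rfl
  · rw [h, sig_one]; rfl

/-- the suspension of the sphere algebra -/
def Phi1 : SigA (SPe (Fin m)) →ₐ[ℂ] SPt (Fin (m + 1)) where
  toFun F := ⟨(Sig.aug (SPe (Fin m)) F, Phi1F m F), Phi1F_mem m F⟩
  map_one' := rfl
  map_mul' _ _ := rfl
  map_zero' := rfl
  map_add' _ _ := rfl
  commutes' _ := rfl

theorem Phi1_ev (F : SigA (SPe (Fin m))) : SPe _ (Phi1 m F) = Sig.aug (SPe (Fin m)) F := rfl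

theorem Phi1_v (F : SigA (SPe (Fin m))) (x : Fin (m + 1) → I) :
    SPv (Phi1 m F) x = SPv (F.fn (x (Fin.last m))) (ini m x) := rfl

theorem ini_snoc (y : Fin m → I) (t : I) : ini m (Fin.snoc (α := fun _ => I) y t) = y := by
  funext i
  simp [ini]

theorem snoc_last' (y : Fin m → I) (t : I) :
    (Fin.snoc (α := fun _ => I) y t : Fin (m + 1) → I) (Fin.last m) = t := by simp

theorem snoc_ini (x : Fin (m + 1) → I) :
    (Fin.snoc (α := fun _ => I) (ini m x) (x (Fin.last m)) : Fin (m + 1) → I) = x := by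
  funext i
  refine Fin.lastCases ?_ (fun i => ?_) i <;> simp [ini]

theorem Phi1_injective : Function.Injective (Phi1 m) := by
  intro F G h
  refine SigA.ext fun t => SPv_ext ?_ fun y => ?_
  · rw [sig_aug, sig_aug, ← Phi1_ev, ← Phi1_ev, h]
  · have := congrArg (fun p => SPv p (Fin.snoc (α := fun _ => I) y t)) h
    simpa only [Phi1_v, ini_snoc, snoc_last'] using this

theorem continuous_snoc : Continuous fun p : (Fin m → I) × I =>
    (Fin.snoc (α := fun _ => I) p.1 p.2 : Fin (m + 1) → I) := (H472.snocHomeo m).continuous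

theorem Phi1_surjective : Function.Surjective (Phi1 m) := by
  intro p
  let K : C(I × (Fin m → I), ℂ) :=
    ⟨fun q => SPv p (Fin.snoc (α := fun _ => I) q.2 q.1), SPv_continuous continuous_const
      ((continuous_snoc m).comp (continuous_snd.prodMk continuous_fst))⟩
  have hm : ∀ t : I, ((SPe _ p, K.curry t) : ℂ × C(Fin m → I, ℂ)) ∈ SP (Fin m) := by
    intro t y hy
    change SPv p (Fin.snoc (α := fun _ => I) y t) = SPe _ p
    refine SPv_bd p ((mem_bd_ini m _).2 (Or.inl ?_))
    rwa [ini_snoc]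
  let F : C(I, SPt (Fin m)) := ⟨fun t => ⟨(SPe _ p, K.curry t), hm t⟩,
    Continuous.subtype_mk (continuous_const.prodMk K.curry.continuous) _⟩
  have hF : ∀ t y, SPv (F t) y = SPv p (Fin.snoc (α := fun _ => I) y t) := fun _ _ => rfl
  have hFe : ∀ t, SPe _ (F t) = SPe _ p := fun _ => rfl
  have hal : ∀ (r : ℂ) (y : Fin m → I), SPv (algebraMap ℂ (SPt (Fin m)) r) y = r := fun _ _ => rfl
  have hal' : ∀ (r : ℂ), SPe (Fin m) (algebraMap ℂ (SPt (Fin m)) r) = r := fun _ => rfl
  have hmem : F ∈ Sig (SPe (Fin m)) := by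
    refine ⟨?_, ?_, fun t => ?_⟩
    · rw [hFe]
      refine SPv_ext (by rw [hFe, hal']) fun y => ?_
      rw [hF, hal]
      exact SPv_bd p ((mem_bd_ini m _).2 (Or.inr (Or.inl (by rw [snoc_last']))))
    · rw [hFe]
      refine SPv_ext (by rw [hFe, hal']) fun y => ?_
      rw [hF, hal]
      exact SPv_bd p ((mem_bd_ini m _).2 (Or.inr (Or.inr (by rw [snoc_last']))))
    · rw [hFe, hFe]
  refine ⟨SigA.mk F hmem, SPv_ext ?_ fun x => ?_⟩
  · rw [Phi1_ev]
    rfl
  · rw [Phi1_v, SigA.mk_fn, hF, snoc_ini]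

theorem Phi1_continuous : Continuous (Phi1 m) := by
  refine Continuous.subtype_mk ?_ _
  refine Continuous.prodMk ?_ ?_
  · exact map_continuous (Sig.aug (SPe (Fin m)))
  · refine ContinuousMap.continuous_of_continuous_uncurry _ ?_
    change Continuous fun q : SigA (SPe (Fin m)) × (Fin (m + 1) → I) =>
      SPv (q.1.fn (q.2 (Fin.last m))) (ini m q.2)
    have h1 : Continuous fun q : SigA (SPe (Fin m)) × (Fin (m + 1) → I) => q.1.fn :=
      continuous_subtype_val.comp continuous_fst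
    have h2 : Continuous fun q : SigA (SPe (Fin m)) × (Fin (m + 1) → I) => q.2 (Fin.last m) :=
      (continuous_apply (Fin.last m)).comp continuous_snd
    exact SPv_continuous (h1.eval h2) ((continuous_ini m).comp continuous_snd)

/-- the suspension isomorphism -/
def Phi1E : SigA (SPe (Fin m)) ≃ₐ[ℂ] SPt (Fin (m + 1)) :=
  AlgEquiv.ofBijective (Phi1 m) ⟨Phi1_injective m, Phi1_surjective m⟩

theorem Phi1E_coe : ((Phi1E m : SigA (SPe (Fin m)) ≃ₐ[ℂ] SPt (Fin (m + 1))) :
    SigA (SPe (Fin m)) → SPt (Fin (m + 1))) = Phi1 m := rfl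

theorem Phi1E_continuous : Continuous (Phi1E m) := Phi1_continuous m

theorem Phi1E_symm_continuous : Continuous (Phi1E m).symm :=
  ((Phi1E m).toLinearEquiv.toContinuousLinearEquivOfContinuous (Phi1_continuous m)).symm.continuous

end Phi1

section SA

variable (m : ℕ)

/-- the corner of the cube -/
def crn : Fin (m + 1) → I := fun _ => 0

theorem crn_mem : crn m ∈ Cube.boundary (Fin (m + 1)) := ⟨0, Or.inl rfl⟩

/-- `SPt (Fin (m+1)) ≃ SA (Fin (m+1))` -/
def SPSA : SPt (Fin (m + 1)) ≃ₐ[ℂ] SA (Fin (m + 1)) where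
  toFun p := ⟨(Subtype.val p : ℂ × C(Fin (m + 1) → I, ℂ)).2, fun x hx y hy =>
    (SPv_bd p hx).trans (SPv_bd p hy).symm⟩
  invFun f := ⟨((f : C(Fin (m + 1) → I, ℂ)) (crn m), (f : C(Fin (m + 1) → I, ℂ))),
    fun x hx => f.2 x hx _ (crn_mem m)⟩
  left_inv p := SPv_ext (SPv_bd p (crn_mem m)) fun _ => rfl
  right_inv _ := rfl
  map_mul' _ _ := rfl
  map_add' _ _ := rfl
  commutes' _ := rfl

theorem SPSA_apply (p : SPt (Fin (m + 1))) (x : Fin (m + 1) → I) :
    ((SPSA m p : SA (Fin (m + 1))) : C(Fin (m + 1) → I, ℂ)) x = SPv p x := rfl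

theorem SPSA_continuous : Continuous (SPSA m) := by
  refine Continuous.subtype_mk ?_ _
  exact continuous_snd.comp continuous_subtype_val

theorem SPSA_symm_continuous : Continuous (SPSA m).symm := by
  refine Continuous.subtype_mk ?_ _
  exact ((continuous_eval_const (crn m)).comp continuous_subtype_val).prodMk continuous_subtype_val

theorem SPSA_ev (p : SPt (Fin (m + 1))) {x : Fin (m + 1) → I} (hx : x ∈ Cube.boundary (Fin (m + 1))) :
    CR.ev x (SPSA m p) = SPe _ p := SPv_bd p hx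

end SA

/-! `SPt (Fin 0) = ℂ × ℂ` -/

/-- `SP (Fin 0) ≃ ℂ × ℂ` -/
def SP0 : SPt (Fin 0) ≃ₐ[ℂ] ℂ × ℂ where
  toFun p := (SPe _ p, SPv p (fun i => i.elim0))
  invFun q := ⟨(q.1, ContinuousMap.const _ q.2), fun x hx => by
    obtain ⟨i, _⟩ := hx
    exact i.elim0⟩
  left_inv p := SPv_ext rfl fun y => by
    have : y = fun i : Fin 0 => i.elim0 := Subsingleton.elim _ _
    subst this
    rfl
  right_inv _ := rfl
  map_mul' _ _ := rfl
  map_add' _ _ := rfl
  commutes' _ := rfl

theorem SP0_fst (p : SPt (Fin 0)) : (SP0 p).1 = SPe _ p := rfl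

end Crest.Agent.R204.Bt837
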