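import Crest.Agent.R204.LineT2_357

/-!
# Row 204, block H: the class `b_T` (helper357), part 3

`bT A`, `bT_sq`, `psi_bT`, `dL_lamU`, compatibility with the reduced clutching `d` of helper369,
and injectivity of `c ↦ c * bT` from the uniqueness half (I) of the loop theorem.
-/

set_option autoImplicit false
set_option linter.unusedSectionVars false
set_option linter.unusedSimpArgs false

open Matrix Topology
open scoped unitInterval Kronecker
open Crest.Agent.R204.K357 Crest.Agent.R204.BottLoop313 Crest.Agent.R204.Clutch369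

namespace Crest.Agent.R204.LineT357

noncomputable section

section bT

variable (A : Type*) [NormedCommRing A] [NormedAlgebra ℂ A]

/-- the loop `z` as a unit of `LA A` -/
def zU : (LA A)ˣ where
  val := (zL : LoopAlg A)
  inv := (ziL : LoopAlg A)
  val_inv := zL_mul_ziL
  inv_val := ziL_mul_zL

theorem zU_fn (t : I) : (zU A : LA A).fn t = algebraMap ℂ A (circPt t : ℂ) := rfl

theorem zU_inv_fn (t : I) : ((zU A).inv : LA A).fn t =
    algebraMap ℂ A (((circPt t)⁻¹ : Circle) : ℂ) := rfl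

/-- the class `b_T` -/
def bT : K0 (LA (LA A)) := dL (mu (zU A))

theorem bT_sq : bT A * bT A = 0 := dL_mu_mul _ _

theorem psi_bT (p : ℕ) [Fact p.Prime] : psi p (LA (LA A)) (bT A) = p * bT A := psi_dL_mu _

variable {A}

/-- constant functions on the torus -/
def cc : A →ₐ[ℂ] LA (LA A) := (LA.cst : LA A →ₐ[ℂ] LA (LA A)).comp (LA.cst : A →ₐ[ℂ] LA A)

variable {n m k l : Type*} [Fintype n] [DecidableEq n] [Fintype m] [DecidableEq m]
  [Fintype k] [DecidableEq k] [Fintype l] [DecidableEq l]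

theorem idem_cst {q : Matrix n n A} (hq : q * q = q) :
    q.map (LA.cst (A := A)) * q.map (LA.cst (A := A)) = q.map (LA.cst (A := A)) :=
  idem_map ((LA.cst : A →ₐ[ℂ] LA A) : A →+* LA A) hq

/-- the loop of units `z q + (1 - q)` -/
def lamU {q : Matrix n n A} (hq : q * q = q) : (Matrix n n (LA A))ˣ := lam (idem_cst hq) (zU A)

theorem lamU_val {q : Matrix n n A} (hq : q * q = q) : (lamU hq).val =
    (zU A : LA A) • q.map (LA.cst (A := A)) + (1 - q.map (LA.cst (A := A))) := rfl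

theorem lamU_inv {q : Matrix n n A} (hq : q * q = q) : (lamU hq).inv =
    ((zU A).inv : LA A) • q.map (LA.cst (A := A)) + (1 - q.map (LA.cst (A := A))) := rfl

/-- **the Bott class of an idempotent is the external product with `b_T`** -/
theorem dL_lamU {q : Matrix n n A} (hq : q * q = q) :
    dL (lamU hq) = K0.map ((cc : A →ₐ[ℂ] LA (LA A)) : A →+* LA (LA A)) (K0.cls q) * bT A := by
  have h := dL_lam (idem_cst hq) (zU A)
  rw [lamU, h, bT]
  congr 1
  have h1 : K0.cls (q.map (LA.cst (A := A))) =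
      K0.map ((LA.cst : A →ₐ[ℂ] LA A) : A →+* LA A) (K0.cls q) := (K0.map_cls _ hq).symm
  rw [h1, ← K0.map_comp]
  rfl

/-- naturality of `b_T` -/
theorem map_bT {B : Type*} [NormedCommRing B] [NormedAlgebra ℂ B] (φ : A →ₐ[ℂ] B)
    (hφ : Continuous φ) :
    K0.map ((LA.map (LA.map φ hφ) (LA.continuous_map φ hφ) : LA (LA A) →ₐ[ℂ] LA (LA B)) :
      LA (LA A) →+* LA (LA B)) (bT A) = bT B := by
  rw [bT, map_dL, bT]
  congr 1
  ext i j : 2
  refine LA.ext fun t => ?_
  have h1 : (umap (LA.map φ hφ) (mu (zU A))).val i j = LA.map φ hφ (zU A : LA A) := by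
    change LA.map φ hφ (((zU A : LA A) • (1 : Matrix Unit Unit (LA A))) i j) = _
    rw [Matrix.smul_apply]
    simp
  have h2 : (mu (zU B)).val i j = (zU B : LA B) := by
    change (((zU B : LA B) • (1 : Matrix Unit Unit (LA B))) i j) = _
    rw [Matrix.smul_apply]
    simp
  rw [h1, h2, LA.map_fn, zU_fn, zU_fn]
  exact AlgHomClass.commutes φ _

end bT

section compat

variable {A : Type*} [NormedCommRing A] [NormedAlgebra ℂ A] {ε : A →ₐ[ℂ] ℂ}
variable {n m k l : Type*} [Fintype n] [DecidableEq n] [Fintype m] [DecidableEq m]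
  [Fintype k] [DecidableEq k] [Fintype l] [DecidableEq l]

instance instNCRSigA : NormedCommRing (SigA ε) where
  toNormedRing := inferInstance
  mul_comm a b := SigA.ext fun t => mul_comm (a.fn t) (b.fn t)

variable (ε) in
/-- reduced loops are loops -/
def incl1 : SigA ε →ₐ[ℂ] LA A where
  toFun a := LA.mk a.fn (a.prop.1.trans a.prop.2.1.symm)
  map_one' := rfl
  map_mul' _ _ := rfl
  map_zero' := rfl
  map_add' _ _ := rfl
  commutes' _ := rfl

@[simp] theorem incl1_fn (a : SigA ε) (t : I) : (incl1 ε a).fn t = a.fn t := rfl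

variable (ε) in
theorem continuous_incl1 : Continuous (incl1 ε) := by
  refine Continuous.subtype_mk ?_ _
  exact continuous_subtype_val

/-- a reduced unit as a unit -/
def ruU (g : RU ε n) : (Matrix n n A)ˣ := ⟨g.u, g.v, g.uv, g.vu⟩

theorem map_one_cls' {R S : Type*} [Ring R] [Ring S] (f : R →+* S) :
    K0.map f (K0.cls (1 : Matrix n n R)) = K0.cls (1 : Matrix n n S) := by
  rw [K0.map_cls _ (by simp), Matrix.map_one _ (map_zero _) (map_one _)]

/-- compatibility of the two clutching constructions -/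
theorem map_incl1_d (g : RU ε n) :
    K0.map ((incl1 ε : SigA ε →ₐ[ℂ] LA A) : SigA ε →+* LA A) (d g) = dL (ruU g) := by
  have h1 : (E g).map (incl1 ε) = EL (ruU g) := rfl
  have h2 : K0.map ((incl1 ε : SigA ε →ₐ[ℂ] LA A) : SigA ε →+* LA A) (K0.cls (E g)) =
      K0.cls ((E g).map (incl1 ε)) := K0.map_cls _ (E_idem g)
  rw [d, map_sub, h2, h1, dL]
  congr 1
  exact map_one_cls' (n := n) ((incl1 ε : SigA ε →ₐ[ℂ] LA A) : SigA ε →+* LA A)

variable (ε) in
/-- reduced double loops are functions on the torus -/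
def incl2 : SigA (Sig.aug ε) →ₐ[ℂ] LA (LA A) :=
  (LA.map (incl1 ε) (continuous_incl1 ε)).comp (incl1 (Sig.aug ε))

theorem map_incl2_d (g : RU (Sig.aug ε) n) :
    K0.map ((incl2 ε : SigA (Sig.aug ε) →ₐ[ℂ] LA (LA A)) : SigA (Sig.aug ε) →+* LA (LA A)) (d g) =
      dL (umap (incl1 ε) (ruU g)) := by
  rw [← map_dL (incl1 ε) (continuous_incl1 ε), ← map_incl1_d, ← K0.map_comp]
  rfl

end compat

section inj

variable {A : Type*} [NormedCommRing A] [NormedAlgebra ℂ A]
variable {n m k l : Type*} [Fintype n] [DecidableEq n] [Fintype m] [DecidableEq m]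
  [Fintype k] [DecidableEq k] [Fintype l] [DecidableEq l]

/-- **injectivity of clutching over free loops** -/
theorem joined_of_dL (g h : (Matrix n n A)ˣ) (H : dL g = dL h) :
    ∃ M : ℕ, ∃ c : I → Matrix ((n ⊕ Fin M) ⊕ (n ⊕ Fin M)) ((n ⊕ Fin M) ⊕ (n ⊕ Fin M)) A,
      Continuous c ∧ (∀ t, IsUnit (c t)) ∧
      c 0 = fromBlocks (fromBlocks g.val 0 0 1) 0 0 1 ∧
      c 1 = fromBlocks (fromBlocks h.val 0 0 1) 0 0 1 := by
  have hc : K0.cls (EL g) = K0.cls (EL h) := by
    rw [(isCl_EL g).cls, (isCl_EL h).cls, H]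
  obtain ⟨M, x, y, hxy, hyx⟩ := (K0.cls_eq_iff (EL_idem g) (EL_idem h)).1 hc
  refine ⟨M, ?_⟩
  obtain ⟨a, b, ca, cb, hab, hba, h1⟩ := (isCl_EL g).sum (isCl_one (n := Fin M) (A := A))
  obtain ⟨a', b', ca', cb', hab', hba', h1'⟩ := (isCl_EL h).sum (isCl_one (n := Fin M) (A := A))
  have hb' := IsCl.b_one hab' hba' h1'
  set X : I → _ := fun s => x.map (LA.ev s) with hX
  set Y : I → _ := fun s => y.map (LA.ev s) with hY
  have hXY : ∀ s, X s * Y s = a s * b s := fun s => by
    rw [hab, ← hxy, evL_mul]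
  have hYX : ∀ s, Y s * X s = a' s * b' s := fun s => by
    rw [hab', ← hyx, evL_mul]
  let c : I → Matrix (n ⊕ Fin M) (n ⊕ Fin M) A := fun s => b' s * Y s * a s
  let c' : I → Matrix (n ⊕ Fin M) (n ⊕ Fin M) A := fun s => b s * X s * a' s
  have cc : Continuous c := (cb'.matrix_mul (matL_continuous y)).matrix_mul ca
  have cc' : Continuous c' := (cb.matrix_mul (matL_continuous x)).matrix_mul ca'
  have hcc' : ∀ s, c s * c' s = 1 := fun s => by
    calc b' s * Y s * a s * (b s * X s * a' s) = b' s * Y s * (a s * b s) * X s * a' s := by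
          simp only [Matrix.mul_assoc]
      _ = b' s * (Y s * X s) * (Y s * X s) * a' s := by rw [← hXY]; simp only [Matrix.mul_assoc]
      _ = (b' s * a' s) * (b' s * a' s) * (b' s * a' s) := by
          rw [hYX]; simp only [Matrix.mul_assoc]
      _ = 1 := by rw [hba']; simp
  have hc'c : ∀ s, c' s * c s = 1 := fun s => by
    calc b s * X s * a' s * (b' s * Y s * a s) = b s * X s * (a' s * b' s) * Y s * a s := by
          simp only [Matrix.mul_assoc]
      _ = b s * (X s * Y s) * (X s * Y s) * a s := by rw [← hYX]; simp only [Matrix.mul_assoc]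
      _ = (b s * a s) * (b s * a s) * (b s * a s) := by
          rw [hXY]; simp only [Matrix.mul_assoc]
      _ = 1 := by rw [hba]; simp
  set G : Matrix (n ⊕ Fin M) (n ⊕ Fin M) A := fromBlocks g.val 0 0 1 with hG
  set G' : Matrix (n ⊕ Fin M) (n ⊕ Fin M) A := fromBlocks g.inv 0 0 1 with hG'
  set K : Matrix (n ⊕ Fin M) (n ⊕ Fin M) A := fromBlocks h.val 0 0 1 with hK
  set K' : Matrix (n ⊕ Fin M) (n ⊕ Fin M) A := fromBlocks h.inv 0 0 1 with hK'
  have hKK' : K * K' = 1 := by simp [hK, hK', fromBlocks_multiply, h.val_inv]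
  have hK'K : K' * K = 1 := by simp [hK, hK', fromBlocks_multiply, h.inv_val]
  -- the end point relation
  have hend : K * c 1 = c 0 * G := by
    have hY01 : Y 1 = Y 0 := (matL_01 y).symm
    have hb2 : K * b' 1 = b' 0 := hb'
    have h2 : a 1 = a 0 * G := h1
    calc K * (b' 1 * Y 1 * a 1)
        = (K * b' 1) * Y 1 * a 1 := by simp only [Matrix.mul_assoc]
      _ = b' 0 * Y 0 * (a 0 * G) := by rw [hb2, hY01, h2]
      _ = _ := by simp only [c, Matrix.mul_assoc]
  -- first path: `c' 0 * K * c (σ t)`, from `G` to `c' 0 * K * c 0`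
  let P1 : I → Matrix (n ⊕ Fin M) (n ⊕ Fin M) A := fun t => c' 0 * K * c (σ t)
  have cP1 : Continuous P1 :=
    continuous_const.matrix_mul (cc.comp unitInterval.continuous_symm)
  have P1u : ∀ t, IsUnit (P1 t) := fun t =>
    IsUnit.of_mul_eq_one (c' (σ t) * K' * c 0) (by
      calc c' 0 * K * c (σ t) * (c' (σ t) * K' * c 0) =
          c' 0 * (K * (c (σ t) * c' (σ t)) * K') * c 0 := by simp only [Matrix.mul_assoc]
        _ = 1 := by rw [hcc', Matrix.mul_one, hKK', Matrix.mul_one, hc'c])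
  have P10 : P1 0 = G := by
    change c' 0 * K * c (σ 0) = G
    rw [unitInterval.symm_zero, Matrix.mul_assoc, hend, ← Matrix.mul_assoc, hc'c, Matrix.one_mul]
  have P11 : P1 1 = c' 0 * K * c 0 := by
    change c' 0 * K * c (σ 1) = _
    rw [unitInterval.symm_one]
  -- second path
  let P2 : I → Matrix ((n ⊕ Fin M) ⊕ (n ⊕ Fin M)) ((n ⊕ Fin M) ⊕ (n ⊕ Fin M)) A := fun s =>
    W (c 0) (c' 0) s * fromBlocks (c' 0 * K * c 0) 0 0 1 * W' (c 0) (c' 0) s
  have cP2 : Continuous P2 :=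
    ((continuous_W _ _).matrix_mul continuous_const).matrix_mul (continuous_W' _ _)
  have P2u : ∀ t, IsUnit (P2 t) := fun t =>
    IsUnit.of_mul_eq_one (W (c 0) (c' 0) t * fromBlocks (c' 0 * K' * c 0) 0 0 1 *
        W' (c 0) (c' 0) t) (by
      calc W (c 0) (c' 0) t * fromBlocks (c' 0 * K * c 0) 0 0 1 * W' (c 0) (c' 0) t *
            (W (c 0) (c' 0) t * fromBlocks (c' 0 * K' * c 0) 0 0 1 * W' (c 0) (c' 0) t)
          = W (c 0) (c' 0) t * (fromBlocks (c' 0 * K * c 0) 0 0 1 * (W' (c 0) (c' 0) t *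
            W (c 0) (c' 0) t) * fromBlocks (c' 0 * K' * c 0) 0 0 1) * W' (c 0) (c' 0) t := by
            simp only [Matrix.mul_assoc]
        _ = W (c 0) (c' 0) t * W' (c 0) (c' 0) t := by
            rw [W'_mul _ _ (hcc' 0) (hc'c 0), Matrix.mul_one, fromBlocks_multiply]
            have e1 : c' 0 * K * c 0 * (c' 0 * K' * c 0) = 1 := by
              calc c' 0 * K * c 0 * (c' 0 * K' * c 0) = c' 0 * (K * (c 0 * c' 0) * K') * c 0 := by
                    simp only [Matrix.mul_assoc]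
                _ = 1 := by rw [hcc', Matrix.mul_one, hKK', Matrix.mul_one, hc'c]
            rw [e1]
            simp
        _ = 1 := W_mul _ _ (hcc' 0) (hc'c 0) t)
  have P20 : P2 0 = fromBlocks (c' 0 * K * c 0) 0 0 1 := by
    change W (c 0) (c' 0) 0 * _ * W' (c 0) (c' 0) 0 = _
    rw [W_zero _ _ (hcc' 0), W'_zero _ _ (hcc' 0), Matrix.one_mul, Matrix.mul_one]
  have P21 : P2 1 = fromBlocks K 0 0 1 := by
    change W (c 0) (c' 0) 1 * _ * W' (c 0) (c' 0) 1 = _
    rw [W_one, W'_one, fromBlocks_multiply, fromBlocks_multiply]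
    have e1 : c 0 * (c' 0 * K * c 0) * c' 0 = K := by
      calc c 0 * (c' 0 * K * c 0) * c' 0 = (c 0 * c' 0) * K * (c 0 * c' 0) := by
            simp only [Matrix.mul_assoc]
        _ = K := by rw [hcc']; simp
    simp [e1, hc'c]
  -- join
  have j1 : JoinedIn {M | IsUnit M} (fromBlocks G 0 0 1 :
      Matrix ((n ⊕ Fin M) ⊕ (n ⊕ Fin M)) ((n ⊕ Fin M) ⊕ (n ⊕ Fin M)) A)
      (fromBlocks (c' 0 * K * c 0) 0 0 1) := by
    refine ⟨⟨⟨fun t => fromBlocks (P1 t) 0 0 1,
      cP1.matrix_fromBlocks continuous_const continuous_const continuous_const⟩, ?_, ?_⟩, ?_⟩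
    · change fromBlocks (P1 0) 0 0 1 = _
      rw [P10]
    · change fromBlocks (P1 1) 0 0 1 = _
      rw [P11]
    · intro t
      change IsUnit (fromBlocks (P1 t) 0 0 1)
      obtain ⟨v, hv⟩ := P1u t
      refine IsUnit.of_mul_eq_one (fromBlocks v.inv 0 0 1) ?_
      rw [← hv, fromBlocks_multiply]
      simp
  have j2 : JoinedIn {M | IsUnit M} (fromBlocks (c' 0 * K * c 0) 0 0 1 :
      Matrix ((n ⊕ Fin M) ⊕ (n ⊕ Fin M)) ((n ⊕ Fin M) ⊕ (n ⊕ Fin M)) A)
      (fromBlocks K 0 0 1) :=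
    ⟨⟨⟨P2, cP2⟩, P20, P21⟩, P2u⟩
  obtain ⟨γ, hγ⟩ := j1.trans j2
  exact ⟨γ, γ.continuous, hγ, γ.source, γ.target⟩

/-- the uniqueness half (I) of the loop theorem, as a statement about `A` -/
def BottI (A : Type*) [NormedCommRing A] [NormedAlgebra ℂ A] : Prop :=
  ∀ {ι : Type} [Fintype ι] [DecidableEq ι] (p q : Matrix ι ι A) (hp : p * p = p) (hq : q * q = q),
    JoinedIn {M : Matrix ι ι (LA A) | IsUnit M} (lamU hp).val (lamU hq).val →
      K0.cls p = K0.cls q

theorem fromBlocks_idem {p : Matrix n n A} (hp : p * p = p) :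
    (fromBlocks p 0 0 (0 : Matrix m m A)) * (fromBlocks p 0 0 0) = fromBlocks p 0 0 0 := by
  simp [fromBlocks_multiply, hp]

theorem lamU_fromBlocks {p : Matrix n n A} (hp : p * p = p) :
    (lamU (fromBlocks_idem (m := m) hp)).val = fromBlocks (lamU hp).val 0 0 1 := by
  rw [lamU_val, lamU_val]
  have h1 : (fromBlocks p 0 0 (0 : Matrix m m A)).map (LA.cst (A := A)) =
      fromBlocks (p.map (LA.cst (A := A))) 0 0 0 := by
    rw [fromBlocks_map]
    congr 1
  rw [h1, ← fromBlocks_one]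
  ext (i | i) (j | j) <;> simp [Matrix.one_apply]

/-- **injectivity of `c ↦ c * b_T`** -/
theorem bT_inj (hI : BottI A) (c : K0 A)
    (h : K0.map ((cc : A →ₐ[ℂ] LA (LA A)) : A →+* LA (LA A)) c * bT A = 0) : c = 0 := by
  obtain ⟨n, m, e, he, rfl⟩ := K0.exists_rep_one c
  have h1 : (1 : Matrix (Fin m) (Fin m) A) * 1 = 1 := by simp
  -- same size
  have hp : (fromBlocks e 0 0 (0 : Matrix (Fin m) (Fin m) A)) * (fromBlocks e 0 0 0) =
    fromBlocks e 0 0 0 := fromBlocks_idem he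
  have hq : (fromBlocks (0 : Matrix (Fin n) (Fin n) A) 0 0 (1 : Matrix (Fin m) (Fin m) A)) *
      (fromBlocks 0 0 0 1) = fromBlocks 0 0 0 1 := by simp [fromBlocks_multiply]
  have cp : K0.cls (fromBlocks e 0 0 (0 : Matrix (Fin m) (Fin m) A)) = K0.cls e := by
    rw [K0.cls_sum he (by simp), K0.cls_zero, add_zero]
  have cq : K0.cls (fromBlocks (0 : Matrix (Fin n) (Fin n) A) 0 0 (1 : Matrix (Fin m) (Fin m) A)) =
      K0.cls (1 : Matrix (Fin m) (Fin m) A) := by
    rw [K0.cls_sum (by simp) h1, K0.cls_zero, zero_add]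
  rw [← cp, ← cq] at h ⊢
  rw [map_sub, sub_mul, ← dL_lamU hp, ← dL_lamU hq, sub_eq_zero] at h
  obtain ⟨M, c, hc, hu, h0, h1'⟩ := joined_of_dL _ _ h
  have hp2 := fromBlocks_idem (m := Fin M) hp
  have hp3 := fromBlocks_idem (m := (Fin n ⊕ Fin m) ⊕ Fin M) hp2
  have hq2 := fromBlocks_idem (m := Fin M) hq
  have hq3 := fromBlocks_idem (m := (Fin n ⊕ Fin m) ⊕ Fin M) hq2
  have hJ : JoinedIn {M | IsUnit M} (lamU hp3).val (lamU hq3).val := by
    rw [lamU_fromBlocks hp2, lamU_fromBlocks hp, lamU_fromBlocks hq2, lamU_fromBlocks hq]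
    exact ⟨⟨⟨c, hc⟩, h0, h1'⟩, hu⟩
  have h2 := hI _ _ hp3 hq3 hJ
  rw [K0.cls_sum hp2 (by simp), K0.cls_sum hp (by simp), K0.cls_sum hq2 (by simp),
    K0.cls_sum hq (by simp), K0.cls_zero, K0.cls_zero, add_zero, add_zero, add_zero, add_zero] at h2
  rw [h2, sub_self]

end inj

end

end Crest.Agent.R204.LineT357
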