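import Mathlib
import Crest.Agent.R204.SigSP_837
import Crest.Agent.R204.LineT3_357

/-!
# Row 204, block H (helper837): double loops (`LA (LA A)`, helper357) and tori

* `tauLA : LA (LA ℂ) → TA (Fin 2)`, `PsiLA m : LA (LA (SPt (Fin m))) → TA (Fin (m+2))`;
* `PsiLA ∘ incl2 = SPtor ∘ Phi`, `PsiLA ∘ cc = pull lo ∘ SPtor`, `PsiLA ∘ scalars = pull hi ∘ tauLA`.
-/

set_option autoImplicit false
set_option linter.unusedSectionVars false

open scoped unitInterval Topology

noncomputable section

namespace Crest.Agent.R204.Bt837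

open Clutch369 LineT357
open K357 (K0)

section values

variable {A : Type*} [NormedCommRing A] [NormedAlgebra ℂ A]

/-- values of a double loop -/
def LAv (F : LA (LA A)) (s t : I) : A := (F.fn s).fn t

theorem LAv_continuous (F : LA (LA A)) : Continuous fun p : I × I => LAv F p.1 p.2 := by
  have h1 : Continuous fun p : I × I => (F.fn p.1).fn :=
    LA.continuous_fn.comp (F.fn.continuous.comp continuous_fst)
  exact h1.eval continuous_snd

theorem LAv_per1 (F : LA (LA A)) (t : I) : LAv F 0 t = LAv F 1 t :=
  congrArg (fun g : LA A => g.fn t) F.fn01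

theorem LAv_per2 (F : LA (LA A)) (s : I) : LAv F s 0 = LAv F s 1 := (F.fn s).fn01

end values

/-- the torus function of a double loop -/
def tauLF (f : LA (LA ℂ)) : C(Fin 2 → I, ℂ) :=
  ⟨fun x => LAv f (x 1) (x 0), by
    have h : Continuous fun x : Fin 2 → I => ((x 1, x 0) : I × I) :=
      (continuous_apply 1).prodMk (continuous_apply 0)
    exact (LAv_continuous f).comp h⟩

theorem tauLF_mem (f : LA (LA ℂ)) : tauLF f ∈ TA (Fin 2) := by
  intro x i
  change LAv f _ _ = LAv f _ _
  fin_cases i
  · simp only [Fin.zero_eta, Fin.isValue, ne_eq, one_ne_zero, not_false_eq_true,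
      Function.update_of_ne, Function.update_self]
    exact LAv_per2 f _
  · simp only [Fin.mk_one, Fin.isValue, ne_eq, zero_ne_one, not_false_eq_true,
      Function.update_of_ne, Function.update_self]
    exact LAv_per1 f _

/-- the torus algebra in two variables -/
def tauLA : LA (LA ℂ) →ₐ[ℂ] TA (Fin 2) where
  toFun f := ⟨tauLF f, tauLF_mem f⟩
  map_one' := rfl
  map_mul' _ _ := rfl
  map_zero' := rfl
  map_add' _ _ := rfl
  commutes' _ := rfl

theorem tauLA_apply (f : LA (LA ℂ)) (x : Fin 2 → I) :
    ((tauLA f : TA (Fin 2)) : C(Fin 2 → I, ℂ)) x = LAv f (x 1) (x 0) := rfl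

section Psi

variable (m : ℕ)

/-- loops of loops of functions on the sphere are functions on the torus -/
def PsiLF (F : LA (LA (SPt (Fin m)))) : C(Fin (m + 2) → I, ℂ) :=
  ⟨fun x => SPv (LAv F (x (hi m 1)) (x (hi m 0))) (fun i => x (lo m i)), by
      have h : Continuous fun x : Fin (m + 2) → I => ((x (hi m 1), x (hi m 0)) : I × I) :=
        (continuous_apply _).prodMk (continuous_apply _)
      exact SPv_continuous ((LAv_continuous F).comp h) (continuous_pi fun i => continuous_apply _)⟩

theorem PsiLF_mem (F : LA (LA (SPt (Fin m)))) : PsiLF m F ∈ TA (Fin (m + 2)) := by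
  intro x i
  change SPv (LAv F _ _) _ = SPv (LAv F _ _) _
  refine cases_lohi m (fun i => ?_) ?_ ?_ i
  · have e1 : ∀ c : I, (fun j => Function.update x (lo m i) c (lo m j)) =
        Function.update (fun j => x (lo m j)) i c := by
      intro c
      ext1 j
      by_cases hj : j = i
      · subst hj; simp
      · rw [Function.update_of_ne hj, Function.update_of_ne (fun h => hj ((lo m).injective h))]
    have e2 : ∀ (c : I) (k : Fin 2), Function.update x (lo m i) c (hi m k) = x (hi m k) := by
      intro c k
      exact Function.update_of_ne (lo_ne_hi m i k).symm _ _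
    rw [e1, e1, e2, e2, e2, e2]
    exact SPv_per _ _ _
  · have e1 : ∀ c : I, (fun j => Function.update x (hi m 0) c (lo m j)) = fun j => x (lo m j) := by
      intro c
      ext1 j
      exact Function.update_of_ne (lo_ne_hi m j _) _ _
    have e2 : ∀ (c : I), Function.update x (hi m 0) c (hi m 1) = x (hi m 1) := by
      intro c
      refine Function.update_of_ne ?_ _ _
      intro h
      have := (hi m).injective h
      exact absurd this (by decide)
    rw [e1, e1, e2, e2, Function.update_self, Function.update_self, LAv_per2]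
  · have e1 : ∀ c : I, (fun j => Function.update x (hi m 1) c (lo m j)) = fun j => x (lo m j) := by
      intro c
      ext1 j
      exact Function.update_of_ne (lo_ne_hi m j _) _ _
    have e2 : ∀ (c : I), Function.update x (hi m 1) c (hi m 0) = x (hi m 0) := by
      intro c
      refine Function.update_of_ne ?_ _ _
      intro h
      have := (hi m).injective h
      exact absurd this (by decide)
    rw [e1, e1, e2, e2, Function.update_self, Function.update_self, LAv_per1]

/-- loops of loops of functions on the sphere are functions on the torus -/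
def PsiLA : LA (LA (SPt (Fin m))) →ₐ[ℂ] TA (Fin (m + 2)) where
  toFun F := ⟨PsiLF m F, PsiLF_mem m F⟩
  map_one' := rfl
  map_mul' _ _ := rfl
  map_zero' := rfl
  map_add' _ _ := rfl
  commutes' _ := rfl

theorem PsiLA_v (F : LA (LA (SPt (Fin m)))) (x : Fin (m + 2) → I) :
    ((PsiLA m F : TA (Fin (m + 2))) : C(Fin (m + 2) → I, ℂ)) x =
      SPv (LAv F (x (hi m 1)) (x (hi m 0))) (fun i => x (lo m i)) := rfl

theorem LAv_incl2 (F : SigA (Sig.aug (SPe (Fin m)))) (s t : I) :
    LAv (incl2 (SPe (Fin m)) F) s t = SSv _ F s t := rfl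

/-- the torus diagram -/
theorem PsiLA_incl2 (F : SigA (Sig.aug (SPe (Fin m)))) :
    PsiLA m (incl2 (SPe (Fin m)) F) = SPtor _ (Phi m F) := by
  refine TA_ext fun x => ?_
  rw [PsiLA_v, SPtor_apply, Phi_v, LAv_incl2]

theorem LAv_cc {A : Type*} [NormedCommRing A] [NormedAlgebra ℂ A] (a : A) (s t : I) :
    LAv (cc a) s t = a := rfl

theorem PsiLA_cc (p : SPt (Fin m)) : PsiLA m (cc p) = pull (lo m) (SPtor _ p) := by
  refine TA_ext fun x => ?_
  rw [PsiLA_v, pull_apply, SPtor_apply, LAv_cc]

/-- scalar double loops -/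
def scLA (A : Type*) [NormedCommRing A] [NormedAlgebra ℂ A] : LA (LA ℂ) →ₐ[ℂ] LA (LA A) :=
  LA.map (LA.map (Algebra.ofId ℂ A) (continuous_ofId A)) (LA.continuous_map _ _)

theorem LAv_scLA {A : Type*} [NormedCommRing A] [NormedAlgebra ℂ A] (f : LA (LA ℂ)) (s t : I) :
    LAv (scLA A f) s t = algebraMap ℂ A (LAv f s t) := rfl

theorem PsiLA_scLA (f : LA (LA ℂ)) :
    PsiLA m (scLA (SPt (Fin m)) f) = pull (hi m) (tauLA f) := by
  refine TA_ext fun x => ?_
  rw [PsiLA_v, pull_apply, tauLA_apply, LAv_scLA, SPv_alg]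

end Psi

end Crest.Agent.R204.Bt837
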