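import Mathlib
import Crest.Agent.R204.TorLA_837
import Crest.Agent.R204.LineT4_357
import Crest.Agent.R204.Per_369
import Crest.Agent.R204.SigSP1_837

/-!
# Row 204, block H (helper837): the generators of `K̃(S^{2a})`

* `PB m ∈ K0 (TA (Fin m))`: product of the torus classes of the pairs of coordinates `(2i, 2i+1)`;
* `bb a ∈ K0 (SPt (Fin (2a)))`: `KZ` (reduced `K` is free on it), its torus image is `PB (2a)`,
  `psi p (bb a) = p^a • bb a`.
-/

set_option autoImplicit false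
set_option linter.unusedSectionVars false

open scoped unitInterval Topology

noncomputable section

namespace Crest.Agent.R204.Bt837

open Clutch369 LineT357 BottK369
open K357 (K0 psi psi_map)

/-! ## the torus algebra with frozen instances -/

/-- functions on the torus, frozen instances -/
def TAt (N : Type) [DecidableEq N] : Type := TA N

instance (N : Type) [DecidableEq N] : CommRing (TAt N) := inferInstanceAs (CommRing (TA N))
instance (N : Type) [DecidableEq N] : Algebra ℂ (TAt N) := inferInstanceAs (Algebra ℂ (TA N))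

section

variable {M N L : Type} [DecidableEq M] [DecidableEq N] [DecidableEq L]

/-- pull back -/
def tpull (e : M ↪ N) : TAt M →ₐ[ℂ] TAt N := (pull e : TA M →ₐ[ℂ] TA N)

/-- pull back in `K`-theory -/
def kpull (e : M ↪ N) : K0 (TAt M) →+* K0 (TAt N) := K0.mapRing (tpull e : TAt M →+* TAt N)

theorem kpull_apply (e : M ↪ N) (x : K0 (TAt M)) :
    kpull e x = K0.map (tpull e : TAt M →+* TAt N) x := rfl

theorem kpull_comp (e : M ↪ N) (f : N ↪ L) (x : K0 (TAt M)) :
    kpull f (kpull e x) = kpull (e.trans f) x := by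
  rw [kpull_apply, kpull_apply, kpull_apply, ← K0.map_comp]
  rfl

theorem kpull_id (x : K0 (TAt M)) (e : M ↪ M) (he : ∀ i, e i = i) : kpull e x = x := by
  have : e = Function.Embedding.refl M := Function.Embedding.ext he
  subst this
  rw [kpull_apply]
  exact K0.map_id x

theorem psi_kpull {p : ℕ} [Fact p.Prime] (e : M ↪ N) (x : K0 (TAt M)) :
    psi p (TAt N) (kpull e x) = kpull e (psi p (TAt M) x) := psi_map (p := p) (tpull e) x

end

/-- sphere functions as torus functions -/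
def ttor (N : Type) [DecidableEq N] : SPt N →ₐ[ℂ] TAt N := (SPtor N : SPt N →ₐ[ℂ] TA N)

/-- sphere classes as torus classes -/
def ktor (N : Type) [DecidableEq N] : K0 (SPt N) →+* K0 (TAt N) :=
  K0.mapRing (ttor N : SPt N →+* TAt N)

/-- the base point -/
def kev (N : Type) : K0 (SPt N) →+* K0 ℂ := K0.mapRing (SPe N : SPt N →+* ℂ)

theorem kev_apply (N : Type) (x : K0 (SPt N)) : kev N x = K0.map (SPe N : SPt N →+* ℂ) x := rfl

/-- **the sphere is detected in the torus** -/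
theorem ktor_ext {N : Type} [DecidableEq N] [Fintype N] {x y : K0 (SPt N)}
    (h1 : kev N x = kev N y) (h2 : ktor N x = ktor N y) : x = y := torus_ext (N := N) h1 h2

theorem psi_ktor {p : ℕ} [Fact p.Prime] {N : Type} [DecidableEq N] (x : K0 (SPt N)) :
    psi p (TAt N) (ktor N x) = ktor N (psi p (SPt N) x) := psi_map (p := p) (ttor N) x

/-! ## the product of torus classes -/

/-- `tauLA` with values in the frozen type -/
def tauT : LA (LA ℂ) →ₐ[ℂ] TAt (Fin 2) := (tauLA : LA (LA ℂ) →ₐ[ℂ] TA (Fin 2))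

/-- the torus class -/
def bTor : K0 (TAt (Fin 2)) := K0.map (tauT : LA (LA ℂ) →+* TAt (Fin 2)) (bT ℂ)

theorem psi_bTor (p : ℕ) [Fact p.Prime] : psi p (TAt (Fin 2)) bTor = p * bTor := by
  rw [bTor, psi_map (p := p) tauT (bT ℂ), psi_bT]
  have h2 : (p : K0 (LA (LA ℂ))) * bT ℂ = p • bT ℂ := by rw [nsmul_eq_mul]
  rw [h2, map_nsmul]
  exact nsmul_eq_mul p (K0.map (tauT : LA (LA ℂ) →+* TAt (Fin 2)) (bT ℂ))

/-- the pair `(2i, 2i+1)` -/
def pr2 (m i : ℕ) (h : 2 * i + 1 < m) : Fin 2 ↪ Fin m :=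
  ⟨fun k => ⟨2 * i + k, by omega⟩, fun k l hkl => by
    have := congrArg Fin.val hkl
    simp only at this
    exact Fin.ext (by omega)⟩

theorem pr2_val (m i : ℕ) (h : 2 * i + 1 < m) (k : Fin 2) : ((pr2 m i h k : Fin m) : ℕ) = 2 * i + k :=
  rfl

/-- the factors -/
def Bm (m i : ℕ) : K0 (TAt (Fin m)) := if h : 2 * i + 1 < m then kpull (pr2 m i h) bTor else 1

/-- the product of the torus classes -/
def PB (m : ℕ) : K0 (TAt (Fin m)) := ∏ i ∈ Finset.range (m / 2), Bm m i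

/-- first block of coordinates -/
def cA (m n : ℕ) : Fin m ↪ Fin (m + n) := ⟨Fin.castAdd n, Fin.castAdd_injective m n⟩
/-- second block of coordinates -/
def nA (m n : ℕ) : Fin n ↪ Fin (m + n) := ⟨Fin.natAdd m, Fin.natAdd_injective n m⟩

theorem kpull_cA_Bm (m n i : ℕ) (hi : i < m / 2) : kpull (cA m n) (Bm m i) = Bm (m + n) i := by
  have h1 : 2 * i + 1 < m := by omega
  have h2 : 2 * i + 1 < m + n := by omega
  rw [Bm, Bm, dif_pos h1, dif_pos h2, kpull_comp]
  rfl

theorem kpull_nA_Bm (m n i : ℕ) (hm : Even m) (hi : i < n / 2) :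
    kpull (nA m n) (Bm n i) = Bm (m + n) (m / 2 + i) := by
  obtain ⟨a, ha⟩ := hm
  have h1 : 2 * i + 1 < n := by omega
  have h2 : 2 * (m / 2 + i) + 1 < m + n := by omega
  rw [Bm, Bm, dif_pos h1, dif_pos h2, kpull_comp]
  congr 1
  congr 1
  refine Function.Embedding.ext fun k => Fin.ext ?_
  change m + (2 * i + (k : ℕ)) = 2 * (m / 2 + i) + k
  omega

theorem PB_add (m n : ℕ) (hm : Even m) (hn : Even n) :
    PB (m + n) = kpull (cA m n) (PB m) * kpull (nA m n) (PB n) := by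
  obtain ⟨a, ha⟩ := hm
  obtain ⟨c, hc⟩ := hn
  have h : (m + n) / 2 = m / 2 + n / 2 := by omega
  rw [PB, h, Finset.prod_range_add, PB, PB, map_prod, map_prod]
  congr 1
  · refine Finset.prod_congr rfl fun i hi => (kpull_cA_Bm m n i (Finset.mem_range.1 hi)).symm
  · refine Finset.prod_congr rfl fun i hi => (kpull_nA_Bm m n i ⟨a, ha⟩ (Finset.mem_range.1 hi)).symm

theorem PB_zero : PB 0 = 1 := by
  rw [PB]
  simp

theorem PB_two : PB 2 = bTor := by
  rw [PB]
  simp only [Nat.reduceDiv, Finset.range_one, Finset.prod_singleton]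
  rw [Bm, dif_pos (by norm_num)]
  refine kpull_id _ _ fun i => Fin.ext ?_
  rw [pr2_val]
  omega

theorem psi_PB (p : ℕ) [Fact p.Prime] (m : ℕ) :
    psi p (TAt (Fin m)) (PB m) = (p : K0 (TAt (Fin m))) ^ (m / 2) * PB m := by
  rw [PB, map_prod]
  have h : ∀ i ∈ Finset.range (m / 2), psi p (TAt (Fin m)) (Bm m i) =
      (p : K0 (TAt (Fin m))) * Bm m i := by
    intro i hi
    have hi' := Finset.mem_range.1 hi
    have h1 : 2 * i + 1 < m := by omega
    rw [Bm, dif_pos h1, psi_kpull, psi_bTor, map_mul, map_natCast]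
  rw [Finset.prod_congr rfl h, Finset.prod_mul_distrib, Finset.prod_const, Finset.card_range]

/-! ## the double suspension step -/

/-- the double suspension isomorphism -/
def PhiE (m : ℕ) : SigA (Sig.aug (SPe (Fin m))) ≃ₐ[ℂ] SPt (Fin (m + 2)) :=
  AlgEquiv.ofBijective (Phi m) ⟨Phi_injective m, Phi_surjective m⟩

/-- `PsiLA` with values in the frozen type -/
def PsiT (m : ℕ) : LA (LA (SPt (Fin m))) →ₐ[ℂ] TAt (Fin (m + 2)) :=
  (PsiLA m : LA (LA (SPt (Fin m))) →ₐ[ℂ] TA (Fin (m + 2)))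

/-- the double suspension of a reduced class -/
def dsus (m : ℕ) (x : K0 (SPt (Fin m))) : K0 (SPt (Fin (m + 2))) :=
  K0.map ((PhiE m : SigA (Sig.aug (SPe (Fin m))) ≃ₐ[ℂ] SPt (Fin (m + 2))) :
    SigA (Sig.aug (SPe (Fin m))) →+* SPt (Fin (m + 2))) (Bott (SPe (Fin m)) x)

theorem dsus_kz (m : ℕ) {x : K0 (SPt (Fin m))} (h : KZ (SPe (Fin m)) x) :
    KZ (SPe (Fin (m + 2))) (dsus m x) := KZ.of_equiv h.bott (PhiE m) (fun _ => rfl)

theorem dsus_tor (m : ℕ) (x : K0 (SPt (Fin m))) (hx : kev (Fin m) x = 0) :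
    ktor (Fin (m + 2)) (dsus m x) =
      kpull (lo m) (ktor (Fin m) x) * kpull (hi m) bTor := by
  have h1 : ktor (Fin (m + 2)) (dsus m x) =
      K0.map (PsiT m : LA (LA (SPt (Fin m))) →+* TAt (Fin (m + 2)))
      (K0.map ((incl2 (SPe (Fin m)) : SigA (Sig.aug (SPe (Fin m))) →ₐ[ℂ] LA (LA (SPt (Fin m)))) :
        SigA (Sig.aug (SPe (Fin m))) →+* LA (LA (SPt (Fin m)))) (Bott (SPe (Fin m)) x)) := by
    rw [ktor, K0.mapRing_apply, dsus, ← K0.map_comp, ← K0.map_comp]
    exact congrArg (fun φ => K0.map φ (Bott (SPe (Fin m)) x))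
      (RingHom.ext fun F => (PsiLA_incl2 m F).symm)
  rw [h1, map_incl2_Bott_red x hx, K0.map_mul']
  congr 1
  · rw [← K0.map_comp, kpull_apply, ktor, K0.mapRing_apply, ← K0.map_comp]
    exact congrArg (fun φ => K0.map φ x) (RingHom.ext fun F => PsiLA_cc m F)
  · rw [← map_bT (Algebra.ofId ℂ (SPt (Fin m))) (continuous_ofId _), ← K0.map_comp, kpull_apply,
      bTor, ← K0.map_comp]
    exact congrArg (fun φ => K0.map φ (bT ℂ)) (RingHom.ext fun F => PsiLA_scLA m F)

/-! ## the generators -/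

/-- the generator of reduced `K` of `S^0` -/
def b0 : K0 (SPt (Fin 0)) :=
  K0.map ((SP0.symm : (ℂ × ℂ) ≃ₐ[ℂ] SPt (Fin 0)) : (ℂ × ℂ) →+* SPt (Fin 0)) (K0.cls e0)

theorem b0_kz : KZ (SPe (Fin 0)) b0 := KZ.of_equiv kz_fst SP0.symm (fun _ => rfl)

theorem b0_tor : ktor (Fin 0) b0 = 1 := by
  rw [ktor, K0.mapRing_apply, b0, ← K0.map_comp, K0.map_cls _ e0_idem]
  have h : e0.map (((ttor (Fin 0) : SPt (Fin 0) →+* TAt (Fin 0))).comp
      ((SP0.symm : (ℂ × ℂ) ≃ₐ[ℂ] SPt (Fin 0)) : (ℂ × ℂ) →+* SPt (Fin 0))) = 1 := by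
    ext i j
    have hi : i = j := Subsingleton.elim _ _
    subst hi
    rw [Matrix.map_apply, Matrix.one_apply_eq]
    have h1 : e0 i i = (0, 1) := by
      change ((0 : Matrix Unit Unit ℂ) i i, (1 : Matrix Unit Unit ℂ) i i) = (0, 1)
      rw [Matrix.zero_apply, Matrix.one_apply_eq]
    rw [h1]
    rfl
  rw [h, K0.cls_one]
  simp

/-- **the generators** -/
def bb : (a : ℕ) → K0 (SPt (Fin (2 * a)))
  | 0 => b0
  | a + 1 => dsus (2 * a) (bb a)

theorem bb_kz : ∀ a, KZ (SPe (Fin (2 * a))) (bb a)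
  | 0 => b0_kz
  | a + 1 => dsus_kz (2 * a) (bb_kz a)

theorem bb_tor : ∀ a, ktor (Fin (2 * a)) (bb a) = PB (2 * a)
  | 0 => by
    rw [bb]
    exact b0_tor.trans PB_zero.symm
  | a + 1 => by
    change ktor (Fin (2 * a + 2)) (dsus (2 * a) (bb a)) = PB (2 * a + 2)
    rw [dsus_tor _ _ (bb_kz a).1, bb_tor a, PB_add (2 * a) 2 ⟨a, by ring⟩ ⟨1, rfl⟩, PB_two]
    rfl

theorem psi_bb (p : ℕ) [Fact p.Prime] (a : ℕ) :
    psi p (SPt (Fin (2 * a))) (bb a) = (p : ℤ) ^ a • bb a := by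
  have h2 : 2 * a / 2 = a := by omega
  apply ktor_ext
  · have h1 : kev (Fin (2 * a)) (bb a) = 0 := (bb_kz a).1
    rw [map_zsmul, h1, smul_zero]
    have h3 := psi_map (p := p) (SPe (Fin (2 * a))) (bb a)
    rw [kev_apply, ← h3, ← kev_apply, h1, map_zero]
  · rw [← psi_ktor, bb_tor, psi_PB, map_zsmul, bb_tor, h2, zsmul_eq_mul]
    push_cast
    rfl

end Crest.Agent.R204.Bt837
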