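import Mathlib
import Crest.Agent.R204.BInd_837
import Crest.Agent.R204.Ex7_837
import Crest.Agent.R204.HIso_472

/-!
# Row 204, block H (helper837): products of the generators of `K̃(S^{2a})`

* `IsB m b` : `b ∈ K0 (SPt (Fin m))` is reduced with torus image `PB m`; unique (`IsB.unique`), exists for
  `m` even and is then a free generator (`exists_isB`);
* `bE m`, `bE_isB`, `bE_kz`, `psi_bE`;
* for collapse maps `c : I^m → Y`, `d : I^n → Z`: `colE`, `smashE`, and
  `isB_ext : K0.map smashE (ext x x') = b_{m+n}`.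
-/

set_option autoImplicit false
set_option linter.unusedSectionVars false

open scoped unitInterval Topology

noncomputable section

namespace Crest.Agent.R204.Bt837

open Clutch369 LineT357 BottK369 H472
open Ex837 (smC pdC)
open K357 (K0 psi psi_map)

/-- the class `b_m` -/
def IsB (m : ℕ) (b : K0 (SPt (Fin m))) : Prop := kev (Fin m) b = 0 ∧ ktor (Fin m) b = PB m

theorem IsB.unique {m : ℕ} {b b' : K0 (SPt (Fin m))} (h : IsB m b) (h' : IsB m b') : b = b' :=
  ktor_ext (h.1.trans h'.1.symm) (h.2.trans h'.2.symm)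

theorem exists_isB {m : ℕ} (hm : Even m) : ∃ b : K0 (SPt (Fin m)), IsB m b ∧
    KZ (SPe (Fin m)) b ∧ ∀ (p : ℕ) [Fact p.Prime], psi p (SPt (Fin m)) b = (p : ℤ) ^ (m / 2) • b := by
  obtain ⟨a, ha⟩ := hm
  have h : m = 2 * a := by omega
  subst h
  refine ⟨bb a, ⟨(bb_kz a).1, bb_tor a⟩, bb_kz a, fun p _ => ?_⟩
  rw [psi_bb]
  congr 2
  omega

theorem IsB.kz {m : ℕ} (hm : Even m) {b : K0 (SPt (Fin m))} (h : IsB m b) :
    KZ (SPe (Fin m)) b := by
  obtain ⟨b', h1, h2, -⟩ := exists_isB hm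
  rw [h.unique h1]
  exact h2

theorem IsB.psi {m : ℕ} (hm : Even m) {b : K0 (SPt (Fin m))} (h : IsB m b) (p : ℕ) [Fact p.Prime] :
    K357.psi p (SPt (Fin m)) b = (p : ℤ) ^ (m / 2) • b := by
  obtain ⟨b', h1, -, h3⟩ := exists_isB hm
  rw [h.unique h1]
  exact h3 p

open Classical in
/-- the class `b_m` (junk for `m` odd) -/
def bE (m : ℕ) : K0 (SPt (Fin m)) := if h : ∃ b, IsB m b then h.choose else 0

theorem bE_isB {m : ℕ} (hm : Even m) : IsB m (bE m) := by
  obtain ⟨b, hb, -⟩ := exists_isB hm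
  have h : ∃ b, IsB m b := ⟨b, hb⟩
  rw [bE, dif_pos h]
  exact h.choose_spec

theorem bE_kz {m : ℕ} (hm : Even m) : KZ (SPe (Fin m)) (bE m) := (bE_isB hm).kz hm

theorem psi_bE {m : ℕ} (hm : Even m) (p : ℕ) [Fact p.Prime] :
    K357.psi p (SPt (Fin m)) (bE m) = (p : ℤ) ^ (m / 2) • bE m := (bE_isB hm).psi hm p

/-! ## `SPt (Fin m) ≃ SA (Fin m)`, `m > 0` -/

section SAp

variable {m : ℕ} (hm : 0 < m)

/-- `SPt (Fin m) ≃ SA (Fin m)` -/
def SPSAp : SPt (Fin m) ≃ₐ[ℂ] SA (Fin m) where
  toFun p := ⟨(Subtype.val p : ℂ × C(Fin m → I, ℂ)).2, fun _ hx _ hy =>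
    (SPv_bd p hx).trans (SPv_bd p hy).symm⟩
  invFun f := ⟨((f : C(Fin m → I, ℂ)) (fun _ => 0), (f : C(Fin m → I, ℂ))),
    fun x hx => f.2 x hx _ ⟨⟨0, hm⟩, Or.inl rfl⟩⟩
  left_inv p := SPv_ext (SPv_bd p ⟨⟨0, hm⟩, Or.inl rfl⟩) fun _ => rfl
  right_inv _ := rfl
  map_mul' _ _ := rfl
  map_add' _ _ := rfl
  commutes' _ := rfl

theorem SPSAp_apply (p : SPt (Fin m)) (x : Fin m → I) :
    ((SPSAp hm p : SA (Fin m)) : C(Fin m → I, ℂ)) x = SPv p x := rfl

theorem SPSAp_symm_v (f : SA (Fin m)) (x : Fin m → I) :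
    SPv ((SPSAp hm).symm f) x = (f : C(Fin m → I, ℂ)) x := rfl

theorem SPSAp_symm_e (f : SA (Fin m)) {x : Fin m → I} (hx : x ∈ Cube.boundary (Fin m)) :
    SPe _ ((SPSAp hm).symm f) = (f : C(Fin m → I, ℂ)) x :=
  f.2 _ ⟨⟨0, hm⟩, Or.inl rfl⟩ _ hx

end SAp

/-! ## collapse maps -/

section col

variable {m n : ℕ} {Y Z : Type} [TopologicalSpace Y] [TopologicalSpace Z] [T2Space Y] [T2Space Z]
  {y : Y} {z : Z}

/-- `SPt (Fin m) ≃ C(Y)` -/
def colE (hm : 0 < m) (c : Collapse (Fin m) Y y) : C(Y, ℂ) ≃ₐ[ℂ] SPt (Fin m) :=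
  c.equiv.trans (SPSAp hm).symm

theorem colE_v (hm : 0 < m) (c : Collapse (Fin m) Y y) (f : C(Y, ℂ)) (x : Fin m → I) :
    SPv (colE hm c f) x = f (c.p x) := rfl

theorem colE_e (hm : 0 < m) (c : Collapse (Fin m) Y y) (f : C(Y, ℂ)) :
    SPe _ (colE hm c f) = f y := by
  have h : (fun _ => 0 : Fin m → I) ∈ Cube.boundary (Fin m) := ⟨⟨0, hm⟩, Or.inl rfl⟩
  have h2 : SPe _ (colE hm c f) = f (c.p fun _ => 0) := SPSAp_symm_e hm (c.equiv f) h
  rw [h2, (c.bd _).2 h]

/-- `Smash y z ≃ SPt (Fin (m+n))` -/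
def smashE (hm : 0 < m) (c : Collapse (Fin m) Y y) (d : Collapse (Fin n) Z z) :
    Smash y z ≃ₐ[ℂ] SPt (Fin (m + n)) :=
  ((c.smashEquiv d).trans (appendEquiv m n).symm).trans (SPSAp (Nat.add_pos_left hm n)).symm

theorem smashE_v (hm : 0 < m) (c : Collapse (Fin m) Y y) (d : Collapse (Fin n) Z z)
    (F : Smash y z) (u : Fin (m + n) → I) :
    SPv (smashE hm c d F) u =
      (F : C(Y × Z, ℂ)) (c.p (fun i => u (cA m n i)), d.p (fun i => u (nA m n i))) := rfl

theorem smashE_e (hm : 0 < m) (c : Collapse (Fin m) Y y) (d : Collapse (Fin n) Z z)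
    (F : Smash y z) : SPe _ (smashE hm c d F) = (F : C(Y × Z, ℂ)) (y, z) := by
  have h : (fun _ => 0 : Fin (m + n) → I) ∈ Cube.boundary (Fin (m + n)) :=
    ⟨⟨0, Nat.add_pos_left hm n⟩, Or.inl rfl⟩
  have h2 : SPe _ (smashE hm c d F) = SPv (smashE hm c d F) (fun _ => 0) := (SPv_bd _ h).symm
  rw [h2, smashE_v]
  have h3 : (fun _ => 0 : Fin m → I) ∈ Cube.boundary (Fin m) := ⟨⟨0, hm⟩, Or.inl rfl⟩
  refine F.2 _ (Or.inl ?_) _ (Or.inl rfl)
  exact (c.bd _).2 h3

/-- functions on `Y × Z` as functions on the torus -/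
def torYZ (c : Collapse (Fin m) Y y) (d : Collapse (Fin n) Z z) :
    C(Y × Z, ℂ) →ₐ[ℂ] TAt (Fin (m + n)) :=
  (ContinuousMap.compRightAlgHom ℂ ℂ
    (⟨fun u => (c.p (fun i => u (cA m n i)), d.p (fun i => u (nA m n i))), by
      have h1 : Continuous fun u : Fin (m + n) → I => fun i => u (cA m n i) :=
        continuous_pi fun i => continuous_apply (cA m n i)
      have h2 : Continuous fun u : Fin (m + n) → I => fun i => u (nA m n i) :=
        continuous_pi fun i => continuous_apply (nA m n i)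
      exact (c.p.continuous.comp h1).prodMk (d.p.continuous.comp h2)⟩ :
      C(Fin (m + n) → I, Y × Z))).codRestrict (TA (Fin (m + n))) (by
        intro F u i
        change F (c.p (fun j => Function.update u i 0 (cA m n j)),
          d.p (fun j => Function.update u i 0 (nA m n j))) =
          F (c.p (fun j => Function.update u i 1 (cA m n j)),
          d.p (fun j => Function.update u i 1 (nA m n j)))
        refine Fin.addCases (fun k => ?_) (fun k => ?_) i
        · have e1 : ∀ c' : I, c' = 0 ∨ c' = 1 →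
              c.p (fun j => Function.update u (Fin.castAdd n k) c' (cA m n j)) = y := by
            intro c' hc'
            refine (c.bd _).2 ⟨k, ?_⟩
            have : Function.update u (Fin.castAdd n k) c' (cA m n k) = c' :=
              Function.update_self _ _ _
            simp only [this]
            exact hc'
          have e2 : ∀ c' : I, (fun j => Function.update u (Fin.castAdd n k) c' (nA m n j)) =
              fun j => u (nA m n j) := by
            intro c'
            ext1 j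
            refine Function.update_of_ne ?_ _ _
            intro h
            have := congrArg Fin.val h
            simp only [nA, Function.Embedding.coeFn_mk, Fin.val_natAdd, Fin.val_castAdd] at this
            omega
          rw [e1 0 (Or.inl rfl), e1 1 (Or.inr rfl), e2, e2]
        · have e1 : ∀ c' : I, c' = 0 ∨ c' = 1 →
              d.p (fun j => Function.update u (Fin.natAdd m k) c' (nA m n j)) = z := by
            intro c' hc'
            refine (d.bd _).2 ⟨k, ?_⟩
            have : Function.update u (Fin.natAdd m k) c' (nA m n k) = c' :=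
              Function.update_self _ _ _
            simp only [this]
            exact hc'
          have e2 : ∀ c' : I, (fun j => Function.update u (Fin.natAdd m k) c' (cA m n j)) =
              fun j => u (cA m n j) := by
            intro c'
            ext1 j
            refine Function.update_of_ne ?_ _ _
            intro h
            have := congrArg Fin.val h
            simp only [cA, Function.Embedding.coeFn_mk, Fin.val_natAdd, Fin.val_castAdd] at this
            omega
          rw [e1 0 (Or.inl rfl), e1 1 (Or.inr rfl), e2, e2])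

theorem TAt_ext {N : Type} [DecidableEq N] {f g : TAt N}
    (h : ∀ x, (Subtype.val f : C(N → I, ℂ)) x = (Subtype.val g : C(N → I, ℂ)) x) : f = g :=
  Subtype.ext (ContinuousMap.ext h)

theorem torYZ_i1 (hm : 0 < m) (c : Collapse (Fin m) Y y) (d : Collapse (Fin n) Z z)
    (f : C(Y, ℂ)) : torYZ c d ((pdC y z).i1 f) = tpull (cA m n) (ttor _ (colE hm c f)) :=
  TAt_ext fun _ => rfl

theorem torYZ_i2 (hn : 0 < n) (c : Collapse (Fin m) Y y) (d : Collapse (Fin n) Z z)
    (f : C(Z, ℂ)) : torYZ c d ((pdC y z).i2 f) = tpull (nA m n) (ttor _ (colE hn d f)) :=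
  TAt_ext fun _ => rfl

theorem torYZ_inc (hm : 0 < m) (c : Collapse (Fin m) Y y) (d : Collapse (Fin n) Z z)
    (F : Smash y z) : torYZ c d ((smC y z).inc F) = ttor _ (smashE hm c d F) :=
  TAt_ext fun _ => rfl

/-- the class of `C(Y)` corresponding to `b_m` -/
def IsBY (hm : 0 < m) (c : Collapse (Fin m) Y y) (x : K0 C(Y, ℂ)) : Prop :=
  IsB m (K0.map ((colE hm c : C(Y, ℂ) ≃ₐ[ℂ] SPt (Fin m)) : C(Y, ℂ) →+* SPt (Fin m)) x)

/-- **products**: the external product of `b_m` and `b_n` is `b_{m+n}` -/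
theorem isB_ext (hm : 0 < m) (hn : 0 < n) (em : Even m) (en : Even n)
    (c : Collapse (Fin m) Y y) (d : Collapse (Fin n) Z z) {x : K0 C(Y, ℂ)} {x' : K0 C(Z, ℂ)}
    (hx : IsBY hm c x) (hx' : IsBY hn d x') :
    IsB (m + n) (K0.map ((smashE hm c d : Smash y z ≃ₐ[ℂ] SPt (Fin (m + n))) :
      Smash y z →+* SPt (Fin (m + n))) ((smC y z).ext x x')) := by
  have h1 : K0.map (pdC y z).e.toRingHom x = 0 := by
    have := hx.1
    rw [kev_apply, ← K0.map_comp] at this
    rw [← this]
    exact congrArg (fun φ => K0.map φ x) (RingHom.ext fun f => (colE_e hm c f).symm)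
  have h2 : K0.map (pdC y z).e'.toRingHom x' = 0 := by
    have := hx'.1
    rw [kev_apply, ← K0.map_comp] at this
    rw [← this]
    exact congrArg (fun φ => K0.map φ x') (RingHom.ext fun f => (colE_e hn d f).symm)
  constructor
  · rw [kev_apply, ← K0.map_comp]
    rw [← (smC y z).ev_ext h1 h2]
    exact congrArg (fun φ => K0.map φ ((smC y z).ext x x'))
      (RingHom.ext fun F => smashE_e hm c d F)
  · have e1 : ktor (Fin (m + n)) (K0.map ((smashE hm c d : Smash y z ≃ₐ[ℂ] SPt (Fin (m + n))) :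
        Smash y z →+* SPt (Fin (m + n))) ((smC y z).ext x x')) =
        K0.map ((torYZ c d : C(Y × Z, ℂ) →ₐ[ℂ] TAt (Fin (m + n))) : C(Y × Z, ℂ) →+* TAt (Fin (m + n)))
          (K0.map (smC y z).inc.toRingHom ((smC y z).ext x x')) := by
      rw [ktor, K0.mapRing_apply, ← K0.map_comp, ← K0.map_comp]
      exact congrArg (fun φ => K0.map φ ((smC y z).ext x x'))
        (RingHom.ext fun F => (torYZ_inc hm c d F).symm)
    rw [e1, (smC y z).inc_ext h1 h2, K0.map_mul', PB_add m n em en]
    congr 1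
    · rw [← K0.map_comp, ← hx.2, ktor, K0.mapRing_apply, kpull_apply, ← K0.map_comp, ← K0.map_comp]
      exact congrArg (fun φ => K0.map φ x) (RingHom.ext fun F => torYZ_i1 hm c d F)
    · rw [← K0.map_comp, ← hx'.2, ktor, K0.mapRing_apply, kpull_apply, ← K0.map_comp, ← K0.map_comp]
      exact congrArg (fun φ => K0.map φ x') (RingHom.ext fun F => torYZ_i2 hn c d F)

end col

end Crest.Agent.R204.Bt837
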