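import Crest.Agent.R204.Odd_369
import Crest.Agent.R204.SigSP1_837
import Crest.Agent.R204.ExMb_515

/-!
# Row 204, block H: odd spheres and `K1Triv` of even spheres, helper369

* `kn_SP_odd a  : K̃(SP (2a+1)) = 0`;
* `kn_SA_odd a  : K̃(SA (2a+1)) = 0` in the form used by 515's `E3`;
* `k1Triv_SP a  : K1Triv (SPt (Fin (2a)))`, `k1Triv_SA a : K1Triv (SA (Fin (2a+2)))`,
  `k1Triv_even (c : Collapse (Fin (2a)) Y y) : K1Triv C(Y, ℂ)` (`a ≥ 1`).
-/

set_option autoImplicit false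
set_option linter.unusedSectionVars false
set_option linter.unusedSimpArgs false

open Matrix Topology
open scoped unitInterval
open Crest.Agent.R204.K357 Crest.Agent.R204.Clutch369 Crest.Agent.R204.BottLoop313
open Crest.Agent.R204.Bt837 Crest.Agent.R204.H472

namespace Crest.Agent.R204.BottK369

noncomputable section

/-- `K̃(S^{2a+1}) = 0` -/
theorem kn_SP_odd (a : ℕ) : KN (SPe (Fin (2 * a + 1))) := by
  induction a with
  | zero => exact kn_sig_SP0.of_bijective (Phi1 0) (Phi1_injective 0) (Phi1_surjective 0) (Phi1_ev 0)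
  | succ a ih => exact kn_SP_step _ ih

/-- `K̃(Σ S^{2a}) = 0` -/
theorem kn_sig_SP_even (a : ℕ) : KN (Sig.aug (SPe (Fin (2 * a)))) :=
  (kn_SP_odd a).of_bijective' (Phi1 (2 * a)) (Phi1_injective _) (Phi1_surjective _) (Phi1_ev _)

theorem k1Triv_SP (a : ℕ) : Ex837.K1Triv (SPt (Fin (2 * a))) := k1Triv_of (kn_sig_SP_even a)

theorem k1Triv_SA (a : ℕ) : Ex837.K1Triv (SA (Fin (2 * a + 1 + 1))) :=
  Ex837.K1Triv.of_equiv (k1Triv_SP (a + 1)) (SPSA (2 * a + 1) : SPt (Fin (2 * a + 1 + 1)) ≃+* _)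
    (SPSA_continuous _)

theorem k1Triv_even {Y : Type} [TopologicalSpace Y] [CompactSpace Y] [T2Space Y] {y : Y} {a : ℕ}
    (ha : 1 ≤ a) (c : Collapse (Fin (2 * a)) Y y) : Ex837.K1Triv C(Y, ℂ) := by
  obtain ⟨b, rfl⟩ : ∃ b, a = b + 1 := ⟨a - 1, by omega⟩
  exact k1Triv_collapse (N := Fin (2 * b + 1 + 1)) c (k1Triv_SA b)

/-- `K̃(SA (2a+1)) = 0` -/
theorem kn_SA_odd (a : ℕ) {x₀ : Fin (2 * a + 1) → I} (h₀ : x₀ ∈ Cube.boundary (Fin (2 * a + 1)))
    (x : K0 (SA (Fin (2 * a + 1)))) (hx : ExM515.evK (Cube.boundary (Fin (2 * a + 1))) x₀ x = 0) :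
    x = 0 := by
  have h := KN.of_equiv (A := SPt (Fin (2 * a + 1))) (B := SA (Fin (2 * a + 1)))
    (δ := (CR.ev x₀ : SA (Fin (2 * a + 1)) →ₐ[ℂ] ℂ)) (kn_SP_odd a) (SPSA (2 * a))
    (fun p => SPSA_ev (2 * a) p h₀)
  exact h x hx

end

end Crest.Agent.R204.BottK369
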