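import Mathlib
import Crest.Agent.R204.BProd_837
import Crest.Agent.R204.HMainC_515
import Crest.Agent.R204.Odd2_369

/-!
# Row 204, block H (helper837): the K-theoretic input `KIn a y` of 515 for every collapse `I^{2a} → Y`
-/

set_option autoImplicit false
set_option linter.unusedSectionVars false

open scoped unitInterval Topology

noncomputable section

namespace Crest.Agent.R204.Bt837

open Clutch369 LineT357 BottK369 H472 HMain515
open Ex837 (smC pdC)
open K357 (K0 psi psi_map)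

variable {Y : Type} [TopologicalSpace Y] [T2Space Y] [CompactSpace Y] {y : Y}

/-- the generator of `K̃(Y)`, `Y = S^m`, `m` even -/
def bY {m : ℕ} (hm : 0 < m) (c : Collapse (Fin m) Y y) : K0 C(Y, ℂ) :=
  K0.map (((colE hm c).symm : SPt (Fin m) ≃ₐ[ℂ] C(Y, ℂ)) : SPt (Fin m) →+* C(Y, ℂ)) (bE m)

theorem bY_isBY {m : ℕ} (hm : 0 < m) (em : Even m) (c : Collapse (Fin m) Y y) :
    IsBY hm c (bY hm c) := by
  have h : K0.map ((colE hm c : C(Y, ℂ) ≃ₐ[ℂ] SPt (Fin m)) : C(Y, ℂ) →+* SPt (Fin m)) (bY hm c) =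
      bE m := by
    rw [bY, ← K0.map_comp]
    have : (((colE hm c : C(Y, ℂ) ≃ₐ[ℂ] SPt (Fin m)) : C(Y, ℂ) →+* SPt (Fin m)).comp
        (((colE hm c).symm : SPt (Fin m) ≃ₐ[ℂ] C(Y, ℂ)) : SPt (Fin m) →+* C(Y, ℂ))) =
        RingHom.id _ := RingHom.ext fun p => (colE hm c).apply_symm_apply p
    rw [this, K0.map_id]
  rw [IsBY, h]
  exact bE_isB em

theorem bY_kz {m : ℕ} (hm : 0 < m) (em : Even m) (c : Collapse (Fin m) Y y) :
    KZ (ContinuousMap.evalAlgHom ℂ ℂ y : C(Y, ℂ) →ₐ[ℂ] ℂ) (bY hm c) :=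
  KZ.of_equiv (bE_kz em) (colE hm c).symm (fun p => by
    have := colE_e hm c ((colE hm c).symm p)
    rw [AlgEquiv.apply_symm_apply] at this
    exact this.symm)

theorem psi_bY {m : ℕ} (hm : 0 < m) (em : Even m) (c : Collapse (Fin m) Y y) (p : ℕ)
    [Fact p.Prime] : psi p C(Y, ℂ) (bY hm c) = (p : ℤ) ^ (m / 2) • bY hm c := by
  rw [bY, ← map_zsmul, ← psi_bE em]
  exact psi_map (p := p) ((colE hm c).symm : SPt (Fin m) →ₐ[ℂ] C(Y, ℂ)) (bE m)

theorem ext_kz {m : ℕ} (hm : 0 < m) (em : Even m) (c : Collapse (Fin m) Y y) :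
    KZ (CR.ev (y, y) : Smash y y →ₐ[ℂ] ℂ) ((smC y y).ext (bY hm c) (bY hm c)) := by
  have h1 := isB_ext hm hm em em c c (bY_isBY hm em c) (bY_isBY hm em c)
  have h2 := KZ.of_equiv (h1.kz (em.add em)) (smashE hm c c).symm
    (δ := (CR.ev (y, y) : Smash y y →ₐ[ℂ] ℂ)) (fun p => by
      have := smashE_e hm c c ((smashE hm c c).symm p)
      rw [AlgEquiv.apply_symm_apply] at this
      exact this.symm)
  rw [← K0.map_comp] at h2
  have : ((((smashE hm c c).symm : SPt (Fin (m + m)) ≃ₐ[ℂ] Smash y y) :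
        SPt (Fin (m + m)) →+* Smash y y).comp
      ((smashE hm c c : Smash y y ≃ₐ[ℂ] SPt (Fin (m + m))) : Smash y y →+* SPt (Fin (m + m)))) =
        RingHom.id _ := RingHom.ext fun p => (smashE hm c c).symm_apply_apply p
  rw [this, K0.map_id] at h2
  exact h2

/-- **the K-theoretic input of the Hopf invariant one theorem** -/
def kIn {a : ℕ} (ha : 1 ≤ a) (c : Collapse (Fin (2 * a)) Y y) : KIn a y where
  b := bY (by omega) c
  hb := (bY_kz (by omega) ⟨a, by ring⟩ c).1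
  free := (bY_kz (by omega) ⟨a, by ring⟩ c).2.2
  gen := (bY_kz (by omega) ⟨a, by ring⟩ c).2.1
  psi2 := by
    have h := psi_bY (by omega) ⟨a, by ring⟩ c 2
    have h2 : 2 * a / 2 = a := by omega
    rw [h2] at h
    exact h
  psi3 := by
    have h := psi_bY (by omega) ⟨a, by ring⟩ c 3
    have h2 : 2 * a / 2 = a := by omega
    rw [h2] at h
    exact h
  k1 := k1Triv_even ha c
  sfree := (ext_kz (by omega) ⟨a, by ring⟩ c).2.2
  sgen := (ext_kz (by omega) ⟨a, by ring⟩ c).2.1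

end Crest.Agent.R204.Bt837
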