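import Mathlib
import Crest.Agent.R204.KIn_837
import Crest.Agent.R204.HopfGlueD_339

/-!
# Row 204, block H (helper837): the K-side is complete

`kodd : KOdd`, `keven : KEven`, `kside_holds : KSide`.
-/

set_option autoImplicit false

open scoped unitInterval Topology Topology.Homotopy

noncomputable section

namespace Crest.Agent.R204.Bt837

open Clutch369 LineT357 BottK369 H472 HMain515 HopfGlue339 HDeg160 Freu297
open K357 (K0)

theorem kodd : KOdd := by
  intro n hn x hx
  obtain ⟨a, rfl⟩ := hn
  exact kn_SA_odd a (x₀ := fun _ => 0) ⟨⟨0, by omega⟩, Or.inl rfl⟩ x hx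

theorem kin_cast {n m : ℕ} (h : n = m) {Y : Type} [TopologicalSpace Y] {y : Y}
    (c : Collapse (Fin n) Y y) : Nonempty (Collapse (Fin m) Y y) := by
  subst h
  exact ⟨c⟩

theorem keven : KEven := by
  intro e a h
  obtain ⟨c⟩ := kin_cast h (coll (sphCube (e + 1)))
  exact ⟨kIn (by omega) c⟩

theorem kside_holds : KSide := kside kodd keven

end Crest.Agent.R204.Bt837
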