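import Crest.Agent.R204.HopfGlueF_339
import Crest.Agent.R204.KFin_837

/-!
# Row 204: `HopfLow`, unconditional
-/

set_option autoImplicit false

noncomputable section

namespace Crest.Agent.R204.Final114

/-- the low-dimensional Hopf invariant input of `Final_478` -/
theorem hopfLow : HopfLow478.HopfLow := HopfGlue339.hopfLow_of_even Bt837.keven

end Crest.Agent.R204.Final114
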