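import Crest.Agent.R204.Coalg_847

/-!
# Row 204, A4 (helper847): the coproduct is graded
-/

set_option autoImplicit false

namespace Crest.Agent.R204.Coalg847

open TensorProduct

section abstract

variable {A B : Type*} [AddCommGroup A] [Module F2 A] [AddCommGroup B] [Module F2 B]

theorem graded_of_map {I : Type*} (G : I → Submodule F2 A) (G' : I → Submodule F2 B)
    (f : A →ₗ[F2] B) (hf : Function.Injective f) (hmap : ∀ n, ∀ x ∈ G n, f x ∈ G' n)
    (hsup : ⨆ n, G n = ⊤) (hind : iSupIndep G') (t : I) (x : A) (hx : f x ∈ G' t) : x ∈ G t := by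
  have h1 : x ∈ G t ⊔ ⨆ (n) (_ : n ≠ t), G n := by
    have : (⊤ : Submodule F2 A) ≤ G t ⊔ ⨆ (n) (_ : n ≠ t), G n := by
      rw [← hsup]
      refine iSup_le fun n => ?_
      by_cases h : n = t
      · subst h; exact le_sup_left
      · exact le_sup_of_le_right (le_iSup₂_of_le n h le_rfl)
    exact this trivial
  obtain ⟨a, ha, b, hb, rfl⟩ := Submodule.mem_sup.1 h1
  have h2 : f b ∈ ⨆ (n) (_ : n ≠ t), G' n := by
    have : (⨆ (n) (_ : n ≠ t), G n) ≤ (⨆ (n) (_ : n ≠ t), G' n).comap f := by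
      refine iSup₂_le fun n hn y hy => ?_
      exact (le_iSup₂_of_le (f := fun n (_ : n ≠ t) => G' n) n hn le_rfl) (hmap n y hy)
    exact this hb
  have h3 : f b ∈ G' t := by
    have : f b = f (a + b) - f a := by rw [map_add]; abel
    rw [this]
    exact Submodule.sub_mem _ hx (hmap t a ha)
  have h4 : f b = 0 := by
    have := (hind t).le_bot ⟨h3, h2⟩
    simpa using this
  have h5 : b = 0 := hf (by rw [h4, map_zero])
  rw [h5, add_zero]
  exact ha

/-- total degree `n` part of a tensor product -/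
def tgr (GA : ℕ → Submodule F2 A) (GB : ℕ → Submodule F2 B) (n : ℕ) : Submodule F2 (A ⊗[F2] B) :=
  ⨆ p ∈ Finset.HasAntidiagonal.antidiagonal n,
    LinearMap.range (TensorProduct.map (GA p.1).subtype (GB p.2).subtype)

theorem tmul_mem_tgr {GA : ℕ → Submodule F2 A} {GB : ℕ → Submodule F2 B} {i j n : ℕ} {a : A} {b : B}
    (ha : a ∈ GA i) (hb : b ∈ GB j) (h : i + j = n) : a ⊗ₜ[F2] b ∈ tgr GA GB n :=
  (le_iSup₂_of_le (f := fun (p : ℕ × ℕ) (_ : p ∈ Finset.HasAntidiagonal.antidiagonal n) =>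
    LinearMap.range (TensorProduct.map (GA p.1).subtype (GB p.2).subtype)) (i, j)
    (Finset.HasAntidiagonal.mem_antidiagonal.2 h) le_rfl) ⟨⟨a, ha⟩ ⊗ₜ ⟨b, hb⟩, by simp⟩

theorem iSup_tgr {GA : ℕ → Submodule F2 A} {GB : ℕ → Submodule F2 B} (hA : ⨆ n, GA n = ⊤)
    (hB : ⨆ n, GB n = ⊤) : ⨆ n, tgr GA GB n = ⊤ := by
  rw [eq_top_iff, ← TensorProduct.span_tmul_eq_top, Submodule.span_le]
  rintro _ ⟨a, b, rfl⟩
  have ha : a ∈ ⨆ n, GA n := hA ▸ trivial
  have hb : b ∈ ⨆ n, GB n := hB ▸ trivial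
  refine Submodule.iSup_induction GA (motive := fun a => a ⊗ₜ[F2] b ∈ ⨆ n, tgr GA GB n) ha ?_ ?_ ?_
  · intro i a hi
    refine Submodule.iSup_induction GB (motive := fun b => a ⊗ₜ[F2] b ∈ ⨆ n, tgr GA GB n) hb ?_ ?_ ?_
    · intro j b hj
      exact (le_iSup (tgr GA GB) (i + j)) (tmul_mem_tgr hi hj rfl)
    · rw [TensorProduct.tmul_zero]; exact Submodule.zero_mem _
    · intro x y hx hy; rw [TensorProduct.tmul_add]; exact Submodule.add_mem _ hx hy
  · rw [TensorProduct.zero_tmul]; exact Submodule.zero_mem _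
  · intro x y hx hy; rw [TensorProduct.add_tmul]; exact Submodule.add_mem _ hx hy

theorem mem_tgr_induction {GA : ℕ → Submodule F2 A} {GB : ℕ → Submodule F2 B} {n : ℕ}
    {S : Submodule F2 (A ⊗[F2] B)}
    (h : ∀ i j, i + j = n → ∀ a ∈ GA i, ∀ b ∈ GB j, a ⊗ₜ[F2] b ∈ S) : tgr GA GB n ≤ S := by
  refine iSup₂_le fun p hp => ?_
  rintro _ ⟨t, rfl⟩
  induction t with
  | zero => rw [map_zero]; exact Submodule.zero_mem _
  | add a b ha hb => rw [map_add]; exact Submodule.add_mem _ ha hb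
  | tmul a b =>
    rw [TensorProduct.map_tmul]
    exact h p.1 p.2 (Finset.HasAntidiagonal.mem_antidiagonal.1 hp) _ a.2 _ b.2

end abstract

namespace EZData

variable (E : EZData) {K L : SS}

theorem cr_mem_gr' {n : ℕ} {t : H F2 K ⊗[F2] H F2 L} (ht : t ∈ tgr (H.gr F2 K) (H.gr F2 L) n) :
    E.cr K L t ∈ H.gr F2 (K.prod L) n := by
  have : tgr (H.gr F2 K) (H.gr F2 L) n ≤ (H.gr F2 (K.prod L) n).comap (E.cr K L).toLinearMap := by
    refine mem_tgr_induction fun i j h a ha b hb => ?_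
    subst h
    exact E.cr_mem_gr ha hb
  exact this ht

/-- the inverse Kuenneth isomorphism is graded -/
theorem mem_tgr_of_cr (hint : ∀ K : SS, DirectSum.IsInternal (H.gr F2 K)) {n : ℕ}
    {t : H F2 K ⊗[F2] H F2 L} (ht : E.cr K L t ∈ H.gr F2 (K.prod L) n) :
    t ∈ tgr (H.gr F2 K) (H.gr F2 L) n :=
  graded_of_map _ (H.gr F2 (K.prod L)) (E.cr K L).toLinearMap (E.cr K L).injective
    (fun _ _ hx => E.cr_mem_gr' hx)
    (iSup_tgr (hint K).submodule_iSup_eq_top (hint L).submodule_iSup_eq_top)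
    (hint (K.prod L)).submodule_iSupIndep n t ht

/-- **the coproduct is graded** (shape of `Spec114.Tower.FactDelta`) -/
theorem cop_mem_gr (hint : ∀ K : SS, DirectSum.IsInternal (H.gr F2 K)) {n : ℕ} {x : H F2 K}
    (hx : x ∈ H.gr F2 K n) :
    E.cop K x ∈ ⨆ p ∈ Finset.HasAntidiagonal.antidiagonal n,
      LinearMap.range (TensorProduct.map (H.gr F2 K p.1).subtype (H.gr F2 K p.2).subtype) := by
  refine E.mem_tgr_of_cr hint ?_
  rw [cr_cop]
  exact hMap_mem_gr _ hx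

end EZData

end Crest.Agent.R204.Coalg847
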