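import Crest.Agent.R204.Coalg_847a

/-!
# Row 204, A4 (helper847): cross product and coproduct on `H F2 K`

`EZData` = exactly the output of A1 (helper271).  From it: `cr : H K ⊗ H L ≃ H (K × L)`, natural,
associative, symmetric, unital; `cop : H K → H K ⊗ H K`, natural, coassociative, cocommutative,
counital, multiplicative for cross products.
-/

set_option autoImplicit false

namespace Crest.Agent.R204.Coalg847

open TensorProduct Finsupp

/-! ## functoriality lemmas -/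

section functor

variable {R : Type} [CommRing R] {J K L : SS}

theorem chMap_comp (g : SS.Hom K L) (f : SS.Hom J K) (c : Ch R J) :
    Ch.map R (g.comp f) c = Ch.map R g (Ch.map R f c) := by
  induction c using Finsupp.induction_linear with
  | zero => simp
  | add a b ha hb => simp only [map_add, ha, hb]
  | single t r => obtain ⟨n, x⟩ := t; simp [SS.Hom.comp]

theorem nMap_comp (g : SS.Hom K L) (f : SS.Hom J K) (c : N R J) :
    N.map R (g.comp f) c = N.map R g (N.map R f c) := by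
  obtain ⟨c, rfl⟩ := Submodule.Quotient.mk_surjective _ c
  rw [N.map_mk, N.map_mk, N.map_mk, chMap_comp]

theorem nMap_id (c : N R K) : N.map R (SS.Hom.id K) c = c := by
  obtain ⟨c, rfl⟩ := Submodule.Quotient.mk_surjective _ c
  rw [N.map_mk]
  congr 1
  induction c using Finsupp.induction_linear with
  | zero => simp
  | add a b ha hb => simp only [map_add, ha, hb]
  | single t r => obtain ⟨n, x⟩ := t; simp [SS.Hom.id]

@[simp] theorem hMap_mk (f : SS.Hom K L) (z : N R K) (hz : N.bd R K z = 0) :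
    H.map R f (Hd.mk _ z hz) = Hd.mk _ (N.map R f z) (by
      have := LinearMap.congr_fun (N.map_bd (R := R) f) z
      simp only [LinearMap.comp_apply] at this
      rw [← this, hz, map_zero]) := rfl

theorem hMap_comp (g : SS.Hom K L) (f : SS.Hom J K) (x : H R J) :
    H.map R (g.comp f) x = H.map R g (H.map R f x) := by
  obtain ⟨z, hz, rfl⟩ := Hd.mk_surj _ x
  simp only [hMap_mk, nMap_comp]

theorem hMap_id (x : H R K) : H.map R (SS.Hom.id K) x = x := by
  obtain ⟨z, hz, rfl⟩ := Hd.mk_surj _ x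
  simp only [hMap_mk, nMap_id]

theorem nMap_mem_gr (f : SS.Hom K L) {n : ℕ} {x : N R K} (hx : x ∈ N.gr R K n) :
    N.map R f x ∈ N.gr R L n := by
  obtain ⟨c, hc, rfl⟩ := hx
  refine ⟨Ch.map R f c, ?_, rfl⟩
  refine Submodule.span_induction (p := fun c _ => Ch.map R f c ∈ Ch.gr R L n) ?_ ?_ ?_ ?_ hc
  · rintro _ ⟨x, rfl⟩
    rw [Ch.map_single]
    exact Submodule.subset_span ⟨_, rfl⟩
  · simp
  · intro a b _ _ ha hb; rw [map_add]; exact Submodule.add_mem _ ha hb
  · intro r a _ ha; rw [map_smul]; exact Submodule.smul_mem _ _ ha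

theorem hMap_mem_gr (f : SS.Hom K L) {n : ℕ} {x : H R K} (hx : x ∈ H.gr R K n) :
    H.map R f x ∈ H.gr R L n := by
  obtain ⟨⟨z, hz⟩, hz', rfl⟩ := hx
  exact ⟨⟨N.map R f z, (by
      have := LinearMap.congr_fun (N.map_bd (R := R) f) z
      simp only [LinearMap.comp_apply] at this
      rw [LinearMap.mem_ker] at hz ⊢
      rw [← this, hz, map_zero])⟩, nMap_mem_gr f hz', rfl⟩

theorem mk_mem_gr {n : ℕ} {z : N R K} (hz : N.bd R K z = 0) (h : z ∈ N.gr R K n) :
    Hd.mk _ z hz ∈ H.gr R K n := ⟨⟨z, hz⟩, h, rfl⟩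

theorem mem_gr_iff {n : ℕ} {x : H R K} :
    x ∈ H.gr R K n ↔ ∃ z hz, z ∈ N.gr R K n ∧ x = Hd.mk (N.bd R K) z hz := by
  constructor
  · rintro ⟨⟨z, hz⟩, hz', rfl⟩
    exact ⟨z, hz, hz', rfl⟩
  · rintro ⟨z, hz, h, rfl⟩
    exact mk_mem_gr hz h

end functor

/-- reassociation -/
def asc (K L J : SS) : SS.Hom ((K.prod L).prod J) (K.prod (L.prod J)) :=
  ⟨fun _ x => (x.1.1, x.1.2, x.2), fun _ _ => rfl⟩

/-- inverse reassociation -/
def cas (K L J : SS) : SS.Hom (K.prod (L.prod J)) ((K.prod L).prod J) :=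
  ⟨fun _ x => ((x.1, x.2.1), x.2.2), fun _ _ => rfl⟩

/-- middle four interchange -/
def mid (K L K' L' : SS) : SS.Hom ((K.prod L).prod (K'.prod L')) ((K.prod K').prod (L.prod L')) :=
  ⟨fun _ x => ((x.1.1, x.2.1), (x.1.2, x.2.2)), fun _ _ => rfl⟩

/-- the point class on chains -/
noncomputable abbrev pt0 : N F2 SS.pt := N.sx F2 (K := SS.pt) (n := 0) ()

/-- **Output of A1** (helper271): the mod 2 Eilenberg-Zilber map on normalised chains. -/
structure EZData where
  /-- shuffle map -/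
  ez : ∀ (K L : SS), N F2 K →ₗ[F2] N F2 L →ₗ[F2] N F2 (K.prod L)
  bd : ∀ (K L : SS) (x : N F2 K) (y : N F2 L),
    N.bd F2 (K.prod L) (ez K L x y) = ez K L (N.bd F2 K x) y + ez K L x (N.bd F2 L y)
  nat : ∀ {K L K' L' : SS} (f : SS.Hom K K') (g : SS.Hom L L') (x : N F2 K) (y : N F2 L),
    N.map F2 (SS.prodMap f g) (ez K L x y) = ez K' L' (N.map F2 f x) (N.map F2 g y)
  assoc : ∀ (K L J : SS) (x : N F2 K) (y : N F2 L) (z : N F2 J),
    N.map F2 (asc K L J) (ez (K.prod L) J (ez K L x y) z) = ez K (L.prod J) x (ez L J y z)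
  swap : ∀ (K L : SS) (x : N F2 K) (y : N F2 L), N.map F2 (SS.swap K L) (ez K L x y) = ez L K y x
  unit : ∀ (K : SS) (x : N F2 K), N.map F2 (SS.fst K SS.pt) (ez K SS.pt x pt0) = x
  gr : ∀ (K L : SS) (m n : ℕ) (x : N F2 K) (y : N F2 L), x ∈ N.gr F2 K m → y ∈ N.gr F2 L n →
    ez K L x y ∈ N.gr F2 (K.prod L) (m + n)
  bij : ∀ (K L : SS), Function.Bijective
    (Hd.map (TensorProduct.lift (ez K L)) (TensorProduct.ext' fun x y => by
      simp [bd]) : Hd (tD (N.bd F2 K) (N.bd F2 L)) → H F2 (K.prod L))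

namespace EZData

variable (E : EZData) {K L J K' L' : SS}

theorem ez_cyc {x : N F2 K} {y : N F2 L} (hx : N.bd F2 K x = 0) (hy : N.bd F2 L y = 0) :
    N.bd F2 (K.prod L) (E.ez K L x y) = 0 := by simp [E.bd, hx, hy]

theorem mid' (K' L' : SS) (x : N F2 K) (y : N F2 L) (x' : N F2 K') (y' : N F2 L') :
    N.map F2 (mid K L K' L') (E.ez _ _ (E.ez K L x y) (E.ez K' L' x' y')) =
      E.ez _ _ (E.ez K K' x x') (E.ez L L' y y') := by
  -- (K L)(K' L') → K (L (K' L')) → K ((L K') L') → K ((K' L) L') → K (K' (L L')) → (K K')(L L')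
  have e : mid K L K' L' =
      (cas K K' (L.prod L')).comp ((SS.prodMap (SS.Hom.id K) (asc K' L L')).comp
        ((SS.prodMap (SS.Hom.id K) (SS.prodMap (SS.swap L K') (SS.Hom.id L'))).comp
          ((SS.prodMap (SS.Hom.id K) (cas L K' L')).comp (asc K L (K'.prod L'))))) := rfl
  have hc : ∀ (A B C : SS) (a : N F2 A) (b : N F2 B) (c : N F2 C),
      N.map F2 (cas A B C) (E.ez A (B.prod C) a (E.ez B C b c)) =
        E.ez (A.prod B) C (E.ez A B a b) c := fun A B C a b c => by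
    rw [← E.assoc, ← nMap_comp]
    exact nMap_id _
  rw [e, nMap_comp, nMap_comp, nMap_comp, nMap_comp]
  simp only [E.assoc, E.nat, nMap_id, hc, E.swap]

/-- **cross product** (Kuenneth isomorphism) -/
noncomputable def cr (K L : SS) : (H F2 K ⊗[F2] H F2 L) ≃ₗ[F2] H F2 (K.prod L) :=
  (kun (N.bd F2 K) (N.bd F2 L) N.bd_bd N.bd_bd).trans (LinearEquiv.ofBijective _ (E.bij K L))

@[simp] theorem cr_mk (z : N F2 K) (hz : N.bd F2 K z = 0) (z' : N F2 L) (hz' : N.bd F2 L z' = 0) :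
    E.cr K L (Hd.mk _ z hz ⊗ₜ Hd.mk _ z' hz') = Hd.mk _ (E.ez K L z z') (E.ez_cyc hz hz') := by
  simp only [cr, LinearEquiv.trans_apply, kun_mk, LinearEquiv.ofBijective_apply, Hd.map_mk,
    TensorProduct.lift.tmul]

/-- induction principle for classes -/
theorem cr_nat (f : SS.Hom K K') (g : SS.Hom L L') (x : H F2 K) (y : H F2 L) :
    H.map F2 (SS.prodMap f g) (E.cr K L (x ⊗ₜ y)) =
      E.cr K' L' (H.map F2 f x ⊗ₜ H.map F2 g y) := by
  obtain ⟨z, hz, rfl⟩ := Hd.mk_surj _ x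
  obtain ⟨w, hw, rfl⟩ := Hd.mk_surj _ y
  simp only [hMap_mk, cr_mk, E.nat]

theorem cr_nat' (f : SS.Hom K K') (g : SS.Hom L L') (t : H F2 K ⊗[F2] H F2 L) :
    H.map F2 (SS.prodMap f g) (E.cr K L t) =
      E.cr K' L' (TensorProduct.map (H.map F2 f) (H.map F2 g) t) := by
  induction t with
  | zero => simp
  | add a b ha hb => simp only [map_add, ha, hb]
  | tmul a b => rw [cr_nat, TensorProduct.map_tmul]

theorem cr_assoc (x : H F2 K) (y : H F2 L) (z : H F2 J) :
    H.map F2 (asc K L J) (E.cr _ _ (E.cr K L (x ⊗ₜ y) ⊗ₜ z)) =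
      E.cr _ _ (x ⊗ₜ E.cr L J (y ⊗ₜ z)) := by
  obtain ⟨x, hx, rfl⟩ := Hd.mk_surj _ x
  obtain ⟨y, hy, rfl⟩ := Hd.mk_surj _ y
  obtain ⟨z, hz, rfl⟩ := Hd.mk_surj _ z
  simp only [hMap_mk, cr_mk, E.assoc]

theorem cr_swap (x : H F2 K) (y : H F2 L) :
    H.map F2 (SS.swap K L) (E.cr K L (x ⊗ₜ y)) = E.cr L K (y ⊗ₜ x) := by
  obtain ⟨x, hx, rfl⟩ := Hd.mk_surj _ x
  obtain ⟨y, hy, rfl⟩ := Hd.mk_surj _ y
  simp only [hMap_mk, cr_mk, E.swap]

theorem cr_swap' (t : H F2 K ⊗[F2] H F2 L) :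
    H.map F2 (SS.swap K L) (E.cr K L t) = E.cr L K (TensorProduct.comm F2 _ _ t) := by
  induction t with
  | zero => simp
  | add a b ha hb => simp only [map_add, ha, hb]
  | tmul a b => rw [cr_swap, TensorProduct.comm_tmul]

theorem cr_mid (x : H F2 K) (y : H F2 L) (x' : H F2 K') (y' : H F2 L') :
    H.map F2 (mid K L K' L') (E.cr _ _ (E.cr K L (x ⊗ₜ y) ⊗ₜ E.cr K' L' (x' ⊗ₜ y'))) =
      E.cr _ _ (E.cr K K' (x ⊗ₜ x') ⊗ₜ E.cr L L' (y ⊗ₜ y')) := by
  obtain ⟨x, hx, rfl⟩ := Hd.mk_surj _ x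
  obtain ⟨y, hy, rfl⟩ := Hd.mk_surj _ y
  obtain ⟨x', hx', rfl⟩ := Hd.mk_surj _ x'
  obtain ⟨y', hy', rfl⟩ := Hd.mk_surj _ y'
  simp only [hMap_mk, cr_mk, E.mid']

end EZData

/-! ## the point -/

theorem bd_vertex {R : Type} [CommRing R] {K : SS} (v : K.S 0) : N.bd R K (N.sx R v) = 0 := by
  rw [N.sx, N.bd_mk, Ch.bd_single_zero]; rfl

/-- class of a vertex -/
noncomputable def vtx {K : SS} (v : K.S 0) : H F2 K := Hd.mk _ (N.sx F2 v) (bd_vertex v)

theorem hMap_vtx {K L : SS} (f : SS.Hom K L) (v : K.S 0) :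
    H.map F2 f (vtx v) = vtx (f.app 0 v) := by
  simp only [vtx, hMap_mk, N.map_sx]

theorem vtx_mem_gr {K : SS} (v : K.S 0) : vtx v ∈ H.gr F2 K 0 :=
  mk_mem_gr _ ⟨single ⟨0, v⟩ 1, Submodule.subset_span ⟨v, rfl⟩, rfl⟩

/-- point class -/
noncomputable abbrev hpt : H F2 SS.pt := vtx (K := SS.pt) ()

theorem ch_pt (c : Ch F2 SS.pt) : ∃ r : F2, c - single ⟨0, ()⟩ r ∈ Ch.Dg F2 SS.pt := by
  induction c using Finsupp.induction_linear with
  | zero => exact ⟨0, by simp⟩
  | add a b ha hb =>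
    obtain ⟨r, hr⟩ := ha
    obtain ⟨s, hs⟩ := hb
    refine ⟨r + s, ?_⟩
    have : a + b - single ⟨0, ()⟩ (r + s) = (a - single ⟨0, ()⟩ r) + (b - single ⟨0, ()⟩ s) := by
      rw [Finsupp.single_add]; abel
    rw [this]
    exact Submodule.add_mem _ hr hs
  | single t r =>
    obtain ⟨n, x⟩ := t
    rcases n with _ | n
    · refine ⟨r, ?_⟩
      show (single (⟨0, x⟩ : SS.pt.T) r - single (⟨0, x⟩ : SS.pt.T) r : Ch F2 SS.pt) ∈ _
      rw [sub_self]
      exact Submodule.zero_mem _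
    · refine ⟨0, ?_⟩
      rw [Finsupp.single_zero, sub_zero]
      have : (single (⟨n + 1, x⟩ : SS.pt.T) r : Ch F2 SS.pt) = r • single ⟨n + 1, x⟩ 1 := by simp
      rw [this]
      exact Submodule.smul_mem _ _ (Submodule.subset_span
        ⟨⟨n + 1, x⟩, (show Ch.IsDgn SS.pt ⟨n + 1, x⟩ from ⟨0, (), rfl⟩), rfl⟩)

theorem n_pt (c : N F2 SS.pt) : ∃ r : F2, c = r • pt0 := by
  obtain ⟨c, rfl⟩ := Submodule.Quotient.mk_surjective _ c
  obtain ⟨r, hr⟩ := ch_pt c
  refine ⟨r, ?_⟩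
  have h : (r • pt0 : N F2 SS.pt) = Submodule.Quotient.mk (single ⟨0, ()⟩ r) := by
    rw [pt0, N.sx, ← Submodule.Quotient.mk_smul]; simp
  rw [h]
  exact (Submodule.Quotient.eq _).2 hr

theorem h_pt (x : H F2 SS.pt) : ∃ r : F2, x = r • hpt := by
  obtain ⟨z, hz, rfl⟩ := Hd.mk_surj _ x
  obtain ⟨r, rfl⟩ := n_pt z
  exact ⟨r, rfl⟩

/-! ## augmentation -/

/-- augmentation on chains: sum of the coefficients of the vertices -/
noncomputable def chAug (K : SS) : Ch F2 K →ₗ[F2] F2 :=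
  Finsupp.linearCombination F2 (fun t : K.T => if t.1 = 0 then (1 : F2) else 0)

theorem chAug_single {K : SS} (n : ℕ) (x : K.S n) (r : F2) :
    chAug K (single ⟨n, x⟩ r) = if n = 0 then r else 0 := by
  simp [chAug]

theorem chAug_Dg {K : SS} {c : Ch F2 K} (hc : c ∈ Ch.Dg F2 K) : chAug K c = 0 := by
  refine Submodule.span_induction (p := fun c _ => chAug K c = 0) ?_ ?_ ?_ ?_ hc
  · rintro _ ⟨⟨n, x⟩, hx, rfl⟩
    rcases n with _ | n
    · exact hx.elim
    · rw [chAug_single]; simp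
  · simp
  · intro a b _ _ ha hb; rw [map_add, ha, hb, add_zero]
  · intro r a _ ha; rw [map_smul, ha, smul_zero]

theorem chAug_bd {K : SS} (c : Ch F2 K) : chAug K (Ch.bd F2 K c) = 0 := by
  induction c using Finsupp.induction_linear with
  | zero => simp
  | add a b ha hb => rw [map_add, map_add, ha, hb, add_zero]
  | single t r =>
    obtain ⟨n, x⟩ := t
    rcases n with _ | n
    · simp
    · rw [Ch.bd_single_succ, map_sum]
      simp only [chAug_single]
      rcases n with _ | n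
      · simp only [Nat.reduceAdd, if_true]
        rw [Fin.sum_univ_two]
        simp only [Fin.val_zero, Fin.val_one, pow_zero, pow_one, mul_one, mul_neg]
        rw [add_neg_cancel]
      · simp

/-- augmentation on normalised chains -/
noncomputable def nAug (K : SS) : N F2 K →ₗ[F2] F2 :=
  Submodule.liftQ _ (chAug K) (fun _ hc => chAug_Dg hc)

theorem nAug_bd {K : SS} (c : N F2 K) : nAug K (N.bd F2 K c) = 0 := by
  obtain ⟨c, rfl⟩ := Submodule.Quotient.mk_surjective _ c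
  exact chAug_bd c

/-- **augmentation (counit)** -/
noncomputable def eps (K : SS) : H F2 K →ₗ[F2] F2 :=
  Submodule.liftQ _ (nAug K ∘ₗ (LinearMap.ker (N.bd F2 K)).subtype) (by
    rintro ⟨x, hx⟩ hx'
    simp only [Submodule.mem_comap, Submodule.subtype_apply, LinearMap.mem_range] at hx'
    obtain ⟨y, rfl⟩ := hx'
    exact nAug_bd y)

theorem eps_mk {K : SS} (z : N F2 K) (hz : N.bd F2 K z = 0) : eps K (Hd.mk _ z hz) = nAug K z := rfl

theorem nAug_sx_zero {K : SS} (v : K.S 0) : nAug K (N.sx F2 v) = 1 := by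
  show chAug K (single ⟨0, v⟩ 1) = 1
  rw [chAug_single]; simp

@[simp] theorem eps_vtx {K : SS} (v : K.S 0) : eps K (vtx v) = 1 := nAug_sx_zero v

theorem nAug_gr {K : SS} {n : ℕ} (hn : n ≠ 0) {x : N F2 K} (hx : x ∈ N.gr F2 K n) :
    nAug K x = 0 := by
  obtain ⟨c, hc, rfl⟩ := hx
  refine Submodule.span_induction (p := fun c _ => nAug K (Submodule.mkQ _ c) = 0) ?_ ?_ ?_ ?_ hc
  · rintro _ ⟨x, rfl⟩
    show chAug K (single ⟨n, x⟩ 1) = 0
    rw [chAug_single, if_neg hn]
  · simp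
  · intro a b _ _ ha hb; rw [map_add, map_add, ha, hb, add_zero]
  · intro r a _ ha; rw [map_smul, map_smul, ha, smul_zero]

theorem eps_gr {K : SS} {n : ℕ} (hn : n ≠ 0) {x : H F2 K} (hx : x ∈ H.gr F2 K n) :
    eps K x = 0 := by
  obtain ⟨z, hz, hg, rfl⟩ := mem_gr_iff.1 hx
  rw [eps_mk, nAug_gr hn hg]

theorem nAug_map {K L : SS} (f : SS.Hom K L) (x : N F2 K) : nAug L (N.map F2 f x) = nAug K x := by
  obtain ⟨c, rfl⟩ := Submodule.Quotient.mk_surjective _ x
  show chAug L (Ch.map F2 f c) = chAug K c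
  induction c using Finsupp.induction_linear with
  | zero => simp
  | add a b ha hb => simp only [map_add, ha, hb]
  | single t r => obtain ⟨n, x⟩ := t; rw [Ch.map_single, chAug_single, chAug_single]

theorem eps_map {K L : SS} (f : SS.Hom K L) (x : H F2 K) : eps L (H.map F2 f x) = eps K x := by
  obtain ⟨z, hz, rfl⟩ := Hd.mk_surj _ x
  rw [hMap_mk, eps_mk, eps_mk, nAug_map]

theorem h_pt_eps (x : H F2 SS.pt) : x = eps _ x • hpt := by
  obtain ⟨r, rfl⟩ := h_pt x
  rw [map_smul, eps_vtx, smul_eq_mul, mul_one]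

theorem map_toPt {K : SS} (x : H F2 K) : H.map F2 (SS.toPt K) x = eps K x • hpt := by
  rw [h_pt_eps (H.map F2 (SS.toPt K) x), eps_map]

/-! ## projections and the coproduct -/

namespace EZData

variable (E : EZData) {K L J K' L' : SS}

theorem cr_unit (x : H F2 K) : H.map F2 (SS.fst K SS.pt) (E.cr K SS.pt (x ⊗ₜ hpt)) = x := by
  obtain ⟨z, hz, rfl⟩ := Hd.mk_surj _ x
  simp only [vtx, cr_mk, hMap_mk, E.unit]

/-- first projection of a cross product -/
theorem fst_cr (x : H F2 K) (y : H F2 L) :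
    H.map F2 (SS.fst K L) (E.cr K L (x ⊗ₜ y)) = eps L y • x := by
  have e : SS.fst K L = (SS.fst K SS.pt).comp (SS.prodMap (SS.Hom.id K) (SS.toPt L)) := rfl
  rw [e, hMap_comp, cr_nat, hMap_id, map_toPt, TensorProduct.tmul_smul, map_smul, map_smul, cr_unit]

/-- second projection of a cross product -/
theorem snd_cr (x : H F2 K) (y : H F2 L) :
    H.map F2 (SS.snd K L) (E.cr K L (x ⊗ₜ y)) = eps K x • y := by
  have e : SS.snd K L = (SS.fst L K).comp (SS.swap K L) := rfl
  rw [e, hMap_comp, cr_swap, fst_cr]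

theorem eps_cr (x : H F2 K) (y : H F2 L) :
    eps (K.prod L) (E.cr K L (x ⊗ₜ y)) = eps K x * eps L y := by
  rw [← eps_map (SS.fst K L), fst_cr, map_smul, smul_eq_mul, mul_comm]

/-- crossing with the point -/
theorem cr_hpt (x : H F2 K) :
    E.cr K SS.pt (x ⊗ₜ hpt) = H.map F2 (SS.pair (SS.Hom.id K) (SS.toPt K)) x := by
  conv_rhs => rw [← E.cr_unit x]
  rw [← hMap_comp]
  exact (hMap_id _).symm

/-- crossing with a vertex -/
theorem cr_vtx_right (x : H F2 K) (w : L.S 0) :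
    E.cr K L (x ⊗ₜ vtx w) = H.map F2 (SS.pair (SS.Hom.id K) (SS.constHom K L w)) x := by
  have h : vtx w = H.map F2 (SS.constHom SS.pt L w) hpt := by
    rw [hMap_vtx]
    congr 1
    show w = L.act _ w
    have : (⟨fun _ => 0, fun _ _ _ => le_rfl⟩ : Op 0 0) = OrderHom.id := by
      ext a; simp
    rw [this, L.act_id]
  have e : SS.pair (SS.Hom.id K) (SS.constHom K L w) =
      (SS.prodMap (SS.Hom.id K) (SS.constHom SS.pt L w)).comp
        (SS.pair (SS.Hom.id K) (SS.toPt K)) := rfl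
  rw [e, hMap_comp, ← E.cr_hpt, cr_nat, hMap_id, ← h]

theorem cr_vtx_left (v : K.S 0) (y : H F2 L) :
    E.cr K L (vtx v ⊗ₜ y) = H.map F2 (SS.pair (SS.constHom L K v) (SS.Hom.id L)) y := by
  have e : SS.pair (SS.constHom L K v) (SS.Hom.id L) =
      (SS.swap L K).comp (SS.pair (SS.Hom.id L) (SS.constHom L K v)) := rfl
  rw [e, hMap_comp, ← E.cr_vtx_right, cr_swap]

theorem cr_vtx (v : K.S 0) (w : L.S 0) :
    E.cr K L (vtx v ⊗ₜ vtx w) = vtx (K := K.prod L) (v, w) := by
  rw [cr_vtx_right, hMap_vtx]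
  congr 1
  refine Prod.ext rfl ?_
  show L.act _ w = w
  have : (⟨fun _ => 0, fun _ _ _ => le_rfl⟩ : Op 0 0) = OrderHom.id := by
    ext a; simp
  rw [this, L.act_id]

theorem cr_mem_gr {m n : ℕ} {x : H F2 K} {y : H F2 L} (hx : x ∈ H.gr F2 K m)
    (hy : y ∈ H.gr F2 L n) : E.cr K L (x ⊗ₜ y) ∈ H.gr F2 (K.prod L) (m + n) := by
  obtain ⟨z, hz, hg, rfl⟩ := mem_gr_iff.1 hx
  obtain ⟨w, hw, hg', rfl⟩ := mem_gr_iff.1 hy
  rw [cr_mk]
  exact mk_mem_gr _ (E.gr _ _ _ _ _ _ hg hg')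

/-- **coproduct** -/
noncomputable def cop (K : SS) : H F2 K →ₗ[F2] H F2 K ⊗[F2] H F2 K :=
  (E.cr K K).symm.toLinearMap ∘ₗ H.map F2 (SS.diag K)

theorem cr_cop (x : H F2 K) : E.cr K K (E.cop K x) = H.map F2 (SS.diag K) x := by
  simp [cop]

theorem cop_nat (f : SS.Hom K L) (x : H F2 K) :
    E.cop L (H.map F2 f x) = TensorProduct.map (H.map F2 f) (H.map F2 f) (E.cop K x) := by
  apply (E.cr L L).injective
  rw [cr_cop, ← cr_nat', cr_cop, ← hMap_comp, ← hMap_comp]
  rfl

theorem cop_comm (x : H F2 K) : TensorProduct.comm F2 _ _ (E.cop K x) = E.cop K x := by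
  apply (E.cr K K).injective
  rw [← cr_swap', cr_cop, ← hMap_comp]
  rfl

theorem cop_coassoc (x : H F2 K) :
    TensorProduct.assoc F2 _ _ _ (TensorProduct.map (E.cop K) LinearMap.id (E.cop K x)) =
      TensorProduct.map LinearMap.id (E.cop K) (E.cop K x) := by
  have h1 : ∀ t : H F2 K ⊗[F2] H F2 K,
      E.cr K (K.prod K) (TensorProduct.map LinearMap.id (E.cr K K).toLinearMap
        (TensorProduct.assoc F2 _ _ _ (TensorProduct.map (E.cop K) LinearMap.id t))) =
      H.map F2 (asc K K K) (H.map F2 (SS.prodMap (SS.diag K) (SS.Hom.id K)) (E.cr K K t)) := by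
    intro t
    induction t with
    | zero => simp
    | add a b ha hb => simp only [map_add, ha, hb]
    | tmul a b =>
      rw [cr_nat, hMap_id, ← cr_cop, TensorProduct.map_tmul, LinearMap.id_apply]
      generalize E.cop K a = s
      induction s with
      | zero => simp
      | add u v hu hv => simp only [map_add, TensorProduct.add_tmul, hu, hv]
      | tmul u v =>
        rw [TensorProduct.assoc_tmul, TensorProduct.map_tmul, cr_assoc]
        rfl
  have h2 : ∀ t : H F2 K ⊗[F2] H F2 K,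
      E.cr K (K.prod K) (TensorProduct.map LinearMap.id (E.cr K K).toLinearMap
        (TensorProduct.map LinearMap.id (E.cop K) t)) =
      H.map F2 (SS.prodMap (SS.Hom.id K) (SS.diag K)) (E.cr K K t) := by
    intro t
    rw [cr_nat']
    congr 1
    induction t with
    | zero => simp
    | add a b ha hb => simp only [map_add, ha, hb]
    | tmul a b =>
      simp only [TensorProduct.map_tmul, LinearMap.id_apply, LinearEquiv.coe_coe, cr_cop, hMap_id]
  have hinj : Function.Injective (TensorProduct.map (LinearMap.id : H F2 K →ₗ[F2] H F2 K)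
      (E.cr K K).toLinearMap) :=
    (TensorProduct.congr (LinearEquiv.refl F2 (H F2 K)) (E.cr K K)).injective
  apply hinj
  apply (E.cr K (K.prod K)).injective
  rw [h1, h2, cr_cop, ← hMap_comp, ← hMap_comp, ← hMap_comp]
  rfl

/-- counit law (left) -/
theorem eps_cop (x : H F2 K) :
    TensorProduct.lid F2 _ (TensorProduct.map (eps K) LinearMap.id (E.cop K x)) = x := by
  have h : ∀ t : H F2 K ⊗[F2] H F2 K,
      TensorProduct.lid F2 _ (TensorProduct.map (eps K) LinearMap.id t) =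
        H.map F2 (SS.snd K K) (E.cr K K t) := by
    intro t
    induction t with
    | zero => simp
    | add a b ha hb => simp only [map_add, ha, hb]
    | tmul a b => rw [snd_cr, TensorProduct.map_tmul, TensorProduct.lid_tmul, LinearMap.id_apply]
  rw [h, cr_cop, ← hMap_comp]
  exact hMap_id x

/-- counit law (right) -/
theorem cop_eps (x : H F2 K) :
    TensorProduct.rid F2 _ (TensorProduct.map LinearMap.id (eps K) (E.cop K x)) = x := by
  have h : ∀ t : H F2 K ⊗[F2] H F2 K,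
      TensorProduct.rid F2 _ (TensorProduct.map LinearMap.id (eps K) t) =
        H.map F2 (SS.fst K K) (E.cr K K t) := by
    intro t
    induction t with
    | zero => simp
    | add a b ha hb => simp only [map_add, ha, hb]
    | tmul a b => rw [fst_cr, TensorProduct.map_tmul, TensorProduct.rid_tmul, LinearMap.id_apply]
  rw [h, cr_cop, ← hMap_comp]
  exact hMap_id x

/-- coproduct of a vertex -/
theorem cop_vtx (v : K.S 0) : E.cop K (vtx v) = vtx v ⊗ₜ vtx v := by
  apply (E.cr K K).injective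
  rw [cr_cop, cr_vtx, hMap_vtx]
  rfl

/-- coproduct of a cross product -/
theorem cop_cr (x : H F2 K) (y : H F2 L) :
    E.cop (K.prod L) (E.cr K L (x ⊗ₜ y)) =
      TensorProduct.map (E.cr K L).toLinearMap (E.cr K L).toLinearMap
        (TensorProduct.tensorTensorTensorComm F2 _ _ _ _ (E.cop K x ⊗ₜ E.cop L y)) := by
  have h : ∀ (s : H F2 K ⊗[F2] H F2 K) (t : H F2 L ⊗[F2] H F2 L),
      E.cr (K.prod L) (K.prod L) (TensorProduct.map (E.cr K L).toLinearMap (E.cr K L).toLinearMap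
        (TensorProduct.tensorTensorTensorComm F2 _ _ _ _ (s ⊗ₜ t))) =
      H.map F2 (mid K K L L) (E.cr _ _ (E.cr K K s ⊗ₜ E.cr L L t)) := by
    intro s t
    induction s with
    | zero => simp
    | add a b ha hb => simp only [map_add, TensorProduct.add_tmul, ha, hb]
    | tmul a b =>
      induction t with
      | zero => simp
      | add c d hc hd => simp only [map_add, TensorProduct.tmul_add, hc, hd]
      | tmul c d =>
        rw [TensorProduct.tensorTensorTensorComm_tmul, TensorProduct.map_tmul, cr_mid]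
        rfl
  apply (E.cr (K.prod L) (K.prod L)).injective
  rw [h, cr_cop, cr_cop, cr_cop, ← cr_nat, ← hMap_comp]
  rfl

end EZData

end Crest.Agent.R204.Coalg847
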