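import Crest.Agent.R204.EZAW_271
import Crest.Agent.R204.Coalg_847

/-!
# Row 204, A4/A1 (helper847): associativity, symmetry (mod 2 and graded), unit, degree of `cross`
-/

set_option autoImplicit false

namespace Crest.Agent.R204.EZ847

open Finsupp Coalg847 EZ271

section

variable (R : Type) [CommRing R] {K L J : SS}

theorem sg_F2 (z : N F2 K) : sg F2 z = z := by
  have : sg F2 (K := K) = LinearMap.id := by
    refine hom_ext fun n x => ?_
    rw [sg_sx, LinearMap.id_apply]
    have : ((-1 : F2) ^ n) = 1 := by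
      have h : (-1 : F2) = 1 := rfl
      rw [h, one_pow]
    rw [this, one_smul]
  rw [this]; rfl

theorem map_asc_c (A : Cone K) (B : Cone L) (C : Cone J) (z : N R ((K.prod L).prod J)) :
    N.map R (asc K L J) (((A.prod B).prod C).c R z) =
      (A.prod (B.prod C)).c R (N.map R (asc K L J) z) :=
  IsConeMap.c (A := (A.prod B).prod C) (B := A.prod (B.prod C)) ⟨fun _ => rfl⟩ R z

theorem map_swap_c (A : Cone K) (B : Cone L) (z : N R (K.prod L)) :
    N.map R (SS.swap K L) ((A.prod B).c R z) = (B.prod A).c R (N.map R (SS.swap K L) z) :=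
  IsConeMap.c (A := A.prod B) (B := B.prod A) ⟨fun _ => rfl⟩ R z

theorem map_asc_nat {K' L' J' : SS} (f : SS.Hom K K') (g : SS.Hom L L') (h : SS.Hom J J')
    (z : N R ((K.prod L).prod J)) :
    N.map R (asc K' L' J') (N.map R (SS.prodMap (SS.prodMap f g) h) z) =
      N.map R (SS.prodMap f (SS.prodMap g h)) (N.map R (asc K L J) z) := by
  rw [map_map, map_map]; rfl

/-- associativity for three chains -/
def A3 (a : N R K) (b : N R L) (c : N R J) : Prop :=
  N.map R (asc K L J) (cross R (cross R a b) c) = cross R a (cross R b c)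

variable {R}

theorem A3.smul1 {a : N R K} {b : N R L} {c : N R J} (h : A3 R a b c) (r : R) :
    A3 R (r • a) b c := by
  unfold A3 at h ⊢
  simp only [map_smul, LinearMap.smul_apply, h]

theorem A3.smul2 {a : N R K} {b : N R L} {c : N R J} (h : A3 R a b c) (r : R) :
    A3 R a (r • b) c := by
  unfold A3 at h ⊢
  simp only [map_smul, LinearMap.smul_apply, h]

theorem sg_bot (A : Cone K) : sg R (N.sx R A.bot) = N.sx R A.bot := by
  rw [sg_sx, pow_zero, one_smul]

variable (A : Cone K) (B : Cone L) (C : Cone J)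

theorem A3.s000 : A3 R (N.sx R A.bot) (N.sx R B.bot) (N.sx R C.bot) := by
  unfold A3
  rw [cross_bot, cross_bot, cross_bot, N.map_sx, cross_bot]; rfl

theorem A3.s001 {c : N R J} (h : A3 R (N.sx R A.bot) (N.sx R B.bot) c) :
    A3 R (N.sx R A.bot) (N.sx R B.bot) (C.c R c) := by
  unfold A3 at h ⊢
  rw [cross_bot] at h ⊢
  rw [cross_bot_c, cross_bot_c, cross_bot_c, map_asc_c, h]

theorem A3.s010 {b : N R L} (h : A3 R (N.sx R A.bot) b (N.sx R C.bot)) :
    A3 R (N.sx R A.bot) (B.c R b) (N.sx R C.bot) := by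
  unfold A3 at h ⊢
  rw [cross_bot_c, cross_c_bot, cross_c_bot, cross_bot_c, map_asc_c, h]

theorem A3.s100 {a : N R K} (h : A3 R a (N.sx R B.bot) (N.sx R C.bot)) :
    A3 R (A.c R a) (N.sx R B.bot) (N.sx R C.bot) := by
  unfold A3 at h ⊢
  rw [cross_bot] at h ⊢
  rw [cross_c_bot, cross_c_bot, cross_c_bot, map_asc_c, h]

theorem A3.s011 {b : N R L} {c : N R J} (h1 : A3 R (N.sx R A.bot) b (C.c R c))
    (h2 : A3 R (N.sx R A.bot) (sg R (B.c R b)) c) :
    A3 R (N.sx R A.bot) (B.c R b) (C.c R c) := by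
  unfold A3 at h1 h2 ⊢
  have e : sg R ((A.prod B).c R (cross R (N.sx R A.bot) b)) =
      cross R (N.sx R A.bot) (sg R (B.c R b)) := by
    rw [← cross_bot_c, sg_cross, sg_bot]
  rw [cross_bot_c, cross_c_c, e, map_asc_c, map_add (N.map R (asc K L J)), h1, h2, cross_c_c,
    cross_bot_c, map_add (cross R (N.sx R A.bot))]

theorem A3.s101 {a : N R K} {c : N R J} (h1 : A3 R a (N.sx R B.bot) (C.c R c))
    (h2 : A3 R (sg R (A.c R a)) (N.sx R B.bot) c) :
    A3 R (A.c R a) (N.sx R B.bot) (C.c R c) := by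
  unfold A3 at h1 h2 ⊢
  have e : sg R ((A.prod B).c R (cross R a (N.sx R B.bot))) =
      cross R (sg R (A.c R a)) (N.sx R B.bot) := by
    rw [← cross_c_bot, sg_cross, sg_bot]
  rw [cross_c_bot, cross_c_c, e, map_asc_c, map_add, h1, h2, cross_bot_c, cross_c_c]

theorem A3.s110 {a : N R K} {b : N R L} (h1 : A3 R a (B.c R b) (N.sx R C.bot))
    (h2 : A3 R (sg R (A.c R a)) b (N.sx R C.bot)) :
    A3 R (A.c R a) (B.c R b) (N.sx R C.bot) := by
  unfold A3 at h1 h2 ⊢
  rw [cross_c_c, cross_c_bot, map_asc_c, map_add, LinearMap.add_apply, map_add, h1, h2,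
    cross_c_bot, cross_c_c]

theorem A3.s111 {a : N R K} {b : N R L} {c : N R J} (h1 : A3 R a (B.c R b) (C.c R c))
    (h2 : A3 R (sg R (A.c R a)) b (C.c R c)) (h3 : A3 R (sg R (A.c R a)) (sg R (B.c R b)) c) :
    A3 R (A.c R a) (B.c R b) (C.c R c) := by
  unfold A3 at h1 h2 h3 ⊢
  have e : sg R ((A.prod B).c R (cross R a (B.c R b) + cross R (sg R (A.c R a)) b)) =
      cross R (sg R (A.c R a)) (sg R (B.c R b)) := by
    rw [← cross_c_c, sg_cross]
  rw [cross_c_c, cross_c_c, e, map_asc_c, map_add (N.map R (asc K L J)), map_add (cross R),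
    LinearMap.add_apply, map_add (N.map R (asc K L J)), h1, h2, h3,
    cross_c_c R B C, cross_c_c, map_add (cross R (sg R (A.c R a))), add_assoc]

variable (R)

/-- universal case of associativity -/
theorem assoc_aux : ∀ n p q r : ℕ, p + q + r = n → ∀ (K L J : SS) (x : K.S p) (y : L.S q) (z : J.S r),
    A3 R (N.sx R x) (N.sx R y) (N.sx R z) := by
  intro n
  induction n using Nat.strong_induction_on with
  | _ n ih =>
  intro p q r hpqr K L J x y z
  suffices H : A3 R (N.sx R (iota p)) (N.sx R (iota q)) (N.sx R (iota r)) by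
    unfold A3 at H ⊢
    have h2 := congrArg (N.map R (SS.prodMap (K.yo x) (SS.prodMap (L.yo y) (J.yo z)))) H
    rw [← map_asc_nat, map_cross, map_cross, map_cross, map_cross, ← sx_eq_map_iota,
      ← sx_eq_map_iota, ← sx_eq_map_iota] at h2
    exact h2
  have S : ∀ p : ℕ, ∃ u : (SS.std (p + 1)).S p, N.sx R (iota (p + 1)) =
      (Cone.std (p + 1)).c R (N.sx R u) := by
    intro p
    refine ⟨(Op.face 0 : Op p (p + 1)), ?_⟩
    rw [iota_succ, N.map_sx]; rfl
  rcases p with _ | p <;> rcases q with _ | q <;> rcases r with _ | r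
  · rw [iota_zero]; exact A3.s000 _ _ _
  · obtain ⟨u, hu⟩ := S r
    rw [hu, iota_zero]
    exact A3.s001 _ _ _ (ih (0 + 0 + r) (by omega) 0 0 r rfl _ _ _ _ _ _)
  · obtain ⟨u, hu⟩ := S q
    rw [hu, iota_zero]
    exact A3.s010 _ _ _ (ih (0 + q + 0) (by omega) 0 q 0 rfl _ _ _ _ _ _)
  · obtain ⟨u, hu⟩ := S q
    obtain ⟨v, hv⟩ := S r
    rw [hu, hv, iota_zero]
    refine A3.s011 _ _ _ ?_ ?_
    · rw [Cone.c_sx]
      exact ih (0 + q + (r + 1)) (by omega) 0 q (r + 1) rfl _ _ _ _ _ _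
    · rw [Cone.c_sx, sg_sx]
      exact (ih (0 + (q + 1) + r) (by omega) 0 (q + 1) r rfl _ _ _ _ _ _).smul2 _
  · obtain ⟨u, hu⟩ := S p
    rw [hu, iota_zero]
    exact A3.s100 _ _ _ (ih (p + 0 + 0) (by omega) p 0 0 rfl _ _ _ _ _ _)
  · obtain ⟨u, hu⟩ := S p
    obtain ⟨v, hv⟩ := S r
    rw [hu, hv, iota_zero]
    refine A3.s101 _ _ _ ?_ ?_
    · rw [Cone.c_sx]
      exact ih (p + 0 + (r + 1)) (by omega) p 0 (r + 1) rfl _ _ _ _ _ _
    · rw [Cone.c_sx, sg_sx]
      exact (ih ((p + 1) + 0 + r) (by omega) (p + 1) 0 r rfl _ _ _ _ _ _).smul1 _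
  · obtain ⟨u, hu⟩ := S p
    obtain ⟨v, hv⟩ := S q
    rw [hu, hv, iota_zero]
    refine A3.s110 _ _ _ ?_ ?_
    · rw [Cone.c_sx]
      exact ih (p + (q + 1) + 0) (by omega) p (q + 1) 0 rfl _ _ _ _ _ _
    · rw [Cone.c_sx, sg_sx]
      exact (ih ((p + 1) + q + 0) (by omega) (p + 1) q 0 rfl _ _ _ _ _ _).smul1 _
  · obtain ⟨u, hu⟩ := S p
    obtain ⟨v, hv⟩ := S q
    obtain ⟨w, hw⟩ := S r
    rw [hu, hv, hw]
    refine A3.s111 _ _ _ ?_ ?_ ?_
    · rw [Cone.c_sx, Cone.c_sx]
      exact ih (p + (q + 1) + (r + 1)) (by omega) p (q + 1) (r + 1) rfl _ _ _ _ _ _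
    · rw [Cone.c_sx, Cone.c_sx, sg_sx]
      exact (ih ((p + 1) + q + (r + 1)) (by omega) (p + 1) q (r + 1) rfl _ _ _ _ _ _).smul1 _
    · rw [Cone.c_sx, Cone.c_sx, sg_sx, sg_sx]
      exact ((ih ((p + 1) + (q + 1) + r) (by omega) (p + 1) (q + 1) r rfl _ _ _ _ _ _).smul1 _).smul2 _

/-- **associativity of the cross product** -/
theorem cross_assoc (a : N R K) (b : N R L) (c : N R J) :
    N.map R (asc K L J) (cross R (cross R a b) c) = cross R a (cross R b c) := by
  refine N_induction (p := fun a => N.map R (asc K L J) (cross R (cross R a b) c) =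
    cross R a (cross R b c)) a (by simp) (fun x y hx hy => ?_) (fun r x hx => ?_) (fun p x => ?_)
  · simp only [map_add, LinearMap.add_apply, hx, hy]
  · simp only [map_smul, LinearMap.smul_apply, hx]
  refine N_induction (p := fun b => N.map R (asc K L J) (cross R (cross R (N.sx R x) b) c) =
    cross R (N.sx R x) (cross R b c)) b (by simp) (fun x y hx hy => ?_) (fun r x hx => ?_)
    (fun q y => ?_)
  · simp only [map_add, LinearMap.add_apply, hx, hy]
  · simp only [map_smul, LinearMap.smul_apply, hx]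
  refine N_induction (p := fun c => N.map R (asc K L J) (cross R (cross R (N.sx R x) (N.sx R y)) c) =
    cross R (N.sx R x) (cross R (N.sx R y) c)) c (by simp) (fun x y hx hy => ?_) (fun r x hx => ?_)
    (fun r z => ?_)
  · simp only [map_add, hx, hy]
  · simp only [map_smul, hx]
  · exact assoc_aux R _ p q r rfl K L J x y z

/-- **mod 2 symmetry of the cross product** -/
theorem cross_swap_F2 (a : N F2 K) (b : N F2 L) :
    N.map F2 (SS.swap K L) (cross F2 a b) = cross F2 b a := by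
  refine ind2 F2 (M := fun K L => N F2 (L.prod K)) (fun K L =>
    (cross F2 (K := K) (L := L)).compr₂ (N.map F2 (SS.swap K L)))
    (fun K L => (cross F2 (K := L) (L := K)).flip) ?_ ?_ ?_ ?_ ?_ K L a b
  · intro K L K' L' g h a b hab
    simp only [LinearMap.compr₂_apply, LinearMap.flip_apply] at hab ⊢
    have e : (SS.swap K' L').comp (SS.prodMap g h) = (SS.prodMap h g).comp (SS.swap K L) := rfl
    rw [← map_cross, map_map, e, ← map_map, hab, map_cross]
  · intro K L A B
    simp only [LinearMap.compr₂_apply, LinearMap.flip_apply]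
    rw [cross_bot, cross_bot, N.map_sx]; rfl
  · intro K L A B a h
    simp only [LinearMap.compr₂_apply, LinearMap.flip_apply] at h ⊢
    rw [cross_c_bot, map_swap_c, h, cross_bot_c]
  · intro K L A B b h
    simp only [LinearMap.compr₂_apply, LinearMap.flip_apply] at h ⊢
    rw [cross_bot_c, map_swap_c, h, cross_c_bot]
  · intro K L A B a b h1 h2 _
    simp only [LinearMap.compr₂_apply, LinearMap.flip_apply] at h1 h2 ⊢
    rw [cross_c_c, map_swap_c, cross_c_c, sg_F2, sg_F2, map_add, h1, h2, add_comm]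

end

/-! ## degree -/

section

variable (R : Type) [CommRing R]

theorem cross_mem_gr {K L : SS} {m n : ℕ} {x : N R K} {y : N R L} (hx : x ∈ N.gr R K m)
    (hy : y ∈ N.gr R L n) : cross R x y ∈ N.gr R (K.prod L) (m + n) := by
  have sxg : ∀ {K : SS} {n : ℕ} (x : K.S n), N.sx R x ∈ N.gr R K n := fun x =>
    ⟨single ⟨_, x⟩ 1, Submodule.subset_span ⟨x, rfl⟩, rfl⟩
  have cg : ∀ {K : SS} (A : Cone K) {n : ℕ} {z : N R K}, z ∈ N.gr R K n →
      A.c R z ∈ N.gr R K (n + 1) := by
    intro K A n z hz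
    obtain ⟨c, hc, rfl⟩ := hz
    refine Submodule.span_induction (p := fun c _ => A.c R (Submodule.mkQ _ c) ∈ N.gr R K (n + 1))
      ?_ ?_ ?_ ?_ hc
    · rintro _ ⟨x, rfl⟩
      have : (Submodule.mkQ _ (single ⟨n, x⟩ 1) : N R K) = N.sx R x := rfl
      rw [this, Cone.c_sx]
      exact sxg _
    · simp
    · intro a b _ _ ha hb; rw [map_add, map_add]; exact Submodule.add_mem _ ha hb
    · intro r a _ ha; rw [map_smul, map_smul]; exact Submodule.smul_mem _ _ ha
  have key : ∀ n p q : ℕ, p + q = n → E R p q ∈ N.gr R ((SS.std p).prod (SS.std q)) (p + q) := by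
    intro n
    induction n with
    | zero =>
      intro p q h
      obtain rfl : p = 0 := by omega
      obtain rfl : q = 0 := by omega
      rw [E_zero_zero]; exact sxg _
    | succ n ih =>
      intro p q h
      rcases p with _ | p <;> rcases q with _ | q
      · omega
      · rw [E_zero_succ]
        exact cg _ (nMap_mem_gr _ (ih 0 q (by omega)))
      · rw [E_succ_zero]
        exact cg _ (nMap_mem_gr _ (ih p 0 (by omega)))
      · rw [E_succ_succ]
        have h1 := nMap_mem_gr (SS.prodMap (stdMap (Op.face 0)) (SS.Hom.id _)) (ih p (q + 1) (by omega))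
        have h2 := nMap_mem_gr (SS.prodMap (SS.Hom.id _) (stdMap (Op.face 0))) (ih (p + 1) q (by omega))
        have e1 : p + 1 + (q + 1) = p + (q + 1) + 1 := by omega
        have e2 : p + 1 + q = p + (q + 1) := by omega
        rw [e1]
        rw [e2] at h2
        exact cg _ (Submodule.add_mem _ h1 (Submodule.smul_mem _ _ h2))
  obtain ⟨c, hc, rfl⟩ := hx
  obtain ⟨d, hd, rfl⟩ := hy
  refine Submodule.span_induction (p := fun c _ => cross R (Submodule.mkQ _ c) (Submodule.mkQ _ d) ∈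
    N.gr R (K.prod L) (m + n)) ?_ ?_ ?_ ?_ hc
  · rintro _ ⟨x, rfl⟩
    refine Submodule.span_induction (p := fun d _ => cross R (Submodule.mkQ _ (single ⟨m, x⟩ 1))
      (Submodule.mkQ _ d) ∈ N.gr R (K.prod L) (m + n)) ?_ ?_ ?_ ?_ hd
    · rintro _ ⟨y, rfl⟩
      have e1 : (Submodule.mkQ _ (single ⟨m, x⟩ 1) : N R K) = N.sx R x := rfl
      have e2 : (Submodule.mkQ _ (single ⟨n, y⟩ 1) : N R L) = N.sx R y := rfl
      rw [e1, e2, cross_sx]
      exact nMap_mem_gr _ (key _ m n rfl)
    · simp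
    · intro a b _ _ ha hb; rw [map_add, map_add]; exact Submodule.add_mem _ ha hb
    · intro r a _ ha; rw [map_smul, map_smul]; exact Submodule.smul_mem _ _ ha
  · simp
  · intro a b _ _ ha hb
    rw [map_add, map_add, LinearMap.add_apply]; exact Submodule.add_mem _ ha hb
  · intro r a _ ha
    rw [map_smul, map_smul, LinearMap.smul_apply]; exact Submodule.smul_mem _ _ ha

/-- unit -/
theorem cross_unit {K : SS} (x : N F2 K) :
    N.map F2 (SS.fst K SS.pt) (cross F2 x pt0) = x := by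
  rw [fst_cross, pt0, aug_sx_zero, one_smul]

end

end Crest.Agent.R204.EZ847
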