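import Crest.Agent.R204.Orb_742
import Crest.Agent.R204.EG_265

/-!
# Row 204, block A2: alternating simplices of `E Z/2` and of its skeleta, the twisted quadratic
construction `Q M C`, and `H((A × L)/Z2) = H(Q (N L))` for `A = E Z/2` or `A = sk_M E Z/2`,
from Eilenberg-Zilber data.   owner helper742
-/

set_option autoImplicit false

namespace Crest.Agent.R204.DK742

open Finsupp SS

/-- the involution `ε ↦ ε + 1` of `E Z/2` -/
def gE : Invo (EG (ZMod 2)) :=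
  ⟨EGmap (fun a => a + 1), fun n x => by
    funext i
    show x i + 1 + 1 = x i
    rw [add_assoc]
    have : (1 + 1 : ZMod 2) = 0 := by decide
    rw [this, add_zero]⟩

/-- skeleton of an involution -/
def Invo.sk {K : SS} (τ : Invo K) (M : ℕ) : Invo (SS.sk M K) :=
  ⟨skMap M τ.g, fun n x => Subtype.ext (τ.invol n x.1)⟩

/-! ## alternating simplices -/

/-- alternating sequence starting at `b` -/
def alt (n : ℕ) (b : ZMod 2) : (EG (ZMod 2)).S n := fun i => b + (i : ℕ)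

theorem alt_g (n : ℕ) (b : ZMod 2) : gE.g.app n (alt n b) = alt n (b + 1) := by
  funext i
  show b + (i : ℕ) + 1 = b + 1 + (i : ℕ)
  ring

theorem alt_zero (n : ℕ) (b : ZMod 2) : alt n b 0 = b := by
  show b + ((0 : ℕ) : ZMod 2) = b
  simp

theorem zmod2_ne {a b : ZMod 2} (h : a ≠ b) : a = b + 1 := by
  revert a b; decide

theorem zmod2_cases (a : ZMod 2) : a = 0 ∨ a = 1 := by
  revert a; decide

/-- either alternating or two neighbours agree -/
theorem alt_or_eq {n : ℕ} (ε : (EG (ZMod 2)).S n) :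
    ε = alt n (ε 0) ∨ ∃ j : ℕ, ∃ h : j + 1 < n + 1, ε ⟨j, by omega⟩ = ε ⟨j + 1, h⟩ := by
  by_cases h : ∃ j : ℕ, ∃ h : j + 1 < n + 1, ε ⟨j, by omega⟩ = ε ⟨j + 1, h⟩
  · exact Or.inr h
  · left
    simp only [not_exists] at h
    funext i
    obtain ⟨i, hi⟩ := i
    show ε ⟨i, hi⟩ = ε 0 + (i : ℕ)
    induction i with
    | zero => simp
    | succ j ih =>
      have h1 := h j hi
      have h2 := ih (by omega)
      have h3 : ε ⟨j + 1, hi⟩ = ε ⟨j, by omega⟩ + 1 := zmod2_ne fun h => h1 h.symm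
      rw [h3, h2]
      push_cast
      ring

theorem alt_ne {n : ℕ} {b : ZMod 2} {ε : (EG (ZMod 2)).S n} (h : ε = alt n b) (j : ℕ)
    (hj : j + 1 < n + 1) : ε ⟨j, by omega⟩ ≠ ε ⟨j + 1, hj⟩ := by
  subst h
  intro h
  have h1 : b + ((j : ℕ) : ZMod 2) = b + ((j + 1 : ℕ) : ZMod 2) := h
  have h2 : (0 : ZMod 2) = 1 := by
    have := add_left_cancel h1
    push_cast at this
    exact add_left_cancel (a := (j : ZMod 2)) (by simp at this)
  exact absurd h2 (by decide)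

/-- an equality of neighbours makes a function degenerate -/
theorem act_dgn_of_eq {V : Type} {n : ℕ} (x : (EG V).S (n + 1)) (j : Fin (n + 1))
    (h : x j.castSucc = x j.succ) :
    x = (EG V).act (Op.dgn j) ((EG V).act (Op.face j.succ) x) := by
  funext a
  show x a = x (Op.face j.succ (Op.dgn j a))
  by_cases ha : (a : ℕ) = j + 1
  · have h1 : a = j.succ := Fin.ext (by simpa using ha)
    have h2 : Op.face j.succ (Op.dgn j a) = j.castSucc := by
      apply Fin.ext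
      rw [Ch.face_val, Ch.dgn_val]
      simp only [Fin.val_succ, Fin.val_castSucc]
      split_ifs <;> omega
    rw [h2, h1, h]
  · congr 1
    apply Fin.ext
    rw [Ch.face_val, Ch.dgn_val]
    simp only [Fin.val_succ]
    split_ifs <;> omega

theorem dgn_castSucc {n : ℕ} (j : Fin (n + 1)) : Op.dgn j j.castSucc = Op.dgn j j.succ := by
  apply Fin.ext
  rw [Ch.dgn_val, Ch.dgn_val]
  simp only [Fin.val_succ, Fin.val_castSucc]
  split_ifs <;> omega

/-- a degenerate simplex of `E` is not alternating -/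
theorem dgn_ne_alt {n : ℕ} (j : Fin (n + 1)) (y : (EG (ZMod 2)).S n) (b : ZMod 2) :
    (EG (ZMod 2)).act (Op.dgn j) y ≠ alt (n + 1) b := by
  intro h
  have := alt_ne h j (by have := j.2; omega)
  apply this
  show y (Op.dgn j ⟨j, _⟩) = y (Op.dgn j ⟨(j : ℕ) + 1, _⟩)
  congr 1
  exact dgn_castSucc j

/-- an alternating simplex factoring through dimension `m` has dimension `≤ m` -/
theorem dim_le_of_alt {m n : ℕ} (x : (EG (ZMod 2)).S n) (b : ZMod 2) (h : x = alt n b)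
    (hx : IsSk m _ x) : n ≤ m := by
  obtain ⟨p, hp, f, y, hx⟩ := hx
  refine le_trans ?_ hp
  have hmono : StrictMono f := by
    refine Fin.strictMono_iff_lt_succ.2 ?_
    intro i
    refine lt_of_le_of_ne (f.monotone (Fin.castSucc_lt_succ).le) ?_
    intro hf
    have := alt_ne (n := n) (ε := x) h i (by have := i.2; omega)
    apply this
    rw [hx]
    show y (f _) = y (f _)
    exact congrArg y hf
  have := Fintype.card_le_of_injective f hmono.injective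
  simp only [Fintype.card_fin] at this
  omega

/-- a free `Z/2`-simplicial set with one cell in each dimension `≤ M`: the full `E Z/2` or a skeleton -/
structure AltSS where
  A : SS
  g : Invo A
  j : Hom A (EG (ZMod 2))
  j_inj : ∀ n, Function.Injective (j.app n)
  j_g : Equi g gE j
  M : ℕ∞
  alt_mem : ∀ n : ℕ, (n : ℕ∞) ≤ M → ∀ b, ∃ x, j.app n x = alt n b
  alt_le : ∀ (n : ℕ) (x : A.S n) (b : ZMod 2), j.app n x = alt n b → (n : ℕ∞) ≤ M

/-- the full `E Z/2` -/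
def AltSS.full : AltSS where
  A := EG (ZMod 2)
  g := gE
  j := Hom.id _
  j_inj _ _ _ h := h
  j_g _ _ := rfl
  M := ⊤
  alt_mem n _ b := ⟨alt n b, rfl⟩
  alt_le _ _ _ _ := le_top

/-- the skeleton `sk_M (E Z/2)` -/
def AltSS.skel (M : ℕ) : AltSS where
  A := SS.sk M (EG (ZMod 2))
  g := gE.sk M
  j := skIncl M _
  j_inj _ _ _ h := Subtype.ext h
  j_g _ _ := rfl
  M := M
  alt_mem n hn b := ⟨⟨alt n b, isSk_of_le (by exact_mod_cast hn) _⟩, rfl⟩
  alt_le n x b h := by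
    exact_mod_cast dim_le_of_alt x.1 b h x.2

/-- index set of the cells -/
abbrev Idx (M : ℕ∞) : Type := {i : ℕ // (i : ℕ∞) ≤ M}

namespace AltSS

variable (X : AltSS)

/-- the alternating simplex -/
noncomputable def e (n : ℕ) (h : (n : ℕ∞) ≤ X.M) (b : ZMod 2) : X.A.S n :=
  (X.alt_mem n h b).choose

@[simp] theorem j_e (n : ℕ) (h : (n : ℕ∞) ≤ X.M) (b : ZMod 2) : X.j.app n (X.e n h b) = alt n b :=
  (X.alt_mem n h b).choose_spec

theorem eq_e {n : ℕ} (x : X.A.S n) (b : ZMod 2) (h : X.j.app n x = alt n b)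
    (h' : (n : ℕ∞) ≤ X.M) : x = X.e n h' b :=
  X.j_inj n (by rw [h, j_e])

theorem g_e (n : ℕ) (h : (n : ℕ∞) ≤ X.M) (b : ZMod 2) :
    X.g.g.app n (X.e n h b) = X.e n h (b + 1) :=
  X.j_inj n (by rw [X.j_g, j_e, j_e, alt_g])

theorem sx_eq_zero {n : ℕ} (x : X.A.S (n + 1)) (k : Fin (n + 1))
    (h : X.j.app (n + 1) x k.castSucc = X.j.app (n + 1) x k.succ) : N.sx F2 x = 0 := by
  have : x = X.A.act (Op.dgn k) (X.A.act (Op.face k.succ) x) := by
    apply X.j_inj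
    rw [X.j.nat, X.j.nat]
    exact act_dgn_of_eq _ k h
  rw [this, N.sx_dgn]

theorem sx_eq_zero' {n : ℕ} (x : X.A.S n) (h : X.j.app n x ≠ alt n (X.j.app n x 0)) :
    N.sx F2 x = 0 := by
  rcases alt_or_eq (X.j.app n x) with h' | ⟨k, hk, h'⟩
  · exact (h h').elim
  · obtain ⟨n, rfl⟩ : ∃ m, n = m + 1 := ⟨n - 1, by omega⟩
    exact X.sx_eq_zero x ⟨k, by omega⟩ h'

theorem le_pred {n : ℕ} (h : ((n + 1 : ℕ) : ℕ∞) ≤ X.M) : (n : ℕ∞) ≤ X.M :=
  le_trans (by exact_mod_cast Nat.le_succ n) h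

theorem act_face_zero (n : ℕ) (h : ((n + 1 : ℕ) : ℕ∞) ≤ X.M) (b : ZMod 2) :
    X.A.act (Op.face 0) (X.e (n + 1) h b) = X.e n (X.le_pred h) (b + 1) := by
  apply X.eq_e
  rw [X.j.nat, j_e]
  funext i
  show b + (((Op.face 0 i : Fin (n + 2)) : ℕ) : ZMod 2) = b + 1 + ((i : ℕ) : ZMod 2)
  rw [Ch.face_val]
  simp
  ring

theorem act_face_last (n : ℕ) (h : ((n + 1 : ℕ) : ℕ∞) ≤ X.M) (b : ZMod 2) :
    X.A.act (Op.face (Fin.last (n + 1))) (X.e (n + 1) h b) = X.e n (X.le_pred h) b := by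
  apply X.eq_e
  rw [X.j.nat, j_e]
  funext i
  show b + (((Op.face (Fin.last (n + 1)) i : Fin (n + 2)) : ℕ) : ZMod 2) = b + ((i : ℕ) : ZMod 2)
  rw [Ch.face_val]
  have := i.2
  rw [if_pos (by simp; omega)]

theorem sx_act_face (n : ℕ) (h : ((n + 1 : ℕ) : ℕ∞) ≤ X.M) (b : ZMod 2) (k : Fin (n + 2))
    (h0 : k ≠ 0) (h1 : k ≠ Fin.last (n + 1)) :
    N.sx F2 (X.A.act (Op.face k) (X.e (n + 1) h b)) = 0 := by
  have hk0 : (k : ℕ) ≠ 0 := fun h => h0 (Fin.ext h)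
  have hk1 : (k : ℕ) ≠ n + 1 := fun h => h1 (Fin.ext (by simpa using h))
  have hk2 := k.2
  obtain ⟨n, rfl⟩ : ∃ m, n = m + 1 := ⟨n - 1, by omega⟩
  apply X.sx_eq_zero _ ⟨(k : ℕ) - 1, by omega⟩
  rw [X.j.nat, j_e]
  show b + (((Op.face k _ : Fin (n + 3)) : ℕ) : ZMod 2) = b + (((Op.face k _ : Fin (n + 3)) : ℕ) : ZMod 2)
  rw [Ch.face_val, Ch.face_val]
  simp only [Fin.val_castSucc, Fin.val_succ]
  rw [if_pos (by omega), if_neg (by omega)]
  obtain ⟨m, hm⟩ : ∃ m, (k : ℕ) = m + 1 := ⟨k - 1, by omega⟩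
  rw [hm]
  push_cast
  have : (m : ZMod 2) + 1 + 1 = m := by
    rw [add_assoc]
    have : (1 + 1 : ZMod 2) = 0 := by decide
    rw [this, add_zero]
  rw [this]

theorem bd_e_succ (n : ℕ) (h : ((n + 1 : ℕ) : ℕ∞) ≤ X.M) (b : ZMod 2) :
    N.bd F2 X.A (N.sx F2 (X.e (n + 1) h b)) =
      N.sx F2 (X.e n (X.le_pred h) (b + 1)) + N.sx F2 (X.e n (X.le_pred h) b) := by
  rw [bd_sx_succ]
  have h1 : ∀ i : Fin (n + 2), ((-1 : F2) ^ (i : ℕ)) = 1 := by
    intro i
    have : (-1 : F2) = 1 := by decide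
    rw [this, one_pow]
  simp only [h1, one_smul]
  rw [← Finset.sum_subset (Finset.subset_univ ({0, Fin.last (n + 1)} : Finset (Fin (n + 2)))),
    Finset.sum_pair, act_face_zero, act_face_last]
  · intro h
    have := congrArg Fin.val h
    simp at this
  · intro k _ hk
    simp only [Finset.mem_insert, Finset.mem_singleton, not_or] at hk
    exact X.sx_act_face n h b k hk.1 hk.2

theorem bd_e_zero (h : ((0 : ℕ) : ℕ∞) ≤ X.M) (b : ZMod 2) :
    N.bd F2 X.A (N.sx F2 (X.e 0 h b)) = 0 := bd_sx_zero F2 _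

end AltSS

/-! ## the twisted quadratic construction -/

section Q

variable {C : Type*} [AddCommGroup C] [Module F2 C]

/-- `Q_M(C) = ⊕_{i ≤ M} e_i ⊗ C` -/
abbrev Q (M : ℕ∞) (C : Type*) [AddCommGroup C] [Module F2 C] : Type _ := Idx M →₀ C

/-- inclusion of `e_{i-1} ⊗ C` (zero if `i = 0`) -/
noncomputable def Q.low {M : ℕ∞} (i : Idx M) : C →ₗ[F2] Q M C :=
  if h : (i : ℕ) = 0 then 0 else
    Finsupp.lsingle (⟨(i : ℕ) - 1, le_trans (by exact_mod_cast Nat.sub_le _ _) i.2⟩ : Idx M)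

/-- the differential `D(e_i ⊗ c) = e_{i-1} ⊗ (c + τ c) + e_i ⊗ d c` -/
noncomputable def Q.D (M : ℕ∞) (d τ : C →ₗ[F2] C) : Q M C →ₗ[F2] Q M C :=
  Finsupp.lsum F2 fun i : Idx M =>
    (Q.low i ∘ₗ (LinearMap.id + τ) : C →ₗ[F2] Q M C) + Finsupp.lsingle i ∘ₗ d

theorem Q.D_single_succ {M : ℕ∞} (d τ : C →ₗ[F2] C) (n : ℕ) (h : ((n + 1 : ℕ) : ℕ∞) ≤ M)
    (h' : (n : ℕ∞) ≤ M) (c : C) :
    Q.D M d τ (single ⟨n + 1, h⟩ c) = single ⟨n, h'⟩ (c + τ c) + single ⟨n + 1, h⟩ (d c) := by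
  rw [Q.D, Finsupp.lsum_single]
  simp [Q.low]

theorem Q.D_single_zero {M : ℕ∞} (d τ : C →ₗ[F2] C) (h : ((0 : ℕ) : ℕ∞) ≤ M) (c : C) :
    Q.D M d τ (single ⟨0, h⟩ c) = single ⟨0, h⟩ (d c) := by
  rw [Q.D, Finsupp.lsum_single]
  simp [Q.low]

end Q

end Crest.Agent.R204.DK742
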