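import Crest.Agent.R204.ThetaSS_265
import Crest.Agent.R204.EZCross_271
import Crest.Agent.R204.DK_742

/-!
# Row 204, leaf C5 (helper557): cross products with a fixed cycle, `T_i 1`, `T_0`

Everything for an arbitrary simplicial set `K` with a structure map.
-/

set_option autoImplicit false

noncomputable section

namespace Crest.Agent.R204.C5T557

open SS EZ271 ThetaSS265
open DK742 hiding bd_sx_zero bd_sx_succ

/-! ## cross products with a vertex -/

section vertex

variable (R : Type) [CommRing R]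

/-- the operator to the one point ordinal -/
def toZero (q : ℕ) : Op q 0 := ⟨fun _ => 0, fun _ _ _ => le_rfl⟩

theorem op_zero_eq {q : ℕ} (f g : Op q 0) : f = g :=
  OrderHom.ext _ _ (funext fun a => Fin.ext (by omega))

/-- the simplex `(const, id)` of `Δ^0 × Δ^q` -/
def zl (q : ℕ) : ((SS.std 0).prod (SS.std q)).S q := Prod.mk (α := Op q 0) (β := Op q q) (toZero q) OrderHom.id

/-- the simplex `(id, const)` of `Δ^p × Δ^0` -/
def zr (q : ℕ) : ((SS.std q).prod (SS.std 0)).S q := Prod.mk (α := Op q q) (β := Op q 0) OrderHom.id (toZero q)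

theorem E_zero_left (q : ℕ) : E R 0 q = N.sx R (zl q) := by
  induction q with
  | zero =>
    rw [E_zero_zero]
    congr 1
    exact Prod.ext (op_zero_eq _ _) (op_zero_eq _ _)
  | succ q ih =>
    rw [E_zero_succ, ih, N.map_sx, Cone.c_sx]
    congr 1
    refine Prod.ext (op_zero_eq _ _) ?_
    refine OrderHom.ext _ _ (funext fun a => ?_)
    induction a using Fin.cases with
    | zero => rfl
    | succ a => rfl

theorem E_zero_right (p : ℕ) : E R p 0 = N.sx R (zr p) := by
  induction p with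
  | zero =>
    rw [E_zero_zero]
    congr 1
    exact Prod.ext (op_zero_eq _ _) (op_zero_eq _ _)
  | succ q ih =>
    rw [E_succ_zero, ih, N.map_sx, Cone.c_sx]
    congr 1
    refine Prod.ext ?_ (op_zero_eq _ _)
    refine OrderHom.ext _ _ (funext fun a => ?_)
    induction a using Fin.cases with
    | zero => rfl
    | succ a => rfl

variable {K L : SS}

/-- cross product with a vertex on the left -/
theorem cross_vertex_left (v : K.S 0) (b : N R L) :
    cross R (N.sx R v) b = N.map R (SS.pair (SS.constHom L K v) (SS.Hom.id L)) b := by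
  refine LinearMap.congr_fun (f := cross R (N.sx R v))
    (g := N.map R (SS.pair (SS.constHom L K v) (SS.Hom.id L))) (hom_ext fun q y => ?_) b
  rw [cross_sx, E_zero_left, N.map_sx, N.map_sx]
  congr 1
  exact Prod.ext rfl (L.act_id y)

/-- cross product with a vertex on the right -/
theorem cross_vertex_right (a : N R K) (v : L.S 0) :
    cross R a (N.sx R v) = N.map R (SS.pair (SS.Hom.id K) (SS.constHom K L v)) a := by
  refine LinearMap.congr_fun (f := (cross R).flip (N.sx R v))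
    (g := N.map R (SS.pair (SS.Hom.id K) (SS.constHom K L v))) (hom_ext fun q y => ?_) a
  rw [LinearMap.flip_apply, cross_sx, E_zero_right, N.map_sx, N.map_sx]
  congr 1
  exact Prod.ext (K.act_id y) rfl

end vertex

/-! ## cross product with a fixed cycle on homology -/

section cyc

variable {K L : SS}

theorem sg_F2 (c : N F2 K) : sg F2 c = c := by
  refine LinearMap.congr_fun (f := sg F2) (g := LinearMap.id) (hom_ext fun n x => ?_) c
  rw [sg_sx]
  have : (-1 : F2) = 1 := by decide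
  rw [this, one_pow, one_smul]; rfl

/-- cross product with a fixed cycle -/
def crossCyc (a : N F2 K) (ha : N.bd F2 K a = 0) : H F2 L →ₗ[F2] H F2 (K.prod L) :=
  Hd.map (cross F2 a) (by
    refine LinearMap.ext fun b => ?_
    show cross F2 a (N.bd F2 L b) = N.bd F2 _ (cross F2 a b)
    rw [bd_cross, ha, map_zero, LinearMap.zero_apply, zero_add, sg_F2])

theorem bd_cross_cyc {a : N F2 K} {b : N F2 L} (ha : N.bd F2 K a = 0) (hb : N.bd F2 L b = 0) :
    N.bd F2 _ (cross F2 a b) = 0 := by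
  rw [bd_cross, ha, hb]; simp

theorem crossCyc_mk (a : N F2 K) (ha : N.bd F2 K a = 0) (b : N F2 L) (hb : N.bd F2 L b = 0) :
    crossCyc a ha (Hd.mk _ b hb) = Hd.mk _ (cross F2 a b) (bd_cross_cyc ha hb) := rfl

/-- naturality -/
theorem map_crossCyc {K' L' : SS} (f : Hom K K') (g : Hom L L') (a : N F2 K)
    (ha : N.bd F2 K a = 0) (y : H F2 L) :
    H.map F2 (SS.prodMap f g) (crossCyc a ha y) =
      crossCyc (N.map F2 f a) (by rw [← map_bd', ha, map_zero]) (H.map F2 g y) := by
  obtain ⟨z, hz, rfl⟩ := Hd.mk_surj _ y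
  have h1 : H.map F2 g (Hd.mk _ z hz) = Hd.mk _ (N.map F2 g z) (by rw [← map_bd', hz, map_zero]) :=
    rfl
  rw [h1, crossCyc_mk, crossCyc_mk]
  have h2 : H.map F2 (SS.prodMap f g) (Hd.mk _ (cross F2 a z) (bd_cross_cyc ha hz)) =
      Hd.mk _ (N.map F2 (SS.prodMap f g) (cross F2 a z))
        (by rw [← map_bd', bd_cross_cyc ha hz, map_zero]) := rfl
  rw [h2]
  congr 1
  exact map_cross F2 f g a z

theorem crossCyc_vertex (v : K.S 0) (hv : N.bd F2 K (N.sx F2 v) = 0) (y : H F2 L) :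
    crossCyc (N.sx F2 v) hv y = H.map F2 (SS.pair (SS.constHom L K v) (SS.Hom.id L)) y := by
  obtain ⟨z, hz, rfl⟩ := Hd.mk_surj _ y
  rw [crossCyc_mk]
  have h2 : H.map F2 (SS.pair (SS.constHom L K v) (SS.Hom.id L)) (Hd.mk _ z hz) =
      Hd.mk _ (N.map F2 (SS.pair (SS.constHom L K v) (SS.Hom.id L)) z)
        (by rw [← map_bd', hz, map_zero]) := rfl
  rw [h2]
  congr 1
  exact cross_vertex_left F2 v z

theorem crossCyc_one (a : N F2 K) (ha : N.bd F2 K a = 0) (v : L.S 0)
    (hv : N.bd F2 L (N.sx F2 v) = 0) :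
    crossCyc a ha (Hd.mk _ (N.sx F2 v) hv) =
      H.map F2 (SS.pair (SS.Hom.id K) (SS.constHom K L v)) (Hd.mk _ a ha) := by
  rw [crossCyc_mk]
  have h2 : H.map F2 (SS.pair (SS.Hom.id K) (SS.constHom K L v)) (Hd.mk _ a ha) =
      Hd.mk _ (N.map F2 (SS.pair (SS.Hom.id K) (SS.constHom K L v)) a)
        (by rw [← map_bd', ha, map_zero]) := rfl
  rw [h2]
  congr 1
  exact cross_vertex_right F2 a v

/-! ## constant maps -/

theorem constHom_act (K L : SS) (v : L.S 0) {n : ℕ} (x : K.S n) :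
    (SS.constHom K L v).app n x = L.act (toZero n) v := rfl

theorem sx_toZero_succ (R : Type) [CommRing R] (v : L.S 0) (n : ℕ) :
    N.sx R (L.act (toZero (n + 1)) v) = 0 := by
  have : L.act (toZero (n + 1)) v = L.act (Op.dgn 0) (L.act (toZero n) v) := by
    rw [← L.act_comp]; rfl
  rw [this, N.sx_dgn]

/-- a constant map on normalised chains is the augmentation -/
theorem map_constHom (R : Type) [CommRing R] (v : L.S 0) (c : N R K) :
    N.map R (SS.constHom K L v) c = aug R c • N.sx R v := by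
  refine LinearMap.congr_fun (f := N.map R (SS.constHom K L v))
    (g := (aug R (K := K)).smulRight (N.sx R v)) (hom_ext fun n x => ?_) c
  rw [N.map_sx, LinearMap.smulRight_apply, constHom_act]
  rcases n with _ | n
  · rw [aug_sx_zero, one_smul, show toZero 0 = OrderHom.id from op_zero_eq _ _, L.act_id]
  · rw [aug_sx_succ, zero_smul, sx_toZero_succ]

/-- class of a vertex -/
def vtx (R : Type) [CommRing R] (v : L.S 0) : H R L := Hd.mk _ (N.sx R v) (bd_sx_zero _ v)

theorem mapH_constHom (v : L.S 0) (a : N F2 K) (ha : N.bd F2 K a = 0) :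
    H.map F2 (SS.constHom K L v) (Hd.mk _ a ha) = aug F2 a • vtx F2 v := by
  have h2 : H.map F2 (SS.constHom K L v) (Hd.mk _ a ha) =
      Hd.mk _ (N.map F2 (SS.constHom K L v) a) (by rw [← map_bd', ha, map_zero]) := rfl
  have h3 : aug F2 a • vtx F2 v = Hd.mk _ (aug F2 a • N.sx F2 v)
      (by rw [map_smul, bd_sx_zero, smul_zero]) := rfl
  rw [h2, h3]
  congr 1
  exact map_constHom F2 v a

theorem map_vtx (R : Type) [CommRing R] (f : Hom K L) (v : K.S 0) :
    H.map R f (vtx R v) = vtx R (f.app 0 v) := by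
  have h2 : H.map R f (vtx R v) =
      Hd.mk _ (N.map R f (N.sx R v)) (by rw [← map_bd', bd_sx_zero, map_zero]) := rfl
  rw [h2, vtx]
  congr 1
  exact N.map_sx f v

end cyc

/-! ## operations from `B × K → K` -/

section op

variable {B K : SS} (Ps : Hom (B.prod K) K)

/-- the operation `y ↦ Ψ_*(a × y)` -/
def opT (a : N F2 B) (ha : N.bd F2 B a = 0) : H F2 K →ₗ[F2] H F2 K := H.map F2 Ps ∘ₗ crossCyc a ha

theorem opT_mk (a : N F2 B) (ha : N.bd F2 B a = 0) (z : N F2 K) (hz : N.bd F2 K z = 0) :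
    opT Ps a ha (Hd.mk _ z hz) = Hd.mk _ (N.map F2 Ps (cross F2 a z))
      (by rw [← map_bd', bd_cross_cyc ha hz, map_zero]) := rfl

theorem mapH_comp {J L M : SS} (R : Type) [CommRing R] (g : Hom L M) (f : Hom J L) (x : H R J) :
    H.map R (g.comp f) x = H.map R g (H.map R f x) := by
  obtain ⟨z, hz, rfl⟩ := Hd.mk_surj _ x
  have e1 : H.map R (g.comp f) (Hd.mk _ z hz) = Hd.mk _ (N.map R (g.comp f) z)
      (by rw [← map_bd', hz, map_zero]) := rfl
  have e2 : H.map R g (H.map R f (Hd.mk _ z hz)) = Hd.mk _ (N.map R g (N.map R f z))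
      (by rw [← map_bd', ← map_bd', hz, map_zero, map_zero]) := rfl
  rw [e1, e2]
  congr 1
  exact (map_map R f g z).symm

/-- `T_a 1 = ε(a) 1`, if `Ψ(-, 1)` is constant at `1` on homology -/
theorem opT_one (e : K.S 0)
    (he : H.map F2 (Ps.comp (SS.pair (SS.Hom.id B) (SS.constHom B K e))) =
      H.map F2 (SS.constHom B K e)) (a : N F2 B) (ha : N.bd F2 B a = 0) :
    opT Ps a ha (vtx F2 e) = aug F2 a • vtx F2 e := by
  show H.map F2 Ps (crossCyc a ha (Hd.mk _ (N.sx F2 e) _)) = _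
  rw [crossCyc_one, ← mapH_comp, he, mapH_constHom]

/-- `T_b y = μ_*(Δ_* y)` for a vertex `b`, if `Ψ(b, -)` and `μ ∘ diag` agree on homology -/
theorem opT_vertex (b : B.S 0) (hb : N.bd F2 B (N.sx F2 b) = 0) (mu : Hom (K.prod K) K)
    (h : H.map F2 (Ps.comp (SS.pair (SS.constHom K B b) (SS.Hom.id K))) =
      H.map F2 (mu.comp (SS.diag K))) (y : H F2 K) :
    opT Ps (N.sx F2 b) hb y = H.map F2 mu (H.map F2 (SS.diag K) y) := by
  show H.map F2 Ps (crossCyc _ hb y) = _
  rw [crossCyc_vertex, ← mapH_comp, h, mapH_comp]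

end op

/-! ## the cells of `B Z/2` -/

section cells

/-- alternating simplex of the skeleton -/
def eM (M i : ℕ) (h : i ≤ M) (b : ZMod 2) : (EM M).S i := ⟨alt i b, isSk_of_le h _⟩

theorem skel_le {M i : ℕ} (h : i ≤ M) : (i : ℕ∞) ≤ (AltSS.skel M).M := by
  show (i : ℕ∞) ≤ (M : ℕ∞)
  exact_mod_cast h

theorem skel_e (M i : ℕ) (h : i ≤ M) (b : ZMod 2) :
    (AltSS.skel M).e i (skel_le h) b = eM M i h b :=
  ((AltSS.skel M).eq_e (eM M i h b) b rfl (skel_le h)).symm

theorem inv_eM (M i : ℕ) (h : i ≤ M) (b : ZMod 2) :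
    (invEM M).g.app i (eM M i h b) = eM M i h (b + 1) :=
  Subtype.ext (alt_g i b)

theorem bd_eM (M i : ℕ) (h : i + 1 ≤ M) (b : ZMod 2) :
    N.bd F2 (EM M) (N.sx F2 (eM M (i + 1) h b)) =
      N.sx F2 (eM M i (by omega) (b + 1)) + N.sx F2 (eM M i (by omega) b) := by
  have e2 := (AltSS.skel M).bd_e_succ i (skel_le h) b
  have h1 := skel_e M (i + 1) h b
  have h2 := skel_e M i (by omega) (b + 1)
  have h3 := skel_e M i (by omega) b
  rw [h1, h2, h3] at e2
  exact e2

/-- the cell `a_i` of the skeleton of `B Z/2` -/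
def aCell (M i : ℕ) (h : i ≤ M) : N F2 (BM M) := N.sx F2 ((proj (invEM M)).app i (eM M i h 0))

theorem sx_proj_eM (M i : ℕ) (h : i ≤ M) (b : ZMod 2) :
    N.sx F2 ((proj (invEM M)).app i (eM M i h b)) = aCell M i h := by
  rcases zmod2_cases b with rfl | rfl
  · rfl
  · have key := proj_g (invEM M) i (eM M i h 0)
    rw [inv_eM, zero_add] at key
    rw [key]; rfl

theorem bd_aCell (M i : ℕ) (h : i ≤ M) : N.bd F2 (BM M) (aCell M i h) = 0 := by
  rcases i with _ | i
  · exact EZ271.bd_sx_zero F2 _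
  · rw [aCell, ← N.map_sx, ← map_bd', bd_eM, map_add, N.map_sx, N.map_sx, sx_proj_eM, sx_proj_eM]
    rw [← two_smul F2 (aCell M i _)]
    have : (2 : F2) = 0 := rfl
    rw [this, zero_smul]

theorem aug_aCell (M i : ℕ) (h : i ≤ M) : aug F2 (aCell M i h) = if i = 0 then 1 else 0 := by
  rcases i with _ | i
  · rw [if_pos rfl]; exact aug_sx_zero F2 _
  · rw [if_neg (by omega)]; exact aug_sx_succ F2 _

end cells

/-! ## `T_i` for a structure map `Θ : sk_M E ×_{Z/2} K² → K` -/

section T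

variable {M : ℕ} {K : SS} (Th : Hom (DM M K) K)

/-- `Ψ = Θ ∘ diagonal` -/
abbrev PsiOf : Hom ((BM M).prod K) K := Th.comp (diagD M K)

/-- `T_i y = Ψ_*(a_i × y)` -/
def TT (i : ℕ) : H F2 K →ₗ[F2] H F2 K :=
  if h : i ≤ M then opT (PsiOf Th) (aCell M i h) (bd_aCell M i h) else 0

theorem TT_of_le (i : ℕ) (h : i ≤ M) : TT Th i = opT (PsiOf Th) (aCell M i h) (bd_aCell M i h) := by
  rw [TT, dif_pos h]

/-- `T_i 1 = δ_{i0}` if `Θ(e; 1, 1) = 1` -/
theorem TT_one (e : K.S 0)
    (he : H.map F2 ((PsiOf Th).comp (SS.pair (SS.Hom.id (BM M)) (SS.constHom (BM M) K e))) =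
      H.map F2 (SS.constHom (BM M) K e)) (i : ℕ) (hi : i ≤ M) :
    TT Th i (vtx F2 e) = if i = 0 then vtx F2 e else 0 := by
  rw [TT_of_le Th i hi, opT_one _ e he, aug_aCell]
  split_ifs <;> simp

/-- `T_0 y = μ_*(Δ_* y)` -/
theorem TT_zero (mu : Hom (K.prod K) K)
    (h : H.map F2 ((PsiOf Th).comp (SS.pair (SS.constHom K (BM M)
      ((proj (invEM M)).app 0 (eM M 0 (Nat.zero_le M) 0)))
        (SS.Hom.id K))) = H.map F2 (mu.comp (SS.diag K))) (y : H F2 K) :
    TT Th 0 y = H.map F2 mu (H.map F2 (SS.diag K) y) := by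
  rw [TT_of_le Th 0 (Nat.zero_le M)]
  exact opT_vertex _ _ _ mu h y

end T

end Crest.Agent.R204.C5T557
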