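import Crest.Agent.R204.Defs

/-!
# Row 204, block A5: orbit simplicial sets of an involution, and their normalised chains
owner helper742
-/

set_option autoImplicit false

namespace Crest.Agent.R204.DK742

open Finsupp SS

/-- an involution of a simplicial set -/
structure Invo (K : SS) where
  g : Hom K K
  invol : ∀ (n : ℕ) (x : K.S n), g.app n (g.app n x) = x

namespace Invo

variable {K : SS} (τ : Invo K)

/-- the orbit relation -/
def rel (n : ℕ) : Setoid (K.S n) where
  r x y := y = x ∨ y = τ.g.app n x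
  iseqv :=
    { refl := fun x => Or.inl rfl
      symm := by
        rintro x y (rfl | rfl)
        · exact Or.inl rfl
        · exact Or.inr (τ.invol n x).symm
      trans := by
        rintro x y z (rfl | rfl) (rfl | rfl)
        · exact Or.inl rfl
        · exact Or.inr rfl
        · exact Or.inr rfl
        · exact Or.inl (τ.invol n x) }

theorem rel_def (n : ℕ) (x y : K.S n) : (τ.rel n).r x y ↔ (y = x ∨ y = τ.g.app n x) := Iff.rfl

/-- the trivial involution -/
def triv (K : SS) : Invo K := ⟨Hom.id K, fun _ _ => rfl⟩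

/-- swap of a square -/
def swap (K : SS) : Invo (K.prod K) := ⟨SS.swap K K, fun _ _ => rfl⟩

/-- diagonal involution on a product -/
def prod {K L : SS} (g : Invo K) (τ : Invo L) : Invo (K.prod L) :=
  ⟨prodMap g.g τ.g, fun n x => Prod.ext (g.invol n x.1) (τ.invol n x.2)⟩

end Invo

/-- equivariant simplicial maps -/
def Equi {K L : SS} (g : Invo K) (τ : Invo L) (f : Hom K L) : Prop :=
  ∀ (n : ℕ) (x : K.S n), f.app n (g.g.app n x) = τ.g.app n (f.app n x)

/-- the orbit simplicial set `K / τ` -/
def orb (K : SS) (τ : Invo K) : SS where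
  S n := Quotient (τ.rel n)
  act {m n} f := Quotient.map' (s₁ := τ.rel n) (s₂ := τ.rel m) (K.act f) (by
    rintro x y (rfl | rfl)
    · exact Or.inl rfl
    · exact Or.inr (τ.g.nat f x).symm)
  act_id x := by
    induction x using Quotient.inductionOn' with
    | h x => exact congrArg _ (K.act_id x)
  act_comp f g x := by
    induction x using Quotient.inductionOn' with
    | h x => exact congrArg _ (K.act_comp f g x)

section

variable {K L : SS} (τ : Invo K)

/-- projection to the orbits -/
def proj (τ : Invo K) : Hom K (orb K τ) := ⟨fun n x => Quotient.mk (τ.rel n) x, fun _ _ => rfl⟩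

theorem proj_surj (n : ℕ) (y : (orb K τ).S n) : ∃ x : K.S n, (proj τ).app n x = y :=
  Quotient.exists_rep y

theorem proj_g (n : ℕ) (x : K.S n) : (proj τ).app n (τ.g.app n x) = (proj τ).app n x :=
  (Quotient.sound (s := τ.rel n) (Or.inr rfl)).symm

theorem proj_eq_iff {n : ℕ} (x y : K.S n) :
    (proj τ).app n x = (proj τ).app n y ↔ (y = x ∨ y = τ.g.app n x) := by
  constructor
  · intro h
    exact Quotient.exact (s := τ.rel n) h
  · intro h
    exact Quotient.sound (s := τ.rel n) h

/-- maps out of the orbits -/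
def orbLift (f : Hom K L) (hf : ∀ (n : ℕ) (x : K.S n), f.app n (τ.g.app n x) = f.app n x) :
    Hom (orb K τ) L :=
  ⟨fun n => Quotient.lift (s := τ.rel n) (f.app n) (by
      rintro x y (rfl | rfl)
      · rfl
      · exact (hf n x).symm),
   fun a x => by
    induction x using Quotient.inductionOn' with
    | h x => exact f.nat a x⟩

@[simp] theorem orbLift_proj (f : Hom K L)
    (hf : ∀ (n : ℕ) (x : K.S n), f.app n (τ.g.app n x) = f.app n x) (n : ℕ) (x : K.S n) :
    (orbLift τ f hf).app n ((proj τ).app n x) = f.app n x := rfl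

/-- functoriality of orbits -/
def orbMap (τ : Invo K) (τ' : Invo L) (f : Hom K L) (hf : Equi τ τ' f) :
    Hom (orb K τ) (orb L τ') :=
  orbLift τ ((proj τ').comp f) (fun n x => by
    show (proj τ').app n (f.app n (τ.g.app n x)) = (proj τ').app n (f.app n x)
    rw [hf, proj_g])

@[simp] theorem orbMap_proj (τ : Invo K) (τ' : Invo L) (f : Hom K L) (hf : Equi τ τ' f)
    (n : ℕ) (x : K.S n) :
    (orbMap τ τ' f hf).app n ((proj τ).app n x) = (proj τ').app n (f.app n x) := rfl

end

/-! ## chains of the orbit simplicial set -/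

section chains

variable (R : Type) [CommRing R] {K L : SS} (τ : Invo K)

/-- `N(K) / (1 - τ)` -/
abbrev Coinv : Type := N R K ⧸ LinearMap.range (LinearMap.id - N.map R τ.g)

theorem N_sx_span (K : SS) : Submodule.span R (Set.range fun t : K.T => N.sx R t.2) = ⊤ := by
  rw [eq_top_iff]
  rintro c -
  obtain ⟨c, rfl⟩ := Submodule.Quotient.mk_surjective _ c
  induction c using Finsupp.induction_linear with
  | zero => exact Submodule.zero_mem _
  | add f g hf hg =>
    rw [Submodule.Quotient.mk_add]; exact Submodule.add_mem _ hf hg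
  | single t r =>
    obtain ⟨n, x⟩ := t
    have : (Submodule.Quotient.mk (single (⟨n, x⟩ : K.T) r) : N R K) = r • N.sx R x := by
      rw [N.sx, ← Submodule.Quotient.mk_smul]
      congr 1
      simp
    rw [this]
    exact Submodule.smul_mem _ _ (Submodule.subset_span ⟨⟨n, x⟩, rfl⟩)

/-- linear maps out of the normalised chains are determined on simplices -/
theorem N_ext {M : Type*} [AddCommGroup M] [Module R M] {K : SS} {f g : N R K →ₗ[R] M}
    (h : ∀ (n : ℕ) (x : K.S n), f (N.sx R x) = g (N.sx R x)) : f = g := by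
  refine LinearMap.ext_on (N_sx_span R K) ?_
  rintro _ ⟨⟨n, x⟩, rfl⟩
  exact h n x

/-- linear maps out of normalised chains from functions on simplices killing degenerate ones -/
noncomputable def nLift {M : Type*} [AddCommGroup M] [Module R M] {K : SS}
    (f : ∀ n : ℕ, K.S n → M)
    (hf : ∀ (n : ℕ) (j : Fin (n + 1)) (y : K.S n), f (n + 1) (K.act (Op.dgn j) y) = 0) :
    N R K →ₗ[R] M :=
  (Ch.Dg R K).liftQ (Finsupp.linearCombination R (fun t : K.T => f t.1 t.2)) (by
    rw [Ch.Dg, Submodule.span_le]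
    rintro _ ⟨⟨n, x⟩, hx, rfl⟩
    rcases n with _ | n
    · exact hx.elim
    · obtain ⟨j, y, rfl⟩ := hx
      simp [hf])

@[simp] theorem nLift_sx {M : Type*} [AddCommGroup M] [Module R M] {K : SS}
    (f : ∀ n : ℕ, K.S n → M)
    (hf : ∀ (n : ℕ) (j : Fin (n + 1)) (y : K.S n), f (n + 1) (K.act (Op.dgn j) y) = 0)
    {n : ℕ} (x : K.S n) : nLift R f hf (N.sx R x) = f n x := by
  rw [nLift, N.sx]
  erw [Submodule.liftQ_apply]
  simp

theorem bd_sx_succ {K : SS} {n : ℕ} (x : K.S (n + 1)) :
    N.bd R K (N.sx R x) = ∑ i : Fin (n + 2), ((-1 : R) ^ (i : ℕ)) • N.sx R (K.act (Op.face i) x) := by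
  rw [N.sx, N.bd_mk, Ch.bd_single_succ]
  rw [← Submodule.mkQ_apply, map_sum]
  refine Finset.sum_congr rfl fun i _ => ?_
  rw [N.sx, Submodule.mkQ_apply, ← Submodule.Quotient.mk_smul]
  congr 1
  simp

theorem bd_sx_zero {K : SS} (x : K.S 0) : N.bd R K (N.sx R x) = 0 := by
  rw [N.sx, N.bd_mk, Ch.bd_single_zero]; rfl

theorem N_map_proj_surj : Function.Surjective (N.map R (proj τ)) := by
  rw [← LinearMap.range_eq_top, eq_top_iff, ← N_sx_span, Submodule.span_le]
  rintro _ ⟨⟨n, y⟩, rfl⟩
  obtain ⟨x, rfl⟩ := proj_surj τ n y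
  exact ⟨N.sx R x, N.map_sx _ _⟩

/-- inverse map on simplices -/
noncomputable def coinvInvFun (n : ℕ) : (orb K τ).S n → Coinv R τ :=
  Quotient.lift (s := τ.rel n)
      (fun x => (Submodule.Quotient.mk (N.sx R x) : Coinv R τ)) (by
        rintro x y (rfl | rfl)
        · rfl
        · rw [Submodule.Quotient.eq]
          exact ⟨N.sx R x, by simp⟩)

theorem coinvInvFun_proj (n : ℕ) (x : K.S n) :
    coinvInvFun R τ n ((proj τ).app n x) = Submodule.Quotient.mk (N.sx R x) := rfl

/-- inverse map `N(K/τ) → N(K)/(1-τ)` -/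
noncomputable def coinvInv : N R (orb K τ) →ₗ[R] Coinv R τ :=
  nLift R (K := orb K τ) (coinvInvFun R τ)
    (by
      intro n j y
      obtain ⟨x, rfl⟩ := proj_surj τ n y
      rw [← (proj τ).nat, coinvInvFun_proj, N.sx_dgn]; rfl)

theorem coinvInv_proj (c : N R K) :
    coinvInv R τ (N.map R (proj τ) c) = Submodule.Quotient.mk c := by
  have : coinvInv R τ ∘ₗ N.map R (proj τ) = Submodule.mkQ _ := by
    refine N_ext R fun n x => ?_
    rw [LinearMap.comp_apply, N.map_sx, coinvInv, nLift_sx]
    rfl
  exact LinearMap.congr_fun this c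

theorem N_map_g_proj (c : N R K) : N.map R (proj τ) (N.map R τ.g c) = N.map R (proj τ) c := by
  have : N.map R (proj τ) ∘ₗ N.map R τ.g = N.map R (proj τ) := by
    refine N_ext R fun n x => ?_
    rw [LinearMap.comp_apply, N.map_sx, N.map_sx, N.map_sx, proj_g]
  exact LinearMap.congr_fun this c

/-- the kernel of `N(K) → N(K/τ)` is `(1 - τ) N(K)` -/
theorem ker_N_map_proj :
    LinearMap.ker (N.map R (proj τ)) = LinearMap.range (LinearMap.id - N.map R τ.g) := by
  apply le_antisymm
  · intro c hc
    rw [LinearMap.mem_ker] at hc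
    have := coinvInv_proj R τ c
    rw [hc, map_zero] at this
    exact (Submodule.Quotient.mk_eq_zero _).1 this.symm
  · rintro _ ⟨c, rfl⟩
    rw [LinearMap.mem_ker]
    simp [N_map_g_proj]

/-- linear maps out of `N(K/τ)` -/
noncomputable def orbDesc {M : Type*} [AddCommGroup M] [Module R M] (f : N R K →ₗ[R] M)
    (hf : ∀ c, f (N.map R τ.g c) = f c) : N R (orb K τ) →ₗ[R] M :=
  (LinearMap.range (LinearMap.id - N.map R τ.g)).liftQ f (by
    rintro _ ⟨c, rfl⟩
    rw [LinearMap.mem_ker]
    simp [hf]) ∘ₗ coinvInv R τ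

@[simp] theorem orbDesc_proj {M : Type*} [AddCommGroup M] [Module R M] (f : N R K →ₗ[R] M)
    (hf : ∀ c, f (N.map R τ.g c) = f c) (c : N R K) :
    orbDesc R τ f hf (N.map R (proj τ) c) = f c := by
  rw [orbDesc, LinearMap.comp_apply, coinvInv_proj]
  rfl

theorem orb_ext {M : Type*} [AddCommGroup M] [Module R M] {f g : N R (orb K τ) →ₗ[R] M}
    (h : ∀ c : N R K, f (N.map R (proj τ) c) = g (N.map R (proj τ) c)) : f = g := by
  refine LinearMap.ext fun y => ?_
  obtain ⟨c, rfl⟩ := N_map_proj_surj R τ y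
  exact h c

end chains

end Crest.Agent.R204.DK742
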