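import Crest.Agent.R204.Defs

/-!
# Row 204 (helper265): products and homotopies for singular simplicial sets

* `singPair Y Z : Hom ((Sing Y).prod (Sing Z)) (Sing (Y × Z))` (inverse `singUnpair`);
* `singHtpy (H : C(Y × unitInterval, Z)) : Hom ((Sing Y).prod (std 1)) (Sing Z)` with its two ends;
* `famAct` : a family `P → Sing C` and a continuous action `C × X → Z` give `P × Sing X → Sing Z`.
-/

set_option autoImplicit false

namespace Crest.Agent.R204.SingAct265

open SS


/-- evaluation of a singular simplex (avoids `coe` trouble) -/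
def ev {Y : Type} [TopologicalSpace Y] {n : ℕ} (σ : (Sing Y).S n) (t : stdSimplex ℝ (Fin (n + 1))) : Y :=
  (show C(stdSimplex ℝ (Fin (n + 1)), Y) from σ) t

theorem sing_ext {Y : Type} [TopologicalSpace Y] {n : ℕ} {σ τ : (Sing Y).S n}
    (h : ∀ t, ev σ t = ev τ t) : σ = τ := ContinuousMap.ext h

@[simp] theorem ev_act {Y : Type} [TopologicalSpace Y] {m n : ℕ} (f : Op m n) (σ : (Sing Y).S n)
    (t : stdSimplex ℝ (Fin (m + 1))) : ev ((Sing Y).act f σ) t = ev σ (stdSimplex.map f t) := rfl

@[simp] theorem ev_map {Y Z : Type} [TopologicalSpace Y] [TopologicalSpace Z] (f : C(Y, Z)) {n : ℕ}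
    (σ : (Sing Y).S n) (t : stdSimplex ℝ (Fin (n + 1))) : ev ((SingMap f).app n σ) t = f (ev σ t) := rfl

theorem continuous_ev {Y : Type} [TopologicalSpace Y] {n : ℕ} (σ : (Sing Y).S n) :
    Continuous (ev σ) := ContinuousMap.continuous _

/-- a singular simplex from a continuous function -/
def mkS {Y : Type} [TopologicalSpace Y] {n : ℕ} (f : stdSimplex ℝ (Fin (n + 1)) → Y)
    (hf : Continuous f) : (Sing Y).S n := (⟨f, hf⟩ : C(stdSimplex ℝ (Fin (n + 1)), Y))

@[simp] theorem ev_mkS {Y : Type} [TopologicalSpace Y] {n : ℕ} (f : stdSimplex ℝ (Fin (n + 1)) → Y)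
    (hf : Continuous f) (t : stdSimplex ℝ (Fin (n + 1))) : ev (mkS f hf) t = f t := rfl

theorem act_mkS {Y : Type} [TopologicalSpace Y] {m n : ℕ} (g : Op m n)
    (f : stdSimplex ℝ (Fin (n + 1)) → Y) (hf : Continuous f) :
    (Sing Y).act g (mkS f hf) = mkS (fun t => f (stdSimplex.map g t))
      (hf.comp (stdSimplex.continuous_map g)) := rfl

section pair

variable (Y Z : Type) [TopologicalSpace Y] [TopologicalSpace Z]

/-- `Sing Y × Sing Z → Sing (Y × Z)` -/
noncomputable def singPair : Hom ((Sing Y).prod (Sing Z)) (Sing (Y × Z)) where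
  app _ p := mkS (fun t => (ev p.1 t, ev p.2 t)) ((continuous_ev _).prodMk (continuous_ev _))
  nat _ _ := rfl

/-- `Sing (Y × Z) → Sing Y × Sing Z` -/
noncomputable def singUnpair : Hom (Sing (Y × Z)) ((Sing Y).prod (Sing Z)) :=
  SS.pair (SingMap ⟨Prod.fst, continuous_fst⟩) (SingMap ⟨Prod.snd, continuous_snd⟩)

@[simp] theorem ev_singPair {n : ℕ} (p : ((Sing Y).prod (Sing Z)).S n)
    (t : stdSimplex ℝ (Fin (n + 1))) : ev ((singPair Y Z).app n p) t = (ev p.1 t, ev p.2 t) := rfl

theorem unpair_pair {n : ℕ} (p : ((Sing Y).prod (Sing Z)).S n) :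
    (singUnpair Y Z).app n ((singPair Y Z).app n p) = p := rfl

theorem pair_unpair {n : ℕ} (σ : (Sing (Y × Z)).S n) :
    (singPair Y Z).app n ((singUnpair Y Z).app n σ) = σ := rfl

end pair

section pi

variable (F Y : Type) [TopologicalSpace Y]

/-- the power `K^F` of a simplicial set -/
def pow (F : Type) (K : SS) : SS where
  S n := F → K.S n
  act f x := fun v => K.act f (x v)
  act_id x := funext fun v => K.act_id (x v)
  act_comp f g x := funext fun v => K.act_comp f g (x v)

/-- `(Sing Y)^F → Sing (F → Y)` -/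
noncomputable def singPi : Hom (pow F (Sing Y)) (Sing (F → Y)) where
  app _ p := mkS (fun t v => ev (p v) t) (continuous_pi fun v => continuous_ev _)
  nat _ _ := rfl

@[simp] theorem ev_singPi {n : ℕ} (p : (pow F (Sing Y)).S n) (t : stdSimplex ℝ (Fin (n + 1))) (v : F) :
    ev ((singPi F Y).app n p) t v = ev (p v) t := rfl

end pi

section act

variable {C X Z : Type} [TopologicalSpace C] [TopologicalSpace X] [TopologicalSpace Z]

/-- a family of parameters acting -/
noncomputable def famAct {P : SS} (c : Hom P (Sing C)) (A : C(C × X, Z)) :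
    Hom (P.prod (Sing X)) (Sing Z) :=
  (SingMap A).comp ((singPair C X).comp (SS.prodMap c (Hom.id _)))

@[simp] theorem ev_famAct {P : SS} (c : Hom P (Sing C)) (A : C(C × X, Z)) {n : ℕ} (p : P.S n)
    (x : (Sing X).S n) (t : stdSimplex ℝ (Fin (n + 1))) :
    ev ((famAct c A).app n (p, x)) t = A (ev (c.app n p) t, ev x t) := rfl

end act

section htpy

/-- affine coordinate on the simplex given by a map to `[1]` -/
noncomputable def bar {n : ℕ} (α : Op n 1) (t : stdSimplex ℝ (Fin (n + 1))) : unitInterval :=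
  ⟨(stdSimplex.map α t : stdSimplex ℝ (Fin 2)) 1, stdSimplex.zero_le _ _, stdSimplex.le_one _ _⟩

theorem continuous_bar {n : ℕ} (α : Op n 1) : Continuous (bar α) := by
  refine Continuous.subtype_mk ?_ _
  exact (continuous_apply (1 : Fin 2)).comp
    (continuous_subtype_val.comp (stdSimplex.continuous_map α))

theorem bar_comp {m n : ℕ} (f : Op m n) (α : Op n 1) (t : stdSimplex ℝ (Fin (m + 1))) :
    bar (α.comp f) t = bar α (stdSimplex.map f t) := by
  apply Subtype.ext
  show (stdSimplex.map (α.comp f) t : stdSimplex ℝ (Fin 2)) 1 =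
    (stdSimplex.map α (stdSimplex.map f t) : stdSimplex ℝ (Fin 2)) 1
  rw [stdSimplex.map_comp_apply]
  rfl

/-- constant operator to `[1]` -/
def cst (n : ℕ) (i : Fin 2) : Op n 1 := ⟨fun _ => i, fun _ _ _ => le_rfl⟩

theorem bar_cst_zero {n : ℕ} (t : stdSimplex ℝ (Fin (n + 1))) : bar (cst n 0) t = 0 := by
  apply Subtype.ext
  show (stdSimplex.map (cst n 0) t : stdSimplex ℝ (Fin 2)) 1 = 0
  rw [stdSimplex.map_coe, FunOnFinite.linearMap_apply_apply]
  apply Finset.sum_eq_zero
  intro x hx
  simp [cst] at hx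

theorem bar_cst_one {n : ℕ} (t : stdSimplex ℝ (Fin (n + 1))) : bar (cst n 1) t = 1 := by
  apply Subtype.ext
  show (stdSimplex.map (cst n 1) t : stdSimplex ℝ (Fin 2)) 1 = 1
  rw [stdSimplex.map_coe, FunOnFinite.linearMap_apply_apply]
  simp [cst]

variable {Y Z : Type} [TopologicalSpace Y] [TopologicalSpace Z]

/-- simplicial homotopy from a homotopy of spaces -/
noncomputable def singHtpy (H : C(Y × unitInterval, Z)) : Hom ((Sing Y).prod (std 1)) (Sing Z) where
  app _ p := mkS (fun t => H (ev p.1 t, bar p.2 t))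
    (H.continuous.comp ((continuous_ev _).prodMk (continuous_bar _)))
  nat f p := by
    refine sing_ext fun t => ?_
    simp only [ev_mkS, ev_act]
    congr 2
    exact bar_comp f p.2 t

theorem singHtpy_zero (H : C(Y × unitInterval, Z)) (f : C(Y, Z)) (h : ∀ y, H (y, 0) = f y) {n : ℕ}
    (σ : (Sing Y).S n) : (singHtpy H).app n (σ, cst n 0) = (SingMap f).app n σ := by
  refine sing_ext fun t => ?_
  show H (ev σ t, bar (cst n 0) t) = f (ev σ t)
  rw [bar_cst_zero, h]

theorem singHtpy_one (H : C(Y × unitInterval, Z)) (g : C(Y, Z)) (h : ∀ y, H (y, 1) = g y) {n : ℕ}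
    (σ : (Sing Y).S n) : (singHtpy H).app n (σ, cst n 1) = (SingMap g).app n σ := by
  refine sing_ext fun t => ?_
  show H (ev σ t, bar (cst n 1) t) = g (ev σ t)
  rw [bar_cst_one, h]

end htpy

/-- simplicial homotopy between two maps -/
structure Htpy {K L : SS} (f g : Hom K L) where
  h : Hom (K.prod (std 1)) L
  zero : ∀ (n : ℕ) (x : K.S n), h.app n (x, cst n 0) = f.app n x
  one : ∀ (n : ℕ) (x : K.S n), h.app n (x, cst n 1) = g.app n x

namespace Htpy

/-- constant homotopy -/
def refl {K L : SS} (f : Hom K L) : Htpy f f :=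
  ⟨f.comp (SS.fst K (std 1)), fun _ _ => rfl, fun _ _ => rfl⟩

/-- post-composition -/
def post {K L M : SS} {f g : Hom K L} (H : Htpy f g) (k : Hom L M) : Htpy (k.comp f) (k.comp g) :=
  ⟨k.comp H.h, fun n x => congrArg (k.app n) (H.zero n x), fun n x => congrArg (k.app n) (H.one n x)⟩

/-- pre-composition -/
def pre {J K L : SS} {f g : Hom K L} (H : Htpy f g) (k : Hom J K) : Htpy (f.comp k) (g.comp k) :=
  ⟨H.h.comp (SS.prodMap k (Hom.id _)), fun n x => H.zero n (k.app n x), fun n x => H.one n (k.app n x)⟩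

/-- product with a fixed simplicial set -/
def prodR {K L : SS} {f g : Hom K L} (H : Htpy f g) (J : SS) :
    Htpy (SS.prodMap f (Hom.id J)) (SS.prodMap g (Hom.id J)) :=
  ⟨⟨fun n p => (H.h.app n (p.1.1, p.2), p.1.2), fun a p => by
      simp only [SS.prod]
      rw [← H.h.nat]; rfl⟩,
    fun n x => Prod.ext (H.zero n x.1) rfl, fun n x => Prod.ext (H.one n x.1) rfl⟩

/-- product with a fixed simplicial set on the left -/
def prodL {K L : SS} {f g : Hom K L} (H : Htpy f g) (J : SS) :
    Htpy (SS.prodMap (Hom.id J) f) (SS.prodMap (Hom.id J) g) :=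
  ⟨⟨fun n p => (p.1.1, H.h.app n (p.1.2, p.2)), fun a p => by
      simp only [SS.prod]
      rw [← H.h.nat]; rfl⟩,
    fun n x => Prod.ext rfl (H.zero n x.2), fun n x => Prod.ext rfl (H.one n x.2)⟩

/-- from a homotopy of spaces -/
noncomputable def ofTop {Y Z : Type} [TopologicalSpace Y] [TopologicalSpace Z] (f g : C(Y, Z))
    (H : C(Y × unitInterval, Z)) (h0 : ∀ y, H (y, 0) = f y) (h1 : ∀ y, H (y, 1) = g y) :
    Htpy (SingMap f) (SingMap g) :=
  ⟨singHtpy H, fun _ σ => singHtpy_zero H f h0 σ, fun _ σ => singHtpy_one H g h1 σ⟩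

/-- from a Mathlib homotopy -/
noncomputable def ofHomotopy {Y Z : Type} [TopologicalSpace Y] [TopologicalSpace Z] {f g : C(Y, Z)}
    (H : f.Homotopy g) : Htpy (SingMap f) (SingMap g) :=
  ofTop f g ((H.toContinuousMap).comp ContinuousMap.prodSwap) (fun y => H.apply_zero y)
    (fun y => H.apply_one y)

end Htpy

/-- homotopy of families of parameters gives a homotopy of actions -/
noncomputable def famActHtpy {C X Z : Type} [TopologicalSpace C] [TopologicalSpace X]
    [TopologicalSpace Z] {P : SS} {c c' : Hom P (Sing C)} (H : Htpy c c') (A : C(C × X, Z)) :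
    Htpy (famAct c A) (famAct c' A) :=
  ((H.prodR (Sing X)).post (singPair C X)).post (SingMap A)

end Crest.Agent.R204.SingAct265
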