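import Crest.Agent.R204.Defs
import Crest.Agent.R224.T.Defs

/-!
# Row 204, block A: statements of the leaves (helper334)

Every leaf is a `def … : Prop`.  Prove it in your own file, `theorem xxx : SpecA.Leaf := …`.
-/

set_option autoImplicit false

noncomputable section

open Function

namespace Crest.Agent.R204.SpecA

/-! ## A0' normalisation theorem -/

/-- A0' (normalisation theorem): the complex of degenerate chains is acyclic, any coefficients. -/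
def DgAcyclic : Prop := ∀ (R : Type) [CommRing R] (K : SS) (c : Ch R K), c ∈ Ch.Dg R K →
  Ch.bd R K c = 0 → ∃ w ∈ Ch.Dg R K, Ch.bd R K w = c

/-! ## A6 homotopies -/

/-- the vertex `i` of the interval as a map `K → K × Δ¹` -/
def endMap (K : SS) (i : Fin 2) : SS.Hom K (K.prod (SS.std 1)) :=
  SS.pair (SS.Hom.id K) ⟨fun _ _ => ⟨fun _ => i, fun _ _ _ => le_rfl⟩, fun _ _ => rfl⟩

/-- A6a: simplicially homotopic maps agree in homology (helper271) -/
def HomotopyInv : Prop := ∀ (R : Type) [CommRing R] (K L : SS) (h : SS.Hom (K.prod (SS.std 1)) L),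
  H.map R (SS.Hom.comp h (endMap K 0)) = H.map R (SS.Hom.comp h (endMap K 1))

/-- A6b: homotopic maps of spaces agree in homology (helper265) -/
def TopHomotopyInv : Prop := ∀ (R : Type) [CommRing R] (X Y : Type) [TopologicalSpace X]
  [TopologicalSpace Y] (f g : C(X, Y)), f.Homotopic g →
  H.map R (SS.SingMap f) = H.map R (SS.SingMap g)

/-- A6c: a contractible space has the homology of a point -/
def Contr : Prop := ∀ (R : Type) [CommRing R] (X : Type) [TopologicalSpace X] [ContractibleSpace X],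
  Bijective (H.map R (SS.toPt (SS.Sing X)))

/-! ## A7 homological algebra for `Hd` -/

/-- A7a: the exact triangle of a short exact sequence -/
def LES : Prop := ∀ (R : Type) [CommRing R] (M' M M'' : Type) [AddCommGroup M'] [AddCommGroup M]
  [AddCommGroup M''] [Module R M'] [Module R M] [Module R M''] (d' : M' →ₗ[R] M') (d : M →ₗ[R] M)
  (d'' : M'' →ₗ[R] M'') (_ : ∀ x, d' (d' x) = 0) (_ : ∀ x, d (d x) = 0)
  (f : M' →ₗ[R] M) (g : M →ₗ[R] M'') (hf : f ∘ₗ d' = d ∘ₗ f) (hg : g ∘ₗ d = d'' ∘ₗ g),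
  Injective f → Exact f g → Surjective g → ∃ δ : Hd d'' →ₗ[R] Hd d',
    Exact (Hd.map f hf) (Hd.map g hg) ∧ Exact (Hd.map g hg) δ ∧ Exact δ (Hd.map f hf) ∧
    ∀ (x : M) (y : M') (hx : d'' (g x) = 0) (hy : d' y = 0), f y = d x →
      δ (Hd.mk d'' (g x) hx) = Hd.mk d' y hy

/-! ## A8 topology, mod 2 -/

/-- the mod 2 singular chains of `R224/T` inside `Ch F2 (Sing Y)` -/
def emb (Y : Type) [TopologicalSpace Y] (n : ℕ) : R224.T.Ch n Y →ₗ[F2] Ch F2 (SS.Sing Y) :=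
  Finsupp.lmapDomain F2 F2 (fun σ => (⟨n, σ⟩ : (SS.Sing Y).T))

/-- A8.0: the bridge with `R224/T` -/
def Bridge : Prop := ∀ (Y : Type) [TopologicalSpace Y],
  (∀ n, Injective (emb Y n)) ∧
  (∀ n (c : R224.T.Ch (n + 1) Y), Ch.bd F2 (SS.Sing Y) (emb Y (n + 1) c) = emb Y n (R224.T.bd n c)) ∧
  (∀ (c : R224.T.Ch 0 Y), Ch.bd F2 (SS.Sing Y) (emb Y 0 c) = 0) ∧
  (∀ n, LinearMap.range (emb Y n) = Ch.gr F2 (SS.Sing Y) n) ∧
  (∀ (Z : Type) [TopologicalSpace Z] (f : C(Y, Z)) (n : ℕ) (c : R224.T.Ch n Y),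
    Ch.map F2 (SS.SingMap f) (emb Y n c) = emb Z n (R224.T.push f n c))

/-- inclusion of a subspace -/
def inc {Y : Type} [TopologicalSpace Y] (A : Set Y) : C(A, Y) := ⟨Subtype.val, continuous_subtype_val⟩

/-- inclusion between subspaces -/
def inc₂ {Y : Type} [TopologicalSpace Y] {A B : Set Y} (h : A ⊆ B) : C(A, B) :=
  ⟨Set.inclusion h, continuous_inclusion h⟩

/-- homology map of a continuous map -/
abbrev Hm {Y Z : Type} [TopologicalSpace Y] [TopologicalSpace Z] (f : C(Y, Z)) :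
    H F2 (SS.Sing Y) →ₗ[F2] H F2 (SS.Sing Z) := H.map F2 (SS.SingMap f)

/-- A8a: Mayer-Vietoris -/
def MayerVietoris : Prop := ∀ (Y : Type) [TopologicalSpace Y] (U V : Set Y), IsOpen U → IsOpen V →
  U ∪ V = Set.univ → ∃ δ : H F2 (SS.Sing Y) →ₗ[F2] H F2 (SS.Sing (U ∩ V : Set Y)),
    Exact ((Hm (inc₂ (Set.inter_subset_left : U ∩ V ⊆ U))).prod (Hm (inc₂ (Set.inter_subset_right : U ∩ V ⊆ V))))
      ((Hm (inc U)).coprod (Hm (inc V))) ∧
    Exact ((Hm (inc U)).coprod (Hm (inc V))) δ ∧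
    Exact δ ((Hm (inc₂ (Set.inter_subset_left : U ∩ V ⊆ U))).prod (Hm (inc₂ (Set.inter_subset_right : U ∩ V ⊆ V)))) ∧
    (∀ n, ∀ x ∈ H.gr F2 (SS.Sing Y) (n + 1), δ x ∈ H.gr F2 (SS.Sing (U ∩ V : Set Y)) n) ∧
    (∀ x ∈ H.gr F2 (SS.Sing Y) 0, δ x = 0)

/-- the unit sphere -/
abbrev Sph (n : ℕ) : Type := Metric.sphere (0 : EuclideanSpace ℝ (Fin (n + 1))) 1

/-- constant simplex -/
def cst {Y : Type} [TopologicalSpace Y] (y : Y) (n : ℕ) : (SS.Sing Y).S n := ContinuousMap.const _ y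

/-- A8b: homology of the spheres, with a spherical fundamental class: a singular simplex all of whose
faces are constant. -/
def Spheres : Prop := ∀ (n : ℕ) (y : Sph (n + 1)),
  ∃ x : (SS.Sing (Sph (n + 1))).S (n + 1),
    (∀ i, (SS.Sing (Sph (n + 1))).act (Op.face i) x = cst y n) ∧
    (∀ hz : N.bd F2 _ (N.sx F2 x) = 0,
      Hd.mk (N.bd F2 _) (N.sx F2 x) hz ≠ 0 ∧
      H.gr F2 (SS.Sing (Sph (n + 1))) (n + 1) = Submodule.span F2 {Hd.mk (N.bd F2 _) (N.sx F2 x) hz}) ∧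
    (∀ m, m ≠ 0 → m ≠ n + 1 → H.gr F2 (SS.Sing (Sph (n + 1))) m = ⊥)

/-- A8c: the quotient simplex.  `x` collapses the boundary of the simplex to a point and is injective
inside; its class is the fundamental class. -/
def CollapseGen : Prop := ∀ (n : ℕ) (y : Sph (n + 1)) (x : C(stdSimplex ℝ (Fin (n + 2)), Sph (n + 1))),
  (∀ i, (SS.Sing (Sph (n + 1))).act (Op.face i) x = cst y n) →
  Surjective x →
  (∀ p q : stdSimplex ℝ (Fin (n + 2)), x p = x q → p = q ∨ ((∃ i, p i = 0) ∧ ∃ i, q i = 0)) →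
  ∀ hz : N.bd F2 (SS.Sing (Sph (n + 1))) (N.sx (K := SS.Sing (Sph (n + 1))) (n := n + 1) F2 x) = 0,
    Hd.mk (N.bd F2 (SS.Sing (Sph (n + 1)))) (N.sx (K := SS.Sing (Sph (n + 1))) (n := n + 1) F2 x) hz ≠ 0

/-- A8d: connected spaces -/
def HZero : Prop := ∀ (Y : Type) [TopologicalSpace Y] [PathConnectedSpace Y],
  ∀ x ∈ H.gr F2 (SS.Sing Y) 0, H.map F2 (SS.toPt (SS.Sing Y)) x = 0 → x = 0

/-- A8e: exactness of a good pair: `A` closed in `Y`, `W` open, `A ⊆ W`, `A` deformation retract of `W`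
with `A` fixed; `Z = Y / A` is given by a quotient map `q : Y → Z` collapsing exactly `A` to the point `z`. -/
def GoodPair : Prop := ∀ (Y Z : Type) [TopologicalSpace Y] [TopologicalSpace Z] (A W : Set Y) (q : C(Y, Z))
  (z : Z), IsClosed A → IsOpen W → A ⊆ W → A.Nonempty → Topology.IsQuotientMap q →
  (∀ p, q p = z ↔ p ∈ A) → (∀ p p', q p = q p' → p = p' ∨ (p ∈ A ∧ p' ∈ A)) →
  (∃ h : C(unitInterval × W, W), (∀ p, h (0, p) = p) ∧ (∀ p, (h (1, p) : Y) ∈ A) ∧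
    ∀ t (p : W), (p : Y) ∈ A → h (t, p) = p) →
  ∃ δ : H F2 (SS.Sing Z) →ₗ[F2] H F2 (SS.Sing A),
    (∀ x, (Hm (inc A)) x = 0 → ∃ u, δ u = x) ∧
    (∀ u, Hm (inc A) (δ u) = 0) ∧
    (∀ x, H.map F2 (SS.toPt _) (Hm q x) = 0 → Hm q x = 0 → ∃ a, Hm (inc A) a = x) ∧
    (∀ u, H.map F2 (SS.toPt (SS.Sing Z)) u = 0 → (δ u = 0 ↔ ∃ x, Hm q x = u)) ∧
    (∀ n, ∀ x ∈ H.gr F2 (SS.Sing Z) (n + 1), δ x ∈ H.gr F2 (SS.Sing A) n)

end Crest.Agent.R204.SpecA
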