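import Crest.Agent.R204.C5Aux_265
import Crest.Agent.R204.ThetaSS_265
import Crest.Agent.R204.DK_742

/-!
# Row 204, block C5 (helper265): the operations `Q_i` and `T_i` on `H F2 (Sing (Ω^J Z))`

Everything for the skeleton `sk_M E(Z/2)`; `i ≤ M`.
-/

set_option autoImplicit false

open scoped Topology Topology.Homotopy

noncomputable section

namespace Crest.Agent.R204.C5265

open SS EZ271 ThetaSS265 DK742 SingAct265

theorem invEM_eq (M : ℕ) : invEM M = gE.sk M := rfl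

/-! ## the chains `e_i` -/

/-- the alternating simplex -/
def eS (M i : ℕ) (h : (i : ℕ∞) ≤ (AltSS.skel M).M) (b : ZMod 2) : (EM M).S i :=
  (AltSS.skel M).e i h b

/-- `e_i` in the chains of `sk_M E(Z/2)` (zero if `i > M`) -/
def ee (M i : ℕ) : N F2 (EM M) :=
  if h : (i : ℕ∞) ≤ (AltSS.skel M).M then N.sx F2 (eS M i h 0) else 0

theorem le_cast {M i : ℕ} (h : i ≤ M) : (i : ℕ∞) ≤ (AltSS.skel M).M := by
  show (i : ℕ∞) ≤ (M : ℕ∞)
  exact_mod_cast h

theorem ee_of_le {M i : ℕ} (h : i ≤ M) : ee M i = N.sx F2 (eS M i (le_cast h) 0) :=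
  dif_pos _

theorem ee_mem_gr (M i : ℕ) : ee M i ∈ N.gr F2 (EM M) i := by
  unfold ee
  split_ifs
  · exact sx_mem_gr F2 _
  · exact Submodule.zero_mem _

theorem bd_ee_zero (M : ℕ) : N.bd F2 _ (ee M 0) = 0 := by
  rw [ee_of_le (Nat.zero_le _)]
  exact EZ271.bd_sx_zero F2 _

theorem bd_eS_succ (M i : ℕ) (h : ((i + 1 : ℕ) : ℕ∞) ≤ (AltSS.skel M).M) :
    N.bd F2 (EM M) (N.sx F2 (eS M (i + 1) h 0)) =
      N.sx F2 (eS M i ((AltSS.skel M).le_pred h) (0 + 1)) +
        N.sx F2 (eS M i ((AltSS.skel M).le_pred h) 0) :=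
  (AltSS.skel M).bd_e_succ i h 0

theorem g_eS (M i : ℕ) (h : (i : ℕ∞) ≤ (AltSS.skel M).M) (b : ZMod 2) :
    (invEM M).g.app i (eS M i h b) = eS M i h (b + 1) :=
  (AltSS.skel M).g_e i h b

theorem bd_ee_succ {M i : ℕ} (h : i + 1 ≤ M) :
    N.bd F2 _ (ee M (i + 1)) = N.map F2 (invEM M).g (ee M i) + ee M i := by
  rw [ee_of_le h, ee_of_le (by omega : i ≤ M), bd_eS_succ, N.map_sx, g_eS]

/-- `a_i` in the chains of `B(Z/2)` -/
def aa (M i : ℕ) : N F2 (BM M) := N.map F2 (proj (invEM M)) (ee M i)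

theorem add_self_F2 {V : Type*} [AddCommGroup V] [Module F2 V] (x : V) : x + x = 0 := by
  have : (2 : F2) • x = 0 := by
    have h : (2 : F2) = 0 := by decide
    rw [h, zero_smul]
  rwa [two_smul] at this

theorem bd_aa {M i : ℕ} (h : i ≤ M) : N.bd F2 _ (aa M i) = 0 := by
  unfold aa
  rw [← EZ271.map_bd']
  rcases i with _ | i
  · rw [bd_ee_zero, map_zero]
  · rw [bd_ee_succ h, map_add, N_map_g_proj, add_self_F2]

/-! ## the chain maps `Φ_i` -/

section Phi

variable (M : ℕ) (K : SS)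

/-- involution on `E × K²` -/
abbrev invD : Invo ((EM M).prod (K.prod K)) := (invEM M).prod (Invo.swap K)

/-- `Φ_i c = [e_i × c]` -/
def PhiC (i : ℕ) : N F2 (K.prod K) →ₗ[F2] N F2 (DM M K) :=
  N.map F2 (proj (invD M K)) ∘ₗ cross F2 (ee M i)

variable {M K}

theorem PhiC_apply (i : ℕ) (c : N F2 (K.prod K)) :
    PhiC M K i c = N.map F2 (proj (invD M K)) (cross F2 (ee M i) c) := rfl

theorem proj_cross_inv (a : N F2 (EM M)) (c : N F2 (K.prod K)) :
    N.map F2 (proj (invD M K)) (cross F2 (N.map F2 (invEM M).g a) c) =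
      N.map F2 (proj (invD M K)) (cross F2 a (N.map F2 (SS.swap K K) c)) := by
  have h := N_map_g_proj F2 (invD M K) (cross F2 (N.map F2 (invEM M).g a) c)
  rw [← h]
  have h2 : N.map F2 (invD M K).g (cross F2 (N.map F2 (invEM M).g a) c) =
      cross F2 (N.map F2 (invEM M).g (N.map F2 (invEM M).g a)) (N.map F2 (SS.swap K K) c) :=
    map_cross F2 _ _ _ _
  rw [h2]
  congr 3
  rw [EZ271.map_map]
  have : (invEM M).g.comp (invEM M).g = SS.Hom.id _ := by
    ext n x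
    exact (invEM M).invol n x
  rw [this, map_idHom]

theorem bd_PhiC_zero (c : N F2 (K.prod K)) :
    N.bd F2 _ (PhiC M K 0 c) = PhiC M K 0 (N.bd F2 _ c) := by
  rw [PhiC_apply, ← EZ271.map_bd', bd_cross_F2, bd_ee_zero, map_zero, LinearMap.zero_apply, zero_add]
  rfl

theorem bd_PhiC_succ {i : ℕ} (h : i + 1 ≤ M) (c : N F2 (K.prod K)) :
    N.bd F2 _ (PhiC M K (i + 1) c) =
      PhiC M K i (c + N.map F2 (SS.swap K K) c) + PhiC M K (i + 1) (N.bd F2 _ c) := by
  rw [PhiC_apply, ← EZ271.map_bd', bd_cross_F2, bd_ee_succ h]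
  simp only [PhiC_apply, map_add, LinearMap.add_apply, proj_cross_inv]
  abel

theorem PhiC_cross_swap (i : ℕ) (a b : N F2 K) :
    PhiC M K i (N.map F2 (SS.swap K K) (cross F2 a b)) = PhiC M K i (cross F2 b a) := by
  rw [map_swap_cross]

theorem bd_PhiC_sq {i : ℕ} (h : i ≤ M) {z : N F2 K} (hz : N.bd F2 K z = 0) :
    N.bd F2 _ (PhiC M K i (cross F2 z z)) = 0 := by
  have h1 : N.bd F2 _ (cross F2 z z) = 0 := by
    rw [bd_cross_F2, hz, map_zero, map_zero, LinearMap.zero_apply, add_zero]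
  rcases i with _ | i
  · rw [bd_PhiC_zero, h1, map_zero]
  · rw [bd_PhiC_succ h, h1, map_swap_cross, add_self_F2, map_zero, map_zero, add_zero]

theorem PhiC_sq_wd {i : ℕ} (h : i ≤ M) {z : N F2 K} (hz : N.bd F2 K z = 0) (w : N F2 K) :
    ∃ v, N.bd F2 _ v = PhiC M K i (cross F2 (z + N.bd F2 K w) (z + N.bd F2 K w)) -
      PhiC M K i (cross F2 z z) := by
  have hw : N.bd F2 K (N.bd F2 K w) = 0 := N.bd_bd w
  rcases i with _ | i
  · refine ⟨PhiC M K 0 (cross F2 z w + cross F2 w z + cross F2 w (N.bd F2 K w)), ?_⟩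
    rw [bd_PhiC_zero]
    simp only [map_add, bd_cross_F2, hz, hw, map_zero, LinearMap.zero_apply, LinearMap.add_apply,
      zero_add, add_zero]
    abel
  · refine ⟨PhiC M K (i + 1) (cross F2 z w + cross F2 w z + cross F2 w (N.bd F2 K w)) +
      PhiC M K i (cross F2 w w), ?_⟩
    have e1 : PhiC M K i ((cross F2 z w + cross F2 w z + cross F2 w (N.bd F2 K w)) +
        N.map F2 (SS.swap K K) (cross F2 z w + cross F2 w z + cross F2 w (N.bd F2 K w))) =
        PhiC M K i (cross F2 w (N.bd F2 K w) + cross F2 (N.bd F2 K w) w) := by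
      simp only [map_add, map_swap_cross]
      have h1 := add_self_F2 (PhiC M K i (cross F2 z w))
      have h2 := add_self_F2 (PhiC M K i (cross F2 w z))
      calc _ = (PhiC M K i (cross F2 z w) + PhiC M K i (cross F2 z w)) +
            (PhiC M K i (cross F2 w z) + PhiC M K i (cross F2 w z)) +
            (PhiC M K i (cross F2 w (N.bd F2 K w)) + PhiC M K i (cross F2 (N.bd F2 K w) w)) := by abel
        _ = _ := by rw [h1, h2, add_zero, zero_add]
    have e2 : N.bd F2 _ (PhiC M K i (cross F2 w w)) =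
        PhiC M K i (cross F2 (N.bd F2 K w) w + cross F2 w (N.bd F2 K w)) := by
      rcases i with _ | i
      · rw [bd_PhiC_zero, bd_cross_F2]
      · rw [bd_PhiC_succ (by omega), bd_cross_F2, map_swap_cross, add_self_F2, map_zero, zero_add]
    rw [map_add, bd_PhiC_succ h, e1, e2]
    simp only [map_add, bd_cross_F2, hz, hw, map_zero, LinearMap.zero_apply, LinearMap.add_apply,
      zero_add, add_zero]
    have h1 := add_self_F2 (PhiC M K i (cross F2 w (N.bd F2 K w)))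
    have h2 := add_self_F2 (PhiC M K i (cross F2 (N.bd F2 K w) w))
    calc _ = (PhiC M K i (cross F2 w (N.bd F2 K w)) + PhiC M K i (cross F2 w (N.bd F2 K w))) +
          (PhiC M K i (cross F2 (N.bd F2 K w) w) + PhiC M K i (cross F2 (N.bd F2 K w) w)) +
          (PhiC M K (i + 1) (cross F2 z (N.bd F2 K w)) + PhiC M K (i + 1) (cross F2 (N.bd F2 K w) z) +
            PhiC M K (i + 1) (cross F2 (N.bd F2 K w) (N.bd F2 K w))) := by abel
      _ = _ := by rw [h1, h2, add_zero, zero_add]; abel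

end Phi

/-! ## the classes `e_i ⊗ x ⊗ x` -/

section pw

variable (M : ℕ) (K : SS)

/-- `[e_i ⊗ x ⊗ x]` for `x ∈ H(K)` -/
def pw (i : ℕ) (x : H F2 K) : H F2 (DM M K) :=
  if h : i ≤ M then
    Hd.mk (N.bd F2 _) (PhiC M K i (cross F2 (Hd.mk_surj _ x).choose (Hd.mk_surj _ x).choose))
      (bd_PhiC_sq h (Hd.mk_surj _ x).choose_spec.choose)
  else 0

variable {M K}

theorem pw_mk {i : ℕ} (h : i ≤ M) (z : N F2 K) (hz : N.bd F2 K z = 0) :
    pw M K i (Hd.mk _ z hz) = Hd.mk _ (PhiC M K i (cross F2 z z)) (bd_PhiC_sq h hz) := by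
  rw [pw, dif_pos h, Hd.mk_eq_mk]
  have hs := (Hd.mk_surj _ (Hd.mk _ z hz)).choose_spec.choose_spec
  rw [Hd.mk_eq_mk] at hs
  obtain ⟨w, hw⟩ := hs
  set z' := (Hd.mk_surj _ (Hd.mk (N.bd F2 K) z hz)).choose with hz'
  have e : z' = z + N.bd F2 K w := by
    rw [hw]
    have := add_self_F2 z
    have h2 : -z' = z' := neg_eq_of_add_eq_zero_left (add_self_F2 z')
    rw [sub_eq_add_neg, h2, ← add_assoc, this, zero_add]
  rw [e]
  exact PhiC_sq_wd h hz w

theorem pw_add {i : ℕ} (h : i + 1 ≤ M) (x y : H F2 K) :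
    pw M K i (x + y) = pw M K i x + pw M K i y := by
  obtain ⟨z, hz, rfl⟩ := Hd.mk_surj _ x
  obtain ⟨z', hz', rfl⟩ := Hd.mk_surj _ y
  have hadd : Hd.mk (N.bd F2 K) z hz + Hd.mk (N.bd F2 K) z' hz' =
      Hd.mk (N.bd F2 K) (z + z') (by rw [map_add, hz, hz', add_zero]) := rfl
  rw [hadd, pw_mk (by omega), pw_mk (by omega), pw_mk (by omega)]
  have hadd' : Hd.mk (N.bd F2 (DM M K)) (PhiC M K i (cross F2 z z)) (bd_PhiC_sq (by omega) hz) +
      Hd.mk (N.bd F2 (DM M K)) (PhiC M K i (cross F2 z' z')) (bd_PhiC_sq (by omega) hz') =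
      Hd.mk (N.bd F2 (DM M K)) (PhiC M K i (cross F2 z z) + PhiC M K i (cross F2 z' z'))
        (by rw [map_add, bd_PhiC_sq (by omega) hz, bd_PhiC_sq (by omega) hz', add_zero]) := rfl
  rw [hadd', Hd.mk_eq_mk]
  refine ⟨PhiC M K (i + 1) (cross F2 z z'), ?_⟩
  rw [bd_PhiC_succ h, bd_cross_F2, hz, hz', map_zero, map_zero, LinearMap.zero_apply, add_zero,
    map_zero, add_zero, map_swap_cross]
  simp only [map_add, LinearMap.add_apply]
  abel

theorem pw_map {L : SS} (f : Hom K L) {i : ℕ} (h : i ≤ M) (x : H F2 K) :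
    H.map F2 (DMmap M f) (pw M K i x) = pw M L i (H.map F2 f x) := by
  obtain ⟨z, hz, rfl⟩ := Hd.mk_surj _ x
  rw [pw_mk h, H.map, H.map, Hd.map_mk, Hd.map_mk, pw_mk h]
  congr 1
  rw [PhiC_apply, PhiC_apply, EZ271.map_map]
  have : (DMmap M f).comp (proj (invD M K)) =
      (proj (invD M L)).comp (SS.prodMap (SS.Hom.id _) (SS.prodMap f f)) := rfl
  rw [this, ← EZ271.map_map, map_cross, map_cross, map_idHom]

end pw

/-! ## `T_i` and `Q_i` -/

section ops

variable {J Z : Type} [Finite J] [TopologicalSpace Z] {z₀ : Z} {M : ℕ}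

/-- the Araki–Kudo operation `Q_i` -/
def Qop (k : Fin (M + 1) ↪ J) (i : ℕ) (x : H F2 (Sing (Om J Z z₀))) : H F2 (Sing (Om J Z z₀)) :=
  H.map F2 (Theta k) (pw M _ i x)

theorem Qop_add (k : Fin (M + 1) ↪ J) {i : ℕ} (h : i + 1 ≤ M) (x y : H F2 (Sing (Om J Z z₀))) :
    Qop k i (x + y) = Qop k i x + Qop k i y := by
  rw [Qop, pw_add h, map_add]; rfl

/-- cross product with a cycle, as a map in homology -/
def crossL {K L : SS} (a : N F2 K) (ha : N.bd F2 K a = 0) : H F2 L →ₗ[F2] H F2 (K.prod L) :=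
  Hd.map (cross F2 a) (LinearMap.ext fun b => by
    simp only [LinearMap.comp_apply]
    rw [bd_cross_F2, ha, map_zero, LinearMap.zero_apply, zero_add])

@[simp] theorem crossL_mk {K L : SS} (a : N F2 K) (ha : N.bd F2 K a = 0) (z : N F2 L)
    (hz : N.bd F2 L z = 0) : crossL a ha (Hd.mk _ z hz) = Hd.mk _ (cross F2 a z) (by
      rw [bd_cross_F2, ha, hz, map_zero, map_zero, LinearMap.zero_apply, add_zero]) := rfl

/-- the operation `T_i` (zero for `i > M`) -/
def Top (k : Fin (M + 1) ↪ J) (i : ℕ) : H F2 (Sing (Om J Z z₀)) →ₗ[F2] H F2 (Sing (Om J Z z₀)) :=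
  if h : i ≤ M then H.map F2 (Psi k) ∘ₗ crossL (aa M i) (bd_aa h) else 0

theorem Top_of_le (k : Fin (M + 1) ↪ J) {i : ℕ} (h : i ≤ M) :
    (Top k i : H F2 (Sing (Om J Z z₀)) →ₗ[F2] _) = H.map F2 (Psi k) ∘ₗ crossL (aa M i) (bd_aa h) :=
  dif_pos h

theorem Top_eq_diag (k : Fin (M + 1) ↪ J) {i : ℕ} (h : i ≤ M) (x : H F2 (Sing (Om J Z z₀))) :
    Top k i x = H.map F2 (Theta k) (H.map F2 (diagD M _) (crossL (aa M i) (bd_aa h) x)) := by
  rw [Top_of_le k h, LinearMap.comp_apply]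
  obtain ⟨z, hz, hz'⟩ := Hd.mk_surj _ (crossL (aa M i) (bd_aa h) x)
  rw [hz']
  simp only [H.map, Hd.map_mk]
  congr 1
  rw [EZ271.map_map]
  rfl

end ops

end Crest.Agent.R204.C5265
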