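import Crest.Agent.R204.DK2_742
import Crest.Agent.R204.EZCross_271

/-!
# Row 204, block A2: the classes `e_i ⊗ x ⊗ x` and `e_0 ⊗ x ⊗ y` in `H(D K)`.  owner helper742
-/

set_option autoImplicit false

namespace Crest.Agent.R204.DK742

open Finsupp SS EZ271

/-! ## characteristic two -/

section char2

variable {M : Type*} [AddCommGroup M] [Module F2 M]

theorem add_self2 (x : M) : x + x = 0 := by
  have h : (1 + 1 : F2) = 0 := by decide
  have := congrArg (fun r : F2 => r • x) h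
  simpa [add_smul] using this

theorem neg_eq2 (x : M) : -x = x := by
  rw [neg_eq_iff_add_eq_zero]; exact add_self2 x

theorem sub_eq2 (x y : M) : x - y = x + y := by rw [sub_eq_add_neg, neg_eq2]

theorem eq_of_add2 {x y : M} (h : x + y = 0) : x = y := by
  rw [← sub_eq2] at h; exact sub_eq_zero.1 h

theorem sg_F2 {K : SS} (c : N F2 K) : sg F2 c = c := by
  have : sg F2 (K := K) = LinearMap.id := by
    refine N_ext F2 fun n x => ?_
    rw [sg_sx]
    have : (-1 : F2) = 1 := by decide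
    rw [this, one_pow, one_smul]; rfl
  exact LinearMap.congr_fun this c

theorem bd_cross2 {K L : SS} (a : N F2 K) (b : N F2 L) :
    N.bd F2 _ (cross F2 a b) = cross F2 (N.bd F2 K a) b + cross F2 a (N.bd F2 L b) := by
  rw [bd_cross, sg_F2]

theorem swapE : ∀ n p q : ℕ, p + q = n →
    N.map F2 (SS.swap (SS.std p) (SS.std q)) (EZ271.E F2 p q) = EZ271.E F2 q p := by
  intro n
  induction n with
  | zero =>
    intro p q h
    obtain rfl : p = 0 := by omega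
    obtain rfl : q = 0 := by omega
    rw [E_zero_zero, N.map_sx]; rfl
  | succ n ih =>
    intro p q h
    have hc : IsConeMap (Cpq p q) (Cpq q p) (SS.swap (SS.std p) (SS.std q)) := ⟨fun _ => rfl⟩
    rcases p with _ | p <;> rcases q with _ | q
    · omega
    · rw [E_zero_succ, hc.c, map_map, E_succ_zero, ← ih 0 q (by omega), map_map]; rfl
    · rw [E_succ_zero, hc.c, map_map, E_zero_succ, ← ih p 0 (by omega), map_map]; rfl
    · rw [E_succ_succ, hc.c, map_add, map_smul, map_map, map_map, E_succ_succ,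
        ← ih p (q + 1) (by omega), ← ih (p + 1) q (by omega), map_map, map_map]
      have h1 : (-1 : F2) = 1 := by decide
      rw [h1, one_pow, one_pow, one_smul, one_smul]
      exact congrArg _ (add_comm _ _)

theorem swap_cross {K L : SS} (a : N F2 K) (b : N F2 L) :
    N.map F2 (SS.swap K L) (cross F2 a b) = cross F2 b a := by
  have : (cross F2 (K := K) (L := L)).compr₂ (N.map F2 (SS.swap K L)) =
      (cross F2 (K := L) (L := K)).flip := by
    refine bilin_ext F2 fun p x q y => ?_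
    simp only [LinearMap.compr₂_apply, LinearMap.flip_apply]
    rw [cross_sx, cross_sx, map_map, ← swapE _ p q rfl, map_map]
    rfl
  exact LinearMap.congr_fun₂ this a b

end char2

/-! ## bilinear maps on homology -/

section bil

variable {M M' P : Type*} [AddCommGroup M] [Module F2 M] [AddCommGroup M'] [Module F2 M']
  [AddCommGroup P] [Module F2 P] {d : M →ₗ[F2] M} {d' : M' →ₗ[F2] M'} {dP : P →ₗ[F2] P}

/-- auxiliary -/
noncomputable def Hd2Aux (B : M →ₗ[F2] M' →ₗ[F2] P)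
    (hB : ∀ a b, dP (B a b) = B (d a) b + B a (d' b)) :
    LinearMap.ker d →ₗ[F2] LinearMap.ker d' →ₗ[F2] Hd dP :=
  LinearMap.mk₂ F2 (fun x y => Hd.mk dP (B x y) (by
      have hx : d x = 0 := x.2
      have hy : d' y = 0 := y.2
      rw [hB, hx, hy]; simp))
    (fun x x' y => Hd.mk_eq_mk.2 ⟨0, by simp⟩)
    (fun r x y => Hd.mk_eq_mk.2 ⟨0, by simp⟩)
    (fun x y y' => Hd.mk_eq_mk.2 ⟨0, by simp⟩)
    (fun r x y => Hd.mk_eq_mk.2 ⟨0, by simp⟩)

/-- auxiliary -/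
noncomputable def Hd2Aux' (B : M →ₗ[F2] M' →ₗ[F2] P)
    (hB : ∀ a b, dP (B a b) = B (d a) b + B a (d' b)) :
    LinearMap.ker d →ₗ[F2] Hd d' →ₗ[F2] Hd dP where
  toFun x := Submodule.liftQ _ (Hd2Aux B hB x) (by
    rintro ⟨y, hy⟩ ⟨w, hw⟩
    have hx : d x = 0 := x.2
    refine Hd.mk_eq_zero.2 ⟨B x w, ?_⟩
    rw [hB, hx, map_zero, LinearMap.zero_apply, zero_add, hw]; rfl)
  map_add' x y := by
    refine LinearMap.ext fun z => ?_
    obtain ⟨z, rfl⟩ := Submodule.Quotient.mk_surjective _ z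
    exact LinearMap.congr_fun (map_add (Hd2Aux B hB) x y) z
  map_smul' r x := by
    refine LinearMap.ext fun z => ?_
    obtain ⟨z, rfl⟩ := Submodule.Quotient.mk_surjective _ z
    exact LinearMap.congr_fun (map_smul (Hd2Aux B hB) r x) z

/-- the bilinear map induced in homology -/
noncomputable def Hd2 (B : M →ₗ[F2] M' →ₗ[F2] P)
    (hB : ∀ a b, dP (B a b) = B (d a) b + B a (d' b)) : Hd d →ₗ[F2] Hd d' →ₗ[F2] Hd dP :=
  Submodule.liftQ _ (Hd2Aux' B hB) (by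
    rintro ⟨x, hx⟩ ⟨w, hw⟩
    refine LinearMap.ext fun y => ?_
    obtain ⟨⟨y, hy⟩, rfl⟩ := Submodule.Quotient.mk_surjective _ y
    refine Hd.mk_eq_zero.2 ⟨B w y, ?_⟩
    have hy' : d' y = 0 := hy
    rw [hB, hy', map_zero, add_zero, hw]; rfl)

@[simp] theorem Hd2_mk (B : M →ₗ[F2] M' →ₗ[F2] P)
    (hB : ∀ a b, dP (B a b) = B (d a) b + B a (d' b)) (x : M) (hx : d x = 0) (y : M') (hy : d' y = 0) :
    Hd2 B hB (Hd.mk d x hx) (Hd.mk d' y hy) =
      Hd.mk dP (B x y) (by rw [hB, hx, hy]; simp) := rfl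

end bil

/-! ## degrees -/

section degrees

variable {R : Type} [CommRing R] {K L : SS}

theorem sx_mem_gr {n : ℕ} (x : K.S n) : N.sx R x ∈ N.gr R K n :=
  ⟨single ⟨n, x⟩ 1, Submodule.subset_span ⟨x, rfl⟩, rfl⟩

theorem gr_induction {n : ℕ} {p : N R K → Prop} (h0 : p 0) (hadd : ∀ a b, p a → p b → p (a + b))
    (hsmul : ∀ (r : R) a, p a → p (r • a)) (hs : ∀ x : K.S n, p (N.sx R x)) {c : N R K}
    (hc : c ∈ N.gr R K n) : p c := by
  obtain ⟨c, hc, rfl⟩ := hc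
  refine Submodule.span_induction (p := fun c _ => p (Submodule.mkQ _ c)) ?_ ?_ ?_ ?_ hc
  · rintro _ ⟨x, rfl⟩; exact hs x
  · rw [map_zero]; exact h0
  · intro a b _ _ ha hb; rw [map_add]; exact hadd _ _ ha hb
  · intro r a _ ha; rw [map_smul]; exact hsmul _ _ ha

theorem map_gr (f : Hom K L) {n : ℕ} {c : N R K} (hc : c ∈ N.gr R K n) :
    N.map R f c ∈ N.gr R L n := by
  refine gr_induction (p := fun c => N.map R f c ∈ N.gr R L n) ?_ ?_ ?_ ?_ hc
  · rw [map_zero]; exact Submodule.zero_mem _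
  · intro a b ha hb; rw [map_add]; exact Submodule.add_mem _ ha hb
  · intro r a ha; rw [map_smul]; exact Submodule.smul_mem _ _ ha
  · intro x; rw [N.map_sx]; exact sx_mem_gr _

theorem cone_gr (A : Cone K) {n : ℕ} {c : N R K} (hc : c ∈ N.gr R K n) :
    A.c R c ∈ N.gr R K (n + 1) := by
  refine gr_induction (p := fun c => A.c R c ∈ N.gr R K (n + 1)) ?_ ?_ ?_ ?_ hc
  · rw [map_zero]; exact Submodule.zero_mem _
  · intro a b ha hb; rw [map_add]; exact Submodule.add_mem _ ha hb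
  · intro r a ha; rw [map_smul]; exact Submodule.smul_mem _ _ ha
  · intro x; rw [Cone.c_sx]; exact sx_mem_gr _

theorem E_gr : ∀ n p q : ℕ, p + q = n → EZ271.E R p q ∈ N.gr R _ n := by
  intro n
  induction n with
  | zero =>
    intro p q h
    obtain rfl : p = 0 := by omega
    obtain rfl : q = 0 := by omega
    rw [E_zero_zero]; exact sx_mem_gr _
  | succ n ih =>
    intro p q h
    rcases p with _ | p <;> rcases q with _ | q
    · omega
    · rw [E_zero_succ]; exact cone_gr _ (map_gr _ (ih 0 q (by omega)))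
    · rw [E_succ_zero]; exact cone_gr _ (map_gr _ (ih p 0 (by omega)))
    · rw [E_succ_succ]
      exact cone_gr _ (Submodule.add_mem _ (map_gr _ (ih p (q + 1) (by omega)))
        (Submodule.smul_mem _ _ (map_gr _ (ih (p + 1) q (by omega)))))

theorem cross_gr {p q : ℕ} {a : N R K} {b : N R L} (ha : a ∈ N.gr R K p) (hb : b ∈ N.gr R L q) :
    cross R a b ∈ N.gr R (K.prod L) (p + q) := by
  refine gr_induction (p := fun a => cross R a b ∈ N.gr R (K.prod L) (p + q)) ?_ ?_ ?_ ?_ ha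
  · rw [map_zero, LinearMap.zero_apply]; exact Submodule.zero_mem _
  · intro a a' h h'; rw [map_add, LinearMap.add_apply]; exact Submodule.add_mem _ h h'
  · intro r a h; rw [map_smul, LinearMap.smul_apply]; exact Submodule.smul_mem _ _ h
  · intro x
    refine gr_induction (p := fun b => cross R (N.sx R x) b ∈ N.gr R (K.prod L) (p + q)) ?_ ?_ ?_ ?_ hb
    · rw [map_zero]; exact Submodule.zero_mem _
    · intro a a' h h'; rw [map_add]; exact Submodule.add_mem _ h h'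
    · intro r a h; rw [map_smul]; exact Submodule.smul_mem _ _ h
    · intro y
      rw [cross_sx]
      exact map_gr _ (E_gr _ p q rfl)

theorem mk_mem_gr {n : ℕ} {z : N R K} (hz : N.bd R K z = 0) (h : z ∈ N.gr R K n) :
    Hd.mk (N.bd R K) z hz ∈ H.gr R K n :=
  ⟨⟨z, hz⟩, h, rfl⟩

theorem exists_rep_gr {n : ℕ} {x : H R K} (hx : x ∈ H.gr R K n) :
    ∃ (z : N R K) (hz : N.bd R K z = 0), z ∈ N.gr R K n ∧ x = Hd.mk (N.bd R K) z hz := by
  obtain ⟨⟨z, hz⟩, h, rfl⟩ := hx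
  exact ⟨z, hz, h, rfl⟩

end degrees

/-! ## the chain maps `Φ_i` -/

section phi

variable (X : AltSS) {L : SS} (τ : Invo L)

/-- `c ↦ [e_i × c]` -/
noncomputable def PhiI (i : ℕ) (h : (i : ℕ∞) ≤ X.M) :
    N F2 L →ₗ[F2] N F2 (orb (X.A.prod L) (X.g.prod τ)) :=
  N.map F2 (proj (X.g.prod τ)) ∘ₗ cross F2 (N.sx F2 (X.e i h 0))

theorem PhiI_apply (i : ℕ) (h : (i : ℕ∞) ≤ X.M) (c : N F2 L) :
    PhiI X τ i h c = N.map F2 (proj (X.g.prod τ)) (cross F2 (N.sx F2 (X.e i h 0)) c) := rfl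

theorem Phi_single_cross (i : Idx X.M) (c : N F2 L) :
    Phi (τ := τ) (cross F2) (single i c) = PhiI X τ i.1 i.2 c := Phi_single _ i c

theorem proj_cross_g (a : N F2 X.A) (c : N F2 L) :
    N.map F2 (proj (X.g.prod τ)) (cross F2 (N.map F2 X.g.g a) c) =
      N.map F2 (proj (X.g.prod τ)) (cross F2 a (N.map F2 τ.g c)) := by
  have h := map_cross F2 X.g.g τ.g a (N.map F2 τ.g c)
  rw [N_map_invol] at h
  rw [← h]
  exact N_map_g_proj F2 (X.g.prod τ) _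

theorem bd_PhiI_zero (h : ((0 : ℕ) : ℕ∞) ≤ X.M) (c : N F2 L) :
    N.bd F2 _ (PhiI X τ 0 h c) = PhiI X τ 0 h (N.bd F2 L c) := by
  rw [PhiI_apply, ← map_bd', bd_cross2, X.bd_e_zero, map_zero, LinearMap.zero_apply, zero_add]
  rfl

theorem bd_PhiI_succ (i : ℕ) (h : ((i + 1 : ℕ) : ℕ∞) ≤ X.M) (c : N F2 L) :
    N.bd F2 _ (PhiI X τ (i + 1) h c) =
      PhiI X τ i (X.le_pred h) (c + N.map F2 τ.g c) + PhiI X τ (i + 1) h (N.bd F2 L c) := by
  have e1 : N.sx F2 (X.e i (X.le_pred h) 1) = N.map F2 X.g.g (N.sx F2 (X.e i (X.le_pred h) 0)) := by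
    rw [N.map_sx, X.g_e, zero_add]
  rw [PhiI_apply, ← map_bd', bd_cross2, X.bd_e_succ, zero_add, e1]
  simp only [map_add, LinearMap.add_apply, proj_cross_g, PhiI_apply]
  abel

theorem PhiI_gr (i : ℕ) (h : (i : ℕ∞) ≤ X.M) {n : ℕ} {c : N F2 L} (hc : c ∈ N.gr F2 L n) :
    PhiI X τ i h c ∈ N.gr F2 _ (i + n) :=
  map_gr _ (cross_gr (sx_mem_gr _) hc)

/-- naturality in `L` -/
theorem PhiI_nat {L' : SS} (τ' : Invo L') (f : Hom L L')
    (hf' : Equi (X.g.prod τ) (X.g.prod τ') (prodMap (Hom.id X.A) f)) (i : ℕ)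
    (h : (i : ℕ∞) ≤ X.M) (c : N F2 L) :
    N.map F2 (orbMap (X.g.prod τ) (X.g.prod τ') (prodMap (Hom.id X.A) f) hf') (PhiI X τ i h c) =
      PhiI X τ' i h (N.map F2 f c) := by
  rw [PhiI_apply, PhiI_apply, map_map]
  have : (orbMap (X.g.prod τ) (X.g.prod τ') (prodMap (Hom.id X.A) f) hf').comp (proj (X.g.prod τ)) =
      (proj (X.g.prod τ')).comp (prodMap (Hom.id X.A) f) := rfl
  rw [this, ← map_map, map_cross, map_idHom]

end phi

/-! ## `D(K)` and the classes `e_i ⊗ x ⊗ x` -/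

section D

variable (X : AltSS) (K : SS)

/-- `D(K) = A ×_{Z/2} K²` -/
abbrev DX : SS := orb (X.A.prod (K.prod K)) (X.g.prod (Invo.swap K))

variable {K}

/-- functoriality of `D` -/
def DXmap {K' : SS} (f : Hom K K') : Hom (DX X K) (DX X K') :=
  orbMap _ _ (prodMap (Hom.id X.A) (prodMap f f)) (fun _ _ => rfl)

/-- `c ↦ [e_i × c]`, `c ∈ N(K × K)` -/
noncomputable abbrev PhiD (i : ℕ) (h : (i : ℕ∞) ≤ X.M) :
    N F2 (K.prod K) →ₗ[F2] N F2 (DX X K) := PhiI X (Invo.swap K) i h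

theorem PhiD_nat {K' : SS} (f : Hom K K') (i : ℕ) (h : (i : ℕ∞) ≤ X.M) (c : N F2 (K.prod K)) :
    N.map F2 (DXmap X f) (PhiD X i h c) = PhiD X i h (N.map F2 (prodMap f f) c) :=
  PhiI_nat X (Invo.swap K) (Invo.swap K') (prodMap f f) (fun _ _ => rfl) i h c

theorem bd_PhiD_cross_zero (h : ((0 : ℕ) : ℕ∞) ≤ X.M) (a b : N F2 K) :
    N.bd F2 _ (PhiD X 0 h (cross F2 a b)) =
      PhiD X 0 h (cross F2 (N.bd F2 K a) b + cross F2 a (N.bd F2 K b)) := by
  rw [PhiD, bd_PhiI_zero, bd_cross2]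

theorem bd_PhiD_cross_succ (i : ℕ) (h : ((i + 1 : ℕ) : ℕ∞) ≤ X.M) (a b : N F2 K) :
    N.bd F2 _ (PhiD X (i + 1) h (cross F2 a b)) =
      PhiD X i (X.le_pred h) (cross F2 a b + cross F2 b a) +
      PhiD X (i + 1) h (cross F2 (N.bd F2 K a) b + cross F2 a (N.bd F2 K b)) := by
  rw [PhiD, bd_PhiI_succ, bd_cross2]
  have : N.map F2 (Invo.swap K).g (cross F2 a b) = cross F2 b a := swap_cross a b
  rw [this]

theorem bd_PhiD_sq (i : ℕ) (h : (i : ℕ∞) ≤ X.M) {z : N F2 K} (hz : N.bd F2 K z = 0) :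
    N.bd F2 _ (PhiD X i h (cross F2 z z)) = 0 := by
  rcases i with _ | i
  · rw [bd_PhiD_cross_zero, hz]; simp
  · rw [bd_PhiD_cross_succ, hz, add_self2]; simp

/-- additivity up to boundary -/
theorem sq_add (i : ℕ) (h : (i : ℕ∞) ≤ X.M) (h' : ((i + 1 : ℕ) : ℕ∞) ≤ X.M) {x y : N F2 K}
    (hx : N.bd F2 K x = 0) (hy : N.bd F2 K y = 0) :
    PhiD X i h (cross F2 (x + y) (x + y)) = PhiD X i h (cross F2 x x) + PhiD X i h (cross F2 y y) +
      N.bd F2 _ (PhiD X (i + 1) h' (cross F2 x y)) := by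
  rw [bd_PhiD_cross_succ, hx, hy]
  simp only [map_add, LinearMap.add_apply, map_zero, LinearMap.zero_apply, add_zero]
  abel

/-- invariance under boundaries -/
theorem sq_bd (i : ℕ) (h : (i : ℕ∞) ≤ X.M) (w : N F2 K) :
    ∃ v, PhiD X i h (cross F2 (N.bd F2 K w) (N.bd F2 K w)) = N.bd F2 _ v := by
  rcases i with _ | i
  · refine ⟨PhiD X 0 h (cross F2 w (N.bd F2 K w)), ?_⟩
    rw [bd_PhiD_cross_zero, N.bd_bd, map_zero, add_zero]
  · have h1 := bd_PhiD_cross_succ X i h w (N.bd F2 K w)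
    rw [N.bd_bd, map_zero, add_zero] at h1
    have h2 : N.bd F2 _ (PhiD X i (X.le_pred h) (cross F2 w w)) =
        PhiD X i (X.le_pred h) (cross F2 w (N.bd F2 K w) + cross F2 (N.bd F2 K w) w) := by
      rcases i with _ | i
      · refine (bd_PhiD_cross_zero X _ w w).trans ?_
        exact congrArg _ (add_comm _ _)
      · refine (bd_PhiD_cross_succ X i _ w w).trans ?_
        rw [add_self2, map_zero, zero_add]
        exact congrArg _ (add_comm _ _)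
    refine ⟨PhiD X (i + 1) h (cross F2 w (N.bd F2 K w)) + PhiD X i (X.le_pred h) (cross F2 w w), ?_⟩
    rw [map_add, h1, h2]
    generalize PhiD X i (X.le_pred h) (cross F2 w (N.bd F2 K w) + cross F2 (N.bd F2 K w) w) = u
    generalize PhiD X (i + 1) h (cross F2 (N.bd F2 K w) (N.bd F2 K w)) = v
    rw [add_comm u v, add_assoc, add_self2, add_zero]

/-- the class of `e_i ⊗ z ⊗ z` on cycles -/
noncomputable def pwCyc (i : ℕ) (h : ((i + 1 : ℕ) : ℕ∞) ≤ X.M) :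
    LinearMap.ker (N.bd F2 K) →ₗ[F2] H F2 (DX X K) :=
  AddMonoidHom.toZModLinearMap 2
    { toFun := fun z => Hd.mk (N.bd F2 _) (PhiD X i (X.le_pred h) (cross F2 (z : N F2 K) z))
        (bd_PhiD_sq X i _ z.2)
      map_zero' := by
        rw [Hd.mk_eq_zero]; exact ⟨0, by simp⟩
      map_add' := fun x y => by
        have hxy := sq_add X i (X.le_pred h) h x.2 y.2
        have : Hd.mk (N.bd F2 _) (PhiD X i (X.le_pred h) (cross F2 (x : N F2 K) x))
            (bd_PhiD_sq X i _ x.2) +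
          Hd.mk (N.bd F2 _) (PhiD X i (X.le_pred h) (cross F2 (y : N F2 K) y))
            (bd_PhiD_sq X i _ y.2) = Hd.mk (N.bd F2 _)
            (PhiD X i (X.le_pred h) (cross F2 (x : N F2 K) x) +
              PhiD X i (X.le_pred h) (cross F2 (y : N F2 K) y)) (by
              rw [map_add, bd_PhiD_sq X i _ x.2, bd_PhiD_sq X i _ y.2, add_zero]) := rfl
        rw [this, Hd.mk_eq_mk]
        refine ⟨PhiD X (i + 1) h (cross F2 (x : N F2 K) y), ?_⟩
        rw [Submodule.coe_add, hxy]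
        abel }

theorem pwCyc_apply (i : ℕ) (h : ((i + 1 : ℕ) : ℕ∞) ≤ X.M) (z : LinearMap.ker (N.bd F2 K)) :
    pwCyc X i h z = Hd.mk (N.bd F2 _) (PhiD X i (X.le_pred h) (cross F2 (z : N F2 K) z))
        (bd_PhiD_sq X i _ z.2) := rfl

/-- `x ↦ e_i ⊗ x ⊗ x` in homology (`i < M`) -/
noncomputable def pw (i : ℕ) (h : ((i + 1 : ℕ) : ℕ∞) ≤ X.M) : H F2 K →ₗ[F2] H F2 (DX X K) :=
  Submodule.liftQ _ (pwCyc X i h) (by
    rintro ⟨z, hz⟩ ⟨w, hw⟩
    rw [LinearMap.mem_ker, pwCyc_apply, Hd.mk_eq_zero]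
    obtain ⟨v, hv⟩ := sq_bd X i (X.le_pred h) w
    refine ⟨v, ?_⟩
    rw [← hv, hw]
    rfl)

theorem pw_mk (i : ℕ) (h : ((i + 1 : ℕ) : ℕ∞) ≤ X.M) (z : N F2 K) (hz : N.bd F2 K z = 0) :
    pw X i h (Hd.mk _ z hz) =
      Hd.mk (N.bd F2 _) (PhiD X i (X.le_pred h) (cross F2 z z)) (bd_PhiD_sq X i _ hz) := rfl

theorem pw_nat {K' : SS} (f : Hom K K') (i : ℕ) (h : ((i + 1 : ℕ) : ℕ∞) ≤ X.M) (x : H F2 K) :
    H.map F2 (DXmap X f) (pw X i h x) = pw X i h (H.map F2 f x) := by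
  obtain ⟨z, hz, rfl⟩ := Hd.mk_surj _ x
  rw [pw_mk, H.map, H.map, Hd.map_mk, Hd.map_mk, pw_mk, Hd.mk_eq_mk]
  refine ⟨0, ?_⟩
  rw [map_zero, PhiD_nat, map_cross, sub_self]

theorem pw_gr (i : ℕ) (h : ((i + 1 : ℕ) : ℕ∞) ≤ X.M) {n : ℕ} {x : H F2 K}
    (hx : x ∈ H.gr F2 K n) : pw X i h x ∈ H.gr F2 _ (i + 2 * n) := by
  obtain ⟨z, hz, hn, rfl⟩ := exists_rep_gr hx
  rw [pw_mk]
  refine mk_mem_gr _ ?_
  have := PhiI_gr X (Invo.swap K) i (X.le_pred h) (cross_gr hn hn)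
  rwa [two_mul]

/-! ## the products `e_0 ⊗ x ⊗ y` -/

theorem AltSS.zero_le (X : AltSS) : ((0 : ℕ) : ℕ∞) ≤ X.M := by simp

/-- `e_0 × x × y` on chains -/
noncomputable def prC : N F2 K →ₗ[F2] N F2 K →ₗ[F2] N F2 (DX X K) :=
  (cross F2 (K := K) (L := K)).compr₂ (PhiD X 0 X.zero_le)

theorem prC_apply (a b : N F2 K) : prC X a b = PhiD X 0 X.zero_le (cross F2 a b) := rfl

theorem bd_prC (a b : N F2 K) :
    N.bd F2 _ (prC X a b) = prC X (N.bd F2 K a) b + prC X a (N.bd F2 K b) := by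
  rw [prC_apply, bd_PhiD_cross_zero, map_add]; rfl

/-- `x, y ↦ e_0 ⊗ x ⊗ y` in homology -/
noncomputable def pr : H F2 K →ₗ[F2] H F2 K →ₗ[F2] H F2 (DX X K) := Hd2 (prC X) (bd_prC X)

theorem pr_mk (x : N F2 K) (hx : N.bd F2 K x = 0) (y : N F2 K) (hy : N.bd F2 K y = 0) :
    pr X (Hd.mk _ x hx) (Hd.mk _ y hy) = Hd.mk (N.bd F2 _) (prC X x y)
      (by rw [bd_prC, hx, hy]; simp) := rfl

/-- `e_0 ⊗ x ⊗ x = e_0 ⊗ x ⊗ x` -/
theorem pr_self (h : ((0 + 1 : ℕ) : ℕ∞) ≤ X.M) (x : H F2 K) : pr X x x = pw X 0 h x := by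
  obtain ⟨z, hz, rfl⟩ := Hd.mk_surj _ x
  rfl

/-- symmetry (needs the cell `e_1`) -/
theorem pr_comm (h : ((0 + 1 : ℕ) : ℕ∞) ≤ X.M) (x y : H F2 K) : pr X x y = pr X y x := by
  obtain ⟨a, ha, rfl⟩ := Hd.mk_surj _ x
  obtain ⟨b, hb, rfl⟩ := Hd.mk_surj _ y
  rw [pr_mk, pr_mk, Hd.mk_eq_mk]
  refine ⟨PhiD X (0 + 1) h (cross F2 a b), ?_⟩
  rw [bd_PhiD_cross_succ, ha, hb]
  simp only [map_zero, LinearMap.zero_apply, add_zero]
  rw [map_add, sub_eq2]; rfl

theorem pr_nat {K' : SS} (f : Hom K K') (x y : H F2 K) :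
    H.map F2 (DXmap X f) (pr X x y) = pr X (H.map F2 f x) (H.map F2 f y) := by
  obtain ⟨a, ha, rfl⟩ := Hd.mk_surj _ x
  obtain ⟨b, hb, rfl⟩ := Hd.mk_surj _ y
  rw [pr_mk, H.map, H.map, Hd.map_mk, Hd.map_mk, Hd.map_mk, pr_mk, Hd.mk_eq_mk]
  refine ⟨0, ?_⟩
  rw [map_zero, prC_apply, prC_apply, PhiD_nat, map_cross, sub_self]

theorem pr_gr {p q : ℕ} {x y : H F2 K} (hx : x ∈ H.gr F2 K p) (hy : y ∈ H.gr F2 K q) :
    pr X x y ∈ H.gr F2 (DX X K) (p + q) := by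
  obtain ⟨a, ha, ha', rfl⟩ := exists_rep_gr hx
  obtain ⟨b, hb, hb', rfl⟩ := exists_rep_gr hy
  rw [pr_mk]
  refine mk_mem_gr _ ?_
  have := PhiI_gr X (Invo.swap K) 0 X.zero_le (cross_gr ha' hb')
  rwa [zero_add] at this

end D

/-! ## change of `A` -/

/-- a map of free `Z/2`-simplicial sets over `E Z/2` -/
structure AltSS.Mor (X X' : AltSS) where
  f : Hom X.A X'.A
  j_f : ∀ (n : ℕ) (x : X.A.S n), X'.j.app n (f.app n x) = X.j.app n x

namespace AltSS.Mor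

variable {X X' : AltSS} (F : AltSS.Mor X X')

theorem equi : Equi X.g X'.g F.f := fun n x => X'.j_inj n (by
  rw [F.j_f, X.j_g, X'.j_g, F.j_f])

theorem app_e (n : ℕ) (h : (n : ℕ∞) ≤ X.M) (h' : (n : ℕ∞) ≤ X'.M) (b : ZMod 2) :
    F.f.app n (X.e n h b) = X'.e n h' b :=
  X'.j_inj n (by rw [F.j_f, j_e, j_e])

end AltSS.Mor

/-- skeleton inclusions -/
def AltSS.skMor {M M' : ℕ} (h : M ≤ M') : AltSS.Mor (AltSS.skel M) (AltSS.skel M') where
  f := skMono h _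
  j_f _ _ := rfl

/-- inclusion of a skeleton -/
def AltSS.skFull (M : ℕ) : AltSS.Mor (AltSS.skel M) AltSS.full where
  f := skIncl M _
  j_f _ _ := rfl

section change

variable {X X' : AltSS} (F : AltSS.Mor X X')

/-- the induced map `(A × L)/τ → (A' × L)/τ` -/
def orbX {L : SS} (τ : Invo L) : Hom (orb (X.A.prod L) (X.g.prod τ)) (orb (X'.A.prod L) (X'.g.prod τ)) :=
  orbMap _ _ (prodMap F.f (Hom.id L)) (fun n p => Prod.ext (F.equi n p.1) rfl)

theorem PhiI_change {L : SS} (τ : Invo L) (i : ℕ) (h : (i : ℕ∞) ≤ X.M) (h' : (i : ℕ∞) ≤ X'.M)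
    (c : N F2 L) : N.map F2 (orbX F τ) (PhiI X τ i h c) = PhiI X' τ i h' c := by
  rw [PhiI_apply, PhiI_apply, map_map]
  have : (orbX F τ).comp (proj (X.g.prod τ)) = (proj (X'.g.prod τ)).comp (prodMap F.f (Hom.id L)) := rfl
  rw [this, ← map_map, map_cross, map_idHom, N.map_sx, F.app_e i h h']

/-- change of `A` on `D` -/
def DXX (K : SS) : Hom (DX X K) (DX X' K) := orbX F (Invo.swap K)

theorem PhiD_change {K : SS} (i : ℕ) (h : (i : ℕ∞) ≤ X.M) (h' : (i : ℕ∞) ≤ X'.M)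
    (c : N F2 (K.prod K)) : N.map F2 (DXX F K) (PhiD X i h c) = PhiD X' i h' c :=
  PhiI_change F _ i h h' c

theorem pw_change {K : SS} (i : ℕ) (h : ((i + 1 : ℕ) : ℕ∞) ≤ X.M) (h' : ((i + 1 : ℕ) : ℕ∞) ≤ X'.M)
    (x : H F2 K) : H.map F2 (DXX F K) (pw X i h x) = pw X' i h' x := by
  obtain ⟨z, hz, rfl⟩ := Hd.mk_surj _ x
  rw [pw_mk, H.map, Hd.map_mk, pw_mk, Hd.mk_eq_mk]
  refine ⟨0, ?_⟩
  rw [map_zero, PhiD_change F i _ (X'.le_pred h'), sub_self]

theorem pr_change {K : SS} (x y : H F2 K) : H.map F2 (DXX F K) (pr X x y) = pr X' x y := by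
  obtain ⟨a, ha, rfl⟩ := Hd.mk_surj _ x
  obtain ⟨b, hb, rfl⟩ := Hd.mk_surj _ y
  rw [pr_mk, H.map, Hd.map_mk, pr_mk, Hd.mk_eq_mk]
  refine ⟨0, ?_⟩
  rw [map_zero, prC_apply, prC_apply, PhiD_change F 0 _ X'.zero_le, sub_self]

end change

end Crest.Agent.R204.DK742
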