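import Crest.Agent.R204.ThAlg_265
import Crest.Agent.R204.C5_265
import Crest.Agent.R204.C5T_557
import Crest.Agent.R204.Pw_742
import Crest.Agent.R204.HtpInv_334

/-!
# Row 204, block C5 (helper265): the operations `Q_i`, `T_i` of an abstract `Θ`-algebra

`Q A i x = Θ_*(e_i ⊗ x ⊗ x)` (my `pw`, defined for `i ≤ M`, additive for `i < M`),
`T A i = C5T557.TT A.Th i`.
-/

set_option autoImplicit false

noncomputable section

namespace Crest.Agent.R204.Ops265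

open SS EZ271 ThetaSS265 SingAct265 C5265 ThAlg265
open DK742 (proj Invo orb AltSS)

theorem Hmap_comp {J L M : SS} (R : Type) [CommRing R] (g : Hom L M) (f : Hom J L) (x : H R J) :
    H.map R (g.comp f) x = H.map R g (H.map R f x) := C5T557.mapH_comp R g f x

theorem Hmap_mk {J L : SS} (f : Hom J L) (z : N F2 J) (hz : N.bd F2 J z = 0) :
    H.map F2 f (Hd.mk _ z hz) = Hd.mk _ (N.map F2 f z) (by rw [← EZ271.map_bd', hz, map_zero]) := rfl

variable {M : ℕ} {K L : SS}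

/-! ## cross product in homology -/

/-- the product of homology classes under `mu : K × K → K` -/
def mulH (mu : Hom (K.prod K) K) : H F2 K →ₗ[F2] H F2 K →ₗ[F2] H F2 K :=
  (DK742.Hd2 (cross F2) (fun a b => bd_cross_F2 a b)).compr₂ (H.map F2 mu)

theorem mulH_mk (mu : Hom (K.prod K) K) (x y : N F2 K) (hx : N.bd F2 K x = 0)
    (hy : N.bd F2 K y = 0) : mulH mu (Hd.mk _ x hx) (Hd.mk _ y hy) =
      Hd.mk _ (N.map F2 mu (cross F2 x y)) (by
        rw [← EZ271.map_bd', bd_cross_F2, hx, hy]; simp) := rfl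

/-- the unit class -/
def oneH (e : K.S 0) : H F2 K := C5T557.vtx F2 e

/-! ## the operations -/

/-- the Araki–Kudo operation `Q_i` -/
def Q (A : ThAlg M K) (i : ℕ) (x : H F2 K) : H F2 K := H.map F2 A.Th (pw M K i x)

/-- the operation `T_i` -/
def T (A : ThAlg M K) (i : ℕ) : H F2 K →ₗ[F2] H F2 K := C5T557.TT A.Th i

theorem Q_mk (A : ThAlg M K) {i : ℕ} (h : i ≤ M) (z : N F2 K) (hz : N.bd F2 K z = 0) :
    Q A i (Hd.mk _ z hz) = Hd.mk _ (N.map F2 A.Th (PhiC M K i (cross F2 z z)))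
      (by rw [← EZ271.map_bd', bd_PhiC_sq h hz, map_zero]) := by
  rw [Q, pw_mk h, Hmap_mk]

theorem Q_of_gt (A : ThAlg M K) {i : ℕ} (h : M < i) (x : H F2 K) : Q A i x = 0 := by
  rw [Q, pw, dif_neg (by omega), map_zero]

theorem Q_add (A : ThAlg M K) {i : ℕ} (h : i + 1 ≤ M) (x y : H F2 K) :
    Q A i (x + y) = Q A i x + Q A i y := by
  rw [Q, pw_add h, map_add]; rfl

theorem Q_zero' (A : ThAlg M K) (i : ℕ) : Q A i 0 = 0 := by
  by_cases h : i ≤ M
  · have h0 : (0 : H F2 K) = Hd.mk _ 0 (map_zero _) := rfl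
    rw [h0, Q_mk A h, Hd.mk_eq_mk]
    exact ⟨0, by simp⟩
  · exact Q_of_gt A (by omega) 0

theorem ee_eq742 {i : ℕ} (h : (i : ℕ∞) ≤ (AltSS.skel M).M) :
    ee M i = N.sx F2 ((AltSS.skel M).e i h 0) := dif_pos h

theorem PhiC_eq742 (i : ℕ) (h : (i : ℕ∞) ≤ (AltSS.skel M).M) (c : N F2 (K.prod K)) :
    PhiC M K i c = DK742.PhiD (AltSS.skel M) i h c := by
  rw [PhiC_apply, ee_eq742 h]; rfl

/-- comparison with `742`'s `pw` -/
theorem pw_eq742 {i : ℕ} (h : ((i + 1 : ℕ) : ℕ∞) ≤ (AltSS.skel M).M) (x : H F2 K) :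
    pw M K i x = DK742.pw (AltSS.skel M) i h x := by
  obtain ⟨z, hz, rfl⟩ := Hd.mk_surj _ x
  have h' : i + 1 ≤ M := by
    have : ((i + 1 : ℕ) : ℕ∞) ≤ (M : ℕ∞) := h
    exact_mod_cast this
  rw [pw_mk (by omega), DK742.pw_mk]
  refine (Hd.mk_eq_mk (d := N.bd F2 (DM M K))).2 ⟨0, ?_⟩
  rw [map_zero, PhiC_eq742 i ((AltSS.skel M).le_pred h), sub_self]

theorem Q_eq742 (A : ThAlg M K) {i : ℕ} (h : ((i + 1 : ℕ) : ℕ∞) ≤ (AltSS.skel M).M) (x : H F2 K) :
    Q A i x = H.map F2 A.Th (DK742.pw (AltSS.skel M) i h x) := by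
  rw [Q, pw_eq742 h]

/-! ## degrees -/

theorem Hmap_gr {f : Hom K L} {n : ℕ} {x : H F2 K} (hx : x ∈ H.gr F2 K n) :
    H.map F2 f x ∈ H.gr F2 L n := by
  obtain ⟨z, hz, hn, rfl⟩ := DK742.exists_rep_gr hx
  exact DK742.mk_mem_gr _ (DK742.map_gr f hn)

theorem Q_gr (A : ThAlg M K) {i t : ℕ} (h : i ≤ M) {x : H F2 K} (hx : x ∈ H.gr F2 K t) :
    Q A i x ∈ H.gr F2 K (2 * t + i) := by
  obtain ⟨z, hz, hn, rfl⟩ := DK742.exists_rep_gr hx
  rw [Q_mk A h]
  refine DK742.mk_mem_gr _ (DK742.map_gr _ ?_)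
  rw [PhiC_apply, show 2 * t + i = i + (t + t) by ring]
  exact DK742.map_gr _ (DK742.cross_gr (ee_mem_gr M i) (DK742.cross_gr hn hn))

theorem T_gr (A : ThAlg M K) {i t : ℕ} {x : H F2 K} (hx : x ∈ H.gr F2 K t) :
    T A i x ∈ H.gr F2 K (t + i) := by
  by_cases h : i ≤ M
  · obtain ⟨z, hz, hn, rfl⟩ := DK742.exists_rep_gr hx
    rw [T, C5T557.TT_of_le A.Th i h, C5T557.opT_mk]
    refine DK742.mk_mem_gr _ (DK742.map_gr _ ?_)
    rw [show t + i = i + t by ring]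
    exact DK742.cross_gr (DK742.sx_mem_gr _) hn
  · rw [T, C5T557.TT, dif_neg h]; exact Submodule.zero_mem _

/-! ## `Q_0` and `T_0` -/

theorem ee_zero (M : ℕ) : ee M 0 = N.sx F2 (e0 M 0) := by
  rw [ee_of_le (Nat.zero_le M)]
  congr 1
  apply Subtype.ext
  have h : ((AltSS.skel M).e 0 (le_cast (Nat.zero_le M)) 0) = C5T557.eM M 0 (Nat.zero_le M) 0 :=
    C5T557.skel_e M 0 (Nat.zero_le M) 0
  show ((AltSS.skel M).e 0 (le_cast (Nat.zero_le M)) 0).1 = fun _ => 0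
  rw [h]
  funext a
  have : a = 0 := Fin.ext (by omega)
  subst this
  exact DK742.alt_zero 0 0

theorem PhiC_zero (c : N F2 (K.prod K)) : PhiC M K 0 c = N.map F2 (vtx M K) c := by
  rw [PhiC_apply, ee_zero, cross_vertex, EZ271.map_map]
  rfl

/-- `Q_0 x = x * x` -/
theorem Q_zero (A : ThAlg M K) (hV : A.Vertex) (x : H F2 K) : Q A 0 x = mulH A.mu x x := by
  obtain ⟨z, hz, rfl⟩ := Hd.mk_surj _ x
  have hzz : N.bd F2 (K.prod K) (cross F2 z z) = 0 := by rw [bd_cross_F2, hz]; simp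
  have h1 := LinearMap.congr_fun (hV.map_eq HtpInv334.homotopyInv F2) (Hd.mk _ (cross F2 z z) hzz)
  rw [Q_mk A (Nat.zero_le M), mulH_mk]
  rw [Hmap_mk, Hmap_mk] at h1
  rw [← h1]
  congr 1
  rw [PhiC_zero, EZ271.map_map]

/-- `T_0 y = μ_*(Δ_* y)` -/
theorem T_zero (A : ThAlg M K) (hV : A.Vertex) (y : H F2 K) :
    T A 0 y = H.map F2 A.mu (H.map F2 (SS.diag K) y) := by
  refine C5T557.TT_zero A.Th A.mu ?_ y
  have h1 := (hV.pre (SS.diag K)).map_eq HtpInv334.homotopyInv F2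
  rw [← h1]
  congr 1

/-- `T_i 1 = δ_{i0}` -/
theorem T_one (A : ThAlg M K) (h1 : A.OneLaw) {i : ℕ} (hi : i ≤ M) :
    T A i (oneH A.one) = if i = 0 then oneH A.one else 0 := by
  refine C5T557.TT_one A.Th A.one ?_ i hi
  congr 1
  refine Hom.ext (funext fun n => funext fun b => ?_)
  obtain ⟨g, rfl⟩ := DK742.proj_surj (invEM M) _ b
  exact h1 n g

/-! ## naturality -/

/-- `f_* Q_i = Q_i f_*` for a map of `Θ`-algebras -/
theorem Q_nat {A : ThAlg M K} {B : ThAlg M L} {f : Hom K L} (hf : ThMap A B f) {i : ℕ} (h : i ≤ M)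
    (x : H F2 K) : H.map F2 f (Q A i x) = Q B i (H.map F2 f x) := by
  have h1 := LinearMap.congr_fun (hf.th.map_eq HtpInv334.homotopyInv F2) (pw M K i x)
  rw [Hmap_comp, Hmap_comp, pw_map f h] at h1
  exact h1.symm

theorem T_nat {A : ThAlg M K} {B : ThAlg M L} {f : Hom K L} (hf : ThMap A B f) (i : ℕ)
    (x : H F2 K) : H.map F2 f (T A i x) = T B i (H.map F2 f x) := by
  by_cases h : i ≤ M
  · rw [T, T, C5T557.TT_of_le A.Th i h, C5T557.TT_of_le B.Th i h]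
    show H.map F2 f (H.map F2 (A.Th.comp (diagD M K)) (C5T557.crossCyc _ _ x)) =
      H.map F2 (B.Th.comp (diagD M L)) (C5T557.crossCyc _ _ (H.map F2 f x))
    have h1 := LinearMap.congr_fun ((hf.th.pre (diagD M K)).map_eq HtpInv334.homotopyInv F2)
      (C5T557.crossCyc (C5T557.aCell M i h) (C5T557.bd_aCell M i h) x)
    have e1 : (f.comp A.Th).comp (diagD M K) = f.comp (A.Th.comp (diagD M K)) := rfl
    have e2 : (B.Th.comp (DMmap M f)).comp (diagD M K) =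
        (B.Th.comp (diagD M L)).comp (SS.prodMap (Hom.id (BM M)) f) := by
      refine Hom.ext (funext fun n => funext fun b => ?_)
      obtain ⟨b, y⟩ := b
      obtain ⟨g, rfl⟩ := DK742.proj_surj (invEM M) _ b
      rfl
    rw [e1, e2, Hmap_comp F2 (B.Th.comp (diagD M L)), Hmap_comp F2 f] at h1
    refine h1.symm.trans ?_
    congr 1
    rw [C5T557.map_crossCyc]
    have e3 : ∀ (a b : N F2 (BM M)) (hab : a = b) (ha : N.bd F2 _ a = 0) (hb : N.bd F2 _ b = 0),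
        C5T557.crossCyc (L := L) a ha = C5T557.crossCyc b hb := by
      rintro a b rfl ha hb; rfl
    exact LinearMap.congr_fun (e3 _ _ (map_idHom F2 _) _ _) _
  · rw [T, T, C5T557.TT, dif_neg h, C5T557.TT, dif_neg h]; simp

/-- multiplicativity of a map of `Θ`-algebras -/
theorem mulH_nat {A : ThAlg M K} {B : ThAlg M L} {f : Hom K L} (hf : ThMap A B f)
    (x y : H F2 K) : H.map F2 f (mulH A.mu x y) = mulH B.mu (H.map F2 f x) (H.map F2 f y) := by
  obtain ⟨x, hx, rfl⟩ := Hd.mk_surj _ x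
  obtain ⟨y, hy, rfl⟩ := Hd.mk_surj _ y
  have hc : N.bd F2 (K.prod K) (cross F2 x y) = 0 := by rw [bd_cross_F2, hx, hy]; simp
  have h1 := LinearMap.congr_fun (hf.mu.map_eq HtpInv334.homotopyInv F2) (Hd.mk _ (cross F2 x y) hc)
  rw [Hmap_comp, Hmap_comp] at h1
  have e1 : H.map F2 A.mu (Hd.mk _ (cross F2 x y) hc) = mulH A.mu (Hd.mk _ x hx) (Hd.mk _ y hy) := rfl
  rw [← e1, ← h1, Hmap_mk, Hmap_mk, Hmap_mk, Hmap_mk, mulH_mk]
  congr 1
  rw [map_cross]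

end Crest.Agent.R204.Ops265
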