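import Crest.Agent.R204.CompB_696
import Crest.Agent.R204.Ops_265
import Crest.Agent.R204.Hopf4_450
import Crest.Agent.R204.EZInst_847

/-!
# Row 204, block C, leaf C9 part 4 (helper696)

The component grading in terms of 265's `Ops265.Q/T/mulH` and 450's Pontryagin ring `HMon.ring`.
-/

set_option autoImplicit false
set_option linter.unusedSectionVars false
set_option linter.style.haveILetI false

open scoped Topology unitInterval Topology.Homotopy TensorProduct

noncomputable section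

namespace Crest.Agent.R204.Comp696

open SS SingAct265 Cubes735 Hsp696 DK742 ThetaSS265 ThAlg265
open Crest.Agent.R204.HspSS696 hiding Om

/-! ## 265's operations -/

namespace ThCm

variable {M : ℕ} {K : SS} {A : ThAlg M K} {π : Type} [CommMonoid π] (T : ThCm A π)

/-- `Q_i : H_g → H_{g²}` for every `i` (`Q_i = 0` for `i > M`) -/
theorem Qop_mem (i : ℕ) {g : π} {x : H F2 K} (hx : x ∈ T.HH F2 g) :
    Ops265.Q A i x ∈ T.HH F2 (g * g) := by
  by_cases h : i ≤ M
  · exact T.Q_mem h hx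
  · rw [Ops265.Q_of_gt A (by omega)]; exact Submodule.zero_mem _

/-- `T_i : H_g → H_{g²}` for every `i` -/
theorem Top_mem (i : ℕ) {g : π} {x : H F2 K} (hx : x ∈ T.HH F2 g) :
    Ops265.T A i x ∈ T.HH F2 (g * g) := by
  by_cases h : i ≤ M
  · rw [Ops265.T, C5T557.TT_of_le A.Th i h]
    exact T.T_mem (C5T557.aCell M i h) (C5T557.bd_aCell M i h) hx
  · rw [Ops265.T, C5T557.TT, dif_neg h]; exact Submodule.zero_mem _

/-- the product is the one of 847's cross product -/
theorem mulH_eq (mu : Hom (K.prod K) K) (x y : H F2 K) :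
    Ops265.mulH mu x y = H.map F2 mu (EZ847.ezd.cr K K (x ⊗ₜ y)) := by
  obtain ⟨z, hz, rfl⟩ := Hd.mk_surj _ x
  obtain ⟨w, hw, rfl⟩ := Hd.mk_surj _ y
  rw [Ops265.mulH_mk, Coalg847.EZData.cr_mk, H.map, Hd.map_mk]
  rfl

theorem mulH_mem {g h : π} {x y : H F2 K} (hx : x ∈ T.HH F2 g) (hy : y ∈ T.HH F2 h) :
    Ops265.mulH A.mu x y ∈ T.HH F2 (g * h) := by
  rw [mulH_eq]; exact T.mul_mem _ hx hy

end ThCm

/-! ## 450's ring -/

section ring

open Hopf450

variable {K : SS} (N : HMon K) (E : Coalg847.EZData) {π : Type}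

theorem ring_one_mem [One π] (c : Cm K π) (h1 : c.app 0 N.e = 1) :
    letI := N.ring E; (1 : H F2 K) ∈ Hc F2 c 1 :=
  mk_sx_mem F2 c 1 N.e h1 _

theorem ring_mul_mem [Mul π] (c : Cm K π)
    (hmu : ∀ (n : ℕ) (x y : K.S n), c.app n (N.mu.app n (x, y)) = c.app n x * c.app n y) (g h : π)
    (x y : H F2 K) (hx : x ∈ Hc F2 c g) (hy : y ∈ Hc F2 c h) :
    letI := N.ring E; x * y ∈ Hc F2 c (g * h) :=
  cross_mem F2 (fun A B x y => E.cr A B (x ⊗ₜ y))
    (fun _ _ _ _ f f' x y => (E.cr_nat f f' x y).symm) c g c h c (g * h) N.mu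
    (fun n x y hx hy => by rw [hmu, hx, hy]) hx hy

/-- **the base component** as a subalgebra of the Pontryagin ring -/
@[reducible] def baseAlg [Monoid π] (c : Cm K π) (h1 : c.app 0 N.e = 1)
    (hmu : ∀ (n : ℕ) (x y : K.S n), c.app n (N.mu.app n (x, y)) = c.app n x * c.app n y) :
    letI := N.ring E; letI := N.alg E; Subalgebra F2 (H F2 K) :=
  letI := N.ring E; letI := N.alg E
  baseOf (Hc F2 c) (ring_one_mem N E c h1) (ring_mul_mem N E c hmu)

theorem mem_baseAlg [Monoid π] (c : Cm K π) (h1 : c.app 0 N.e = 1)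
    (hmu : ∀ (n : ℕ) (x y : K.S n), c.app n (N.mu.app n (x, y)) = c.app n x * c.app n y)
    (x : H F2 K) : letI := N.ring E; letI := N.alg E;
    x ∈ baseAlg N E c h1 hmu ↔ x ∈ Hc F2 c 1 := Iff.rfl

end ring

/-! ## `[x]` for a loop `x` -/

section om

variable {J : Type} [Finite J] {Z : Type} [TopologicalSpace Z] {z₀ : Z}

/-- the vertex class lies in its component -/
theorem vtx_mem_Hc {K : SS} {π : Type} (c : Cm K π) (v : K.S 0) (g : π) (h : c.app 0 v = g) :
    Coalg847.vtx v ∈ Hc F2 c g :=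
  mk_sx_mem F2 c g v h (Coalg847.bd_vertex v)

/-- the vertex of a loop lies in its component -/
theorem vtx_ptS_mem (x : Om J Z z₀) :
    Coalg847.vtx (K := Sing (Om J Z z₀)) (ptS x) ∈ Hc F2 (cOm J Z z₀) (cls x) :=
  vtx_mem_Hc (cOm J Z z₀) (ptS x) (cls x) rfl

variable [DecidableEq J] [Nontrivial J]

theorem vtx_symmAt_mem (i : J) (x : Om J Z z₀) :
    Coalg847.vtx (K := Sing (Om J Z z₀)) (ptS (GenLoop.symmAt i x : Om J Z z₀)) ∈
      Hc F2 (cOm J Z z₀) (cls x)⁻¹ := by
  rw [← cls_symmAt i x]; exact vtx_ptS_mem _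

end om

end Crest.Agent.R204.Comp696
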