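import Crest.Agent.R204.InstX_194
import Crest.Agent.R204.CompOps_696

/-!
# Row 204 (helper194): `FactBase` for the concrete tower
-/

set_option autoImplicit false
set_option linter.style.haveILetI false

noncomputable section

namespace Crest.Agent.R204.Inst194

open scoped _root_.Topology _root_.Topology.Homotopy TensorProduct
open Crest.Agent.R204 Crest.Agent.R204.Freu297 Crest.Agent.R204.Sus330
open Crest.Agent.R204.HspSS696 (mulS eS ptS invS)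
open Crest.Agent.R204.Hsp696 (halves)
open Crest.Agent.R204.Hopf450 (HMon)
open Crest.Agent.R204.Coalg847 (vtx eps)
open Crest.Agent.R204.Comp696

namespace Par

variable (p : Par) {D : ℕ}

theorem nontrivial0 : Nontrivial (Fin (cd p.J0 p.K 0)) :=
  Fin.nontrivial_iff_two_le.2 (two_le p.hM (p.hc 0))

/-- the class of the degree one element -/
def iotaC : HomotopyGroup (Fin (cd p.J0 p.K 0)) (Sph (p.J0 + p.K)) (pt (p.J0 + p.K)) :=
  cls (J := Fin (cd p.J0 p.K 0)) (iotaL p.n)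

/-- the component structure of `X_0` -/
abbrev cm0 : Cm (p.S 0) (HomotopyGroup (Fin (cd p.J0 p.K 0)) (Sph (p.J0 + p.K)) (pt (p.J0 + p.K))) :=
  cOm (Fin (cd p.J0 p.K 0)) (Sph (p.J0 + p.K)) (pt (p.J0 + p.K))

theorem x0_mem : p.x 0 ∈ Hc F2 p.cm0 p.iotaC :=
  vtx_ptS_mem (J := Fin (cd p.J0 p.K 0)) (Z := Sph (p.J0 + p.K)) (z₀ := pt (p.J0 + p.K)) (iotaL p.n)

theorem xinv_mem :
    haveI : Nontrivial (Fin (cd p.J0 p.K 0)) := p.nontrivial0
    p.xinv ∈ Hc F2 p.cm0 (p.iotaC)⁻¹ := by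
  haveI : Nontrivial (Fin (cd p.J0 p.K 0)) := p.nontrivial0
  exact vtx_symmAt_mem (J := Fin (cd p.J0 p.K 0)) (Z := Sph (p.J0 + p.K)) (z₀ := pt (p.J0 + p.K))
    (i0 (p.hc 0)) (iotaL p.n)

/-- **FactBase** -/
theorem factBase (D : ℕ) : p.tower.FactBase D := by
  haveI : Nontrivial (Fin (cd p.J0 p.K 0)) := p.nontrivial0
  have h1 : ∀ i ≤ D + 1, ∀ (g : HomotopyGroup (Fin (cd p.J0 p.K 0)) (Sph (p.J0 + p.K))
      (pt (p.J0 + p.K))) (x : H F2 (p.S 0)), x ∈ Hc F2 p.cm0 g →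
      Ops265.Q (p.A 0) i x ∈ Hc F2 p.cm0 (g * g) := fun i _ g x hx =>
    (omCm (emb (p.hc 0)) (halves (i0 (p.hc 0)))).Qop_mem i hx
  have h2 : ∀ (a : ℕ) (g : HomotopyGroup (Fin (cd p.J0 p.K 0)) (Sph (p.J0 + p.K))
      (pt (p.J0 + p.K))) (x : H F2 (p.S 0)), x ∈ Hc F2 p.cm0 g →
      Sq252.Sq (p.S 0) a x ∈ Hc F2 p.cm0 g := fun a g x hx =>
    (omCm (emb (p.hc 0)) (halves (i0 (p.hc 0)))).nat_mem F2 (fun B => Sq252.Sq B a)
      (fun _ _ f x => (Sq252.Sq_map f a x).symm) hx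
  exact factBase_of p.tower D (Hc F2 p.cm0)
    (ring_one_mem (p.N 0) EE (omCm (emb (p.hc 0)) (halves (i0 (p.hc 0)))).c
      (omCm (emb (p.hc 0)) (halves (i0 (p.hc 0)))).one)
    (ring_mul_mem (p.N 0) EE (omCm (emb (p.hc 0)) (halves (i0 (p.hc 0)))).c
      (omCm (emb (p.hc 0)) (halves (i0 (p.hc 0)))).mu) h1 h2 p.x0_mem p.xinv_mem rfl

end Par

end Crest.Agent.R204.Inst194
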