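import Crest.Agent.R204.Span5_348
import Crest.Agent.R204.EZF2_271

/-!
# `KunSpan`, `DSpan` and the unconditional generation theorem (row 204, block G)
-/

set_option autoImplicit false

noncomputable section

namespace Crest.Agent.R204.Span348

open Finsupp SS Tr348 Fs348 DK742 EZ271

theorem kunSpan : KunSpan := by
  intro K L
  obtain ⟨J, b, hb⟩ := QC134.exists_HBasis (N.bd F2 K)
  obtain ⟨J', b', hb'⟩ := QC134.exists_HBasis (N.bd F2 L)
  have hB := hbasis_cross hb hb'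
  rw [eq_top_iff]
  intro w _
  rw [← hB.toBasis.linearCombination_repr w, Finsupp.linearCombination_apply, Finsupp.sum]
  refine Submodule.sum_mem _ fun p _ => Submodule.smul_mem _ _ (Submodule.subset_span ?_)
  refine ⟨Hd.mk _ (b p.1) (hb.cyc p.1), Hd.mk _ (b' p.2) (hb'.cyc p.2), ?_⟩
  rw [QC134.HBasis.toBasis_apply]
  rfl

section D

variable {C : Type} [AddCommGroup C] [Module F2 C]

/-- reindexing of the quadratic construction -/
def rix : (ℕ →₀ C) →ₗ[F2] Q (⊤ : ℕ∞) C :=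
  Finsupp.lsum F2 fun i : ℕ => Finsupp.lsingle (⟨i, le_top⟩ : Idx (⊤ : ℕ∞))

@[simp] theorem rix_single (i : ℕ) (c : C) :
    rix (single i c) = single (⟨i, le_top⟩ : Idx (⊤ : ℕ∞)) c := by
  simp [rix]

theorem rix_D (d τ : C →ₗ[F2] C) (z : ℕ →₀ C) :
    rix (QC134.QD d τ z) = Q.D ⊤ d τ (rix z) := by
  induction z using Finsupp.induction_linear with
  | zero => simp
  | add f g hf hg => simp only [map_add, hf, hg]
  | single i c =>
    rcases i with _ | i
    · rw [QC134.QD_single_zero, rix_single, rix_single, Q.D_single_zero]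
    · rw [rix_single, Q.D_single_succ d τ i le_top le_top]
      simp only [QC134.QD, Finsupp.lsum_single, LinearMap.add_apply, LinearMap.comp_apply,
        Finsupp.lsingle_apply, map_add, rix_single, LinearMap.id_apply]
      rw [add_comm, ← Finsupp.single_add]

theorem rix_surj (z : Q (⊤ : ℕ∞) C) : ∃ w : ℕ →₀ C, rix w = z := by
  induction z using Finsupp.induction_linear with
  | zero => exact ⟨0, map_zero _⟩
  | add f g hf hg =>
    obtain ⟨a, rfl⟩ := hf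
    obtain ⟨b, rfl⟩ := hg
    exact ⟨a + b, map_add _ _ _⟩
  | single i c => exact ⟨single i.1 c, rix_single _ _⟩

theorem rix_inj : Function.Injective (rix (C := C)) := by
  intro z w h
  have key : ∀ (z : ℕ →₀ C) (i : ℕ), (rix z) ⟨i, le_top⟩ = z i := by
    intro z i
    induction z using Finsupp.induction_linear with
    | zero => simp
    | add f g hf hg => rw [map_add, Finsupp.add_apply, Finsupp.add_apply, hf, hg]
    | single j c =>
      rw [rix_single]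
      by_cases e : j = i
      · subst e; rw [Finsupp.single_eq_same, Finsupp.single_eq_same]
      · rw [Finsupp.single_eq_of_ne (by intro h'; exact e (congrArg Subtype.val h').symm),
          Finsupp.single_eq_of_ne (Ne.symm e)]
  ext i
  rw [← key z i, ← key w i, h]

end D

/-- the cross product on the tensor product -/
abbrev fT (K : SS) : TensorProduct F2 (N F2 K) (N F2 K) →ₗ[F2] N F2 (K.prod K) :=
  TensorProduct.lift (cross F2 (K := K) (L := K))

theorem qiQ (K : SS) : QC134.QI (QC134.QD (QC134.dT (N.bd F2 K) (N.bd F2 K)) (QC134.tau (N F2 K)))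
    (QC134.QD (N.bd F2 (K.prod K)) (N.map F2 (Invo.swap K).g)) (QC134.Qmap (fT K)) := by
  refine QC134.QI.Q (QC134.dT_dT N.bd_bd N.bd_bd) N.bd_bd QC134.tau_tau
    (N_map_invol _) (QC134.tau_dT _) (fun x => ?_) (fun x => ?_) qi_cross
  · exact map_bd' _ _
  · induction x using TensorProduct.induction_on with
    | zero => simp
    | add x y hx hy => simp only [map_add, hx, hy]
    | tmul x y =>
      rw [QC134.tau_tmul]
      show cross F2 y x = N.map F2 (SS.swap K K) (cross F2 x y)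
      rw [DK742.swap_cross]

/-- 742's `Φ` for the swap -/
def PhK (K : SS) : Q (⊤ : ℕ∞) (N F2 (K.prod K)) →ₗ[F2] N F2 (DX AltSS.full K) :=
  Phi (X := AltSS.full) (τ := Invo.swap K) (cross F2)

theorem PhK_D (K : SS) (z : Q (⊤ : ℕ∞) (N F2 (K.prod K))) :
    PhK K (Q.D ⊤ (N.bd F2 (K.prod K)) (N.map F2 (Invo.swap K).g) z) = N.bd F2 _ (PhK K z) :=
  LinearMap.congr_fun (Phi_D (ezData AltSS.full.g (Invo.swap K))) z

theorem PhK_single (K : SS) (i : ℕ) (c : N F2 (K.prod K)) :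
    PhK K (single (⟨i, le_top⟩ : Idx (⊤ : ℕ∞)) c) = PhiD AltSS.full i (le_full i) c :=
  Phi_single _ _ c

theorem PhK_surj (K : SS) (y : N F2 (DX AltSS.full K)) (hy : N.bd F2 _ y = 0) :
    ∃ z, Q.D ⊤ (N.bd F2 (K.prod K)) (N.map F2 (Invo.swap K).g) z = 0 ∧
      ∃ w, y = PhK K z + N.bd F2 _ w := by
  refine ⟨Psi (ezData AltSS.full.g (Invo.swap K)) y, ?_,
    orbHom (ezData AltSS.full.g (Invo.swap K)) y, ?_⟩
  · have := Psi_bd (ezData AltSS.full.g (Invo.swap K)) y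
    rw [hy, map_zero] at this
    exact this.symm
  · have := Phi_Psi (ezData AltSS.full.g (Invo.swap K)) y
    rw [hy, map_zero, add_zero] at this
    have e : PhK K (Psi (ezData AltSS.full.g (Invo.swap K)) y) =
      y + N.bd F2 _ (orbHom (ezData AltSS.full.g (Invo.swap K)) y) := this
    rw [e, add_assoc, add_self2, add_zero]

/-- the composite chain map -/
def Gc (K : SS) : (ℕ →₀ (TensorProduct F2 (N F2 K) (N F2 K))) →ₗ[F2] N F2 (DX AltSS.full K) :=
  PhK K ∘ₗ rix ∘ₗ QC134.Qmap (fT K)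

theorem Gc_apply (K : SS) (z : ℕ →₀ (TensorProduct F2 (N F2 K) (N F2 K))) :
    Gc K z = PhK K (rix (QC134.Qmap (fT K) z)) := rfl

theorem Gc_single (K : SS) (i : ℕ) (x y : N F2 K) :
    Gc K (single i (TensorProduct.tmul F2 x y)) = PhiD AltSS.full i (le_full i) (cross F2 x y) := by
  rw [Gc_apply, QC134.Qmap_single, rix_single, PhK_single, TensorProduct.lift.tmul]

theorem Gc_comm (K : SS) : Gc K ∘ₗ QC134.dQ (N.bd F2 K) = N.bd F2 _ ∘ₗ Gc K := by
  refine LinearMap.ext fun z => ?_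
  rw [LinearMap.comp_apply, LinearMap.comp_apply, Gc_apply, Gc_apply, QC134.dQ, (qiQ K).comm,
    rix_D, PhK_D]

theorem Gc_surj (K : SS) (y : N F2 (DX AltSS.full K)) (hy : N.bd F2 _ y = 0) :
    ∃ u, QC134.dQ (N.bd F2 K) u = 0 ∧ ∃ w, y = Gc K u + N.bd F2 _ w := by
  obtain ⟨z, hz, w, rfl⟩ := PhK_surj K y hy
  obtain ⟨z, rfl⟩ := rix_surj z
  have hz' : QC134.QD (N.bd F2 (K.prod K)) (N.map F2 (Invo.swap K).g) z = 0 := by
    apply rix_inj
    rw [map_zero, rix_D]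
    exact hz
  obtain ⟨u, w', hu, rfl⟩ := (qiQ K).surj z hz'
  refine ⟨u, hu, PhK K (rix w') + w, ?_⟩
  rw [Gc_apply, map_add, map_add, map_add, rix_D, PhK_D, add_assoc]

theorem Hd_map_surj {M M' : Type*} [AddCommGroup M] [Module F2 M] [AddCommGroup M'] [Module F2 M']
    {d : M →ₗ[F2] M} {d' : M' →ₗ[F2] M'} (G : M →ₗ[F2] M') (hG : G ∘ₗ d = d' ∘ₗ G)
    (h : ∀ y, d' y = 0 → ∃ u, d u = 0 ∧ ∃ w, y = G u + d' w) :
    Function.Surjective (Hd.map G hG) := by
  intro y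
  obtain ⟨y, hy, rfl⟩ := Hd.mk_surj _ y
  obtain ⟨u, hu, w, e⟩ := h y hy
  refine ⟨Hd.mk _ u hu, ?_⟩
  rw [Hd.map_mk, Hd.mk_eq_mk]
  refine ⟨w, ?_⟩
  rw [e, sub_eq2, ← add_assoc, add_self2, zero_add]

/-- the induced map in homology -/
def GcH (K : SS) : Hd (QC134.dQ (N.bd F2 K)) →ₗ[F2] H F2 (DX AltSS.full K) :=
  Hd.map (d := QC134.dQ (N.bd F2 K)) (d' := N.bd F2 (DX AltSS.full K)) (Gc K) (Gc_comm K)

theorem GcH_mk (K : SS) (z : ℕ →₀ (TensorProduct F2 (N F2 K) (N F2 K)))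
    (hz : QC134.dQ (N.bd F2 K) z = 0) (hz' : N.bd F2 _ (Gc K z) = 0) :
    GcH K (Hd.mk (QC134.dQ (N.bd F2 K)) z hz) = Hd.mk (N.bd F2 _) (Gc K z) hz' := rfl

theorem GcH_surj (K : SS) : Function.Surjective (GcH K) :=
  Hd_map_surj (d := QC134.dQ (N.bd F2 K)) (d' := N.bd F2 (DX AltSS.full K)) (Gc K) (Gc_comm K)
    (Gc_surj K)

theorem dSpan : DSpan := by
  intro K
  rw [eq_top_iff]
  intro y _
  obtain ⟨x, rfl⟩ := GcH_surj K y
  have hx : x ∈ Submodule.span F2 ({y | ∃ i x, y = QC134.Eop (N.bd F2 K) N.bd_bd i x} ∪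
      {z | ∃ x y, z = QC134.Bop (N.bd F2 K) x y}) := by
    rw [QC134.quad_span]; trivial
  have hm := Submodule.mem_map_of_mem (f := GcH K) hx
  rw [Submodule.map_span] at hm
  refine Submodule.span_mono ?_ hm
  rintro _ ⟨_, ⟨i, x, rfl⟩ | ⟨x, y, rfl⟩, rfl⟩
  · refine Or.inl ⟨i, x, ?_⟩
    obtain ⟨z, hz, rfl⟩ := Hd.mk_surj _ x
    have e : N.bd F2 (DX AltSS.full K) (Gc K (single i (TensorProduct.tmul F2 z z))) = 0 := by
      rw [Gc_single]; exact bd_PhiD_sq _ i _ hz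
    rw [QC134.Eop_mk, GcH_mk K _ _ e, pw_mk, Hd.mk_eq_mk]
    refine ⟨0, ?_⟩
    rw [map_zero, Gc_single, sub_self]
  · refine Or.inr ⟨x, y, ?_⟩
    obtain ⟨z, hz, rfl⟩ := Hd.mk_surj _ x
    obtain ⟨w, hw, rfl⟩ := Hd.mk_surj _ y
    have e : N.bd F2 (DX AltSS.full K) (Gc K (single 0 (TensorProduct.tmul F2 z w))) = 0 := by
      rw [Gc_single, bd_PhiD_cross_zero, hz, hw]; simp
    rw [QC134.Bop_mk, GcH_mk K _ _ e, pr_mk, Hd.mk_eq_mk]
    refine ⟨0, ?_⟩
    rw [map_zero, Gc_single, prC_apply, sub_self]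

variable {U : Type}

/-- **SPAN**, unconditional -/
theorem span (k : U ⊕ U ↪ U) (M : ℕ)
    (P : ∀ v, Submodule F2 (H F2 (Fs U v)))
    (h0 : ∃ e : (Fs U 0).S 0, C5T557.vtx F2 e ∈ P 0)
    (h1 : ∃ e : (Fs U 1).S 0, C5T557.vtx F2 e ∈ P 1)
    (hmul : ∀ a b x y, x ∈ P a → y ∈ P b → mV k a b x y ∈ P (a + b))
    (hQ : ∀ a i (h : ((i + 1 : ℕ) : ℕ∞) ≤ (AltSS.skel M).M) x, x ∈ P a → qV k M a i h x ∈ P (a + a)) :
    ∀ v t, t < M → H.gr F2 (Fs U v) t ≤ P v := span_gr kunSpan dSpan k M P h0 h1 hmul hQ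

end Crest.Agent.R204.Span348
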