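import Crest.Agent.R204.Fs_348
import Crest.Agent.R204.GL2A_735
import Crest.Agent.R204.Coef_947

/-!
# Row 204, block G: `w!` kills the positive homology of `Fs U w` (helper947)
-/

set_option autoImplicit false

namespace Crest.Agent.R204.Tors947

open SS EZ271 Fs348 Tr348 Coef947

variable (R : Type) [CommRing R]

theorem aug_gr {K : SS} {n : ℕ} (hn : 0 < n) {c : N R K} (hc : c ∈ N.gr R K n) : aug R c = 0 := by
  obtain ⟨c, hc', rfl⟩ := hc
  refine Submodule.span_induction (p := fun c _ => aug R (Submodule.mkQ (Ch.Dg R K) c) = 0)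
    ?_ ?_ ?_ ?_ hc'
  · rintro _ ⟨x, rfl⟩
    obtain ⟨n, rfl⟩ : ∃ k, n = k + 1 := ⟨n - 1, by omega⟩
    exact aug_sx_succ (R := R) x
  · simp
  · intro a b _ _ ha hb; rw [map_add, map_add, ha, hb, add_zero]
  · intro r a _ ha; rw [map_smul, map_smul, ha, smul_zero]

/-- a cone is acyclic in positive degrees -/
theorem cone_acyclic {K : SS} (A : Cone K) {n : ℕ} (hn : 0 < n) {x : H R K} (hx : x ∈ H.gr R K n) :
    x = 0 := by
  obtain ⟨z, hz, hz', rfl⟩ := exists_rep hx
  rw [Hd.mk_eq_zero]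
  exact ⟨A.c R z, by rw [A.bd_c, hz, map_zero, aug_gr R hn hz', zero_smul, sub_zero, sub_zero]⟩

/-! ## the ordered cover -/

/-- thread number `j` -/
def thr {U : Type} {w n : ℕ} (x : Fin (n + 1) → (Fin w ↪ U)) (j : Fin w) : Fin (n + 1) → U :=
  fun i => x i j

theorem thr_inj {U : Type} {w n : ℕ} (x : Fin (n + 1) → (Fin w ↪ U)) :
    Function.Injective (thr x) := fun _ _ h => (x 0).injective (congrFun h 0)

open Classical in
/-- the set of threads -/
noncomputable def thrs {U : Type} {w n : ℕ} (x : Fin (n + 1) → (Fin w ↪ U)) :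
    Finset (Fin (n + 1) → U) := Finset.univ.image (thr x)

theorem mem_thrs {U : Type} {w n : ℕ} {x : Fin (n + 1) → (Fin w ↪ U)} {a : Fin (n + 1) → U} :
    a ∈ thrs x ↔ ∃ j, thr x j = a := by simp [thrs]

theorem thrs_ci {U : Type} {w n : ℕ} (x : Fin (n + 1) → (Fin w ↪ U)) : CI (thrs x) := by
  intro i a ha b hb h
  obtain ⟨j, rfl⟩ := mem_thrs.1 ha
  obtain ⟨j', rfl⟩ := mem_thrs.1 hb
  rw [(x i).injective h]

theorem thrs_card {U : Type} {w n : ℕ} (x : Fin (n + 1) → (Fin w ↪ U)) : (thrs x).card = w := by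
  classical
  unfold thrs
  rw [Finset.card_image_of_injective _ (thr_inj x)]
  simp

theorem re_thrs {U : Type} {w m n : ℕ} (f : Fin (m + 1) → Fin (n + 1)) (x : Fin (n + 1) → (Fin w ↪ U)) :
    thrs (x ∘ f) = re f (thrs x) := by
  ext a
  rw [mem_thrs, mem_re]
  constructor
  · rintro ⟨j, rfl⟩; exact ⟨thr x j, mem_thrs.2 ⟨j, rfl⟩, rfl⟩
  · rintro ⟨b, hb, rfl⟩
    obtain ⟨j, rfl⟩ := mem_thrs.1 hb
    exact ⟨j, rfl⟩

/-- the ordered cover `E(Inj(Fin w, U)) → Fs U w` -/
noncomputable def ordp (U : Type) (w : ℕ) : SS.Hom (EG (Fin w ↪ U)) (Fs U w) :=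
  ⟨fun _ x => ⟨thrs x, thrs_ci x, thrs_card x⟩, fun f x => Subtype.ext (re_thrs f x)⟩

theorem ordp_eq_iff {U : Type} {w n : ℕ} {x : (EG (Fin w ↪ U)).S n} {A : (Fs U w).S n} :
    (ordp U w).app n x = A ↔ ∀ j, thr x j ∈ A.1 := by
  constructor
  · rintro rfl j; exact mem_thrs.2 ⟨j, rfl⟩
  · intro h
    refine Subtype.ext (Finset.eq_of_subset_of_card_le ?_ ?_)
    · intro a ha
      obtain ⟨j, rfl⟩ := mem_thrs.1 ha
      exact h j
    · rw [A.2.2]; exact (thrs_card x).ge

theorem ordp_cov (U : Type) (w : ℕ) : Cov (ordp U w) where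
  bij := by
    intro m n f A
    refine ⟨?_, ?_, ?_⟩
    · rintro y rfl; exact (ordp U w).nat f y
    · intro y hy y' hy' h
      have hy := ordp_eq_iff.1 hy
      have hy' := ordp_eq_iff.1 hy'
      funext i
      ext j
      have h0 : thr y j (f 0) = thr y' j (f 0) := by
        have := congrFun h 0
        exact congrArg (fun e : Fin w ↪ U => e j) this
      exact congrFun (A.2.1 (f 0) (hy j) (hy' j) h0) i
    · intro z hz
      have hz := ordp_eq_iff.1 hz
      have h1 : ∀ j, ∃ a ∈ A.1, a ∘ f = thr z j := fun j => mem_re.1 (hz j)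
      choose a ha hf using h1
      have hinj : ∀ i, Function.Injective (fun j => a j i) := by
        intro i j j' h
        have : a j = a j' := A.2.1 i (ha j) (ha j') h
        apply thr_inj z
        rw [← hf, ← hf, this]
      refine ⟨fun i => ⟨fun j => a j i, hinj i⟩, ordp_eq_iff.2 fun j => ha j, ?_⟩
      funext i
      ext j
      exact congrFun (hf j) i
  fin := by
    intro n A
    refine Set.Finite.of_injOn (f := fun (y : (EG (Fin w ↪ U)).S n) (j : Fin w) => thr y j)
      (t := Set.pi Set.univ (fun _ : Fin w => (A.1 : Set (Fin (n + 1) → U)))) ?_ ?_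
      (Set.Finite.pi fun _ => A.1.finite_toSet)
    · intro y hy j _
      exact ordp_eq_iff.1 hy j
    · intro y _ y' _ h
      funext i
      ext j
      exact congrFun (congrFun h j) i

theorem ordp_card (U : Type) (w : ℕ) {n : ℕ} (A : (Fs U w).S n) :
    ((ordp_cov U w).fib A).card = w.factorial := by
  classical
  have e : ((ordp_cov U w).fib A).card = Fintype.card (Fin w ↪ {a // a ∈ A.1}) := by
    rw [← Finset.card_univ]
    refine Finset.card_bij'
      (fun y hy => ⟨fun j => ⟨thr y j, ordp_eq_iff.1 ((ordp_cov U w).mem_fib.1 hy) j⟩,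
        fun j j' h => thr_inj y (congrArg Subtype.val h)⟩)
      (fun g _ => fun i => ⟨fun j => (g j).1 i, fun j j' h =>
        g.injective (Subtype.ext (A.2.1 i (g j).2 (g j').2 h))⟩) ?_ ?_ ?_ ?_
    · intro y hy; exact Finset.mem_univ _
    · intro g _
      exact (ordp_cov U w).mem_fib.2 (ordp_eq_iff.2 fun j => (g j).2)
    · intro y hy
      funext i
      ext j
      rfl
    · intro g _
      ext j
      rfl
  rw [e, Fintype.card_embedding_eq, Fintype.card_fin, Fintype.card_coe, A.2.2, Nat.descFactorial_self]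

/-- `w!` kills `H_n(Fs U w; R)`, `n > 0` -/
theorem factorial_smul {U : Type} (w : ℕ) {n : ℕ} (hn : 0 < n) {x : H R (Fs U w)}
    (hx : x ∈ H.gr R (Fs U w) n) : ((w.factorial : ℕ) : R) • x = 0 := by
  rw [← Cov.map_htr (ordp_cov U w) (fun n A => ordp_card U w A) x]
  have h0 : (ordp_cov U w).htr R x = 0 := by
    by_cases hU : Nonempty (Fin w ↪ U)
    · exact cone_acyclic R (GL2735.egCone hU.some) hn ((ordp_cov U w).htr_mem_gr hx)
    · have hz : ∀ y : H R (EG (Fin w ↪ U)), y = 0 := by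
        intro y
        obtain ⟨z, hz, rfl⟩ := Hd.mk_surj _ y
        rw [Hd.mk_eq_zero]
        refine ⟨0, ?_⟩
        rw [map_zero]
        have : IsEmpty (EG (Fin w ↪ U)).T := ⟨fun t => hU ⟨(t.2 : Fin (t.1 + 1) → _) 0⟩⟩
        obtain ⟨c, rfl⟩ := Submodule.Quotient.mk_surjective _ z
        rw [Subsingleton.elim c 0]; rfl
      exact hz _
  rw [h0, map_zero]

/-- the set `Fs U 0` is a point: no positive homology -/
theorem Fs_zero {U : Type} {n : ℕ} (hn : 0 < n) {x : H R (Fs U 0)} (hx : x ∈ H.gr R (Fs U 0) n) :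
    x = 0 := by
  have := factorial_smul R (U := U) 0 hn hx
  simpa using this

/-- `Fs U 1` has no positive homology -/
theorem Fs_one {U : Type} {n : ℕ} (hn : 0 < n) {x : H R (Fs U 1)} (hx : x ∈ H.gr R (Fs U 1) n) :
    x = 0 := by
  have := factorial_smul R (U := U) 1 hn hx
  simpa using this

end Crest.Agent.R204.Tors947
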