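import Crest.Agent.R204.ThetaSS_265

/-!
# Row 204: abstract `Θ`-algebras (helper265)

`K : SS` with `Th : sk_M E(Z/2) ×_{Z/2} K² → K`, a product and a unit vertex.  All laws are
simplicial homotopies (relation `SH`, generated by `Htpy`).  Instances: `Sing (Ω^J Z)`, `Tot N`.
-/

set_option autoImplicit false

noncomputable section

namespace Crest.Agent.R204.ThAlg265

open SS SingAct265 ThetaSS265 DK742

/-! ## the homotopy relation -/

/-- equivalence relation generated by simplicial homotopy -/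
def SH {K L : SS} (f g : Hom K L) : Prop := Relation.EqvGen (fun f g => Nonempty (Htpy f g)) f g

namespace SH

theorem refl {K L : SS} (f : Hom K L) : SH f f := Relation.EqvGen.refl f
theorem of_eq {K L : SS} {f g : Hom K L} (h : f = g) : SH f g := h ▸ refl f
theorem of {K L : SS} {f g : Hom K L} (h : Htpy f g) : SH f g := Relation.EqvGen.rel _ _ ⟨h⟩
theorem of' {K L : SS} {f g : Hom K L} (h : Nonempty (Htpy f g)) : SH f g := Relation.EqvGen.rel _ _ h
theorem symm {K L : SS} {f g : Hom K L} (h : SH f g) : SH g f := Relation.EqvGen.symm _ _ h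
theorem trans {K L : SS} {f g k : Hom K L} (h : SH f g) (h' : SH g k) : SH f k :=
  Relation.EqvGen.trans _ _ _ h h'

/-- from the definition used in `SpecA` / `CovT_761` -/
theorem of_ends {K L : SS} {f g : Hom K L} (h : Hom (K.prod (std 1)) L)
    (h0 : Hom.comp h (SpecA.endMap K 0) = f) (h1 : Hom.comp h (SpecA.endMap K 1) = g) : SH f g := by
  refine of ⟨h, fun n x => ?_, fun n x => ?_⟩
  · rw [← h0]; rfl
  · rw [← h1]; rfl

theorem post {K L M : SS} {f g : Hom K L} (h : SH f g) (k : Hom L M) : SH (k.comp f) (k.comp g) := by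
  induction h with
  | rel _ _ h => exact of' (h.map fun H => H.post k)
  | refl _ => exact refl _
  | symm _ _ _ ih => exact ih.symm
  | trans _ _ _ _ _ ih ih' => exact ih.trans ih'

theorem pre {J K L : SS} {f g : Hom K L} (h : SH f g) (k : Hom J K) : SH (f.comp k) (g.comp k) := by
  induction h with
  | rel _ _ h => exact of' (h.map fun H => H.pre k)
  | refl _ => exact refl _
  | symm _ _ _ ih => exact ih.symm
  | trans _ _ _ _ _ ih ih' => exact ih.trans ih'

theorem prodR {K L : SS} {f g : Hom K L} (h : SH f g) (J : SS) :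
    SH (SS.prodMap f (Hom.id J)) (SS.prodMap g (Hom.id J)) := by
  induction h with
  | rel _ _ h => exact of' (h.map fun H => H.prodR J)
  | refl _ => exact refl _
  | symm _ _ _ ih => exact ih.symm
  | trans _ _ _ _ _ ih ih' => exact ih.trans ih'

theorem prodL {K L : SS} {f g : Hom K L} (h : SH f g) (J : SS) :
    SH (SS.prodMap (Hom.id J) f) (SS.prodMap (Hom.id J) g) := by
  induction h with
  | rel _ _ h => exact of' (h.map fun H => H.prodL J)
  | refl _ => exact refl _
  | symm _ _ _ ih => exact ih.symm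
  | trans _ _ _ _ _ ih ih' => exact ih.trans ih'

theorem prodMap {K L K' L' : SS} {f g : Hom K L} {f' g' : Hom K' L'} (h : SH f g) (h' : SH f' g') :
    SH (SS.prodMap f f') (SS.prodMap g g') := by
  have h1 := (h.prodR K').post (SS.prodMap (Hom.id L) f')
  have h2 := (h'.prodL K).post (SS.prodMap g (Hom.id L'))
  exact h1.trans h2

/-- homotopic maps agree in homology -/
theorem map_eq (hA : SpecA.HomotopyInv) (R : Type) [CommRing R] {K L : SS} {f g : Hom K L}
    (h : SH f g) : H.map R f = H.map R g := by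
  induction h with
  | rel _ _ h => obtain ⟨h⟩ := h; exact Htpy_homology hA R h
  | refl _ => rfl
  | symm _ _ _ ih => exact ih.symm
  | trans _ _ _ _ _ ih ih' => exact ih.trans ih'

end SH

/-! ## addition on `B(Z/2)` -/

theorem isSk_prod {K L : SS} {m m' n : ℕ} {x : K.S n} {y : L.S n} (hx : IsSk m K x)
    (hy : IsSk m' L y) : IsSk (m + m') (K.prod L) (n := n) (x, y) := by
  obtain ⟨p, hp, f, u, rfl⟩ := hx
  obtain ⟨q, hq, g, v, rfl⟩ := hy
  -- the separating monotone map
  let r : Op n (p + q) := ⟨fun i => ⟨(f i : ℕ) + (g i : ℕ), by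
    have := (f i).2; have := (g i).2; omega⟩, fun i j hij => by
      have h1 := f.monotone hij
      have h2 := g.monotone hij
      simp only [Fin.le_def] at h1 h2 ⊢
      omega⟩
  have hr : ∀ i, ((r i : Fin (p + q + 1)) : ℕ) = (f i : ℕ) + (g i : ℕ) := fun _ => rfl
  -- the extension of `f` along `r`
  have ext : ∀ {s : ℕ} (F : Op n s), (∀ i j, (r i : ℕ) ≤ r j → (F i : ℕ) ≤ F j) →
      ∃ F' : Op (p + q) s, F'.comp r = F := by
    intro s F hF
    let G : ℕ → Fin (n + 1) → Fin (s + 1) := fun a i => if (r i : ℕ) ≤ a then F i else 0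
    let S : ℕ → Fin (s + 1) := fun a => Finset.univ.sup (G a)
    have hS : ∀ a b, a ≤ b → S a ≤ S b := by
      intro a b hab
      refine Finset.sup_mono_fun (f := G a) (g := G b) fun i _ => ?_
      show (if (r i : ℕ) ≤ a then F i else 0) ≤ (if (r i : ℕ) ≤ b then F i else 0)
      by_cases h1 : (r i : ℕ) ≤ a
      · rw [if_pos h1, if_pos (h1.trans hab)]
      · rw [if_neg h1]; exact Fin.zero_le _
    refine ⟨⟨fun a => S a, fun a b hab => hS _ _ hab⟩, ?_⟩
    refine OrderHom.ext _ _ (funext fun j => ?_)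
    show S (r j : ℕ) = F j
    apply le_antisymm
    · refine Finset.sup_le fun i _ => ?_
      show (if (r i : ℕ) ≤ (r j : ℕ) then F i else 0) ≤ F j
      split_ifs with h1
      · exact hF i j h1
      · exact Fin.zero_le _
    · have := Finset.le_sup (f := G (r j : ℕ)) (Finset.mem_univ j)
      simp only [G, le_refl, if_true] at this
      exact this
  have hmono : ∀ i j, (r i : ℕ) ≤ r j → (f i : ℕ) ≤ f j ∧ (g i : ℕ) ≤ g j := by
    intro i j hij
    rcases le_total i j with h | h
    · exact ⟨f.monotone h, g.monotone h⟩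
    · have h1 : (f j : ℕ) ≤ f i := f.monotone h
      have h2 : (g j : ℕ) ≤ g i := g.monotone h
      rw [hr, hr] at hij
      omega
  obtain ⟨f', hf'⟩ := ext f fun i j h => (hmono i j h).1
  obtain ⟨g', hg'⟩ := ext g fun i j h => (hmono i j h).2
  refine ⟨p + q, by omega, r, (K.act f' u, L.act g' v), ?_⟩
  show (K.act f u, L.act g v) = (K.act r (K.act f' u), L.act r (L.act g' v))
  rw [← K.act_comp, ← L.act_comp, hf', hg']

/-- addition `sk_m E × sk_m' E → sk_{m+m'} E` -/
def addE (m m' : ℕ) : Hom ((EM m).prod (EM m')) (EM (m + m')) where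
  app n p := ⟨fun i => p.1.1 i + p.2.1 i, by
    have h := isSk_prod p.1.2 p.2.2
    exact h.map (L := EZ2) (⟨fun n (x : ((EG (ZMod 2)).prod (EG (ZMod 2))).S n) (i : Fin (n + 1)) =>
      (x.1 i + x.2 i : ZMod 2), fun _ _ => rfl⟩ : Hom ((EG (ZMod 2)).prod (EG (ZMod 2))) EZ2)⟩
  nat _ _ := rfl

theorem addE_inv_left (m m' n : ℕ) (g : (EM m).S n) (h : (EM m').S n) :
    (addE m m').app n ((invEM m).g.app n g, h) = (invEM (m + m')).g.app n ((addE m m').app n (g, h)) := by
  apply Subtype.ext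
  funext i
  show g.1 i + 1 + h.1 i = g.1 i + h.1 i + 1
  ring

theorem addE_inv_right (m m' n : ℕ) (g : (EM m).S n) (h : (EM m').S n) :
    (addE m m').app n (g, (invEM m').g.app n h) = (invEM (m + m')).g.app n ((addE m m').app n (g, h)) := by
  apply Subtype.ext
  funext i
  show g.1 i + (h.1 i + 1) = g.1 i + h.1 i + 1
  ring

/-- addition `sk_m B × sk_m' B → sk_{m+m'} B` -/
def addB (m m' : ℕ) : Hom ((BM m).prod (BM m')) (BM (m + m')) where
  app n p := Quotient.liftOn₂ (s₁ := (invEM m).rel n) (s₂ := (invEM m').rel n) p.1 p.2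
    (fun g h => (proj (invEM (m + m'))).app n ((addE m m').app n (g, h))) (by
      rintro g h g' h' (rfl | rfl) (rfl | rfl)
      · rfl
      · rw [addE_inv_right, proj_g]
      · rw [addE_inv_left, proj_g]
      · rw [addE_inv_left, proj_g, addE_inv_right, proj_g])
  nat f p := by
    obtain ⟨b, c⟩ := p
    obtain ⟨g, rfl⟩ := proj_surj (invEM m) _ b
    obtain ⟨h, rfl⟩ := proj_surj (invEM m') _ c
    rfl

@[simp] theorem addB_proj (m m' n : ℕ) (g : (EM m).S n) (h : (EM m').S n) :
    (addB m m').app n ((proj (invEM m)).app n g, (proj (invEM m')).app n h) =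
      (proj (invEM (m + m'))).app n ((addE m m').app n (g, h)) := rfl

/-- inclusion of skeleta of `B` -/
def incB {m M : ℕ} (h : m ≤ M) : Hom (BM m) (BM M) := orbMap _ _ (skMono h EZ2) (fun _ _ => rfl)

@[simp] theorem incB_proj {m M : ℕ} (h : m ≤ M) (n : ℕ) (g : (EM m).S n) :
    (incB h).app n ((proj (invEM m)).app n g) = (proj (invEM M)).app n ((skMono h EZ2).app n g) := rfl

/-- inclusion of skeleta of `D` -/
def incD {m M : ℕ} (h : m ≤ M) (K : SS) : Hom (DM m K) (DM M K) :=
  orbMap _ _ (prodMap (skMono h EZ2) (Hom.id _)) (fun _ _ => rfl)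

@[simp] theorem incD_proj {m M : ℕ} (h : m ≤ M) (K : SS) (n : ℕ)
    (p : ((EM m).prod (K.prod K)).S n) :
    (incD h K).app n ((proj ((invEM m).prod (Invo.swap K))).app n p) =
      (proj ((invEM M).prod (Invo.swap K))).app n ((skMono h EZ2).app n p.1, p.2) := rfl

/-! ## `Θ`-algebras -/

/-- the vertex `e_0` (value `0`) as a constant simplex of `sk_M E` -/
def e0 (M n : ℕ) : (EM M).S n := ⟨fun _ => 0, by
  refine ⟨0, Nat.zero_le _, ⟨fun _ => 0, fun _ _ _ => le_rfl⟩, fun _ => 0, rfl⟩⟩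

/-- `K × K → D_M K`, `(x, y) ↦ [e_0, x, y]` -/
def vtx (M : ℕ) (K : SS) : Hom (K.prod K) (DM M K) where
  app n p := (proj ((invEM M).prod (Invo.swap K))).app n (e0 M n, p)
  nat _ _ := rfl

/-- data of a `Θ`-algebra -/
structure ThAlg (M : ℕ) (K : SS) where
  Th : Hom (DM M K) K
  mu : Hom (K.prod K) K
  one : K.S 0

namespace ThAlg

variable {M : ℕ} {K : SS} (A : ThAlg M K)

/-- `Ψ : B_M × K → K` -/
def Psi : Hom ((BM M).prod K) K := A.Th.comp (diagD M K)

/-- `Ψ` restricted to a smaller skeleton -/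
def Psim {m : ℕ} (h : m ≤ M) : Hom ((BM m).prod K) K := A.Psi.comp (prodMap (incB h) (Hom.id K))

/-- the unit simplex in dimension `n` -/
def oneS (n : ℕ) : K.S n := K.act (⟨fun _ => 0, fun _ _ _ => le_rfl⟩ : Op n 0) A.one

/-- left unit up to homotopy -/
def UnitL : Prop := SH (A.mu.comp (pair (constHom K K A.one) (Hom.id K))) (Hom.id K)
/-- right unit up to homotopy -/
def UnitR : Prop := SH (A.mu.comp (pair (Hom.id K) (constHom K K A.one))) (Hom.id K)
/-- associativity up to homotopy, `((x, y), z)` -/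
def Assoc : Prop := SH (A.mu.comp (prodMap A.mu (Hom.id K)))
  (A.mu.comp (pair ((fst K K).comp (fst _ _)) (A.mu.comp (pair ((snd K K).comp (fst _ _)) (snd _ _)))))
/-- commutativity up to homotopy -/
def Comm : Prop := SH A.mu (A.mu.comp (swap K K))
/-- `Θ` at the vertex `e_0` is the product -/
def Vertex : Prop := SH (A.Th.comp (vtx M K)) A.mu
/-- `Θ(e; 1, 1) = 1` (strict) -/
def OneLaw : Prop := ∀ (n : ℕ) (g : (EM M).S n),
  A.Th.app n ((proj ((invEM M).prod (Invo.swap K))).app n (g, (A.oneS n, A.oneS n))) = A.oneS n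

/-- `(g, h, x) ↦ Ψ(g, Ψ(h, x))` on `B_m × (B_m' × K)` -/
def Psi2 {m m' : ℕ} (h : m ≤ M) (h' : m' ≤ M) : Hom ((BM m).prod ((BM m').prod K)) K :=
  (A.Psim h).comp (prodMap (Hom.id _) (A.Psim h'))

/-- `(g, (h, x)) ↦ (h, (g, x))` -/
def swap12 (B B' K : SS) : Hom (B.prod (B'.prod K)) (B'.prod (B.prod K)) :=
  pair ((fst B' K).comp (snd _ _)) (pair (fst _ _) ((snd B' K).comp (snd _ _)))

/-- `(g, (h, x)) ↦ (g, (g + h, x))` -/
def shear (m m' : ℕ) (K : SS) : Hom ((BM m).prod ((BM m').prod K)) ((BM m).prod ((BM (m + m')).prod K)) :=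
  pair (fst _ _) (pair ((addB m m').comp (pair (fst _ _) ((fst (BM m') K).comp (snd _ _))))
    ((snd (BM m') K).comp (snd _ _)))

/-- `GL_2(F_2)`-invariance, generator 1 (swap) for the skeleta `m, m'` -/
def GLswap (m m' : ℕ) : Prop := ∀ (h : m ≤ M) (h' : m' ≤ M),
  SH ((A.Psi2 h' h).comp (swap12 (BM m) (BM m') K)) (A.Psi2 h h')

/-- `GL_2(F_2)`-invariance, generator 2 (shear) for the skeleta `m, m'` -/
def GLshear (m m' : ℕ) : Prop := ∀ (h : m ≤ M) (h' : m' ≤ M) (h'' : m + m' ≤ M),
  SH ((A.Psi2 h h'').comp (shear m m' K)) (A.Psi2 h h')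

/-- `D_M (K × L) → D_M K × D_M L` -/
def Dprod (M : ℕ) (K L : SS) : Hom (DM M (K.prod L)) ((DM M K).prod (DM M L)) :=
  pair (DMmap M (fst K L)) (DMmap M (snd K L))

/-- Cartan formula `Θ(e; x y, x' y') ≃ Θ(e; x, x') Θ(e; y, y')` -/
def Cartan : Prop := SH (A.Th.comp (DMmap M A.mu)) (A.mu.comp ((prodMap A.Th A.Th).comp (Dprod M K K)))

/-- all the laws used by the homology level (`m` = the skeleton for which `GL_2` is available) -/
structure Laws (m : ℕ) : Prop where
  unitL : A.UnitL
  unitR : A.UnitR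
  assoc : A.Assoc
  comm : A.Comm
  vertex : A.Vertex
  oneLaw : A.OneLaw
  glswap : A.GLswap m m
  glshear : A.GLshear m m

end ThAlg

/-- map of `Θ`-algebras up to homotopy (transfer of laws, naturality of `Q_i`) -/
structure ThMap {M : ℕ} {K L : SS} (A : ThAlg M K) (B : ThAlg M L) (f : Hom K L) : Prop where
  th : SH (B.Th.comp (DMmap M f)) (f.comp A.Th)
  mu : SH (B.mu.comp (prodMap f f)) (f.comp A.mu)
  one : f.app 0 A.one = B.one

/-! ## the instance `Sing (Ω^J Z)`: data and the strict unit law -/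

section inst

open Cubes735

variable {J Z : Type} [Finite J] [TopologicalSpace Z] {z₀ : Z} {M : ℕ}

/-- the `Θ`-algebra `Sing (Ω^J Z)` with product `mu2` -/
def omAlg (k : Fin (M + 1) ↪ J)
    (m : Hom ((Sing (Om J Z z₀)).prod (Sing (Om J Z z₀))) (Sing (Om J Z z₀))) :
    ThAlg M (Sing (Om J Z z₀)) :=
  ⟨Theta k, m, mkS (fun _ => GenLoop.const) continuous_const⟩

theorem omAlg_oneLaw (k : Fin (M + 1) ↪ J)
    (m : Hom ((Sing (Om J Z z₀)).prod (Sing (Om J Z z₀))) (Sing (Om J Z z₀))) :
    (omAlg k m).OneLaw := by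
  intro n g
  exact thetaSS_pt0 k n g

end inst

end Crest.Agent.R204.ThAlg265
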