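import Crest.Agent.R204.Prd_328
import Crest.Agent.R204.TotAlg_328
import Crest.Agent.R204.Ops_265
import Crest.Agent.R204.Span6_348
import Crest.Agent.R204.Tors_947

/-!
# Row 204, block G (helper328): weights on the homology of `Tot U`

* `wC U v : Corr (Tot U) (Fs U v)` the part of weight `v`; `prW`; `H.map (inc U v)` is injective,
  the homology of `Tot U` is the sum of the homologies of the `Fs U v`.
* `mulH_inc`, `Q_inc` : the product and the operations of `totAlg` on classes of given weight.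
* `W v t` : the submodule of bidegree `(v, t)`, in the form used by `Squ_103.Src`.
-/

set_option autoImplicit false

noncomputable section

namespace Crest.Agent.R204.TotW328

open Crest.Agent.R204 SS Fs348 Thr328 Corr328 TotAlg328 Prd328

/-! ## weights -/

section weight

variable (U : Type) (v : ℕ)

/-- the part of weight `v` of a set of threads -/
def wF {n : ℕ} (A : (Tot U).S n) : Finset ((Fs U v).S n) :=
  if h : A.1.card = v then {⟨A.1, A.2, h⟩} else ∅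

variable {U v}

theorem wF_of_eq {n : ℕ} (A : (Tot U).S n) (h : A.1.card = v) : wF U v A = {⟨A.1, A.2, h⟩} :=
  dif_pos h

theorem wF_of_ne {n : ℕ} (A : (Tot U).S n) (h : A.1.card ≠ v) : wF U v A = ∅ := dif_neg h

variable (U v)

/-- the part of weight `v` -/
def wC : Corr (Tot U) (Fs U v) where
  F A := wF U v A
  bij {m n} f A := by
    have hc : ((Tot U).act f A).1.card = A.1.card := A.2.card_re f
    by_cases h : A.1.card = v
    · rw [wF_of_eq A h, wF_of_eq _ (hc.trans h), Finset.coe_singleton, Finset.coe_singleton,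
        Set.bijOn_singleton]
      rfl
    · rw [wF_of_ne A h, wF_of_ne _ (fun h' => h (hc.symm.trans h'))]
      simp

variable (R : Type) [CommRing R]

theorem nm_wC_inc (z : N R (Fs U v)) : (wC U v).nm R (N.map R (inc U v) z) = z := by
  have : (wC U v).nm R ∘ₗ N.map R (inc U v) = LinearMap.id := by
    refine EZ271.hom_ext fun n A => ?_
    rw [LinearMap.comp_apply, N.map_sx, Corr.nm_sx, LinearMap.id_apply]
    change ∑ x ∈ wF U v ((inc U v).app n A), N.sx R x = _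
    rw [wF_of_eq ((inc U v).app n A) A.2.2, Finset.sum_singleton]
    rfl
  exact LinearMap.congr_fun this z

theorem nm_wC_inc_ne {w : ℕ} (h : v ≠ w) (z : N R (Fs U v)) :
    (wC U w).nm R (N.map R (inc U v) z) = 0 := by
  have : (wC U w).nm R ∘ₗ N.map R (inc U v) = 0 := by
    refine EZ271.hom_ext fun n A => ?_
    rw [LinearMap.comp_apply, N.map_sx, Corr.nm_sx, LinearMap.zero_apply]
    change ∑ x ∈ wF U w ((inc U v).app n A), N.sx R x = _
    rw [wF_of_ne ((inc U v).app n A) (fun h' => h (A.2.2.symm.trans h')), Finset.sum_empty]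
  exact LinearMap.congr_fun this z

theorem nm_sum (z : N R (Tot U)) : ∃ m, ∀ k, m ≤ k →
    z = ∑ v ∈ Finset.range k, N.map R (inc U v) ((wC U v).nm R z) := by
  refine EZ271.N_induction (p := fun z => ∃ m, ∀ k, m ≤ k →
    z = ∑ v ∈ Finset.range k, N.map R (inc U v) ((wC U v).nm R z)) z ?_ ?_ ?_ ?_
  · exact ⟨0, fun k _ => by simp⟩
  · rintro a b ⟨m, hm⟩ ⟨m', hm'⟩
    refine ⟨max m m', fun k hk => ?_⟩
    conv_lhs => rw [hm k (le_trans (le_max_left _ _) hk), hm' k (le_trans (le_max_right _ _) hk)]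
    rw [← Finset.sum_add_distrib]
    exact Finset.sum_congr rfl fun v _ => by rw [map_add, map_add]
  · rintro r a ⟨m, hm⟩
    refine ⟨m, fun k hk => ?_⟩
    conv_lhs => rw [hm k hk]
    rw [Finset.smul_sum]
    exact Finset.sum_congr rfl fun v _ => by rw [map_smul, map_smul]
  · intro n A
    refine ⟨A.1.card + 1, fun k hk => ?_⟩
    rw [Finset.sum_eq_single A.1.card]
    · rw [Corr.nm_sx]
      change _ = N.map R (inc U A.1.card) (∑ x ∈ wF U A.1.card A, N.sx R x)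
      rw [wF_of_eq A rfl, Finset.sum_singleton, N.map_sx]
      rfl
    · intro v _ hv
      rw [Corr.nm_sx]
      change N.map R (inc U v) (∑ x ∈ wF U v A, N.sx R x) = 0
      rw [wF_of_ne A (Ne.symm hv), Finset.sum_empty, map_zero]
    · intro h
      exact absurd (Finset.mem_range.2 (by omega)) h

/-- projection to weight `v` in homology -/
def prW : H R (Tot U) →ₗ[R] H R (Fs U v) := (wC U v).h R

theorem prW_inc (x : H R (Fs U v)) : prW U v R (H.map R (inc U v) x) = x := by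
  obtain ⟨z, hz, rfl⟩ := Hd.mk_surj _ x
  rw [H_map_mk, prW, Corr.h_mk, Hd.mk_eq_mk]
  exact ⟨0, by rw [map_zero, nm_wC_inc, sub_self]⟩

theorem prW_inc_ne {w : ℕ} (h : v ≠ w) (x : H R (Fs U v)) :
    prW U w R (H.map R (inc U v) x) = 0 := by
  obtain ⟨z, hz, rfl⟩ := Hd.mk_surj _ x
  rw [H_map_mk, prW, Corr.h_mk, Hd.mk_eq_zero]
  exact ⟨0, by rw [map_zero, nm_wC_inc_ne U v R h]⟩

theorem inc_injective : Function.Injective (H.map R (inc U v)) := fun x y h => by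
  rw [← prW_inc U v R x, h, prW_inc]

theorem prW_mem_gr {t : ℕ} {x : H R (Tot U)} (hx : x ∈ H.gr R (Tot U) t) :
    prW U v R x ∈ H.gr R (Fs U v) t := (wC U v).h_mem_gr R hx

/-- every class is the sum of its parts of given weight -/
theorem sum_prW (x : H R (Tot U)) : ∃ m, ∀ k, m ≤ k →
    x = ∑ v ∈ Finset.range k, H.map R (inc U v) (prW U v R x) := by
  obtain ⟨z, hz, rfl⟩ := Hd.mk_surj _ x
  obtain ⟨m, hm⟩ := nm_sum U R z
  refine ⟨m, fun k hk => ?_⟩
  have hc : ∀ v, N.bd R (Tot U) (N.map R (inc U v) ((wC U v).nm R z)) = 0 := fun v => by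
    rw [← EZ271.map_bd', ← Corr.nm_bd', hz, map_zero, map_zero]
  have key := Gr334.mk_sum (Finset.range k) _ hc (by rw [← hm k hk, hz])
  have e : ∀ v, H.map R (inc U v) (prW U v R (Hd.mk _ z hz)) =
      Hd.mk (N.bd R (Tot U)) (N.map R (inc U v) ((wC U v).nm R z)) (hc v) := fun v => rfl
  simp only [e]
  refine Eq.trans ?_ key
  rw [Hd.mk_eq_mk]
  exact ⟨0, by rw [map_zero, ← hm k hk, sub_self]⟩

end weight

/-! ## products and operations -/

section ops

variable {U : Type} (e : U ⊕ U ↪ U) (M : ℕ)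

theorem mulH_inc {a b : ℕ} (x : H F2 (Fs U a)) (y : H F2 (Fs U b)) :
    Ops265.mulH (muT e) (H.map F2 (inc U a) x) (H.map F2 (inc U b) y) =
      H.map F2 (inc U (a + b)) (Span348.mV e a b x y) := by
  obtain ⟨x, hx, rfl⟩ := Hd.mk_surj _ x
  obtain ⟨y, hy, rfl⟩ := Hd.mk_surj _ y
  rw [H_map_mk, H_map_mk, Ops265.mulH_mk, Span348.mV_apply, Span348.xH_mk, H_map_mk, H_map_mk,
    Hd.mk_eq_mk]
  refine ⟨0, ?_⟩
  rw [map_zero, ← EZ271.map_cross, EZ271.map_map, EZ271.map_map]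
  exact (sub_self _).symm

/-- comparison of `348`'s product with `prd` -/
theorem mV_eq_prd {a b : ℕ} (x : H F2 (Fs U a)) (y : H F2 (Fs U b)) :
    Span348.mV e a b x y = prd F2 e rfl x y := by
  obtain ⟨x, hx, rfl⟩ := Hd.mk_surj _ x
  obtain ⟨y, hy, rfl⟩ := Hd.mk_surj _ y
  rfl

theorem mulH_inc_prd {a b : ℕ} (x : H F2 (Fs U a)) (y : H F2 (Fs U b)) :
    Ops265.mulH (muT e) (H.map F2 (inc U a) x) (H.map F2 (inc U b) y) =
      H.map F2 (inc U (a + b)) (prd F2 e rfl x y) := by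
  rw [mulH_inc, mV_eq_prd]

theorem Q_inc {v i : ℕ} (hi : i + 1 ≤ M)
    (h : ((i + 1 : ℕ) : ℕ∞) ≤ (DK742.AltSS.skel M).M) (y : H F2 (Fs U v)) :
    Ops265.Q (totAlg e M) i (H.map F2 (inc U v) y) =
      H.map F2 (inc U (v + v)) (Span348.qV e M v i h y) := by
  rw [Ops265.Q, ← C5265.pw_map (inc U v) (by omega : i ≤ M) y, Ops265.pw_eq742 h]
  rw [Prd328.map_comp F2 (ThetaSS265.DMmap M (inc U v)) (totAlg e M).Th]
  have e1 : (totAlg e M).Th.comp (ThetaSS265.DMmap M (inc U v)) =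
      (inc U (v + v)).comp (Span348.thV e M v) := by
    refine SS.Hom.ext (funext fun n => funext fun p => ?_)
    obtain ⟨⟨g, A, B⟩, rfl⟩ := DK742.proj_surj _ n p
    rfl
  rw [e1]
  exact (Prd328.map_comp F2 (Span348.thV e M v) (inc U (v + v))
    (DK742.pw (DK742.AltSS.skel M) i h y)).symm

end ops

/-! ## `Q_i 1 = 0` -/

section one

variable {M : ℕ} {K : SS}

/-- `Q_i 1 = 0` for `i ≥ 1` -/
theorem Q_oneH (A : ThAlg265.ThAlg M K) (h1 : A.OneLaw) {i : ℕ} (hi : i ≤ M) (hi' : 1 ≤ i) :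
    Ops265.Q A i (Ops265.oneH A.one) = 0 := by
  have hq := Ops265.Q_mk A hi (N.sx F2 A.one) (EZ271.bd_sx_zero F2 A.one)
  change Ops265.Q A i (Hd.mk _ (N.sx F2 A.one) _) = 0
  rw [hq, Hd.mk_eq_zero]
  refine ⟨0, ?_⟩
  rw [map_zero, HInv328.cross_vertex, N.map_sx, C5265.PhiC_apply, HInv328.cross_vertex,
    C5265.ee_of_le hi, N.map_sx, N.map_sx, N.map_sx]
  symm
  have key : A.Th.app i ((DK742.proj ((ThetaSS265.invEM M).prod (DK742.Invo.swap K))).app i
      ((SS.pair (SS.Hom.id (ThetaSS265.EM M)) (SS.constHom (ThetaSS265.EM M) (K.prod K)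
        ((SS.pair (SS.Hom.id K) (SS.constHom K K A.one)).app 0 A.one))).app i
          (C5265.eS M i (C5265.le_cast hi) 0))) = A.oneS i := by
    rw [← h1 i (C5265.eS M i (C5265.le_cast hi) 0)]
    congr 2
    refine Prod.ext rfl (Prod.ext rfl ?_)
    exact (K.act_comp _ _ _).symm
  rw [key]
  exact Gr334.sx_act_of_lt (by omega) _ _

end one

/-! ## the bidegree submodules -/

section W

variable {U : Type}

/-- bidegree `(v, t)` -/
def W (U : Type) (v t : ℕ) : Submodule F2 (H F2 (Tot U)) :=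
  (H.gr F2 (Fs U v) t).map (H.map F2 (inc U v))

theorem mem_W {v t : ℕ} {y : H F2 (Tot U)} :
    y ∈ W U v t ↔ ∃ x ∈ H.gr F2 (Fs U v) t, H.map F2 (inc U v) x = y := Iff.rfl

theorem W_cast {v v' t t' : ℕ} (hv : v = v') (ht : t = t') {y : H F2 (Tot U)} (hy : y ∈ W U v t) :
    y ∈ W U v' t' := by subst hv ht; exact hy

/-- the class of the empty set -/
theorem oneH_eq : Ops265.oneH (oneT U) = H.map F2 (inc U 0) (C5T557.vtx F2 (Prd328.e0 U)) := by
  rw [C5T557.map_vtx]; rfl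

theorem one_mem_W : Ops265.oneH (oneT U) ∈ W U 0 0 := by
  rw [oneH_eq]
  exact mem_W.2 ⟨_, Prd328.vt_mem_gr F2 (Prd328.e0 U), rfl⟩

/-- one thread as a vertex of `Fs U 1` -/
def thr1 (u : U) : (Fs U 1).S 0 :=
  ⟨{fun _ => u}, fun i a ha b hb _ => by
    rw [Finset.mem_coe, Finset.mem_singleton] at ha hb
    rw [ha, hb], Finset.card_singleton _⟩

/-- the class of one thread -/
def x1 (u : U) : H F2 (Tot U) := H.map F2 (inc U 1) (C5T557.vtx F2 (thr1 u))

theorem x1_eq (u : U) : x1 u = C5T557.vtx F2 ((inc U 1).app 0 (thr1 u)) := C5T557.map_vtx _ _ _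

theorem x1_mem_W (u : U) : x1 u ∈ W U 1 0 :=
  mem_W.2 ⟨_, Prd328.vt_mem_gr F2 (thr1 u), rfl⟩

variable (e : U ⊕ U ↪ U) (M : ℕ)

theorem mul_mem_W {a s b t : ℕ} {y z : H F2 (Tot U)} (hy : y ∈ W U a s) (hz : z ∈ W U b t) :
    Ops265.mulH (muT e) y z ∈ W U (a + b) (s + t) := by
  obtain ⟨y, hy', rfl⟩ := mem_W.1 hy
  obtain ⟨z, hz', rfl⟩ := mem_W.1 hz
  rw [mulH_inc_prd]
  exact mem_W.2 ⟨_, prd_mem_gr F2 e rfl hy' hz', rfl⟩

theorem le_skel {i M : ℕ} (h : i ≤ M) : (i : ℕ∞) ≤ (DK742.AltSS.skel M).M := C5265.le_cast h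

theorem Q_mem_W {i v t : ℕ} {y : H F2 (Tot U)} (hi : i + 1 ≤ M) (hy : y ∈ W U v t) :
    Ops265.Q (totAlg e M) i y ∈ W U (2 * v) (2 * t + i) := by
  obtain ⟨y, hy', rfl⟩ := mem_W.1 hy
  rw [Q_inc e M hi (le_skel hi)]
  refine W_cast (two_mul v).symm rfl (mem_W.2 ⟨_, ?_, rfl⟩)
  refine Gr334.H_map_mem_gr _ ?_
  rw [show 2 * t + i = i + 2 * t by ring]
  exact DK742.pw_gr (DK742.AltSS.skel M) i _ hy'

theorem Q_add' {i : ℕ} (hi : i + 1 ≤ M) (y z : H F2 (Tot U)) :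
    Ops265.Q (totAlg e M) i (y + z) = Ops265.Q (totAlg e M) i y + Ops265.Q (totAlg e M) i z :=
  Ops265.Q_add (totAlg e M) hi y z

theorem Q_sq (y : H F2 (Tot U)) : Ops265.Q (totAlg e M) 0 y = Ops265.mulH (muT e) y y :=
  Ops265.Q_zero (totAlg e M) (vertex e M) y

theorem Q_one {i : ℕ} (hi : i ≤ M) (hi' : 1 ≤ i) :
    Ops265.Q (totAlg e M) i (Ops265.oneH (oneT U)) = 0 :=
  Q_oneH (totAlg e M) (oneLaw e M) hi hi'

theorem W0 : W U 0 0 ≤ Submodule.span F2 {Ops265.oneH (oneT U)} := by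
  intro y hy
  obtain ⟨x, hx, rfl⟩ := mem_W.1 hy
  obtain ⟨r, rfl⟩ := Span348.span_zero (Prd328.e0 U) x
  rw [map_smul, ← oneH_eq]
  exact Submodule.smul_mem _ _ (Submodule.subset_span rfl)

theorem W0' (t : ℕ) (ht : 1 ≤ t) : W U 0 t = ⊥ := by
  rw [eq_bot_iff]
  intro y hy
  obtain ⟨x, hx, rfl⟩ := mem_W.1 hy
  rw [Submodule.mem_bot, Tors947.Fs_zero F2 ht hx, map_zero]

theorem W1 (u : U) : W U 1 0 ≤ Submodule.span F2 {x1 u} := by
  intro y hy
  obtain ⟨x, hx, rfl⟩ := mem_W.1 hy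
  obtain ⟨r, rfl⟩ := Span348.span_one (thr1 u) x
  rw [map_smul]
  exact Submodule.smul_mem _ _ (Submodule.subset_span rfl)

theorem W1' (t : ℕ) (ht : 1 ≤ t) : W U 1 t = ⊥ := by
  rw [eq_bot_iff]
  intro y hy
  obtain ⟨x, hx, rfl⟩ := mem_W.1 hy
  rw [Submodule.mem_bot, Tors947.Fs_one F2 ht hx, map_zero]

end W

/-! ## the spanning theorem, bigraded form -/

section span

variable {U : Type} (e : U ⊕ U ↪ U) (M : ℕ)

theorem qV_gr {v t i : ℕ} (h : ((i + 1 : ℕ) : ℕ∞) ≤ (DK742.AltSS.skel M).M) {x : H F2 (Fs U v)}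
    (hx : x ∈ H.gr F2 (Fs U v) t) : Span348.qV e M v i h x ∈ H.gr F2 (Fs U (v + v)) (i + 2 * t) :=
  Gr334.H_map_mem_gr _ (DK742.pw_gr (DK742.AltSS.skel M) i _ hx)

theorem mV_gr {a b s t : ℕ} {x : H F2 (Fs U a)} {y : H F2 (Fs U b)}
    (hx : x ∈ H.gr F2 (Fs U a) s) (hy : y ∈ H.gr F2 (Fs U b) t) :
    Span348.mV e a b x y ∈ H.gr F2 (Fs U (a + b)) (s + t) := by
  rw [mV_eq_prd]; exact prd_mem_gr F2 e rfl hx hy

/-- the submodule of `H (Fs U v)` cut out by a bigraded family in degrees `≤ D` -/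
def PS (D : ℕ) (S : ℕ → ℕ → Submodule F2 (H F2 (Tot U))) (v : ℕ) :
    Submodule F2 (H F2 (Fs U v)) :=
  ⨅ t : {t : ℕ // t ≤ D}, (S v t).comap (H.map F2 (inc U v) ∘ₗ Gr334.prH F2 (Fs U v) t)

theorem mem_PS {D : ℕ} {S : ℕ → ℕ → Submodule F2 (H F2 (Tot U))} {v : ℕ} {x : H F2 (Fs U v)} :
    x ∈ PS D S v ↔ ∀ t, t ≤ D → H.map F2 (inc U v) (Gr334.prH F2 (Fs U v) t x) ∈ S v t := by
  rw [PS, Submodule.mem_iInf]
  constructor
  · intro h t ht; exact h ⟨t, ht⟩
  · rintro h ⟨t, ht⟩; exact h t ht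

/-- **SPAN**, bigraded range form on `Tot U` -/
theorem span_W {D : ℕ} (hM : D + 1 ≤ M) (u : U) (S : ℕ → ℕ → Submodule F2 (H F2 (Tot U)))
    (h0 : W U 0 0 ≤ S 0 0) (h1 : W U 1 0 ≤ S 1 0)
    (hmul : ∀ (a s b t : ℕ) (y z : H F2 (Tot U)), s + t ≤ D → y ∈ S a s → z ∈ S b t →
      Ops265.mulH (muT e) y z ∈ S (a + b) (s + t))
    (hQ : ∀ (i v t : ℕ) (y : H F2 (Tot U)), 2 * t + i ≤ D → y ∈ S v t →
      Ops265.Q (totAlg e M) i y ∈ S (2 * v) (2 * t + i)) :
    ∀ v t, t ≤ D → W U v t ≤ S v t := by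
  have hvt : ∀ (v : ℕ) (x : (Fs U v).S 0), W U v 0 ≤ S v 0 → C5T557.vtx F2 x ∈ PS D S v := by
    intro v x hv
    have hx : C5T557.vtx F2 x ∈ H.gr F2 (Fs U v) 0 := Prd328.vt_mem_gr F2 x
    rw [mem_PS]
    intro t _
    rcases Nat.eq_zero_or_pos t with rfl | ht
    · rw [Gr334.prH_of_mem hx]
      exact hv (mem_W.2 ⟨_, hx, rfl⟩)
    · rw [Gr334.prH_of_mem_ne (by omega) hx, map_zero]
      exact Submodule.zero_mem _
  have key := Span348.span e M (PS D S) ⟨Prd328.e0 U, hvt 0 _ h0⟩ ⟨thr1 u, hvt 1 _ h1⟩ ?_ ?_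
  · intro v t ht y hy
    obtain ⟨x, hx, rfl⟩ := mem_W.1 hy
    have := mem_PS.1 (key v t (by omega) hx) t ht
    rwa [Gr334.prH_of_mem hx] at this
  · -- products
    intro a b x y hx hy
    rw [mem_PS]
    intro t ht
    obtain ⟨m, -, hm⟩ := Gr334.exists_sum_prH x
    obtain ⟨m', -, hm'⟩ := Gr334.exists_sum_prH y
    conv in Span348.mV e a b x y => rw [hm, hm']
    simp only [map_sum, LinearMap.sum_apply]
    refine Submodule.sum_mem _ fun p _ => Submodule.sum_mem _ fun q _ => ?_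
    by_cases hpq : q + p = t
    · subst hpq
      rw [Gr334.prH_of_mem (mV_gr e (Gr334.prH_mem q x) (Gr334.prH_mem p y)), ← mulH_inc]
      exact hmul a q b p _ _ ht (mem_PS.1 hx q (by omega)) (mem_PS.1 hy p (by omega))
    · rw [Gr334.prH_of_mem_ne hpq (mV_gr e (Gr334.prH_mem q x) (Gr334.prH_mem p y)), map_zero]
      exact Submodule.zero_mem _
  · intro a i h x hx
    have hi : i + 1 ≤ M := by
      have : ((i + 1 : ℕ) : ℕ∞) ≤ (M : ℕ∞) := h
      exact_mod_cast this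
    rw [mem_PS]
    intro t ht
    obtain ⟨m, -, hm⟩ := Gr334.exists_sum_prH x
    conv in Span348.qV e M a i h x => rw [hm]
    simp only [map_sum]
    refine Submodule.sum_mem _ fun p _ => ?_
    by_cases hp : i + 2 * p = t
    · subst hp
      rw [Gr334.prH_of_mem (qV_gr e M h (Gr334.prH_mem p x)), ← Q_inc e M hi h]
      have := hQ i a p _ (by omega) (mem_PS.1 hx p (by omega))
      rwa [two_mul a, Nat.add_comm (2 * p) i] at this
    · rw [Gr334.prH_of_mem_ne hp (qV_gr e M h (Gr334.prH_mem p x)), map_zero]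
      exact Submodule.zero_mem _

end span

end Crest.Agent.R204.TotW328
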