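import Crest.Agent.R204.KDI_103
import Crest.Agent.R204.TotW_328

/-!
# Row 204, block G (helper103): the comparison data for `X₀` of the concrete tower

`kapInst` : `KTr947.Kap` for `X0` of `Inst194.Par.tower`, from `FactGr`, `FactQ`, `FactX`,
`FactPoly0` of the tower and the Steenrod facts `ThFacts` of the thread algebra.
-/

set_option autoImplicit false
set_option linter.unusedSectionVars false
set_option linter.style.haveILetI false

open scoped Topology unitInterval Topology.Homotopy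

noncomputable section

namespace Crest.Agent.R204.KDI103

open Crest.Agent.R204 SS Coef947 Fs348 Prd328 Comp696 ThAlg265 Gr334 Inst194 SrcTot85 CovT761
open Crest.Agent.R204.Hsp696 (halves)
open Crest.Agent.R204.Freu297 (Sph pt)
open Crest.Agent.R204.HspSS696 (mulS eS ptS)
open Crest.Agent.R204.Thr328 (Tot inc)
open Crest.Agent.R204.Ops265 (Q mulH oneH)
open Crest.Agent.R204.TotAlg328 (oneT)

instance inst0 (p : Par) : Nontrivial (Fin (cd p.J0 p.K 0)) :=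
  Fin.nontrivial_iff_two_le.2 (two_le p.hM (p.hc 0))

variable (p : Par) {D : ℕ} (e : ℕ ⊕ ℕ ↪ ℕ) (lab : ℕ ↪ ℝ)

/-! ## components -/

/-- the component map of `X₀` -/
abbrev c0 : Cm (p.S 0) (HomotopyGroup (Fin (cd p.J0 p.K 0)) (Sph (p.J0 + p.K)) (pt (p.J0 + p.K))) :=
  cOm (Fin (cd p.J0 p.K 0)) (Sph (p.J0 + p.K)) (pt (p.J0 + p.K))

/-- the class of the generator -/
abbrev g0 : HomotopyGroup (Fin (cd p.J0 p.K 0)) (Sph (p.J0 + p.K)) (pt (p.J0 + p.K)) :=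
  Comp696.cls (iotaL p.n)

theorem tower_mem (a b : HomotopyGroup (Fin (cd p.J0 p.K 0)) (Sph (p.J0 + p.K)) (pt (p.J0 + p.K)))
    (x y : p.tower.H 0) (hx : (x : H F2 (p.S 0)) ∈ Hc F2 (c0 p) a)
    (hy : (y : H F2 (p.S 0)) ∈ Hc F2 (c0 p) b) :
    ((x * y : p.tower.H 0) : H F2 (p.S 0)) ∈ Hc F2 (c0 p) (a * b) :=
  ring_mul_mem (p.N 0) EE (c0 p) (omCm (emb (p.hc 0)) (halves (i0 (p.hc 0)))).mu a b x y hx hy

theorem tower_one_mem : ((1 : p.tower.H 0) : H F2 (p.S 0)) ∈ Hc F2 (c0 p) 1 :=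
  ring_one_mem (p.N 0) EE (c0 p) (omCm (emb (p.hc 0)) (halves (i0 (p.hc 0)))).one

theorem xinv_mem : (p.tower.xinv : H F2 (p.S 0)) ∈ Hc F2 (c0 p) (g0 p)⁻¹ :=
  vtx_symmAt_mem (i0 (p.hc 0)) (iotaL p.n)

theorem xinv_pow_mem (v : ℕ) :
    ((p.tower.xinv ^ v : p.tower.H 0) : H F2 (p.S 0)) ∈ Hc F2 (c0 p) ((g0 p)⁻¹ ^ v) := by
  induction v with
  | zero => rw [pow_zero, pow_zero]; exact tower_one_mem p
  | succ v ih => rw [pow_succ, pow_succ]; exact tower_mem p _ _ _ _ ih (xinv_mem p)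

theorem mem_base_iff (x : p.tower.H 0) :
    x ∈ p.tower.base ↔ (x : H F2 (p.S 0)) ∈ Hc F2 (c0 p) 1 := Iff.rfl

theorem xinv_pow_gr (hG : p.tower.FactGr D) (hX : p.tower.FactX D) (v : ℕ) :
    p.tower.xinv ^ v ∈ p.tower.gr 0 0 := by
  have h := hG 0 (by omega)
  induction v with
  | zero => rw [pow_zero]; exact h.2.1
  | succ v ih =>
    rw [pow_succ]
    exact h.2.2 0 0 _ _ ih hX.2.2.2.1

/-! ## the comparison map -/

/-- the comparison map to the bottom stage of the tower -/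
abbrev kap0 : H F2 (Tot ℕ) →ₗ[F2] p.tower.H 0 :=
  kapH F2 lab p.M (emb (p.hc 0)) (iotaL p.n)

theorem card_J (hJ : 9 * (p.M + 1) ≤ p.J0 + p.K) :
    9 * (p.M + 1) ≤ Nat.card (Fin (cd p.J0 p.K 0)) := by
  rw [Nat.card_fin]; exact hJ

theorem tower_mul_eq (x y : p.tower.H 0) :
    x * y = mulH (mu0 (p.hc 0)) (x : H F2 (p.S 0)) y :=
  OpsHopf557.mulL_eq (p.N 0) EZ847.ezd rfl x y

section main

variable (hJ : 9 * (p.M + 1) ≤ p.J0 + p.K)

include hJ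

theorem kap0_x1 : kap0 p lab x1 = p.tower.x 0 :=
  kapH_vtx_one lab (by have := p.hM; omega) (emb (p.hc 0)) (iotaL p.n) (card_J p hJ) _
    (Finset.card_singleton _)

theorem kap0_one : kap0 p lab (C5T557.vtx F2 (oneT ℕ)) = (1 : p.tower.H 0) :=
  kapH_vtx_empty lab (by have := p.hM; omega) (emb (p.hc 0)) (iotaL p.n) (card_J p hJ) _ rfl

variable (hD : D + 2 ≤ p.M)

include hD

theorem kap0_Q (i t : ℕ) (y : H F2 (Tot ℕ)) (h : 2 * t + i ≤ D) (hy : y ∈ H.gr F2 (Tot ℕ) t) :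
    kap0 p lab (Q (TotAlg328.totAlg e p.M) i y) = p.tower.Q 0 i (kap0 p lab y) :=
  kapH_Q' lab p.M (emb (p.hc 0)) (iotaL p.n) e (mu0 (p.hc 0)) (card_J p hJ) (by omega) hy

theorem kap0_mul (s t : ℕ) (y z : H F2 (Tot ℕ)) (h : s + t ≤ D) (hy : y ∈ H.gr F2 (Tot ℕ) s)
    (hz : z ∈ H.gr F2 (Tot ℕ) t) :
    kap0 p lab (mulH (TotAlg328.totAlg e p.M).mu y z) = kap0 p lab y * kap0 p lab z := by
  rw [tower_mul_eq p]
  exact kapH_mul' lab p.M (emb (p.hc 0)) (iotaL p.n) e (halves (i0 (p.hc 0))) (card_J p hJ)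
    (by omega) hy hz

variable {Sq : ℕ → (H F2 (Tot ℕ) →ₗ[F2] H F2 (Tot ℕ))}
  (hA : ThFacts (TotAlg328.totAlg e p.M) D Sq) (hQ : p.tower.FactQ D) (hX : p.tower.FactX D)
  (hP : p.tower.FactPoly0 D)

include hA hQ hX hP

theorem tower_inj (v j : ℕ) (hj : j ≤ D) (x : H F2 (Fs ℕ v)) (hx : x ∈ H.gr F2 (Fs ℕ v) j)
    (h0 : kapF F2 lab p.M (emb (p.hc 0)) (iotaL p.n) v x = 0) : x = 0 := by
  have h1 := kappa_injective hD hA hQ hP (kap0 p lab) (kap0_x1 p lab hJ)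
    (kap0_Q p e lab hJ hD) hX (kap0_one p lab hJ) (kap0_mul p e lab hJ hD) hj
    (y := H.map F2 (inc ℕ v) x) ⟨x, hx, rfl⟩ h0
  exact TotW328.inc_injective ℕ v F2 (by rw [h1, map_zero])

variable (hG : p.tower.FactGr D)

include hG

theorem tower_surj (v j : ℕ) (hj : j ≤ D) (hv : 2 * j ≤ v) (y : p.tower.H 0)
    (hy : (y : H F2 (p.S 0)) ∈ H.gr F2 (p.S 0) j)
    (hy' : (y : H F2 (p.S 0)) ∈ Hc F2 (c0 p) (g0 p ^ v)) :
    ∃ x ∈ H.gr F2 (Fs ℕ v) j, kapF F2 lab p.M (emb (p.hc 0)) (iotaL p.n) v x = y := by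
  have hb : y * p.tower.xinv ^ v ∈ p.tower.gr 0 j := by
    have := (hG 0 (by omega)).2.2 j 0 _ _ hy (xinv_pow_gr p hG hX v)
    rwa [add_zero] at this
  have hb' : y * p.tower.xinv ^ v ∈ p.tower.base := by
    rw [mem_base_iff]
    have := tower_mem p _ _ y (p.tower.xinv ^ v) hy' (xinv_pow_mem p v)
    rwa [inv_pow, mul_inv_cancel] at this
  obtain ⟨y', hy1, hy2⟩ := kappa_surjective hD hA hQ hP (kap0 p lab) (kap0_x1 p lab hJ)
    (kap0_Q p e lab hJ hD) hX (kap0_one p lab hJ) (kap0_mul p e lab hJ hD) hj hv hb hb'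
  obtain ⟨x, hx, rfl⟩ := hy1
  refine ⟨x, hx, ?_⟩
  have h1 : p.tower.xinv ^ v * p.tower.x 0 ^ v = 1 := by
    rw [← mul_pow, mul_comm, hX.2.2.2.2.2, one_pow]
  have h2 := congrArg (fun z : p.tower.H 0 => z * p.tower.x 0 ^ v) hy2
  simp only [mul_assoc, h1, mul_one] at h2
  exact h2

/-- **the comparison data for the base component of `X₀`** -/
theorem kapInst {m : ℕ} (hm : 2 * m + 1 ≤ D) {v : ℕ} (hv : 2 * (2 * m + 1) ≤ v) :
    Nonempty (KTr947.Kap ℕ e (X0947.X0 (Fin (cd p.J0 p.K 0)) (Sph (p.J0 + p.K)) (pt (p.J0 + p.K)))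
      (X0947.mu0 (halves (i0 (p.hc 0)))) X0947.e0 v m) :=
  have lab : ℕ ↪ ℝ := ⟨fun n => (n : ℝ), Nat.cast_injective⟩
  kapOm (M := p.M) lab (emb (p.hc 0)) (iotaL p.n) e (halves (i0 (p.hc 0))) (D := D) (by omega)
    (card_J p hJ) (fun v j hj x hx h0 => tower_inj p e lab hJ hD hA hQ hX hP v j hj x hx h0)
    (fun v j hj hv y hy hy' => tower_surj p e lab hJ hD hA hQ hX hP hG v j hj hv y hy hy') hm hv

end main

end Crest.Agent.R204.KDI103
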