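import Crest.Agent.R204.EZAW_271

/-!
# Row 204, block A-EZ (helper888): graded symmetry and associativity of `cross`,
middle-four interchange over `F₂`.
-/

set_option autoImplicit false

namespace Crest.Agent.R204.EZ271

open Finsupp TensorProduct

/-- reassociation -/
def assocHom (K L M : SS) : SS.Hom ((K.prod L).prod M) (K.prod (L.prod M)) :=
  ⟨fun _ x => (x.1.1, (x.1.2, x.2)), fun _ _ => rfl⟩

/-- inverse reassociation -/
def assocInv (K L M : SS) : SS.Hom (K.prod (L.prod M)) ((K.prod L).prod M) :=
  ⟨fun _ x => ((x.1, x.2.1), x.2.2), fun _ _ => rfl⟩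

/-- middle four interchange -/
def midHom (K L M P : SS) : SS.Hom ((K.prod L).prod (M.prod P)) ((K.prod M).prod (L.prod P)) :=
  ⟨fun _ x => ((x.1.1, x.2.1), (x.1.2, x.2.2)), fun _ _ => rfl⟩

theorem isConeMap_swap {K L : SS} (A : Cone K) (B : Cone L) :
    IsConeMap (A.prod B) (B.prod A) (SS.swap K L) where
  k _ := rfl

theorem isConeMap_assoc {K L M : SS} (A : Cone K) (B : Cone L) (C : Cone M) :
    IsConeMap ((A.prod B).prod C) (A.prod (B.prod C)) (assocHom K L M) where
  k _ := rfl

section

variable (R : Type) [CommRing R]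

theorem iota_succ' (p : ℕ) : N.sx R (iota (p + 1)) =
    (Cone.std (p + 1)).c R (N.sx R ((stdMap (Op.face 0)).app p (iota p))) := by
  rw [iota_succ, N.map_sx]

theorem yo_app_iota {K : SS} {n : ℕ} (x : K.S n) : (K.yo x).app n (iota n) = x := yo_iota x

/-- graded symmetry of the cross product -/
theorem swap_cross_sx {K L : SS} {p q : ℕ} (x : K.S p) (y : L.S q) :
    N.map R (SS.swap K L) (cross R (N.sx R x) (N.sx R y)) =
      ((-1 : R) ^ (p * q)) • cross R (N.sx R y) (N.sx R x) := by
  have key : ∀ n p q : ℕ, p + q = n → ∀ (K L : SS) (x : K.S p) (y : L.S q),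
      N.map R (SS.swap K L) (cross R (N.sx R x) (N.sx R y)) =
        ((-1 : R) ^ (p * q)) • cross R (N.sx R y) (N.sx R x) := by
    intro n
    induction n using Nat.strong_induction_on with
    | _ n ih =>
    intro p q hpq K L x y
    suffices H : N.map R (SS.swap _ _) (cross R (N.sx R (iota p))
        (N.sx R (iota q))) =
        ((-1 : R) ^ (p * q)) • cross R (N.sx R (iota q))
          (N.sx R (iota p)) by
      have h2 := congrArg (N.map R (SS.prodMap (L.yo y) (K.yo x))) H
      rw [map_smul, map_cross, N.map_sx, N.map_sx, yo_app_iota, yo_app_iota, map_map,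
        show (SS.prodMap (L.yo y) (K.yo x)).comp (SS.swap (SS.std p) (SS.std q)) =
          (SS.swap K L).comp (SS.prodMap (K.yo x) (L.yo y)) from rfl, ← map_map, map_cross,
        N.map_sx, N.map_sx, yo_app_iota, yo_app_iota] at h2
      exact h2
    rcases p with _ | p <;> rcases q with _ | q
    · rw [iota_zero, cross_bot, N.map_sx]
      simp only [Nat.mul_zero, pow_zero, one_smul]
      rfl
    · rw [iota_zero, iota_succ', cross_bot_c, cross_c_bot, (isConeMap_swap _ _).c,
        ih q (by omega) 0 q (by omega)]
      simp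
    · rw [iota_zero, iota_succ', cross_bot_c, cross_c_bot, (isConeMap_swap _ _).c,
        ih p (by omega) p 0 (by omega)]
      simp
    · rw [iota_succ', iota_succ', cross_c_c, (isConeMap_swap _ _).c, map_add, cross_c_c]
      simp only [Cone.c_sx, sg_sx, map_smul, LinearMap.smul_apply]
      rw [ih (p + (q + 1)) (by omega) p (q + 1) rfl, ih (p + 1 + q) (by omega) (p + 1) q rfl]
      simp only [map_add, map_smul, smul_smul, smul_add]
      have e1 : (-1 : R) ^ (p + 1) * (-1) ^ ((p + 1) * q) = (-1) ^ ((p + 1) * (q + 1)) := by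
        rw [← pow_add]; congr 1; ring
      have e2 : (-1 : R) ^ ((p + 1) * (q + 1)) * (-1) ^ (q + 1) = (-1) ^ (p * (q + 1)) := by
        rw [← pow_add, show (p + 1) * (q + 1) + (q + 1) = p * (q + 1) + 2 * (q + 1) from by ring,
          pow_add, pow_mul (-1 : R) 2]
        simp
      rw [e1, e2]
      exact add_comm _ _
  exact key _ p q rfl K L x y

/-- associativity of the cross product -/
theorem assoc_cross {K L M : SS} (a : N R K) (b : N R L) (c : N R M) :
    N.map R (assocHom K L M) (cross R (cross R a b) c) = cross R a (cross R b c) := by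
  have key : ∀ n p q r : ℕ, p + q + r = n → ∀ (K L M : SS) (x : K.S p) (y : L.S q) (z : M.S r),
      N.map R (assocHom K L M) (cross R (cross R (N.sx R x) (N.sx R y)) (N.sx R z)) =
        cross R (N.sx R x) (cross R (N.sx R y) (N.sx R z)) := by
    intro n
    induction n using Nat.strong_induction_on with
    | _ n ih =>
    intro p q r hpq K L M x y z
    suffices H : N.map R (assocHom _ _ _) (cross R (cross R (N.sx R (iota p))
        (N.sx R (iota q))) (N.sx R (iota r))) =
        cross R (N.sx R (iota p))
          (cross R (N.sx R (iota q))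
            (N.sx R (iota r))) by
      have h2 := congrArg (N.map R (SS.prodMap (K.yo x) (SS.prodMap (L.yo y) (M.yo z)))) H
      rw [map_cross, map_cross, N.map_sx, N.map_sx, N.map_sx, yo_app_iota, yo_app_iota, yo_app_iota, map_map,
        show (SS.prodMap (K.yo x) (SS.prodMap (L.yo y) (M.yo z))).comp
          (assocHom (SS.std p) (SS.std q) (SS.std r)) = (assocHom K L M).comp
            (SS.prodMap (SS.prodMap (K.yo x) (L.yo y)) (M.yo z)) from rfl, ← map_map, map_cross,
        map_cross, N.map_sx, N.map_sx, N.map_sx, yo_app_iota, yo_app_iota, yo_app_iota] at h2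
      exact h2
    rcases p with _ | p <;> rcases q with _ | q <;> rcases r with _ | r
    · rw [iota_zero, cross_bot, cross_bot, cross_bot, N.map_sx]
      rfl
    · rw [iota_zero, iota_succ', cross_bot, cross_bot_c, cross_bot_c, cross_bot_c,
        (isConeMap_assoc _ _ _).c, ← cross_bot, ih r (by omega) 0 0 r (by omega)]
    · rw [iota_zero, iota_succ', cross_bot_c, cross_c_bot, cross_c_bot, cross_bot_c,
        (isConeMap_assoc _ _ _).c, ih q (by omega) 0 q 0 (by omega)]
    · rw [iota_zero, iota_succ', iota_succ', cross_bot_c, cross_c_c, cross_c_c, cross_bot_c,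
        (isConeMap_assoc _ _ _).c, ← cross_bot_c, sg_cross]
      simp only [Cone.c_sx, sg_sx, map_smul, LinearMap.smul_apply, map_add]
      rw [ih (q + (r + 1)) (by omega) 0 q (r + 1) (by omega),
        ih (q + 1 + r) (by omega) 0 (q + 1) r (by omega)]
      simp
    · rw [iota_zero, iota_succ', cross_c_bot, cross_c_bot, cross_bot, cross_c_bot,
        (isConeMap_assoc _ _ _).c, ih p (by omega) p 0 0 (by omega), cross_bot]
    · rw [iota_zero, iota_succ', iota_succ', cross_c_bot, cross_c_c, cross_bot_c, cross_c_c,
        (isConeMap_assoc _ _ _).c, ← cross_c_bot, ← cross_bot_c, sg_cross]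
      simp only [Cone.c_sx, sg_sx, map_smul, LinearMap.smul_apply, map_add]
      rw [ih (p + (r + 1)) (by omega) p 0 (r + 1) (by omega),
        ih (p + 1 + r) (by omega) (p + 1) 0 r (by omega)]
      simp
    · rw [iota_zero, iota_succ', iota_succ', cross_c_c, cross_c_bot, cross_c_bot, cross_c_c,
        (isConeMap_assoc _ _ _).c, ← cross_c_bot]
      simp only [Cone.c_sx, sg_sx, map_smul, LinearMap.smul_apply, map_add, LinearMap.add_apply]
      rw [ih (p + (q + 1)) (by omega) p (q + 1) 0 (by omega),
        ih (p + 1 + q) (by omega) (p + 1) q 0 (by omega)]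
    · rw [iota_succ', iota_succ', iota_succ', cross_c_c, cross_c_c,
        (isConeMap_assoc _ _ _).c, ← cross_c_c, sg_cross,
        cross_c_c R (Cone.std (q + 1)) (Cone.std (r + 1)),
        cross_c_c R (Cone.std (p + 1)) ((Cone.std (q + 1)).prod (Cone.std (r + 1))),
        ← cross_c_c R (Cone.std (q + 1)) (Cone.std (r + 1))]
      simp only [Cone.c_sx, sg_sx, map_smul, LinearMap.smul_apply, map_add, LinearMap.add_apply,
        smul_smul]
      rw [ih (p + (q + 1) + (r + 1)) (by omega) p (q + 1) (r + 1) (by omega),
        ih (p + 1 + q + (r + 1)) (by omega) (p + 1) q (r + 1) (by omega),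
        ih (p + 1 + (q + 1) + r) (by omega) (p + 1) (q + 1) r (by omega), add_assoc]
  refine N_induction (R := R) (K := K) (p := fun a => ∀ (b : N R L) (c : N R M),
    N.map R (assocHom K L M) (cross R (cross R a b) c) = cross R a (cross R b c)) a ?_ ?_ ?_ ?_ b c
  · intro b c; simp
  · intro a a' h h' b c
    simp only [map_add, LinearMap.add_apply, h, h']
  · intro r a h b c
    simp only [map_smul, LinearMap.smul_apply, h]
  intro p x b c
  refine N_induction (R := R) (K := L) (p := fun b => ∀ (c : N R M),
    N.map R (assocHom K L M) (cross R (cross R (N.sx R x) b) c) =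
      cross R (N.sx R x) (cross R b c)) b ?_ ?_ ?_ ?_ c
  · intro c; simp
  · intro a a' h h' c
    simp only [map_add, LinearMap.add_apply, h, h']
  · intro r a h c
    simp only [map_smul, LinearMap.smul_apply, h]
  intro q y c
  refine N_induction (R := R) (K := M) (p := fun c =>
    N.map R (assocHom K L M) (cross R (cross R (N.sx R x) (N.sx R y)) c) =
      cross R (N.sx R x) (cross R (N.sx R y) c)) c ?_ ?_ ?_ ?_
  · simp
  · intro a a' h h'
    simp only [map_add, h, h']
  · intro r a h
    simp only [map_smul, h]
  intro r z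
  exact key _ p q r rfl K L M x y z

theorem assocInv_cross {K L M : SS} (a : N R K) (b : N R L) (c : N R M) :
    N.map R (assocInv K L M) (cross R a (cross R b c)) = cross R (cross R a b) c := by
  rw [← assoc_cross, map_map]
  exact map_idHom R (K := (K.prod L).prod M) _

end

section F2

variable {K L M P : SS}

theorem sgF2_888 (a : N F2 K) : sg F2 a = a := by
  have : (sg F2 (K := K)) = LinearMap.id := by
    refine hom_ext fun n x => ?_
    have : (-1 : F2) = 1 := by decide
    simp [this]
  exact LinearMap.congr_fun this a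

/-- symmetry of the cross product over `F₂` -/
theorem swap_cross (a : N F2 K) (b : N F2 L) :
    N.map F2 (SS.swap K L) (cross F2 a b) = cross F2 b a := by
  have : (cross F2 (K := K) (L := L)).compr₂ (N.map F2 (SS.swap K L)) = (cross F2).flip := by
    refine bilin_ext F2 fun p x q y => ?_
    have h : (-1 : F2) = 1 := by decide
    rw [LinearMap.compr₂_apply, LinearMap.flip_apply, swap_cross_sx, h, one_pow, one_smul]
  exact LinearMap.congr_fun₂ this a b

/-- Leibniz rule over `F₂` -/
theorem bd_cross2 (a : N F2 K) (b : N F2 L) :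
    N.bd F2 _ (cross F2 a b) = cross F2 (N.bd F2 K a) b + cross F2 a (N.bd F2 L b) := by
  rw [bd_cross, sgF2_888]

/-- middle four interchange over `F₂` -/
theorem mid_cross (a : N F2 K) (b : N F2 L) (c : N F2 M) (d : N F2 P) :
    N.map F2 (midHom K L M P) (cross F2 (cross F2 a b) (cross F2 c d)) =
      cross F2 (cross F2 a c) (cross F2 b d) := by
  have e : midHom K L M P = ((assocInv K M (L.prod P)).comp
      (SS.prodMap (SS.Hom.id K) ((assocHom M L P).comp
        ((SS.prodMap (SS.swap L M) (SS.Hom.id P)).comp (assocInv L M P))))).comp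
          (assocHom K L (M.prod P)) := rfl
  rw [e, ← map_map, ← map_map, assoc_cross, map_cross, map_idHom, ← map_map, ← map_map,
    assocInv_cross, map_cross, map_idHom, swap_cross, assoc_cross, assocInv_cross]

end F2

end Crest.Agent.R204.EZ271
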