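import Crest.Agent.R204.HAFil_683

/-!
# Row 204, leaf A7, part b (helper683): projections of an internal grading, conversion of
`Inj` / `Sur` / `Van` to statements about `Hd`, transfer along presentations of `P / Q`.
-/

set_option autoImplicit false

namespace Crest.Agent.R204.HA683

open Function HA498

/-! ### projections -/

/-- `p n` are the projections of the internal grading `G` -/
structure Prj {R M : Type*} [CommRing R] [AddCommGroup M] [Module R M] (G : ℕ → Submodule R M)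
    (p : ℕ → M →ₗ[R] M) : Prop where
  mem : ∀ n x, p n x ∈ G n
  same : ∀ n, ∀ x ∈ G n, p n x = x
  ne : ∀ m n, m ≠ n → ∀ x ∈ G m, p n x = 0
  sum : ∀ x, ∃ N, ∑ i ∈ Finset.range N, p i x = x

section Prj

variable {R M M' : Type*} [CommRing R] [AddCommGroup M] [AddCommGroup M'] [Module R M] [Module R M']
  {d : M →ₗ[R] M} {G : ℕ → Submodule R M} {p : ℕ → M →ₗ[R] M}
  {d' : M' →ₗ[R] M'} {G' : ℕ → Submodule R M'} {p' : ℕ → M' →ₗ[R] M'}

namespace Prj

theorem iSup_eq (h : Prj G p) : iSup G = ⊤ := by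
  refine eq_top_iff.2 fun x _ => ?_
  obtain ⟨N, hN⟩ := h.sum x
  rw [← hN]
  exact Submodule.sum_mem _ fun i _ => Submodule.mem_iSup_of_mem i (h.mem i x)

theorem indep (h : Prj G p) : iSupIndep G := by
  rw [iSupIndep_def]
  intro i
  rw [Submodule.disjoint_def]
  intro x hx hx'
  have : ∀ y ∈ ⨆ j, ⨆ (_ : j ≠ i), G j, p i y = 0 := by
    intro y hy
    refine Submodule.iSup_induction _ (motive := fun y => p i y = 0) hy ?_ (map_zero _) ?_
    · intro j z hz
      by_cases hj : j = i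
      · subst hj
        simp only [ne_eq, not_true_eq_false, iSup_false, Submodule.mem_bot] at hz
        rw [hz, map_zero]
      · simp only [ne_eq, hj, not_false_eq_true, iSup_pos] at hz
        exact h.ne j i hj z hz
    · intro y z hy hz
      rw [map_add, hy, hz, add_zero]
  rw [← h.same i x hx, this x hx']

theorem internal (h : Prj G p) : DirectSum.IsInternal G :=
  DirectSum.isInternal_submodule_of_iSupIndep_of_iSup_eq_top h.indep h.iSup_eq

/-- homogeneous induction -/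
theorem induction (h : Prj G p) {C : M → Prop} (hom : ∀ n, ∀ x ∈ G n, C x) (zero : C 0)
    (add : ∀ x y, C x → C y → C (x + y)) (x : M) : C x := by
  have hx : x ∈ iSup G := by rw [h.iSup_eq]; trivial
  exact Submodule.iSup_induction _ (motive := C) hx hom zero add

theorem proj_d (h : Prj G p) (hd : DGr d G) (n : ℕ) (x : M) : p n (d x) = d (p (n + 1) x) := by
  refine h.induction (C := fun x => p n (d x) = d (p (n + 1) x)) ?_ (by simp) ?_ x
  · intro m y hy
    rcases m with _ | m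
    · rw [hd.zero y hy, map_zero, h.ne 0 (n + 1) (by omega) y hy, map_zero]
    · by_cases hmn : m = n
      · subst hmn
        rw [h.same _ _ hy, h.same _ _ (hd.succ _ _ hy)]
      · rw [h.ne m n hmn _ (hd.succ _ _ hy), h.ne (m + 1) (n + 1) (by omega) y hy, map_zero]
  · intro y z hy hz
    rw [map_add, map_add, map_add, map_add, hy, hz]

theorem d_proj_zero (h : Prj G p) (hd : DGr d G) (x : M) : d (p 0 x) = 0 := hd.zero _ (h.mem 0 x)

theorem d_proj (h : Prj G p) (hd : DGr d G) {x : M} (hx : d x = 0) (n : ℕ) : d (p n x) = 0 := by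
  rcases n with _ | n
  · exact h.d_proj_zero hd x
  · rw [← h.proj_d hd, hx, map_zero]

theorem comm (h : Prj G p) (h' : Prj G' p') {φ : M →ₗ[R] M'} (hφ : ∀ n, ∀ x ∈ G n, φ x ∈ G' n)
    (n : ℕ) (x : M) : φ (p n x) = p' n (φ x) := by
  refine h.induction (C := fun x => φ (p n x) = p' n (φ x)) ?_ (by simp) ?_ x
  · intro m y hy
    by_cases hmn : m = n
    · subst hmn
      rw [h.same _ _ hy, h'.same _ _ (hφ _ _ hy)]
    · rw [h.ne m n hmn y hy, h'.ne m n hmn _ (hφ _ _ hy), map_zero]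
  · intro y z hy hz
    rw [map_add, map_add, map_add, map_add, hy, hz]

/-- a homogeneous boundary bounds a homogeneous chain -/
theorem hom_bd (h : Prj G p) (hd : DGr d G) {n : ℕ} {z w : M} (hz : z ∈ G n) (hw : d w = z) :
    ∃ v ∈ G (n + 1), d v = z :=
  ⟨p (n + 1) w, h.mem _ _, by rw [← h.proj_d hd, hw, h.same _ _ hz]⟩

theorem eq_of_proj (h : Prj G p) {x y : M} (hxy : ∀ n, p n x = p n y) : x = y := by
  have key : ∀ x, (∀ n, p n x = 0) → x = 0 := by
    intro x hx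
    obtain ⟨N, hN⟩ := h.sum x
    rw [← hN]
    exact Finset.sum_eq_zero fun i _ => hx i
  exact sub_eq_zero.1 (key _ fun n => by rw [map_sub, hxy, sub_self])

/-- homogeneous submodules -/
def Homog (p : ℕ → M →ₗ[R] M) (P : Submodule R M) : Prop := ∀ x ∈ P, ∀ n, p n x ∈ P

theorem homog_bot : Homog p (⊥ : Submodule R M) := by
  intro x hx n
  rw [(Submodule.mem_bot R).1 hx]; simp

theorem homog_top : Homog p (⊤ : Submodule R M) := fun _ _ _ => trivial

theorem homog_map (h : Prj G p) (h' : Prj G' p') {φ : M →ₗ[R] M'} (hφ : ∀ n, ∀ x ∈ G n, φ x ∈ G' n)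
    {P : Submodule R M} (hP : Homog p P) : Homog p' (P.map φ) := by
  rintro _ ⟨x, hx, rfl⟩ n
  exact ⟨p n x, hP x hx n, h.comm h' hφ n x⟩

theorem homog_comap (h : Prj G p) (h' : Prj G' p') {φ : M →ₗ[R] M'}
    (hφ : ∀ n, ∀ x ∈ G n, φ x ∈ G' n) {P : Submodule R M'} (hP : Homog p' P) :
    Homog p (P.comap φ) := by
  intro x hx n
  change φ (p n x) ∈ P
  rw [h.comm h' hφ]
  exact hP _ hx n

/-- the projections on a homogeneous submodule -/
theorem sub (h : Prj G p) {P : Submodule R M} (hP : Homog p P) :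
    Prj (fun n => (G n).comap P.subtype) (fun n => (p n).restrict (fun x hx => hP x hx n)) where
  mem n x := h.mem n x
  same n x hx := Subtype.ext (h.same n x hx)
  ne m n hmn x hx := Subtype.ext (h.ne m n hmn x hx)
  sum x := by
    obtain ⟨N, hN⟩ := h.sum x
    refine ⟨N, Subtype.ext ?_⟩
    rw [← hN]
    simp only [Submodule.coe_sum]
    rw [hN]
    refine Eq.trans (Finset.sum_congr rfl fun i _ => ?_) hN
    rfl

/-- the projections on a quotient by a homogeneous submodule -/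
theorem quot (h : Prj G p) {P : Submodule R M} (hP : Homog p P) :
    Prj (fun n => (G n).map P.mkQ) (fun n => P.mapQ P (p n) (fun x hx => hP x hx n)) where
  mem n x := by
    obtain ⟨x, rfl⟩ := Submodule.mkQ_surjective _ x
    exact ⟨p n x, h.mem n x, rfl⟩
  same n x hx := by
    obtain ⟨x, hx, rfl⟩ := hx
    change P.mkQ (p n x) = _
    rw [h.same n x hx]
  ne m n hmn x hx := by
    obtain ⟨x, hx, rfl⟩ := hx
    change P.mkQ (p n x) = _
    rw [h.ne m n hmn x hx, map_zero]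
  sum x := by
    obtain ⟨x, rfl⟩ := Submodule.mkQ_surjective _ x
    obtain ⟨N, hN⟩ := h.sum x
    refine ⟨N, ?_⟩
    change ∑ i ∈ Finset.range N, P.mkQ (p i x) = _
    rw [← map_sum, hN]

end Prj

/-- every internal grading has projections -/
theorem exists_prj (h : DirectSum.IsInternal G) : ∃ p, Prj G p := by
  classical
  let _ := h.chooseDecomposition
  refine ⟨fun n => (G n).subtype ∘ₗ DirectSum.component R ℕ (fun i => G i) n ∘ₗ
    (DirectSum.decomposeLinearEquiv G).toLinearMap, ?_, ?_, ?_, ?_⟩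
  · intro n x
    exact Submodule.coe_mem _
  · intro n x hx
    exact DirectSum.decompose_of_mem_same G hx
  · intro m n hmn x hx
    exact DirectSum.decompose_of_mem_ne G hx hmn
  · intro x
    obtain ⟨N, hN⟩ : ∃ N, (DirectSum.decompose G x).support ⊆ Finset.range N := by
      refine ⟨(DirectSum.decompose G x).support.sup id + 1, fun i hi => ?_⟩
      rw [Finset.mem_range]
      exact Nat.lt_succ_of_le (Finset.le_sup (f := id) hi)
    refine ⟨N, ?_⟩
    conv_rhs => rw [← DirectSum.sum_support_decompose G x]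
    symm
    refine Finset.sum_subset hN ?_
    intro i _ hi
    rw [DFinsupp.notMem_support_iff] at hi
    exact congrArg Subtype.val hi

end Prj

/-! ### conversion to `Hd` -/

namespace GMap

variable {R M M' : Type*} [CommRing R] [AddCommGroup M] [AddCommGroup M'] [Module R M]
    [Module R M'] {c : GMap R M M'} {p : ℕ → M →ₗ[R] M} {p' : ℕ → M' →ₗ[R] M'}

theorem sq (c : GMap R M M') : c.φ ∘ₗ c.d = c.d' ∘ₗ c.φ := LinearMap.ext c.comm

theorem inj_iff (h' : Prj c.G' p') (h : Prj c.G p) {n : ℕ} : c.Inj ⊤ ⊥ ⊤ ⊥ n ↔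
    ∀ x ∈ grHd c.d (c.G n), Hd.map c.φ c.sq x = 0 → x = 0 := by
  constructor
  · intro H x hx h0
    obtain ⟨z, hz, hdz, rfl⟩ := mem_grHd.1 hx
    rw [Hd.map_mk, Hd.mk_eq_zero] at h0
    obtain ⟨w, hw⟩ := h0
    obtain ⟨w, hwG, hw⟩ := h'.hom_bd c.tgt (c.deg _ _ hz) hw
    obtain ⟨v, -, -, hv⟩ := H z trivial hz ((Submodule.mem_bot R).2 hdz) w trivial hwG
      ((Submodule.mem_bot R).2 (by rw [hw, sub_self]))
    exact Hd.mk_eq_zero.2 ⟨v, (sub_eq_zero.1 ((Submodule.mem_bot R).1 hv)).symm⟩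
  · intro H z _ hz hdz w _ hw hzw
    rw [Submodule.mem_bot] at hdz hzw
    have := H (Hd.mk c.d z hdz) (mk_mem_grHd hz hdz) (by
      rw [Hd.map_mk, Hd.mk_eq_zero]
      exact ⟨w, (sub_eq_zero.1 hzw).symm⟩)
    rw [Hd.mk_eq_zero] at this
    obtain ⟨v, hv⟩ := this
    obtain ⟨v, hvG, hv⟩ := h.hom_bd c.src hz hv
    exact ⟨v, trivial, hvG, (Submodule.mem_bot R).2 (by rw [hv, sub_self])⟩

theorem sur_iff (h' : Prj c.G' p') {n : ℕ} : c.Sur ⊤ ⊥ ⊤ ⊥ n ↔
    ∀ y ∈ grHd c.d' (c.G' n), ∃ x ∈ grHd c.d (c.G n), Hd.map c.φ c.sq x = y := by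
  constructor
  · intro H y hy
    obtain ⟨z', hz', hdz', rfl⟩ := mem_grHd.1 hy
    obtain ⟨z, -, hz, hdz, w, -, hw, hf⟩ := H z' trivial hz' ((Submodule.mem_bot R).2 hdz')
    rw [Submodule.mem_bot] at hdz hf
    refine ⟨Hd.mk c.d z hdz, mk_mem_grHd hz hdz, ?_⟩
    rw [Hd.map_mk, Hd.mk_eq_mk]
    exact ⟨-w, by rw [map_neg, neg_eq_iff_eq_neg, neg_sub]; exact (sub_eq_zero.1 hf).symm⟩
  · intro H z' _ hz' hdz'
    rw [Submodule.mem_bot] at hdz'
    obtain ⟨x, hx, hxy⟩ := H (Hd.mk c.d' z' hdz') (mk_mem_grHd hz' hdz')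
    obtain ⟨z, hz, hdz, rfl⟩ := mem_grHd.1 hx
    rw [Hd.map_mk, Hd.mk_eq_mk] at hxy
    obtain ⟨w, hw⟩ := hxy
    obtain ⟨w, hwG, hw⟩ := h'.hom_bd c.tgt ((c.G' n).sub_mem (c.deg _ _ hz) hz') hw
    refine ⟨z, trivial, hz, (Submodule.mem_bot R).2 hdz, -w, trivial, (c.G' _).neg_mem hwG, ?_⟩
    rw [Submodule.mem_bot, map_neg, hw]
    abel

/-- all degrees: injective -/
theorem injective_of_inj (h' : Prj c.G' p') (h : Prj c.G p) (H : ∀ n, c.Inj ⊤ ⊥ ⊤ ⊥ n) :
    Injective (Hd.map c.φ c.sq) := by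
  rw [map_injective_iff]
  rintro z hz ⟨w, hw⟩
  obtain ⟨N, hN⟩ := h.sum z
  have : ∀ n, ∃ v, c.d v = p n z := by
    intro n
    obtain ⟨v, -, -, hv⟩ := H n (p n z) trivial (h.mem n z)
      ((Submodule.mem_bot R).2 (h.d_proj c.src hz n)) (p' (n + 1) w) trivial (h'.mem _ _) (by
        rw [Submodule.mem_bot, h.comm h' c.deg, ← h'.proj_d c.tgt, hw, sub_self])
    exact ⟨v, (sub_eq_zero.1 ((Submodule.mem_bot R).1 hv)).symm⟩
  choose v hv using this
  exact ⟨∑ i ∈ Finset.range N, v i, by rw [map_sum, Finset.sum_congr rfl fun i _ => hv i, hN]⟩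

/-- all degrees: surjective -/
theorem surjective_of_sur (h' : Prj c.G' p') (H : ∀ n, c.Sur ⊤ ⊥ ⊤ ⊥ n) :
    Surjective (Hd.map c.φ c.sq) := by
  rw [map_surjective_iff]
  intro z' hz'
  obtain ⟨N, hN⟩ := h'.sum z'
  have : ∀ n, ∃ z w, c.d z = 0 ∧ p' n z' = c.φ z + c.d' w := by
    intro n
    obtain ⟨z, -, -, hdz, w, -, -, hf⟩ := H n (p' n z') trivial (h'.mem n z')
      ((Submodule.mem_bot R).2 (h'.d_proj c.tgt hz' n))
    exact ⟨z, w, (Submodule.mem_bot R).1 hdz,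
      by rw [Submodule.mem_bot, sub_sub, sub_eq_zero] at hf; exact hf⟩
  choose z w h1 h2 using this
  refine ⟨∑ i ∈ Finset.range N, z i, ?_, -∑ i ∈ Finset.range N, w i, ?_⟩
  · rw [map_sum]; exact Finset.sum_eq_zero fun i _ => h1 i
  · rw [map_neg, map_sum, map_sum]
    have : z' = ∑ i ∈ Finset.range N, c.φ (z i) + ∑ i ∈ Finset.range N, c.d' (w i) := by
      rw [← Finset.sum_add_distrib, ← Finset.sum_congr rfl fun i _ => h2 i, hN]
    rw [this]
    abel

/-- iso in all degrees -/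
theorem bijective_of_conn (h' : Prj c.G' p') (h : Prj c.G p) (H : ∀ n, c.Conn ⊤ ⊥ ⊤ ⊥ n) :
    Bijective (Hd.map c.φ c.sq) :=
  ⟨injective_of_inj h' h fun n => (H (n + 1)).2 n (by omega),
    surjective_of_sur h' fun n => (H n).1 n le_rfl⟩

end GMap

section

variable {R M : Type*} [CommRing R] [AddCommGroup M] [Module R M] {d : M →ₗ[R] M}
  {G : ℕ → Submodule R M} {p : ℕ → M →ₗ[R] M}

/-- the projection of `Hd d` to the degree `n` part -/
noncomputable def prHd (h : Prj G p) (hd : DGr d G) (n : ℕ) : Hd d →ₗ[R] Hd d :=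
  Submodule.mapQ _ _
    ((p n).restrict (p := LinearMap.ker d) (q := LinearMap.ker d) (fun _ hx => h.d_proj hd hx n)) (by
      rintro ⟨x, hx⟩ hx'
      simp only [Submodule.mem_comap, Submodule.subtype_apply, LinearMap.mem_range] at hx' ⊢
      obtain ⟨y, hy⟩ := hx'
      exact ⟨p (n + 1) y, by rw [← h.proj_d hd, hy]; rfl⟩)

theorem prHd_mk (h : Prj G p) (hd : DGr d G) (n : ℕ) (z : M) (hz : d z = 0) :
    prHd h hd n (Hd.mk d z hz) = Hd.mk d (p n z) (h.d_proj hd hz n) := rfl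

/-- the grading of the homology is internal -/
theorem prj_Hd (h : Prj G p) (hd : DGr d G) : Prj (fun n => grHd d (G n)) (prHd h hd) where
  mem n x := by
    obtain ⟨z, hz, rfl⟩ := Hd.mk_surj d x
    exact mk_mem_grHd (h.mem n z) _
  same n x hx := by
    obtain ⟨z, hz, hdz, rfl⟩ := mem_grHd.1 hx
    rw [prHd_mk, Hd.mk_eq_mk]
    exact ⟨0, by rw [map_zero, h.same n z hz, sub_self]⟩
  ne m n hmn x hx := by
    obtain ⟨z, hz, hdz, rfl⟩ := mem_grHd.1 hx
    rw [prHd_mk, Hd.mk_eq_zero]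
    exact ⟨0, by rw [map_zero, h.ne m n hmn z hz]⟩
  sum x := by
    obtain ⟨z, hz, rfl⟩ := Hd.mk_surj d x
    obtain ⟨N, hN⟩ := h.sum z
    refine ⟨N, ?_⟩
    simp only [prHd_mk]
    have : ∀ s : Finset ℕ, ∑ i ∈ s, Hd.mk d (p i z) (h.d_proj hd hz i) =
        Hd.mk d (∑ i ∈ s, p i z) (by
          rw [map_sum]; exact Finset.sum_eq_zero fun i _ => h.d_proj hd hz i) := by
      intro s
      classical
      induction s using Finset.induction_on with
      | empty =>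
        symm
        simp only [Finset.sum_empty]
        exact Hd.mk_eq_zero.2 ⟨0, map_zero _⟩
      | insert a s ha ih =>
        rw [Finset.sum_insert ha, ih, Hd.mk, Hd.mk, Hd.mk, ← Submodule.Quotient.mk_add]
        congr 1
        refine Subtype.ext ?_
        change p a z + ∑ i ∈ s, p i z = ∑ i ∈ insert a s, p i z
        rw [Finset.sum_insert ha]
    rw [this, Hd.mk_eq_mk]
    exact ⟨0, by rw [map_zero, hN, sub_self]⟩

theorem internal_Hd (h : Prj G p) (hd : DGr d G) : DirectSum.IsInternal fun n => grHd d (G n) :=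
  (prj_Hd h hd).internal

/-- vanishing in terms of `Hd` -/
theorem van_iff (h : Prj G p) (hd : DGr d G) {n : ℕ} :
    Van d G ⊤ ⊥ n ↔ grHd d (G n) = ⊥ := by
  constructor
  · intro H
    refine eq_bot_iff.2 fun x hx => ?_
    obtain ⟨z, hz, hdz, rfl⟩ := mem_grHd.1 hx
    obtain ⟨v, -, -, hv⟩ := H z trivial hz ((Submodule.mem_bot R).2 hdz)
    exact (Submodule.mem_bot R).2
      (Hd.mk_eq_zero.2 ⟨v, (sub_eq_zero.1 ((Submodule.mem_bot R).1 hv)).symm⟩)
  · intro H z _ hz hdz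
    rw [Submodule.mem_bot] at hdz
    have : Hd.mk d z hdz ∈ grHd d (G n) := mk_mem_grHd hz hdz
    rw [H, Submodule.mem_bot, Hd.mk_eq_zero] at this
    obtain ⟨w, hw⟩ := this
    obtain ⟨v, hv, hv'⟩ := h.hom_bd hd hz hw
    exact ⟨v, trivial, hv, (Submodule.mem_bot R).2 (by rw [hv', sub_self])⟩

/-- no homology in any degree: `Hd d = 0` -/
theorem acyc_of_van (h : Prj G p) (hd : DGr d G) (H : ∀ n, Van d G ⊤ ⊥ n) : Acyc d := by
  intro z hz
  obtain ⟨N, hN⟩ := h.sum z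
  have : ∀ n, ∃ v, d v = p n z := by
    intro n
    obtain ⟨v, -, -, hv⟩ := H n (p n z) trivial (h.mem n z)
      ((Submodule.mem_bot R).2 (h.d_proj hd hz n))
    exact ⟨v, (sub_eq_zero.1 ((Submodule.mem_bot R).1 hv)).symm⟩
  choose v hv using this
  exact ⟨∑ i ∈ Finset.range N, v i, by rw [map_sum, Finset.sum_congr rfl fun i _ => hv i, hN]⟩

end

/-! ### presentations `P / Q ≅ A` with a degree shift -/

/-- `π : P → A` presents the differential module `(A, e, L)` as `P / Q`, degree `n` of `A` being degree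
`n + s` of `P` -/
structure Pres {R M A : Type*} [CommRing R] [AddCommGroup M] [Module R M] [AddCommGroup A] [Module R A]
    (d : M →ₗ[R] M) (G : ℕ → Submodule R M) (P Q : Submodule R M) (s : ℕ) (e : A →ₗ[R] A)
    (L : ℕ → Submodule R A) (π : P →ₗ[R] A) : Prop where
  d_mem : ∀ x ∈ P, d x ∈ P
  ker : ∀ x : P, π x = 0 ↔ (x : M) ∈ Q
  comm : ∀ x : P, π ⟨d x, d_mem x x.2⟩ = e (π x)
  deg : ∀ n, ∀ x : P, (x : M) ∈ G (n + s) → π x ∈ L n
  lift : ∀ n, ∀ a ∈ L n, ∃ x : P, (x : M) ∈ G (n + s) ∧ π x = a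

section Pres

variable {R M A : Type*} [CommRing R] [AddCommGroup M] [Module R M] [AddCommGroup A] [Module R A]
  {d : M →ₗ[R] M} {G : ℕ → Submodule R M} {P Q : Submodule R M} {s : ℕ} {e : A →ₗ[R] A}
  {L : ℕ → Submodule R A} {π : P →ₗ[R] A}

theorem Pres.d_in (h : Pres d G P Q s e L π) {x : P} : d x ∈ Q ↔ e (π x) = 0 := by
  rw [← h.comm, h.ker]

/-- vanishing through a presentation -/
theorem Pres.van_iff (h : Pres d G P Q s e L π) {n : ℕ} :
    Van d G P Q (n + s) ↔ Van e L ⊤ ⊥ n := by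
  constructor
  · intro H a _ ha hda
    obtain ⟨x, hx, rfl⟩ := h.lift n a ha
    obtain ⟨v, hvP, hv, hf⟩ := H x x.2 hx (h.d_in.2 ((Submodule.mem_bot R).1 hda))
    refine ⟨π ⟨v, hvP⟩, trivial, h.deg (n + 1) ⟨v, hvP⟩ ?_, ?_⟩
    · rwa [show n + 1 + s = n + s + 1 by omega]
    · rw [Submodule.mem_bot, ← h.comm, ← map_sub, h.ker]
      exact hf
  · intro H z hzP hz hdz
    obtain ⟨a, -, ha, hf⟩ := H (π ⟨z, hzP⟩) trivial (h.deg n ⟨z, hzP⟩ hz)
      ((Submodule.mem_bot R).2 (h.d_in.1 hdz))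
    obtain ⟨x, hx, rfl⟩ := h.lift (n + 1) a ha
    refine ⟨x, x.2, by rwa [show n + s + 1 = n + 1 + s by omega], ?_⟩
    rw [Submodule.mem_bot, ← h.comm, ← map_sub, h.ker] at hf
    exact hf

end Pres

namespace GMap

variable {R M M' A A' : Type*} [CommRing R] [AddCommGroup M] [AddCommGroup M'] [Module R M]
    [Module R M'] [AddCommGroup A] [AddCommGroup A'] [Module R A] [Module R A']
    {c : GMap R M M'} {a : GMap R A A'} {P Q : Submodule R M} {P' Q' : Submodule R M'} {s : ℕ}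
    {π : P →ₗ[R] A} {π' : P' →ₗ[R] A'}

variable (hP : c.Sub P P') (h : Pres c.d c.G P Q s a.d a.G π)
  (h' : Pres c.d' c.G' P' Q' s a.d' a.G' π')
  (hπ : ∀ x : P, π' ⟨c.φ x, hP.map x x.2⟩ = a.φ (π x))
include h h' hπ

theorem inj_pres {n : ℕ} : c.Inj P Q P' Q' (n + s) ↔ a.Inj ⊤ ⊥ ⊤ ⊥ n := by
  constructor
  · intro H y _ hy hdy u _ hu hyu
    obtain ⟨x, hx, rfl⟩ := h.lift n y hy
    obtain ⟨w, hw, rfl⟩ := h'.lift (n + 1) u hu
    obtain ⟨v, hvP, hv, hf⟩ := H x x.2 hx (h.d_in.2 ((Submodule.mem_bot R).1 hdy)) w w.2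
      (by rwa [show n + s + 1 = n + 1 + s by omega]) (by
        rw [Submodule.mem_bot, ← hπ, ← h'.comm, ← map_sub, h'.ker] at hyu
        exact hyu)
    refine ⟨π ⟨v, hvP⟩, trivial, h.deg (n + 1) ⟨v, hvP⟩ ?_, ?_⟩
    · rwa [show n + 1 + s = n + s + 1 by omega]
    · rw [Submodule.mem_bot, ← h.comm, ← map_sub, h.ker]
      exact hf
  · intro H z hzP hz hdz w hwP hw hzw
    obtain ⟨b, -, hb, hf⟩ := H (π ⟨z, hzP⟩) trivial (h.deg n ⟨z, hzP⟩ hz)
      ((Submodule.mem_bot R).2 (h.d_in.1 hdz)) (π' ⟨w, hwP⟩) trivial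
      (h'.deg (n + 1) ⟨w, hwP⟩ (by rwa [show n + 1 + s = n + s + 1 by omega])) (by
        rw [Submodule.mem_bot, ← hπ, ← h'.comm, ← map_sub, h'.ker]
        exact hzw)
    obtain ⟨x, hx, rfl⟩ := h.lift (n + 1) b hb
    refine ⟨x, x.2, by rwa [show n + s + 1 = n + 1 + s by omega], ?_⟩
    rw [Submodule.mem_bot, ← h.comm, ← map_sub, h.ker] at hf
    exact hf

theorem sur_pres {n : ℕ} : c.Sur P Q P' Q' (n + s) ↔ a.Sur ⊤ ⊥ ⊤ ⊥ n := by
  constructor
  · intro H y' _ hy' hdy'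
    obtain ⟨x', hx', rfl⟩ := h'.lift n y' hy'
    obtain ⟨z, hzP, hz, hdz, w, hwP, hw, hf⟩ := H x' x'.2 hx'
      (h'.d_in.2 ((Submodule.mem_bot R).1 hdy'))
    refine ⟨π ⟨z, hzP⟩, trivial, h.deg n ⟨z, hzP⟩ hz, (Submodule.mem_bot R).2 (h.d_in.1 hdz),
      π' ⟨w, hwP⟩, trivial, h'.deg (n + 1) ⟨w, hwP⟩ ?_, ?_⟩
    · rwa [show n + 1 + s = n + s + 1 by omega]
    · rw [Submodule.mem_bot, ← hπ, ← h'.comm, ← map_sub, ← map_sub, h'.ker]
      exact hf
  · intro H z' hzP' hz' hdz'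
    obtain ⟨y, -, hy, hdy, u, -, hu, hf⟩ := H (π' ⟨z', hzP'⟩) trivial (h'.deg n ⟨z', hzP'⟩ hz')
      ((Submodule.mem_bot R).2 (h'.d_in.1 hdz'))
    obtain ⟨x, hx, rfl⟩ := h.lift n y hy
    obtain ⟨w, hw, rfl⟩ := h'.lift (n + 1) u hu
    refine ⟨x, x.2, hx, h.d_in.2 ((Submodule.mem_bot R).1 hdy), w, w.2,
      by rwa [show n + s + 1 = n + 1 + s by omega], ?_⟩
    rw [Submodule.mem_bot, ← hπ, ← h'.comm, ← map_sub, ← map_sub, h'.ker] at hf
    exact hf

/-- connectivity through presentations with shift `s`; `low`: nothing in degrees `< s` -/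
theorem conn_pres (low : ∀ k, k < s → ∀ x ∈ P, x ∈ c.G k → x ∈ Q)
    (low' : ∀ k, k < s → ∀ x ∈ P', x ∈ c.G' k → x ∈ Q') {n : ℕ} (H : a.Conn ⊤ ⊥ ⊤ ⊥ n) :
    c.Conn P Q P' Q' (n + s) := by
  constructor
  · intro k hk
    by_cases hks : k < s
    · intro z' hzP' hz' _
      exact ⟨0, P.zero_mem, Submodule.zero_mem _, by simp, 0, P'.zero_mem, Submodule.zero_mem _,
        by simpa using low' k hks z' hzP' hz'⟩
    · obtain ⟨m, rfl⟩ : ∃ m, k = m + s := ⟨k - s, by omega⟩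
      exact (sur_pres hP h h' hπ).2 (H.1 m (by omega))
  · intro k hk
    by_cases hks : k < s
    · intro z hzP hz _ _ _ _ _
      exact ⟨0, P.zero_mem, Submodule.zero_mem _, by simpa using low k hks z hzP hz⟩
    · obtain ⟨m, rfl⟩ : ∃ m, k = m + s := ⟨k - s, by omega⟩
      exact (inj_pres hP h h' hπ).2 (H.2 m (by omega))

/-- converse -/
theorem pres_conn {n : ℕ} (H : c.Conn P Q P' Q' (n + s)) : a.Conn ⊤ ⊥ ⊤ ⊥ n :=
  ⟨fun k hk => (sur_pres hP h h' hπ).1 (H.1 (k + s) (by omega)),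
   fun k hk => (inj_pres hP h h' hπ).1 (H.2 (k + s) (by omega))⟩

end GMap

end Crest.Agent.R204.HA683
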