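import Crest.Agent.R204.Gr_334
import Crest.Agent.R204.HAHd_683

/-!
# Row 204, leaf A7, part b (helper683): relative homology of an injective simplicial map

For `i : SS.Hom A K` with `hi : SInj i` (all `i.app n` injective):

* `N_map_injective hi`; `isDgn_of_map hi`
* `NRel R i = N R K / N R A`, `NRel.bd`, `HRel R i = Hd (NRel.bd R i)`, `NRel.gr`, `HRel.gr`
* `ses hi : HA498.SES ...`, so `HA498.delta (ses hi)`, `exact_fg`, ... ; `delta_gr_succ`, `delta_gr_zero`
* naturality: `NRel.map`, `HRel.map`, `delta_map`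
* `NRel_map_bijective` : relative homeomorphisms (union/excision, quotients, pushouts) induce
  isomorphisms `NRel R i → NRel R j`; `HRel_map_bijective`
* five lemma: `HRel_bijective_of`, `H_bijective_of`
-/

set_option autoImplicit false

noncomputable section

namespace Crest.Agent.R204.HA683

open Finsupp Function HA498 Gr334

variable {A K B L : SS}

/-- injective simplicial maps -/
def SInj (i : SS.Hom A K) : Prop := ∀ n, Injective (i.app n)

theorem isDgn_of_map {i : SS.Hom A K} (hi : SInj i) {n : ℕ} {x : A.S n}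
    (h : Ch.IsDgn K ⟨n, i.app n x⟩) : Ch.IsDgn A ⟨n, x⟩ := by
  rcases n with _ | n
  · exact h.elim
  · obtain ⟨j, y, hy⟩ := h
    have h1 : y = i.app n (A.act (Op.face j.castSucc) x) := by
      rw [i.nat, hy, ← K.act_comp, Ch.face_dgn_eq _ _ (Or.inl rfl), K.act_id]
    refine ⟨j, A.act (Op.face j.castSucc) x, hi _ ?_⟩
    rw [i.nat, ← h1, hy]

theorem isDgn_map_iff {i : SS.Hom A K} (hi : SInj i) {n : ℕ} {x : A.S n} :
    Ch.IsDgn K ⟨n, i.app n x⟩ ↔ Ch.IsDgn A ⟨n, x⟩ := ⟨isDgn_of_map hi, isDgn_map i⟩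

variable (R : Type) [CommRing R]

theorem Ch_map_injective {i : SS.Hom A K} (hi : SInj i) : Injective (Ch.map R i) := by
  refine Finsupp.mapDomain_injective ?_
  rintro ⟨n, x⟩ ⟨m, y⟩ h
  obtain ⟨h1, h2⟩ := Sigma.mk.inj_iff.1 h
  change n = m at h1
  subst h1
  have h3 : x = y := hi _ (eq_of_heq h2)
  rw [h3]

theorem N_map_injective {i : SS.Hom A K} (hi : SInj i) : Injective (N.map R i) := by
  classical
  rw [injective_iff_map_eq_zero]
  intro c hc
  obtain ⟨c, rfl⟩ := Submodule.Quotient.mk_surjective _ c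
  rw [N.map_mk, Submodule.Quotient.mk_eq_zero, mem_Dg] at hc
  rw [Submodule.Quotient.mk_eq_zero, mem_Dg]
  rintro ⟨n, x⟩ ht
  refine isDgn_of_map hi (hc ⟨n, i.app n x⟩ ?_)
  have hinj : Injective (fun t : A.T => (⟨t.1, i.app t.1 t.2⟩ : K.T)) := by
    rintro ⟨n, x⟩ ⟨m, y⟩ h
    obtain ⟨h1, h2⟩ := Sigma.mk.inj_iff.1 h
    change n = m at h1
    subst h1
    have h3 : x = y := hi _ (eq_of_heq h2)
    rw [h3]
  rw [Finsupp.mem_support_iff] at ht ⊢
  change Finsupp.mapDomain _ c ((fun t : A.T => (⟨t.1, i.app t.1 t.2⟩ : K.T)) ⟨n, x⟩) ≠ 0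
  rwa [Finsupp.mapDomain_apply hinj]

theorem dgr_N (K : SS) : DGr (N.bd R K) (N.gr R K) :=
  ⟨fun _ _ h => bd_mem_gr h, fun _ h => bd_gr_zero h, N.bd_bd⟩

theorem prj_N (K : SS) : Prj (N.gr R K) (prN R K) where
  mem n x := prN_mem n x
  same n x hx := prN_of_mem hx
  ne m n h x hx := prN_of_mem_ne h hx
  sum x := by
    obtain ⟨M, -, h⟩ := exists_sum_prN x
    exact ⟨M, h.symm⟩

/-- a simplicial map as a `GMap` -/
def gmapN (f : SS.Hom K L) : GMap R (N R K) (N R L) where
  d := N.bd R K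
  G := N.gr R K
  d' := N.bd R L
  G' := N.gr R L
  φ := N.map R f
  src := dgr_N R K
  tgt := dgr_N R L
  comm x := LinearMap.congr_fun (N.map_bd f) x
  deg _ _ h := map_mem_gr f h

/-- relative normalised chains -/
abbrev NRel (i : SS.Hom A K) : Type := N R K ⧸ LinearMap.range (N.map R i)

theorem range_stable (i : SS.Hom A K) {x : N R K} (hx : x ∈ LinearMap.range (N.map R i)) :
    N.bd R K x ∈ LinearMap.range (N.map R i) := by
  obtain ⟨y, rfl⟩ := hx
  exact ⟨N.bd R A y, LinearMap.congr_fun (N.map_bd i) y⟩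

/-- boundary of relative chains -/
def NRel.bd (i : SS.Hom A K) : NRel R i →ₗ[R] NRel R i :=
  Submodule.mapQ _ _ (N.bd R K) fun _ hx => range_stable R i hx

/-- the projection to relative chains -/
def NRel.pi (i : SS.Hom A K) : N R K →ₗ[R] NRel R i := Submodule.mkQ _

theorem NRel.pi_surj (i : SS.Hom A K) : Surjective (NRel.pi R i) := Submodule.mkQ_surjective _

theorem NRel.pi_eq_zero (i : SS.Hom A K) {x : N R K} :
    NRel.pi R i x = 0 ↔ ∃ y, N.map R i y = x := by
  change Submodule.mkQ _ x = 0 ↔ _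
  rw [Submodule.mkQ_apply, Submodule.Quotient.mk_eq_zero, LinearMap.mem_range]

theorem NRel.bd_pi (i : SS.Hom A K) (x : N R K) :
    NRel.bd R i (NRel.pi R i x) = NRel.pi R i (N.bd R K x) := rfl

theorem NRel.bd_bd (i : SS.Hom A K) (x : NRel R i) : NRel.bd R i (NRel.bd R i x) = 0 := by
  obtain ⟨x, rfl⟩ := NRel.pi_surj R i x
  rw [NRel.bd_pi, NRel.bd_pi, N.bd_bd, map_zero]

/-- the grading of relative chains -/
def NRel.gr (i : SS.Hom A K) (n : ℕ) : Submodule R (NRel R i) := (N.gr R K n).map (NRel.pi R i)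

/-- relative homology -/
abbrev HRel (i : SS.Hom A K) : Type := Hd (NRel.bd R i)

/-- the grading of relative homology -/
def HRel.gr (i : SS.Hom A K) (n : ℕ) : Submodule R (HRel R i) := grHd (NRel.bd R i) (NRel.gr R i n)

theorem homog_range (i : SS.Hom A K) : Prj.Homog (prN R K) (LinearMap.range (N.map R i)) := by
  rintro _ ⟨y, rfl⟩ n
  exact ⟨prN R A n y, (prN_map i n y).symm⟩

/-- projections of relative chains -/
def NRel.pr (i : SS.Hom A K) (n : ℕ) : NRel R i →ₗ[R] NRel R i :=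
  Submodule.mapQ _ _ (prN R K n) fun _ hx => homog_range R i _ hx n

theorem dgr_NRel (i : SS.Hom A K) : DGr (NRel.bd R i) (NRel.gr R i) where
  succ n x hx := by
    obtain ⟨x, hx, rfl⟩ := hx
    exact ⟨N.bd R K x, bd_mem_gr hx, rfl⟩
  zero x hx := by
    obtain ⟨x, hx, rfl⟩ := hx
    rw [NRel.bd_pi, bd_gr_zero hx, map_zero]
  dd := NRel.bd_bd R i

theorem prj_NRel (i : SS.Hom A K) : Prj (NRel.gr R i) (NRel.pr R i) :=
  (prj_N R K).quot (homog_range R i)

theorem isInternal_HRel (i : SS.Hom A K) : DirectSum.IsInternal (HRel.gr R i) :=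
  internal_Hd (prj_NRel R i) (dgr_NRel R i)

/-- the short exact sequence of a pair -/
theorem ses {i : SS.Hom A K} (hi : SInj i) :
    SES (N.bd R A) (N.bd R K) (NRel.bd R i) (N.map R i) (NRel.pi R i) where
  sq' := N.bd_bd
  sq := N.bd_bd
  hf := N.map_bd i
  hg := rfl
  inj := N_map_injective R hi
  ex x := by rw [NRel.pi_eq_zero]; rfl
  surj := NRel.pi_surj R i

/-- `H(K) → H(K, A)` -/
def HRel.pi (i : SS.Hom A K) : H R K →ₗ[R] HRel R i := Hd.map (NRel.pi R i) rfl

/-- the connecting map of a pair -/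
def HRel.delta {i : SS.Hom A K} (hi : SInj i) : HRel R i →ₗ[R] H R A := HA498.delta (ses R hi)

theorem exact_i_pi {i : SS.Hom A K} (hi : SInj i) : Exact (H.map R i) (HRel.pi R i) :=
  exact_fg (ses R hi)

theorem exact_pi_delta {i : SS.Hom A K} (hi : SInj i) : Exact (HRel.pi R i) (HRel.delta R hi) :=
  exact_gδ (ses R hi)

theorem exact_delta_i {i : SS.Hom A K} (hi : SInj i) : Exact (HRel.delta R hi) (H.map R i) :=
  exact_δf (ses R hi)

theorem delta_rel_mk {i : SS.Hom A K} (hi : SInj i) (x : N R K) (y : N R A)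
    (hx : NRel.bd R i (NRel.pi R i x) = 0) (hy : N.bd R A y = 0) (e : N.map R i y = N.bd R K x) :
    HRel.delta R hi (Hd.mk (NRel.bd R i) (NRel.pi R i x) hx) = Hd.mk (N.bd R A) y hy :=
  delta_mk (ses R hi) x y hx hy e

theorem mem_gr_of_map {i : SS.Hom A K} (hi : SInj i) {n : ℕ} {y : N R A}
    (h : N.map R i y ∈ N.gr R K n) : y ∈ N.gr R A n := by
  rw [mem_gr_iff] at h ⊢
  rw [prN_map] at h
  exact N_map_injective R hi h

theorem pi_gr (i : SS.Hom A K) {n : ℕ} {x : H R K} (hx : x ∈ H.gr R K n) :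
    HRel.pi R i x ∈ HRel.gr R i n :=
  map_mem_grHd (p := N.gr R K n) (p'' := NRel.gr R i n) rfl (fun y hy => ⟨y, hy, rfl⟩) hx

theorem delta_gr_succ {i : SS.Hom A K} (hi : SInj i) {n : ℕ} {x : HRel R i}
    (hx : x ∈ HRel.gr R i (n + 1)) : HRel.delta R hi x ∈ H.gr R A n :=
  delta_mem (ses R hi) (p'' := NRel.gr R i (n + 1)) (p := N.gr R K (n + 1)) (q := N.gr R K n)
    (fun z hz => by obtain ⟨m, hm, rfl⟩ := hz; exact ⟨m, hm, rfl⟩) (fun m hm => bd_mem_gr hm)
    (fun y hy => mem_gr_of_map R hi hy) hx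

theorem delta_gr_zero {i : SS.Hom A K} (hi : SInj i) {x : HRel R i}
    (hx : x ∈ HRel.gr R i 0) : HRel.delta R hi x = 0 := by
  obtain ⟨z, ⟨m, hm, rfl⟩, hz, rfl⟩ := mem_grHd.1 hx
  rw [delta_rel_mk R hi m 0 hz (map_zero _) (by rw [map_zero, bd_gr_zero hm]), Hd.mk_eq_zero]
  exact ⟨0, map_zero _⟩

/-! ### naturality -/

/-- a commutative square -/
structure Sq (i : SS.Hom A K) (j : SS.Hom B L) (g : SS.Hom A B) (f : SS.Hom K L) : Prop where
  sq : ∀ (n : ℕ) (x : A.S n), f.app n (i.app n x) = j.app n (g.app n x)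

variable {R}

section Nat

variable {i : SS.Hom A K} {j : SS.Hom B L} {g : SS.Hom A B} {f : SS.Hom K L}

theorem Sq.N_map (h : Sq i j g f) (x : N R A) :
    N.map R f (N.map R i x) = N.map R j (N.map R g x) := by
  have : N.map R f ∘ₗ N.map R i = N.map R j ∘ₗ N.map R g := by
    refine N_ext fun n x => ?_
    simp only [LinearMap.comp_apply, N.map_sx, h.sq]
  exact LinearMap.congr_fun this x

/-- the map of relative chains -/
def NRel.map (h : Sq i j g f) : NRel R i →ₗ[R] NRel R j :=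
  Submodule.mapQ _ _ (N.map R f) (by
    rintro _ ⟨y, rfl⟩
    exact ⟨N.map R g y, (h.N_map y).symm⟩)

theorem NRel.map_pi (h : Sq i j g f) (x : N R K) :
    NRel.map h (NRel.pi R i x) = NRel.pi R j (N.map R f x) := rfl

theorem NRel.map_bd (h : Sq i j g f) :
    NRel.map h ∘ₗ NRel.bd R i = NRel.bd R j ∘ₗ NRel.map h := by
  refine LinearMap.ext fun x => ?_
  obtain ⟨x, rfl⟩ := NRel.pi_surj R i x
  change NRel.pi R j (N.map R f (N.bd R K x)) = NRel.pi R j (N.bd R L (N.map R f x))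
  rw [show N.map R f (N.bd R K x) = N.bd R L (N.map R f x) from LinearMap.congr_fun (N.map_bd f) x]

/-- the map of relative homology -/
def HRel.map (h : Sq i j g f) : HRel R i →ₗ[R] HRel R j := Hd.map (NRel.map h) (NRel.map_bd h)

theorem HRel.map_gr (h : Sq i j g f) {n : ℕ} {x : HRel R i} (hx : x ∈ HRel.gr R i n) :
    HRel.map h x ∈ HRel.gr R j n :=
  map_mem_grHd (p := NRel.gr R i n) (p'' := NRel.gr R j n) (NRel.map_bd h) (by
    rintro _ ⟨y, hy, rfl⟩
    exact ⟨N.map R f y, map_mem_gr f hy, rfl⟩) hx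

theorem HRel.map_pi (h : Sq i j g f) (x : H R K) :
    HRel.map h (HRel.pi R i x) = HRel.pi R j (H.map R f x) := by
  obtain ⟨z, hz, rfl⟩ := Hd.mk_surj _ x
  rfl

theorem delta_map (h : Sq i j g f) (hi : SInj i) (hj : SInj j) (x : HRel R i) :
    HRel.delta R hj (HRel.map h x) = H.map R g (HRel.delta R hi x) :=
  delta_nat (ses R hi) (ses R hj) (N.map_bd g) (N.map_bd f) (NRel.map_bd h)
    (fun x => (h.N_map x).symm) (fun _ => rfl) x

/-- five lemma, relative term -/
theorem HRel_bijective_of (h : Sq i j g f) (hi : SInj i) (hj : SInj j)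
    (h1 : Bijective (H.map R g)) (h2 : Bijective (H.map R f)) :
    Bijective (HRel.map (R := R) h) :=
  quot_bijective (ses R hi) (ses R hj) (N.map_bd g) (N.map_bd f) (NRel.map_bd h)
    (fun x => (h.N_map x).symm) (fun _ => rfl) h1 h2

/-- five lemma, total term -/
theorem H_bijective_of (h : Sq i j g f) (hi : SInj i) (hj : SInj j)
    (h1 : Bijective (H.map R g)) (h2 : Bijective (HRel.map (R := R) h)) :
    Bijective (H.map R f) :=
  mid_bijective (ses R hi) (ses R hj) (N.map_bd g) (N.map_bd f) (NRel.map_bd h)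
    (fun x => (h.N_map x).symm) (fun _ => rfl) h1 h2

/-- five lemma, sub term -/
theorem H_sub_bijective_of (h : Sq i j g f) (hi : SInj i) (hj : SInj j)
    (h1 : Bijective (H.map R f)) (h2 : Bijective (HRel.map (R := R) h)) :
    Bijective (H.map R g) :=
  sub_bijective (ses R hi) (ses R hj) (N.map_bd g) (N.map_bd f) (NRel.map_bd h)
    (fun x => (h.N_map x).symm) (fun _ => rfl) h1 h2

/-! ### relative homeomorphisms -/

/-- `f : K → L` is bijective from the simplices of `K` not in `A` to the simplices of `L` not in `B` -/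
structure RelHomeo (i : SS.Hom A K) (j : SS.Hom B L) (g : SS.Hom A B) (f : SS.Hom K L) : Prop
    extends Sq i j g f where
  cover : ∀ (n : ℕ) (y : L.S n), (∃ b, j.app n b = y) ∨ ∃ x, f.app n x = y
  disj : ∀ (n : ℕ) (x : K.S n) (b : B.S n), f.app n x = j.app n b → ∃ a, i.app n a = x
  inj : ∀ (n : ℕ) (x x' : K.S n), f.app n x = f.app n x' → x = x' ∨ ∃ a, i.app n a = x

theorem RelHomeo.not_dgn (h : RelHomeo i j g f) {n : ℕ} {x : K.S n}
    (hx : ¬ ∃ a, i.app n a = x) (hd : ¬ Ch.IsDgn K ⟨n, x⟩) : ¬ Ch.IsDgn L ⟨n, f.app n x⟩ := by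
  intro hd'
  rcases n with _ | n
  · exact hd'
  · obtain ⟨q, y, hy⟩ := hd'
    have h1 : y = f.app n (K.act (Op.face q.castSucc) x) := by
      rw [f.nat, hy, ← L.act_comp, Ch.face_dgn_eq _ _ (Or.inl rfl), L.act_id]
    rw [h1, ← f.nat] at hy
    rcases h.inj _ _ _ hy with h2 | h2
    · exact hd ⟨q, _, h2⟩
    · exact hx h2

open Classical in
/-- the inverse on relative chains -/
def RelHomeo.inv (_h : RelHomeo i j g f) : N R L →ₗ[R] NRel R i :=
  (nbasis R L).constr R fun t =>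
    if e : ∃ x : K.S t.1.1, (¬ ∃ a, i.app t.1.1 a = x) ∧ f.app t.1.1 x = t.1.2 then
      NRel.pi R i (N.sx R e.choose) else 0

theorem RelHomeo.inv_sx_pos (h : RelHomeo i j g f) {n : ℕ} {x : K.S n}
    (hx : ¬ ∃ a, i.app n a = x) (hd : ¬ Ch.IsDgn K ⟨n, x⟩) :
    h.inv (N.sx R (f.app n x)) = NRel.pi R i (N.sx R x) := by
  have hb := (nbasis_apply R L ⟨⟨n, f.app n x⟩, h.not_dgn hx hd⟩)
  have e : ∃ x' : K.S n, (¬ ∃ a, i.app n a = x') ∧ f.app n x' = f.app n x := ⟨x, hx, rfl⟩
  have := (nbasis R L).constr_basis R (fun t : ND L =>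
    (open Classical in if e : ∃ x : K.S t.1.1, (¬ ∃ a, i.app t.1.1 a = x) ∧ f.app t.1.1 x = t.1.2 then
      NRel.pi R i (N.sx R e.choose) else 0)) ⟨⟨n, f.app n x⟩, h.not_dgn hx hd⟩
  rw [hb] at this
  rw [RelHomeo.inv, this, dif_pos e]
  have h1 : e.choose = x := by
    rcases h.inj n _ _ e.choose_spec.2 with h2 | h2
    · exact h2
    · exact (e.choose_spec.1 h2).elim
  rw [h1]

theorem RelHomeo.inv_sx_neg (h : RelHomeo i j g f) {n : ℕ} {y : L.S n}
    (hy : ¬ ∃ x : K.S n, (¬ ∃ a, i.app n a = x) ∧ f.app n x = y) :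
    h.inv (N.sx R y) = 0 := by
  by_cases hd : Ch.IsDgn L ⟨n, y⟩
  · rw [sx_eq_zero_of_dgn hd, map_zero]
  · have hb := (nbasis_apply R L ⟨⟨n, y⟩, hd⟩)
    have := (nbasis R L).constr_basis R (fun t : ND L =>
      (open Classical in if e : ∃ x : K.S t.1.1, (¬ ∃ a, i.app t.1.1 a = x) ∧ f.app t.1.1 x = t.1.2 then
        NRel.pi R i (N.sx R e.choose) else 0)) ⟨⟨n, y⟩, hd⟩
    rw [hb] at this
    rw [RelHomeo.inv, this, dif_neg hy]

theorem RelHomeo.inv_map (h : RelHomeo i j g f) (c : N R K) :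
    h.inv (N.map R f c) = NRel.pi R i c := by
  have : h.inv ∘ₗ N.map R f = NRel.pi R i := by
    refine N_ext fun n x => ?_
    rw [LinearMap.comp_apply, N.map_sx]
    by_cases hx : ∃ a, i.app n a = x
    · obtain ⟨a, rfl⟩ := hx
      rw [h.sq, h.inv_sx_neg]
      · symm
        rw [NRel.pi_eq_zero]
        exact ⟨N.sx R a, N.map_sx i a⟩
      · rintro ⟨x', hx', he⟩
        exact hx' (h.disj n x' _ he)
    · by_cases hd : Ch.IsDgn K ⟨n, x⟩
      · rw [sx_eq_zero_of_dgn hd, sx_eq_zero_of_dgn (isDgn_map f hd), map_zero, map_zero]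
      · exact h.inv_sx_pos hx hd
  exact LinearMap.congr_fun this c

theorem RelHomeo.inv_map_j (h : RelHomeo i j g f) (b : N R B) : h.inv (N.map R j b) = 0 := by
  have : h.inv ∘ₗ N.map R j = (0 : N R B →ₗ[R] NRel R i) := by
    refine N_ext fun n x => ?_
    rw [LinearMap.comp_apply, N.map_sx, h.inv_sx_neg]
    · rfl
    · rintro ⟨x', hx', he⟩
      exact hx' (h.disj n x' _ he)
  exact LinearMap.congr_fun this b

/-- relative homeomorphisms induce isomorphisms of relative chains -/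
theorem NRel_map_bijective (h : RelHomeo i j g f) : Bijective (NRel.map (R := R) h.toSq) := by
  constructor
  · rw [injective_iff_map_eq_zero]
    intro x hx
    obtain ⟨x, rfl⟩ := NRel.pi_surj R i x
    rw [NRel.map_pi, NRel.pi_eq_zero] at hx
    obtain ⟨b, hb⟩ := hx
    rw [← h.inv_map, ← hb, h.inv_map_j]
  · intro y
    obtain ⟨y, rfl⟩ := NRel.pi_surj R j y
    have key : NRel.pi R j y ∈ LinearMap.range (NRel.map (R := R) h.toSq) := by
      have hy : y ∈ Submodule.span R (Set.range (nbasis R L)) := by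
        rw [(nbasis R L).span_eq]; trivial
      refine Submodule.span_induction (p := fun y _ => NRel.pi R j y ∈
        LinearMap.range (NRel.map (R := R) h.toSq)) ?_ ?_ ?_ ?_ hy
      · rintro _ ⟨⟨⟨n, z⟩, hz⟩, rfl⟩
        rw [nbasis_apply]
        rcases h.cover n z with ⟨b, rfl⟩ | ⟨x, rfl⟩
        · have : NRel.pi R j (N.sx R (j.app n b)) = 0 :=
            (NRel.pi_eq_zero R j).2 ⟨N.sx R b, N.map_sx j b⟩
          change NRel.pi R j (N.sx R (j.app n b)) ∈ _
          rw [this]; exact zero_mem _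
        · refine ⟨NRel.pi R i (N.sx R x), ?_⟩
          rw [NRel.map_pi, N.map_sx]
      · rw [map_zero]; exact zero_mem _
      · intro a b _ _ ha hb; rw [map_add]; exact add_mem ha hb
      · intro r a _ ha; rw [map_smul]; exact Submodule.smul_mem _ _ ha
    exact key

theorem map_bijective_of_bijective {M M' : Type*} [AddCommGroup M] [AddCommGroup M'] [Module R M]
    [Module R M'] {d : M →ₗ[R] M} {d' : M' →ₗ[R] M'} {φ : M →ₗ[R] M'} (hφ : φ ∘ₗ d = d' ∘ₗ φ)
    (hb : Bijective φ) : Bijective (Hd.map φ hφ) := by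
  have hc : ∀ x, φ (d x) = d' (φ x) := fun x => LinearMap.congr_fun hφ x
  constructor
  · rw [map_injective_iff]
    rintro x hx ⟨w, hw⟩
    obtain ⟨v, rfl⟩ := hb.2 w
    exact ⟨v, hb.1 (by rw [hc, hw])⟩
  · rw [map_surjective_iff]
    intro y hy
    obtain ⟨x, rfl⟩ := hb.2 y
    exact ⟨x, hb.1 (by rw [hc, hy, map_zero]), 0, by rw [map_zero, sub_self]⟩

/-- relative homeomorphisms induce isomorphisms of relative homology (excision, quotients, pushouts) -/
theorem HRel_map_bijective (h : RelHomeo i j g f) : Bijective (HRel.map (R := R) h.toSq) :=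
  map_bijective_of_bijective _ (NRel_map_bijective h)

end Nat

end Crest.Agent.R204.HA683
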