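import Crest.Agent.R204.GL2C_735
import Crest.Agent.R204.GL2A_735
import Crest.Agent.R204.Ops_265
import Crest.Agent.R204.EZSym_888
import Crest.Agent.R204.EZHtp_271
import Crest.Agent.R204.Rel_683

/-!
# Row 204, block C, leaf C8 (helper735): the `GL_2(F_2)` relations in homology

For a `Θ`-algebra `A : ThAlg M K` (helper265) and `T_i = Ops265.T A i`:

* `T_swap  : A.GLswap i j → i ≤ M → j ≤ M → T_i T_j = T_j T_i`;
* `T_shear : A.GLshear i j → i + j ≤ M → T_i T_j = ∑_{l ≤ i} C(l+j, j) T_{i-l} T_{j+l}`.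
-/

set_option autoImplicit false

noncomputable section

namespace Crest.Agent.R204.GL2735

open SS EZ271 ThetaSS265 ThAlg265 Ops265 C5T557 TensorProduct
open DK742 (proj Invo orb AltSS proj_surj)

/-! ### cells of skeleta -/

theorem map_incB {m M : ℕ} (h : m ≤ M) (i : ℕ) (hi : i ≤ m) :
    N.map F2 (incB h) (aCell m i hi) = aCell M i (hi.trans h) := by
  rw [aCell, N.map_sx]; rfl

/-- `addE_*(e_i × e_j)` on skeleta -/
theorem addEM_cross (m m' i j : ℕ) (hi : i ≤ m) (hj : j ≤ m') :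
    N.map F2 (ThAlg265.addE m m') (cross F2 (N.sx F2 (eM m i hi 0)) (N.sx F2 (eM m' j hj 0))) =
      (Nat.choose (i + j) i : F2) • N.sx F2 (eM (m + m') (i + j) (by omega) 0) := by
  apply HA683.N_map_injective F2 (i := skIncl (m + m') EZ2) (fun n x y h => Subtype.ext h)
  have e1 : (skIncl (m + m') EZ2).comp (ThAlg265.addE m m') =
      GL2735.addE.comp (SS.prodMap (skIncl m EZ2) (skIncl m' EZ2)) := rfl
  rw [map_map, e1, ← map_map, map_cross, N.map_sx, N.map_sx, map_smul, N.map_sx]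
  exact GL2735.addE_cross i j

/-- `addB_*(a_i × a_j) = C(i+j, i) a_{i+j}` on skeleta -/
theorem addBM_cross (m m' i j : ℕ) (hi : i ≤ m) (hj : j ≤ m') :
    N.map F2 (ThAlg265.addB m m') (cross F2 (aCell m i hi) (aCell m' j hj)) =
      (Nat.choose (i + j) i : F2) • aCell (m + m') (i + j) (by omega) := by
  have e1 : (ThAlg265.addB m m').comp (SS.prodMap (proj (invEM m)) (proj (invEM m'))) =
      (proj (invEM (m + m'))).comp (ThAlg265.addE m m') := rfl
  rw [aCell, aCell, ← N.map_sx, ← N.map_sx, ← map_cross, map_map, e1, ← map_map, addEM_cross,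
    map_smul, N.map_sx]
  rfl

/-! ### the coproduct of `a_i` -/

theorem act_front_eM (M i a : ℕ) (hi : i ≤ M) (ha : a ≤ i) (b : ZMod 2) :
    (EM M).act (front a i) (eM M i hi b) = eM M a (ha.trans hi) b := by
  apply Subtype.ext
  funext k
  show DK742.alt i b (front a i k) = DK742.alt a b k
  show b + (((front a i k : Fin (i + 1)) : ℕ) : ZMod 2) = b + ((k : ℕ) : ZMod 2)
  rw [front_val, min_eq_left]
  have := k.2
  omega

theorem act_back_eM (M i a : ℕ) (hi : i ≤ M) (ha : a ≤ i) (b : ZMod 2) :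
    (EM M).act (back (i - a) i) (eM M i hi b) = eM M (i - a) (by omega) (b + a) := by
  apply Subtype.ext
  funext k
  show DK742.alt i b (back (i - a) i k) = DK742.alt (i - a) (b + a) k
  show b + (((back (i - a) i k : Fin (i + 1)) : ℕ) : ZMod 2) = b + (a : ZMod 2) + ((k : ℕ) : ZMod 2)
  have h : ((back (i - a) i k : Fin (i + 1)) : ℕ) = a + k := by
    rw [back_val]
    have := k.2
    omega
  rw [h]
  push_cast
  ring

theorem cop_aCell (M i : ℕ) (hi : i ≤ M) : cop F2 (aCell M i hi) =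
    ∑ a : Fin (i + 1), aCell M a (by omega) ⊗ₜ[F2] aCell M (i - a) (by omega) := by
  rw [aCell, cop_sx, ← Fin.sum_univ_eq_sum_range
    (fun a => N.sx F2 ((BM M).act (front a i) ((proj (invEM M)).app i (eM M i hi 0))) ⊗ₜ[F2]
      N.sx F2 ((BM M).act (back (i - a) i) ((proj (invEM M)).app i (eM M i hi 0))))]
  refine Finset.sum_congr rfl fun a _ => ?_
  rw [← (proj (invEM M)).nat, ← (proj (invEM M)).nat, act_front_eM M i a hi (by omega),
    act_back_eM M i a hi (by omega), sx_proj_eM, sx_proj_eM]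

/-- the diagonal of `a_i` -/
theorem diag_aCell (M i : ℕ) (hi : i ≤ M) : ∃ w : N F2 ((BM M).prod (BM M)),
    N.map F2 (SS.diag (BM M)) (aCell M i hi) =
      (∑ a : Fin (i + 1), cross F2 (aCell M a (by omega)) (aCell M (i - a) (by omega))) +
        N.bd F2 _ w := by
  refine ⟨hEZ F2 (N.map F2 (SS.diag (BM M)) (aCell M i hi)), ?_⟩
  have h1 := hEZ_homotopy F2 (N.map F2 (SS.diag (BM M)) (aCell M i hi))
  have h2 : aw F2 (N.map F2 (SS.diag (BM M)) (aCell M i hi)) = cop F2 (aCell M i hi) := by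
    have e1 : (SS.fst (BM M) (BM M)).comp (SS.diag (BM M)) = Hom.id _ := rfl
    have e2 : (SS.snd (BM M) (BM M)).comp (SS.diag (BM M)) = Hom.id _ := rfl
    rw [aw, LinearMap.comp_apply, cop_map]
    rw [← LinearMap.comp_apply, ← TensorProduct.map_comp]
    have e3 : N.map F2 (SS.fst (BM M) (BM M)) ∘ₗ N.map F2 (SS.diag (BM M)) = LinearMap.id := by
      refine LinearMap.ext fun z => ?_
      rw [LinearMap.comp_apply, map_map, e1, map_idHom]; rfl
    have e4 : N.map F2 (SS.snd (BM M) (BM M)) ∘ₗ N.map F2 (SS.diag (BM M)) = LinearMap.id := by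
      refine LinearMap.ext fun z => ?_
      rw [LinearMap.comp_apply, map_map, e2, map_idHom]; rfl
    rw [e3, e4, TensorProduct.map_id]
    rfl
  have h3 : N.bd F2 _ (N.map F2 (SS.diag (BM M)) (aCell M i hi)) = 0 := by
    rw [← map_bd', bd_aCell, map_zero]
  rw [h3, map_zero, add_zero, h2, cop_aCell, map_sum] at h1
  simp only [crossT_tmul] at h1
  rw [h1]
  set S := ∑ a : Fin (i + 1), cross F2 (aCell M a (by omega)) (aCell M (i - a) (by omega))
  set D := N.map F2 (SS.diag (BM M)) (aCell M i hi)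
  have : S + (S - D) = (S + S) - D := by abel
  rw [this, add_self_F2, zero_sub, neg_F2]

/-! ### composites -/

variable {M : ℕ} {K : SS}

theorem Psim_cross (A : ThAlg M K) {m : ℕ} (h : m ≤ M) (i : ℕ) (hi : i ≤ m) (z : N F2 K) :
    N.map F2 (A.Psim h) (cross F2 (aCell m i hi) z) =
      N.map F2 A.Psi (cross F2 (aCell M i (hi.trans h)) z) := by
  rw [ThAlg.Psim, ← map_map, map_cross, map_incB, map_idHom]

theorem bd_cross3 {B B' : SS} {a : N F2 B} {b : N F2 B'} {z : N F2 K} (ha : N.bd F2 B a = 0)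
    (hb : N.bd F2 B' b = 0) (hz : N.bd F2 K z = 0) : N.bd F2 _ (cross F2 a (cross F2 b z)) = 0 := by
  rw [bd_cross2, bd_cross2, ha, hb, hz]; simp

/-- the class `a_i × a_j × z` -/
def cls3 (m m' i j : ℕ) (hi : i ≤ m) (hj : j ≤ m') (z : N F2 K) (hz : N.bd F2 K z = 0) :
    H F2 ((BM m).prod ((BM m').prod K)) :=
  Hd.mk _ (cross F2 (aCell m i hi) (cross F2 (aCell m' j hj) z))
    (bd_cross3 (bd_aCell m i hi) (bd_aCell m' j hj) hz)

theorem T_mk (A : ThAlg M K) {i : ℕ} (h : i ≤ M) (z : N F2 K) (hz : N.bd F2 K z = 0) :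
    T A i (Hd.mk _ z hz) = Hd.mk _ (N.map F2 A.Psi (cross F2 (aCell M i h) z))
      (by rw [← EZ271.map_bd', bd_cross_cyc (bd_aCell M i h) hz, map_zero]) := by
  rw [Ops265.T, TT_of_le A.Th i h, opT_mk]
  rfl

theorem T_T_mk (A : ThAlg M K) {m m' i j : ℕ} (h : m ≤ M) (h' : m' ≤ M) (hi : i ≤ m) (hj : j ≤ m')
    (z : N F2 K) (hz : N.bd F2 K z = 0) :
    T A i (T A j (Hd.mk _ z hz)) = H.map F2 (A.Psi2 h h') (cls3 m m' i j hi hj z hz) := by
  rw [T_mk A (hj.trans h'), T_mk A (hi.trans h), cls3, Hmap_mk]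
  congr 1
  rw [ThAlg.Psi2, ← map_map, map_cross, map_idHom, Psim_cross, Psim_cross]

theorem swap12_cross {B B' : SS} (a : N F2 B) (b : N F2 B') (z : N F2 K) :
    N.map F2 (ThAlg.swap12 B B' K) (cross F2 a (cross F2 b z)) = cross F2 b (cross F2 a z) := by
  have e : ThAlg.swap12 B B' K = (assocHom B' B K).comp
      ((SS.prodMap (SS.swap B B') (Hom.id K)).comp (assocInv B B' K)) := rfl
  rw [e, ← map_map, ← map_map, assocInv_cross, map_cross, swap_cross, map_idHom, assoc_cross]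

/-- **`T_i T_j = T_j T_i`** -/
theorem T_swap (A : ThAlg M K) {i j : ℕ} (hA : A.GLswap i j) (hi : i ≤ M) (hj : j ≤ M)
    (y : H F2 K) : T A i (T A j y) = T A j (T A i y) := by
  obtain ⟨z, hz, rfl⟩ := Hd.mk_surj _ y
  have h1 := LinearMap.congr_fun ((hA hi hj).map_eq HtpInv334.homotopyInv F2)
    (cls3 i j i j le_rfl le_rfl z hz)
  rw [T_T_mk A hi hj le_rfl le_rfl, T_T_mk A hj hi le_rfl le_rfl, ← h1, Hmap_comp]
  congr 1
  rw [cls3, cls3, Hmap_mk]
  congr 1
  exact swap12_cross _ _ _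

/-! ### the shear relation -/

theorem shear_cross (m m' i j : ℕ) (hi : i ≤ m) (hj : j ≤ m') (z : N F2 K)
    (hz : N.bd F2 K z = 0) : ∃ w, N.map F2 (ThAlg.shear m m' K)
      (cross F2 (aCell m i hi) (cross F2 (aCell m' j hj) z)) =
    (∑ a : Fin (i + 1), (Nat.choose (i - a + j) (i - a) : F2) • cross F2 (aCell m a (by omega))
      (cross F2 (aCell (m + m') (i - a + j) (by omega)) z)) + N.bd F2 _ w := by
  obtain ⟨w, hw⟩ := diag_aCell m i hi
  let G : Hom (((BM m).prod (BM m)).prod ((BM m').prod K)) ((BM m).prod ((BM (m + m')).prod K)) :=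
    (SS.prodMap (Hom.id (BM m)) ((SS.prodMap (ThAlg265.addB m m') (Hom.id K)).comp
      (assocInv (BM m) (BM m') K))).comp (assocHom (BM m) (BM m) ((BM m').prod K))
  have e : ThAlg.shear m m' K = G.comp (SS.prodMap (SS.diag (BM m)) (Hom.id _)) := rfl
  refine ⟨N.map F2 G (cross F2 w (cross F2 (aCell m' j hj) z)), ?_⟩
  rw [e, ← map_map, map_cross, map_idHom, hw, map_add, LinearMap.add_apply, map_add]
  congr 1
  · rw [map_sum, LinearMap.sum_apply, map_sum]
    refine Finset.sum_congr rfl fun a _ => ?_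
    show N.map F2 (Hom.comp _ _) _ = _
    rw [← map_map, assoc_cross, map_cross, map_idHom, ← map_map, assocInv_cross, map_cross,
      map_idHom, addBM_cross]
    rw [map_smul, LinearMap.smul_apply, map_smul]
  · rw [← map_bd']
    congr 1
    rw [bd_cross2, bd_cross2, bd_aCell, hz]
    simp

/-- **the shear relation** -/
theorem T_shear (A : ThAlg M K) {i j : ℕ} (hA : A.GLshear i j) (hij : i + j ≤ M) (y : H F2 K) :
    T A i (T A j y) = ∑ l ∈ Finset.range (i + 1),
      (Nat.choose (l + j) j : F2) • T A (i - l) (T A (j + l) y) := by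
  obtain ⟨z, hz, rfl⟩ := Hd.mk_surj _ y
  have h1 := LinearMap.congr_fun ((hA (by omega) (by omega) hij).map_eq HtpInv334.homotopyInv F2)
    (cls3 i j i j le_rfl le_rfl z hz)
  rw [T_T_mk A (by omega) (by omega) le_rfl le_rfl, ← h1, Hmap_comp]
  obtain ⟨w, hw⟩ := shear_cross (K := K) i j i j le_rfl le_rfl z hz
  have h2 : H.map F2 (ThAlg.shear i j K) (cls3 i j i j le_rfl le_rfl z hz) =
      ∑ a : Fin (i + 1), (Nat.choose (i - a + j) (i - a) : F2) •
        cls3 i (i + j) a (i - a + j) (by omega) (by omega) z hz := by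
    rw [cls3, Hmap_mk]
    have h3 : ∀ (s : Finset (Fin (i + 1))) , (∑ a ∈ s, (Nat.choose (i - a + j) (i - a) : F2) •
        cls3 i (i + j) a (i - a + j) (by omega) (by omega) z hz) =
        Hd.mk _ (∑ a ∈ s, (Nat.choose (i - a + j) (i - a) : F2) • cross F2 (aCell i a (by omega))
          (cross F2 (aCell (i + j) (i - a + j) (by omega)) z)) (by
            rw [map_sum]
            refine Finset.sum_eq_zero fun a _ => ?_
            rw [map_smul, bd_cross3 (bd_aCell _ _ _) (bd_aCell _ _ _) hz, smul_zero]) := by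
      classical
      intro s
      induction s using Finset.induction_on with
      | empty => simp only [Finset.sum_empty]; rfl
      | insert a s ha ih =>
        simp only [Finset.sum_insert ha]
        rw [ih]
        rfl
    rw [h3, Hd.mk_eq_mk]
    exact ⟨w, by rw [hw]; abel⟩
  rw [h2, map_sum, Finset.sum_range (fun l => (Nat.choose (l + j) j : F2) •
    T A (i - l) (T A (j + l) (Hd.mk (N.bd F2 K) z hz)))]
  rw [← Equiv.sum_comp Fin.revPerm]
  refine Finset.sum_congr rfl fun a _ => ?_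
  have hr : ((Fin.revPerm a : Fin (i + 1)) : ℕ) = i - a := by
    rw [Fin.revPerm_apply, Fin.val_rev]; omega
  have ha : i - (i - (a : ℕ)) = a := by omega
  rw [map_smul, ← T_T_mk A (by omega) hij]
  simp only [hr, ha]
  rw [Nat.choose_symm_add, add_comm j (a : ℕ)]

/-- both relations (the shape of `FactGL2`) -/
theorem gl2 (A : ThAlg M K) {i j : ℕ} (hs : A.GLswap i j) (hr : A.GLshear i j) (hij : i + j ≤ M)
    (y : H F2 K) : Ops265.T A i (Ops265.T A j y) = Ops265.T A j (Ops265.T A i y) ∧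
      Ops265.T A i (Ops265.T A j y) = ∑ l ∈ Finset.range (i + 1),
        (Nat.choose (l + j) j : F2) • Ops265.T A (i - l) (Ops265.T A (j + l) y) :=
  ⟨T_swap A hs (by omega) (by omega) y, T_shear A hr hij y⟩

/-- the instance `Sing (Ω^J Z)` : `k` and `k'` disjoint sets of `M + 1` coordinates -/
theorem omAlg_gl2 {J Z : Type} [Finite J] [TopologicalSpace Z] {z₀ : Z} {M : ℕ}
    {k k' : Fin (M + 1) ↪ J} (hd : ∀ x y, k x ≠ k' y)
    (mu : Hom ((Sing (Om J Z z₀)).prod (Sing (Om J Z z₀))) (Sing (Om J Z z₀)))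
    {i j : ℕ} (hij : i + j ≤ M) (y : H F2 (Sing (Om J Z z₀))) :
    Ops265.T (omAlg k mu) i (Ops265.T (omAlg k mu) j y) =
        Ops265.T (omAlg k mu) j (Ops265.T (omAlg k mu) i y) ∧
      Ops265.T (omAlg k mu) i (Ops265.T (omAlg k mu) j y) = ∑ l ∈ Finset.range (i + 1),
        (Nat.choose (l + j) j : F2) •
          Ops265.T (omAlg k mu) (i - l) (Ops265.T (omAlg k mu) (j + l) y) :=
  gl2 _ (omAlg_GLswap hd mu i j) (omAlg_GLshear hd mu i j) hij y

end Crest.Agent.R204.GL2735
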