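import Crest.Agent.R204.C5T_557
import Crest.Agent.R204.ThAlg_265
import Crest.Agent.R204.C5_265
import Crest.Agent.R204.HtpInv_334

/-!
# Row 204, leaf C5 (helper557): `T_i 1` and `T_0` for an abstract `Θ`-algebra
-/

set_option autoImplicit false

noncomputable section

namespace Crest.Agent.R204.C5T557

open SS EZ271 ThetaSS265 ThAlg265
open DK742 hiding bd_sx_zero bd_sx_succ

variable {M : ℕ} {K : SS}

/-- the cells of this file are the chains `aa` of `C5_265` -/
theorem aCell_eq_aa (M i : ℕ) (h : i ≤ M) : aCell M i h = C5265.aa M i := by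
  unfold C5265.aa
  rw [C5265.ee_of_le h, N.map_sx]
  unfold aCell
  congr 2
  exact (skel_e M i h 0).symm

theorem TT_eq (Th : Hom (DM M K) K) (i : ℕ) (h : i ≤ M) :
    TT Th i = H.map F2 (PsiOf Th) ∘ₗ C5265.crossL (C5265.aa M i) (C5265.bd_aa h) := by
  rw [TT_of_le Th i h]
  refine LinearMap.ext fun y => ?_
  obtain ⟨z, hz, rfl⟩ := Hd.mk_surj _ y
  rw [opT_mk, LinearMap.comp_apply, C5265.crossL_mk]
  refine congrArg (H.map F2 (PsiOf Th)) (a₁ := Hd.mk _ (cross F2 (aCell M i h) z)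
    (bd_cross_cyc (bd_aCell M i h) hz)) ?_
  rw [Hd.mk_eq_mk]
  exact ⟨0, by rw [map_zero, aCell_eq_aa, sub_self]⟩

variable (A : ThAlg M K)

theorem psi_one (h1 : A.OneLaw) :
    (PsiOf A.Th).comp (SS.pair (SS.Hom.id (BM M)) (SS.constHom (BM M) K A.one)) =
      SS.constHom (BM M) K A.one := by
  refine SS.Hom.ext (funext fun n => funext fun b => ?_)
  obtain ⟨g, rfl⟩ := proj_surj (invEM M) n b
  exact h1 n g

theorem psi_vertex :
    (PsiOf A.Th).comp (SS.pair (SS.constHom K (BM M)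
      ((proj (invEM M)).app 0 (eM M 0 (Nat.zero_le M) 0))) (SS.Hom.id K)) =
    (A.Th.comp (ThAlg265.vtx M K)).comp (SS.diag K) := by
  refine SS.Hom.ext (funext fun n => funext fun x => ?_)
  show A.Th.app n ((diagD M K).app n ((proj (invEM M)).app n
    ((EM M).act (toZero n) (eM M 0 (Nat.zero_le M) 0)), x)) = A.Th.app n
      ((proj ((invEM M).prod (Invo.swap K))).app n (e0 M n, (x, x)))
  rw [diagD_proj]
  have h : (EM M).act (toZero n) (eM M 0 (Nat.zero_le M) 0) = e0 M n :=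
    Subtype.ext (funext fun i => alt_zero 0 0)
  rw [h]

/-- **`T_i 1 = δ_{i0}`** -/
theorem T_one (h1 : A.OneLaw) (i : ℕ) (hi : i ≤ M) :
    TT A.Th i (C5T557.vtx F2 A.one) = if i = 0 then C5T557.vtx F2 A.one else 0 :=
  TT_one A.Th A.one (by rw [psi_one A h1]) i hi

/-- **`T_0 y = μ_* (Δ_* y)`** -/
theorem T_zero (hV : A.Vertex) (y : H F2 K) :
    TT A.Th 0 y = H.map F2 A.mu (H.map F2 (SS.diag K) y) := by
  refine TT_zero A.Th A.mu ?_ y
  rw [psi_vertex]
  exact SH.map_eq HtpInv334.homotopyInv F2 (hV.pre (SS.diag K))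

end Crest.Agent.R204.C5T557
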