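import Crest.Agent.R204.Sq_252

/-!
# Row 204, block S: dual Steenrod squares `Sq K l : H F2 K → H F2 K`, degrees, `Sq 0 = id`,
instability, naturality   (helper252)
-/

set_option autoImplicit false

noncomputable section

open TensorProduct Finsupp

namespace Crest.Agent.R204.Sq252

open SS DK742 Phi252 QC134 Gr334

/-! ## degrees of `R_k` -/

theorem uu_prN_TG {K : SS} {m p : ℕ} (hmp : m ≠ 2 * p) (u : N F2 K →ₗ[F2] F2) {z : NN K}
    (hz : z ∈ TG K m) : uu (u ∘ₗ prN F2 K p) z = 0 := by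
  refine Submodule.span_induction (p := fun z _ => uu (u ∘ₗ prN F2 K p) z = 0) ?_ ?_ ?_ ?_ hz
  · rintro _ ⟨a, b, x, y, h, rfl⟩
    rw [uu_tmul, LinearMap.comp_apply, LinearMap.comp_apply, prN_sx, prN_sx]
    by_cases ha : a = p
    · rw [if_neg (show b ≠ p by omega), map_zero, mul_zero]
    · rw [if_neg ha, map_zero, zero_mul]
  · exact map_zero _
  · intro a b _ _ ha hb; rw [map_add, ha, hb, add_zero]
  · intro r a _ ha; rw [map_smul, ha, smul_zero]

theorem Phi_mem_TG' {K : SS} {n i : ℕ} {z : N F2 K} (hz : z ∈ N.gr F2 K n) :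
    Phi K i z ∈ TG K (n + i) := by
  refine gr_induction (p := fun z => Phi K i z ∈ TG K (n + i)) hz ?_ ?_ ?_ fun x => Phi_mem_TG x
  · rw [map_zero]; exact Submodule.zero_mem _
  · intro a b ha hb; rw [map_add]; exact Submodule.add_mem _ ha hb
  · intro r a ha; rw [map_smul]; exact Submodule.smul_mem _ _ ha

theorem Phi_eq_zero' {K : SS} {n i : ℕ} (h : n < i) {z : N F2 K} (hz : z ∈ N.gr F2 K n) :
    Phi K i z = 0 := by
  refine gr_induction (p := fun z => Phi K i z = 0) hz (map_zero _) ?_ ?_ fun x => Phi_eq_zero h x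
  · intro a b ha hb; rw [map_add, ha, hb, add_zero]
  · intro r a ha; rw [map_smul, ha, smul_zero]

theorem prH_Rk {K : SS} {n k p : ℕ} (h : n + k ≠ 2 * p) {x : H F2 K} (hx : x ∈ H.gr F2 K n) :
    prH F2 K p (Rk K k x) = 0 := by
  obtain ⟨z, hz, hc, rfl⟩ := mem_H_gr.1 hx
  refine Hd_ext (bdd K) fun u hu => ?_
  have hu' : ∀ x, (u ∘ₗ prN F2 K p) (N.bd F2 K x) = 0 := fun x => by
    rw [LinearMap.comp_apply, prN_bd, hu]
  have e1 : ∀ y : H F2 K, uH _ u hu (prH F2 K p y) = uH _ (u ∘ₗ prN F2 K p) hu' y := by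
    intro y
    obtain ⟨y, hy, rfl⟩ := Hd.mk_surj _ y
    rfl
  rw [e1, uH_Rk, map_zero, uu_prN_TG h u (Phi_mem_TG' hz)]

theorem Rk_eq_zero_of_odd {K : SS} {n k : ℕ} (h : (n + k) % 2 = 1) {x : H F2 K}
    (hx : x ∈ H.gr F2 K n) : Rk K k x = 0 := by
  obtain ⟨M, -, hM⟩ := exists_sum_prH (Rk K k x)
  rw [hM]
  exact Finset.sum_eq_zero fun p _ => prH_Rk (by omega) hx

theorem Rk_mem_gr {K : SS} {n k m : ℕ} (h : n + k = 2 * m) {x : H F2 K}
    (hx : x ∈ H.gr F2 K n) : Rk K k x ∈ H.gr F2 K m := by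
  obtain ⟨M, hM0, hM⟩ := exists_sum_prH (Rk K k x)
  rw [hM]
  refine Submodule.sum_mem _ fun p _ => ?_
  by_cases hp : p = m
  · subst hp; exact prH_mem _ _
  · rw [prH_Rk (by omega) hx]; exact Submodule.zero_mem _

theorem Rk_eq_zero_of_lt {K : SS} {n k : ℕ} (h : n < k) {x : H F2 K}
    (hx : x ∈ H.gr F2 K n) : Rk K k x = 0 := by
  obtain ⟨z, hz, hc, rfl⟩ := mem_H_gr.1 hx
  refine Hd_ext (bdd K) fun u hu => ?_
  rw [uH_Rk, Phi_eq_zero' h hz, map_zero, map_zero]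

/-- `Sq_0 = id` -/
theorem Rk_self {K : SS} {n : ℕ} {x : H F2 K} (hx : x ∈ H.gr F2 K n) : Rk K n x = x := by
  obtain ⟨z, hz, hc, rfl⟩ := mem_H_gr.1 hx
  refine Hd_ext (bdd K) fun u hu => ?_
  rw [uH_Rk, uH_mk]
  refine gr_induction (p := fun z => uu u (Phi K n z) = u z) hz (by simp) ?_ ?_ fun x => ?_
  · intro a b ha hb; rw [map_add, map_add, map_add, ha, hb]
  · intro r a ha; rw [map_smul, map_smul, map_smul, ha]
  · rw [Phi_top, uu_tmul, f2_sq]

/-! ## locally finite sums -/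

/-- the linear map which is `f n` on `gr n` -/
def glsum {K : SS} {V : Type*} [AddCommGroup V] [Module F2 V] (f : ℕ → (H F2 K →ₗ[F2] V)) :
    H F2 K →ₗ[F2] V :=
  (DirectSum.toModule F2 ℕ V (fun n => f n ∘ₗ (H.gr F2 K n).subtype)) ∘ₗ
    (LinearEquiv.ofBijective (DirectSum.coeLinearMap (H.gr F2 K)) (isInternal_H F2 K)).symm.toLinearMap

theorem glsum_apply {K : SS} {V : Type*} [AddCommGroup V] [Module F2 V]
    (f : ℕ → (H F2 K →ₗ[F2] V)) {n : ℕ} {x : H F2 K} (hx : x ∈ H.gr F2 K n) :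
    glsum f x = f n x := by
  have h1 : (LinearEquiv.ofBijective (DirectSum.coeLinearMap (H.gr F2 K)) (isInternal_H F2 K)).symm x =
      DirectSum.lof F2 ℕ (fun n => H.gr F2 K n) n ⟨x, hx⟩ := by
    rw [LinearEquiv.symm_apply_eq]
    show _ = DirectSum.coeLinearMap (H.gr F2 K) _
    rw [DirectSum.coeLinearMap_lof]
  rw [glsum, LinearMap.comp_apply, LinearEquiv.coe_coe, h1, DirectSum.toModule_lof]
  rfl

/-- **the dual Steenrod square** `Sq^l_*` -/
def Sq (K : SS) (l : ℕ) : H F2 K →ₗ[F2] H F2 K :=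
  glsum (fun n => if 2 * l ≤ n then Rk K (n - 2 * l) else 0)

theorem Sq_apply {K : SS} {l n : ℕ} {x : H F2 K} (hx : x ∈ H.gr F2 K n) (h : 2 * l ≤ n) :
    Sq K l x = Rk K (n - 2 * l) x := by
  rw [Sq, glsum_apply _ hx, if_pos h]

/-- instability -/
theorem Sq_unst {K : SS} {l n : ℕ} {x : H F2 K} (hx : x ∈ H.gr F2 K n) (h : n < 2 * l) :
    Sq K l x = 0 := by
  rw [Sq, glsum_apply _ hx, if_neg (by omega)]; rfl

theorem Rk_eq_Sq {K : SS} {l n k : ℕ} {x : H F2 K} (hx : x ∈ H.gr F2 K n) (h : n = 2 * l + k) :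
    Rk K k x = Sq K l x := by
  rw [Sq_apply hx (by omega)]; congr 2; omega

/-- `Sq_0 = id` -/
theorem Sq_zero {K : SS} (x : H F2 K) : Sq K 0 x = x := by
  refine H_induction (p := fun x => Sq K 0 x = x) x (map_zero _) ?_ fun n x hx => ?_
  · intro a b ha hb; rw [map_add, ha, hb]
  · rw [Sq_apply hx (by omega)]
    exact Rk_self hx

/-- degree -/
theorem Sq_mem_gr {K : SS} {l n : ℕ} {x : H F2 K} (hx : x ∈ H.gr F2 K n) :
    Sq K l x ∈ H.gr F2 K (n - l) := by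
  by_cases h : 2 * l ≤ n
  · rw [Sq_apply hx h]; exact Rk_mem_gr (by omega) hx
  · rw [Sq_unst hx (by omega)]; exact Submodule.zero_mem _

/-- naturality -/
theorem Sq_map {K L : SS} (f : Hom K L) (l : ℕ) (x : H F2 K) :
    H.map F2 f (Sq K l x) = Sq L l (H.map F2 f x) := by
  refine H_induction (p := fun x => H.map F2 f (Sq K l x) = Sq L l (H.map F2 f x)) x (by simp) ?_
    fun n x hx => ?_
  · intro a b ha hb; simp only [map_add, ha, hb]
  · by_cases h : 2 * l ≤ n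
    · rw [Sq_apply hx h, Sq_apply (H_map_mem_gr f hx) h, Rk_map]
    · rw [Sq_unst hx (by omega), Sq_unst (H_map_mem_gr f hx) (by omega), map_zero]

/-- functional characterisation of `Sq` -/
theorem uH_Sq {K : SS} {l n : ℕ} (h : 2 * l ≤ n) (u : N F2 K →ₗ[F2] F2)
    (hu : ∀ x, u (N.bd F2 K x) = 0) {z : N F2 K} (hzn : z ∈ N.gr F2 K n) (hz : N.bd F2 K z = 0) :
    uH _ u hu (Sq K l (Hd.mk _ z hz)) = uu u (Phi K (n - 2 * l) z) := by
  rw [Sq_apply (mk_mem_gr hzn hz) h, uH_Rk]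

/-- components of `St_i` -/
theorem kap_St_gr {K : SS} {n l i j : ℕ} {x : H F2 K} (hx : x ∈ H.gr F2 K n)
    (h : i + 2 * l = n + j + 1) (hji : j + 1 ≤ i) : kap (N.bd F2 K) (bdd K) j (St K i x) = Sq K l x := by
  rw [kap_St, if_pos hji, Rk_eq_Sq (l := l) hx (by omega)]

end Crest.Agent.R204.Sq252
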