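import Crest.Agent.R204.P4b_742
import Crest.Agent.R204.Sq2_252
import Crest.Agent.R204.OpsHopf_557

/-!
# Row 204, S-block P4 = (1.3), graded form on 557's names (helper742)
-/

set_option autoImplicit false

noncomputable section

namespace Crest.Agent.R204.P4

open SS DK742 ThetaSS265 C5265 Gr334

variable {M : ℕ} {K : SS}

theorem pw_zero' (i : ℕ) : C5265.pw M K i 0 = 0 := by
  by_cases h : i ≤ M
  · have h0 : (0 : H F2 K) = Hd.mk (N.bd F2 K) 0 (map_zero _) := rfl
    rw [h0, C5265.pw_mk h, Hd.mk_eq_zero]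
    exact ⟨0, by simp⟩
  · rw [C5265.pw, dif_neg h]

/-- **(1.3)** for a class of degree `t` -/
theorem diagD_gr {i t : ℕ} (hi : i + 1 ≤ M) {y : H F2 K} (hy : y ∈ H.gr F2 K t) :
    H.map F2 (diagD M K) (crossL (aa M i) (bd_aa (by omega)) y) =
      ∑ l ∈ Finset.range (t / 2 + 1),
        if t ≤ i + 2 * l then C5265.pw M K (i + 2 * l - t) (Sq252.Sq K l y) else 0 := by
  rw [diagD_eq hi]
  symm
  refine Finset.sum_bij_ne_zero (fun l _ _ => i + 2 * l - t) ?_ ?_ ?_ ?_
  · intro l hl hne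
    rw [Finset.mem_range] at hl ⊢
    have : t ≤ i + 2 * l := by
      by_contra h; rw [if_neg h] at hne; exact hne rfl
    omega
  · intro l hl hne l' hl' hne' h
    have h1 : t ≤ i + 2 * l := by
      by_contra h; rw [if_neg h] at hne; exact hne rfl
    have h2 : t ≤ i + 2 * l' := by
      by_contra h; rw [if_neg h] at hne'; exact hne' rfl
    omega
  · intro a ha hne
    rw [Finset.mem_range] at ha
    have h1 : i - a ≤ t := by
      by_contra h
      rw [Sq252.Rk_eq_zero_of_lt (by omega) hy, pw_zero'] at hne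
      exact hne rfl
    have h2 : (t + (i - a)) % 2 = 0 := by
      by_contra h
      rw [Sq252.Rk_eq_zero_of_odd (by omega) hy, pw_zero'] at hne
      exact hne rfl
    obtain ⟨l, hl⟩ : ∃ l, t = 2 * l + (i - a) := ⟨(t - (i - a)) / 2, by omega⟩
    have h3 : i + 2 * l - t = a := by omega
    refine ⟨l, by rw [Finset.mem_range]; omega, ?_, h3⟩
    rw [if_pos (by omega), h3, ← Sq252.Rk_eq_Sq hy hl]
    exact hne
  · intro l hl hne
    rw [Finset.mem_range] at hl
    have h1 : t ≤ i + 2 * l := by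
      by_contra h; rw [if_neg h] at hne; exact hne rfl
    rw [if_pos h1, Sq252.Rk_eq_Sq hy (l := l) (by omega)]

/-- 557's form -/
theorem p4At {i t : ℕ} (hi : i + 1 ≤ M) {y : H F2 K} (hy : y ∈ H.gr F2 K t) :
    OpsHopf557.P4At M K (fun l => Sq252.Sq K l) i t (by omega) y := diagD_gr hi hy

/-- **`Fact13` of `Spec_114`** for one stage: `T_i y = ∑ Q^{i+l} Sq_l y`, `i < M` -/
theorem T_eq_sum (A : ThAlg265.ThAlg M K) {i t : ℕ} (hi : i + 1 ≤ M) {y : H F2 K}
    (hy : y ∈ H.gr F2 K t) :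
    Ops265.T A i y = ∑ l ∈ Finset.range (t / 2 + 1),
      OpsHopf557.Qup A (i + l) (t - l) (Sq252.Sq K l y) :=
  OpsHopf557.T_eq_sum A (p4At hi hy)

end Crest.Agent.R204.P4
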