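import Crest.Agent.R204.SqPhi_888
import Crest.Agent.R204.Sq_252

/-!
# Row 204, block A5: Cartan formula for `Rk` (total form), expansion of `[e_i ⊗ Δ x]` (helper888)
-/

set_option autoImplicit false

noncomputable section

namespace Crest.Agent.R204.Q888

open Finsupp TensorProduct QC134 EZ271

/-- the coefficients of `[e_i ⊗ Δ x]` are 252's operations `R_k` -/
theorem cf_s_Rk (K : SS) (J : ℕ) (hJ : 1 ≤ J) (i : ℕ) (x : H F2 K) :
    cf K J ((isSq K).s i x) = if J ≤ i then Sq252.Rk K (i - J) x else 0 := by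
  obtain ⟨z, hz, rfl⟩ := Hd.mk_surj _ x
  refine Sq252.Hd_ext (Sq252.bdd K) fun u hu => ?_
  rw [cf_s_functional K J hJ i (Sq252.uH _ u hu) u hu (fun z hz => rfl)]
  split_ifs
  · rw [Sq252.uH_Rk]; rfl
  · simp

/-- **external Cartan formula** (total form, no gradings) -/
theorem Rk_cross (K L : SS) (k : ℕ) (x : H F2 K) (y : H F2 L) :
    Sq252.Rk (K.prod L) k (crH x y) =
      ∑ p ∈ Finset.HasAntidiagonal.antidiagonal k, crH (Sq252.Rk K p.1 x) (Sq252.Rk L p.2 y) := by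
  have h := cartan_cf K L 1 1 le_rfl le_rfl (k + 2) x y
  rw [cf_s_Rk _ _ (by omega), if_pos (by omega)] at h
  rw [show k + 2 - (1 + 1) = k from by omega] at h
  rw [h, Finset.sum_range_succ, Finset.sum_range_succ', cf_s_Rk K 1 le_rfl 0, if_neg (by omega),
    cf_s_Rk L 1 le_rfl (k + 2 - (k + 2)), if_neg (by omega), map_zero, map_zero,
    LinearMap.zero_apply, add_zero, add_zero, Finset.Nat.sum_antidiagonal_eq_sum_range_succ_mk]
  refine Finset.sum_congr rfl fun j hj => ?_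
  have hj' := Finset.mem_range.1 hj
  rw [cf_s_Rk K 1 le_rfl, if_pos (by omega), cf_s_Rk L 1 le_rfl, if_pos (by omega)]
  rw [show j + 1 - 1 = j from by omega, show k + 2 - (j + 1) - 1 = k - j from by omega]

section

variable {X Y : Type} [AddCommGroup X] [Module F2 X] [AddCommGroup Y] [Module F2 Y]
  {dX : X →ₗ[F2] X} {dY τ : Y →ₗ[F2] Y} {nab : X →ₗ[F2] X →ₗ[F2] Y} {dg : X →ₗ[F2] Y}
  {h : IsSq dX dY τ nab dg} {c : ℕ → Hd (QD dY τ) →ₗ[F2] Hd dX}

/-- the shift of a class is determined by its coefficients -/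
theorem IsCoef.sh_expand (hc : IsCoef h c) (ζ : Hd (QD dY τ)) :
    ∃ B, ∀ B', B ≤ B' → h.shH ζ = ∑ J ∈ Finset.range B', h.G J (c (J + 1) ζ) := by
  refine hc.ind (P := fun ζ => ∃ B, ∀ B', B ≤ B' →
    h.shH ζ = ∑ J ∈ Finset.range B', h.G J (c (J + 1) ζ)) ?_ ?_ ?_ ?_ ζ
  · exact ⟨0, fun B' _ => by simp⟩
  · rintro x y ⟨B, hB⟩ ⟨C, hC⟩
    refine ⟨max B C, fun B' hB' => ?_⟩
    simp only [map_add, Finset.sum_add_distrib]
    rw [hB B' (le_trans (le_max_left _ _) hB'), hC B' (le_trans (le_max_right _ _) hB')]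
  · intro m x
    rcases m with _ | m
    · refine ⟨0, fun B' _ => ?_⟩
      rw [h.sh_G0]
      symm
      refine Finset.sum_eq_zero fun J _ => ?_
      rw [hc.c_G _ (by omega), if_neg (by omega), map_zero]
    · refine ⟨m + 1, fun B' hB' => ?_⟩
      rw [h.sh_G, Finset.sum_eq_single m]
      · rw [hc.c_G _ (by omega), if_pos rfl]
      · intro J _ hJ
        rw [hc.c_G _ (by omega), if_neg (by omega), map_zero]
      · intro hm
        exact absurd (Finset.mem_range.2 (by omega)) hm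
  · intro x y
    refine ⟨0, fun B' _ => ?_⟩
    rw [h.sh_T0]
    symm
    refine Finset.sum_eq_zero fun J _ => ?_
    rw [hc.c_T0 _ (by omega), map_zero]

end

/-- **(1.3) in `H(Q(N(K × K)))`, total form**: `[e_i ⊗ Δ x] = ∑_J [e_J ⊗ (R_{i-J} x)^{⊗ 2}]`,
all `i ≥ 0`, all `x`. -/
theorem s_expand (K : SS) (i : ℕ) (x : H F2 K) : (isSq K).s i x =
    ∑ J ∈ Finset.range (i + 1), (isSq K).G J (Sq252.Rk K (i - J) x) := by
  obtain ⟨B, hB⟩ := (isCoef K).sh_expand ((isSq K).s (i + 1) x)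
  have h := hB (max B (i + 1)) (le_max_left _ _)
  rw [(isSq K).sh_s] at h
  rw [h]
  symm
  refine Finset.sum_subset_zero_on_sdiff (fun J hJ => ?_) (fun J hJ => ?_) (fun J hJ => ?_)
  · rw [Finset.mem_range] at hJ ⊢; omega
  · rw [Finset.mem_sdiff, Finset.mem_range, Finset.mem_range] at hJ
    rw [cf_s_Rk _ _ (by omega), if_neg (by omega), map_zero]
  · rw [Finset.mem_range] at hJ
    rw [cf_s_Rk _ _ (by omega), if_pos (by omega)]
    rw [show i + 1 - (J + 1) = i - J from by omega]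

end Crest.Agent.R204.Q888
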