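import Crest.Agent.R204.TopSq_898
import Crest.Agent.R204.RkCartan_888

/-!
# Row 204, block S (helper898): the external Cartan formula for `Sq252.Sq`, and the instance

`sqPre : SqPre`, `sqSys : SqSys` for the Steenrod operations of helper252.
-/

set_option autoImplicit false

noncomputable section

namespace Crest.Agent.R204.C6898

open SS TensorProduct Coalg847 EZ271 EZ847 Sq252
open Finset.HasAntidiagonal (antidiagonal mem_antidiagonal)

theorem crH_eq {K L : SS} (x : H F2 K) (y : H F2 L) : Q888.crH x y = Ez.cr K L (x ⊗ₜ y) := by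
  obtain ⟨x, hx, rfl⟩ := Hd.mk_surj _ x
  obtain ⟨y, hy, rfl⟩ := Hd.mk_surj _ y
  rw [EZData.cr_mk]
  rfl

/-- Cartan formula, homogeneous classes -/
theorem Sq_crH_gr {K L : SS} (a : ℕ) {m n : ℕ} {x : H F2 K} {y : H F2 L} (hx : x ∈ H.gr F2 K m)
    (hy : y ∈ H.gr F2 L n) : Sq (K.prod L) a (Q888.crH x y) =
      ∑ p ∈ antidiagonal a, Q888.crH (Sq K p.1 x) (Sq L p.2 y) := by
  classical
  have hxy : Q888.crH x y ∈ H.gr F2 (K.prod L) (m + n) := by
    rw [crH_eq]; exact Ez.cr_mem_gr hx hy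
  -- only the terms with `2 p ≤ m`, `2 q ≤ n` contribute
  have h0 : ∑ p ∈ antidiagonal a with (2 * p.1 ≤ m ∧ 2 * p.2 ≤ n),
      Q888.crH (Sq K p.1 x) (Sq L p.2 y) = ∑ p ∈ antidiagonal a, Q888.crH (Sq K p.1 x) (Sq L p.2 y) := by
    refine Finset.sum_filter_of_ne fun p _ hp => ?_
    by_contra hcon
    apply hp
    rcases not_and_or.1 hcon with h | h
    · rw [Sq_unst hx (by omega), map_zero, LinearMap.zero_apply]
    · rw [Sq_unst hy (by omega), map_zero]
  rw [← h0]
  by_cases hmn : 2 * a ≤ m + n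
  · rw [Sq_apply hxy hmn, Q888.Rk_cross, eq_comm]
    refine Finset.sum_of_injOn (fun p => (m - 2 * p.1, n - 2 * p.2)) ?_ ?_ ?_ ?_
    · rintro ⟨i, j⟩ hij ⟨i', j'⟩ hij' h
      simp only [Finset.coe_filter, Set.mem_ofPred_eq, mem_antidiagonal] at hij hij'
      simp only [Prod.mk.injEq] at h
      refine Prod.ext ?_ ?_ <;> simp only <;> omega
    · rintro ⟨i, j⟩ hij
      simp only [Finset.coe_filter, Set.mem_ofPred_eq, mem_antidiagonal] at hij
      simp only [Finset.mem_coe, mem_antidiagonal]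
      omega
    · rintro ⟨p, q⟩ hpq hne
      simp only [mem_antidiagonal] at hpq
      simp only
      by_cases h1 : m < p
      · rw [Rk_eq_zero_of_lt h1 hx, map_zero, LinearMap.zero_apply]
      by_cases h2 : n < q
      · rw [Rk_eq_zero_of_lt h2 hy, map_zero]
      by_cases h3 : (m + p) % 2 = 1
      · rw [Rk_eq_zero_of_odd h3 hx, map_zero, LinearMap.zero_apply]
      refine (hne ⟨((m - p) / 2, (n - q) / 2), ?_, ?_⟩).elim
      · simp only [Finset.coe_filter, Set.mem_ofPred_eq, mem_antidiagonal]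
        omega
      · simp only [Prod.mk.injEq]
        omega
    · rintro ⟨i, j⟩ hij
      simp only [Finset.mem_filter, mem_antidiagonal] at hij
      simp only
      rw [Sq_apply hx hij.2.1, Sq_apply hy hij.2.2]
  · rw [Sq_unst hxy (by omega), eq_comm]
    refine Finset.sum_eq_zero ?_
    rintro ⟨i, j⟩ hij
    simp only [Finset.mem_filter, mem_antidiagonal] at hij
    omega

/-- **external Cartan formula** for `Sq` -/
theorem Sq_crH (K L : SS) (a : ℕ) (x : H F2 K) (y : H F2 L) :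
    Sq (K.prod L) a (Q888.crH x y) = ∑ p ∈ antidiagonal a, Q888.crH (Sq K p.1 x) (Sq L p.2 y) := by
  refine Gr334.H_induction (p := fun x => Sq (K.prod L) a (Q888.crH x y) =
    ∑ p ∈ antidiagonal a, Q888.crH (Sq K p.1 x) (Sq L p.2 y)) x (by simp) ?_ fun m x hx => ?_
  · intro x x' h h'
    simp only [map_add, LinearMap.add_apply, h, h', Finset.sum_add_distrib]
  refine Gr334.H_induction (p := fun y => Sq (K.prod L) a (Q888.crH x y) =
    ∑ p ∈ antidiagonal a, Q888.crH (Sq K p.1 x) (Sq L p.2 y)) y (by simp) ?_ fun n y hy => ?_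
  · intro y y' h h'
    simp only [map_add, h, h', Finset.sum_add_distrib]
  exact Sq_crH_gr a hx hy

/-- **external Cartan formula** for `Sq`, in terms of `Ez.cr` -/
theorem Sq_cr (K L : SS) (a : ℕ) (x : H F2 K) (y : H F2 L) :
    Sq (K.prod L) a (Ez.cr K L (x ⊗ₜ y)) =
      ∑ p ∈ antidiagonal a, Ez.cr K L (Sq K p.1 x ⊗ₜ Sq L p.2 y) := by
  rw [← crH_eq, Sq_crH]
  exact Finset.sum_congr rfl fun p _ => crH_eq _ _

/-- the Steenrod operations of helper252 -/
def sqPre : SqPre where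
  Sq := Sq252.Sq
  nat f a x := Sq_map f a x
  cartan := Sq_cr
  zero x := Sq_zero x
  gr _ _ _ hx := Sq_mem_gr hx
  unst _ _ _ hx h := Sq_unst hx h
  top2 := top2

/-- the system for the operations `T_i` -/
def sqSys : SqSys := sqPre.toSys

theorem sqSys_Sq : sqSys.Sq = Sq252.Sq := rfl

/-- Cartan formula for the coproduct -/
theorem cop_Sq252 {K : SS} (a : ℕ) (x : H F2 K) : Ez.cop K (Sq252.Sq K a x) =
    ∑ p ∈ antidiagonal a, TensorProduct.map (Sq252.Sq K p.1) (Sq252.Sq K p.2) (Ez.cop K x) :=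
  sqPre.cop_Sq a x

/-- `Sq_b a_i = C(i-b,b) a_{i-b}` -/
theorem Sq252_aZ (i b : ℕ) : Sq252.Sq BZ498.BZ b (BZ498.aZ i) =
    if 2 * b ≤ i then (Nat.choose (i - b) b : F2) • BZ498.aZ (i - b) else 0 := sqPre.sqB i b

end Crest.Agent.R204.C6898
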