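import Crest.Agent.R204.SrcTot_85
import Crest.Agent.R204.SqCartan_898
import Crest.Agent.R204.P4c_742
import Crest.Agent.R204.GL2D_735

/-!
# Row 204, leaf G11 (helper85): `ThFacts` for every `Θ`-algebra with `GL_2`-laws, unconditionally
-/

set_option autoImplicit false

noncomputable section

namespace Crest.Agent.R204.SrcTot85

open SS ThAlg265 Ops265

/-- the facts for the Steenrod squares of helper252 -/
theorem thFacts {M D : ℕ} {K : SS} (A : ThAlg M K) (hD : D + 2 ≤ M)
    (hs : ∀ i j, A.GLswap i j) (hr : ∀ i j, A.GLshear i j) :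
    ThFacts A D (fun a => Sq252.Sq K a) where
  sq0 := Sq252.Sq_zero
  sqgr := fun a t y hy => Sq252.Sq_mem_gr hy
  unst := fun a t y hy h => Sq252.Sq_unst hy h
  sqT := fun i hi a y => C6898.sqSys.Sq_T A (by omega) a y
  gl2 := fun i j hij y => GL2735.gl2 A (hs i j) (hr i j) (by omega) y
  f13 := fun i _ hi t y hy => P4.T_eq_sum A (by omega) hy

/-- the facts for the thread algebra -/
theorem totFacts (e : ℕ ⊕ ℕ ↪ ℕ) {M D : ℕ} (hD : D + 2 ≤ M) :
    ThFacts (TotAlg328.totAlg e M) D (fun a => Sq252.Sq (Thr328.Tot ℕ) a) :=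
  thFacts _ hD (TotAlg328.glswap e M) (TotAlg328.glshear e M)

end Crest.Agent.R204.SrcTot85
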