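import Crest.Agent.R204.FourK_947
import Crest.Agent.R204.KDT_103
import Crest.Agent.R204.ThFacts_85
import Crest.Agent.R204.InstBase_194

/-!
# Row 204, block G (helper947): `FactFour` for the concrete tower from `FactPoly0` and `SQ(Perm)`
-/

set_option autoImplicit false
set_option linter.unusedSectionVars false
set_option linter.style.haveILetI false

noncomputable section

namespace Crest.Agent.R204.Four947

open Crest.Agent.R204 Inst194 InstSph478

/-- **FactFour**: the only inputs are `FactPoly0` and `SQ` for the symmetric groups -/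
theorem factFour (p : Par) {D : ℕ} (hM : D + 2 ≤ p.M) (hK : D + 2 ≤ p.K)
    (hJ : 9 * (p.M + 1) ≤ p.J0 + p.K) (hP : p.tower.FactPoly0 D)
    (hperm : ∀ w, SQ803.SQ (Equiv.Perm (Fin w))) {e : ℕ} (he : e + 2 ≤ D) :
    (pSph p e).FactFour (e + 1) := by
  haveI : Nontrivial (Fin (cd p.J0 p.K 0)) := p.nontrivial0
  refine factFour_kap p hP (by omega) hperm fun m hm hem => ?_
  exact ⟨ℕ, Equiv.natSumNatEquivNat.toEmbedding, 2 * (2 * m + 1),
    KDI103.kapInst p Equiv.natSumNatEquivNat.toEmbedding hJ hM (SrcTot85.totFacts _ hM)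
      (p.factQ hM) (p.factX hM hK) hP (p.factGr D) (by omega) le_rfl⟩

end Crest.Agent.R204.Four947
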