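import Crest.Agent.R204.SQdef_803

/-!
# Row 204, block G, leaf G5: `SQ` for the trivial group, invariance under isomorphism, independence of `J`
(helper761)
-/

set_option autoImplicit false

namespace Crest.Agent.R204.SQ803

section deg
variable {J B : Type*} [NonUnitalRing B]

/-- the cup product of `f` supported on lists of length `a` and `g` supported on lists of length `b` is
supported on lists of length `a + b - 1` -/
theorem cupl_deg761 {a b : ℕ} (l : List J) (f g : List J → B) (hf : ∀ l, f l ≠ 0 → l.length = a)
    (hg : ∀ l, g l ≠ 0 → l.length = b) (h : cupl l f g ≠ 0) : l.length + 1 = a + b := by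
  induction l generalizing f a with
  | nil => exact absurd rfl h
  | cons x l ih =>
    rw [cupl_cons] at h
    by_cases h1 : f [x] * g (x :: l) = 0
    · rw [h1, zero_add] at h
      rcases a with _ | a
      · exfalso
        apply h
        have : (fun l' => f (x :: l')) = fun _ => 0 := by
          funext l'
          by_contra hne
          exact absurd (hf _ hne) (by simp)
        rw [this, cupl_zero_left]
      · have := ih (a := a) (fun l' => f (x :: l')) (fun l' hl' => by
          have := hf _ hl'
          simpa using this) h
        rw [List.length_cons]; omega
    · have hfx : f [x] ≠ 0 := fun h0 => h1 (by rw [h0, zero_mul])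
      have hgx : g (x :: l) ≠ 0 := fun h0 => h1 (by rw [h0, mul_zero])
      have e1 := hf _ hfx
      have e2 := hg _ hgx
      rw [List.length_singleton] at e1
      omega

end deg

/-- `SQ` is invariant under isomorphism -/
theorem SQ_iso (G H : Type) [Group G] [Group H] (e : G ≃* H) (h : SQ G) : SQ H := by
  intro J iH hfree N hN m u hum hu hdu
  let iG : MulAction G J := MulAction.compHom J (e : G →* H)
  have hs : ∀ (g : G) (j : J), g • j = e g • j := fun g j => rfl
  obtain ⟨Y, v, hYm, hY, hdY, hvm, hv0, hv, huu⟩ := h J
    (fun g j hg => by
      have := hfree (e g) j hg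
      exact e.map_eq_one_iff.1 this) N hN m u hum (fun g l => hu (e g) l) hdu
  refine ⟨Y, v, hYm, fun x l => ?_, hdY, hvm, hv0, fun x l => ?_, huu⟩
  · have := hY (e.symm x) l
    simp only [hs, MulEquiv.apply_symm_apply] at this
    exact this
  · have := hv (e.symm x) l
    simp only [hs, MulEquiv.apply_symm_apply] at this
    exact this

/-- trivial groups -/
theorem SQ_subsingleton (G : Type) [Group G] [Subsingleton G] : SQ G := by
  intro J _ _ N hN m u hum _ hdu
  have hg : ∀ (g : G) (l : List J), l.map (g • ·) = l := by
    intro g l
    have : (fun j : J => g • j) = id := by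
      funext j
      have h1 : g = 1 := Subsingleton.elim _ _
      rw [h1]; exact one_smul G j
    rw [this, List.map_id]
  rcases isEmpty_or_nonempty J with hJ | ⟨⟨c⟩⟩
  · have hl : ∀ l : List J, l = [] := fun l => by
      rcases l with _ | ⟨x, l⟩
      · rfl
      · exact (hJ.false x).elim
    refine ⟨fun _ => 0, fun _ => 0, fun l h => absurd rfl h, fun _ _ => rfl, fun l => dl_zero l,
      fun l h => absurd rfl h, rfl, fun _ _ => rfl, fun l => ?_⟩
    rw [hl l]
    simp
  · rcases m with _ | m
    · have hc : ∀ x : J, u [x] = u [c] := by
        intro x
        have h := hdu [c, x]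
        simp only [dl_cons, dl_nil, sub_zero] at h
        exact sub_eq_zero.1 h
      refine ⟨fun l => if l.length = 1 then ((u [c]).val : ZMod (2 ^ N)) else 0, fun _ => 0, ?_, ?_, ?_,
        fun l h => absurd rfl h, rfl, fun _ _ => rfl, fun l => ?_⟩
      · intro l h
        by_contra hne
        exact h (if_neg (by simpa using hne))
      · intro g l
        rw [hg]
      · intro l
        rcases l with _ | ⟨x, _ | ⟨y, _ | ⟨z, l⟩⟩⟩
        · rfl
        · simp [dl_cons]
        · simp [dl_cons]
        · refine dl_eq_zero fun l' hl' => ?_
          rw [if_neg]
          simp only [List.length_cons] at hl'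
          omega
      · rw [dl_zero, add_zero]
        by_cases hl1 : l.length = 1
        · obtain ⟨x, rfl⟩ := List.length_eq_one_iff.1 hl1
          simp only [cupl_cons, cupl_nil, add_zero, hc x, List.length_singleton, if_true]
          have key : ∀ a : ZMod 2, a * a = (((a.val : ℕ) : ZMod (2 ^ N))).cast := by
            intro a
            have h2 : (((a.val : ℕ) : ZMod (2 ^ N)).cast : ZMod 2) = ((a.val : ℕ) : ZMod 2) :=
              map_natCast (ZMod.castHom (dvd_pow_self 2 hN.ne') (ZMod 2)) _
            rw [h2, ZMod.natCast_zmod_val]
            clear h2
            revert a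
            decide
          exact key _
        · simp only [if_neg hl1]
          have h0 : cupl l u u = 0 := by
            by_contra hne
            have := cupl_deg761 l u u hum hum hne
            omega
          rw [h0]
          exact (ZMod.cast_zero).symm
    · have hw0 : u [c] = 0 := by
        by_contra hne
        have := hum _ hne
        simp at this
      have hu0 : u [] = 0 := by
        by_contra hne
        have := hum _ hne
        simp at this
      have hcon : ∀ l, dl l (fun l' => u (c :: l')) = u l := by
        intro l
        have := contr c l u
        rw [hdu, zero_add] at this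
        exact this.symm
      have hwm : ∀ l : List J, u (c :: l) ≠ 0 → l.length = m + 1 := fun l hl => by
        have := hum _ hl
        simpa using this
      refine ⟨fun _ => 0, fun l => cupl l (fun l' => u (c :: l')) u, fun l h => absurd rfl h,
        fun _ _ => rfl, fun l => dl_zero l, ?_, rfl, ?_, fun l => ?_⟩
      · intro l h
        have := cupl_deg761 l _ u hwm hum h
        omega
      · intro g l
        rw [hg]
      · rw [dl_cup (fun b => CharTwo.add_self_eq_zero b)]
        have e1 : (fun l' => dl l' (fun l' => u (c :: l'))) = u := funext hcon
        have e2 : (fun l' => dl l' u) = fun _ => (0 : ZMod 2) := funext hdu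
        rw [e1, e2, cupl_zero_right, hw0, hu0, ZMod.cast_zero]
        ring

/-- the trivial group -/
theorem SQ_one : SQ PUnit := SQ_subsingleton PUnit

end Crest.Agent.R204.SQ803
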