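import Crest.Agent.R204.SQP4_334

/-!
# Row 204, block G, lemma SQ: the product step, part 5 (helper334): `SQ_prod`
-/

set_option autoImplicit false
set_option linter.unusedSectionVars false

namespace Crest.Agent.R204.SQP334

open SQ803 SQ803.Co

/-! ## rings -/

section rings

/-- vanishing of the values of a cup product -/
theorem cupl_ev_zero {J B M : Type*} [NonUnitalRing B] [AddCommGroup M] (φ : B →+ M) (l : List J)
    (f g : List J → B) (h : ∀ l' l'' : List J, l'.length + l''.length = l.length + 1 → φ (f l' * g l'') = 0) :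
    φ (cupl l f g) = 0 := by
  induction l generalizing f with
  | nil => simp
  | cons x l ih =>
    rw [cupl_cons, map_add, h [x] (x :: l) (by simp; omega), zero_add]
    refine ih _ fun l' l'' hl => h _ _ ?_
    rw [List.length_cons, List.length_cons]; omega

variable {J D E : Type} {n : ℕ}

/-- from nested cochains -/
def frE (F : Co J (Co D (Co E (ZMod n)))) : F3L J D E n := fun j x y => ((F.f j).f x).f y

theorem toE_frE (F : Co J (Co D (Co E (ZMod n)))) : toE (frE F) = F := rfl
theorem frE_toE (F : F3L J D E n) : frE (toE F) = F := rfl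
theorem frE_add (F G : Co J (Co D (Co E (ZMod n)))) : frE (F + G) = frE F + frE G := rfl
theorem toE_add (F G : F3L J D E n) : toE (F + G) = toE F + toE G := rfl

/-- the coefficient map of `ι` -/
def psi : ZMod n →+ Co D (Co E (ZMod n)) := (kap (J := D) (B := Co E (ZMod n))).comp (kap (J := E))

theorem psi_mul (a b : ZMod n) : (psi (a * b) : Co D (Co E (ZMod n))) = psi a * psi b := by
  show kap (kap (a * b)) = kap (kap a) * kap (kap b)
  rw [kap_mul_kap, kap_mul_kap]

theorem toE_io (u : List J → ZMod n) : (toE (io u) : Co J (Co D (Co E (ZMod n)))) = pull id psi ⟨u⟩ := by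
  refine Co.ext fun j => Co.ext fun x => Co.ext fun y => ?_
  rw [toE_f, toS_f, io_apply, pull_f, List.map_id]
  show _ = ((if x.length = 1 then kap (u j) else 0 : Co E (ZMod n))).f y
  split_ifs with h1 h2 h2
  · rw [kap_f, if_pos h1.2]
  · exact absurd h1.1 h2
  · rw [kap_f, if_neg fun h3 => h1 ⟨h2, h3⟩]
  · rfl

theorem io_mul (u v : List J → ZMod n) :
    (toE (io (fun j => cupl j u v)) : Co J (Co D (Co E (ZMod n)))) = toE (io u) * toE (io v) := by
  rw [toE_io, toE_io, toE_io, ← pull_mul _ _ psi_mul]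
  rfl

theorem toE_ka (f : F2L D E n) : (toE (ka f) : Co J (Co D (Co E (ZMod n)))) = kap (toS f) := by
  refine Co.ext fun j => Co.ext fun x => Co.ext fun y => ?_
  rw [toE_f, toS_f, ka_apply, kap_f]
  split_ifs <;> rfl

theorem cupl_smul_smul {M : Type} [CommRing M] (y : List E) (r r' : M) (b b' : List E → M) :
    cupl y (fun y => r * b y) (fun y => r' * b' y) = r * r' * cupl y b b' := by
  induction y generalizing b with
  | nil => simp
  | cons a y ih => rw [cupl_cons, cupl_cons, ih]; ring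

theorem ten_mul (a a' : List D → ZMod n) (b b' : List E → ZMod n) :
    toS (ten a b) * toS (ten a' b') = toS (ten (fun x => cupl x a a') (fun y => cupl y b b')) := by
  refine Co.ext fun x => ?_
  rw [mul_f]
  show cupl x (fun x' => (⟨fun y => a x' * b y⟩ : Co E (ZMod n))) (fun x' => (⟨fun y => a' x' * b' y⟩ : Co E (ZMod n))) =
    (⟨fun y => cupl x a a' * cupl y b b'⟩ : Co E (ZMod n))
  induction x generalizing a with
  | nil =>
    refine Co.ext fun y => ?_
    simp
  | cons c x ih =>
    rw [cupl_cons, ih (fun x' => a (c :: x'))]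
    refine Co.ext fun y => ?_
    rw [add_f, mul_f]
    show cupl y (fun y => a [c] * b y) (fun y => a' (c :: x) * b' y) + _ = _
    rw [cupl_smul_smul, cupl_cons]
    ring

theorem ka_ten_mul (a a' : List D → ZMod n) (b b' : List E → ZMod n) :
    (toE (ka (ten (fun x => cupl x a a') (fun y => cupl y b b'))) : Co J (Co D (Co E (ZMod n)))) =
      toE (ka (ten a b)) * toE (ka (ten a' b')) := by
  rw [toE_ka, toE_ka, toE_ka, kap_mul_kap, ten_mul]

end rings

section prod
variable {J D E : Type} [Group D] [Group E] [MulAction (D × E) J] {n : ℕ}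

/-- nested cochains in `P3` -/
def PE (F : Co J (Co D (Co E (ZMod n)))) : Prop := frE F ∈ P3 J D E n

theorem inv_iff (F : Co J (Co D (Co E (ZMod n)))) : Inv3 (frE F) ↔
    ∀ g : D × E, pull (g • ·) (pull (g.1 * ·) (pull (g.2 * ·) (AddMonoidHom.id (ZMod n)))) F = F := by
  constructor
  · intro h g
    refine Co.ext fun j => Co.ext fun x => Co.ext fun y => ?_
    exact h g j x y
  · intro h g j x y
    have := congrArg (fun F => frE F j x y) (h g)
    exact this

theorem PE.mul {F G : Co J (Co D (Co E (ZMod n)))} (hF : PE F) (hG : PE G) : PE (F * G) := by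
  obtain ⟨⟨h1, h2⟩, h3, N, h4⟩ := hF
  obtain ⟨⟨g1, g2⟩, g3, M, g4⟩ := hG
  refine ⟨⟨fun x y => rfl, fun j => ⟨fun y => ?_, fun x => ?_⟩⟩, ?_, N + M + 3, fun j x y hl => ?_⟩
  · -- value at x = []
    show ((ev []) (cupl j F.f G.f) : Co E (ZMod n)).f y = 0
    rw [cupl_ev_zero (ev (J := D) (B := Co E (ZMod n)) []) j F.f G.f fun _ _ _ => rfl]
    rfl
  · show ((cupl j F.f G.f).f x).f [] = 0
    refine cupl_ev_zero ((ev (J := E) (B := ZMod n) []).comp (ev (J := D) (B := Co E (ZMod n)) x)) j F.f G.f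
      fun j' j'' _ => ?_
    show ((F.f j' * G.f j'').f x).f [] = 0
    rw [mul_f]
    exact cupl_ev_zero (ev (J := E) (B := ZMod n) []) x _ _ fun _ _ _ => rfl
  · rw [inv_iff] at h3 g3 ⊢
    intro g
    rw [pull_mul, h3 g, g3 g]
    intro a b
    rw [pull_mul]
    intro a b
    rw [pull_mul]
    intro a b
    rfl
  · show ((cupl j F.f G.f).f x).f y = 0
    refine cupl_ev_zero ((ev (J := E) (B := ZMod n) y).comp (ev (J := D) (B := Co E (ZMod n)) x)) j F.f G.f
      fun j' j'' hj => ?_
    show ((F.f j' * G.f j'').f x).f y = 0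
    rw [mul_f]
    refine cupl_ev_zero (ev (J := E) (B := ZMod n) y) x _ _ fun x' x'' hx => ?_
    show ((F.f j').f x' * (G.f j'').f x'').f y = 0
    rw [mul_f]
    refine cupl_ev_zero (AddMonoidHom.id (ZMod n)) y _ _ fun y' y'' hy => ?_
    show ((F.f j').f x').f y' * ((G.f j'').f x'').f y'' = 0
    by_cases hN : N < j'.length + x'.length + y'.length
    · rw [show ((F.f j').f x').f y' = 0 from h4 _ _ _ hN, zero_mul]
    · rw [show ((G.f j'').f x'').f y'' = 0 from g4 _ _ _ (by omega), mul_zero]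

theorem PE.δ {F : Co J (Co D (Co E (ZMod n)))} (hF : PE F) : PE (Cx.δ F) := by
  have := toE_D3 hF.1
  rw [toE_frE] at this
  rw [this]
  exact D3_mem hF

theorem PE.add {F G : Co J (Co D (Co E (ZMod n)))} (hF : PE F) (hG : PE G) : PE (F + G) :=
  (P3 J D E n).add_mem hF hG

theorem ten_mem {a : List D → ZMod n} {b : List E → ZMod n} (ha : a [] = 0) (hb : b [] = 0)
    (ha' : ∀ (g : D) (l : List D), a (l.map (g * ·)) = a l) (hb' : ∀ (g : E) (l : List E), b (l.map (g * ·)) = b l)
    (N M : ℕ) (hN : ∀ l : List D, N < l.length → a l = 0) (hM : ∀ l : List E, M < l.length → b l = 0) :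
    ten a b ∈ P2 D E n := by
  refine ⟨⟨fun y => ?_, fun x => ?_⟩, fun c d x y => ?_, N + M, fun x y h => ?_⟩
  · show a [] * b y = 0
    rw [ha, zero_mul]
  · show a x * b [] = 0
    rw [hb, mul_zero]
  · show a _ * b _ = a x * b y
    rw [ha', hb']
  · show a x * b y = 0
    by_cases hx : N < x.length
    · rw [hN x hx, zero_mul]
    · rw [hM y (by omega), mul_zero]

/-- reduction mod 2 -/
def red {N : ℕ} (F : F3L J D E (2 ^ N)) : F3L J D E 2 := fun j x y => (F j x y).cast

theorem red_D3 {N : ℕ} (hN : 0 < N) (F : F3L J D E (2 ^ N)) : D3 (red F) = red (D3 F) := by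
  funext j x y
  let φ : ZMod (2 ^ N) →+ ZMod 2 := (ZMod.castHom (dvd_pow_self 2 hN.ne') (ZMod 2)).toAddMonoidHom
  show D3 (fun j x y => φ (F j x y)) j x y = φ (D3 F j x y)
  rw [D3_apply, D3_apply, D2_apply, D2_apply, map_add, map_zsmul, map_add, map_zsmul, ← dl_hom φ, ← dl_hom φ,
    ← dl_hom φ]

theorem red_mem {N : ℕ} (hN : 0 < N) {F : F3L J D E (2 ^ N)} (hF : F ∈ P3 J D E (2 ^ N)) :
    red F ∈ P3 J D E 2 := by
  obtain ⟨h1, h2, M, h3⟩ := hF
  have h0 : ((0 : ZMod (2 ^ N)).cast : ZMod 2) = 0 := ZMod.cast_zero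
  refine ⟨⟨fun x y => ?_, fun j => ⟨fun y => ?_, fun x => ?_⟩⟩, fun g j x y => ?_, M, fun j x y h => ?_⟩
  · show (F [] x y).cast = _
    rw [h1.1]; exact h0
  · show (F j [] y).cast = _
    rw [(h1.2 j).1]; exact h0
  · show (F j x []).cast = _
    rw [(h1.2 j).2]; exact h0
  · show (F _ _ _).cast = (F j x y).cast
    rw [h2]
  · show (F j x y).cast = _
    rw [h3 _ _ _ h]; exact h0

/-- the key step: a class `ι u = κ (a ⊗ b)` is good -/
theorem good_ten {φ : J → D × E} (hφ : ∀ g j, φ (g • j) = g * φ j) {N : ℕ} (hN : 0 < N)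
    (hD : SQ D) (hE : SQ E) {p q : ℕ} {a : List D → ZMod 2} {b : List E → ZMod 2} (ha : IsC D p a)
    (hb : IsC E q b) {u : List J → ZMod 2} (hu : u ∈ P1 J D E 2) {H : F3L J D E 2} (hH : H ∈ P3 J D E 2)
    (e : (ka (ten a b) : F3L J D E 2) = io u + D3 H) : Good (D × E) N u := by
  obtain ⟨Ya, va, y1, y2, y3, y4, y5, y6, y7⟩ := hD D (fun g j h => by
    have h' : g * j = j := h
    simpa using h') N hN (p - 1) a (fun l hl => by
      have h1 := ha.len l hl
      have h2 : l ≠ [] := fun h => hl (by rw [h]; exact ha.nil)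
      have h3 : 0 < l.length := List.length_pos_iff.2 h2
      omega) ha.inv ha.cyc
  obtain ⟨Yb, vb, z1, z2, z3, z4, z5, z6, z7⟩ := hE E (fun g j h => by
    have h' : g * j = j := h
    simpa using h') N hN (q - 1) b (fun l hl => by
      have h1 := hb.len l hl
      have h2 : l ≠ [] := fun h => hl (by rw [h]; exact hb.nil)
      have h3 : 0 < l.length := List.length_pos_iff.2 h2
      omega) hb.inv hb.cyc
  have lenz : ∀ {X M : Type} [Zero M] {f : List X → M} {k : ℕ}, (∀ l, f l ≠ 0 → l.length = k) →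
      ∀ l : List X, k < l.length → f l = 0 := by
    intro X M _ f k h l hl
    by_contra hn
    have := h l hn
    omega
  have Ya0 : Ya [] = 0 := by
    by_contra h
    have := y1 [] h
    simp at this
  have Yb0 : Yb [] = 0 := by
    by_contra h
    have := z1 [] h
    simp at this
  let cs : ZMod (2 ^ N) →+* ZMod 2 := ZMod.castHom (dvd_pow_self 2 hN.ne') (ZMod 2)
  have hcs : ∀ r, (ZMod.cast r : ZMod 2) = cs r := fun _ => rfl
  let α : List D → ZMod 2 := fun x => cs (Ya x)
  let β : List E → ZMod 2 := fun y => cs (Yb y)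
  have dα : ∀ x, dl x α = 0 := fun x => by
    show dl x (fun x => cs.toAddMonoidHom (Ya x)) = 0
    rw [dl_hom, y3, map_zero]
  have dβ : ∀ y, dl y β = 0 := fun y => by
    show dl y (fun y => cs.toAddMonoidHom (Yb y)) = 0
    rw [dl_hom, z3, map_zero]
  -- the correction `h2`
  let dva : List D → ZMod 2 := fun x => dl x va
  let dvb : List E → ZMod 2 := fun y => dl y vb
  let h2 : F2L D E 2 := ten α vb + ten va β + ten va dvb
  have hval : ten (fun x => cupl x a a) (fun y => cupl y b b) = ten α β + D2 h2 := by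
    funext x y
    show cupl x a a * cupl y b b = α x * β y + D2 h2 x y
    have e1 : D2 h2 x y = D2 (ten α vb) x y + D2 (ten va β) x y + D2 (ten va dvb) x y := by
      show D2 (ten α vb + ten va β + ten va dvb) x y = _
      rw [map_add, map_add]; rfl
    rw [e1, D2_ten, D2_ten, D2_ten, sg2, sg2, sg2, dα, dβ, show dl y dvb = 0 from dl_dl y vb, y7, z7]
    show (cs (Ya x) + dl x va) * (cs (Yb y) + dl y vb) = cs (Ya x) * cs (Yb y) + _
    show _ = cs (Ya x) * cs (Yb y) + (0 * vb y + cs (Ya x) * dl y vb + (dl x va * cs (Yb y) + va x * 0) +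
      (dl x va * dl y vb + va x * 0))
    ring
  have vaN := lenz y4
  have vbN := lenz z4
  have YaN := lenz y1
  have YbN := lenz z1
  have αN : ∀ l : List D, 2 * (p - 1) + 1 < l.length → α l = 0 := fun l hl => by
    show cs (Ya l) = 0
    rw [YaN l hl, map_zero]
  have βN : ∀ l : List E, 2 * (q - 1) + 1 < l.length → β l = 0 := fun l hl => by
    show cs (Yb l) = 0
    rw [YbN l hl, map_zero]
  have α0 : α [] = 0 := by
    show cs (Ya []) = 0
    rw [Ya0, map_zero]
  have β0 : β [] = 0 := by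
    show cs (Yb []) = 0
    rw [Yb0, map_zero]
  have αi : ∀ (g : D) (l : List D), α (l.map (g * ·)) = α l := fun g l => congrArg cs (y2 g l)
  have βi : ∀ (g : E) (l : List E), β (l.map (g * ·)) = β l := fun g l => congrArg cs (z2 g l)
  have dvbi : ∀ (g : E) (l : List E), dvb (l.map (g * ·)) = dvb l := fun g l => by
    show dl _ vb = dl l vb
    rw [← dl_map]
    congr 1
    funext l'
    exact z6 g l'
  have dvbN : ∀ l : List E, 2 * (q - 1) + 1 < l.length → dvb l = 0 := fun l hl =>
    dl_eq_zero fun l' hl' => vbN l' (by omega)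
  have hh2 : h2 ∈ P2 D E 2 := (P2 D E 2).add_mem ((P2 D E 2).add_mem
    (ten_mem α0 z5 αi z6 _ _ αN vbN) (ten_mem y5 β0 y6 βi _ _ vaN βN))
    (ten_mem y5 rfl y6 dvbi _ _ vaN dvbN)
  -- the integral class
  have hY2 : ten Ya Yb ∈ P2 D E (2 ^ N) := ten_mem Ya0 Yb0 y2 z2 _ _ YaN YbN
  have hY2d : D2 (ten Ya Yb) = 0 := by
    funext x y
    rw [D2_ten, y3, z3]; simp
  have hkY : D3 (ka (ten Ya Yb) : F3L J D E (2 ^ N)) = 0 := by rw [D3_ka, hY2d, map_zero]
  obtain ⟨Y, hY, hYd, H', hH', e'⟩ := io_surj φ hφ (ka_mem hY2) hkY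
  -- reduction mod 2
  have e2 : (ka (ten α β) : F3L J D E 2) = io (fun j => cs (Y j)) + D3 (red H') := by
    rw [red_D3 hN]
    funext j x y
    have h3 := congrFun (congrFun (congrFun e' j) x) y
    have h4 := congrArg cs h3
    have h5 : cs ((ka (ten Ya Yb) : F3L J D E (2 ^ N)) j x y) = (ka (ten α β) : F3L J D E 2) j x y := by
      rw [ka_apply, ka_apply]
      split_ifs
      · exact map_mul cs _ _
      · exact map_zero cs
    have h6 : cs ((io Y : F3L J D E (2 ^ N)) j x y) = (io (fun j => cs (Y j)) : F3L J D E 2) j x y := by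
      rw [io_apply, io_apply]
      split_ifs
      · rfl
      · exact map_zero cs
    rw [← h5, h4]
    show cs ((io Y : F3L J D E (2 ^ N)) j x y + D3 H' j x y) = _
    rw [map_add, h6]
    rfl
  -- squares in the nested ring
  let X : Co J (Co D (Co E (ZMod 2))) := toE (io u)
  let K : Co J (Co D (Co E (ZMod 2))) := toE (ka (ten a b))
  let T : Co J (Co D (Co E (ZMod 2))) := toE H
  have hT : PE T := hH
  have hX : PE X := io_mem hu
  have haN := lenz ha.len
  have hbN := lenz hb.len
  have hK : PE K := ka_mem (ten_mem ha.nil hb.nil ha.inv hb.inv _ _ haN hbN)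
  have two3 := DG2.two (B := Co J (Co D (Co E (ZMod 2))))
  have hKX : K = X + Cx.δ T := by
    show toE (ka (ten a b)) = toE (io u) + Cx.δ (toE H)
    rw [toE_D3 hH.1, ← toE_add, ← e]
  have hXK : X = K + Cx.δ T := by
    rw [hKX, add_assoc, two3, add_zero]
  have hδK : Cx.δ K = 0 := by
    show Cx.δ (toE (ka (ten a b))) = 0
    have hK1 : Nz3 (ka (ten a b) : F3L J D E 2) := hK.1
    rw [toE_D3 hK1, D3_ka]
    have : D2 (ten a b) = 0 := by
      funext x y
      rw [D2_ten, ha.cyc, hb.cyc]; simp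
    rw [this, map_zero]; rfl
  let Z : Co J (Co D (Co E (ZMod 2))) := K * T + T * K + T * Cx.δ T
  have hZ : PE Z := ((hK.mul hT).add (hT.mul hK)).add (hT.mul hT.δ)
  have hXX : X * X = K * K + Cx.δ Z := by
    show X * X = K * K + Cx.δ (K * T + T * K + T * Cx.δ T)
    rw [map_add, map_add, DG2.leib, DG2.leib, DG2.leib, hδK, Cx.δδ, zero_mul, mul_zero, zero_add]
    simp only [add_zero]
    conv_lhs => rw [hXK]
    rw [add_mul, mul_add, mul_add]
    abel
  have hfin : (io (fun j => cupl j u u) : F3L J D E 2) =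
      io (fun j => cs (Y j)) + D3 (red H' + ka h2 + frE Z) := by
    apply toE_inj
    rw [io_mul]
    show X * X = _
    rw [hXX]
    show toE (ka (ten a b)) * toE (ka (ten a b)) + _ = _
    have h7 : Cx.δ Z = toE (D3 (frE Z)) := by
      rw [← toE_D3 hZ.1, toE_frE]
    have h8 : D3 (ka h2 : F3L J D E 2) = ka (D2 h2) := D3_ka h2
    rw [← ka_ten_mul, hval, (ka (J := J)).map_add, e2, D3.map_add, D3.map_add, h8, toE_add, toE_add, toE_add,
      toE_add, toE_add, h7]
    abel
  have hH2 : red H' + ka h2 + frE Z ∈ P3 J D E 2 :=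
    (P3 J D E 2).add_mem ((P3 J D E 2).add_mem (red_mem hN hH') (ka_mem hh2)) hZ
  have hD3 : D3 (red H' + ka h2 + frE Z) = io ((fun j => cupl j u u) - fun j => cs (Y j)) := by
    rw [map_sub, hfin]
    abel
  obtain ⟨v, hv, hdv⟩ := io_inj φ hφ hH2 hD3
  refine ⟨Y, v, hY.1, hY.2.1, fun l => congrFun hYd l, hv.1, hv.2.1, fun l => ?_⟩
  have h8 := congrFun hdv l
  rw [D1_apply] at h8
  have h9 : dl l v = cupl l u u - cs (Y l) := h8
  rw [h9]
  show cupl l u u = cs (Y l) + (cupl l u u - cs (Y l))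
  abel

end prod

/-- **the product step** -/
theorem SQ_prod (D E : Type) [Group D] [Group E] [Finite D] [Finite E] (hD : SQ D) (hE : SQ E) : SQ (D × E) := by
  intro J _ hfree N hN m u hum hui hud
  apply Good.homog hum
  by_cases hJ : Nonempty J
  · obtain ⟨j0⟩ := hJ
    obtain ⟨φ, hφ⟩ := exists_equivariant hfree
    have hu0 : u [] = 0 := by
      by_contra h
      have := hum [] h
      simp at this
    have hu : u ∈ P1 J D E 2 := ⟨hu0, hui, m + 1, fun j hj => by
      by_contra h
      have := hum j h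
      omega⟩
    have hF : D3 (io u : F3L J D E 2) = 0 := by
      rw [D3_io, show D1 u = 0 from funext hud, map_zero]
    obtain ⟨f, hf, hfd, H, hH, e⟩ := ka_surj j0 (io_mem hu) hF
    obtain ⟨s, p, q, a, b, hab, h, hh, e2⟩ := kunneth hf hfd
    have lenz : ∀ {X M : Type} [Zero M] {f : List X → M} {k : ℕ}, (∀ l, f l ≠ 0 → l.length = k) →
        ∀ l : List X, k < l.length → f l = 0 := by
      intro X M _ f k h l hl
      by_contra hn
      have := h l hn
      omega
    have hki : ∀ i, (ka (ten (a i) (b i)) : F3L J D E 2) ∈ P3 J D E 2 := fun i =>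
      ka_mem (ten_mem (hab i).1.nil (hab i).2.nil (hab i).1.inv (hab i).2.inv _ _ (lenz (hab i).1.len)
        (lenz (hab i).2.len))
    have hkd : ∀ i, D3 (ka (ten (a i) (b i)) : F3L J D E 2) = 0 := fun i => by
      rw [D3_ka]
      have : D2 (ten (a i) (b i)) = 0 := by
        funext x y
        rw [D2_ten, (hab i).1.cyc, (hab i).2.cyc]; simp
      rw [this, map_zero]
    have hex := fun i => io_surj φ hφ (hki i) (hkd i)
    choose ui hui' huid Hi hHi ei using hex
    have hsum : D3 ((∑ i, Hi i) + ka h + H) = io (u - ∑ i, ui i) := by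
      rw [map_sub, e, e2, map_add, map_add, map_add, map_sum, map_sum, map_sum, D3_ka]
      have : ∑ i, (ka (ten (a i) (b i)) : F3L J D E 2) = ∑ i, (io (ui i) : F3L J D E 2) + ∑ i, D3 (Hi i) := by
        rw [← Finset.sum_add_distrib]
        exact Finset.sum_congr rfl fun i _ => ei i
      rw [this]
      abel
    have hmem : (∑ i, Hi i) + ka h + H ∈ P3 J D E 2 :=
      (P3 J D E 2).add_mem ((P3 J D E 2).add_mem ((P3 J D E 2).sum_mem fun i _ => hHi i) (ka_mem hh)) hH
    obtain ⟨w, hw, hdw⟩ := io_inj φ hφ hmem hsum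
    have hz : ∀ i ∈ Finset.univ, IsZ (D × E) (ui i) := fun i _ =>
      ⟨(hui' i).1, (hui' i).2.1, fun l => congrFun (huid i) l⟩
    have hg : ∀ i ∈ Finset.univ, Good (D × E) N (ui i) := fun i _ =>
      good_ten hφ hN hD hE (hab i).1 (hab i).2 (hui' i) (hHi i) (ei i)
    obtain ⟨i1, i2⟩ := Good.sum hN Finset.univ ui hz hg
    have hue : u = fun l => (∑ i, ui i l) + dl l w := by
      funext l
      have h3 := congrFun hdw l
      rw [D1_apply] at h3
      have h4 : dl l w = u l - ∑ i, ui i l := by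
        rw [h3, Pi.sub_apply, Finset.sum_apply]
      rw [h4]; abel
    rw [hue]
    exact Good.add hN i1 (IsZ.cob hw.2.1) i2 (Good.cob hw.1 hw.2.1)
  · have hl : ∀ l : List J, l = [] := fun l => by
      cases l with
      | nil => rfl
      | cons x _ => exact absurd ⟨x⟩ hJ
    refine ⟨fun _ => 0, fun _ => 0, rfl, fun _ _ => rfl, fun l => dl_zero l, rfl, fun _ _ => rfl, fun l => ?_⟩
    rw [hl l]; simp

end Crest.Agent.R204.SQP334
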