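import Crest.Agent.R204.SQL_334

/-!
# Row 204, block G, lemma SQ: from lists to `Fs U w` (helper334)
-/

set_option autoImplicit false
set_option linter.unusedSectionVars false

namespace Crest.Agent.R204.SQG334

open Finsupp Pont718 Fs348 Tors947 Coef947

variable {J A : Type}

/-! ## explicit formulas -/

theorem dL_ofFn [AddCommGroup A] {n : ℕ} (f : List J → A) (x : Fin (n + 2) → J) :
    dL f (List.ofFn x) = ∑ i : Fin (n + 2), ((-1 : ℤ) ^ (i : ℕ)) • f (List.ofFn (fun j => x (i.succAbove j))) := by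
  induction n generalizing f with
  | zero =>
    rw [Fin.sum_univ_two]
    simp [List.ofFn_succ]
    abel
  | succ n ih =>
    rw [List.ofFn_succ, dL_cons, ih]
    conv_rhs => rw [Fin.sum_univ_succ]
    have h0 : (fun j => x ((0 : Fin (n + 3)).succAbove j)) = fun j => x j.succ := by
      funext j; rw [Fin.succAbove_zero]
    have h1 : ∀ i : Fin (n + 2), List.ofFn (fun j => x (i.succ.succAbove j)) =
        x 0 :: List.ofFn (fun j => x (i.succAbove j).succ) := by
      intro i
      rw [List.ofFn_succ]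
      simp
    rw [h0]
    simp only [h1, Fin.val_zero, pow_zero, one_smul, Fin.val_succ, pow_succ, mul_neg, mul_one, neg_smul,
      Finset.sum_neg_distrib]
    abel

theorem cupL_ofFn [CommRing A] {n : ℕ} (f g : List J → A) (x : Fin (n + 1) → J) :
    cupL f g (List.ofFn x) = ∑ p ∈ Finset.HasAntidiagonal.antidiagonal n,
      f (List.ofFn (x ∘ seg n 0 p.1)) * g (List.ofFn (x ∘ seg n p.1 p.2)) := by
  induction n generalizing f with
  | zero =>
    rw [Finset.Nat.antidiagonal_zero, Finset.sum_singleton, List.ofFn_succ]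
    simp [seg_zero_zero]
  | succ n ih =>
    have hA : List.ofFn (x ∘ seg (n + 1) 0 0) = [x 0] := by
      rw [seg_zero_zero]; simp
    have hB : List.ofFn (x ∘ seg (n + 1) 0 (n + 1)) = List.ofFn x := by
      rw [seg_zero_self]; rfl
    have hC : ∀ i, List.ofFn (x ∘ seg (n + 1) 0 (i + 1)) =
        x 0 :: List.ofFn ((fun j => x j.succ) ∘ seg n 0 i) := by
      intro i
      rw [seg_succ_front, List.ofFn_succ]
      congr 1
    have hD : ∀ i l, List.ofFn (x ∘ seg (n + 1) (i + 1) l) =
        List.ofFn ((fun j => x j.succ) ∘ seg n i l) := by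
      intro i l
      rw [seg_succ_back]
      congr 1
    rw [Finset.Nat.antidiagonal_succ, Finset.sum_cons, Finset.sum_map]
    change _ = f (List.ofFn (x ∘ seg (n + 1) 0 0)) * g (List.ofFn (x ∘ seg (n + 1) 0 (n + 1))) +
      ∑ p ∈ Finset.HasAntidiagonal.antidiagonal n, f (List.ofFn (x ∘ seg (n + 1) 0 (p.1 + 1))) *
        g (List.ofFn (x ∘ seg (n + 1) (p.1 + 1) p.2))
    rw [hA, hB, Finset.sum_congr rfl fun p _ => by rw [hC, hD], List.ofFn_succ, cupL_cons, ih]

/-! ## the free `Perm (Fin w)`-set of injections -/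

/-- the action of permutations on injections -/
instance actInj (U : Type) (w : ℕ) : MulAction (Equiv.Perm (Fin w)) (Fin w ↪ U) where
  smul σ j := σ.symm.toEmbedding.trans j
  one_smul j := by ext; rfl
  mul_smul σ τ j := by ext; rfl

theorem smul_inj_apply {U : Type} {w : ℕ} (σ : Equiv.Perm (Fin w)) (j : Fin w ↪ U) (i : Fin w) :
    (σ • j) i = j (σ.symm i) := rfl

theorem free_inj {U : Type} {w : ℕ} (σ : Equiv.Perm (Fin w)) (j : Fin w ↪ U) (h : σ • j = j) : σ = 1 := by
  ext i
  have h1 : (σ • j) (σ i) = j (σ i) := by rw [h]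
  rw [smul_inj_apply, Equiv.symm_apply_apply] at h1
  have := j.injective h1
  rw [← this]; rfl

variable {U : Type} {w : ℕ}

theorem ordp_smul {n : ℕ} (σ : Equiv.Perm (Fin w)) (x : Fin (n + 1) → (Fin w ↪ U)) :
    (ordp U w).app n (fun i => σ • x i) = (ordp U w).app n x := by
  rw [ordp_eq_iff]
  intro j
  exact mem_thrs.2 ⟨σ.symm j, rfl⟩

theorem exists_smul_of_ordp_eq {n : ℕ} {x y : Fin (n + 1) → (Fin w ↪ U)}
    (h : (ordp U w).app n x = (ordp U w).app n y) : ∃ σ : Equiv.Perm (Fin w), y = fun i => σ • x i := by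
  have h1 : ∀ j, ∃ k, thr y k = thr x j := fun j => mem_thrs.1 ((ordp_eq_iff.1 h) j)
  choose k hk using h1
  have hinj : Function.Injective k := by
    intro a b hab
    apply thr_inj x
    rw [← hk, ← hk, hab]
  have hbij : Function.Bijective k := Finite.injective_iff_bijective.1 hinj
  refine ⟨Equiv.ofBijective k hbij, ?_⟩
  funext i
  ext j
  rw [smul_inj_apply]
  obtain ⟨j', rfl⟩ := hbij.2 j
  have h2 : (Equiv.ofBijective k hbij).symm (k j') = j' := by
    rw [Equiv.symm_apply_eq]; rfl
  rw [h2]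
  exact congrFun (hk j') i

theorem ordp_surj {n : ℕ} (B : (Fs U w).S n) : ∃ x : Fin (n + 1) → (Fin w ↪ U), (ordp U w).app n x = B := by
  have h := ordp_card U w B
  have h2 : 0 < ((ordp_cov U w).fib B).card := by rw [h]; exact Nat.factorial_pos w
  obtain ⟨x, hx⟩ := Finset.card_pos.1 h2
  exact ⟨x, (ordp_cov U w).mem_fib.1 hx⟩

/-- the function on simplices of `Fs U w` given by an invariant function of lists -/
noncomputable def bar (f : List (Fin w ↪ U) → A) : (Fs U w).T → A :=
  fun t => f (List.ofFn (ordp_surj t.2).choose)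

theorem bar_ordp {f : List (Fin w ↪ U) → A} (hf : InvL (Equiv.Perm (Fin w)) f) {n : ℕ}
    (x : Fin (n + 1) → (Fin w ↪ U)) : bar f ⟨n, (ordp U w).app n x⟩ = f (List.ofFn x) := by
  unfold bar
  obtain ⟨σ, hσ⟩ := exists_smul_of_ordp_eq (ordp_surj ((ordp U w).app n x)).choose_spec
  conv_rhs => rw [hσ]
  have := hf σ (List.ofFn (ordp_surj ((ordp U w).app n x)).choose)
  rw [List.map_ofFn] at this
  exact this.symm

section lin
variable (R : Type) [CommRing R]

/-- the linear functional on unnormalised chains -/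
noncomputable def lin (f : List (Fin w ↪ U) → R) : Ch R (Fs U w) →ₗ[R] R :=
  Finsupp.linearCombination R (bar f)

variable {R}

theorem lin_single (f : List (Fin w ↪ U) → R) (t : (Fs U w).T) (r : R) : lin R f (single t r) = r * bar f t := by
  simp [lin]

theorem lin_bd {f : List (Fin w ↪ U) → R} (hf : InvL (Equiv.Perm (Fin w)) f)
    (hf0 : InvL (Equiv.Perm (Fin w)) (dL f)) (h1 : ∀ x, dL f [x] = 0) (c : Ch R (Fs U w)) :
    lin R f (Ch.bd R _ c) = lin R (dL f) c := by
  suffices h : lin R f ∘ₗ Ch.bd R _ = lin R (dL f) from LinearMap.congr_fun h c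
  refine Finsupp.lhom_ext fun t r => ?_
  obtain ⟨n, B⟩ := t
  obtain ⟨x, rfl⟩ := ordp_surj B
  rw [LinearMap.comp_apply, lin_single, bar_ordp hf0]
  rcases n with _ | n
  · have : Ch.bd R (Fs U w) (single ⟨0, (ordp U w).app 0 x⟩ r) = 0 := by
      simp [Ch.bd, Ch.bdT]
    rw [this, map_zero, List.ofFn_succ]
    simp only [List.ofFn_zero]
    rw [h1, mul_zero]
  · have : Ch.bd R (Fs U w) (single ⟨n + 1, (ordp U w).app (n + 1) x⟩ r) =
        ∑ i : Fin (n + 2), single ⟨n, (Fs U w).act (Op.face i) ((ordp U w).app (n + 1) x)⟩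
          (r * (-1 : R) ^ (i : ℕ)) := by
      simp [Ch.bd, Ch.bdT, Finset.smul_sum]
    rw [this, map_sum, dL_ofFn, Finset.mul_sum]
    refine Finset.sum_congr rfl fun i _ => ?_
    rw [lin_single, ← (ordp U w).nat, bar_ordp hf]
    rw [mul_assoc]
    congr 1
    rw [zsmul_eq_mul]
    push_cast
    rfl

theorem lin_bar {f g : List (Fin w ↪ U) → R} (h : f = g) (c : Ch R (Fs U w)) : lin R f c = lin R g c := by
  rw [h]

/-- torsion -/
theorem fact_lin {m : ℕ} (hm : 0 < m) {Y : List (Fin w ↪ U) → R} (hY : InvL (Equiv.Perm (Fin w)) Y)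
    (hYm : DgL (2 * m + 1) Y) (hdY : ∀ l, dL Y l = 0) {c : Ch R (Fs U w)} (hc : Ch.bd R _ c = 0) :
    (w.factorial : R) * lin R Y c = 0 := by
  classical
  by_cases hU : Nonempty (Fin w ↪ U)
  · obtain ⟨j0⟩ := hU
    let S : List (Fin w ↪ U) → R := fun l => Y (j0 :: l)
    have hS : dL S = Y := by
      funext l
      have := hdY (j0 :: l)
      rw [dL_cons] at this
      exact (sub_eq_zero.1 this).symm
    let S' : List (Fin w ↪ U) → R := fun l => ∑ σ : Equiv.Perm (Fin w), S (l.map (σ • ·))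
    have hS' : InvL (Equiv.Perm (Fin w)) S' := by
      intro τ l
      refine Fintype.sum_equiv (Equiv.mulRight τ) _ _ fun σ => ?_
      rw [List.map_map]
      congr 1
    have hdS' : dL S' = fun l => (w.factorial : R) * Y l := by
      funext l
      have e : dL S' l = ∑ σ : Equiv.Perm (Fin w), dL (fun l => S (l.map (σ • ·))) l :=
        dL_sum Finset.univ (fun (σ : Equiv.Perm (Fin w)) (l : List (Fin w ↪ U)) => S (l.map (σ • ·))) l
      rw [e]
      have e2 : ∀ σ : Equiv.Perm (Fin w), dL (fun l => S (l.map (σ • ·))) l = Y l := by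
        intro σ
        rw [dL_map, hS]
        exact hY σ l
      rw [Finset.sum_congr rfl fun σ _ => e2 σ, Finset.sum_const, Finset.card_univ, Fintype.card_perm,
        Fintype.card_fin, nsmul_eq_mul]
    have h0 : ∀ x, dL S' [x] = 0 := by
      intro x
      rw [hdS']
      simp only
      rw [hYm [x] (by simp; omega), mul_zero]
    have hinv : InvL (Equiv.Perm (Fin w)) (dL S') := by
      intro τ l
      rw [hdS']
      simp only
      rw [hY τ l]
    have h1 := lin_bd hS' hinv h0 c
    rw [hc, map_zero] at h1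
    have h2 : lin R (dL S') = (w.factorial : R) • lin R Y := by
      refine Finsupp.lhom_ext fun t r => ?_
      rw [lin_single, LinearMap.smul_apply, lin_single, hdS']
      unfold bar
      simp only [smul_eq_mul]
      ring
    rw [h2, LinearMap.smul_apply, smul_eq_mul] at h1
    exact h1.symm
  · have : IsEmpty (Fs U w).T := ⟨fun t => hU ⟨(ordp_surj t.2).choose 0⟩⟩
    rw [Subsingleton.elim c 0, map_zero, mul_zero]

end lin

/-! ## cochains of `Fs U w` as functions of lists -/

/-- the function of lists given by a cochain -/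
noncomputable def uL [CommRing A] (u : Co A (Fs U w)) : List (Fin w ↪ U) → A
  | [] => 0
  | x :: l => u (N.sx A ((ordp U w).app l.length (fun i => (x :: l).get i)))

section uL
variable [CommRing A] (u : Co A (Fs U w))

theorem uL_eq {n : ℕ} (l : List (Fin w ↪ U)) (hl : l.length = n + 1) :
    uL u l = u (N.sx A ((ordp U w).app n (fun i => l.get (i.cast hl.symm)))) := by
  cases l with
  | nil => simp at hl
  | cons x l =>
    simp only [List.length_cons, Nat.add_right_cancel_iff] at hl
    subst hl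
    rfl

theorem uL_ofFn {n : ℕ} (x : Fin (n + 1) → (Fin w ↪ U)) :
    uL u (List.ofFn x) = u (N.sx A ((ordp U w).app n x)) := by
  rw [uL_eq u (List.ofFn x) (List.length_ofFn)]
  congr 3
  funext i
  rw [List.get_ofFn]
  rfl

theorem exists_ofFn (l : List J) (h : l ≠ []) : ∃ (n : ℕ) (x : Fin (n + 1) → J), l = List.ofFn x := by
  cases l with
  | nil => exact absurd rfl h
  | cons a l =>
    exact ⟨l.length, fun i => (a :: l).get i, (List.ofFn_get (a :: l)).symm⟩

theorem uL_inv : InvL (Equiv.Perm (Fin w)) (uL u) := by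
  intro σ l
  by_cases h : l = []
  · subst h; rfl
  · obtain ⟨n, x, rfl⟩ := exists_ofFn l h
    rw [List.map_ofFn, uL_ofFn, uL_ofFn]
    congr 2
    exact ordp_smul σ x

theorem uL_dg {m : ℕ} (hu : IsDeg m u) : DgL (m + 1) (uL u) := by
  intro l hl
  by_cases h : l = []
  · subst h; rfl
  · obtain ⟨n, x, rfl⟩ := exists_ofFn l h
    rw [uL_ofFn]
    refine hu n _ ?_
    rw [List.length_ofFn] at hl
    omega

theorem uL_dL (hu : u ∘ₗ N.bd A _ = 0) (l : List (Fin w ↪ U)) : dL (uL u) l = 0 := by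
  by_cases h : l = []
  · subst h; rfl
  · obtain ⟨n, x, rfl⟩ := exists_ofFn l h
    rcases n with _ | n
    · rw [List.ofFn_succ]
      simp [uL]
    · rw [dL_ofFn]
      have h1 := LinearMap.congr_fun hu (N.sx A ((ordp U w).app (n + 1) x))
      rw [LinearMap.comp_apply, EZ271.bd_sx_succ, map_sum, LinearMap.zero_apply] at h1
      rw [← h1]
      refine Finset.sum_congr rfl fun i _ => ?_
      rw [uL_ofFn, map_smul, ← (ordp U w).nat, zsmul_eq_mul, smul_eq_mul]
      push_cast
      rfl

theorem cupL_inv {G : Type} [Group G] [MulAction G J] {f g : List J → A} (hf : InvL G f) (hg : InvL G g) :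
    InvL G (cupL f g) := by
  intro s l
  rw [← cupL_map]
  have h1 : (fun l : List J => f (l.map (s • ·))) = f := funext fun l => hf s l
  have h2 : (fun l : List J => g (l.map (s • ·))) = g := funext fun l => hg s l
  rw [h1, h2]

theorem lin_cup (v : Co A (Fs U w)) (c : Ch A (Fs U w)) :
    lin A (cupL (uL u) (uL v)) c = cup u v (Submodule.Quotient.mk c) := by
  suffices h : lin A (cupL (uL u) (uL v)) = cup u v ∘ₗ (Ch.Dg A (Fs U w)).mkQ from LinearMap.congr_fun h c
  refine Finsupp.lhom_ext fun t r => ?_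
  obtain ⟨n, B⟩ := t
  obtain ⟨x, rfl⟩ := ordp_surj B
  rw [lin_single, bar_ordp (cupL_inv (uL_inv u) (uL_inv v)), cupL_ofFn]
  have e : (single (⟨n, (ordp U w).app n x⟩ : (Fs U w).T) r : Ch A (Fs U w)) =
      r • single ⟨n, (ordp U w).app n x⟩ 1 := by simp
  rw [e, map_smul, smul_eq_mul]
  congr 1
  change _ = cup u v (N.sx A ((ordp U w).app n x))
  rw [cup_sx]
  refine Finset.sum_congr rfl fun p _ => ?_
  rw [uL_ofFn, uL_ofFn, ← (ordp U w).nat, ← (ordp U w).nat]
  rfl

end uL

/-! ## the theorem -/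

theorem lin_co {R : Type} [CommRing R] (ρ : R →+* F2) (Y : List (Fin w ↪ U) → R) (c : Ch R (Fs U w)) :
    lin F2 (fun l => ρ (Y l)) (coC (ρ : R →+ F2) _ c) = ρ (lin R Y c) := by
  induction c using Finsupp.induction_linear with
  | zero => simp
  | add a b ha hb => rw [map_add, map_add, ha, hb, map_add, map_add]
  | single t r =>
    rw [coC_single, lin_single, lin_single, map_mul]
    rfl

/-- **SQ on `Fs U w`** from SQ of the symmetric group. -/
theorem sqFs_of {R : Type} [CommRing R] (ρ : R →+* F2) (w : ℕ) (hSQ : SQ ρ (Equiv.Perm (Fin w)))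
    (hw : ∀ y : R, (w.factorial : R) * y = 0 → ρ y = 0) (U : Type) {m : ℕ} (hm : 0 < m)
    (u : Co F2 (Fs U w)) (hu : u ∘ₗ N.bd F2 _ = 0) (hum : IsDeg m u) (z : N R (Fs U w))
    (hz : N.bd R _ z = 0) : cup u u (coN (ρ : R →+ F2) _ z) = 0 := by
  obtain ⟨c, rfl⟩ := Submodule.Quotient.mk_surjective _ z
  have hb : Ch.bd R _ c ∈ Ch.Dg R (Fs U w) := by
    have : (Submodule.Quotient.mk (Ch.bd R _ c) : N R (Fs U w)) = 0 := hz
    exact (Submodule.Quotient.mk_eq_zero _).1 this
  obtain ⟨e, he, he'⟩ := dgAcyclic R (Fs U w) _ hb (Ch.bd_bd c)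
  have hc : Ch.bd R _ (c - e) = 0 := by rw [map_sub, he', sub_self]
  have hce : (Submodule.Quotient.mk c : N R (Fs U w)) = Submodule.Quotient.mk (c - e) := by
    rw [Submodule.Quotient.mk_sub, (Submodule.Quotient.mk_eq_zero _).2 he, sub_zero]
  rw [hce]
  generalize c - e = b at hc
  obtain ⟨Y, v, hY, hv, hYm, hvm, hdY, huu⟩ := hSQ (Fin w ↪ U) free_inj m (uL u) (uL_inv u) (uL_dg u hum)
    (uL_dL u hu)
  rw [coN_mk, ← lin_cup]
  have h1 : cupL (uL u) (uL u) = fun l => ρ (Y l) + dL v l := funext huu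
  have h2 : lin F2 (cupL (uL u) (uL u)) (coC (ρ : R →+ F2) _ b) =
      lin F2 (fun l => ρ (Y l)) (coC (ρ : R →+ F2) _ b) + lin F2 (dL v) (coC (ρ : R →+ F2) _ b) := by
    rw [h1]
    generalize coC (ρ : R →+ F2) (Fs U w) b = b'
    rw [← LinearMap.add_apply]
    congr 1
    refine Finsupp.lhom_ext fun t r => ?_
    rw [LinearMap.add_apply, lin_single, lin_single, lin_single, ← mul_add]
    rfl
  have hdv : InvL (Equiv.Perm (Fin w)) (dL v) := by
    intro σ l
    rw [← dL_map]
    have : (fun l : List (Fin w ↪ U) => v (l.map (σ • ·))) = v := funext fun l => hv σ l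
    rw [this]
  have hdv0 : ∀ x, dL v [x] = 0 := by
    intro x
    rw [dL_cons, dL_nil, sub_zero]
    exact hvm [] (by simp; omega)
  rw [h2, lin_co, ← lin_bd hv hdv hdv0, ← coC_bd, hc, map_zero, map_zero, add_zero]
  exact hw _ (fact_lin hm hY hYm hdY hc)

end Crest.Agent.R204.SQG334
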