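import Crest.Agent.R204.SQdef_803
import Crest.Agent.R204.SQF_334

/-!
# Row 204, block G, lemma SQ: odd index transfer and `Fs U w` for 803's frozen `SQ` (helper334)
-/

set_option autoImplicit false
set_option linter.unusedSectionVars false

namespace Crest.Agent.R204.SQG334

open Finsupp Pont718 Fs348 Tors947 Coef947

theorem dl_eq {J A : Type} [AddCommGroup A] (f : List J → A) (l : List J) : SQ803.dl l f = dL f l := by
  induction l generalizing f with
  | nil => rfl
  | cons x l ih => rw [SQ803.dl_cons, dL_cons, ih]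

theorem cupl_eq {J : Type} (f g : List J → ZMod 2) (l : List J) : SQ803.cupl l f g = cupL f g l := by
  induction l generalizing f with
  | nil => rfl
  | cons x l ih =>
    have := ih (fun l' => f (x :: l'))
    rw [cupL_cons, ← this]; rfl

theorem dgL_iff {J A : Type} [Zero A] (n : ℕ) (f : List J → A) :
    DgL n f ↔ ∀ l, f l ≠ 0 → l.length = n := by
  constructor
  · intro h l hl
    by_contra hn
    exact hl (h l hn)
  · intro h l hl
    by_contra hn
    exact hl (h l hn)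

/-- the reduction mod 2 -/
noncomputable def r2 (N : ℕ) (hN : 0 < N) : ZMod (2 ^ N) →+* F2 :=
  ZMod.castHom (dvd_pow_self 2 hN.ne') (ZMod 2)

theorem r2_apply (N : ℕ) (hN : 0 < N) (y : ZMod (2 ^ N)) : r2 N hN y = y.cast := rfl

theorem sq_of_803 {G : Type} [Group G] (h : SQ803.SQ G) (N : ℕ) (hN : 0 < N) : SQ (r2 N hN) G := by
  intro J _ hfree m u hu hum hdu
  obtain ⟨Y, v, hYm, hY, hdY, hvm, -, hv, huu⟩ := h J hfree N hN m u ((dgL_iff _ _).1 hum) hu
    (fun l => by rw [dl_eq]; exact hdu l)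
  refine ⟨Y, v, hY, hv, (dgL_iff _ _).2 hYm, (dgL_iff _ _).2 hvm, fun l => by rw [← dl_eq]; exact hdY l,
    fun l => ?_⟩
  rw [← cupl_eq, huu l, dl_eq]; rfl

/-- odd index transfer for 803's `SQ` -/
theorem SQ_odd (G : Type) [Group G] (H : Subgroup G) (hH : Odd H.index) (h : SQ803.SQ H) : SQ803.SQ G := by
  classical
  intro J _ hfree N hN m u hum hu hdu
  have : Finite (G ⧸ H) := by
    refine Nat.finite_of_card_ne_zero ?_
    have := hH.pos.ne'
    exact this
  let _ : Fintype (G ⧸ H) := Fintype.ofFinite _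
  obtain ⟨Y, v, hYm, hY, hdY, hvm, hv0, hv, huu⟩ := h J (fun g j hg => by
    have := hfree (g : G) j hg
    exact Subtype.ext this) N hN m u hum (fun g l => hu (g : G) l) hdu
  refine ⟨trL H Y, trL H v, (dgL_iff _ _).1 (trL_dg H ((dgL_iff _ _).2 hYm)), trL_inv H hY, fun l => ?_,
    (dgL_iff _ _).1 (trL_dg H ((dgL_iff _ _).2 hvm)), ?_, trL_inv H hv, fun l => ?_⟩
  · rw [dl_eq, trL_dL, show dL Y = 0 from funext fun l => by rw [← dl_eq]; exact hdY l]
    unfold trL tL
    exact Finset.sum_eq_zero fun q _ => rfl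
  · unfold trL tL
    exact Finset.sum_eq_zero fun q _ => hv0
  · rw [dl_eq, trL_dL, cupl_eq]
    have h1 : trL H (cupL u u) l = cupL u u l := by
      rw [trL_of_inv H (fun g l => ?_) l]
      · obtain ⟨k, hk⟩ := hH
        rw [hk, add_smul, one_smul, mul_smul, two_nsmul, CharTwo.add_self_eq_zero, zero_add]
      · rw [← cupL_map]
        have : (fun l : List J => u (l.map (g • ·))) = u := funext fun l => hu g l
        rw [this]
    rw [← h1]
    change trL H (cupL u u) l = r2 N hN (trL H Y l) + trL H (dL v) l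
    unfold trL tL
    rw [map_sum, ← Finset.sum_add_distrib]
    refine Finset.sum_congr rfl fun q _ => ?_
    rw [← cupl_eq, huu, dl_eq]; rfl

/-- SQ for all symmetric groups from 803's closure properties -/
theorem SQ_perm (hiso : ∀ (G H : Type) [Group G] [Group H], (G ≃* H) → SQ803.SQ G → SQ803.SQ H)
    (h1 : SQ803.SQ PUnit)
    (hprod : ∀ (G H : Type) [Group G] [Group H] [Finite G] [Finite H], SQ803.SQ G → SQ803.SQ H →
      SQ803.SQ (G × H))
    (hwr : ∀ (G : Type) [Group G] [Finite G], SQ803.SQ G →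
      SQ803.SQ (RegularWreathProduct G (Multiplicative (ZMod 2)))) :
    ∀ w : ℕ, SQ803.SQ (Equiv.Perm (Fin w)) :=
  perm_of_closure (fun G _ => SQ803.SQ G) hiso h1 hprod hwr (fun G _ _ H hH h => SQ_odd G H hH h)

theorem rho_zero_of_smul {N : ℕ} (hN : 0 < N) {f : ℕ} (hf : ¬ 2 ^ N ∣ f) (y : ZMod (2 ^ N))
    (h : (f : ZMod (2 ^ N)) * y = 0) : r2 N hN y = 0 := by
  by_contra hne
  apply hf
  have : NeZero (2 ^ N) := ⟨by positivity⟩
  obtain ⟨k, rfl⟩ : ∃ k : ℕ, y = (k : ZMod (2 ^ N)) := ⟨y.val, by simp⟩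
  have h2 : r2 N hN (k : ZMod (2 ^ N)) = (k : ZMod 2) := map_natCast _ _
  rw [h2] at hne
  have hk : ¬ 2 ∣ k := fun hd => hne ((ZMod.natCast_eq_zero_iff k 2).2 hd)
  have hcop : Nat.Coprime (2 ^ N) k := by
    apply Nat.Coprime.pow_left
    exact (Nat.Prime.coprime_iff_not_dvd Nat.prime_two).2 hk
  have h3 : ((f * k : ℕ) : ZMod (2 ^ N)) = 0 := by push_cast; exact h
  have h4 := (ZMod.natCast_eq_zero_iff _ _).1 h3
  exact hcop.dvd_of_dvd_mul_right h4

/-- **LEMMA SQ on `Fs U w`** (cochain form): the cup square of a mod 2 cocycle of positive degree vanishes on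
reductions of cycles mod `2 ^ N`, if `2 ^ N` does not divide `w!`. -/
theorem sqFs (hperm : ∀ w : ℕ, SQ803.SQ (Equiv.Perm (Fin w))) {w k : ℕ} (hN : 0 < k)
    (hw : ¬ 2 ^ k ∣ w.factorial) (U : Type) {m : ℕ} (hm : 0 < m) (u : Co F2 (Fs U w))
    (hu : u ∘ₗ N.bd F2 _ = 0) (hum : IsDeg m u) (z : N (ZMod (2 ^ k)) (Fs U w)) (hz : N.bd _ _ z = 0) :
    cup u u (coN (rho (2 ^ k) 2 (dvd_pow_self 2 hN.ne')) _ z) = 0 :=
  sqFs_of (r2 k hN) w (sq_of_803 (hperm w) k hN) (fun y hy => rho_zero_of_smul hN hw y hy) U hm u hu hum z hz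

end Crest.Agent.R204.SQG334
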