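import Crest.Agent.R204.E2_803
import Mathlib.GroupTheory.RegularWreathProduct

/-!
# Row 204, leaf G5 (helper718 for helper803): a free `Γ = D ≀ᵣ Z/2`-set carries the data `Sig`
-/

set_option autoImplicit false

namespace Crest.Agent.R204.SigEx718

open SQ803

abbrev Q2 : Type := Multiplicative (ZMod 2)

/-- the generator -/
def tt : Q2 := Multiplicative.ofAdd 1

theorem tt_mul_tt : tt * tt = 1 := rfl
theorem tt_inv : tt⁻¹ = tt := rfl
theorem tt_ne : tt ≠ 1 := by decide
theorem q2_cases (q : Q2) : q = 1 ∨ q = tt := by revert q; decide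

section grp

variable {D : Type} [Group D]

/-- the base group -/
def bas : D × D →* D ≀ᵣ Q2 where
  toFun g := ⟨fun x => if x = 1 then g.1 else g.2, 1⟩
  map_one' := by
    refine RegularWreathProduct.ext ?_ rfl
    funext x
    show (if x = 1 then (1 : D) else 1) = 1
    split_ifs <;> rfl
  map_mul' g h := by
    refine RegularWreathProduct.ext ?_ rfl
    funext x
    rw [RegularWreathProduct.mul_left]
    show (if x = 1 then g.1 * h.1 else g.2 * h.2) =
      (if x = 1 then g.1 else g.2) * (if (1 : Q2)⁻¹ * x = 1 then h.1 else h.2)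
    rw [inv_one, one_mul]
    split_ifs <;> rfl

/-- the involution -/
def tau : D ≀ᵣ Q2 := ⟨1, tt⟩

theorem tau_mul_tau : (tau : D ≀ᵣ Q2) * tau = 1 := by
  refine RegularWreathProduct.ext ?_ tt_mul_tt
  funext x
  simp [tau]

theorem tau_mul_bas (g : D × D) : (tau : D ≀ᵣ Q2) * bas g = bas (g.2, g.1) * tau := by
  refine RegularWreathProduct.ext ?_ ?_
  · funext x
    rw [RegularWreathProduct.mul_left, RegularWreathProduct.mul_left]
    show (1 : D) * (if tt⁻¹ * x = 1 then g.1 else g.2) = (if x = 1 then g.2 else g.1) * 1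
    rw [one_mul, mul_one]
    rcases q2_cases x with rfl | rfl
    · rw [if_neg (by decide), if_pos rfl]
    · rw [if_pos (by decide), if_neg (by decide)]
  · show tt * 1 = 1 * tt
    rw [one_mul, mul_one]

theorem decomp (γ : D ≀ᵣ Q2) : γ = bas (γ.left 1, γ.left tt) ∨ γ = bas (γ.left 1, γ.left tt) * tau := by
  have hl : (fun x : Q2 => if x = 1 then γ.left 1 else γ.left tt) = γ.left := by
    funext x
    rcases q2_cases x with rfl | rfl
    · rw [if_pos rfl]
    · rw [if_neg (by decide)]
  rcases q2_cases γ.right with h | h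
  · left
    refine RegularWreathProduct.ext hl.symm h
  · right
    refine RegularWreathProduct.ext ?_ ?_
    · rw [RegularWreathProduct.mul_left]
      funext x
      show _ = (if x = 1 then γ.left 1 else γ.left tt) * 1
      rw [mul_one]
      exact (congrFun hl x).symm
    · show γ.right = 1 * tt
      rw [one_mul, h]

end grp

/-- an equivariant map from a free `G`-set to `G` -/
theorem exists_equiv {G J : Type} [Group G] [MulAction G J] (hfree : ∀ (γ : G) (j : J), γ • j = j → γ = 1) :
    ∃ φ : J → G, ∀ (γ : G) (j : J), φ (γ • j) = γ * φ j := by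
  classical
  let r : J → J := fun j => Quotient.out (Quotient.mk (MulAction.orbitRel G J) j)
  have hr : ∀ j, ∃ γ : G, γ • r j = j := by
    intro j
    have h := Quotient.mk_out (s := MulAction.orbitRel G J) j
    have h2 : r j ∈ MulAction.orbit G j := MulAction.orbitRel_apply.1 h
    obtain ⟨γ, hγ⟩ := h2
    refine ⟨γ⁻¹, ?_⟩
    rw [← hγ]
    exact inv_smul_smul γ j
  choose φ hφ using hr
  refine ⟨φ, fun γ j => ?_⟩
  have h1 : r (γ • j) = r j := by
    show Quotient.out _ = Quotient.out _
    congr 1
    exact Quotient.sound (MulAction.orbitRel_apply.2 ⟨γ, rfl⟩)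
  have h2 : φ (γ • j) • r j = (γ * φ j) • r j := by
    rw [mul_smul, hφ j]
    have := hφ (γ • j)
    rwa [h1] at this
  have h3 : ((γ * φ j)⁻¹ * φ (γ • j)) • r j = r j := by
    rw [mul_smul, h2, inv_smul_smul]
  have h4 := hfree _ _ h3
  rw [inv_mul_eq_one] at h4
  exact h4.symm

theorem exists_sig (D : Type) [Group D] (J : Type) [MulAction (D ≀ᵣ Multiplicative (ZMod 2)) J]
    (hfree : ∀ (γ : D ≀ᵣ Multiplicative (ZMod 2)) (j : J), γ • j = j → γ = 1) :
    ∃ (I : MulAction (D × D) J) (W : @Sig J D _ I), ∀ (R : Type) (u : List J → R),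
      (∀ (γ : D ≀ᵣ Multiplicative (ZMod 2)) (l : List J), u (l.map (γ • ·)) = u l) ↔
      ((∀ (g : D × D) (l : List J), u (l.map (fun j => I.smul g j)) = u l) ∧
        ∀ l, u (l.map W.σ) = u l) := by
  classical
  obtain ⟨φ, hφ⟩ := exists_equiv hfree
  letI I : MulAction (D × D) J := MulAction.compHom J bas
  have hI : ∀ (g : D × D) (j : J), g • j = (bas g : D ≀ᵣ Q2) • j := fun _ _ => rfl
  let W : Sig J D :=
    { σ := fun j => (tau : D ≀ᵣ Q2) • j
      inv := fun j => by rw [← mul_smul, tau_mul_tau, one_smul]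
      smul := fun g j => by
        rw [hI, hI, ← mul_smul, ← mul_smul, tau_mul_bas]
      c1 := fun j => (φ j).left 1
      c2 := fun j => (φ j).left tt
      ε := fun j => decide ((φ j).right = tt)
      c1_smul := fun g j => by
        rw [hI, hφ, RegularWreathProduct.mul_left]
        show (if (1 : Q2) = 1 then g.1 else g.2) * (φ j).left ((1 : Q2)⁻¹ * 1) = _
        rw [if_pos rfl, inv_one, one_mul]
      c2_smul := fun g j => by
        rw [hI, hφ, RegularWreathProduct.mul_left]
        show (if tt = 1 then g.1 else g.2) * (φ j).left ((1 : Q2)⁻¹ * tt) = _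
        rw [if_neg tt_ne, inv_one, one_mul]
      c1_σ := fun j => by
        rw [hφ, RegularWreathProduct.mul_left]
        show (1 : D) * (φ j).left (tt⁻¹ * 1) = _
        rw [one_mul, mul_one, tt_inv]
      ε_smul := fun g j => by
        rw [hI, hφ, RegularWreathProduct.mul_right]
        show decide ((1 : Q2) * (φ j).right = tt) = _
        rw [one_mul]
      ε_σ := fun j => by
        rw [hφ, RegularWreathProduct.mul_right]
        show decide (tt * (φ j).right = tt) = _
        rcases q2_cases (φ j).right with h | h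
        · rw [h]; decide
        · rw [h]; decide }
  refine ⟨I, W, fun R u => ⟨fun h => ⟨fun g l => h (bas g) l, fun l => h tau l⟩, ?_⟩⟩
  rintro ⟨h1, h2⟩ γ l
  have h1' : ∀ (g : D × D) (l : List J), u (l.map (fun j => (bas g : D ≀ᵣ Q2) • j)) = u l := h1
  have h2' : ∀ l : List J, u (l.map (fun j => (tau : D ≀ᵣ Q2) • j)) = u l := h2
  rcases decomp γ with h | h
  · rw [h]; exact h1' _ l
  · rw [h]
    have e : l.map (fun j => (bas (γ.left 1, γ.left tt) * tau : D ≀ᵣ Q2) • j) =
        (l.map (fun j => (tau : D ≀ᵣ Q2) • j)).map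
          (fun j => (bas (γ.left 1, γ.left tt) : D ≀ᵣ Q2) • j) := by
      rw [List.map_map]
      refine List.map_congr_left fun j _ => ?_
      exact mul_smul _ _ _
    rw [e, h1', h2']

end Crest.Agent.R204.SigEx718
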