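import Crest.Agent.R204.W_803
import Crest.Agent.R204.SigEx_718
import Crest.Agent.R204.SQJ_761
import Crest.Agent.R204.SQP5_334
import Crest.Agent.R204.SQT_334

/-!
# Row 204, block G, leaf G5: `SQ` for wreath products with `Z/2` and all symmetric groups (helper334;
structure theorem by helper803)
-/

set_option autoImplicit false
set_option linter.unusedSectionVars false

namespace Crest.Agent.R204.SQ334

open SQ803

theorem SQ_wr334 (D : Type) [Group D] [Finite D] (h : SQ D) :
    SQ (D ≀ᵣ Multiplicative (ZMod 2)) := by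
  intro J _ hfree N hN m u hum hu hdu
  obtain ⟨I, W, hW⟩ := SigEx718.exists_sig D J hfree
  rcases isEmpty_or_nonempty J with hJ | ⟨⟨j0⟩⟩
  · have hl : ∀ l : List J, l = [] := fun l => by
      rcases l with _ | ⟨x, l⟩
      · rfl
      · exact (hJ.false x).elim
    refine ⟨fun _ => 0, fun _ => 0, fun l h => absurd rfl h, fun _ _ => rfl, fun l => dl_zero l,
      fun l h => absurd rfl h, rfl, fun _ _ => rfl, fun l => ?_⟩
    rw [hl l]
    simp
  · have hu' := (hW _ u).1 hu
    have h0 : u [] = 0 := by
      by_contra hc
      have := hum [] hc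
      simp at this
    have hFB : (⟨u⟩ : Co J (ZMod 2)) ∈ FB W 2 := ⟨⟨h0, hu'.1⟩, hu'.2⟩
    have key := main_wr j0 W hN (fun p a ha => lift_of_SQ h hN ha) hFB hum hdu
    obtain ⟨Y, v, Y', v', hY', hv', eY, ev, hYm, hdY, hvm, hv0, huu⟩ :=
      key.out (Fq := FB W 2) (FR := FB W (2 ^ N)) (fun f hf => hf.1.1) (fun f hf => hf.1.1) hum
    refine ⟨Y, v, hYm, ?_, hdY, hvm, hv0, ?_, huu⟩
    · refine (hW _ Y).2 ⟨fun g l => ?_, fun l => ?_⟩
      · rw [eY]
        simp only [List.length_map]
        have := hY'.1.2 g l
        split_ifs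
        · exact this
        · rfl
      · rw [eY]
        simp only [List.length_map]
        have := hY'.2 l
        split_ifs
        · exact this
        · rfl
    · refine (hW _ v).2 ⟨fun g l => ?_, fun l => ?_⟩
      · rw [ev]
        simp only [List.length_map]
        have := hv'.1.2 g l
        split_ifs
        · exact this
        · rfl
      · rw [ev]
        simp only [List.length_map]
        have := hv'.2 l
        split_ifs
        · exact this
        · rfl

/-- **LEMMA SQ** for all symmetric groups -/
theorem sq_perm : ∀ w : ℕ, SQ (Equiv.Perm (Fin w)) :=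
  SQG334.SQ_perm SQ_iso SQ_one (fun G H _ _ _ _ hG hH => SQP334.SQ_prod G H hG hH)
    (fun G _ _ h => SQ_wr334 G h)

end Crest.Agent.R204.SQ334
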