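import Crest.Agent.R204.Final_114
import Crest.Agent.R204.FinalH_114
import Crest.Agent.R204.Poly0_979
import Crest.Agent.R204.FourZ_947
import Crest.Agent.R204.SQAll_334

/-!
# Row 204: all the facts of the concrete tower, unconditional (independent assembly, helper525)
-/

set_option autoImplicit false

namespace Crest.Agent.R204.AllF525

theorem allFacts : Final478.AllFacts :=
  Final114.allFacts_of fun e N =>
    have hP : (Final114.par e N).tower.FactPoly0 (2 * (e + 1) + 4) :=
      LoopZ979.factPoly0 _ (by simp only [Final114.par]; omega) (by simp only [Final114.par]; omega)
    { poly0 := hP
      four := Four947.factFour _ (by simp only [Final114.par]; omega)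
        (by simp only [Final114.par]; omega) (by simp only [Final114.par]; omega) hP
        SQ334.sq_perm (by omega) }

end Crest.Agent.R204.AllF525
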