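import Mathlib

set_option autoImplicit false

/-!
# Row 204, leaf A-ADEM-1: Bullett--Macdonald symmetry implies the Adem relations

`P(s) = ∑ s^i Sq^i`; the symmetry identity is `P(s²+st) P(t²) = P(t²+st) P(s²)`.  Everything is
reduced to scalars (`ZMod 2`) with linear functionals.  The key tool is the residue functional
`F ↦ coeff_a (F (1+X)^{-(a+1)})`.
-/

namespace Crest.Agent.R204.BM596

open PowerSeries Finset

/-- the power series ring over `F_2`. -/
abbrev PS := PowerSeries (ZMod 2)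

lemma one_add_X_eq : (1 + X : PS) = 1 - X := by
  have h : (X : PS) + X = 0 := by
    have h2 : (2 : PS) = 0 := by
      have : ((2 : ℕ) : PS) = 0 := by
        have := CharP.cast_eq_zero (ZMod 2) 2
        rw [← map_natCast (PowerSeries.C (R := ZMod 2)) 2, this, map_zero]
      simpa using this
    rw [← two_mul, h2, zero_mul]
  linear_combination h

/-- `(1+X)^{-(d+1)}`. -/
noncomputable def G (d : ℕ) : PS := PowerSeries.mk fun n => ((d + n).choose d : ZMod 2)

lemma G_mul (d : ℕ) : G d * (1 + X) ^ (d + 1) = 1 := by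
  have h := PowerSeries.mk_add_choose_mul_one_sub_pow_eq_one (ZMod 2) d
  rw [one_add_X_eq]
  exact h

lemma coeff_G_self {d : ℕ} (hd : 1 ≤ d) : coeff d (G d) = 0 := by
  rw [G, coeff_mk]
  have h := Nat.two_dvd_centralBinom_of_one_le hd
  have h2 : (d + d).choose d = d.centralBinom := by
    rw [Nat.centralBinom_eq_two_mul_choose, two_mul]
  rw [h2]
  exact (ZMod.natCast_eq_zero_iff _ 2).2 h

lemma coeff_G_zero (d : ℕ) : coeff 0 (G d) = 1 := by
  rw [G, coeff_mk]; simp

/-- residue functional. -/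
noncomputable def res (a : ℕ) : PS →ₗ[ZMod 2] ZMod 2 :=
  (PowerSeries.coeff (R := ZMod 2) a).comp (LinearMap.mulRight (ZMod 2) (G a))

lemma res_apply (a : ℕ) (F : PS) : res a F = coeff a (F * G a) := rfl

lemma G_add (i d : ℕ) : (1 + X : PS) ^ i * G (d + i) = G d := by
  have h1 := G_mul (d + i)
  have h2 := G_mul d
  have h3 : (1 + X : PS) ^ i * G (d + i) * (1 + X) ^ (d + 1) = 1 := by
    calc (1 + X : PS) ^ i * G (d + i) * (1 + X) ^ (d + 1)
        = G (d + i) * (1 + X) ^ (d + i + 1) := by ring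
      _ = 1 := h1
  calc (1 + X : PS) ^ i * G (d + i)
      = (1 + X : PS) ^ i * G (d + i) * (G d * (1 + X) ^ (d + 1)) := by rw [h2, mul_one]
    _ = ((1 + X : PS) ^ i * G (d + i) * (1 + X) ^ (d + 1)) * G d := by ring
    _ = G d := by rw [h3, one_mul]

lemma res_pow (a i : ℕ) : res a ((X + X ^ 2 : PS) ^ i) = if i = a then 1 else 0 := by
  rw [res_apply]
  have hx : (X + X ^ 2 : PS) ^ i = X ^ i * (1 + X) ^ i := by
    rw [← mul_pow]; congr 1; ring
  rw [hx]
  rcases lt_trichotomy i a with h | h | h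
  · obtain ⟨d, rfl⟩ : ∃ d, a = d + i := ⟨a - i, by omega⟩
    rw [mul_assoc, G_add, if_neg (by omega)]
    have : coeff (d + i) (X ^ i * G d) = coeff d (G d) := by
      rw [coeff_X_pow_mul]
    rw [this, coeff_G_self (by omega)]
  · subst h
    rw [if_pos rfl, mul_assoc]
    have := G_add i 0
    rw [zero_add] at this
    rw [this]
    have h2 : coeff i (X ^ i * G 0) = coeff 0 (G 0) := by
      have := coeff_X_pow_mul (G 0) i 0
      rwa [zero_add] at this
    rw [h2, coeff_G_zero]
  · rw [if_neg (by omega), mul_assoc, coeff_X_pow_mul', if_neg (by omega)]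

lemma coeff_one_add_X_pow (n k : ℕ) : coeff k ((1 + X : PS) ^ n) = (n.choose k : ZMod 2) := by
  have h : ((1 + X : PS) ^ n) = (((1 + Polynomial.X : Polynomial (ZMod 2)) ^ n : Polynomial (ZMod 2)) : PS) := by
    simp
  rw [h, Polynomial.coeff_coe, Polynomial.coeff_one_add_X_pow]

lemma res_left {a b j : ℕ} (hab : a < 2 * b) (hj : j ≤ a + b) :
    res a ((1 + X : PS) ^ (a + b - j) * X ^ (2 * j)) =
      if 2 * j ≤ a then ((b - j - 1).choose (a - 2 * j) : ZMod 2) else 0 := by
  rw [res_apply]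
  split_ifs with h
  · have e1 : a + b - j = (b - j - 1) + (a + 1) := by omega
    have e2 : (1 + X : PS) ^ (a + b - j) * X ^ (2 * j) * G a =
        X ^ (2 * j) * (1 + X : PS) ^ (b - j - 1) := by
      rw [e1, pow_add]
      calc (1 + X : PS) ^ (b - j - 1) * (1 + X) ^ (a + 1) * X ^ (2 * j) * G a
          = X ^ (2 * j) * (1 + X : PS) ^ (b - j - 1) * (G a * (1 + X) ^ (a + 1)) := by ring
        _ = _ := by rw [G_mul, mul_one]
    rw [e2, coeff_X_pow_mul', if_pos h, coeff_one_add_X_pow]
  · have e2 : (1 + X : PS) ^ (a + b - j) * X ^ (2 * j) * G a =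
        X ^ (2 * j) * ((1 + X : PS) ^ (a + b - j) * G a) := by ring
    rw [e2, coeff_X_pow_mul', if_neg h]

/-- Scalar form: the Bullett--Macdonald identity in total degree `a+b` implies the Adem relation. -/
theorem adem_scalar (μ : ℕ → ℕ → ZMod 2) {a b : ℕ} (hab : a < 2 * b)
    (H : ∑ p ∈ antidiagonal (a + b), C (μ p.1 p.2) * ((1 + X : PS) ^ p.1 * X ^ (2 * p.2)) =
      ∑ p ∈ antidiagonal (a + b), C (μ p.1 p.2) * (X + X ^ 2 : PS) ^ p.1) :
    μ a b = ∑ c ∈ range (a / 2 + 1), ((b - c - 1).choose (a - 2 * c) : ZMod 2) * μ (a + b - c) c := by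
  have H2 := congrArg (res a) H
  simp only [map_sum] at H2
  have hC : ∀ (r : ZMod 2) (F : PS), res a (C r * F) = r * res a F := by
    intro r F
    rw [← PowerSeries.smul_eq_C_mul, map_smul, smul_eq_mul]
  simp only [hC, res_pow] at H2
  have hR : ∑ p ∈ antidiagonal (a + b), μ p.1 p.2 * (if p.1 = a then (1 : ZMod 2) else 0) = μ a b := by
    rw [Finset.sum_eq_single (a, b)]
    · simp
    · rintro ⟨i, j⟩ hp hne
      rw [HasAntidiagonal.mem_antidiagonal] at hp
      have : i ≠ a := by
        rintro rfl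
        apply hne
        have : j = b := by simpa using hp
        rw [this]
      simp [this]
    · intro h
      exact absurd (HasAntidiagonal.mem_antidiagonal.2 (show a + b = a + b from rfl)) h
  rw [hR] at H2
  rw [← H2, Finset.Nat.sum_antidiagonal_eq_sum_range_succ_mk]
  rw [← Finset.sum_range_reflect]
  have hsub : range (a / 2 + 1) ⊆ range (a + b).succ := by
    intro x hx
    rw [mem_range] at hx ⊢
    have h1 : a / 2 ≤ a := Nat.div_le_self a 2
    omega
  rw [← Finset.sum_subset hsub]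
  · refine Finset.sum_congr rfl fun c hc => ?_
    rw [mem_range] at hc
    have hc2 : 2 * c ≤ a := by
      have : c ≤ a / 2 := by omega
      omega
    have e : (a + b).succ - 1 - c = a + b - c := by omega
    have e3 : a + b - (a + b - c) = c := by omega
    simp only [e, e3]
    rw [res_left hab (by omega), if_pos hc2, mul_comm]
  · intro c hc hnc
    rw [mem_range] at hc hnc
    have hc2 : ¬ 2 * c ≤ a := by
      intro h
      apply hnc
      omega
    have e : (a + b).succ - 1 - c = a + b - c := by omega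
    have e3 : a + b - (a + b - c) = c := by omega
    simp only [e, e3]
    rw [res_left hab (by omega), if_neg hc2, mul_zero]

/-- The geometric (instability) normalisation: in cohomological degree `n`, total degree `N`,
`∑_{i+j=N} (1+X)^{n-i} X^{n+2i-N} μ(j,i) = ∑ X^{n-i}(1+X)^{n-i} μ(j,i)` implies the
Bullett--Macdonald identity. -/
theorem bm_of_geom (μ : ℕ → ℕ → ZMod 2) (n N : ℕ)
    (hz : ∀ i j, i + j = N → μ j i ≠ 0 → i ≤ n ∧ j ≤ n + i)
    (H : ∑ p ∈ antidiagonal N, C (μ p.1 p.2) * ((1 + X : PS) ^ (n - p.2) * X ^ (n + 2 * p.2 - N)) =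
      ∑ p ∈ antidiagonal N, C (μ p.1 p.2) * (X + X ^ 2 : PS) ^ (n - p.2)) :
    ∑ p ∈ antidiagonal N, C (μ p.1 p.2) * ((1 + X : PS) ^ p.1 * X ^ (2 * p.2)) =
      ∑ p ∈ antidiagonal N, C (μ p.1 p.2) * (X + X ^ 2 : PS) ^ p.1 := by
  have hx : (X + X ^ 2 : PS) = X * (1 + X) := by ring
  have hne : (X * (1 + X) : PS) ^ n ≠ 0 := by
    apply pow_ne_zero
    apply mul_ne_zero X_ne_zero
    intro h
    have := congrArg (coeff 0) h
    simp at this
  apply mul_right_cancel₀ hne
  have key : ∀ F F' : PS, F = F' → F * (X * (1 + X)) ^ N = F' * (X * (1 + X)) ^ N := by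
    intro F F' h; rw [h]
  have K := key _ _ H
  rw [Finset.sum_mul, Finset.sum_mul] at K ⊢
  have L : ∀ p ∈ antidiagonal N, C (μ p.1 p.2) * ((1 + X : PS) ^ p.1 * X ^ (2 * p.2)) * (X * (1 + X)) ^ n
      = C (μ p.1 p.2) * ((1 + X : PS) ^ (n - p.2) * X ^ (n + 2 * p.2 - N)) * (X * (1 + X)) ^ N := by
    rintro ⟨j, i⟩ hp
    rw [HasAntidiagonal.mem_antidiagonal] at hp
    simp only at hp ⊢
    by_cases h0 : μ j i = 0
    · rw [h0]; simp
    obtain ⟨h1, h2⟩ := hz i j (by omega) h0
    have e1 : (1 + X : PS) ^ j * X ^ (2 * i) * (X * (1 + X)) ^ n = (1 + X) ^ (j + n) * X ^ (2 * i + n) := by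
      rw [mul_pow, pow_add, pow_add]; ring
    have e2 : (1 + X : PS) ^ (n - i) * X ^ (n + 2 * i - N) * (X * (1 + X)) ^ N
        = (1 + X) ^ (n - i + N) * X ^ (n + 2 * i - N + N) := by
      rw [mul_pow, pow_add, pow_add]; ring
    rw [mul_assoc, mul_assoc (C (μ j i)), e1, e2]
    have e3 : j + n = n - i + N := by omega
    have e4 : 2 * i + n = n + 2 * i - N + N := by omega
    rw [e3, e4]
  have R : ∀ p ∈ antidiagonal N, C (μ p.1 p.2) * (X + X ^ 2 : PS) ^ p.1 * (X * (1 + X)) ^ n
      = C (μ p.1 p.2) * (X + X ^ 2 : PS) ^ (n - p.2) * (X * (1 + X)) ^ N := by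
    rintro ⟨j, i⟩ hp
    rw [HasAntidiagonal.mem_antidiagonal] at hp
    simp only at hp ⊢
    by_cases h0 : μ j i = 0
    · rw [h0]; simp
    obtain ⟨h1, h2⟩ := hz i j (by omega) h0
    rw [hx, mul_assoc, mul_assoc (C (μ j i)), ← pow_add, ← pow_add]
    have e3 : j + n = n - i + N := by omega
    rw [e3]
  rw [Finset.sum_congr rfl L, Finset.sum_congr rfl R]
  exact K

/-- Coefficient form of the geometric identity (this is what the symmetry `s ↔ t` of
`S_t S_s u` says: the coefficient of `s^k t^l` with `k + l = 3 n - N`). -/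
theorem series_of_symm (μ : ℕ → ℕ → ZMod 2) (n N : ℕ)
    (hz : ∀ i j, i + j = N → μ j i ≠ 0 → i ≤ n ∧ j ≤ n + i)
    (H : ∀ k l : ℕ, k + l + N = 3 * n →
      ∑ i ∈ range (n + 1), (if n ≤ k + i ∧ i ≤ N then
          ((n - i).choose (k + i - n) : ZMod 2) * μ (N - i) i else 0) =
      ∑ i ∈ range (n + 1), (if n ≤ l + i ∧ i ≤ N then
          ((n - i).choose (l + i - n) : ZMod 2) * μ (N - i) i else 0)) :
    ∑ p ∈ antidiagonal N, C (μ p.1 p.2) * ((1 + X : PS) ^ p.1 * X ^ (2 * p.2)) =
      ∑ p ∈ antidiagonal N, C (μ p.1 p.2) * (X + X ^ 2 : PS) ^ p.1 := by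
  apply bm_of_geom μ n N hz
  ext k
  have hx : (X + X ^ 2 : PS) = X * (1 + X) := by ring
  simp only [map_sum, ← PowerSeries.smul_eq_C_mul, map_smul, smul_eq_mul]
  -- rewrite both sides as sums over i
  have hsum : ∀ f : ℕ → ℕ → ZMod 2, (∀ j i, i + j = N → μ j i = 0 → f j i = 0) →
      ∑ p ∈ antidiagonal N, f p.1 p.2 = ∑ i ∈ range (n + 1), (if i ≤ N then f (N - i) i else 0) := by
    intro f hf
    have e1 : ∑ p ∈ antidiagonal N, f p.1 p.2 = ∑ i ∈ range (N + 1), f (N - i) i := by
      rw [← Finset.Nat.sum_antidiagonal_swap]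
      rw [Finset.Nat.sum_antidiagonal_eq_sum_range_succ_mk]
      rfl
    rw [e1]
    have e2 : ∑ i ∈ range (N + 1), f (N - i) i = ∑ i ∈ range (N + 1) ∩ range (n + 1), f (N - i) i := by
      symm
      apply Finset.sum_subset (Finset.inter_subset_left)
      intro i hi hni
      rw [mem_inter, not_and] at hni
      have hni' := hni hi
      rw [mem_range] at hi hni'
      apply hf _ _ (by omega)
      by_contra h0
      have := (hz i (N - i) (by omega) h0).1
      omega
    rw [e2]
    rw [Finset.sum_ite, Finset.sum_const_zero, add_zero]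
    apply Finset.sum_congr _ (fun _ _ => rfl)
    ext i
    simp only [mem_inter, mem_range, mem_filter]
    constructor
    · rintro ⟨h1, h2⟩; exact ⟨h2, by omega⟩
    · rintro ⟨h1, h2⟩; exact ⟨by omega, h1⟩
  rw [hsum (fun j i => μ j i * coeff k ((1 + X : PS) ^ (n - i) * X ^ (n + 2 * i - N)))
      (fun j i _ h => by simp [h]),
    hsum (fun j i => μ j i * coeff k ((X + X ^ 2 : PS) ^ (n - i))) (fun j i _ h => by simp [h])]
  have cR : ∀ i ∈ range (n + 1), (if i ≤ N then μ (N - i) i * coeff k ((X + X ^ 2 : PS) ^ (n - i)) else 0)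
      = (if n ≤ k + i ∧ i ≤ N then ((n - i).choose (k + i - n) : ZMod 2) * μ (N - i) i else 0) := by
    intro i hi
    rw [mem_range] at hi
    by_cases h1 : i ≤ N
    · rw [if_pos h1, hx, mul_pow, coeff_X_pow_mul']
      by_cases h2 : n ≤ k + i
      · rw [if_pos (by omega), if_pos ⟨h2, h1⟩, coeff_one_add_X_pow, mul_comm]
        congr 3; omega
      · rw [if_neg (by omega), if_neg (by tauto), mul_zero]
    · rw [if_neg h1, if_neg (by tauto)]
  rw [Finset.sum_congr rfl cR]
  have cL : ∀ i ∈ range (n + 1), (if i ≤ N then μ (N - i) i *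
        coeff k ((1 + X : PS) ^ (n - i) * X ^ (n + 2 * i - N)) else 0)
      = (if n + 2 * i ≤ k + N ∧ i ≤ N then ((n - i).choose (k + N - n - 2 * i) : ZMod 2) * μ (N - i) i else 0) := by
    intro i hi
    rw [mem_range] at hi
    by_cases h1 : i ≤ N
    · rw [if_pos h1]
      by_cases h0 : μ (N - i) i = 0
      · simp [h0]
      obtain ⟨h3, h4⟩ := hz i (N - i) (by omega) h0
      rw [mul_comm ((1 + X : PS) ^ (n - i)), coeff_X_pow_mul']
      by_cases h2 : n + 2 * i ≤ k + N
      · rw [if_pos (by omega), if_pos ⟨h2, h1⟩, coeff_one_add_X_pow, mul_comm]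
        congr 3; omega
      · rw [if_neg (by omega), if_neg (by tauto), mul_zero]
    · rw [if_neg h1, if_neg (by tauto)]
  rw [Finset.sum_congr rfl cL]
  by_cases hk : k + N ≤ 3 * n
  · have := H k (3 * n - N - k) (by omega)
    rw [this]
    refine Finset.sum_congr rfl fun i hi => ?_
    rw [mem_range] at hi
    by_cases h1 : i ≤ N
    · by_cases h2 : n + 2 * i ≤ k + N
      · rw [if_pos ⟨h2, h1⟩]
        by_cases h3 : n ≤ 3 * n - N - k + i
        · rw [if_pos ⟨h3, h1⟩]
          congr 2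
          have hs : k + N - n - 2 * i = (n - i) - (3 * n - N - k + i - n) := by omega
          rw [hs, Nat.choose_symm (by omega)]
        · rw [if_neg (by tauto)]
          rw [Nat.choose_eq_zero_of_lt (by omega)]
          simp
      · rw [if_neg (by tauto)]
        by_cases h3 : n ≤ 3 * n - N - k + i
        · rw [if_pos ⟨h3, h1⟩, Nat.choose_eq_zero_of_lt (by omega)]
          simp
        · rw [if_neg (by tauto)]
    · rw [if_neg (by tauto), if_neg (by tauto)]
  · -- both sides vanish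
    rw [Finset.sum_eq_zero, Finset.sum_eq_zero]
    · intro i hi
      rw [mem_range] at hi
      by_cases h : n ≤ k + i ∧ i ≤ N
      · rw [if_pos h]
        by_cases h0 : μ (N - i) i = 0
        · simp [h0]
        obtain ⟨h3, h4⟩ := hz i (N - i) (by omega) h0
        rw [Nat.choose_eq_zero_of_lt (by omega)]
        simp
      · rw [if_neg h]
    · intro i hi
      rw [mem_range] at hi
      by_cases h : n + 2 * i ≤ k + N ∧ i ≤ N
      · rw [if_pos h]
        rw [Nat.choose_eq_zero_of_lt (by omega)]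
        simp
      · rw [if_neg h]


/-- scalar Adem relations from the geometric symmetry. -/
theorem adem_of_symm (μ : ℕ → ℕ → ZMod 2) (n : ℕ) {a b : ℕ} (hab : a < 2 * b)
    (hz : ∀ i j, i + j = a + b → μ j i ≠ 0 → i ≤ n ∧ j ≤ n + i)
    (H : ∀ k l : ℕ, k + l + (a + b) = 3 * n →
      ∑ i ∈ range (n + 1), (if n ≤ k + i ∧ i ≤ a + b then
          ((n - i).choose (k + i - n) : ZMod 2) * μ (a + b - i) i else 0) =
      ∑ i ∈ range (n + 1), (if n ≤ l + i ∧ i ≤ a + b then
          ((n - i).choose (l + i - n) : ZMod 2) * μ (a + b - i) i else 0)) :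
    μ a b = ∑ c ∈ range (a / 2 + 1), ((b - c - 1).choose (a - 2 * c) : ZMod 2) * μ (a + b - c) c :=
  adem_scalar μ hab (series_of_symm μ n (a + b) hz H)

/-- The coefficient `φ_N(i) = ∑_{a ≤ N} C(a, i-a) m(a, N-a)` of helper85's Bullett--Macdonald
form. -/
def phi {M : Type*} [AddCommGroup M] [Module (ZMod 2) M] (m : ℕ → ℕ → M) (N i : ℕ) : M :=
  ∑ a ∈ range (N + 1), if a ≤ i then ((a.choose (i - a) : ℕ) : ZMod 2) • m a (N - a) else 0

/-- Power series form of Bullett--Macdonald implies the coefficient form (scalars). -/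
theorem phi_symm_of_series (μ : ℕ → ℕ → ZMod 2) (N : ℕ)
    (H : ∑ p ∈ antidiagonal N, C (μ p.1 p.2) * ((1 + X : PS) ^ p.1 * X ^ (2 * p.2)) =
      ∑ p ∈ antidiagonal N, C (μ p.1 p.2) * (X + X ^ 2 : PS) ^ p.1) {i : ℕ} (hi : i ≤ 2 * N) :
    phi μ N i = phi μ N (2 * N - i) := by
  have hx : (X + X ^ 2 : PS) = X * (1 + X) := by ring
  have H2 := congrArg (coeff i) H
  simp only [map_sum, ← PowerSeries.smul_eq_C_mul, map_smul, smul_eq_mul] at H2
  rw [Finset.Nat.sum_antidiagonal_eq_sum_range_succ_mk,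
    Finset.Nat.sum_antidiagonal_eq_sum_range_succ_mk] at H2
  unfold phi
  simp only [smul_eq_mul]
  have hR : ∀ a ∈ range N.succ, μ a (N - a) * coeff i ((X + X ^ 2 : PS) ^ a) =
      if a ≤ i then ((a.choose (i - a) : ℕ) : ZMod 2) * μ a (N - a) else 0 := by
    intro a ha
    rw [hx, mul_pow, coeff_X_pow_mul']
    split_ifs with h
    · rw [coeff_one_add_X_pow, mul_comm]
    · rw [mul_zero]
  have hL : ∀ a ∈ range N.succ, μ a (N - a) * coeff i ((1 + X : PS) ^ a * X ^ (2 * (N - a))) =
      if a ≤ 2 * N - i then ((a.choose (2 * N - i - a) : ℕ) : ZMod 2) * μ a (N - a) else 0 := by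
    intro a ha
    rw [mem_range] at ha
    rw [mul_comm ((1 + X : PS) ^ a), coeff_X_pow_mul']
    by_cases h : 2 * (N - a) ≤ i
    · rw [if_pos h, coeff_one_add_X_pow, mul_comm]
      by_cases h2 : a ≤ 2 * N - i
      · rw [if_pos h2]
        have e : i - 2 * (N - a) = a - (2 * N - i - a) := by omega
        rw [e, Nat.choose_symm (by omega)]
      · rw [if_neg h2, Nat.choose_eq_zero_of_lt (by omega)]
        simp
    · rw [if_neg h, mul_zero]
      split_ifs with h2
      · rw [Nat.choose_eq_zero_of_lt (by omega)]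
        simp
      · rfl
  rw [Finset.sum_congr rfl hR, Finset.sum_congr rfl hL] at H2
  exact H2.symm

/-- the coefficient form implies the series form. -/
theorem series_of_phi (μ : ℕ → ℕ → ZMod 2) (N : ℕ)
    (H : ∀ i ≤ 2 * N, phi μ N i = phi μ N (2 * N - i)) :
    ∑ p ∈ antidiagonal N, C (μ p.1 p.2) * ((1 + X : PS) ^ p.1 * X ^ (2 * p.2)) =
      ∑ p ∈ antidiagonal N, C (μ p.1 p.2) * (X + X ^ 2 : PS) ^ p.1 := by
  have hx : (X + X ^ 2 : PS) = X * (1 + X) := by ring
  ext i
  simp only [map_sum, ← PowerSeries.smul_eq_C_mul, map_smul, smul_eq_mul]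
  rw [Finset.Nat.sum_antidiagonal_eq_sum_range_succ_mk,
    Finset.Nat.sum_antidiagonal_eq_sum_range_succ_mk]
  by_cases hi : i ≤ 2 * N
  · have H2 := H i hi
    unfold phi at H2
    simp only [smul_eq_mul] at H2
    have hR : ∀ a ∈ range N.succ, μ a (N - a) * coeff i ((X + X ^ 2 : PS) ^ a) =
        if a ≤ i then ((a.choose (i - a) : ℕ) : ZMod 2) * μ a (N - a) else 0 := by
      intro a ha
      rw [hx, mul_pow, coeff_X_pow_mul']
      split_ifs with h
      · rw [coeff_one_add_X_pow, mul_comm]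
      · rw [mul_zero]
    have hL : ∀ a ∈ range N.succ, μ a (N - a) * coeff i ((1 + X : PS) ^ a * X ^ (2 * (N - a))) =
        if a ≤ 2 * N - i then ((a.choose (2 * N - i - a) : ℕ) : ZMod 2) * μ a (N - a) else 0 := by
      intro a ha
      rw [mem_range] at ha
      rw [mul_comm ((1 + X : PS) ^ a), coeff_X_pow_mul']
      by_cases h : 2 * (N - a) ≤ i
      · rw [if_pos h, coeff_one_add_X_pow, mul_comm]
        by_cases h2 : a ≤ 2 * N - i
        · rw [if_pos h2]
          have e : i - 2 * (N - a) = a - (2 * N - i - a) := by omega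
          rw [e, Nat.choose_symm (by omega)]
        · rw [if_neg h2, Nat.choose_eq_zero_of_lt (by omega)]
          simp
      · rw [if_neg h, mul_zero]
        split_ifs with h2
        · rw [Nat.choose_eq_zero_of_lt (by omega)]
          simp
        · rfl
    rw [Finset.sum_congr rfl hR, Finset.sum_congr rfl hL]
    exact H2.symm
  · rw [Finset.sum_eq_zero, Finset.sum_eq_zero]
    · intro a ha
      rw [mem_range] at ha
      rw [hx, mul_pow, coeff_X_pow_mul']
      split_ifs with h
      · rw [coeff_one_add_X_pow, Nat.choose_eq_zero_of_lt (by omega)]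
        simp
      · rw [mul_zero]
    · intro a ha
      rw [mem_range] at ha
      rw [mul_comm ((1 + X : PS) ^ a), coeff_X_pow_mul']
      split_ifs with h
      · rw [coeff_one_add_X_pow, Nat.choose_eq_zero_of_lt (by omega)]
        simp
      · rw [mul_zero]

/-- scalar form, from the geometric symmetry. -/
theorem phi_symm_scalar (μ : ℕ → ℕ → ZMod 2) (n N : ℕ)
    (hz : ∀ i j, i + j = N → μ j i ≠ 0 → i ≤ n ∧ j ≤ n + i)
    (H : ∀ k l : ℕ, k + l + N = 3 * n →
      ∑ i ∈ range (n + 1), (if n ≤ k + i ∧ i ≤ N then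
          ((n - i).choose (k + i - n) : ZMod 2) * μ (N - i) i else 0) =
      ∑ i ∈ range (n + 1), (if n ≤ l + i ∧ i ≤ N then
          ((n - i).choose (l + i - n) : ZMod 2) * μ (N - i) i else 0))
    {i : ℕ} (hi : i ≤ 2 * N) : phi μ N i = phi μ N (2 * N - i) :=
  phi_symm_of_series μ N (series_of_symm μ n N hz H) hi

theorem phi_map {M M' : Type*} [AddCommGroup M] [Module (ZMod 2) M] [AddCommGroup M']
    [Module (ZMod 2) M'] (f : M →ₗ[ZMod 2] M') (m : ℕ → ℕ → M) (N i : ℕ) :
    f (phi m N i) = phi (fun a b => f (m a b)) N i := by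
  unfold phi
  rw [map_sum]
  refine Finset.sum_congr rfl fun a _ => ?_
  split_ifs
  · rw [map_smul]
  · rw [map_zero]

/-- **A5.4b**, vector form: the symmetry of the iterated total square (coefficients of `s^k t^l`)
implies the Bullett--Macdonald identity in helper85's coefficient form. -/
theorem phi_symm_of_geom {M : Type*} [AddCommGroup M] [Module (ZMod 2) M] (m : ℕ → ℕ → M)
    (n N : ℕ) (hz : ∀ i j, i + j = N → m j i ≠ 0 → i ≤ n ∧ j ≤ n + i)
    (H : ∀ k l : ℕ, k + l + N = 3 * n →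
      ∑ i ∈ range (n + 1), (if n ≤ k + i ∧ i ≤ N then
          (((n - i).choose (k + i - n) : ℕ) : ZMod 2) • m (N - i) i else 0) =
      ∑ i ∈ range (n + 1), (if n ≤ l + i ∧ i ≤ N then
          (((n - i).choose (l + i - n) : ℕ) : ZMod 2) • m (N - i) i else 0))
    {i : ℕ} (hi : i ≤ 2 * N) : phi m N i = phi m N (2 * N - i) := by
  rw [← sub_eq_zero]
  refine (Module.forall_dual_apply_eq_zero_iff (ZMod 2) _).1 fun f => ?_
  rw [map_sub, phi_map, phi_map, sub_eq_zero]
  refine phi_symm_scalar (fun a b => f (m a b)) n N ?_ ?_ hi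
  · intro i j hij h
    refine hz i j hij fun h0 => h ?_
    simp only [h0, map_zero]
  · intro k l hkl
    have h := congrArg f (H k l hkl)
    rw [map_sum, map_sum] at h
    simpa only [apply_ite f, map_smul, smul_eq_mul, map_zero] using h

/-- **A5.4b**, vector form, Adem relations. -/
theorem adem_of_geom {M : Type*} [AddCommGroup M] [Module (ZMod 2) M] (m : ℕ → ℕ → M)
    (n : ℕ) {a b : ℕ} (hab : a < 2 * b)
    (hz : ∀ i j, i + j = a + b → m j i ≠ 0 → i ≤ n ∧ j ≤ n + i)
    (H : ∀ k l : ℕ, k + l + (a + b) = 3 * n →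
      ∑ i ∈ range (n + 1), (if n ≤ k + i ∧ i ≤ a + b then
          (((n - i).choose (k + i - n) : ℕ) : ZMod 2) • m (a + b - i) i else 0) =
      ∑ i ∈ range (n + 1), (if n ≤ l + i ∧ i ≤ a + b then
          (((n - i).choose (l + i - n) : ℕ) : ZMod 2) • m (a + b - i) i else 0)) :
    m a b = ∑ c ∈ range (a / 2 + 1),
      (((b - c - 1).choose (a - 2 * c) : ℕ) : ZMod 2) • m (a + b - c) c := by
  rw [← sub_eq_zero]
  refine (Module.forall_dual_apply_eq_zero_iff (ZMod 2) _).1 fun f => ?_
  rw [map_sub, map_sum, sub_eq_zero]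
  simp only [map_smul, smul_eq_mul]
  refine adem_of_symm (fun a b => f (m a b)) n hab ?_ ?_
  · intro i j hij h
    refine hz i j hij fun h0 => h ?_
    simp only [h0, map_zero]
  · intro k l hkl
    have h := congrArg f (H k l hkl)
    rw [map_sum, map_sum] at h
    simpa only [apply_ite f, map_smul, smul_eq_mul, map_zero] using h

/-- Bullett--Macdonald in coefficient form implies the Adem relations (vector form). -/
theorem adem_of_phi {M : Type*} [AddCommGroup M] [Module (ZMod 2) M] (m : ℕ → ℕ → M)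
    {a b : ℕ} (hab : a < 2 * b)
    (H : ∀ i ≤ 2 * (a + b), phi m (a + b) i = phi m (a + b) (2 * (a + b) - i)) :
    m a b = ∑ c ∈ range (a / 2 + 1),
      (((b - c - 1).choose (a - 2 * c) : ℕ) : ZMod 2) • m (a + b - c) c := by
  rw [← sub_eq_zero]
  refine (Module.forall_dual_apply_eq_zero_iff (ZMod 2) _).1 fun f => ?_
  rw [map_sub, map_sum, sub_eq_zero]
  simp only [map_smul, smul_eq_mul]
  have h1 : ∀ i ≤ 2 * (a + b), phi (fun a b => f (m a b)) (a + b) i =
      phi (fun a b => f (m a b)) (a + b) (2 * (a + b) - i) := by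
    intro i hi
    rw [← phi_map, ← phi_map, H i hi]
  exact adem_scalar (fun a b => f (m a b)) hab (series_of_phi (fun a b => f (m a b)) (a + b) h1)

end Crest.Agent.R204.BM596
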