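import Mathlib

/-!
# Bullett-Macdonald identity implies the Adem relations (row 204, pure algebra)

For an element `u` of degree `n` of an `F₂`-module `E` with operators `Sq a`, put
`A i = Sq (k - i) (Sq i u)`.  The swap invariance of the fourfold power of `u` in
`H(BZ/2 × BZ/2) ⊗ E` says, coefficientwise, that

`F p = ∑ i, C(n - i, p - (n - i)) • A i`  satisfies `F p = F q` for `p + q + k = 3 n`.

From this we deduce `Sq a (Sq b u) = ∑ c, C(b - 1 - c, a - 2 c) • Sq (a + b - c) (Sq c u)`, `a < 2 b`.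
-/

set_option autoImplicit false

namespace Crest.Agent.R204.BM888

open Finset PowerSeries

/-- the coefficient of `x ^ p * y ^ q` (`p + q + k = 3 n`) in
`∑ i, (x (x + y)) ^ (n - i) * y ^ (n + 2 i - k) • A i`. -/
noncomputable def F {E : Type*} [AddCommGroup E] [Module (ZMod 2) E] (n : ℕ) (A : ℕ → E) (p : ℕ) : E :=
  ∑ i ∈ range (n + 1), (if n - i ≤ p then ((n - i).choose (p - (n - i)) : ZMod 2) else 0) • A i

local notation "U" => (1 + PowerSeries.X : PowerSeries (ZMod 2))

noncomputable abbrev V : PowerSeries (ZMod 2) := (U)⁻¹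

lemma U_mul_V : U * V = 1 := by
  have : (PowerSeries.constantCoeff (R := ZMod 2)) U ≠ 0 := by simp
  exact PowerSeries.mul_inv_cancel _ this

lemma U_pow_mul_V_pow (m l : ℕ) (h : l ≤ m) : V ^ l * (U) ^ m = (U) ^ (m - l) := by
  obtain ⟨d, rfl⟩ := Nat.exists_eq_add_of_le h
  rw [pow_add, ← mul_assoc, ← mul_pow, mul_comm V, U_mul_V, one_pow, one_mul, Nat.add_sub_cancel_left]

lemma V_pow_mul_U_pow (m l : ℕ) (h : l ≤ m) : V ^ m * (U) ^ l = V ^ (m - l) := by
  obtain ⟨d, rfl⟩ := Nat.exists_eq_add_of_le h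
  rw [pow_add, mul_assoc, mul_comm (V ^ d), ← mul_assoc, ← mul_pow, mul_comm V, U_mul_V, one_pow,
    one_mul, Nat.add_sub_cancel_left]

lemma U_eq : (U) = 1 - PowerSeries.X := by
  have : (PowerSeries.X : PowerSeries (ZMod 2)) = - PowerSeries.X := by
    ext n
    simp only [map_neg]
    exact (ZMod.neg_eq_self_mod_two _).symm
  rw [sub_eq_add_neg, ← this]

lemma coeff_V_pow (d m : ℕ) : PowerSeries.coeff m (V ^ (d + 1)) = ((d + m).choose d : ZMod 2) := by
  have h1 : V ^ (d + 1) * (1 - PowerSeries.X) ^ (d + 1) = 1 := by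
    rw [← U_eq, V_pow_mul_U_pow _ _ le_rfl]; simp
  have h2 : V ^ (d + 1) = (PowerSeries.invOneSubPow (ZMod 2) (d + 1)).val := by
    have h3 := (PowerSeries.invOneSubPow (ZMod 2) (d + 1)).val_inv
    rw [PowerSeries.invOneSubPow_inv_eq_one_sub_pow] at h3
    calc V ^ (d + 1) = V ^ (d + 1) * ((PowerSeries.invOneSubPow (ZMod 2) (d + 1)).val
          * (1 - PowerSeries.X) ^ (d + 1)) := by rw [h3, mul_one]
      _ = (V ^ (d + 1) * (1 - PowerSeries.X) ^ (d + 1))
          * (PowerSeries.invOneSubPow (ZMod 2) (d + 1)).val := by ring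
      _ = _ := by rw [h1, one_mul]
  rw [h2, PowerSeries.invOneSubPow_val_succ_eq_mk_add_choose]
  simp

lemma coeff_V_pow_zero (q : ℕ) (hq : 1 ≤ q) : PowerSeries.coeff q (V ^ (q + 1)) = 0 := by
  rw [coeff_V_pow, ← two_mul, ← Nat.centralBinom_eq_two_mul_choose]
  exact (ZMod.natCast_eq_zero_iff _ _).2 (Nat.two_dvd_centralBinom_of_one_le hq)

lemma coeff_U_pow (m l : ℕ) : PowerSeries.coeff l ((U) ^ m) = (m.choose l : ZMod 2) := by
  rw [show (U) ^ m = (((1 + Polynomial.X : Polynomial (ZMod 2)) ^ m : Polynomial (ZMod 2)) :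
    PowerSeries (ZMod 2)) by simp, Polynomial.coeff_coe, Polynomial.coeff_one_add_X_pow]

/-- left-hand family -/
noncomputable def fL (n i : ℕ) : PowerSeries (ZMod 2) := (U) ^ (n - i) * PowerSeries.X ^ (n - i)
/-- right-hand family -/
noncomputable def fR (n k i : ℕ) : PowerSeries (ZMod 2) := (U) ^ (n - i) * PowerSeries.X ^ (n + 2 * i - k)

lemma coeff_fL (n i p : ℕ) : PowerSeries.coeff p (fL n i) =
    (if n - i ≤ p then ((n - i).choose (p - (n - i)) : ZMod 2) else 0) := by
  rw [fL, PowerSeries.coeff_mul_X_pow']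
  split_ifs with h
  · rw [coeff_U_pow]
  · rfl

lemma coeff_fR (n k i p q : ℕ) (hi : i ≤ n) (hk : k ≤ n + 2 * i) (hpq : p + q + k = 3 * n) :
    PowerSeries.coeff p (fR n k i) =
    (if n - i ≤ q then ((n - i).choose (q - (n - i)) : ZMod 2) else 0) := by
  rw [fR, PowerSeries.coeff_mul_X_pow']
  by_cases h : n + 2 * i - k ≤ p
  · rw [if_pos h, coeff_U_pow]
    by_cases h' : n - i ≤ q
    · rw [if_pos h', ← Nat.choose_symm (show p - (n + 2 * i - k) ≤ n - i by omega)]
      congr 2
      omega
    · rw [if_neg h', Nat.choose_eq_zero_of_lt (by omega)]; simp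
  · rw [if_neg h]
    by_cases h' : n - i ≤ q
    · rw [if_pos h', Nat.choose_eq_zero_of_lt (by omega)]; simp
    · rw [if_neg h']

lemma L_fL (n b i : ℕ) (hi : i ≤ n) (hb : b ≤ n) :
    PowerSeries.coeff (n - b) (V ^ (n - b + 1) * fL n i) = if i = b then 1 else 0 := by
  rw [fL, ← mul_assoc, PowerSeries.coeff_mul_X_pow']
  rcases lt_trichotomy i b with h | h | h
  · rw [if_neg (by omega), if_neg (by omega)]
  · subst h
    rw [if_pos le_rfl, if_pos rfl, V_pow_mul_U_pow _ _ (by omega)]
    simp
  · rw [if_pos (by omega), if_neg (by omega), V_pow_mul_U_pow _ _ (by omega)]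
    have e1 : n - b - (n - i) = i - b := by omega
    have e2 : n - b + 1 - (n - i) = i - b + 1 := by omega
    rw [e1, e2]
    exact coeff_V_pow_zero _ (by omega)

lemma L_fR (n k b i : ℕ) (hi : i ≤ n) (hb : b ≤ n) (hbk : b ≤ k) (hk : k < 3 * b)
    (hik : k ≤ n + 2 * i) :
    PowerSeries.coeff (n - b) (V ^ (n - b + 1) * fR n k i) =
      if 2 * i ≤ k - b then ((b - 1 - i).choose (k - b - 2 * i) : ZMod 2) else 0 := by
  rw [fR, ← mul_assoc, PowerSeries.coeff_mul_X_pow']
  by_cases h : 2 * i ≤ k - b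
  · rw [if_pos (by omega), if_pos h, U_pow_mul_V_pow _ _ (by omega), coeff_U_pow]
    congr 2 <;> omega
  · rw [if_neg (by omega), if_neg h]

/-- **Bullett–Macdonald ⇒ Adem**, one element, coefficient form. -/
theorem adem_of_sym {E : Type*} [AddCommGroup E] [Module (ZMod 2) E] (n k : ℕ) (A : ℕ → E)
    (hA : ∀ i, A i ≠ 0 → i ≤ n ∧ i ≤ k ∧ k ≤ n + 2 * i)
    (hsym : ∀ p q, p + q + k = 3 * n → F n A p = F n A q)
    (b : ℕ) (hbk : b ≤ k) (hk : k < 3 * b) :
    A b = ∑ c ∈ range ((k - b) / 2 + 1), ((b - 1 - c).choose (k - b - 2 * c) : ZMod 2) • A c := by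
  by_cases hb : b ≤ n
  swap
  · have h1 : A b = 0 := by
      by_contra h
      exact hb (hA b h).1
    rw [h1]
    symm
    apply Finset.sum_eq_zero
    intro c hc
    have hc' : 2 * c ≤ k - b := by
      have := Finset.mem_range.1 hc
      omega
    have : A c = 0 := by
      by_contra h
      have := (hA c h).2.2
      omega
    rw [this, smul_zero]
  -- apply the residue functional
  have key : ∀ p ≤ n - b, ∑ i ∈ range (n + 1), PowerSeries.coeff p (fL n i) • A i
      = ∑ i ∈ range (n + 1), PowerSeries.coeff p (fR n k i) • A i := by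
    intro p hp
    have h3 : p + (3 * n - k - p) + k = 3 * n := by omega
    have h4 := hsym p (3 * n - k - p) h3
    unfold F at h4
    rw [show (∑ i ∈ range (n + 1), PowerSeries.coeff p (fL n i) • A i) = _ from
      Finset.sum_congr rfl (fun i _ => by rw [coeff_fL]), h4]
    apply Finset.sum_congr rfl
    intro i hi
    by_cases h0 : A i = 0
    · rw [h0, smul_zero, smul_zero]
    · rw [coeff_fR n k i p _ (by have := Finset.mem_range.1 hi; omega) (hA i h0).2.2 h3]
  have key2 : ∑ i ∈ range (n + 1), PowerSeries.coeff (n - b) (V ^ (n - b + 1) * fL n i) • A i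
      = ∑ i ∈ range (n + 1), PowerSeries.coeff (n - b) (V ^ (n - b + 1) * fR n k i) • A i := by
    simp only [PowerSeries.coeff_mul, Finset.sum_smul]
    rw [Finset.sum_comm, Finset.sum_comm (s := range (n + 1)) (t := antidiagonal (n - b))]
    apply Finset.sum_congr rfl
    rintro ⟨s, t⟩ hst
    have hst' : s + t = n - b := by
      simpa [Finset.HasAntidiagonal.mem_antidiagonal] using hst
    simp only [mul_smul, ← Finset.smul_sum]
    rw [key t (by omega)]
  have hL : ∑ i ∈ range (n + 1), PowerSeries.coeff (n - b) (V ^ (n - b + 1) * fL n i) • A i = A b := by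
    rw [Finset.sum_eq_single b]
    · rw [L_fL n b b hb hb, if_pos rfl, one_smul]
    · intro i hi hib
      rw [L_fL n b i (by have := Finset.mem_range.1 hi; omega) hb, if_neg hib, zero_smul]
    · intro h
      exact absurd (Finset.mem_range.2 (by omega)) h
  have hR : ∑ i ∈ range (n + 1), PowerSeries.coeff (n - b) (V ^ (n - b + 1) * fR n k i) • A i
      = ∑ c ∈ range ((k - b) / 2 + 1), ((b - 1 - c).choose (k - b - 2 * c) : ZMod 2) • A c := by
    have hsub : range ((k - b) / 2 + 1) ⊆ range (n + 1) := by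
      apply Finset.range_subset_range.2
      omega
    rw [← Finset.sum_subset hsub]
    · apply Finset.sum_congr rfl
      intro c hc
      have hc' : 2 * c ≤ k - b := by
        have := Finset.mem_range.1 hc
        omega
      by_cases h0 : A c = 0
      · rw [h0, smul_zero, smul_zero]
      · rw [L_fR n k b c (by omega) hb hbk hk (hA c h0).2.2, if_pos hc']
    · intro c hc hc2
      by_cases h0 : A c = 0
      · rw [h0, smul_zero]
      · rw [L_fR n k b c (by have := Finset.mem_range.1 hc; omega) hb hbk hk (hA c h0).2.2,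
          if_neg, zero_smul]
        intro h
        apply hc2
        apply Finset.mem_range.2
        omega
  rw [← hL, key2, hR]

/-- **Adem relation** for one element `u` of degree `n` (operators `Sq a` on an `F₂`-module). -/
theorem adem {E : Type*} [AddCommGroup E] [Module (ZMod 2) E] (Sq : ℕ → E →ₗ[ZMod 2] E) (u : E) (n : ℕ)
    (h1 : ∀ i, n < i → Sq i u = 0) (h2 : ∀ i j, n + i < j → Sq j (Sq i u) = 0)
    (hsym : ∀ k p q, p + q + k = 3 * n →
      F n (fun i => if i ≤ k then Sq (k - i) (Sq i u) else 0) p =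
      F n (fun i => if i ≤ k then Sq (k - i) (Sq i u) else 0) q)
    (a b : ℕ) (hab : a < 2 * b) :
    Sq a (Sq b u) = ∑ c ∈ range (a / 2 + 1), ((b - 1 - c).choose (a - 2 * c) : ZMod 2) •
      Sq (a + b - c) (Sq c u) := by
  have h := adem_of_sym n (a + b) (fun i => if i ≤ a + b then Sq (a + b - i) (Sq i u) else 0) ?_
    (hsym (a + b)) b (by omega) (by omega)
  · simp only [show b ≤ a + b by omega, if_true, Nat.add_sub_cancel] at h
    rw [h]
    apply Finset.sum_congr rfl
    intro c hc
    have : c ≤ a + b := by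
      have := Finset.mem_range.1 hc
      omega
    rw [if_pos this]
  · intro i hi
    by_cases hik : i ≤ a + b
    · simp only [hik, if_true] at hi
      refine ⟨?_, hik, ?_⟩
      · by_contra h
        apply hi
        rw [h1 i (by omega), map_zero]
      · by_contra h
        apply hi
        exact h2 i _ (by omega)
    · simp [hik] at hi

end Crest.Agent.R204.BM888
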