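import Crest.Agent.R204.Hopf11b_478

/-!
# Row 204, H11 (helper478): `h^d(α) = x_d²` in `Ω^{J+1} S^{d+1+J}` ⇒ the same in `Ω S^{d+1}` ⇒
`d = 1, 3, 7`
-/

set_option autoImplicit false

open scoped TensorProduct Topology unitInterval Topology.Homotopy

namespace Crest.Agent.R204.Hopf11

open Crest.Agent.R204 Cone330 SphSS478 HspSS696 Cubes735 Hsp696 Freu297 HopfLow478 Sus330 Inst194
  Sus330.LoopStr

/-- (B.S) `H_{2d}(Ω S^{d+1}; F2)` is spanned by the square of the non-zero class of degree `d`,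
`d = e + 1` -/
def BS : Prop := ∀ (e : ℕ) (x : H F2 (SS.Sing (OmS (e + 2)))),
  x ∈ H.gr F2 (SS.Sing (OmS (e + 2))) (e + 1) → x ≠ 0 →
  ∀ y ∈ H.gr F2 (SS.Sing (OmS (e + 2))) (2 * e + 1 + 1),
    ∃ c : F2, y = c • HopfLow478.pm (mulS (halves (0 : Fin 1))) x x

theorem F2_cases (c : F2) : c = 0 ∨ c = 1 := by
  revert c; decide

theorem ne_of_map {K L : SS} (f : SS.Hom K L) {x : H F2 K} {y : H F2 L} (h : y = H.map F2 f x)
    (hy : y ≠ 0) : x ≠ 0 := by
  rintro rfl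
  exact hy (h.trans (map_zero _))

theorem eq_of_smul {M : Type} [AddCommGroup M] [Module F2 M] {x y : M} (hx : x ≠ 0)
    (h : ∃ r : F2, x = r • y) : x = y := by
  obtain ⟨r, rfl⟩ := h
  rcases F2_cases r with h0 | h0
  · exact absurd (by rw [h0, zero_smul]) hx
  · rw [h0, one_smul]

/-- `FactHopf`, in `Ω^{J+1} S^{e+2+J}`: non-zero spherical classes in degrees `d` and `2d` -/
theorem hopf_up0 (HL : HopfLow) (hBS : BS) {e : ℕ} (he : Even e) (J : ℕ)
    (a : (SS.Sing (Om (Fin (J + 1)) (Sph (e + 2 + J)) (pt (e + 2 + J)))).S (e + 1))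
    (ha : IsSph (K := SS.Sing (Om (Fin (J + 1)) (Sph (e + 2 + J)) (pt (e + 2 + J))))
      (cY GenLoop.const 0) a) (hane : scl a ha ≠ 0)
    (b : (SS.Sing (Om (Fin (J + 1)) (Sph (e + 2 + J)) (pt (e + 2 + J)))).S (2 * e + 1 + 1))
    (hb : IsSph (K := SS.Sing (Om (Fin (J + 1)) (Sph (e + 2 + J)) (pt (e + 2 + J))))
      (cY GenLoop.const 0) b) (hbne : scl b hb ≠ 0) :
    e = 0 ∨ e = 2 ∨ e = 6 := by
  obtain ⟨a', ha', h1⟩ := lift_all (m := e + 2) (by omega) J a ha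
  obtain ⟨φ, hφ, h2⟩ := lift_all (m := e + 2) (e := 2 * e + 1) (by omega) J b hb
  have hx : scl a' ha' ≠ 0 := ne_of_map _ h1 hane
  have hy : scl φ hφ ≠ 0 := ne_of_map _ h2 hbne
  exact HL e he a' ha' hx φ hφ (eq_of_smul hy (hBS e _ (scl_mem_gr a' ha') hx _ (scl_mem_gr φ hφ)))

/-- `FactHopf`, abstract in the number of coordinates -/
theorem hopf_up (HL : HopfLow) (hBS : BS) {e : ℕ} (he : Even e) (J : ℕ) {p q : ℕ}
    (hp : p = J + 1) (hq : q = e + 2 + J)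
    (a : (SS.Sing (Om (Fin p) (Sph q) (pt q))).S (e + 1))
    (ha : IsSph (K := SS.Sing (Om (Fin p) (Sph q) (pt q))) (cY GenLoop.const 0) a)
    (hane : scl a ha ≠ 0)
    (b : (SS.Sing (Om (Fin p) (Sph q) (pt q))).S (2 * e + 1 + 1))
    (hb : IsSph (K := SS.Sing (Om (Fin p) (Sph q) (pt q))) (cY GenLoop.const 0) b)
    (hbne : scl b hb ≠ 0) :
    e = 0 ∨ e = 2 ∨ e = 6 := by
  subst hp hq
  exact hopf_up0 HL hBS he J a ha hane b hb hbne

/-- **FactHopf for the concrete tower**, `d = e + 1`: `h k` = the iterated suspensions of a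
spherical class of degree `d` of `X_0`, `x_d` a non-zero spherical class, `h^d ≠ 0` (because it is
`x_d²`) -/
theorem hopf_tower (HL : HopfLow) (hBS : BS) {J0 K : ℕ} {e : ℕ} (he : Even e) (hJ : 1 ≤ J0)
    (hK : e + 1 ≤ K) (h : ∀ k, H F2 (XS J0 K k))
    (hs : ∀ k (hk : k < K), h (k + 1) = (loopX J0 hk).sigma (h k))
    (a : (XS J0 K 0).S (e + 1)) (ha : IsSph (K := XS J0 K 0) (cY GenLoop.const 0) a)
    (h0 : h 0 = scl a ha) (hne : h (e + 1) ≠ 0)
    (x : (XS J0 K (e + 1)).S (e + 1)) (hx : IsSph (K := XS J0 K (e + 1)) (cY GenLoop.const 0) x)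
    (hxne : scl x hx ≠ 0) : e = 0 ∨ e = 2 ∨ e = 6 := by
  obtain ⟨b, hb, hbe⟩ := exists_sph_chain h hs a ha h0 (e + 1) hK
  have hdim : e + (e + 1) + 1 = 2 * e + 1 + 1 := by omega
  have key : ∀ (N : ℕ) (hN : N + 1 = 2 * e + 1 + 1) (b : (XS J0 K (e + 1)).S (N + 1))
      (hb : IsSph (K := XS J0 K (e + 1)) (cY GenLoop.const 0) b), scl b hb ≠ 0 →
      e = 0 ∨ e = 2 ∨ e = 6 := by
    intro N hN b hb hbne
    have : N = 2 * e + 1 := by omega
    subst this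
    exact hopf_up HL hBS he (J0 + (K - (e + 1)) - 1) (p := cd J0 K (e + 1)) (q := J0 + K)
      (by simp only [cd]; omega) (by omega) x hx hxne b hb hbne
  exact key (e + (e + 1)) hdim b hb (hbe ▸ hne)

end Crest.Agent.R204.Hopf11
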