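import Crest.Agent.R204.OmS_94
import Crest.Agent.R204.Hopf11c_478

/-!
# Row 204, leaf B.S in the form of helper478 (`Hopf11.BS`)
-/

set_option autoImplicit false

namespace Crest.Agent.R204.OmS94

open Crest.Agent.R204 Crest.Agent.R204.SS

/-- `H_{2d}(Ω S^{d+1}; F2)` is spanned by `x²` -/
theorem bs : Hopf11.BS := by
  intro e x hx hx0 y hy
  rcases omS_sq (k := e + 1) (by omega) hx hx0 (y := y) hy with h | h
  · exact ⟨0, by rw [h, zero_smul]⟩
  · exact ⟨1, by rw [one_smul]; exact h⟩

end Crest.Agent.R204.OmS94
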