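import Crest.Agent.R204.Defs

/-!
# Row 204, leaf A7 (helper498): homological algebra for `Hd`

* `SES d' d d'' f g` : short exact sequence of differential modules (Prop)
* `delta h : Hd d'' →ₗ[R] Hd d'`, `delta_mk`, `exact_fg`, `exact_gδ`, `exact_δf`, `les`
* `delta_nat` : naturality
* `grHd`, `delta_mem` : degrees
* two out of three for maps of short exact sequences
* chain homotopies, sub/quotient complexes, acyclic sub / quotient
-/

set_option autoImplicit false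

namespace Crest.Agent.R204.HA498

open Function

section LES

variable {R M' M M'' : Type*} [CommRing R] [AddCommGroup M'] [AddCommGroup M]
  [AddCommGroup M''] [Module R M'] [Module R M] [Module R M'']

/-- short exact sequence of differential modules -/
structure SES (d' : M' →ₗ[R] M') (d : M →ₗ[R] M) (d'' : M'' →ₗ[R] M'')
    (f : M' →ₗ[R] M) (g : M →ₗ[R] M'') : Prop where
  sq' : ∀ x, d' (d' x) = 0
  sq : ∀ x, d (d x) = 0
  hf : f ∘ₗ d' = d ∘ₗ f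
  hg : g ∘ₗ d = d'' ∘ₗ g
  inj : Injective f
  ex : Exact f g
  surj : Surjective g

variable {d' : M' →ₗ[R] M'} {d : M →ₗ[R] M} {d'' : M'' →ₗ[R] M''} {f : M' →ₗ[R] M} {g : M →ₗ[R] M''}

namespace SES

theorem f_d (h : SES d' d d'' f g) (x : M') : f (d' x) = d (f x) := LinearMap.congr_fun h.hf x

theorem g_d (h : SES d' d d'' f g) (x : M) : g (d x) = d'' (g x) := LinearMap.congr_fun h.hg x

theorem g_f (h : SES d' d d'' f g) (x : M') : g (f x) = 0 := (h.ex _).2 ⟨x, rfl⟩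

theorem sq'' (h : SES d' d d'' f g) (x : M'') : d'' (d'' x) = 0 := by
  obtain ⟨x, rfl⟩ := h.surj x
  rw [← h.g_d, ← h.g_d, h.sq, map_zero]

/-- every class downstairs has the data that define `δ` -/
theorem exists_rep (h : SES d' d d'' f g) (u : Hd d'') :
    ∃ (m : M) (y : M') (hm : d'' (g m) = 0) (_ : d' y = 0), f y = d m ∧ u = Hd.mk d'' (g m) hm := by
  obtain ⟨z, hz, rfl⟩ := Hd.mk_surj d'' u
  obtain ⟨m, rfl⟩ := h.surj z
  have : g (d m) = 0 := by rw [h.g_d, hz]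
  obtain ⟨y, hy⟩ := (h.ex _).1 this
  refine ⟨m, y, hz, ?_, hy, rfl⟩
  apply h.inj
  rw [h.f_d, hy, h.sq, map_zero]

theorem rep_unique (h : SES d' d d'' f g) {m₁ m₂ : M} {y₁ y₂ : M'} (hm₁ : d'' (g m₁) = 0)
    (hm₂ : d'' (g m₂) = 0) (hy₁ : d' y₁ = 0) (hy₂ : d' y₂ = 0) (e₁ : f y₁ = d m₁) (e₂ : f y₂ = d m₂)
    (e : Hd.mk d'' (g m₁) hm₁ = Hd.mk d'' (g m₂) hm₂) : Hd.mk d' y₁ hy₁ = Hd.mk d' y₂ hy₂ := by
  rw [Hd.mk_eq_mk] at e ⊢
  obtain ⟨w, hw⟩ := e
  obtain ⟨w, rfl⟩ := h.surj w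
  have : g (m₁ - m₂ - d w) = 0 := by rw [map_sub, map_sub, h.g_d, hw, sub_self]
  obtain ⟨v, hv⟩ := (h.ex _).1 this
  refine ⟨v, ?_⟩
  apply h.inj
  rw [h.f_d, hv, map_sub, map_sub, map_sub, h.sq, e₁, e₂, sub_zero]

end SES

/-- the connecting map -/
noncomputable def delta (h : SES d' d d'' f g) : Hd d'' →ₗ[R] Hd d' where
  toFun u := Hd.mk d' (h.exists_rep u).choose_spec.choose
    (h.exists_rep u).choose_spec.choose_spec.choose_spec.choose
  map_add' u v := by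
    obtain ⟨hm₁, hy₁, e₁, q₁⟩ := (h.exists_rep u).choose_spec.choose_spec
    obtain ⟨hm₂, hy₂, e₂, q₂⟩ := (h.exists_rep v).choose_spec.choose_spec
    obtain ⟨hm₃, hy₃, e₃, q₃⟩ := (h.exists_rep (u + v)).choose_spec.choose_spec
    set m₁ := (h.exists_rep u).choose
    set m₂ := (h.exists_rep v).choose
    set m₃ := (h.exists_rep (u + v)).choose
    set y₁ := (h.exists_rep u).choose_spec.choose
    set y₂ := (h.exists_rep v).choose_spec.choose
    set y₃ := (h.exists_rep (u + v)).choose_spec.choose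
    have hm₄ : d'' (g (m₁ + m₂)) = 0 := by rw [map_add, map_add, hm₁, hm₂, add_zero]
    have hy₄ : d' (y₁ + y₂) = 0 := by rw [map_add, hy₁, hy₂, add_zero]
    have e₄ : f (y₁ + y₂) = d (m₁ + m₂) := by rw [map_add, map_add, e₁, e₂]
    refine (h.rep_unique hm₃ hm₄ hy₃ hy₄ e₃ e₄ ?_).trans ?_
    · rw [← q₃, q₁, q₂]
      rw [Hd.mk, Hd.mk, Hd.mk, ← Submodule.Quotient.mk_add]
      congr 1
      exact Subtype.ext (map_add g m₁ m₂).symm
    · rfl
  map_smul' r u := by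
    obtain ⟨hm₁, hy₁, e₁, q₁⟩ := (h.exists_rep u).choose_spec.choose_spec
    obtain ⟨hm₃, hy₃, e₃, q₃⟩ := (h.exists_rep (r • u)).choose_spec.choose_spec
    set m₁ := (h.exists_rep u).choose
    set m₃ := (h.exists_rep (r • u)).choose
    set y₁ := (h.exists_rep u).choose_spec.choose
    set y₃ := (h.exists_rep (r • u)).choose_spec.choose
    have hm₄ : d'' (g (r • m₁)) = 0 := by rw [map_smul, map_smul, hm₁, smul_zero]
    have hy₄ : d' (r • y₁) = 0 := by rw [map_smul, hy₁, smul_zero]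
    have e₄ : f (r • y₁) = d (r • m₁) := by rw [map_smul, map_smul, e₁]
    refine (h.rep_unique hm₃ hm₄ hy₃ hy₄ e₃ e₄ ?_).trans ?_
    · rw [← q₃, q₁]
      rw [Hd.mk, Hd.mk, ← Submodule.Quotient.mk_smul]
      congr 1
      exact Subtype.ext (map_smul g r m₁).symm
    · rfl

/-- the defining property of the connecting map -/
theorem delta_mk (h : SES d' d d'' f g) (m : M) (y : M') (hm : d'' (g m) = 0) (hy : d' y = 0)
    (e : f y = d m) : delta h (Hd.mk d'' (g m) hm) = Hd.mk d' y hy := by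
  obtain ⟨hm₁, hy₁, e₁, q₁⟩ := (h.exists_rep (Hd.mk d'' (g m) hm)).choose_spec.choose_spec
  exact h.rep_unique hm₁ hm hy₁ hy e₁ e q₁.symm

/-- the defining property, with a variable for `g m` -/
theorem delta_mk' (h : SES d' d d'' f g) (z : M'') (hz : d'' z = 0) (m : M) (y : M') (hy : d' y = 0)
    (e : f y = d m) (e' : g m = z) : delta h (Hd.mk d'' z hz) = Hd.mk d' y hy := by
  subst e'
  exact delta_mk h m y hz hy e

theorem exact_fg (h : SES d' d d'' f g) : Exact (Hd.map f h.hf) (Hd.map g h.hg) := by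
  intro u
  constructor
  · intro hu
    obtain ⟨z, hz, rfl⟩ := Hd.mk_surj d u
    rw [Hd.map_mk, Hd.mk_eq_zero] at hu
    obtain ⟨w, hw⟩ := hu
    obtain ⟨w, rfl⟩ := h.surj w
    have : g (z - d w) = 0 := by rw [map_sub, h.g_d, hw, sub_self]
    obtain ⟨v, hv⟩ := (h.ex _).1 this
    have hv' : d' v = 0 := by
      apply h.inj
      rw [h.f_d, hv, map_sub, hz, h.sq, sub_zero, map_zero]
    refine ⟨Hd.mk d' v hv', ?_⟩
    rw [Hd.map_mk, Hd.mk_eq_mk]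
    exact ⟨-w, by rw [hv, map_neg]; abel⟩
  · rintro ⟨v, rfl⟩
    obtain ⟨v, hv, rfl⟩ := Hd.mk_surj d' v
    rw [Hd.map_mk, Hd.map_mk, Hd.mk_eq_zero]
    exact ⟨0, by rw [map_zero, h.g_f]⟩

theorem exact_gδ (h : SES d' d d'' f g) : Exact (Hd.map g h.hg) (delta h) := by
  intro u
  constructor
  · intro hu
    obtain ⟨m, y, hm, hy, e, rfl⟩ := h.exists_rep u
    rw [delta_mk h m y hm hy e, Hd.mk_eq_zero] at hu
    obtain ⟨w, hw⟩ := hu
    have hm' : d (m - f w) = 0 := by rw [map_sub, ← h.f_d, hw, e, sub_self]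
    refine ⟨Hd.mk d (m - f w) hm', ?_⟩
    rw [Hd.map_mk, Hd.mk_eq_mk]
    exact ⟨0, by rw [map_zero, map_sub, h.g_f]; abel⟩
  · rintro ⟨v, rfl⟩
    obtain ⟨v, hv, rfl⟩ := Hd.mk_surj d v
    rw [Hd.map_mk, delta_mk h v 0 _ (map_zero _) (by rw [map_zero, hv]), Hd.mk_eq_zero]
    exact ⟨0, map_zero _⟩

theorem exact_δf (h : SES d' d d'' f g) : Exact (delta h) (Hd.map f h.hf) := by
  intro u
  constructor
  · intro hu
    obtain ⟨y, hy, rfl⟩ := Hd.mk_surj d' u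
    rw [Hd.map_mk, Hd.mk_eq_zero] at hu
    obtain ⟨m, hm⟩ := hu
    have hm' : d'' (g m) = 0 := by rw [← h.g_d, hm, h.g_f]
    exact ⟨Hd.mk d'' (g m) hm', delta_mk h m y hm' hy hm.symm⟩
  · rintro ⟨v, rfl⟩
    obtain ⟨m, y, hm, hy, e, rfl⟩ := h.exists_rep v
    rw [delta_mk h m y hm hy e, Hd.map_mk, Hd.mk_eq_zero]
    exact ⟨m, e.symm⟩

/-- all in one statement (universe polymorphic form of `SpecA.LES`) -/
theorem les (h : SES d' d d'' f g) : ∃ δ : Hd d'' →ₗ[R] Hd d',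
    Exact (Hd.map f h.hf) (Hd.map g h.hg) ∧ Exact (Hd.map g h.hg) δ ∧ Exact δ (Hd.map f h.hf) ∧
    ∀ (x : M) (y : M') (hx : d'' (g x) = 0) (hy : d' y = 0), f y = d x →
      δ (Hd.mk d'' (g x) hx) = Hd.mk d' y hy :=
  ⟨delta h, exact_fg h, exact_gδ h, exact_δf h, fun x y hx hy e => delta_mk h x y hx hy e⟩

/-! ### degrees -/

/-- classes represented by cycles in `p` -/
def grHd (d : M →ₗ[R] M) (p : Submodule R M) : Submodule R (Hd d) :=
  (p.comap (LinearMap.ker d).subtype).map (Submodule.mkQ _)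

theorem mem_grHd {d : M →ₗ[R] M} {p : Submodule R M} {u : Hd d} :
    u ∈ grHd d p ↔ ∃ z ∈ p, ∃ hz : d z = 0, u = Hd.mk d z hz := by
  constructor
  · rintro ⟨⟨z, hz⟩, hz', rfl⟩
    exact ⟨z, hz', hz, rfl⟩
  · rintro ⟨z, hz, hz', rfl⟩
    exact ⟨⟨z, hz'⟩, hz, rfl⟩

theorem mk_mem_grHd {d : M →ₗ[R] M} {p : Submodule R M} {z : M} (hz : z ∈ p) (hz' : d z = 0) :
    Hd.mk d z hz' ∈ grHd d p := mem_grHd.2 ⟨z, hz, hz', rfl⟩

theorem H_gr_eq (R : Type) [CommRing R] (K : SS) (n : ℕ) : H.gr R K n = grHd (N.bd R K) (N.gr R K n) := rfl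

theorem map_mem_grHd {p : Submodule R M} {p'' : Submodule R M''} (hg : g ∘ₗ d = d'' ∘ₗ g)
    (h : ∀ x ∈ p, g x ∈ p'') {u : Hd d} (hu : u ∈ grHd d p) : Hd.map g hg u ∈ grHd d'' p'' := by
  obtain ⟨z, hz, hz', rfl⟩ := mem_grHd.1 hu
  rw [Hd.map_mk]
  exact mk_mem_grHd (h z hz) _

/-- `δ` lowers degrees: `p''` lifts to `p`, `d` maps `p` into `q`, `f⁻¹ q ≤ q'`. -/
theorem delta_mem (h : SES d' d d'' f g) {p'' : Submodule R M''} {p q : Submodule R M}
    {q' : Submodule R M'} (hlift : ∀ z ∈ p'', ∃ m ∈ p, g m = z) (hd : ∀ m ∈ p, d m ∈ q)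
    (hq : ∀ y, f y ∈ q → y ∈ q') {u : Hd d''} (hu : u ∈ grHd d'' p'') : delta h u ∈ grHd d' q' := by
  obtain ⟨z, hz, hz', rfl⟩ := mem_grHd.1 hu
  obtain ⟨m, hm, rfl⟩ := hlift z hz
  have : g (d m) = 0 := by rw [h.g_d, hz']
  obtain ⟨y, hy⟩ := (h.ex _).1 this
  have hy' : d' y = 0 := by
    apply h.inj
    rw [h.f_d, hy, h.sq, map_zero]
  rw [delta_mk h m y hz' hy' hy]
  exact mk_mem_grHd (hq y (by rw [hy]; exact hd m hm)) _

end LES

/-! ### naturality -/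

section Nat

variable {R M' M M'' N' N N'' : Type*} [CommRing R] [AddCommGroup M'] [AddCommGroup M]
  [AddCommGroup M''] [Module R M'] [Module R M] [Module R M''] [AddCommGroup N'] [AddCommGroup N]
  [AddCommGroup N''] [Module R N'] [Module R N] [Module R N'']
  {d' : M' →ₗ[R] M'} {d : M →ₗ[R] M} {d'' : M'' →ₗ[R] M''} {f : M' →ₗ[R] M} {g : M →ₗ[R] M''}
  {e' : N' →ₗ[R] N'} {e : N →ₗ[R] N} {e'' : N'' →ₗ[R] N''} {k : N' →ₗ[R] N} {l : N →ₗ[R] N''}
  {a' : M' →ₗ[R] N'} {a : M →ₗ[R] N} {a'' : M'' →ₗ[R] N''}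

/-- naturality of the connecting map -/
theorem delta_nat (h : SES d' d d'' f g) (h₂ : SES e' e e'' k l)
    (ha' : a' ∘ₗ d' = e' ∘ₗ a') (ha : a ∘ₗ d = e ∘ₗ a) (ha'' : a'' ∘ₗ d'' = e'' ∘ₗ a'')
    (c₁ : ∀ x, k (a' x) = a (f x)) (c₂ : ∀ x, l (a x) = a'' (g x)) (u : Hd d'') :
    delta h₂ (Hd.map a'' ha'' u) = Hd.map a' ha' (delta h u) := by
  obtain ⟨m, y, hm, hy, eq, rfl⟩ := h.exists_rep u
  rw [delta_mk h m y hm hy eq, Hd.map_mk, Hd.map_mk]
  refine delta_mk' h₂ _ _ (a m) (a' y) _ ?_ (c₂ m)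
  rw [c₁, eq]
  exact LinearMap.congr_fun ha m

variable (h : SES d' d d'' f g) (h₂ : SES e' e e'' k l)
    (ha' : a' ∘ₗ d' = e' ∘ₗ a') (ha : a ∘ₗ d = e ∘ₗ a) (ha'' : a'' ∘ₗ d'' = e'' ∘ₗ a'')
    (c₁ : ∀ x, k (a' x) = a (f x)) (c₂ : ∀ x, l (a x) = a'' (g x))

include c₁ in
theorem sqf (u : Hd d') (hf : f ∘ₗ d' = d ∘ₗ f) (hk : k ∘ₗ e' = e ∘ₗ k) :
    Hd.map k hk (Hd.map a' ha' u) = Hd.map a ha (Hd.map f hf u) := by
  obtain ⟨z, hz, rfl⟩ := Hd.mk_surj _ u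
  rw [Hd.map_mk, Hd.map_mk, Hd.map_mk, Hd.map_mk, Hd.mk_eq_mk]
  exact ⟨0, by rw [map_zero, c₁, sub_self]⟩

include h h₂ c₁ c₂ ha' ha in
theorem mid_injective (hi : Injective (Hd.map a' ha')) (hi'' : Injective (Hd.map a'' ha''))
    (hs'' : Surjective (Hd.map a'' ha'')) : Injective (Hd.map a ha) :=
  LinearMap.injective_of_surjective_of_injective_of_injective
    (f₁ := delta h) (f₂ := Hd.map f h.hf) (f₃ := Hd.map g h.hg)
    (g₁ := delta h₂) (g₂ := Hd.map k h₂.hf) (g₃ := Hd.map l h₂.hg)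
    (i₁ := Hd.map a'' ha'') (i₂ := Hd.map a' ha') (i₃ := Hd.map a ha) (i₄ := Hd.map a'' ha'')
    (LinearMap.ext fun x => delta_nat h h₂ ha' ha ha'' c₁ c₂ x)
    (LinearMap.ext fun x => sqf ha' ha c₁ x h.hf h₂.hf)
    (LinearMap.ext fun x => sqf ha ha'' c₂ x h.hg h₂.hg)
    (exact_δf h) (exact_fg h) (exact_δf h₂) hs'' hi hi''

include h h₂ c₁ c₂ ha' ha in
theorem mid_surjective (hs : Surjective (Hd.map a' ha')) (hi' : Injective (Hd.map a' ha'))
    (hs'' : Surjective (Hd.map a'' ha'')) : Surjective (Hd.map a ha) :=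
  LinearMap.surjective_of_surjective_of_surjective_of_injective
    (f₁ := Hd.map f h.hf) (f₂ := Hd.map g h.hg) (f₃ := delta h)
    (g₁ := Hd.map k h₂.hf) (g₂ := Hd.map l h₂.hg) (g₃ := delta h₂)
    (i₁ := Hd.map a' ha') (i₂ := Hd.map a ha) (i₃ := Hd.map a'' ha'') (i₄ := Hd.map a' ha')
    (LinearMap.ext fun x => sqf ha' ha c₁ x h.hf h₂.hf)
    (LinearMap.ext fun x => sqf ha ha'' c₂ x h.hg h₂.hg)
    (LinearMap.ext fun x => delta_nat h h₂ ha' ha ha'' c₁ c₂ x)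
    (exact_gδ h) (exact_fg h₂) (exact_gδ h₂) hs hs'' hi'

include h h₂ c₁ c₂ ha' ha in
/-- 2 out of 3: sub and quotient iso, middle iso -/
theorem mid_bijective (hb : Bijective (Hd.map a' ha')) (hb'' : Bijective (Hd.map a'' ha'')) :
    Bijective (Hd.map a ha) :=
  ⟨mid_injective h h₂ ha' ha ha'' c₁ c₂ hb.1 hb''.1 hb''.2,
    mid_surjective h h₂ ha' ha ha'' c₁ c₂ hb.2 hb.1 hb''.2⟩

include h h₂ c₁ c₂ ha' ha in
theorem quot_injective (hi' : Injective (Hd.map a' ha')) (hs' : Surjective (Hd.map a' ha'))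
    (hi : Injective (Hd.map a ha)) : Injective (Hd.map a'' ha'') :=
  LinearMap.injective_of_surjective_of_injective_of_injective
    (f₁ := Hd.map f h.hf) (f₂ := Hd.map g h.hg) (f₃ := delta h)
    (g₁ := Hd.map k h₂.hf) (g₂ := Hd.map l h₂.hg) (g₃ := delta h₂)
    (i₁ := Hd.map a' ha') (i₂ := Hd.map a ha) (i₃ := Hd.map a'' ha'') (i₄ := Hd.map a' ha')
    (LinearMap.ext fun x => sqf ha' ha c₁ x h.hf h₂.hf)
    (LinearMap.ext fun x => sqf ha ha'' c₂ x h.hg h₂.hg)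
    (LinearMap.ext fun x => delta_nat h h₂ ha' ha ha'' c₁ c₂ x)
    (exact_fg h) (exact_gδ h) (exact_fg h₂) hs' hi hi'

include h h₂ c₁ c₂ ha' ha in
theorem quot_surjective (hs : Surjective (Hd.map a ha)) (hs' : Surjective (Hd.map a' ha'))
    (hi : Injective (Hd.map a ha)) : Surjective (Hd.map a'' ha'') :=
  LinearMap.surjective_of_surjective_of_surjective_of_injective
    (f₁ := Hd.map g h.hg) (f₂ := delta h) (f₃ := Hd.map f h.hf)
    (g₁ := Hd.map l h₂.hg) (g₂ := delta h₂) (g₃ := Hd.map k h₂.hf)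
    (i₁ := Hd.map a ha) (i₂ := Hd.map a'' ha'') (i₃ := Hd.map a' ha') (i₄ := Hd.map a ha)
    (LinearMap.ext fun x => sqf ha ha'' c₂ x h.hg h₂.hg)
    (LinearMap.ext fun x => delta_nat h h₂ ha' ha ha'' c₁ c₂ x)
    (LinearMap.ext fun x => sqf ha' ha c₁ x h.hf h₂.hf)
    (exact_δf h) (exact_gδ h₂) (exact_δf h₂) hs hs' hi

include h h₂ c₁ c₂ ha' ha in
/-- 2 out of 3: sub and middle iso, quotient iso -/
theorem quot_bijective (hb' : Bijective (Hd.map a' ha')) (hb : Bijective (Hd.map a ha)) :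
    Bijective (Hd.map a'' ha'') :=
  ⟨quot_injective h h₂ ha' ha ha'' c₁ c₂ hb'.1 hb'.2 hb.1,
    quot_surjective h h₂ ha' ha ha'' c₁ c₂ hb.2 hb'.2 hb.1⟩

include h h₂ c₁ c₂ ha' ha in
theorem sub_injective (hs : Surjective (Hd.map a ha)) (hi : Injective (Hd.map a ha))
    (hi'' : Injective (Hd.map a'' ha'')) : Injective (Hd.map a' ha') :=
  LinearMap.injective_of_surjective_of_injective_of_injective
    (f₁ := Hd.map g h.hg) (f₂ := delta h) (f₃ := Hd.map f h.hf)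
    (g₁ := Hd.map l h₂.hg) (g₂ := delta h₂) (g₃ := Hd.map k h₂.hf)
    (i₁ := Hd.map a ha) (i₂ := Hd.map a'' ha'') (i₃ := Hd.map a' ha') (i₄ := Hd.map a ha)
    (LinearMap.ext fun x => sqf ha ha'' c₂ x h.hg h₂.hg)
    (LinearMap.ext fun x => delta_nat h h₂ ha' ha ha'' c₁ c₂ x)
    (LinearMap.ext fun x => sqf ha' ha c₁ x h.hf h₂.hf)
    (exact_gδ h) (exact_δf h) (exact_gδ h₂) hs hi'' hi

include h h₂ c₁ c₂ ha' ha in
theorem sub_surjective (hs'' : Surjective (Hd.map a'' ha'')) (hs : Surjective (Hd.map a ha))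
    (hi'' : Injective (Hd.map a'' ha'')) : Surjective (Hd.map a' ha') :=
  LinearMap.surjective_of_surjective_of_surjective_of_injective
    (f₁ := delta h) (f₂ := Hd.map f h.hf) (f₃ := Hd.map g h.hg)
    (g₁ := delta h₂) (g₂ := Hd.map k h₂.hf) (g₃ := Hd.map l h₂.hg)
    (i₁ := Hd.map a'' ha'') (i₂ := Hd.map a' ha') (i₃ := Hd.map a ha) (i₄ := Hd.map a'' ha'')
    (LinearMap.ext fun x => delta_nat h h₂ ha' ha ha'' c₁ c₂ x)
    (LinearMap.ext fun x => sqf ha' ha c₁ x h.hf h₂.hf)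
    (LinearMap.ext fun x => sqf ha ha'' c₂ x h.hg h₂.hg)
    (exact_fg h) (exact_δf h₂) (exact_fg h₂) hs'' hs hi''

include h h₂ c₁ c₂ ha' ha in
/-- 2 out of 3: middle and quotient iso, sub iso -/
theorem sub_bijective (hb : Bijective (Hd.map a ha)) (hb'' : Bijective (Hd.map a'' ha'')) :
    Bijective (Hd.map a' ha') :=
  ⟨sub_injective h h₂ ha' ha ha'' c₁ c₂ hb.2 hb.1 hb''.1,
    sub_surjective h h₂ ha' ha ha'' c₁ c₂ hb''.2 hb.2 hb''.1⟩

end Nat

/-! ### consequences of acyclicity -/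

section Acyclic

variable {R M' M M'' : Type*} [CommRing R] [AddCommGroup M'] [AddCommGroup M]
  [AddCommGroup M''] [Module R M'] [Module R M] [Module R M'']
  {d' : M' →ₗ[R] M'} {d : M →ₗ[R] M} {d'' : M'' →ₗ[R] M''} {f : M' →ₗ[R] M} {g : M →ₗ[R] M''}

/-- element form of "no homology" -/
def Acyc (d : M →ₗ[R] M) : Prop := ∀ x, d x = 0 → ∃ w, d w = x

theorem acyc_iff : Acyc d ↔ ∀ u : Hd d, u = 0 := by
  constructor
  · intro h u
    obtain ⟨z, hz, rfl⟩ := Hd.mk_surj d u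
    exact Hd.mk_eq_zero.2 (h z hz)
  · intro h x hx
    exact Hd.mk_eq_zero.1 (h (Hd.mk d x hx))

theorem g_bijective_of_acyc (h : SES d' d d'' f g) (ha : Acyc d') : Bijective (Hd.map g h.hg) := by
  rw [acyc_iff] at ha
  constructor
  · rw [injective_iff_map_eq_zero]
    intro u hu
    obtain ⟨v, rfl⟩ := (exact_fg h _).1 hu
    rw [ha v, map_zero]
  · intro u
    exact (exact_gδ h _).1 (ha _)

theorem f_bijective_of_acyc (h : SES d' d d'' f g) (ha : Acyc d'') : Bijective (Hd.map f h.hf) := by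
  rw [acyc_iff] at ha
  constructor
  · rw [injective_iff_map_eq_zero]
    intro u hu
    obtain ⟨v, rfl⟩ := (exact_δf h _).1 hu
    rw [ha v, map_zero]
  · intro u
    exact (exact_fg h _).1 (ha _)

theorem delta_bijective_of_acyc (h : SES d' d d'' f g) (ha : Acyc d) : Bijective (delta h) := by
  rw [acyc_iff] at ha
  constructor
  · rw [injective_iff_map_eq_zero]
    intro u hu
    obtain ⟨v, rfl⟩ := (exact_gδ h _).1 hu
    rw [ha v, map_zero]
  · intro u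
    exact (exact_δf h _).1 (ha _)

theorem acyc_sub_iff (h : SES d' d d'' f g) : Acyc d' ↔ Bijective (Hd.map g h.hg) := by
  refine ⟨g_bijective_of_acyc h, fun hb => acyc_iff.2 fun u => ?_⟩
  have h1 : Hd.map f h.hf u = 0 := hb.1 (by rw [map_zero]; exact (exact_fg h _).2 ⟨u, rfl⟩)
  obtain ⟨v, rfl⟩ := (exact_δf h _).1 h1
  obtain ⟨w, rfl⟩ := hb.2 v
  exact (exact_gδ h _).2 ⟨w, rfl⟩

theorem acyc_quot_iff (h : SES d' d d'' f g) : Acyc d'' ↔ Bijective (Hd.map f h.hf) := by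
  refine ⟨f_bijective_of_acyc h, fun hb => acyc_iff.2 fun u => ?_⟩
  have h1 : delta h u = 0 := hb.1 (by rw [map_zero]; exact (exact_δf h _).2 ⟨u, rfl⟩)
  obtain ⟨v, rfl⟩ := (exact_gδ h _).1 h1
  obtain ⟨w, rfl⟩ := hb.2 v
  exact (exact_fg h _).2 ⟨w, rfl⟩

theorem acyc_mid (h : SES d' d d'' f g) (ha' : Acyc d') (ha'' : Acyc d'') : Acyc d := by
  rw [acyc_iff] at *
  intro u
  obtain ⟨v, rfl⟩ := (exact_fg h u).1 (ha'' _)
  rw [ha' v, map_zero]

end Acyclic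

/-! ### sub and quotient complexes -/

section Sub

variable {R M : Type*} [CommRing R] [AddCommGroup M] [Module R M] {d : M →ₗ[R] M}

/-- `0 → P → M → M / P → 0` -/
theorem ses_sub (hsq : ∀ x, d (d x) = 0) (P : Submodule R M) (hP : ∀ x ∈ P, d x ∈ P) :
    SES (d.restrict hP) d (P.mapQ P d hP) P.subtype P.mkQ where
  sq' x := Subtype.ext (hsq x)
  sq := hsq
  hf := by ext x; rfl
  hg := by ext x; rfl
  inj := Subtype.val_injective
  ex x := by
    rw [Submodule.mkQ_apply, Submodule.Quotient.mk_eq_zero]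
    exact ⟨fun h => ⟨⟨x, h⟩, rfl⟩, by rintro ⟨y, rfl⟩; exact y.2⟩
  surj := Submodule.mkQ_surjective P

/-- dividing out an acyclic subcomplex is a quasi-isomorphism (elementwise hypothesis) -/
theorem mkQ_bijective (hsq : ∀ x, d (d x) = 0) (P : Submodule R M) (hP : ∀ x ∈ P, d x ∈ P)
    (hac : ∀ x ∈ P, d x = 0 → ∃ w ∈ P, d w = x) :
    Bijective (Hd.map (d := d) (d' := P.mapQ P d hP) P.mkQ (by ext x; rfl)) := by
  refine g_bijective_of_acyc (ses_sub hsq P hP) ?_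
  rintro ⟨x, hx⟩ hx'
  obtain ⟨w, hw, e⟩ := hac x hx (congrArg Subtype.val hx')
  exact ⟨⟨w, hw⟩, Subtype.ext e⟩

end Sub

/-! ### homotopies -/

section Homotopy

variable {R M N L : Type*} [CommRing R] [AddCommGroup M] [Module R M] [AddCommGroup N] [Module R N]
  [AddCommGroup L] [Module R L] {d : M →ₗ[R] M} {e : N →ₗ[R] N}

theorem map_eq_of_homotopy (f g : M →ₗ[R] N) (hf : f ∘ₗ d = e ∘ₗ f) (hg : g ∘ₗ d = e ∘ₗ g)
    (s : M →ₗ[R] N) (h : ∀ x, f x - g x = e (s x) + s (d x)) : Hd.map f hf = Hd.map g hg := by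
  refine LinearMap.ext fun u => ?_
  obtain ⟨z, hz, rfl⟩ := Hd.mk_surj _ u
  rw [Hd.map_mk, Hd.map_mk, Hd.mk_eq_mk]
  exact ⟨s z, by rw [h, hz, map_zero, add_zero]⟩

/-- a homotopy that is only defined on cycles, not linear -/
theorem map_eq_of_forall (f g : M →ₗ[R] N) (hf : f ∘ₗ d = e ∘ₗ f) (hg : g ∘ₗ d = e ∘ₗ g)
    (h : ∀ x, d x = 0 → ∃ w, e w = f x - g x) : Hd.map f hf = Hd.map g hg := by
  refine LinearMap.ext fun u => ?_
  obtain ⟨z, hz, rfl⟩ := Hd.mk_surj _ u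
  rw [Hd.map_mk, Hd.map_mk, Hd.mk_eq_mk]
  exact h z hz

theorem map_injective_iff (f : M →ₗ[R] N) (hf : f ∘ₗ d = e ∘ₗ f) :
    Injective (Hd.map f hf) ↔ ∀ x, d x = 0 → (∃ w, e w = f x) → ∃ v, d v = x := by
  rw [injective_iff_map_eq_zero]
  constructor
  · intro h x hx hw
    exact Hd.mk_eq_zero.1 (h (Hd.mk d x hx) (by rw [Hd.map_mk]; exact Hd.mk_eq_zero.2 hw))
  · intro h u hu
    obtain ⟨z, hz, rfl⟩ := Hd.mk_surj _ u
    rw [Hd.map_mk, Hd.mk_eq_zero] at hu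
    exact Hd.mk_eq_zero.2 (h z hz hu)

theorem map_surjective_iff (f : M →ₗ[R] N) (hf : f ∘ₗ d = e ∘ₗ f) :
    Surjective (Hd.map f hf) ↔ ∀ y, e y = 0 → ∃ x, d x = 0 ∧ ∃ w, e w = f x - y := by
  constructor
  · intro h y hy
    obtain ⟨u, hu⟩ := h (Hd.mk e y hy)
    obtain ⟨z, hz, rfl⟩ := Hd.mk_surj _ u
    rw [Hd.map_mk, Hd.mk_eq_mk] at hu
    exact ⟨z, hz, hu⟩
  · intro h u
    obtain ⟨y, hy, rfl⟩ := Hd.mk_surj _ u
    obtain ⟨x, hx, hw⟩ := h y hy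
    refine ⟨Hd.mk d x hx, ?_⟩
    rw [Hd.map_mk, Hd.mk_eq_mk]
    exact hw

/-- chain homotopy equivalences are isomorphisms on homology -/
theorem map_bijective_of_equiv (f : M →ₗ[R] N) (g : N →ₗ[R] M) (hf : f ∘ₗ d = e ∘ₗ f)
    (hg : g ∘ₗ e = d ∘ₗ g) (s : M →ₗ[R] M) (t : N →ₗ[R] N)
    (hs : ∀ x, g (f x) - x = d (s x) + s (d x)) (ht : ∀ x, f (g x) - x = e (t x) + t (e x)) :
    Bijective (Hd.map f hf) := by
  constructor
  · rw [map_injective_iff]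
    rintro x hx ⟨w, hw⟩
    refine ⟨g w - s x, ?_⟩
    have h1 := hs x
    rw [hx, map_zero, add_zero] at h1
    have h2 : d (g w) = g (f x) := by rw [← hw]; exact (LinearMap.congr_fun hg w).symm
    rw [map_sub, h2, ← h1]; abel
  · rw [map_surjective_iff]
    intro y hy
    refine ⟨g y, ?_, t y, ?_⟩
    · have := LinearMap.congr_fun hg y
      simp only [LinearMap.comp_apply] at this
      rw [← this, hy, map_zero]
    · rw [ht, hy, map_zero, add_zero]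

/-- congruence in the map -/
theorem map_congr {f g : M →ₗ[R] N} (hf : f ∘ₗ d = e ∘ₗ f) (hfg : f = g) (u : Hd d) :
    Hd.map f hf u = Hd.map g (hfg ▸ hf) u := by
  subst hfg; rfl

end Homotopy

end Crest.Agent.R204.HA498
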