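import Crest.Agent.R204.DK_742
import Crest.Agent.R204.HA_498
import Crest.Agent.R204.EZCross_271

/-!
# Row 204, leaf S5 (helper498): the classifying space `B = A / Z2`, `A = E Z/2` or a skeleton

* `aS X n h` : the `n`-cell; `N F2 (B X)` has basis `sx (aS n)`, `bd = 0`
* `a X i : H F2 (B X)`, `basisH`, `H.gr n = span {a n}`
* the group law `mB : B × B → B` and `m_*(a_i × a_j) = C(i+j,i) a_{i+j}` (chain level)
-/

set_option autoImplicit false

namespace Crest.Agent.R204.BZ498

open Finsupp SS DK742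

theorem add_self2 {M : Type*} [AddCommGroup M] [Module F2 M] (x : M) : x + x = 0 := by
  have h : (1 + 1 : F2) • x = x + x := by rw [add_smul, one_smul]
  rw [← h]
  have : (1 + 1 : F2) = 0 := by decide
  rw [this, zero_smul]

/-! ## homology of a zero differential -/

/-- if `d = 0` then `Hd d = M` -/
noncomputable def hdZero {R M : Type*} [CommRing R] [AddCommGroup M] [Module R M] (d : M →ₗ[R] M)
    (hd : ∀ x, d x = 0) : M ≃ₗ[R] Hd d :=
  LinearEquiv.ofBijective
    { toFun := fun x => Hd.mk d x (hd x)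
      map_add' := fun _ _ => rfl
      map_smul' := fun _ _ => rfl }
    (by
      constructor
      · intro x y h
        have h' : Hd.mk d x (hd x) = Hd.mk d y (hd y) := h
        rw [Hd.mk_eq_mk] at h'
        obtain ⟨w, hw⟩ := h'
        rw [hd] at hw
        exact (sub_eq_zero.1 hw.symm)
      · intro u
        obtain ⟨z, hz, rfl⟩ := Hd.mk_surj d u
        exact ⟨z, rfl⟩)

theorem hdZero_apply {R M : Type*} [CommRing R] [AddCommGroup M] [Module R M] (d : M →ₗ[R] M)
    (hd : ∀ x, d x = 0) (x : M) : hdZero d hd x = Hd.mk d x (hd x) := rfl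

/-! ## simplicial sets with at most one nondegenerate simplex in each dimension and `bd = 0` mod 2 -/

/-- one nondegenerate simplex in each dimension `≤ M`, zero differential -/
structure Cells (K : SS) (M : ℕ∞) where
  aS : ∀ n : ℕ, (n : ℕ∞) ≤ M → K.S n
  sx_or : ∀ (n : ℕ) (y : K.S n), (∃ h : (n : ℕ∞) ≤ M, y = aS n h) ∨ N.sx F2 y = 0
  dgn_ne : ∀ (n : ℕ) (j : Fin (n + 1)) (y : K.S n) (h : ((n + 1 : ℕ) : ℕ∞) ≤ M),
    K.act (Op.dgn j) y ≠ aS (n + 1) h
  bd_aS : ∀ (n : ℕ) (h : (n : ℕ∞) ≤ M), N.bd F2 K (N.sx F2 (aS n h)) = 0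

theorem mem_N_gr {K : SS} {n : ℕ} (x : K.S n) : N.sx F2 x ∈ N.gr F2 K n :=
  ⟨single ⟨n, x⟩ 1, Submodule.subset_span ⟨x, rfl⟩, rfl⟩

namespace Cells

variable {K : SS} {M : ℕ∞} (C : Cells K M)

open Classical in
/-- coordinates -/
noncomputable def toF : N F2 K →ₗ[F2] (Idx M →₀ F2) :=
  nLift F2 (fun n y => if h : ∃ hn : (n : ℕ∞) ≤ M, y = C.aS n hn then
      single (⟨n, h.choose⟩ : Idx M) 1 else 0) (by
    intro n j y
    rw [dif_neg]
    rintro ⟨hn, h⟩
    exact C.dgn_ne n j y hn h)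

theorem toF_aS (n : ℕ) (h : (n : ℕ∞) ≤ M) :
    C.toF (N.sx F2 (C.aS n h)) = single (⟨n, h⟩ : Idx M) 1 := by
  rw [toF, nLift_sx, dif_pos ⟨h, rfl⟩]

/-- inverse coordinates -/
noncomputable def ofF : (Idx M →₀ F2) →ₗ[F2] N F2 K :=
  Finsupp.linearCombination F2 (fun i : Idx M => N.sx F2 (C.aS i.1 i.2))

theorem ofF_single (i : Idx M) (r : F2) : C.ofF (single i r) = r • N.sx F2 (C.aS i.1 i.2) := by
  rw [ofF, Finsupp.linearCombination_single]

theorem ofF_toF (z : N F2 K) : C.ofF (C.toF z) = z := by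
  have : C.ofF ∘ₗ C.toF = LinearMap.id := by
    refine N_ext F2 fun n y => ?_
    rw [LinearMap.comp_apply, LinearMap.id_apply]
    rcases C.sx_or n y with ⟨h, rfl⟩ | h
    · rw [toF_aS, ofF_single, one_smul]
    · rw [h, map_zero, map_zero]
  exact LinearMap.congr_fun this z

theorem toF_ofF (z : Idx M →₀ F2) : C.toF (C.ofF z) = z := by
  have : C.toF ∘ₗ C.ofF = LinearMap.id := by
    refine Finsupp.lhom_ext' fun i => LinearMap.ext_ring ?_
    rw [LinearMap.comp_apply, LinearMap.comp_apply, lsingle_apply, ofF_single, one_smul, toF_aS]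
    rfl
  exact LinearMap.congr_fun this z

/-- coordinates as an equivalence -/
noncomputable def eqF : N F2 K ≃ₗ[F2] (Idx M →₀ F2) :=
  LinearEquiv.ofLinearMap C.toF C.ofF (LinearMap.ext fun z => C.toF_ofF z)
    (LinearMap.ext fun z => C.ofF_toF z)

/-- the basis of `N F2 K` -/
noncomputable def basisN : Module.Basis (Idx M) F2 (N F2 K) := Module.Basis.ofRepr C.eqF

theorem basisN_apply (i : Idx M) : C.basisN i = N.sx F2 (C.aS i.1 i.2) := by
  have : C.basisN i = C.eqF.symm (single i 1) := rfl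
  rw [this]
  show C.ofF (single i 1) = _
  rw [ofF_single, one_smul]

/-- two linear maps out of `N F2 K` agree if they agree on cells -/
theorem homN_ext {V : Type*} [AddCommGroup V] [Module F2 V] {f g : N F2 K →ₗ[F2] V}
    (h : ∀ (n : ℕ) (hn : (n : ℕ∞) ≤ M), f (N.sx F2 (C.aS n hn)) = g (N.sx F2 (C.aS n hn))) : f = g :=
  C.basisN.ext fun i => by rw [basisN_apply]; exact h i.1 i.2

include C in
theorem bd_eq_zero (z : N F2 K) : N.bd F2 K z = 0 := by
  have : N.bd F2 K = 0 := C.homN_ext fun n h => by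
    rw [C.bd_aS, LinearMap.zero_apply]
  rw [this, LinearMap.zero_apply]

/-- `a n ∈ H_n(K)` -/
noncomputable def a (n : ℕ) (h : (n : ℕ∞) ≤ M) : H F2 K :=
  Hd.mk (N.bd F2 K) (N.sx F2 (C.aS n h)) (C.bd_aS n h)

/-- `H F2 K` has the basis `a n`, `n ≤ M` -/
noncomputable def basisH : Module.Basis (Idx M) F2 (H F2 K) :=
  C.basisN.map (hdZero _ C.bd_eq_zero)

theorem basisH_apply (i : Idx M) : C.basisH i = C.a i.1 i.2 := by
  rw [basisH, Module.Basis.map_apply, basisN_apply]
  rfl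

theorem homH_ext {V : Type*} [AddCommGroup V] [Module F2 V] {f g : H F2 K →ₗ[F2] V}
    (h : ∀ (n : ℕ) (hn : (n : ℕ∞) ≤ M), f (C.a n hn) = g (C.a n hn)) : f = g :=
  C.basisH.ext fun i => by rw [basisH_apply]; exact h i.1 i.2

theorem a_mem_gr (n : ℕ) (h : (n : ℕ∞) ≤ M) : C.a n h ∈ H.gr F2 K n :=
  HA498.mk_mem_grHd (mem_N_gr _) _

theorem N_gr_eq (n : ℕ) (z : N F2 K) (hz : z ∈ N.gr F2 K n) :
    (∃ h : (n : ℕ∞) ≤ M, ∃ r : F2, z = r • N.sx F2 (C.aS n h)) ∨ z = 0 := by
  obtain ⟨c, hc, rfl⟩ := hz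
  refine Submodule.span_induction
    (p := fun c _ => (∃ h : (n : ℕ∞) ≤ M, ∃ r : F2, (Submodule.mkQ _ c : N F2 K) =
      r • N.sx F2 (C.aS n h)) ∨ (Submodule.mkQ _ c : N F2 K) = 0) ?_ ?_ ?_ ?_ hc
  · rintro _ ⟨x, rfl⟩
    rcases C.sx_or n x with ⟨h, rfl⟩ | h
    · exact Or.inl ⟨h, 1, by rw [one_smul]; rfl⟩
    · exact Or.inr h
  · exact Or.inr (map_zero _)
  · intro x y _ _ hx hy
    rcases hx with ⟨h, r, hx⟩ | hx <;> rcases hy with ⟨h', r', hy⟩ | hy
    · exact Or.inl ⟨h, r + r', by rw [map_add, hx, hy, add_smul]⟩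
    · exact Or.inl ⟨h, r, by rw [map_add, hx, hy, add_zero]⟩
    · exact Or.inl ⟨h', r', by rw [map_add, hx, hy, zero_add]⟩
    · exact Or.inr (by rw [map_add, hx, hy, add_zero])
  · intro r x _ hx
    rcases hx with ⟨h, s, hx⟩ | hx
    · exact Or.inl ⟨h, r * s, by rw [map_smul, hx, mul_smul]⟩
    · exact Or.inr (by rw [map_smul, hx, smul_zero])

/-- elements of degree `n` are multiples of `a n` -/
theorem mem_gr (n : ℕ) (u : H F2 K) (hu : u ∈ H.gr F2 K n) :
    (∃ h : (n : ℕ∞) ≤ M, ∃ r : F2, u = r • C.a n h) ∨ u = 0 := by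
  obtain ⟨z, hz, hz', rfl⟩ := HA498.mem_grHd.1 hu
  rcases C.N_gr_eq n z hz with ⟨h, r, rfl⟩ | rfl
  · exact Or.inl ⟨h, r, rfl⟩
  · exact Or.inr (Hd.mk_eq_zero.2 ⟨0, map_zero _⟩)

theorem gr_eq (n : ℕ) (h : (n : ℕ∞) ≤ M) : H.gr F2 K n = Submodule.span F2 {C.a n h} := by
  apply le_antisymm
  · intro u hu
    rcases C.mem_gr n u hu with ⟨_, r, rfl⟩ | rfl
    · exact Submodule.smul_mem _ _ (Submodule.mem_span_singleton_self _)
    · exact Submodule.zero_mem _
  · rw [Submodule.span_singleton_le_iff_mem]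
    exact C.a_mem_gr n h

include C in
theorem gr_eq_bot (n : ℕ) (h : ¬ (n : ℕ∞) ≤ M) : H.gr F2 K n = ⊥ := by
  rw [eq_bot_iff]
  intro u hu
  rcases C.mem_gr n u hu with ⟨h', _⟩ | rfl
  · exact (h h').elim
  · exact Submodule.zero_mem _

theorem a_ne_zero (n : ℕ) (h : (n : ℕ∞) ≤ M) : C.a n h ≠ 0 := by
  have := C.basisH_apply ⟨n, h⟩
  rw [← this]
  exact C.basisH.ne_zero _

end Cells

/-! ## orbits of `E Z/2` and of its skeleta -/

section cells

variable (X : AltSS)

/-- `B = A / Z2` -/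
abbrev B : SS := orb X.A X.g

/-- the `n`-cell of `B` -/
noncomputable def aS (n : ℕ) (h : (n : ℕ∞) ≤ X.M) : (B X).S n := (proj X.g).app n (X.e n h 0)

theorem proj_e (n : ℕ) (h : (n : ℕ∞) ≤ X.M) (b : ZMod 2) :
    (proj X.g).app n (X.e n h b) = aS X n h := by
  rcases zmod2_cases b with rfl | rfl
  · rfl
  · have := proj_g X.g n (X.e n h 0)
    rw [X.g_e, zero_add] at this
    exact this

/-- the cells of `B X` -/
noncomputable def cells : Cells (B X) X.M where
  aS := aS X
  sx_or n y := by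
    obtain ⟨x, rfl⟩ := proj_surj X.g n y
    by_cases hx : X.j.app n x = alt n (X.j.app n x 0)
    · left
      have hn := X.alt_le n x _ hx
      refine ⟨hn, ?_⟩
      rw [X.eq_e x _ hx hn, proj_e]
    · right
      have := X.sx_eq_zero' x hx
      rw [← N.map_sx, this, map_zero]
  dgn_ne n j y h := by
    obtain ⟨x, rfl⟩ := proj_surj X.g n y
    rw [← (proj X.g).nat]
    intro hx
    rcases (proj_eq_iff X.g _ _).1 hx with h1 | h1
    · have h2 := congrArg (X.j.app (n + 1)) h1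
      rw [X.j_e, X.j.nat] at h2
      exact dgn_ne_alt j _ _ h2.symm
    · have h2 := congrArg (X.j.app (n + 1)) h1
      rw [X.j_e, X.j_g, X.j.nat] at h2
      exact dgn_ne_alt j (gE.g.app n (X.j.app n x)) _ h2.symm
  bd_aS n h := by
    rcases n with _ | n
    · exact bd_sx_zero F2 _
    · have h1 : N.sx F2 (aS X (n + 1) h) = N.map F2 (proj X.g) (N.sx F2 (X.e (n + 1) h 0)) :=
        (N.map_sx _ _).symm
      rw [h1]
      have h2 := LinearMap.congr_fun (N.map_bd (R := F2) (proj X.g)) (N.sx F2 (X.e (n + 1) h 0))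
      rw [LinearMap.comp_apply, LinearMap.comp_apply] at h2
      rw [← h2, X.bd_e_succ, map_add, N.map_sx, N.map_sx, proj_e, proj_e, add_self2]

end cells

/-! ## the full classifying space -/

/-- `B Z/2` -/
abbrev BZ : SS := orb (EG (ZMod 2)) gE

/-- the `n`-cell of `B Z/2` -/
def c (n : ℕ) : BZ.S n := (proj gE).app n (alt n 0)

theorem c_eq (n : ℕ) (b : ZMod 2) : (proj gE).app n (alt n b) = c n := by
  rcases zmod2_cases b with rfl | rfl
  · rfl
  · have := proj_g gE n (alt n 0)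
    rw [alt_g, zero_add] at this
    exact this

theorem e_full (n : ℕ) (h : (n : ℕ∞) ≤ AltSS.full.M) (b : ZMod 2) : AltSS.full.e n h b = alt n b :=
  AltSS.full.j_e n h b

/-- the cells of `B Z/2` -/
def cellsZ : Cells BZ ⊤ where
  aS n _ := c n
  sx_or n y := by
    obtain ⟨x, rfl⟩ := proj_surj gE n y
    by_cases hx : x = alt n (x 0)
    · left
      refine ⟨le_top, ?_⟩
      rw [hx, c_eq]
    · right
      have : N.sx F2 x = 0 := AltSS.full.sx_eq_zero' x hx
      rw [← N.map_sx, this, map_zero]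
  dgn_ne n j y h := by
    obtain ⟨x, rfl⟩ := proj_surj gE n y
    rw [← (proj gE).nat]
    intro hx
    rcases (proj_eq_iff gE _ _).1 hx with h1 | h1
    · exact dgn_ne_alt j _ _ h1.symm
    · exact dgn_ne_alt j (gE.g.app n x) _ h1.symm
  bd_aS n h := by
    rcases n with _ | n
    · exact bd_sx_zero F2 _
    · have h1 : N.sx F2 (c (n + 1)) = N.map F2 (proj gE) (N.sx F2 (alt (n + 1) 0)) :=
        (N.map_sx _ _).symm
      rw [h1]
      have h2 := LinearMap.congr_fun (N.map_bd (R := F2) (proj gE)) (N.sx F2 (alt (n + 1) 0))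
      rw [LinearMap.comp_apply, LinearMap.comp_apply] at h2
      have h3 : N.bd F2 (EG (ZMod 2)) (N.sx F2 (alt (n + 1) 0)) =
          N.sx F2 (alt n (0 + 1)) + N.sx F2 (alt n 0) := by
        have := AltSS.full.bd_e_succ n le_top 0
        rw [e_full, e_full, e_full] at this
        exact this
      rw [← h2, h3, map_add, N.map_sx, N.map_sx, c_eq, c_eq, add_self2]

theorem bd_c (n : ℕ) : N.bd F2 BZ (N.sx F2 (c n)) = 0 := cellsZ.bd_aS n le_top

theorem bd_BZ (z : N F2 BZ) : N.bd F2 BZ z = 0 := cellsZ.bd_eq_zero z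

/-- `a n ∈ H_n(B Z/2)` -/
noncomputable def aZ (n : ℕ) : H F2 BZ := Hd.mk (N.bd F2 BZ) (N.sx F2 (c n)) (bd_c n)

/-- the index set of the full space -/
def idxFull : Idx ⊤ ≃ ℕ := ⟨fun i => i.1, fun n => ⟨n, le_top⟩, fun _ => rfl, fun _ => rfl⟩

/-- `N F2 (B Z/2)` has basis `c n` -/
noncomputable def basisNZ : Module.Basis ℕ F2 (N F2 BZ) := cellsZ.basisN.reindex idxFull

@[simp] theorem basisNZ_apply (n : ℕ) : basisNZ n = N.sx F2 (c n) := by
  rw [basisNZ, Module.Basis.reindex_apply, Cells.basisN_apply]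
  rfl

theorem homNZ_ext {V : Type*} [AddCommGroup V] [Module F2 V] {f g : N F2 BZ →ₗ[F2] V}
    (h : ∀ n : ℕ, f (N.sx F2 (c n)) = g (N.sx F2 (c n))) : f = g :=
  basisNZ.ext fun n => by rw [basisNZ_apply]; exact h n

/-- `H F2 (B Z/2)` has basis `a n` -/
noncomputable def basisZ : Module.Basis ℕ F2 (H F2 BZ) := cellsZ.basisH.reindex idxFull

@[simp] theorem basisZ_apply (n : ℕ) : basisZ n = aZ n := by
  rw [basisZ, Module.Basis.reindex_apply, Cells.basisH_apply]
  rfl

theorem homZ_ext {V : Type*} [AddCommGroup V] [Module F2 V] {f g : H F2 BZ →ₗ[F2] V}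
    (h : ∀ n : ℕ, f (aZ n) = g (aZ n)) : f = g :=
  basisZ.ext fun n => by rw [basisZ_apply]; exact h n

theorem aZ_mem_gr (n : ℕ) : aZ n ∈ H.gr F2 BZ n := cellsZ.a_mem_gr n le_top

theorem grZ_eq (n : ℕ) : H.gr F2 BZ n = Submodule.span F2 {aZ n} := cellsZ.gr_eq n le_top

theorem memZ_gr (n : ℕ) (u : H F2 BZ) (hu : u ∈ H.gr F2 BZ n) : ∃ r : F2, u = r • aZ n := by
  rw [grZ_eq, Submodule.mem_span_singleton] at hu
  obtain ⟨r, hr⟩ := hu
  exact ⟨r, hr.symm⟩

theorem aZ_ne_zero (n : ℕ) : aZ n ≠ 0 := cellsZ.a_ne_zero n le_top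

/-- the dual basis: `x^n ∈ H^n(B Z/2)` -/
noncomputable def xZ (n : ℕ) : H F2 BZ →ₗ[F2] F2 := basisZ.coord n

theorem xZ_aZ (m n : ℕ) : xZ m (aZ n) = if n = m then 1 else 0 := by
  rw [xZ, ← basisZ_apply, Module.Basis.coord_apply, Module.Basis.repr_self, Finsupp.single_apply]

/-! ## the inclusion of the skeleta -/

/-- `sk_M E / Z2 → B Z/2` -/
def inclB (M : ℕ) : Hom (B (AltSS.skel M)) BZ :=
  orbMap (AltSS.skel M).g gE (skIncl M _) (fun _ _ => rfl)

theorem inclB_aS (M n : ℕ) (h : (n : ℕ∞) ≤ (AltSS.skel M).M) :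
    (inclB M).app n (aS (AltSS.skel M) n h) = c n := by
  rw [aS, inclB, orbMap_proj, c]
  have := (AltSS.skel M).j_e n h 0
  exact congrArg ((proj gE).app n) this

theorem inclB_a (M n : ℕ) (h : (n : ℕ∞) ≤ (AltSS.skel M).M) :
    H.map F2 (inclB M) ((cells (AltSS.skel M)).a n h) = aZ n := by
  rw [Cells.a, H.map, Hd.map_mk, aZ, Hd.mk_eq_mk]
  refine ⟨0, ?_⟩
  rw [map_zero, N.map_sx]
  show 0 = N.sx F2 ((inclB M).app n (aS (AltSS.skel M) n h)) - N.sx F2 (c n)
  rw [inclB_aS, sub_self]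

/-! ## the group law -/

/-- levelwise addition of `E Z/2` -/
def addE : Hom ((EG (ZMod 2)).prod (EG (ZMod 2))) (EG (ZMod 2)) :=
  ⟨fun _ x i => x.1 i + x.2 i, fun _ _ => rfl⟩

theorem addE_g_left (n : ℕ) (x y : (EG (ZMod 2)).S n) :
    addE.app n (gE.g.app n x, y) = gE.g.app n (addE.app n (x, y)) := by
  funext i
  show x i + 1 + y i = x i + y i + 1
  ring

theorem addE_g_right (n : ℕ) (x y : (EG (ZMod 2)).S n) :
    addE.app n (x, gE.g.app n y) = gE.g.app n (addE.app n (x, y)) := by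
  funext i
  show x i + (y i + 1) = x i + y i + 1
  ring

/-- the group law of `B Z/2` -/
def mB : Hom (BZ.prod BZ) BZ where
  app n x := Quotient.map₂ (sa := gE.rel n) (sb := gE.rel n) (sc := gE.rel n)
    (fun x y => addE.app n (x, y)) (by
      intro u u' hu v v' hv
      have hu' : u' = u ∨ u' = gE.g.app n u := hu
      have hv' : v' = v ∨ v' = gE.g.app n v := hv
      show addE.app n (u', v') = addE.app n (u, v) ∨
        addE.app n (u', v') = gE.g.app n (addE.app n (u, v))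
      rcases hu' with hu' | hu' <;> rcases hv' with hv' | hv'
      · rw [hu', hv']; exact Or.inl rfl
      · rw [hu', hv', addE_g_right]; exact Or.inr rfl
      · rw [hu', hv', addE_g_left]; exact Or.inr rfl
      · rw [hu', hv', addE_g_left, addE_g_right, gE.invol]; exact Or.inl rfl) x.1 x.2
  nat f x := by
    obtain ⟨x, y⟩ := x
    induction x using Quotient.inductionOn' with
    | h x =>
      induction y using Quotient.inductionOn' with
      | h y => rfl

theorem mB_proj (n : ℕ) (x y : (EG (ZMod 2)).S n) :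
    mB.app n ((proj gE).app n x, (proj gE).app n y) = (proj gE).app n (addE.app n (x, y)) := rfl

theorem mB_comp : mB.comp (prodMap (proj gE) (proj gE)) = (proj gE).comp addE := rfl

/-- the cone of `E Z/2` with vertex `b` -/
def coneE : EZ271.Cone (EG (ZMod 2)) where
  bot := fun _ => 0
  k x := Fin.cons 0 x
  h_cons α x := by
    funext i
    induction i using Fin.cases with
    | zero => rfl
    | succ i => rfl
  h_star α x := by
    funext i
    induction i using Fin.cases with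
    | zero => rfl
    | succ i => rfl
  h_face x := by
    funext i
    rfl
  h_vert α x h := by
    funext i
    have : i = 0 := Fin.ext (by omega)
    subst this
    show (Fin.cons 0 x : Fin _ → ZMod 2) (α 0) = 0
    rw [h]
    rfl
  h_bot := by
    funext i
    induction i using Fin.cases with
    | zero => rfl
    | succ i => rfl

theorem isCone_addE : EZ271.IsConeMap (coneE.prod coneE) coneE addE where
  k x := by
    funext i
    induction i using Fin.cases with
    | zero => show (0 : ZMod 2) + 0 = 0; simp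
    | succ i => rfl

theorem coneE_alt (n : ℕ) : coneE.k (alt n 1) = alt (n + 1) 0 := by
  funext i
  induction i using Fin.cases with
  | zero => show (0 : ZMod 2) = 0 + ((0 : ℕ) : ZMod 2); simp
  | succ i =>
    show (1 : ZMod 2) + ((i : ℕ) : ZMod 2) = 0 + (((i.succ : Fin (n + 2)) : ℕ) : ZMod 2)
    rw [Fin.val_succ]; push_cast; ring

theorem bot_alt : coneE.bot = alt 0 0 := by
  funext i
  have : i = 0 := Fin.ext (by omega)
  subst this
  show (0 : ZMod 2) = 0 + ((0 : ℕ) : ZMod 2)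
  simp

/-- translation invariance of the sum -/
theorem add_cross_alt_shift (p q : ℕ) (b b' : ZMod 2) (r : F2) (s : ZMod 2)
    (h : N.map F2 addE (EZ271.cross F2 (N.sx F2 (alt p b)) (N.sx F2 (alt q b'))) =
      r • N.sx F2 (alt (p + q) s)) :
    N.map F2 addE (EZ271.cross F2 (N.sx F2 (alt p (b + 1))) (N.sx F2 (alt q b'))) =
      r • N.sx F2 (alt (p + q) (s + 1)) ∧
    N.map F2 addE (EZ271.cross F2 (N.sx F2 (alt p b)) (N.sx F2 (alt q (b' + 1)))) =
      r • N.sx F2 (alt (p + q) (s + 1)) := by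
  have e : ∀ n b, N.sx F2 (alt n (b + 1)) = N.map F2 gE.g (N.sx F2 (alt n b)) := by
    intro n b
    rw [N.map_sx, alt_g]
  have key1 : addE.comp (prodMap gE.g (Hom.id _)) = (gE.g).comp addE := by
    apply Hom.ext
    funext n x i
    show x.1 i + 1 + x.2 i = x.1 i + x.2 i + 1
    ring
  have key2 : addE.comp (prodMap (Hom.id _) gE.g) = (gE.g).comp addE := by
    apply Hom.ext
    funext n x i
    show x.1 i + (x.2 i + 1) = x.1 i + x.2 i + 1
    ring
  constructor
  · have h2 : EZ271.cross F2 (N.sx F2 (alt p (b + 1))) (N.sx F2 (alt q b')) =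
        N.map F2 (prodMap gE.g (Hom.id _)) (EZ271.cross F2 (N.sx F2 (alt p b)) (N.sx F2 (alt q b'))) := by
      rw [EZ271.map_cross, EZ271.map_idHom, ← e]
    rw [h2, EZ271.map_map, key1, ← EZ271.map_map, h, map_smul, ← e]
  · have h2 : EZ271.cross F2 (N.sx F2 (alt p b)) (N.sx F2 (alt q (b' + 1))) =
        N.map F2 (prodMap (Hom.id _) gE.g) (EZ271.cross F2 (N.sx F2 (alt p b)) (N.sx F2 (alt q b'))) := by
      rw [EZ271.map_cross, EZ271.map_idHom, ← e]
    rw [h2, EZ271.map_map, key2, ← EZ271.map_map, h, map_smul, ← e]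

theorem shift_all (p q : ℕ) (r : F2)
    (h : N.map F2 addE (EZ271.cross F2 (N.sx F2 (alt p 0)) (N.sx F2 (alt q 0))) =
      r • N.sx F2 (alt (p + q) 0)) (b b' : ZMod 2) :
    N.map F2 addE (EZ271.cross F2 (N.sx F2 (alt p b)) (N.sx F2 (alt q b'))) =
      r • N.sx F2 (alt (p + q) (b + b')) := by
  have h01 := (add_cross_alt_shift p q 0 0 r 0 h).2
  have h10 := (add_cross_alt_shift p q 0 0 r 0 h).1
  have h11 := (add_cross_alt_shift p q 0 1 r 1 (by simpa using h01)).1
  rcases zmod2_cases b with rfl | rfl <;> rcases zmod2_cases b' with rfl | rfl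
  · simpa using h
  · simpa using h01
  · simpa using h10
  · have e2 : (0 : ZMod 2) + 1 = 1 := by decide
    rw [e2] at h11
    exact h11

theorem alt_succ (n : ℕ) : N.sx F2 (alt (n + 1) 0) = coneE.c F2 (N.sx F2 (alt n 1)) := by
  rw [EZ271.Cone.c_sx, coneE_alt]

theorem sx_alt_cast {m n : ℕ} (h : m = n) (b : ZMod 2) : N.sx F2 (alt m b) = N.sx F2 (alt n b) := by
  subst h; rfl

theorem add_cross_alt00 : ∀ n p q : ℕ, p + q = n →
    N.map F2 addE (EZ271.cross F2 (N.sx F2 (alt p 0)) (N.sx F2 (alt q 0))) =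
      ((Nat.choose (p + q) p : ℕ) : F2) • N.sx F2 (alt (p + q) 0) := by
  intro n
  induction n with
  | zero =>
    intro p q h
    obtain rfl : p = 0 := by omega
    obtain rfl : q = 0 := by omega
    rw [← bot_alt, EZ271.cross_bot, N.map_sx]
    simp only [Nat.add_zero, Nat.choose_self, Nat.cast_one, one_smul]
    congr 1
  | succ n ih =>
    intro p q h
    rcases p with _ | p <;> rcases q with _ | q
    · omega
    · have h1 := shift_all 0 q _ (ih 0 q (by omega)) 0 1
      have e3 : (0 : ZMod 2) + 1 = 1 := by decide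
      rw [← bot_alt, e3, sx_alt_cast (Nat.zero_add q)] at h1
      rw [← bot_alt, alt_succ q, EZ271.cross_bot_c, isCone_addE.c, h1, map_smul, ← alt_succ,
        sx_alt_cast (Nat.zero_add (q + 1))]
      simp only [Nat.choose_zero_right]
    · have h1 := shift_all p 0 _ (ih p 0 (by omega)) 1 0
      have e3 : (1 : ZMod 2) + 0 = 1 := by decide
      rw [← bot_alt, e3] at h1
      rw [← bot_alt, alt_succ p, EZ271.cross_c_bot, isCone_addE.c, h1, map_smul]
      simp only [Nat.add_zero, Nat.choose_self]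
    · have h1 := shift_all p (q + 1) _ (ih p (q + 1) (by omega)) 1 0
      have h2 := shift_all (p + 1) q _ (ih (p + 1) q (by omega)) 0 1
      have e3 : (1 : ZMod 2) + 0 = 1 := by decide
      have e4 : (0 : ZMod 2) + 1 = 1 := by decide
      rw [e3] at h1
      rw [e4, sx_alt_cast (show p + 1 + q = p + (q + 1) by omega)] at h2
      rw [alt_succ p, alt_succ q, EZ271.cross_c_c, isCone_addE.c, map_add, ← alt_succ p, ← alt_succ q,
        EZ271.sg_sx]
      have e5 : ((-1 : F2) ^ (p + 1)) = 1 := by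
        have : (-1 : F2) = 1 := by decide
        rw [this, one_pow]
      rw [e5, one_smul, h1, h2, ← add_smul, map_smul, ← alt_succ,
        sx_alt_cast (show p + (q + 1) + 1 = p + 1 + (q + 1) by omega)]
      congr 1
      have e7 : (p + 1 + (q + 1)).choose (p + 1) = (p + (q + 1)).choose p + (p + 1 + q).choose (p + 1) := by
        have : p + 1 + (q + 1) = (p + (q + 1)) + 1 := by omega
        rw [this, Nat.choose_succ_succ]
        have : p + 1 + q = p + (q + 1) := by omega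
        rw [this]
      rw [e7]
      push_cast
      rfl

/-- `s_*(e_p × e_q) = C(p+q,p) e_{p+q}` in `N(E Z/2)` -/
theorem add_cross_alt (p q : ℕ) (b b' : ZMod 2) :
    N.map F2 addE (EZ271.cross F2 (N.sx F2 (alt p b)) (N.sx F2 (alt q b'))) =
      ((Nat.choose (p + q) p : ℕ) : F2) • N.sx F2 (alt (p + q) (b + b')) :=
  shift_all p q _ (add_cross_alt00 _ p q rfl) b b'

/-- `m_*(a_p × a_q) = C(p+q,p) a_{p+q}` in `N(B Z/2)` -/
theorem m_cross (p q : ℕ) :
    N.map F2 mB (EZ271.cross F2 (N.sx F2 (c p)) (N.sx F2 (c q))) =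
      ((Nat.choose (p + q) p : ℕ) : F2) • N.sx F2 (c (p + q)) := by
  have h1 : N.sx F2 (c p) = N.map F2 (proj gE) (N.sx F2 (alt p 0)) := by rw [N.map_sx]; rfl
  have h2 : N.sx F2 (c q) = N.map F2 (proj gE) (N.sx F2 (alt q 0)) := by rw [N.map_sx]; rfl
  rw [h1, h2, ← EZ271.map_cross, EZ271.map_map, mB_comp, ← EZ271.map_map, add_cross_alt, map_smul,
    N.map_sx, c_eq]

end Crest.Agent.R204.BZ498
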