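import Crest.Agent.R204.CoefInst_888
import Crest.Agent.R204.EZSym_888
import Crest.Agent.R204.EZHtp_271

/-!
# Row 204, block A5: the quadratic data of a simplicial set and the external Cartan formula (helper888)
-/

set_option autoImplicit false

noncomputable section

namespace Crest.Agent.R204.Q888

open Finsupp TensorProduct QC134 EZ271

variable (K L : SS)

theorem crossT_eq : crossT F2 (K := K) (L := L) = TensorProduct.lift (cross F2) := rfl

/-- Eilenberg–Zilber: the cross product is a quasi-isomorphism -/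
theorem qi_cross : QI (QC134.dT (N.bd F2 K) (N.bd F2 L)) (N.bd F2 (K.prod L))
    (TensorProduct.lift (cross F2)) := by
  have e1 : QC134.dT (N.bd F2 K) (N.bd F2 L) = tbd F2 K L := by
    refine TensorProduct.ext' fun a b => ?_
    rw [QC134.dT_tmul, tbd_tmul, sgF2_888]
  refine QI.of_homotopyEquiv (g := aw F2) (s := 0) (s' := hEZ F2) ?_ ?_ ?_ ?_
  · intro x
    rw [e1]
    exact (bd_crossT F2 x).symm
  · intro x
    rw [e1, bd_aw]
  · intro x
    simp only [LinearMap.zero_apply, map_zero, zero_add, add_zero]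
    exact aw_crossT F2 x
  · intro x
    have h := hEZ_homotopy F2 x
    rw [QC134.sub_eq'] at h
    have h2 : crossT F2 (aw F2 x) = N.bd F2 _ (hEZ F2 x) + hEZ F2 (N.bd F2 _ x) + x := by
      rw [h, QC134.add_add_self]
    show N.bd F2 _ (hEZ F2 x) + crossT F2 (aw F2 x) + hEZ F2 (N.bd F2 _ x) = x
    rw [h2]
    have : ∀ a b c : N F2 (K.prod L), a + (a + b + c) + b = (a + a) + (b + b) + c := by
      intros; abel
    rw [this, add_self2, add_self2, zero_add, zero_add]

theorem map_invol (z : N F2 (K.prod K)) :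
    N.map F2 (SS.swap K K) (N.map F2 (SS.swap K K) z) = z := by
  rw [map_map]
  exact map_idHom F2 (K := K.prod K) z

theorem N_bd_bd (z : N F2 K) : N.bd F2 K (N.bd F2 K z) = 0 := by
  obtain ⟨c, rfl⟩ := Submodule.Quotient.mk_surjective _ z
  rw [N.bd_mk, N.bd_mk, Ch.bd_bd]; rfl

/-- the quadratic data of a simplicial set -/
theorem isSq : IsSq (N.bd F2 K) (N.bd F2 (K.prod K)) (N.map F2 (SS.swap K K)) (cross F2)
    (N.map F2 (SS.diag K)) where
  dd := N_bd_bd K
  ddY := N_bd_bd (K.prod K)
  tt := map_invol K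
  dt y := (map_bd' F2 _ y).symm
  leib := bd_cross2
  symm := swap_cross
  dg_d x := (map_bd' F2 _ x).symm
  dg_t x := by rw [map_map]; rfl

/-- coefficient functionals of `H(Q(N(K × K)))` -/
def cf : ℕ → Hd (QD (N.bd F2 (K.prod K)) (N.map F2 (SS.swap K K))) →ₗ[F2] H F2 K :=
  (isSq K).coef (qi_cross K K)

theorem isCoef : IsCoef (isSq K) (cf K) := (isSq K).isCoef (qi_cross K K)

variable {K L} in
/-- cross product of chains on squares -/
def cr2 : N F2 (K.prod K) →ₗ[F2] N F2 (L.prod L) →ₗ[F2] N F2 ((K.prod L).prod (K.prod L)) :=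
  (cross F2).compr₂ (N.map F2 (midHom K K L L))

theorem cr2_apply (a : N F2 (K.prod K)) (b : N F2 (L.prod L)) :
    cr2 a b = N.map F2 (midHom K K L L) (cross F2 a b) := rfl

theorem isCross : IsCross (isSq K) (isSq L) (isSq (K.prod L)) (cross F2) cr2 := by
  refine IsCross.of_qi bd_cross2 ?_ ?_ ?_ ?_ (qi_cross K L) ?_
  · intro a b
    simp only [cr2_apply]
    rw [← map_bd', bd_cross2, map_add]
  · intro a b
    simp only [cr2_apply]
    rw [← map_cross, map_map, map_map]
    rfl
  · intro u u' v v'
    rw [cr2_apply, mid_cross]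
  · intro x y
    rw [cr2_apply, ← map_cross, map_map]
    rfl
  · have h : QI (N.bd F2 ((K.prod K).prod (L.prod L))) (N.bd F2 ((K.prod L).prod (K.prod L)))
        (N.map F2 (midHom K K L L)) := by
      refine QI.of_homotopyEquiv (g := N.map F2 (midHom K L K L)) (s := 0) (s' := 0) ?_ ?_ ?_ ?_
      · intro x; rw [map_bd']
      · intro x; rw [map_bd']
      · intro x
        simp only [LinearMap.zero_apply, map_zero, zero_add, add_zero]
        rw [map_map]
        exact map_idHom F2 (K := (K.prod K).prod (L.prod L)) x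
      · intro x
        simp only [LinearMap.zero_apply, map_zero, zero_add, add_zero]
        rw [map_map]
        exact map_idHom F2 (K := (K.prod L).prod (K.prod L)) x
    have := h.comp (qi_cross (K.prod K) (L.prod L))
    convert this using 1
    refine TensorProduct.ext' fun a b => ?_
    simp [cr2_apply]

variable {K L} in
/-- cross product in homology -/
def crH : H F2 K →ₗ[F2] H F2 L →ₗ[F2] H F2 (K.prod L) := hd2 (cross F2) bd_cross2

/-- **External Cartan formula** for the coefficient functionals. -/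
theorem cartan_cf (J J' : ℕ) (hJ : 1 ≤ J) (hJ' : 1 ≤ J') (i : ℕ) (x : H F2 K) (y : H F2 L) :
    cf (K.prod L) (J + J') ((isSq (K.prod L)).s i (crH x y)) =
      ∑ j ∈ Finset.range (i + 1), crH (cf K J ((isSq K).s j x)) (cf L J' ((isSq L).s (i - j) y)) :=
  (isCross K L).cartan (isCoef K) (isCoef L) (isCoef (K.prod L)) J J' hJ hJ' i x y

end Crest.Agent.R204.Q888
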