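import Crest.Agent.R204.BZ2_498
import Crest.Agent.R204.CartanInst_888
import Crest.Agent.R204.EZF2_271

/-!
# Row 204, leaf S5 (helper498), part b: coproduct of `a n`, and `Sq_l a_n = C(n-l,l) a_{n-l}`
from the axioms (naturality for the diagonal, Cartan, degree, `Sq_0 = id`, instability, top square).
-/

set_option autoImplicit false

namespace Crest.Agent.R204.BZ498

open Finsupp SS DK742 EZ271 TensorProduct

/-- front faces of the cells -/
theorem act_front_c (n j : ℕ) (h : j ≤ n) : BZ.act (front j n) (c n) = c j := by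
  show (proj gE).app j ((EG (ZMod 2)).act (front j n) (alt n 0)) = (proj gE).app j (alt j 0)
  congr 1
  funext i
  show (0 : ZMod 2) + ((((front j n) i : Fin (n + 1)) : ℕ) : ZMod 2) = 0 + ((i : ℕ) : ZMod 2)
  rw [front_val, min_eq_left (by omega)]

/-- back faces of the cells -/
theorem act_back_c (n j : ℕ) (h : j ≤ n) : BZ.act (back j n) (c n) = c j := by
  rw [← c_eq j ((n - j : ℕ) : ZMod 2)]
  show (proj gE).app j ((EG (ZMod 2)).act (back j n) (alt n 0)) = _
  congr 1
  funext i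
  show (0 : ZMod 2) + ((((back j n) i : Fin (n + 1)) : ℕ) : ZMod 2) =
    ((n - j : ℕ) : ZMod 2) + ((i : ℕ) : ZMod 2)
  rw [back_val, min_eq_left (by omega)]
  push_cast
  ring

/-- the coproduct of the cells of `B Z/2`, on chains -/
theorem cop_c (n : ℕ) : cop F2 (N.sx F2 (c n)) =
    ∑ j ∈ Finset.range (n + 1), N.sx F2 (c j) ⊗ₜ[F2] N.sx F2 (c (n - j)) := by
  rw [cop_sx]
  refine Finset.sum_congr rfl fun j hj => ?_
  have := Finset.mem_range.1 hj
  rw [act_front_c n j (by omega), act_back_c n (n - j) (by omega)]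

theorem aw_diag_c (n : ℕ) : aw F2 (N.map F2 (diag BZ) (N.sx F2 (c n))) =
    ∑ j ∈ Finset.range (n + 1), N.sx F2 (c j) ⊗ₜ[F2] N.sx F2 (c (n - j)) := by
  rw [N.map_sx]
  show aw F2 (N.sx F2 (K := BZ.prod BZ) (c n, c n)) = _
  rw [aw_sx]
  refine Finset.sum_congr rfl fun j hj => ?_
  have := Finset.mem_range.1 hj
  rw [act_front_c n j (by omega), act_back_c n (n - j) (by omega)]

theorem crH_mk {K L : SS} {x : N F2 K} {y : N F2 L} (hx : N.bd F2 K x = 0) (hy : N.bd F2 L y = 0)
    (h : N.bd F2 (K.prod L) (cross F2 x y) = 0) :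
    Q888.crH (Hd.mk _ x hx) (Hd.mk _ y hy) = Hd.mk _ (cross F2 x y) h := rfl

theorem bd_cross0 {K L : SS} {x : N F2 K} {y : N F2 L} (hx : N.bd F2 K x = 0) (hy : N.bd F2 L y = 0) :
    N.bd F2 (K.prod L) (cross F2 x y) = 0 := by
  rw [bd_cross_F2, hx, hy]; simp

theorem mk_sum {M : Type*} [AddCommGroup M] [Module F2 M] (d : M →ₗ[F2] M) {ι : Type*}
    (s : Finset ι) (f : ι → M) (hf : ∀ i, d (f i) = 0) (h : d (∑ i ∈ s, f i) = 0) :
    Hd.mk d (∑ i ∈ s, f i) h = ∑ i ∈ s, Hd.mk d (f i) (hf i) := by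
  classical
  induction s using Finset.induction_on with
  | empty => rfl
  | insert a s ha ih =>
    have hs : d (∑ i ∈ s, f i) = 0 := by
      rw [map_sum]; exact Finset.sum_eq_zero fun i _ => hf i
    have e0 : ∑ i ∈ insert a s, Hd.mk d (f i) (hf i) =
        Hd.mk d (f a) (hf a) + ∑ i ∈ s, Hd.mk d (f i) (hf i) := Finset.sum_insert ha
    rw [e0, ← ih hs]
    have : Hd.mk d (f a) (hf a) + Hd.mk d (∑ i ∈ s, f i) hs =
        Hd.mk d (f a + ∑ i ∈ s, f i) (by rw [map_add, hf, hs, add_zero]) := rfl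
    rw [this]
    rw [Hd.mk_eq_mk]
    exact ⟨0, by rw [map_zero, Finset.sum_insert ha, sub_self]⟩

/-- the coproduct of `a n`: `Δ_* a_n = ∑ a_j × a_{n-j}` -/
theorem diag_aZ (n : ℕ) : H.map F2 (diag BZ) (aZ n) =
    ∑ j ∈ Finset.range (n + 1), Q888.crH (aZ j) (aZ (n - j)) := by
  have h1 : ∀ j, N.bd F2 (BZ.prod BZ) (cross F2 (N.sx F2 (c j)) (N.sx F2 (c (n - j)))) = 0 :=
    fun j => bd_cross0 (bd_c j) (bd_c (n - j))
  have h2 : ∑ j ∈ Finset.range (n + 1), Q888.crH (aZ j) (aZ (n - j)) =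
      ∑ j ∈ Finset.range (n + 1), Hd.mk (N.bd F2 (BZ.prod BZ))
        (cross F2 (N.sx F2 (c j)) (N.sx F2 (c (n - j)))) (h1 j) := by
    refine Finset.sum_congr rfl fun j _ => ?_
    rw [aZ, aZ, crH_mk (bd_c j) (bd_c (n - j)) (h1 j)]
  rw [h2, ← mk_sum _ _ _ h1 (by rw [map_sum]; exact Finset.sum_eq_zero fun i _ => h1 i),
    aZ, H.map, Hd.map_mk, Hd.mk_eq_mk]
  have h3 := hEZ_homotopy_F2 (N.map F2 (diag BZ) (N.sx F2 (c n)))
  refine ⟨hEZ F2 (N.map F2 (diag BZ) (N.sx F2 (c n))), ?_⟩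
  have h4 : N.bd F2 (BZ.prod BZ) (N.map F2 (diag BZ) (N.sx F2 (c n))) = 0 := by
    rw [← EZ271.map_bd', bd_c, map_zero]
  rw [h4, map_zero, add_zero, aw_diag_c, map_sum] at h3
  simp only [crossT_tmul] at h3
  exact eq_sub_of_add_eq h3

/-! ## coefficient functionals on `H(B Z/2 × B Z/2)` -/

/-- the functional `x^i × x^j` on `H(B Z/2 × B Z/2)` -/
noncomputable def xx (i j : ℕ) : H F2 (BZ.prod BZ) →ₗ[F2] F2 :=
  Submodule.liftQ _
    ((LinearMap.mul' F2 F2 ∘ₗ TensorProduct.map (basisNZ.coord i) (basisNZ.coord j) ∘ₗ aw F2) ∘ₗ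
      (LinearMap.ker (N.bd F2 (BZ.prod BZ))).subtype) (by
    rintro ⟨z, hz⟩ hz'
    simp only [Submodule.mem_comap, Submodule.subtype_apply, LinearMap.mem_range] at hz'
    obtain ⟨w, rfl⟩ := hz'
    rw [LinearMap.mem_ker, LinearMap.comp_apply, Submodule.subtype_apply, LinearMap.comp_apply,
      LinearMap.comp_apply, ← bd_aw]
    have : tbd F2 BZ BZ (aw F2 w) = 0 := by
      have h0 : N.bd F2 BZ = 0 := LinearMap.ext bd_BZ
      rw [tbd, h0]
      simp
    rw [this, map_zero, map_zero])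

theorem xx_crH (i j p q : ℕ) : xx i j (Q888.crH (aZ p) (aZ q)) =
    (if p = i then 1 else 0) * (if q = j then 1 else 0) := by
  rw [aZ, aZ, crH_mk (bd_c p) (bd_c q) (bd_cross0 (bd_c p) (bd_c q))]
  show (LinearMap.mul' F2 F2 (TensorProduct.map (basisNZ.coord i) (basisNZ.coord j)
    (aw F2 (cross F2 (N.sx F2 (c p)) (N.sx F2 (c q)))))) = _
  rw [aw_cross, TensorProduct.map_tmul, LinearMap.mul'_apply]
  congr 1
  · rw [Module.Basis.coord_apply, ← basisNZ_apply, Module.Basis.repr_self, Finsupp.single_apply]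
  · rw [Module.Basis.coord_apply, ← basisNZ_apply, Module.Basis.repr_self, Finsupp.single_apply]

theorem xx_diag (i j n : ℕ) : xx i j (H.map F2 (diag BZ) (aZ n)) = if i + j = n then 1 else 0 := by
  rw [diag_aZ, map_sum]
  simp only [xx_crH]
  by_cases h : i + j = n
  · rw [if_pos h, Finset.sum_eq_single i]
    · rw [if_pos rfl, if_pos (by omega), one_mul]
    · intro p _ hp
      rw [if_neg hp, zero_mul]
    · intro hi
      exact (hi (Finset.mem_range.2 (by omega))).elim
  · rw [if_neg h]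
    refine Finset.sum_eq_zero fun p hp => ?_
    have := Finset.mem_range.1 hp
    by_cases h1 : p = i
    · rw [if_neg (show ¬ (n - p = j) by omega), mul_zero]
    · rw [if_neg h1, zero_mul]

/-! ## Steenrod operations -/

/-- **Steenrod operations of `B Z/2`** from the axioms. `S l` = `Sq^l_*` on `H(B Z/2)`, `T l` on
`H(B Z/2 × B Z/2)`. -/
theorem sq_aZ (S : ℕ → H F2 BZ →ₗ[F2] H F2 BZ)
    (T : ℕ → H F2 (BZ.prod BZ) →ₗ[F2] H F2 (BZ.prod BZ))
    (hnat : ∀ l n, T l (H.map F2 (diag BZ) (aZ n)) = H.map F2 (diag BZ) (S l (aZ n)))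
    (hcart : ∀ l p q, T l (Q888.crH (aZ p) (aZ q)) =
      ∑ i ∈ Finset.range (l + 1), Q888.crH (S i (aZ p)) (S (l - i) (aZ q)))
    (hdeg : ∀ l n, 2 * l ≤ n → S l (aZ n) ∈ H.gr F2 BZ (n - l))
    (h0 : ∀ n, S 0 (aZ n) = aZ n)
    (hinst : ∀ l n, n < 2 * l → S l (aZ n) = 0)
    (htop : S 1 (aZ 2) = aZ 1) :
    ∀ n l, S l (aZ n) = ((Nat.choose (n - l) l : ℕ) : F2) • aZ (n - l) := by
  intro n
  induction n using Nat.strong_induction_on with
  | _ n ih =>
  intro l
  rcases Nat.eq_zero_or_pos l with rfl | hl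
  · rw [h0]; simp
  by_cases hn : n < 2 * l
  · rw [hinst l n hn, Nat.choose_eq_zero_of_lt (by omega)]; simp
  have hn' : 2 * l ≤ n := by omega
  by_cases h2 : n = 2
  · subst h2
    obtain rfl : l = 1 := by omega
    rw [htop]; simp
  obtain ⟨r, hr⟩ := memZ_gr _ _ (hdeg l n hn')
  rw [hr]
  congr 1
  -- compare the coefficients of `a_1 × a_{n-l-1}`
  have e1 : xx 1 (n - l - 1) (T l (H.map F2 (diag BZ) (aZ n))) = r := by
    rw [hnat, hr, map_smul, map_smul, xx_diag, if_pos (by omega), smul_eq_mul, mul_one]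
  rw [← e1, diag_aZ, map_sum, map_sum]
  simp only [hcart, map_sum]
  have hz : ∀ i, 0 < i → S i (aZ 0) = 0 := fun i hi => hinst i 0 (by omega)
  -- value of each term
  have term : ∀ p i, p ≤ n → i ≤ l → ¬ (p = 1 ∧ i = 0) → ¬ (p = 2 ∧ i = 1) →
      xx 1 (n - l - 1) (Q888.crH (S i (aZ p)) (S (l - i) (aZ (n - p)))) = 0 := by
    intro p i hp hi h10 h21
    rcases Nat.eq_zero_or_pos p with rfl | hp0
    · rcases Nat.eq_zero_or_pos i with rfl | hi0
      · obtain ⟨s, hs⟩ : ∃ s : F2, S (l - 0) (aZ (n - 0)) = s • aZ (n - l) := ⟨r, by simpa using hr⟩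
        rw [h0, hs, map_smul, map_smul, xx_crH, if_neg (by omega), zero_mul, smul_zero]
      · rw [hz i hi0, map_zero, LinearMap.zero_apply, map_zero]
    · by_cases hpn : p = n
      · subst hpn
        rw [Nat.sub_self]
        by_cases hil : i = l
        · subst hil
          rw [Nat.sub_self, h0, hr, map_smul, LinearMap.smul_apply, map_smul, xx_crH,
            if_neg (show ¬ (0 = p - i - 1) by omega), mul_zero, smul_zero]
        · rw [hz (l - i) (by omega), map_zero, map_zero]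
      · rw [ih p (by omega), map_smul, LinearMap.smul_apply, map_smul]
        by_cases hp1 : p - i = 1
        · -- then i ≥ 2 or excluded
          have hi2 : 2 ≤ i := by
            by_contra hcon
            have : i = 0 ∨ i = 1 := by omega
            rcases this with rfl | rfl
            · exact h10 ⟨by omega, rfl⟩
            · exact h21 ⟨by omega, rfl⟩
          rw [Nat.choose_eq_zero_of_lt (by omega), Nat.cast_zero, zero_smul]
        · rw [ih (n - p) (by omega), map_smul, map_smul, xx_crH, if_neg hp1, zero_mul, smul_zero,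
            smul_zero]
  have T1 : xx 1 (n - l - 1) (Q888.crH (S 0 (aZ 1)) (S (l - 0) (aZ (n - 1)))) =
      ((Nat.choose (n - 1 - l) l : ℕ) : F2) := by
    rw [h0, ih (n - 1) (by omega), Nat.sub_zero, map_smul, map_smul, xx_crH, if_pos rfl,
      if_pos (by omega), one_mul, smul_eq_mul, mul_one]
  have T2 : xx 1 (n - l - 1) (Q888.crH (S 1 (aZ 2)) (S (l - 1) (aZ (n - 2)))) =
      ((Nat.choose (n - 2 - (l - 1)) (l - 1) : ℕ) : F2) := by
    rw [htop, ih (n - 2) (by omega), map_smul, map_smul, xx_crH, if_pos rfl,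
      if_pos (by omega), one_mul, smul_eq_mul, mul_one]
  rw [Finset.sum_eq_add 1 2 (by omega)
    (fun p hp hp' => Finset.sum_eq_zero fun i hi => term p i
      (by have := Finset.mem_range.1 hp; omega) (by have := Finset.mem_range.1 hi; omega)
      (fun h => hp'.1 h.1) (fun h => hp'.2 h.1))
    (fun h => (h (Finset.mem_range.2 (by omega))).elim)
    (fun h => (h (Finset.mem_range.2 (by omega))).elim),
    Finset.sum_eq_single 0
      (fun i hi hi' => term 1 i (by omega) (by have := Finset.mem_range.1 hi; omega)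
        (fun h => hi' h.2) (by omega))
      (fun h => (h (Finset.mem_range.2 (by omega))).elim),
    Finset.sum_eq_single 1
      (fun i hi hi' => term 2 i (by omega) (by have := Finset.mem_range.1 hi; omega)
        (by omega) (fun h => hi' h.2))
      (fun h => (h (Finset.mem_range.2 (by omega))).elim), T1, T2]
  have e3 : n - l = (n - 1 - l) + 1 := by omega
  have e4 : n - 2 - (l - 1) = n - 1 - l := by omega
  obtain ⟨k, rfl⟩ : ∃ k, l = k + 1 := ⟨l - 1, by omega⟩
  rw [e3, e4, Nat.choose_succ_succ, Nat.add_sub_cancel]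
  push_cast
  ring

end Crest.Agent.R204.BZ498
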