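import Crest.Agent.R204.E1_459

/-!
# Row 204, block B: shuffles of words, antisymmetrisation by insertion, `BarData` fields at `E¹` level
(helper459)
-/

set_option autoImplicit false
set_option linter.unusedSectionVars false

noncomputable section

namespace Crest.Agent.R204.E2_459

open Finsupp
open Crest.Agent.R204.Koszul459 (char2 orderings asym mem_orderings lt)
open Crest.Agent.R204.E1_459

/-! ## inserting a variable in orderings -/

section ins

variable {ι : Type*} [DecidableEq ι]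

theorem idxOf_insertIdx (v : ι) : ∀ (l : List ι) (j : ℕ), v ∉ l → j ≤ l.length →
    (l.insertIdx j v).idxOf v = j
  | [], 0, _, _ => by simp
  | [], j + 1, _, h => by simp at h
  | a :: l, 0, _, _ => by simp
  | a :: l, j + 1, hv, h => by
    rw [List.insertIdx_succ_cons, List.idxOf_cons_ne _ (fun h' => hv (by simp [h'])),
      idxOf_insertIdx v l j (fun h' => hv (by simp [h'])) (by simpa using h)]

theorem erase_insertIdx (v : ι) : ∀ (l : List ι) (j : ℕ), v ∉ l → j ≤ l.length →
    (l.insertIdx j v).erase v = l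
  | [], 0, _, _ => by simp
  | [], j + 1, _, h => by simp at h
  | a :: l, 0, _, _ => by simp
  | a :: l, j + 1, hv, h => by
    have hav : ¬ (a == v) = true := by
      simp only [beq_iff_eq]; intro h'; exact hv (by simp [h'])
    rw [List.insertIdx_succ_cons, List.erase_cons, if_neg hav,
      erase_insertIdx v l j (fun h' => hv (by simp [h'])) (by simpa using h)]

theorem insertIdx_idxOf (v : ι) : ∀ (l : List ι), v ∈ l → (l.erase v).insertIdx (l.idxOf v) v = l
  | [], h => by simp at h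
  | a :: l, h => by
    by_cases hav : a = v
    · subst hav; simp
    · have hav' : ¬ (a == v) = true := by simpa using hav
      have hl : v ∈ l := by
        rcases List.mem_cons.mp h with h' | h'
        · exact absurd h'.symm hav
        · exact h'
      rw [List.erase_cons, if_neg hav', List.idxOf_cons_ne _ hav, List.insertIdx_succ_cons,
        insertIdx_idxOf v l hl]

theorem sum_orderings_insert {M : Type*} [AddCommMonoid M] (v : ι) (S : Finset ι) (hv : v ∉ S)
    (f : List ι → M) :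
    ∑ l ∈ orderings (insert v S), f l =
      ∑ j ∈ Finset.range (S.card + 1), ∑ l ∈ orderings S, f (l.insertIdx j v) := by
  rw [← Finset.sum_product']
  have hmem : ∀ l ∈ orderings S, v ∉ l := by
    intro l hl h
    rw [mem_orderings] at hl
    exact hv (Finset.mem_toList.mp (hl.subset h))
  have hlen : ∀ l ∈ orderings S, l.length = S.card := fun l hl => Koszul459.orderings_length hl
  symm
  refine Finset.sum_bij' (fun p _ => p.2.insertIdx p.1 v) (fun l _ => (l.idxOf v, l.erase v))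
    ?_ ?_ ?_ ?_ ?_
  · rintro ⟨j, l⟩ h
    rw [Finset.mem_product, Finset.mem_range] at h
    obtain ⟨h1, h2⟩ := h
    rw [mem_orderings]
    refine (List.perm_insertIdx v l (by rw [hlen l h2]; omega)).trans ?_
    refine ((mem_orderings.mp h2).cons v).trans ?_
    exact (Finset.toList_insert hv).symm
  · intro l hl
    rw [mem_orderings] at hl
    have hl' := hl.trans (Finset.toList_insert hv)
    have hvl : v ∈ l := hl'.symm.subset (by simp)
    have hp : (l.erase v).Perm S.toList := by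
      have := hl'.erase v
      simpa using this
    rw [Finset.mem_product, Finset.mem_range]
    refine ⟨?_, mem_orderings.mpr hp⟩
    have h1 := List.idxOf_lt_length_iff.mpr hvl
    have h2 : l.length = S.card + 1 := by
      rw [hl'.length_eq, List.length_cons, Finset.length_toList]
    show l.idxOf v < S.card + 1
    omega
  · rintro ⟨j, l⟩ h
    rw [Finset.mem_product, Finset.mem_range] at h
    obtain ⟨h1, h2⟩ := h
    have hj : j ≤ l.length := by rw [hlen l h2]; omega
    show ((l.insertIdx j v).idxOf v, (l.insertIdx j v).erase v) = (j, l)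
    rw [idxOf_insertIdx v l j (hmem l h2) hj, erase_insertIdx v l j (hmem l h2) hj]
  · intro l hl
    rw [mem_orderings] at hl
    have hl' := hl.trans (Finset.toList_insert hv)
    have hvl : v ∈ l := hl'.symm.subset (by simp)
    exact insertIdx_idxOf v l hvl
  · rintro ⟨j, l⟩ _
    rfl

end ins

variable {ι : Type}

/-- insert the letter `m` at position `j` -/
def insL (j : ℕ) (m : Bar334.NMon ι) : Bar334.Bar ι →ₗ[F2] Bar334.Bar ι :=
  Finsupp.lmapDomain F2 F2 (fun w => w.insertIdx j m)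

@[simp] theorem insL_single (j : ℕ) (m : Bar334.NMon ι) (w : List (Bar334.NMon ι)) (r : F2) :
    insL j m (single w r) = single (w.insertIdx j m) r := by
  simp [insL, Finsupp.lmapDomain_apply, Finsupp.mapDomain_single]

theorem map_insertIdx' {α β : Type*} (f : α → β) (l : List α) (j : ℕ) (a : α) :
    (l.insertIdx j a).map f = (l.map f).insertIdx j (f a) := by
  exact List.map_insertIdx f l j a

/-- antisymmetrisation by insertion -/
theorem asym_insert [DecidableEq ι] (v : ι) (S : Finset ι) (hv : v ∉ S) :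
    asym (insert v S) = ∑ j ∈ Finset.range (S.card + 1), insL j (lt v) (asym S) := by
  unfold asym
  rw [sum_orderings_insert v S hv]
  refine Finset.sum_congr rfl fun j _ => ?_
  rw [map_sum]
  refine Finset.sum_congr rfl fun l _ => ?_
  rw [insL_single, map_insertIdx']

theorem asym_empty : asym (∅ : Finset ι) = single [] 1 := by
  have : orderings (∅ : Finset ι) = {[]} := by
    ext l
    rw [mem_orderings, Finset.mem_singleton, Finset.toList_empty, List.perm_nil]
  unfold asym
  rw [this, Finset.sum_singleton]; rfl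

/-! ## words in `M p` -/

end Crest.Agent.R204.E2_459

namespace Crest.Agent.R204.E1_459.BarMod

open Finsupp
open Crest.Agent.R204.Koszul459 (char2)

variable (X : BarMod)

/-- the word `[a_1|…|a_p]` in `M p` (zero if the length is wrong) -/
def br : ∀ p : ℕ, List X.H → X.M p
  | 0, [] => X.pt
  | 0, _ :: _ => 0
  | _ + 1, [] => 0
  | p + 1, a :: w => X.al p a (br p w)

@[simp] theorem br_zero_nil : X.br 0 [] = X.pt := rfl
@[simp] theorem br_succ_cons (p : ℕ) (a : X.H) (w : List X.H) :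
    X.br (p + 1) (a :: w) = X.al p a (X.br p w) := rfl

theorem br_ne : ∀ (p : ℕ) (w : List X.H), w.length ≠ p → X.br p w = 0
  | 0, [], h => absurd rfl h
  | 0, _ :: _, _ => rfl
  | _ + 1, [], _ => rfl
  | p + 1, a :: w, h => by
    show X.al p a (X.br p w) = 0
    rw [br_ne p w (fun h' => h (by simp [h'])), map_zero]

/-- degeneracies insert the unit -/
theorem dgn_br : ∀ (p : ℕ) (i : Fin (p + 1)) (w : List X.H), w.length = p →
    X.dgn p i (X.br p w) = X.br (p + 1) (w.insertIdx i X.one)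
  | p, ⟨0, _⟩, w, _ => by
    have h := X.dgn_zero p (X.br p w)
    exact h
  | 0, ⟨i + 1, hi⟩, _, _ => absurd hi (by omega)
  | p + 1, ⟨i + 1, hi⟩, [], h => absurd h (by simp)
  | p + 1, ⟨i + 1, hi⟩, a :: w, h => by
    have h1 := X.dgn_succ p a (X.br p w) ⟨i, by omega⟩
    have h2 := dgn_br p ⟨i, by omega⟩ w (by simpa using h)
    show X.dgn (p + 1) (Fin.succ ⟨i, by omega⟩) (X.al p a (X.br p w)) = _
    rw [h1, h2]
    rfl

/-- levelwise product -/
structure Pr where
  /-- product of `H(G)` induced by the pointwise product -/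
  mg : X.H →ₗ[F2] X.H →ₗ[F2] X.H
  pr : ∀ p, X.M p →ₗ[F2] X.M p →ₗ[F2] X.M p
  one_mg : ∀ a, mg X.one a = a
  mg_one : ∀ a, mg a X.one = a
  pr_pt : pr 0 X.pt X.pt = X.pt
  pr_al : ∀ p a b (x y : X.M p), pr (p + 1) (X.al p a x) (X.al p b y) = X.al p (mg a b) (pr p x y)

variable {X}

theorem Pr.pr_br (Q : X.Pr) : ∀ (p : ℕ) (w w' : List X.H), w.length = p → w'.length = p →
    Q.pr p (X.br p w) (X.br p w') = X.br p (List.zipWith (fun a b => Q.mg a b) w w')
  | 0, [], [], _, _ => Q.pr_pt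
  | 0, _ :: _, _, h, _ => absurd h (by simp)
  | 0, [], _ :: _, _, h => absurd h (by simp)
  | p + 1, [], _, h, _ => absurd h (by simp)
  | p + 1, _ :: _, [], _, h => absurd h (by simp)
  | p + 1, a :: w, b :: w', h, h' => by
    show Q.pr (p + 1) (X.al p a (X.br p w)) (X.al p b (X.br p w')) = X.al p (Q.mg a b)
      (X.br p (List.zipWith (fun a b => Q.mg a b) w w'))
    rw [Q.pr_al, pr_br Q p w w' (by simpa using h) (by simpa using h')]

theorem zipWith_replicate_one (Q : X.Pr) : ∀ (w : List X.H),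
    List.zipWith (fun a b => Q.mg a b) (List.replicate w.length X.one) w = w
  | [] => rfl
  | a :: w => by
    rw [List.length_cons, List.replicate_succ, List.zipWith_cons_cons, Q.one_mg,
      zipWith_replicate_one Q w]

/-- `(1,…,v,…,1)` times `(a_1,…,1,…,a_p)` (both at position `j`) -/
theorem zipWith_insert (Q : X.Pr) (v : X.H) : ∀ (w : List X.H) (j : ℕ), j ≤ w.length →
    List.zipWith (fun a b => Q.mg a b) ((List.replicate w.length X.one).insertIdx j v)
      (w.insertIdx j X.one) = w.insertIdx j v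
  | w, 0, _ => by
    rw [List.insertIdx_zero, List.insertIdx_zero, List.insertIdx_zero, List.zipWith_cons_cons,
      Q.mg_one, zipWith_replicate_one]
  | [], j + 1, h => by simp at h
  | a :: w, j + 1, h => by
    rw [List.length_cons, List.replicate_succ, List.insertIdx_succ_cons, List.insertIdx_succ_cons,
      List.insertIdx_succ_cons, List.zipWith_cons_cons, Q.one_mg,
      zipWith_insert Q v w j (by simpa using h)]

/-- product of the unit word with letter `v` at position `j` and of the `j`-th degeneracy of a word -/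
theorem Pr.pr_unit_dgn (Q : X.Pr) (p : ℕ) (v : X.H) (w : List X.H) (hw : w.length = p)
    (j : Fin (p + 1)) :
    Q.pr (p + 1) (X.br (p + 1) ((List.replicate p X.one).insertIdx j v)) (X.dgn p j (X.br p w)) =
      X.br (p + 1) (w.insertIdx j v) := by
  subst hw
  have hj : (j : ℕ) ≤ w.length := by omega
  rw [X.dgn_br _ j w rfl, Q.pr_br]
  · rw [zipWith_insert Q v w j hj]
  · rw [List.length_insertIdx_of_le_length (by simpa using hj)]; simp
  · rw [List.length_insertIdx_of_le_length hj]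

/-- the class of a word of monomials -/
theorem ww_eq_br {ι : Type} (φ : (ι →₀ ℕ) → X.H) : ∀ (p : ℕ) (w : List (Bar334.NMon ι)),
    X.ww φ p w = Submodule.Quotient.mk (X.br p (w.map fun m => φ m.1))
  | 0, [] => rfl
  | 0, _ :: _ => rfl
  | _ + 1, [] => rfl
  | p + 1, m :: w => by
    show X.alR p (φ m.1) (X.ww φ p w) = _
    rw [ww_eq_br φ p w]
    rfl

/-! ## `W` and insertion -/

section W

variable {ι : Type} (φ : (ι →₀ ℕ) → X.H)

/-- all `E¹_p` together -/
abbrev EE (X : BarMod) : Type := ∀ p, X.R p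

/-- inclusion of `E¹_p` -/
def inc (X : BarMod) (p : ℕ) : X.R p →ₗ[F2] X.EE := LinearMap.single F2 X.R p

theorem inc_injective (p : ℕ) : Function.Injective (X.inc p) := by
  intro a b h
  have := congrFun h p
  simpa [inc] using this

/-- words in `E¹` -/
def W : Bar334.Bar ι →ₗ[F2] X.EE := LinearMap.pi fun p => X.Wp φ p

theorem W_apply (b : Bar334.Bar ι) (p : ℕ) : X.W φ b p = X.Wp φ p b := rfl

theorem Wp_ne {p q : ℕ} (h : p ≠ q) {b : Bar334.Bar ι} (hb : ∀ w ∈ b.support, w.length = p) :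
    X.Wp φ q b = 0 := by
  rw [Wp, Finsupp.linearCombination_apply, Finsupp.sum]
  refine Finset.sum_eq_zero fun w hw => ?_
  rw [X.ww_ne φ q w (fun h' => h ((hb w hw).symm.trans h')), smul_zero]

theorem W_eq {p : ℕ} {b : Bar334.Bar ι} (hb : ∀ w ∈ b.support, w.length = p) :
    X.W φ b = X.inc p (X.Wp φ p b) := by
  funext q
  rw [W_apply]
  by_cases h : q = p
  · subst h; simp [inc]
  · rw [X.Wp_ne φ (Ne.symm h) hb]
    simp [inc, Pi.single_eq_of_ne h]

theorem Wd_len {deg : ι → ℕ} {p q : ℕ} {b : Bar334.Bar ι} (hb : b ∈ Bar334.Wd deg p q) :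
    ∀ w ∈ b.support, w.length = p := fun _ hw => (hb hw).1

end W

/-! ## the fields of `BarData` -/

section fields

variable {ι : Type} {deg : ι → ℕ} {φ : (ι →₀ ℕ) → X.H} (Y : Bar334.FC)

/-- leading term maps into `E¹` (343's T4) -/
structure Ld where
  ld : ∀ p, ↥(Y.Z (p + 1)) →ₗ[F2] X.R (p + 1)
  ld_gr : ∀ p q (θ : Y.Z (p + 1)), (θ : Y.T) ∈ Y.gr (p + 1 + q) → ld p θ ∈ X.Rgr (p + 1) q
  ld_onto : ∀ p q, ∀ y ∈ X.Rgr (p + 1) q, ∃ θ : Y.Z (p + 1), (θ : Y.T) ∈ Y.gr (p + 1 + q) ∧ ld p θ = y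
  ld_d : ∀ p (θ : Y.Z (p + 2)) (h : Y.d θ ∈ Y.Z (p + 1)), ld p ⟨Y.d θ, h⟩ = X.d1 (p + 1) (ld (p + 1) θ)

variable {Y}

/-- the `lead` field -/
def Ld.lead (L : Ld (X := X) Y) (p : ℕ) : ↥(Y.Z (p + 1)) →ₗ[F2] X.EE := X.inc (p + 1) ∘ₗ L.ld p

theorem Ld.lead_apply (L : Ld (X := X) Y) (p : ℕ) (θ : Y.Z (p + 1)) :
    L.lead p θ = X.inc (p + 1) (L.ld p θ) := rfl

theorem Ld.lead_eq_zero (L : Ld (X := X) Y) (p : ℕ) (θ : Y.Z (p + 1)) :
    L.lead p θ = 0 ↔ L.ld p θ = 0 := by
  constructor
  · intro h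
    apply X.inc_injective (p + 1)
    rw [map_zero]; exact h
  · intro h
    rw [lead_apply, h, map_zero]

theorem Ld.lift (L : Ld (X := X) Y) (hgr : ∀ m, φ m ∈ X.hgr (Bar334.wt1 deg m)) (p : ℕ)
    (w : List (Bar334.NMon ι)) (hw : w.length = p + 1) :
    ∃ θ : Y.Z (p + 1), (θ : Y.T) ∈ Y.gr (p + 1 + Bar334.wt deg w) ∧
      L.lead p θ = X.W φ (Finsupp.single w 1) := by
  have h1 : (single w 1 : Bar334.Bar ι) ∈ Bar334.Wd deg (p + 1) (Bar334.wt deg w) :=
    Finsupp.single_mem_supported _ _ ⟨hw, rfl⟩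
  obtain ⟨θ, h2, h3⟩ := L.ld_onto p _ _ (X.Wp_mem deg hgr (p + 1) _ _ h1)
  refine ⟨θ, h2, ?_⟩
  rw [lead_apply, h3, ← X.W_eq φ (Wd_len h1)]

theorem Ld.dW (L : Ld (X := X) Y) (hφ : X.Mult φ) (p : ℕ) (θ : Y.Z (p + 2)) (b : Bar334.Bar ι)
    (hb : ∀ w ∈ b.support, w.length = p + 2) (h : L.lead (p + 1) θ = X.W φ b)
    (h' : Y.d θ ∈ Y.Z (p + 1)) : L.lead p ⟨Y.d θ, h'⟩ = X.W φ (Koszul459.bd b) := by
  have hb2 : ∀ w ∈ (Koszul459.bd b).support, w.length = p + 1 := by
    intro w hw
    have : b ∈ Finsupp.supported (ZMod 2) (ZMod 2) {w : List (Bar334.NMon ι) | w.length = p + 2} :=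
      fun w hw => hb w hw
    have h2 : Koszul459.bd b ∈ Finsupp.supported (ZMod 2) (ZMod 2)
        {w : List (Bar334.NMon ι) | w.length = p + 1} := by
      refine Koszul459.map_supp Koszul459.bd ?_ this
      intro u hu
      exact Finsupp.supported_mono (fun v hv => hv.1)
        (Koszul459.bd_single_supp Finsupp.degree u (p + 1) _ hu rfl)
    exact h2 hw
  rw [X.W_eq φ hb] at h
  rw [lead_apply] at h
  have h3 := X.inc_injective (p + 2) h
  rw [lead_apply, L.ld_d, h3, X.d1_Wp hφ, ← X.W_eq φ hb2]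

theorem Ld.kun (L : Ld (X := X) Y) (hdeg : ∀ i, 1 ≤ deg i) (hφ : X.Mult φ)
    (hgr : ∀ m, φ m ∈ X.hgr (Bar334.wt1 deg m)) :
    ∀ t, (∀ s, 1 ≤ s → s < t →
      (∀ b ∈ Bar334.Wd deg 1 s, X.W φ b = 0 → b = 0) ∧
      (∀ θ : Y.Z 1, (θ : Y.T) ∈ Y.gr (1 + s) → ∃ b ∈ Bar334.Wd deg 1 s, L.lead 0 θ = X.W φ b)) →
    ∀ p q, q ≤ t + p → (∀ b ∈ Bar334.Wd deg (p + 2) q, X.W φ b = 0 → b = 0) ∧
      (∀ θ : Y.Z (p + 2), (θ : Y.T) ∈ Y.gr (p + 2 + q) →
        ∃ b ∈ Bar334.Wd deg (p + 2) q, L.lead (p + 1) θ = X.W φ b) := by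
  intro t H p q hq
  have H1 : ∀ s, 1 ≤ s → s < t → (∀ b ∈ Bar334.Wd deg 1 s, X.Wp φ 1 b = 0 → b = 0) ∧
      (∀ y ∈ X.Rgr 1 s, ∃ b ∈ Bar334.Wd deg 1 s, y = X.Wp φ 1 b) := by
    intro s h1 h2
    obtain ⟨ha, hb⟩ := H s h1 h2
    constructor
    · intro b hb' h0
      refine ha b hb' ?_
      rw [X.W_eq φ (Wd_len hb'), h0, map_zero]
    · intro y hy
      obtain ⟨θ, hθ, rfl⟩ := L.ld_onto 0 s y hy
      obtain ⟨b, hb1, hb2⟩ := hb θ (by simpa using hθ)
      refine ⟨b, hb1, ?_⟩
      rw [lead_apply, X.W_eq φ (Wd_len hb1)] at hb2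
      exact X.inc_injective 1 hb2
  obtain ⟨hA, hB⟩ := X.kun deg hdeg hφ hgr t H1 (p + 2) q (by omega)
  constructor
  · intro b hb h0
    refine hA b hb ?_
    rw [X.W_eq φ (Wd_len hb)] at h0
    apply X.inc_injective (p + 2)
    rw [map_zero]; exact h0
  · intro θ hθ
    obtain ⟨b, hb, hb2⟩ := hB (L.ld (p + 1) θ) (L.ld_gr (p + 1) q θ (by
      have : p + 1 + 1 + q = p + 2 + q := by omega
      rw [this]; exact hθ))
    refine ⟨b, hb, ?_⟩
    rw [lead_apply, hb2, X.W_eq φ (Wd_len hb)]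

end fields

/-! ## the shuffle formula -/

section shuf

variable {ι : Type} (φ : (ι →₀ ℕ) → X.H)

/-- words in `M p`, linear -/
def brW (X : BarMod) {ι : Type} (φ : (ι →₀ ℕ) → X.H) (p : ℕ) : Bar334.Bar ι →ₗ[F2] X.M p :=
  Finsupp.linearCombination F2 fun w => X.br p (w.map fun m => φ m.1)

@[simp] theorem brW_single (p : ℕ) (w : List (Bar334.NMon ι)) (r : F2) :
    X.brW φ p (single w r) = r • X.br p (w.map fun m => φ m.1) := by
  simp [brW]

theorem mk_brW (p : ℕ) (b : Bar334.Bar ι) :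
    (Submodule.Quotient.mk (X.brW φ p b) : X.R p) = X.Wp φ p b := by
  induction b using Finsupp.induction_linear with
  | zero => rw [map_zero, map_zero]; rfl
  | add f g hf hg => rw [map_add, map_add, ← hf, ← hg]; rfl
  | single w r =>
    rw [brW_single, Wp_single, ww_eq_br]; rfl

/-- leading term of `[v]' · z`, `z` with leading word `b` of length `p` -/
theorem Pr.shuf (Q : X.Pr) (p : ℕ) (v : Bar334.NMon ι) (b : Bar334.Bar ι)
    (hb : ∀ w ∈ b.support, w.length = p) :
    ∑ j : Fin (p + 1), Q.pr (p + 1) (X.br (p + 1) ((List.replicate p X.one).insertIdx j (φ v.1)))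
        (X.dgn p j (X.brW φ p b)) =
      X.brW φ (p + 1) (∑ j ∈ Finset.range (p + 1), E2_459.insL j v b) := by
  rw [map_sum, Finset.sum_range]
  refine Finset.sum_congr rfl fun j _ => ?_
  have hb' : b ∈ Finsupp.supported F2 F2 {w : List (Bar334.NMon ι) | w.length = p} :=
    fun w hw => hb w hw
  let A1 : Bar334.Bar ι →ₗ[F2] X.M (p + 1) :=
    (Q.pr (p + 1) (X.br (p + 1) ((List.replicate p X.one).insertIdx j (φ v.1)))) ∘ₗ
      (X.dgn p j) ∘ₗ (X.brW φ p)
  let A2 : Bar334.Bar ι →ₗ[F2] X.M (p + 1) := X.brW φ (p + 1) ∘ₗ E2_459.insL j v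
  refine Koszul459.eq_on_supp A1 A2 ?_ hb'
  intro w hw
  show Q.pr (p + 1) _ (X.dgn p j (X.brW φ p (single w 1))) =
    X.brW φ (p + 1) (E2_459.insL j v (single w 1))
  rw [E2_459.insL_single, brW_single, brW_single, one_smul, one_smul,
    Q.pr_unit_dgn p _ _ (by rw [List.length_map]; exact hw), E2_459.map_insertIdx']

/-- the recursion for the leading term of `Psi`: shuffling the letter `v` into `asym S` -/
theorem Pr.shuf_asym [DecidableEq ι] (Q : X.Pr) (v : ι) (S : Finset ι) (hv : v ∉ S) :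
    ∑ j : Fin (S.card + 1), Q.pr (S.card + 1)
        (X.br (S.card + 1) ((List.replicate S.card X.one).insertIdx j (φ (single v 1))))
        (X.dgn S.card j (X.brW φ S.card (Koszul459.asym S))) =
      X.brW φ (S.card + 1) (Koszul459.asym (insert v S)) := by
  have h := Q.shuf φ S.card (Koszul459.lt v) (Koszul459.asym S)
    (fun w hw => (Koszul459.asym_supp Finsupp.degree S hw).1)
  rw [E2_459.asym_insert v S hv, ← h]
  rfl

end shuf

end Crest.Agent.R204.E1_459.BarMod
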