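import Crest.Agent.R204.BarOf_170
import Crest.Agent.R204.E2_459

/-!
# Row 204, block B: the constructor `PFib.barData : BarData (FCof (cech X.π)) …` (helper170)
-/

set_option autoImplicit false

namespace Crest.Agent.R204.Bar170

open Crest.Agent.R204 Crest.Agent.R204.Bis343 Crest.Agent.R204.SingAct265 Crest.Agent.R204.Coalg847
open Crest.Agent.R204.E1_459
open TensorProduct

namespace PFib

variable (X : PFib) (hi : SpecA.HomotopyInv) (Z : EZData)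
  (conn : ∀ x ∈ H.gr F2 X.G 0, ∃ r : F2, x = r • vtx X.e)

/-- the leading term with values in `E¹` of `barMod` -/
noncomputable def ld1 (p : ℕ) :
    ↥((BSS.FCof (cech X.π)).Z (p + 1)) →ₗ[F2] (X.barMod hi Z conn).R (p + 1) :=
  BSS.lead (cech X.π) (p + 1)

theorem lead_mem_Rgr (p q : ℕ) (θ : (BSS.FCof (cech X.π)).Z (p + 1))
    (h : (θ : (cech X.π).Tot) ∈ (cech X.π).grT (p + 1 + q)) :
    X.ld1 hi Z conn p θ ∈ (X.barMod hi Z conn).Rgr (p + 1) q := by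
  refine ⟨BSS.leadH (cech X.π) (p + 1) θ, ?_, rfl⟩
  rw [BSS.leadH_apply]
  exact Gr334.mk_mem_gr (BSS.comp_gr h) _

theorem ld1_onto (p q : ℕ) (y : (X.barMod hi Z conn).R (p + 1))
    (hy : y ∈ (X.barMod hi Z conn).Rgr (p + 1) q) :
    ∃ θ : (BSS.FCof (cech X.π)).Z (p + 1), (θ : (cech X.π).Tot) ∈ (cech X.π).grT (p + 1 + q) ∧
      X.ld1 hi Z conn p θ = y := by
  obtain ⟨x, hx, rfl⟩ := hy
  obtain ⟨z, hz, hb, rfl⟩ := Gr334.mem_H_gr.1 hx
  exact ⟨⟨BSS.Tot.ofCol _ (p + 1) z, BSS.ofCol_mem_Z hb⟩, BSS.ofCol_mem_grT hz,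
    BSS.lead_ofCol z hb (BSS.ofCol_mem_Z hb)⟩

/-- 459's package of leading terms -/
noncomputable def Ld : BarMod.Ld (X := X.barMod hi Z conn) (BSS.FCof (cech X.π)) where
  ld p := X.ld1 hi Z conn p
  ld_gr p q θ h := X.lead_mem_Rgr hi Z conn p q θ h
  ld_onto p q y hy := X.ld1_onto hi Z conn p q y hy
  ld_d p θ h := by
    have h1 := BSS.lead_D (E := cech X.π) (p := p + 1) θ h
    refine h1.trans ?_
    obtain ⟨y, hy⟩ := Submodule.Quotient.mk_surjective _ (BSS.lead (cech X.π) (p + 1 + 1) θ)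
    show BSS.dE1 (cech X.π) (p + 1) (BSS.lead (cech X.π) (p + 1 + 1) θ) =
      (X.barMod hi Z conn).d1 (p + 1) (BSS.lead (cech X.π) (p + 1 + 1) θ)
    rw [← hy, BSS.dE1_mk]
    refine Eq.trans ?_ ((X.barMod hi Z conn).d1_mk (p + 1) y).symm
    congr 1
    exact (LinearMap.sum_apply _ _ _).symm

/-- `F_0` is acyclic in positive degrees -/
theorem zero_acyc (Z : EZData) (n : ℕ) (θ : (cech X.π).Tot)
    (hθ : θ ∈ (cech X.π).Fp 0 ⊓ (cech X.π).grT (n + 1)) (hd : BSS.Tot.D (cech X.π) θ = 0) :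
    ∃ x ∈ (cech X.π).Fp 0 ⊓ (cech X.π).grT (n + 2), BSS.Tot.D (cech X.π) x = θ := by
  obtain ⟨h0, h1⟩ := hθ
  have hZ : θ ∈ (BSS.FCof (cech X.π)).Z 0 := BSS.mem_Z.2 ⟨h0, by rw [hd]; exact Submodule.zero_mem _⟩
  have hb : N.bd F2 _ (BSS.comp (cech X.π) 0 θ) = 0 := BSS.bd_comp_Z hZ
  have h1' : θ ∈ (cech X.π).grT (0 + (n + 1)) := by rw [Nat.zero_add]; exact h1
  have hg := BSS.comp_gr (E := cech X.π) (p := 0) (q := n + 1) h1'
  have hm : Hd.mk (N.bd F2 _) (BSS.comp (cech X.π) 0 θ) hb ∈ H.gr F2 ((cech X.π).col 0) (n + 1) :=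
    Gr334.mk_mem_gr hg hb
  have h2 := X.E0_eq' Z (Hd.mk (N.bd F2 _) (BSS.comp (cech X.π) 0 θ) hb)
  rw [eps_gr (Nat.succ_ne_zero n) hm, zero_smul, Hd.mk_eq_zero] at h2
  obtain ⟨y, hy⟩ := h2
  have hy' : N.bd F2 _ (Gr334.prN F2 _ (n + 2) y) = BSS.comp (cech X.π) 0 θ := by
    rw [← Gr334.prN_bd, hy]
    exact Gr334.prN_of_mem hg
  refine ⟨BSS.Tot.ofCol _ 0 (Gr334.prN F2 _ (n + 2) y), ⟨BSS.ofCol_mem_Fp _ _, ?_⟩, ?_⟩
  · have := BSS.ofCol_mem_grT (E := cech X.π) (p := 0) (Gr334.prN_mem (R := F2) (n + 2) y)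
    rwa [Nat.zero_add] at this
  · rw [BSS.Tot.D_apply, BSS.dH_Fp_zero (BSS.ofCol_mem_Fp 0 _), zero_add, BSS.Tot.dV_ofCol, hy']
    exact BSS.ofCol_comp_zero h0

variable {ι : Type} (deg : ι → ℕ) (φ : (ι →₀ ℕ) → H F2 X.G)

variable {φ} in
/-- `Mult` from multiplicativity and degrees -/
theorem mult_of (hdeg : ∀ i, 1 ≤ deg i) (h0 : φ 0 = vtx X.e)
    (hadd : ∀ a b, X.mulH Z (φ a) (φ b) = φ (a + b))
    (hgr : ∀ m, φ m ∈ H.gr F2 X.G (Bar334.wt1 deg m)) : (X.barMod hi Z conn).Mult φ where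
  zero := h0
  add a b := hadd a b
  eps m hm := by
    have h1 : 1 ≤ Bar334.wt1 deg m := BarMod.length_le_wt deg hdeg ⟨m, hm⟩
    exact eps_gr (by omega) (hgr m)

/-- **the constructor** -/
noncomputable def barData (hdeg : ∀ i, 1 ≤ deg i) (hφ : (X.barMod hi Z conn).Mult φ)
    (hgr : ∀ m, φ m ∈ H.gr F2 X.G (Bar334.wt1 deg m))
    (Psi : Finset ι → (cech X.π).Tot) (Psi_d : ∀ S, BSS.Tot.D (cech X.π) (Psi S) = 0)
    (Psi_F : ∀ S, Psi S ∈ (cech X.π).Fp S.card)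
    (Psi_gr : ∀ S, Psi S ∈ (cech X.π).grT (Bar334.degS deg S))
    (Psi_lead : ∀ p (S : Finset ι) (_ : S.card = p + 1)
      (h : Psi S ∈ (BSS.FCof (cech X.π)).Z (p + 1)),
      BSS.lead (cech X.π) (p + 1) ⟨Psi S, h⟩ =
        (X.barMod hi Z conn).Wp φ (p + 1) (Koszul459.asym S)) :
    Bar334.BarData (BSS.FCof (cech X.π)) deg Koszul459.bd Koszul459.asym where
  E := (X.barMod hi Z conn).EE
  deg_pos := hdeg
  lead p := (X.Ld hi Z conn).lead p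
  lead_low p θ h := by
    rw [BarMod.Ld.lead_eq_zero]
    exact BSS.lead_low θ h
  lead_bd p θ h := by
    rw [BarMod.Ld.lead_eq_zero]
    exact BSS.lead_bd θ h
  lead_ker p n θ h h' := by
    rw [BarMod.Ld.lead_eq_zero] at h'
    exact BSS.lead_ker θ h h'
  zero n θ hθ hd := X.zero_acyc Z n θ hθ hd
  W := (X.barMod hi Z conn).W φ
  lift p w hw := (X.Ld hi Z conn).lift hgr p w hw
  dW p θ b hb h h' := (X.Ld hi Z conn).dW hφ p θ b hb h h'
  kun := (X.Ld hi Z conn).kun hdeg hφ hgr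
  Psi := Psi
  Psi_d := Psi_d
  Psi_F := Psi_F
  Psi_gr := Psi_gr
  Psi_lead p S hS h := by
    have hw : ∀ w ∈ (Koszul459.asym S).support, w.length = p + 1 := fun w hw => by
      have := (Koszul459.asym_supp Finsupp.degree S hw).1
      rw [this, hS]
    have h1 := (X.barMod hi Z conn).W_eq φ hw
    exact (congrArg ((X.barMod hi Z conn).inc (p + 1)) (Psi_lead p S hS h)).trans h1.symm

end PFib

/-- 459's levelwise product from `PMul` -/
noncomputable def PMul.pr {X : PFib} (μ : PMul X) (hi : SpecA.HomotopyInv) (Z : EZData)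
    (conn : ∀ x ∈ H.gr F2 X.G 0, ∃ r : F2, x = r • vtx X.e) : (X.barMod hi Z conn).Pr where
  mg := TensorProduct.curry ((H.map F2 μ.MG) ∘ₗ (Z.cr X.G X.G).toLinearMap)
  pr p := TensorProduct.curry ((H.map F2 (μ.ME p)) ∘ₗ (Z.cr (X.E p) (X.E p)).toLinearMap)
  one_mg a := μ.mG_one_left Z a
  mg_one a := μ.mG_one_right Z a
  pr_pt := μ.mE_br Z 0 Fin.elim0 Fin.elim0
  pr_al p a b x y := μ.mE_alpha Z p a b x y

end Crest.Agent.R204.Bar170
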