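import Crest.Agent.R204.BrE_170

/-!
# Row 204, block B, leaf P2: faces, degeneracies, levelwise product on brackets (helper170)
-/

set_option autoImplicit false

namespace Crest.Agent.R204.Bar170

open Crest.Agent.R204 Crest.Agent.R204.Bis343 Crest.Agent.R204.SingAct265 Crest.Agent.R204.Coalg847
open TensorProduct

namespace PFib

variable (X : PFib) (hi : SpecA.HomotopyInv) (Z : EZData)

/-- product of `H G` -/
noncomputable def mulH (a b : H F2 X.G) : H F2 X.G := H.map F2 X.mul (Z.cr X.G X.G (a ⊗ₜ b))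

/-- face operators on homology -/
noncomputable def fa (p : ℕ) (i : Fin (p + 2)) : H F2 (X.E (p + 1)) →ₗ[F2] H F2 (X.E p) :=
  H.map F2 ((cech X.π).colMap (Op.face i))

/-- degeneracy operators on homology -/
noncomputable def dg (p : ℕ) (i : Fin (p + 1)) : H F2 (X.E p) →ₗ[F2] H F2 (X.E (p + 1)) :=
  H.map F2 ((cech X.π).colMap (Op.dgn i))

theorem fa_zero_br (p : ℕ) (a : Fin (p + 1) → H F2 X.G) :
    X.fa p 0 (X.br Z (p + 1) a) = eps _ (a 0) • X.br Z p (Fin.tail a) := by
  rw [br_succ, fa, map_comp']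
  have : ((cech X.π).colMap (Op.face 0)).comp (X.alpha p) = SS.snd X.G (X.E p) :=
    SS.Hom.ext (funext fun q => funext fun x => X.face_zero_alpha p q x.1 x.2)
  rw [this, Z.snd_cr]

theorem fa_succ_alpha (p : ℕ) (i : Fin (p + 1)) (x : H F2 X.G) (y : H F2 (X.E (p + 1))) :
    X.fa (p + 1) i.succ.succ (H.map F2 (X.alpha (p + 1)) (Z.cr _ _ (x ⊗ₜ y))) =
      H.map F2 (X.alpha p) (Z.cr _ _ (x ⊗ₜ X.fa p i.succ y)) := by
  rw [fa, map_comp', fa]
  have e : ((cech X.π).colMap (Op.face i.succ.succ)).comp (X.alpha (p + 1)) =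
      (X.alpha p).comp (SS.prodMap (SS.Hom.id X.G) ((cech X.π).colMap (Op.face i.succ))) :=
    SS.Hom.ext (funext fun q => funext fun x => X.face_succ_alpha p q i x.1 x.2)
  rw [e, hMap_comp, Z.cr_nat, hMap_id]

/-- the two ways around (H3) -/
def al3l (p : ℕ) : SS.Hom (X.G.prod (X.G.prod (X.E p))) (X.E (p + 1)) :=
  consE X.π ((SS.snd X.G (X.E p)).comp (SS.snd X.G (X.G.prod (X.E p))))
    ((X.cat.comp (SS.prodMap (SS.Hom.id X.G) X.cat)).comp
      (SS.prodMap (SS.Hom.id X.G) (SS.prodMap (SS.Hom.id X.G) (evc X.π p 0))))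
    (fun q x => (X.π_cat q _ _).trans (X.π_cat q _ _))

include hi in
theorem fa_one_alpha (p : ℕ) (x y : H F2 X.G) (z : H F2 (X.E p)) :
    X.fa (p + 1) 1 (H.map F2 (X.alpha (p + 1))
      (Z.cr _ _ (x ⊗ₜ (H.map F2 (X.alpha p) (Z.cr _ _ (y ⊗ₜ z)))))) =
      H.map F2 (X.alpha p) (Z.cr _ _ (X.mulH Z x y ⊗ₜ z)) := by
  -- left hand side
  have l1 : H.map F2 (X.alpha (p + 1)) (Z.cr _ _ (x ⊗ₜ (H.map F2 (X.alpha p) (Z.cr _ _ (y ⊗ₜ z))))) =
      H.map F2 ((X.alpha (p + 1)).comp (SS.prodMap (SS.Hom.id X.G) (X.alpha p)))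
        (Z.cr _ _ (x ⊗ₜ Z.cr _ _ (y ⊗ₜ z))) := by
    rw [hMap_comp, Z.cr_nat, hMap_id]
  have e1 : ((cech X.π).colMap (Op.face 1)).comp ((X.alpha (p + 1)).comp
      (SS.prodMap (SS.Hom.id X.G) (X.alpha p))) = X.al3l p := by
    refine SS.Hom.ext (funext fun q => funext fun x => ?_)
    refine E_ext fun i => ?_
    refine Fin.cases ?_ (fun i => ?_) i
    · rfl
    · show (((X.alpha (p + 1)).app q (x.1, (X.alpha p).app q x.2)) : (cech X.π).S (p + 2) q).1
        (Op.face (Fin.succ 0) i.succ) = x.2.2.1 i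
      rw [Cech.face_succ_succ, alpha_succ, Cech.face_zero_val]
      rfl
  have h := consHtpy ((SS.snd X.G (X.E p)).comp (SS.snd X.G (X.G.prod (X.E p))))
    (X.h3.pre (SS.prodMap (SS.Hom.id X.G) (SS.prodMap (SS.Hom.id X.G) (evc X.π p 0))))
    (fun q x => (X.π_cat q _ _).trans (X.π_cat q _ _)) (fun q x => X.π_cat q _ _)
  have e2 : consE X.π ((SS.snd X.G (X.E p)).comp (SS.snd X.G (X.G.prod (X.E p))))
      ((X.cat.comp (SS.pair (X.mul.comp (SS.pair (SS.fst X.G (X.G.prod X.P))
        ((SS.fst X.G X.P).comp (SS.snd X.G (X.G.prod X.P)))))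
        ((SS.snd X.G X.P).comp (SS.snd X.G (X.G.prod X.P))))).comp
        (SS.prodMap (SS.Hom.id X.G) (SS.prodMap (SS.Hom.id X.G) (evc X.π p 0))))
      (fun q x => X.π_cat q _ _) =
      (X.alpha p).comp ((SS.prodMap X.mul (SS.Hom.id (X.E p))).comp (cas X.G X.G (X.E p))) := by
    refine SS.Hom.ext (funext fun q => funext fun x => ?_)
    refine E_ext fun i => ?_
    refine Fin.cases ?_ (fun i => ?_) i
    · rfl
    · rfl
  have hc : H.map F2 (cas X.G X.G (X.E p)) (Z.cr _ _ (x ⊗ₜ Z.cr _ _ (y ⊗ₜ z))) =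
      Z.cr _ _ (Z.cr _ _ (x ⊗ₜ y) ⊗ₜ z) := by
    rw [← Z.cr_assoc, map_comp']
    exact hMap_id _
  rw [l1, fa, map_comp', e1]
  rw [show X.al3l p = _ from rfl]
  rw [al3l, map_eq_of_htpy hi h, e2, hMap_comp, hMap_comp, hc, Z.cr_nat, hMap_id]
  rfl

theorem contractNth_tail {α : Type} (op : α → α → α) (p : ℕ) (j : Fin p) (a : Fin (p + 2) → α) :
    Fin.contractNth j.castSucc op (Fin.tail a) = Fin.tail (Fin.contractNth j.succ.castSucc op a) := by
  funext k
  simp only [Fin.contractNth, Fin.tail, Fin.val_castSucc, Fin.val_succ, Nat.add_lt_add_iff_right,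
    Nat.add_right_cancel_iff]
  rfl

include hi in
/-- inner faces multiply adjacent letters -/
theorem fa_mid_br (p : ℕ) (j : Fin p) (a : Fin (p + 1) → H F2 X.G) :
    X.fa p j.castSucc.succ (X.br Z (p + 1) a) =
      X.br Z p (Fin.contractNth j.castSucc (X.mulH Z) a) := by
  induction p with
  | zero => exact j.elim0
  | succ p ih =>
    refine Fin.cases ?_ (fun j => ?_) j
    · rw [br_succ, br_succ]
      have : ((Fin.castSucc (0 : Fin (p + 1))).succ : Fin (p + 3)) = 1 := rfl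
      rw [this, X.fa_one_alpha hi Z, br_succ]
      congr 4
    · have e : (j.succ.castSucc.succ : Fin (p + 3)) = j.castSucc.succ.succ := rfl
      rw [br_succ, e, X.fa_succ_alpha, ih, br_succ, contractNth_tail]
      rfl

/-- the last face drops the last letter -/
theorem fa_last_br (p : ℕ) (a : Fin (p + 1) → H F2 X.G) :
    X.fa p (Fin.last (p + 1)) (X.br Z (p + 1) a) = eps _ (a (Fin.last p)) • X.br Z p (Fin.init a) := by
  induction p with
  | zero =>
    rw [X.E0_eq Z (X.fa 0 (Fin.last 1) (X.br Z 1 a)) (Fin.init a), fa, eps_map, eps_br]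
    simp
  | succ p ih =>
    have e : Fin.last (p + 2) = (Fin.last p).succ.succ := rfl
    rw [br_succ, e, X.fa_succ_alpha]
    have e' : (Fin.last p).succ = Fin.last (p + 1) := rfl
    rw [e', ih, br_succ]
    simp only [TensorProduct.tmul_smul, map_smul]
    rfl

/-! ## degeneracies -/

theorem dg_succ_alpha (p : ℕ) (i : Fin (p + 1)) (x : H F2 X.G) (y : H F2 (X.E p)) :
    X.dg (p + 1) i.succ (H.map F2 (X.alpha p) (Z.cr _ _ (x ⊗ₜ y))) =
      H.map F2 (X.alpha (p + 1)) (Z.cr _ _ (x ⊗ₜ X.dg p i y)) := by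
  rw [dg, map_comp', dg]
  have e : ((cech X.π).colMap (Op.dgn i.succ)).comp (X.alpha p) =
      (X.alpha (p + 1)).comp (SS.prodMap (SS.Hom.id X.G) ((cech X.π).colMap (Op.dgn i))) :=
    SS.Hom.ext (funext fun q => funext fun x => X.dgn_succ_alpha p q i x.1 x.2)
  rw [e, hMap_comp, Z.cr_nat, hMap_id]

include hi in
theorem dg_zero (p : ℕ) (y : H F2 (X.E p)) :
    X.dg p 0 y = H.map F2 (X.alpha p) (Z.cr _ _ (vtx X.e ⊗ₜ y)) := by
  rw [Z.cr_vtx_left, map_comp']
  have h := consHtpy (SS.Hom.id (X.E p)) (X.h4.pre (evc X.π p 0))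
    (fun q x => X.π_cat q _ _) (fun q x => rfl)
  have e1 : (X.alpha p).comp (SS.pair (SS.constHom (X.E p) X.G X.e) (SS.Hom.id (X.E p))) =
      consE X.π (SS.Hom.id (X.E p)) ((X.cat.comp (SS.pair (cmap X.P X.e) (SS.Hom.id X.P))).comp
        (evc X.π p 0)) (fun q x => X.π_cat q _ _) := by
    refine SS.Hom.ext (funext fun q => funext fun x => ?_)
    refine E_ext fun i => ?_
    refine Fin.cases ?_ (fun i => ?_) i
    · rfl
    · rfl
  have e2 : (cech X.π).colMap (Op.dgn 0) =
      consE X.π (SS.Hom.id (X.E p)) ((SS.Hom.id X.P).comp (evc X.π p 0)) (fun q x => rfl) := by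
    refine SS.Hom.ext (funext fun q => funext fun x => ?_)
    refine E_ext fun i => ?_
    refine Fin.cases ?_ (fun i => ?_) i
    · show x.1 (Op.dgn 0 0) = x.1 0
      congr 1
    · show x.1 (Op.dgn 0 i.succ) = x.1 i
      congr 1
  rw [dg, e1, e2, map_eq_of_htpy hi h]

include hi in
/-- degeneracies insert the unit -/
theorem dg_br (p : ℕ) (i : Fin (p + 1)) (a : Fin p → H F2 X.G) :
    X.dg p i (X.br Z p a) = X.br Z (p + 1) (Fin.insertNth (α := fun _ => H F2 X.G) i (vtx X.e) a) := by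
  induction p with
  | zero =>
    have : i = 0 := Fin.ext (by omega)
    subst this
    rw [X.dg_zero hi Z, Fin.insertNth_zero', br_cons]
  | succ p ih =>
    refine Fin.cases ?_ (fun i => ?_) i
    · rw [X.dg_zero hi Z, Fin.insertNth_zero', br_cons]
    · rw [br_succ, X.dg_succ_alpha, ih, ← br_cons]
      conv_rhs => rw [← Fin.cons_self_tail a, Fin.insertNth_succ_cons]

/-- `p` times the unit -/
theorem br_one_cons (p : ℕ) (y : H F2 X.G) :
    X.br Z (p + 1) (Fin.cons y fun _ => vtx X.e) =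
      H.map F2 (X.alpha p) (Z.cr _ _ (y ⊗ₜ X.br Z p fun _ => vtx X.e)) := br_cons ..

end PFib

/-! ## the levelwise product -/

namespace PMul
variable {X : PFib} (Y : PMul X) (hi : SpecA.HomotopyInv) (Z : EZData)

/-- levelwise product on `E_p` -/
def ME (p : ℕ) : SS.Hom ((X.E p).prod (X.E p)) (X.E p) where
  app q x := ⟨fun i => Y.M.app q (x.1.1 i, x.2.1 i), fun i j => by
    rw [Y.π_M, Y.π_M, x.1.2 i j, x.2.2 i j]⟩
  nat g x := by
    refine E_ext fun i => ?_
    exact Y.M.nat g (x.1.1 i, x.2.1 i)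

@[simp] theorem ME_val (p q : ℕ) (x : ((X.E p).prod (X.E p)).S q) (i : Fin (p + 1)) :
    ((Y.ME p).app q x).1 i = Y.M.app q (x.1.1 i, x.2.1 i) := rfl

/-- product of homology classes of `E_p` -/
noncomputable def mE (p : ℕ) (x y : H F2 (X.E p)) : H F2 (X.E p) :=
  H.map F2 (Y.ME p) (Z.cr _ _ (x ⊗ₜ y))

/-- pointwise product on `H G` -/
noncomputable def mG (a b : H F2 X.G) : H F2 X.G := H.map F2 Y.MG (Z.cr _ _ (a ⊗ₜ b))

theorem eps_mG (a b : H F2 X.G) : eps _ (Y.mG Z a b) = eps _ a * eps _ b := by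
  rw [mG, eps_map, Z.eps_cr]

theorem eps_mE (p : ℕ) (a b : H F2 (X.E p)) : eps _ (Y.mE Z p a b) = eps _ a * eps _ b := by
  rw [mE, eps_map, Z.eps_cr]

theorem mE_alpha (p : ℕ) (a b : H F2 X.G) (x y : H F2 (X.E p)) :
    Y.mE Z (p + 1) (H.map F2 (X.alpha p) (Z.cr _ _ (a ⊗ₜ x))) (H.map F2 (X.alpha p) (Z.cr _ _ (b ⊗ₜ y))) =
      H.map F2 (X.alpha p) (Z.cr _ _ (Y.mG Z a b ⊗ₜ Y.mE Z p x y)) := by
  rw [mE, ← Z.cr_nat, map_comp']
  have e : (Y.ME (p + 1)).comp (SS.prodMap (X.alpha p) (X.alpha p)) =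
      ((X.alpha p).comp (SS.prodMap Y.MG (Y.ME p))).comp (mid X.G (X.E p) X.G (X.E p)) := by
    refine SS.Hom.ext (funext fun q => funext fun x => ?_)
    refine E_ext fun i => ?_
    refine Fin.cases ?_ (fun i => ?_) i
    · exact Y.cat_M q _ _ _ _
    · rfl
  rw [e, hMap_comp, hMap_comp, Z.cr_mid, Z.cr_nat]
  rfl

/-- **levelwise product of brackets** -/
theorem mE_br (p : ℕ) (a b : Fin p → H F2 X.G) :
    Y.mE Z p (X.br Z p a) (X.br Z p b) = X.br Z p (fun i => Y.mG Z (a i) (b i)) := by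
  induction p with
  | zero =>
    rw [X.E0_eq Z (Y.mE Z 0 (X.br Z 0 a) (X.br Z 0 b)) (fun i => Y.mG Z (a i) (b i)), eps_mE,
      X.eps_br, X.eps_br]
    simp
  | succ p ih =>
    rw [X.br_succ, X.br_succ, mE_alpha, ih, X.br_succ]
    rfl

theorem mG_one_left (a : H F2 X.G) : Y.mG Z (vtx X.e) a = a := by
  rw [mG, Z.cr_vtx_left, map_comp']; exact Y.unit_l a

theorem mG_one_right (a : H F2 X.G) : Y.mG Z a (vtx X.e) = a := by
  rw [mG, Z.cr_vtx_right, map_comp']; exact Y.unit_r a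

end PMul

/-! ## step operators -/

/-- the step function `[p+1] → [1]`: `0` on `≤ i`, `1` on `> i` -/
def step (p : ℕ) (i : Fin (p + 1)) : Op (p + 1) 1 where
  toFun a := if a ≤ i.castSucc then 0 else 1
  monotone' a b h := by
    dsimp only
    split_ifs with h1 h2 h2
    · exact le_rfl
    · exact Fin.zero_le _
    · exact absurd (h.trans h2) h1
    · exact le_rfl

namespace PFib
variable (X : PFib) (hi : SpecA.HomotopyInv) (Z : EZData)

/-- constant operators `[p] → [0]` -/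
def cop0 (p : ℕ) : Op p 0 := ⟨fun _ => 0, fun _ _ _ => le_rfl⟩

theorem cop0_succ (p : ℕ) : cop0 (p + 1) = (cop0 p).comp (Op.dgn 0) := rfl

theorem step_zero_comp (p : ℕ) (i : Fin (p + 1)) : step (p + 1) i.succ = (step p i).comp (Op.dgn 0) := by
  refine OrderHom.ext _ _ (funext fun a => ?_)
  show (if a ≤ i.succ.castSucc then (0 : Fin 2) else 1) = if Op.dgn 0 a ≤ i.castSucc then 0 else 1
  refine if_congr ?_ rfl rfl
  have h1 : ((Op.dgn (0 : Fin (p + 2)) a : Fin (p + 2)) : ℕ) = (a : ℕ) - 1 := by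
    rw [Ch.dgn_val]
    have h0 : ((0 : Fin (p + 2)) : ℕ) = 0 := rfl
    rw [h0]
    split_ifs with h <;> omega
  rw [Fin.le_def, Fin.le_def, h1]
  simp only [Fin.val_castSucc, Fin.val_succ]
  omega

include hi in
theorem cop0_br (p : ℕ) (a : Fin 0 → H F2 X.G) :
    H.map F2 ((cech X.π).colMap (cop0 p)) (X.br Z 0 a) = X.br Z p (fun _ => vtx X.e) := by
  induction p with
  | zero =>
    have : (cech X.π).colMap (cop0 0) = SS.Hom.id _ := by
      refine SS.Hom.ext (funext fun q => funext fun x => ?_)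
      refine E_ext fun i => ?_
      have : i = 0 := Fin.ext (by omega)
      subst this
      rfl
    rw [this, hMap_id]
    rfl
  | succ p ih =>
    have e : (cech X.π).colMap (cop0 (p + 1)) =
        ((cech X.π).colMap (Op.dgn 0)).comp ((cech X.π).colMap (cop0 p)) := rfl
    rw [e, hMap_comp, ih]
    have := X.dg_br hi Z p 0 (fun _ => vtx X.e)
    rw [dg] at this
    rw [this, Fin.insertNth_zero']
    congr 1
    funext i
    refine Fin.cases ?_ (fun i => ?_) i <;> rfl

include hi in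
theorem step_br (p : ℕ) (i : Fin (p + 1)) (a : Fin 1 → H F2 X.G) :
    H.map F2 ((cech X.π).colMap (step p i)) (X.br Z 1 a) =
      X.br Z (p + 1) (Fin.insertNth (α := fun _ => H F2 X.G) i (a 0) (fun _ => vtx X.e)) := by
  induction p with
  | zero =>
    have : i = 0 := Fin.ext (by omega)
    subst this
    have : (cech X.π).colMap (step 0 0) = SS.Hom.id _ := by
      refine SS.Hom.ext (funext fun q => funext fun x => ?_)
      refine E_ext fun i => ?_
      show x.1 (step 0 0 i) = x.1 i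
      congr 1
      fin_cases i <;> rfl
    rw [this, hMap_id]
    refine congrArg (X.br Z 1) ?_
    funext i
    have : i = 0 := Fin.ext (by omega)
    subst this
    rfl
  | succ p ih =>
    refine Fin.cases ?_ (fun i => ?_) i
    · rw [X.br_succ, map_comp']
      have e : ((cech X.π).colMap (step (p + 1) 0)).comp (X.alpha 0) =
          (X.alpha (p + 1)).comp (SS.prodMap (SS.Hom.id X.G) ((cech X.π).colMap (cop0 (p + 1)))) := by
        refine SS.Hom.ext (funext fun q => funext fun x => ?_)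
        refine E_ext fun i => ?_
        refine Fin.cases ?_ (fun i => ?_) i
        · rfl
        · show (((X.alpha 0).app q (x.1, x.2)) : (cech X.π).S 1 q).1 (step (p + 1) 0 i.succ) = _
          have : step (p + 1) 0 i.succ = (0 : Fin 1).succ := by
            show (if i.succ ≤ (0 : Fin (p + 2)).castSucc then (0 : Fin 2) else 1) = 1
            rw [if_neg]
            simp
          rw [this, X.alpha_succ]
          rfl
      rw [e, hMap_comp, Z.cr_nat, hMap_id, X.cop0_br hi Z, Fin.insertNth_zero', X.br_cons]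
    · have e : (cech X.π).colMap (step (p + 1) i.succ) =
          ((cech X.π).colMap (Op.dgn 0)).comp ((cech X.π).colMap (step p i)) := by
        rw [step_zero_comp]; rfl
      rw [e, hMap_comp, ih]
      have := X.dg_br hi Z (p + 1) 0 (Fin.insertNth (α := fun _ => H F2 X.G) i (a 0) (fun _ => vtx X.e))
      rw [dg] at this
      rw [this, Fin.insertNth_zero']
      have h2 : (fun _ => vtx X.e : Fin (p + 1) → H F2 X.G) =
          Fin.cons (vtx X.e) (fun _ => vtx X.e) := by
        funext i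
        refine Fin.cases ?_ (fun i => ?_) i <;> rfl
      rw [h2, Fin.insertNth_succ_cons]

end PFib

namespace PMul
variable {X : PFib} (Y : PMul X) (hi : SpecA.HomotopyInv) (Z : EZData)

include hi in
/-- **one shuffle**: `(step_i)^* [v] · (s_i)^* [a_1|…|a_p] = [a_1|…|v|…|a_p]`, `v` inserted at `i`. -/
theorem shuffle_br (p : ℕ) (i : Fin (p + 1)) (v : H F2 X.G) (a : Fin p → H F2 X.G) :
    Y.mE Z (p + 1) (H.map F2 ((cech X.π).colMap (step p i)) (X.br Z 1 fun _ => v))
      (X.dg p i (X.br Z p a)) =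
      X.br Z (p + 1) (Fin.insertNth (α := fun _ => H F2 X.G) i v a) := by
  rw [X.step_br hi Z, X.dg_br hi Z, mE_br]
  congr 1
  funext j
  refine Fin.succAboveCases i ?_ (fun j => ?_) j
  · simp only [Fin.insertNth_apply_same, mG_one_right]
  · simp only [Fin.insertNth_apply_succAbove, mG_one_left]

end PMul

end Crest.Agent.R204.Bar170
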