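import Crest.Agent.R204.Ind2_979

/-!
# Row 204, leaf B7: the step `k = 0` (base component of `Ω^n S^n`)
owner helper979

`Cover0 X D` = what the covering step (B5) + the range loop theorem for `(B̃, G_0)` have to provide:
an algebra `C = H(B̃)` with an algebra map `π : C → H(X_1)` injective in the range with image in the span of
the monomials with even exponent of `x_1`, a suspension `s : H(X_0) → C` with `π ∘ s = σ` on the base
component, and the loop theorem `SimR → PolyR`.
-/

set_option autoImplicit false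
set_option linter.unusedSectionVars false

namespace Crest.Agent.R204.Ind979

open Crest.Agent.R204.Spec114 Crest.Agent.R204.Spec114.Tower

section general

variable {H : Type*} [CommRing H] [Algebra F2 H]

/-- restriction of a range basis to a subset of the index set -/
theorem RB.restrict {gr : ℕ → Submodule F2 H} {β : Type*} {e : β → H} {deg : β → ℕ} {N : ℕ}
    (h : RB gr e deg N) (P : β → Prop) :
    RB (fun t => Submodule.span F2 (e '' {b | deg b = t ∧ P b})) (fun b : {b // P b} => e b)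
      (fun b => deg b) N := by
  refine ⟨fun t ht => ?_, fun t _ => Submodule.span_mono ?_⟩
  · refine (h.1 t ht).comp (fun b : {b : {b // P b} // deg b = t} => (⟨b.1.1, b.2⟩ : {b : β // deg b = t})) ?_
    intro b b' hbb
    simp only [Subtype.mk.injEq] at hbb
    exact Subtype.ext (Subtype.ext hbb)
  · rintro _ ⟨b, ⟨hb, hP⟩, rfl⟩
    exact ⟨⟨b, hP⟩, hb, rfl⟩

theorem RB.mono_gr {gr gr' : ℕ → Submodule F2 H} {β : Type*} {e : β → H} {deg : β → ℕ} {N : ℕ}
    (h : RB gr e deg N) (hg : ∀ t ≤ N + 1, gr' t ≤ gr t) : RB gr' e deg N :=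
  ⟨h.1, fun t ht => (hg t ht).trans (h.2 t ht)⟩

/-- parity of the exponent of `i₀` -/
theorem even_toM {ι : Type*} (S : Finset (ι × ℕ)) (i₀ : ι) : Even (toM S i₀) ↔ (i₀, 0) ∉ S := by
  classical
  rw [toM_apply]
  set B := (S.filter (fun k => k.1 = i₀)).image Prod.snd with hB
  have h0 : (i₀, 0) ∈ S ↔ 0 ∈ B := by
    rw [hB]
    simp only [Finset.mem_image, Finset.mem_filter]
    constructor
    · intro h; exact ⟨(i₀, 0), ⟨h, rfl⟩, rfl⟩
    · rintro ⟨⟨i, b⟩, ⟨h1, h2⟩, h3⟩
      change i = i₀ at h2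
      change b = 0 at h3
      rw [← h2, ← h3]; exact h1
  rw [h0]
  have he : ∀ T : Finset ℕ, 0 ∉ T → Even (∑ b ∈ T, 2 ^ b) := fun T hT => by
    refine Finset.sum_induction _ Even (fun a b ha hb => ha.add hb) Even.zero fun b hb => ?_
    refine (even_two).pow_of_ne_zero ?_
    rintro rfl
    exact hT hb
  constructor
  · intro h hm
    rw [← Finset.add_sum_erase B (fun b => 2 ^ b) hm, pow_zero] at h
    have := he (B.erase 0) (Finset.notMem_erase _ _)
    exact (Nat.not_even_iff_odd.2 (this.one_add)) h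
  · exact he B

/-- **the even part**: the simple system without `(i₀, 0)` is a simple system for the span of the monomials
with even exponent of `y i₀`. -/
theorem simR_even {gr : ℕ → Submodule F2 H} {ι : Type*} {y : ι → H} {d : ι → ℕ} {N : ℕ} (i₀ : ι)
    (h : PolyR gr y d N) :
    SimR (fun t => Submodule.span F2 (mval y '' {m | mdeg d m = t ∧ Even (m i₀)}))
      (fun p : {p : ι × ℕ // p ≠ (i₀, 0)} => dbl y p) (fun p => dbd d p) N := by
  classical
  have h1 := RB.restrict h (fun m => Even (m i₀))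
  refine (RB.reindex_iff (fun S : Finset {p : ι × ℕ // p ≠ (i₀, 0)} =>
    (⟨toM (S.map (Function.Embedding.subtype _)), ?_⟩ : {m : ι →₀ ℕ // Even (m i₀)})) ?_ ?_ ?_).2 h1
  · rw [even_toM]
    simp
  · refine ⟨fun S hS => ?_, fun S _ T _ hST => ?_, fun m hm => ?_⟩
    · simp only [Set.mem_ofPred_eq] at hS ⊢
      rw [mdeg_toM, sdeg, Finset.sum_map]
      exact hS
    · simp only [Subtype.mk.injEq] at hST
      exact Finset.map_injective _ (toM_bijective.1 hST)
    · obtain ⟨m, hm2⟩ := m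
      obtain ⟨S, rfl⟩ := toM_bijective.2 m
      rw [even_toM] at hm2
      refine ⟨S.subtype (fun p => p ≠ (i₀, 0)), ?_, Subtype.ext ?_⟩
      · simp only [Set.mem_ofPred_eq] at hm ⊢
        rw [mdeg_toM] at hm
        refine le_trans (le_of_eq ?_) hm
        have h3 : (S.subtype (fun p => p ≠ (i₀, 0))).map (Function.Embedding.subtype _) = S := by
          rw [Finset.subtype_map]
          exact Finset.filter_true_of_mem fun p hp hp2 => hm2 (hp2 ▸ hp)
        conv_rhs => rw [sdeg, ← h3, Finset.sum_map]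
        rfl
      · show toM ((S.subtype (fun p => p ≠ (i₀, 0))).map (Function.Embedding.subtype _)) = toM S
        congr 1
        rw [Finset.subtype_map]
        exact Finset.filter_true_of_mem fun p hp hp2 => hm2 (hp2 ▸ hp)
  · intro S _
    show mdeg d (toM _) = sdeg _ S
    rw [mdeg_toM, sdeg, Finset.sum_map]
    rfl
  · intro S _
    show mval y (toM _) = sval _ S
    rw [mval_toM, sval, Finset.prod_map]
    rfl

/-- pulling a simple system back along an algebra map which is injective in the range -/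
theorem SimR.of_map {C : Type*} [CommRing C] [Algebra F2 C] {grC : ℕ → Submodule F2 C}
    {gr : ℕ → Submodule F2 H} {κ : Type*} {z : κ → C} {d : κ → ℕ} {N : ℕ} (π : C →ₐ[F2] H)
    (one_mem : (1 : C) ∈ grC 0) (mul_mem : ∀ s t a b, a ∈ grC s → b ∈ grC t → a * b ∈ grC (s + t))
    (hz : ∀ k, d k ≤ N + 1 → z k ∈ grC (d k)) (hinj : ∀ t ≤ N + 1, ∀ c ∈ grC t, π c = 0 → c = 0)
    (himg : ∀ t ≤ N + 1, ∀ c ∈ grC t, π c ∈ gr t) (h : SimR gr (fun k => π (z k)) d N) :
    SimR grC z d N := by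
  classical
  have hval : ∀ S : Finset κ, π (sval z S) = sval (fun k => π (z k)) S := fun S => map_prod π _ _
  have hmem : ∀ S : Finset κ, sdeg d S ≤ N + 1 → sval z S ∈ grC (sdeg d S) := by
    intro S
    induction S using Finset.induction_on with
    | empty => intro _; simpa [sval, sdeg] using one_mem
    | insert a s ha ih =>
      intro hS
      rw [sdeg, Finset.sum_insert ha] at hS
      rw [sval, sdeg, Finset.prod_insert ha, Finset.sum_insert ha]
      exact mul_mem _ _ _ _ (hz a (by omega)) (ih (by rw [sdeg]; omega))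
  refine ⟨fun t ht => ?_, fun t ht c hc => ?_⟩
  · refine LinearIndependent.of_comp π.toLinearMap ?_
    have h1 := h.1 t ht
    convert h1 using 1
    funext S
    exact hval S
  · have h2 := h.2 t ht (himg t ht c hc)
    have h3 : Submodule.span F2 (sval (fun k => π (z k)) '' {S | sdeg d S = t}) =
        (Submodule.span F2 (sval z '' {S | sdeg d S = t})).map π.toLinearMap := by
      rw [Submodule.map_span]
      congr 1
      ext x
      simp only [Set.mem_image]
      constructor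
      · rintro ⟨S, hS, rfl⟩
        exact ⟨_, ⟨S, hS, rfl⟩, hval S⟩
      · rintro ⟨_, ⟨S, hS, rfl⟩, rfl⟩
        exact ⟨S, hS, (hval S).symm⟩
    rw [h3] at h2
    obtain ⟨c', hc', hcc⟩ := h2
    have h4 : c' ∈ grC t := by
      refine (Submodule.span_le.2 ?_) hc'
      rintro _ ⟨S, hS, rfl⟩
      simp only [Set.mem_ofPred_eq] at hS
      have := hmem S (by omega)
      rwa [hS] at this
    have h5 : c - c' = 0 := hinj t ht _ (Submodule.sub_mem _ hc h4) (by
      rw [map_sub]
      change π c' = π c at hcc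
      rw [hcc, sub_self])
    rw [sub_eq_zero.1 h5]
    exact hc'

end general

/-! ### the tower at `k = 0` -/

variable {X : Tower}

/-- `(J, b) ≠ ([], 0)` corresponds to nonempty words -/
theorem up_ne_nil (p : Wd × ℕ) : (up p).1 ≠ [] ↔ p ≠ (⟨[], by simp⟩, 0) := by
  obtain ⟨⟨J, hJ⟩, b⟩ := p
  have h1 : (up (⟨J, hJ⟩, b)).1 = List.replicate b 1 ++ J.map (· + 1) := rfl
  rw [h1, ne_eq, ne_eq, not_iff_not]
  constructor
  · intro h
    rw [List.append_eq_nil_iff] at h
    have h2 : b = 0 := by simpa using h.1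
    have h3 : J = [] := by simpa using h.2
    subst h2 h3; rfl
  · intro h
    have h2 : J = [] := congrArg (fun q : Wd × ℕ => q.1.1) h
    have h3 : b = 0 := congrArg Prod.snd h
    subst h2 h3; rfl

/-- the suspension of `x_I = Q_I[1] * [-2^r]` -/
theorem sigma_word0 {D : ℕ} (hGr : X.FactGr D) (hE : X.FactEps D) (hQ : X.FactQ D) (hσ : X.FactSigma D)
    (hx : X.FactX D) (I : List ℕ) (hI : I ≠ []) (hI1 : ∀ i ∈ I, 1 ≤ i) (hID : ∀ i ∈ I, i ≤ D + 1) :
    X.σ 0 (X.word0 I) = X.σ 0 (X.word 0 I) := by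
  have h1 : X.ε 0 (X.x 0) * X.ε 0 X.xinv = 1 := by
    rw [← map_mul, hx.2.2.2.2.2, map_one]
  have h2 : X.ε 0 X.xinv = 1 := by
    have : ∀ a b : F2, a * b = 1 → b = 1 := by decide
    exact this _ _ h1
  have h3 : X.ε 0 (X.word 0 I) = 0 := by
    refine hE 0 (by omega) (wdeg 0 I) ?_ _ (word_mem hQ hx (by omega) I hID)
    rcases I with _ | ⟨i, L⟩
    · exact absurd rfl hI
    · rw [wdeg_cons]
      have := hI1 i List.mem_cons_self
      omega
  have h4 : X.ε 0 (X.xinv ^ 2 ^ I.length) = 1 := by rw [map_pow, h2, one_pow]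
  have h5 := (hσ 0 (by omega)).2.2.1 (X.word 0 I) (X.xinv ^ 2 ^ I.length)
  rw [h3, h4, zero_smul, one_smul] at h5
  exact h5.trans (zero_add _)

theorem word0_mem {D : ℕ} (hGr : X.FactGr D) (hQ : X.FactQ D) (hx : X.FactX D) (I : List ℕ)
    (hID : ∀ i ∈ I, i ≤ D + 1) : X.word0 I ∈ X.gr 0 (wdeg 0 I) := by
  have h1 : ∀ n : ℕ, X.xinv ^ n ∈ X.gr 0 0 := by
    intro n
    induction n with
    | zero => rw [pow_zero]; exact (hGr 0 (by omega)).2.1
    | succ n ih =>
      rw [pow_succ]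
      simpa using (hGr 0 (by omega)).2.2 0 0 _ _ ih hx.2.2.2.1
  have h2 := (hGr 0 (by omega)).2.2 _ 0 _ _ (word_mem hQ hx (by omega) I hID) (h1 (2 ^ I.length))
  rw [add_zero] at h2
  exact h2

/-- what the covering `B̃ → B = X_1` and the range loop theorem for `B̃` provide -/
structure Cover0 (X : Tower) (D : ℕ) where
  C : Type
  [ring : CommRing C]
  [alg : Algebra F2 C]
  grC : ℕ → Submodule F2 C
  π : C →ₐ[F2] X.H 1
  s : X.H 0 →ₗ[F2] C
  one_mem : (1 : C) ∈ grC 0
  mul_mem : ∀ s t a b, a ∈ grC s → b ∈ grC t → a * b ∈ grC (s + t)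
  π_inj : ∀ t ≤ D + 2, ∀ c ∈ grC t, π c = 0 → c = 0
  π_even : ∀ t ≤ D + 2, ∀ c ∈ grC t, π c ∈ Submodule.span F2
    (mval (fun I : Wd => X.word 1 I.1) '' {m | mdeg (fun I : Wd => wdeg 1 I.1) m = t ∧
      Even (m ⟨[], by simp⟩)})
  s_mem : ∀ t, ∀ y ∈ X.gr 0 t ⊓ Subalgebra.toSubmodule X.base, s y ∈ grC (t + 1)
  π_s : ∀ y ∈ X.base, π (s y) = X.σ 0 y
  loop : ∀ (J : Type) (v : J → X.H 0) (e : J → ℕ), (∀ j, 1 ≤ e j) →
    (∀ j, v j ∈ X.gr 0 (e j) ⊓ Subalgebra.toSubmodule X.base) →
    SimR grC (fun j => s (v j)) (fun j => e j + 1) (D + 1) →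
    PolyR (fun t => X.gr 0 t ⊓ Subalgebra.toSubmodule X.base) v e D

attribute [instance] Cover0.ring Cover0.alg

theorem factPoly0_of_cover {D : ℕ} (hGr : X.FactGr D) (hE : X.FactEps D) (hQ : X.FactQ D)
    (hσ : X.FactSigma D) (hx : X.FactX D) (hP : X.FactPoly D) (c : Cover0 X D)
    (hB : X.FactBase D) : X.FactPoly0 D := by
  classical
  have hP1 := (factPoly_iff D).1 hP 1 le_rfl (by omega)
  have hev := simR_even (⟨[], by simp⟩ : Wd) hP1
  -- entries
  have hent : ∀ I : Wd, wdeg 0 I.1 ≤ D + 1 → ∀ i ∈ I.1, i ≤ D + 1 := fun I hI i hi => by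
    have := entry_le_wdeg 0 _ i hi; omega
  -- reindex to nonempty words of bounded degree
  let J : Type := {I : Wd0 // wdeg 0 I.1.1 ≤ D + 1}
  have hsim : SimR (fun t => Submodule.span F2 (mval (fun I : Wd => X.word 1 I.1) ''
      {m | mdeg (fun I : Wd => wdeg 1 I.1) m = t ∧ Even (m ⟨[], by simp⟩)}))
      (fun j : J => X.σ 0 (X.word0 j.1.1.1)) (fun j : J => wdeg 0 j.1.1.1 + 1) (1 + D) := by
    have hupinv : ∀ I : Wd, ∃ p, up p = I := up_surjective
    choose g hg using hupinv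
    have hgne : ∀ j : J, g j.1.1 ≠ (⟨[], by simp⟩, 0) := fun j => by
      rw [← up_ne_nil, hg]; exact j.1.2
    have hdeg : ∀ j : J, dbd (fun I : Wd => wdeg 1 I.1) (g j.1.1) = wdeg 0 j.1.1.1 + 1 := fun j => by
      have := wdeg_up 0 (g j.1.1)
      rw [hg] at this
      exact this.symm
    refine (SimR.reindex_iff (fun j : J => (⟨g j.1.1, hgne j⟩ :
      {p : Wd × ℕ // p ≠ (⟨[], by simp⟩, 0)})) ?_ (fun j _ => hdeg j) (fun j _ => ?_)).2 hev
    · refine ⟨fun j hj => ?_, fun j _ j' _ hjj => ?_, fun p hp => ?_⟩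
      · simp only [Set.mem_ofPred_eq] at hj ⊢
        exact (hdeg j).le.trans hj
      · have := congrArg up (congrArg Subtype.val hjj)
        change up (g j.1.1) = up (g j'.1.1) at this
        rw [hg, hg] at this
        exact Subtype.ext (Subtype.ext this)
      · obtain ⟨p, hp2⟩ := p
        have h1 : wdeg 0 (up p).1 + 1 = 2 ^ p.2 * wdeg 1 p.1.1 := wdeg_up 0 p
        simp only [Set.mem_ofPred_eq, dbd] at hp
        refine ⟨⟨⟨up p, (up_ne_nil p).2 hp2⟩, by show wdeg 0 (up p).1 ≤ D + 1; omega⟩, ?_, Subtype.ext ?_⟩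
        · show wdeg 0 (up p).1 + 1 ≤ 1 + D + 1
          omega
        · exact up_injective (hg (up p))
    · have h1 := sigma_word_up (X := X) hQ hσ (by omega : 0 ≤ D + 1) (g j.1.1) (by
        rw [hg]; exact hent _ j.2)
      rw [hg] at h1
      rw [sigma_word0 hGr hE hQ hσ hx _ j.1.2 j.1.1.2.2 (hent _ j.2), h1]
      rfl
  have hsim2 : SimR c.grC (fun j : J => c.s (X.word0 j.1.1.1)) (fun j : J => wdeg 0 j.1.1.1 + 1)
      (D + 1) := by
    have hmem : ∀ j : J, X.word0 j.1.1.1 ∈ X.gr 0 (wdeg 0 j.1.1.1) ⊓ Subalgebra.toSubmodule X.base := fun j =>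
      ⟨word0_mem hGr hQ hx _ (hent _ j.2), hB.1 _ (hent _ j.2)⟩
    have e1 : 1 + D = D + 1 := by omega
    rw [e1] at hsim
    refine SimR.of_map c.π c.one_mem c.mul_mem (fun j _ => c.s_mem _ _ (hmem j))
      (fun t ht => c.π_inj t (by omega)) (fun t ht => c.π_even t (by omega)) ?_
    have e2 : (fun j : J => c.π (c.s (X.word0 j.1.1.1))) = fun j : J => X.σ 0 (X.word0 j.1.1.1) := by
      funext j
      exact c.π_s _ (hmem j).2
    rw [e2]
    exact hsim
  have hpoly := c.loop J (fun j => X.word0 j.1.1.1) (fun j => wdeg 0 j.1.1.1) (fun j => by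
      rcases hL : j.1.1.1 with _ | ⟨i, L⟩
      · exact absurd hL j.1.2
      · have := j.1.1.2.2 i (by rw [hL]; exact List.mem_cons_self)
        show 1 ≤ wdeg 0 (i :: L)
        rw [wdeg_cons]; omega)
    (fun j => ⟨word0_mem hGr hQ hx _ (hent _ j.2), hB.1 _ (hent _ j.2)⟩) hsim2
  have hpoly2 : PolyR (fun t => X.gr 0 t ⊓ Subalgebra.toSubmodule X.base) (fun I : Wd0 => X.word0 I.1.1)
      (fun I : Wd0 => wdeg 0 I.1.1) D :=
    (PolyR.subtype_iff (fun I : Wd0 => wdeg 0 I.1.1 ≤ D + 1) (fun I hI => hI)).1 hpoly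
  rw [polyR_iff] at hpoly2
  exact ⟨hpoly2.1, fun t ht => hpoly2.2 t (by omega)⟩

end Crest.Agent.R204.Ind979
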