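import Crest.Agent.R204.Bar_334
import Crest.Agent.R204.Ind3_979

/-!
# Row 204, block B: from the abstract range loop theorem `k2` (334) to the form `SimR → PolyR`
owner helper979

`Cmp` : comparison between `BarData` of a filtered complex and the algebras `HG = H_*(G)`, `HB = H_*(B)`.
`Cmp.polyR` : the loop space theorem in a range.
-/

set_option autoImplicit false

namespace Crest.Agent.R204.Ind979

open Crest.Agent.R204.Bar334

/-- comparison data -/
structure Cmp {HG HB : Type} [CommRing HG] [Algebra F2 HG] [CommRing HB] [Algebra F2 HB]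
    (grG : ℕ → Submodule F2 HG) (grB : ℕ → Submodule F2 HB) (s : HG →ₗ[F2] HB) {ι : Type}
    (v : ι → HG) (deg : ι → ℕ) (X : FC) {bd : Bar ι →ₗ[F2] Bar ι} {asym : Finset ι → Bar ι}
    (B : BarData X deg bd asym) where
  /-- homology class in `H_*(B)` of a cycle of the total complex -/
  ev : LinearMap.ker X.d →ₗ[F2] HB
  ev_gr : ∀ n, ∀ z : LinearMap.ker X.d, (z : X.T) ∈ X.gr n → ev z ∈ grB n
  ev_ker : ∀ n, ∀ z : LinearMap.ker X.d, (z : X.T) ∈ X.gr n → ev z = 0 → ∃ x ∈ X.gr (n + 1), X.d x = z
  ev_bd : ∀ z : LinearMap.ker X.d, (∃ x, X.d x = z) → ev z = 0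
  ev_Psi : ∀ S, ev ⟨B.Psi S, B.Psi_d S⟩ = ∏ i ∈ S, s (v i)
  /-- `H_*(G) → E¹_1` -/
  j : HG →ₗ[F2] B.E
  j_W : ∀ m : NMon ι, j (mval v m) = B.W (Finsupp.single [m] 1)
  j_inj : ∀ t, 1 ≤ t → ∀ a ∈ grG t, j a = 0 → a = 0
  j_lead : ∀ t, 1 ≤ t → ∀ a ∈ grG t, ∃ θ : X.Z 1, (θ : X.T) ∈ X.gr (1 + t) ∧ B.lead 0 θ = j a

namespace Cmp

variable {HG HB : Type} [CommRing HG] [Algebra F2 HG] [CommRing HB] [Algebra F2 HB]
  {grG : ℕ → Submodule F2 HG} {grB : ℕ → Submodule F2 HB} {s : HG →ₗ[F2] HB} {ι : Type}
  {v : ι → HG} {deg : ι → ℕ} {X : FC} {bd : Bar ι →ₗ[F2] Bar ι} {asym : Finset ι → Bar ι}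
  {B : BarData X deg bd asym}

theorem degS_eq (deg : ι → ℕ) (S : Finset ι) : degS deg S = sdeg (fun i => deg i + 1) S := by
  rw [degS, sdeg, Finset.sum_add_distrib, Finset.sum_const, smul_eq_mul, mul_one, add_comm]

theorem indep (C : Cmp grG grB s v deg X B) {N : ℕ}
    (h : SimR grB (fun i => s (v i)) (fun i => deg i + 1) N) : Indep X B N := by
  classical
  rintro t ht c hc ⟨x, -, hx⟩
  have h1 := h.1 (t + 1) ht
  have hdeg : ∀ i ∈ c.support, sdeg (fun i => deg i + 1) {i} = t + 1 := fun i hi => by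
    rw [sdeg, Finset.sum_singleton, hc i hi]
  -- the relation in `HB`
  have h2 : c.sum (fun i r => r • s (v i)) = 0 := by
    have h3 : (⟨c.sum fun i r => r • B.Psi {i}, by
        rw [LinearMap.mem_ker, ← hx, X.dd]⟩ : LinearMap.ker X.d) =
        c.sum fun i r => r • (⟨B.Psi {i}, B.Psi_d {i}⟩ : LinearMap.ker X.d) := by
      apply Subtype.ext
      simp only [Finsupp.sum, AddSubmonoidClass.coe_finsetSum, Submodule.coe_smul]
    have h4 := C.ev_bd _ ⟨x, hx.trans (congrArg Subtype.val h3)⟩
    rw [map_finsuppSum] at h4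
    simp only [map_smul, C.ev_Psi, Finset.prod_singleton] at h4
    exact h4
  have h5 : LinearIndepOn F2 (sval (fun i => s (v i))) {S | sdeg (fun i => deg i + 1) S = t + 1} := h1
  rw [linearIndepOn_iff] at h5
  have h6 := h5 (c.mapDomain (fun i => ({i} : Finset ι))) ?_ ?_
  · have : c.mapDomain (fun i => ({i} : Finset ι)) = (0 : ι →₀ F2).mapDomain (fun i => ({i} : Finset ι)) := by
      rw [h6, Finsupp.mapDomain_zero]
    exact Finsupp.mapDomain_injective Finset.singleton_injective this
  · rw [Finsupp.mem_supported]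
    intro S hS
    have := Finsupp.mapDomain_support hS
    obtain ⟨i, hi, rfl⟩ := Finset.mem_image.1 this
    exact hdeg i hi
  · rw [Finsupp.linearCombination_mapDomain, Finsupp.linearCombination_apply]
    simpa [sval] using h2

theorem span (C : Cmp grG grB s v deg X B) {N : ℕ}
    (h : SimR grB (fun i => s (v i)) (fun i => deg i + 1) N) : Span X B N := by
  classical
  intro n hn1 hn z hz hdz
  have h1 := h.2 n hn (C.ev_gr n ⟨z, hdz⟩ hz)
  rw [Finsupp.span_image_eq_map_linearCombination] at h1
  obtain ⟨c, hc, hcz⟩ := h1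
  rw [SetLike.mem_coe, Finsupp.mem_supported] at hc
  have hcS : ∀ S ∈ c.support, degS deg S = n := fun S hS => by
    rw [degS_eq]; exact hc hS
  let w : LinearMap.ker X.d := c.sum fun S r => r • (⟨B.Psi S, B.Psi_d S⟩ : LinearMap.ker X.d)
  have hw : (w : X.T) = c.sum fun S r => r • B.Psi S := by
    simp only [w, Finsupp.sum, AddSubmonoidClass.coe_finsetSum, Submodule.coe_smul]
  have hwev : C.ev w = C.ev ⟨z, hdz⟩ := by
    rw [← hcz, Finsupp.linearCombination_apply]
    simp only [w]
    rw [map_finsuppSum]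
    simp only [map_smul, C.ev_Psi]
    rfl
  have hwgr : (w : X.T) ∈ X.gr n := by
    rw [hw]
    refine Submodule.sum_mem _ fun S hS => Submodule.smul_mem _ _ ?_
    have := B.Psi_gr S
    rwa [hcS S hS] at this
  obtain ⟨x, hx, hxd⟩ := C.ev_ker n (⟨z, hdz⟩ - w) (Submodule.sub_mem _ hz hwgr) (by
    rw [map_sub, hwev, sub_self])
  refine ⟨c, hcS, x, hx, ?_⟩
  rw [hxd, ← hw]
  show z = (w : X.T) + (z - w)
  abel

theorem wt_single (deg : ι → ℕ) (m : NMon ι) : wt deg [m] = mdeg deg m.1 := by
  rw [wt, List.map_cons, List.map_nil, List.sum_cons, List.sum_nil, add_zero]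
  rfl

/-- **the loop space theorem in a range**, algebraic form -/
theorem polyR (C : Cmp grG grB s v deg X B) (K : K1 deg bd asym) {N : ℕ}
    (hv : ∀ i, v i ∈ grG (deg i)) (one_mem : (1 : HG) ∈ grG 0)
    (mul_mem : ∀ s t a b, a ∈ grG s → b ∈ grG t → a * b ∈ grG (s + t))
    (one_ne : (1 : HG) ≠ 0) (conn : grG 0 ≤ Submodule.span F2 {1})
    (h : SimR grB (fun i => s (v i)) (fun i => deg i + 1) (N + 1)) : PolyR grG v deg N := by
  classical
  have key := k2 X ι deg bd asym B K (N + 1) (C.indep h) (C.span h)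
  -- degrees of monomials
  have hmem : ∀ m : ι →₀ ℕ, mval v m ∈ grG (mdeg deg m) := by
    intro m
    induction m using Finsupp.induction_linear with
    | zero => rw [mval_zero, mdeg_zero]; exact one_mem
    | add a b ha hb => rw [mval_add, mdeg_add]; exact mul_mem _ _ _ _ ha hb
    | single i n =>
      rw [mval_single, mdeg_single]
      induction n with
      | zero => rw [pow_zero, zero_mul]; exact one_mem
      | succ n ih => rw [pow_succ, add_mul, one_mul]; exact mul_mem _ _ _ _ ih (hv i)
  have hzero : ∀ m : ι →₀ ℕ, mdeg deg m = 0 → m = 0 := by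
    intro m hm
    ext i
    by_contra hi
    have h1 : m i * deg i ≤ mdeg deg m := Finset.single_le_sum (f := fun i => m i * deg i)
      (fun _ _ => Nat.zero_le _) (Finsupp.mem_support_iff.2 hi)
    have h2 := B.deg_pos i
    have h3 : 0 < m i * deg i := Nat.mul_pos (Nat.pos_of_ne_zero hi) h2
    omega
  -- one letter words
  let g : (ι →₀ ℕ) → List (NMon ι) := fun m => if hm : m ≠ 0 then [⟨m, hm⟩] else []
  have hg : ∀ m (hm : m ≠ 0), g m = [⟨m, hm⟩] := fun m hm => dif_pos hm
  have hginj : Function.Injective g := by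
    intro m m' hmm
    by_cases h1 : m = 0 <;> by_cases h2 : m' = 0
    · rw [h1, h2]
    · exfalso
      rw [hg m' h2] at hmm
      simp [g, h1] at hmm
    · exfalso
      rw [hg m h1] at hmm
      simp [g, h2] at hmm
    · rw [hg m h1, hg m' h2] at hmm
      simpa using hmm
  refine ⟨fun t ht => ?_, fun t ht => ?_⟩
  · rcases Nat.eq_zero_or_pos t with rfl | ht1
    · have hss : Subsingleton {m : ι →₀ ℕ // mdeg deg m = 0} := ⟨fun a b => by
        apply Subtype.ext; rw [hzero _ a.2, hzero _ b.2]⟩
      rw [linearIndependent_subsingleton_index_iff]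
      rintro ⟨m, hm⟩
      obtain rfl := hzero m hm
      show mval v 0 ≠ 0
      rw [mval_zero]
      exact one_ne
    · have : LinearIndepOn F2 (mval v) {m | mdeg deg m = t} := by
        rw [linearIndepOn_iff]
        intro l hl h0
        rw [Finsupp.mem_supported] at hl
        have hne : ∀ m ∈ l.support, m ≠ 0 := fun m hm hm0 => by
          have := hl hm
          rw [Set.mem_ofPred_eq, hm0, mdeg_zero] at this
          omega
        have hb : l.mapDomain g ∈ Wd deg 1 t := by
          rw [Wd, Finsupp.mem_supported]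
          intro w hw
          obtain ⟨m, hm, rfl⟩ := Finset.mem_image.1 (Finsupp.mapDomain_support hw)
          rw [hg m (hne m hm)]
          refine ⟨rfl, ?_⟩
          rw [wt_single]
          exact hl hm
        have hW : B.W (l.mapDomain g) = 0 := by
          rw [Finsupp.mapDomain, Finsupp.sum, map_sum]
          rw [Finsupp.linearCombination_apply, Finsupp.sum] at h0
          have h1 := congrArg C.j h0
          rw [map_sum, map_zero] at h1
          rw [← h1]
          refine Finset.sum_congr rfl fun m hm => ?_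
          rw [hg m (hne m hm), map_smul, C.j_W ⟨m, hne m hm⟩, ← map_smul, Finsupp.smul_single,
            smul_eq_mul, mul_one]
        have h2 := (key t ht1).1 (by omega) _ hb hW
        exact Finsupp.mapDomain_injective hginj (h2.trans Finsupp.mapDomain_zero.symm)
      exact this
  · rcases Nat.eq_zero_or_pos t with rfl | ht1
    · refine conn.trans (Submodule.span_mono ?_)
      rintro _ rfl
      exact ⟨0, mdeg_zero deg, mval_zero v⟩
    · intro a ha
      obtain ⟨θ, hθ, hθj⟩ := C.j_lead t ht1 a ha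
      obtain ⟨b, hb, hbW⟩ := (key t ht1).2 ht θ hθ
      rw [Wd, Finsupp.mem_supported] at hb
      -- the combination of monomials
      have hword : ∀ w ∈ b.support, ∃ m : NMon ι, w = [m] ∧ mdeg deg m.1 = t := fun w hw => by
        obtain ⟨h1, h2⟩ := hb hw
        obtain ⟨m, rfl⟩ := List.length_eq_one_iff.1 h1
        exact ⟨m, rfl, by rw [← wt_single]; exact h2⟩
      let f : List (NMon ι) → HG := fun w => mval v ((w.map Subtype.val).sum)
      have hf : ∀ m : NMon ι, f [m] = mval v m.1 := fun m => by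
        simp only [f, List.map_cons, List.map_nil, List.sum_cons, List.sum_nil, add_zero]
      have hmemt : b.sum (fun w r => r • f w) ∈ Submodule.span F2 (mval v '' {m | mdeg deg m = t}) := by
        refine Submodule.sum_mem _ fun w hw => Submodule.smul_mem _ _ (Submodule.subset_span ?_)
        obtain ⟨m, rfl, hm⟩ := hword w hw
        exact ⟨m.1, hm, (hf m).symm⟩
      have hgrt : b.sum (fun w r => r • f w) ∈ grG t := by
        refine Submodule.sum_mem _ fun w hw => Submodule.smul_mem _ _ ?_
        obtain ⟨m, rfl, hm⟩ := hword w hw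
        rw [hf, ← hm]
        exact hmem m.1
      have hj : C.j (b.sum (fun w r => r • f w)) = C.j a := by
        rw [← hθj, hbW]
        conv_rhs => rw [← Finsupp.sum_single b]
        rw [Finsupp.sum, Finsupp.sum, map_sum, map_sum]
        refine Finset.sum_congr rfl fun w hw => ?_
        obtain ⟨m, rfl, hm⟩ := hword w hw
        rw [map_smul, hf, C.j_W, ← map_smul, Finsupp.smul_single, smul_eq_mul, mul_one]
      have h3 := C.j_inj t ht1 (a - b.sum (fun w r => r • f w)) (Submodule.sub_mem _ ha hgrt) (by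
        rw [map_sub, hj, sub_self])
      rw [sub_eq_zero.1 h3]
      exact hmemt

end Cmp

end Crest.Agent.R204.Ind979
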