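import Crest.Agent.R204.Defs

/-!
# Row 204, block B: interface of K2, the abstract filtered complex theorem (range form of 02/02b)
(helper334)

`FC` = filtered complex (total complex `T` of the Cech nerve, filtered by the Cech degree `p`).
`BarData ι deg bd asym` = identification of `E¹` in terms of bar words.  `bd`, `asym` are 459's.
-/

set_option autoImplicit false

noncomputable section

namespace Crest.Agent.R204.Bar334

/-- nonzero monomials (= 459's `NMon`) -/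
abbrev NMon (ι : Type) : Type := {m : ι →₀ ℕ // m ≠ 0}

/-- bar words (= 459's `Bar`) -/
abbrev Bar (ι : Type) : Type := List (NMon ι) →₀ ZMod 2

/-- filtered complex: `T` with differential `d`, total degree `gr`, filtration `F`. -/
structure FC where
  T : Type
  [ac : AddCommGroup T]
  [mo : Module F2 T]
  d : T →ₗ[F2] T
  dd : ∀ x, d (d x) = 0
  gr : ℕ → Submodule F2 T
  d_gr : ∀ n, ∀ x ∈ gr (n + 1), d x ∈ gr n
  d_gr0 : ∀ x ∈ gr 0, d x = 0
  F : ℕ → Submodule F2 T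
  F_mono : Monotone F
  d_F : ∀ p, ∀ x ∈ F p, d x ∈ F p
  /-- the filtration is bounded: first quadrant double complex -/
  gr_F : ∀ n, gr n ≤ F n

attribute [instance] FC.ac FC.mo

/-- `F_{p-1}` -/
def FC.F' (X : FC) : ℕ → Submodule F2 X.T
  | 0 => ⊥
  | p + 1 => X.F p

/-- vertical cycles of filtration `p`: `θ ∈ F_p`, `dθ ∈ F_{p-1}` -/
def FC.Z (X : FC) (p : ℕ) : Submodule F2 X.T := X.F p ⊓ (X.F' p).comap X.d

section
variable {ι : Type} (deg : ι → ℕ)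

/-- weight (= internal degree) of a monomial -/
def wt1 (m : ι →₀ ℕ) : ℕ := m.sum fun i k => k * deg i

/-- weight of a word -/
def wt (w : List (NMon ι)) : ℕ := (w.map fun m => wt1 deg m.1).sum

/-- combinations of words of length `p` and weight `q` -/
def Wd (p q : ℕ) : Submodule F2 (Bar ι) :=
  Finsupp.supported F2 F2 {w | w.length = p ∧ wt deg w = q}

/-- degree of the product `σ v_1 ⋯ σ v_p` -/
def degS (S : Finset ι) : ℕ := S.card + ∑ i ∈ S, deg i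

end

/-- the identification of `E¹` by bar words.  `lead p θ` is the class of `θ` in `E¹_p`, all `p` together in
one module `E` (e.g. the sum of the `H(F_p/F_{p-1})`, or of the tensor powers of the reduced homology);
`W` sends the word `[m_1|…|m_p]` to `φ m_1 ⊗ … ⊗ φ m_p`. -/
structure BarData (X : FC) {ι : Type} (deg : ι → ℕ) (bd : Bar ι →ₗ[F2] Bar ι)
    (asym : Finset ι → Bar ι) where
  E : Type
  [ac : AddCommGroup E]
  [mo : Module F2 E]
  deg_pos : ∀ i, 1 ≤ deg i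
  /-- leading term, for `p ≥ 1` (index shifted: `lead p` is defined on `Z (p+1)`) -/
  lead : ∀ p : ℕ, ↥(X.Z (p + 1)) →ₗ[F2] E
  /-- lower filtration has leading term zero -/
  lead_low : ∀ p (θ : X.Z (p + 1)), (θ : X.T) ∈ X.F p → lead p θ = 0
  /-- vertical boundaries have leading term zero -/
  lead_bd : ∀ p (θ : X.Z (p + 1)), (∃ x ∈ X.F (p + 1), X.d x = θ) → lead p θ = 0
  /-- the kernel of `lead` -/
  lead_ker : ∀ p n (θ : X.Z (p + 1)), (θ : X.T) ∈ X.gr n → lead p θ = 0 →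
    ∃ x ∈ X.F (p + 1) ⊓ X.gr (n + 1), (θ : X.T) - X.d x ∈ X.F p
  /-- `F_0` is acyclic in positive degrees -/
  zero : ∀ n, ∀ θ ∈ X.F 0 ⊓ X.gr (n + 1), X.d θ = 0 → ∃ x ∈ X.F 0 ⊓ X.gr (n + 2), X.d x = θ
  W : Bar ι →ₗ[F2] E
  /-- every word is a leading term -/
  lift : ∀ p (w : List (NMon ι)), w.length = p + 1 →
    ∃ θ : X.Z (p + 1), (θ : X.T) ∈ X.gr (p + 1 + wt deg w) ∧ lead p θ = W (Finsupp.single w 1)
  /-- `d¹` is the bar differential -/
  dW : ∀ p (θ : X.Z (p + 2)) (b : Bar ι), (∀ w ∈ b.support, w.length = p + 2) → lead (p + 1) θ = W b →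
    ∀ h : X.d θ ∈ X.Z (p + 1), lead p ⟨X.d θ, h⟩ = W (bd b)
  /-- Kuenneth: if one-letter words are a basis in degrees `< t`, then words of length `p ≥ 2` are a basis in
  internal degree `q ≤ t + p - 2` -/
  kun : ∀ t, (∀ s, 1 ≤ s → s < t →
      (∀ b ∈ Wd deg 1 s, W b = 0 → b = 0) ∧
      (∀ θ : X.Z 1, (θ : X.T) ∈ X.gr (1 + s) → ∃ b ∈ Wd deg 1 s, lead 0 θ = W b)) →
    ∀ p q, q ≤ t + p → (∀ b ∈ Wd deg (p + 2) q, W b = 0 → b = 0) ∧
      (∀ θ : X.Z (p + 2), (θ : X.T) ∈ X.gr (p + 2 + q) → ∃ b ∈ Wd deg (p + 2) q, lead (p + 1) θ = W b)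
  /-- the cycle representing `σ v_1 ⋯ σ v_p`, `S = {v_1, …, v_p}` -/
  Psi : Finset ι → X.T
  Psi_d : ∀ S, X.d (Psi S) = 0
  Psi_F : ∀ S, Psi S ∈ X.F S.card
  Psi_gr : ∀ S, Psi S ∈ X.gr (degS deg S)
  Psi_lead : ∀ p (S : Finset ι) (_ : S.card = p + 1) (h : Psi S ∈ X.Z (p + 1)),
    lead p ⟨Psi S, h⟩ = W (asym S)

attribute [instance] BarData.ac BarData.mo

/-- hypothesis (indep): the `σ v`, `|v| + 1 ≤ N`, are independent in the homology of `T` -/
def Indep (X : FC) {ι : Type} {deg : ι → ℕ} {bd : Bar ι →ₗ[F2] Bar ι} {asym : Finset ι → Bar ι}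
    (B : BarData X deg bd asym) (N : ℕ) : Prop :=
  ∀ t, t + 1 ≤ N → ∀ c : ι →₀ F2, (∀ i ∈ c.support, deg i = t) →
    (∃ x ∈ X.gr (t + 2), X.d x = c.sum fun i r => r • B.Psi {i}) → c = 0

/-- hypothesis (span): the products `σ v_1 ⋯ σ v_p` span the homology of `T` in degrees `1 ≤ n ≤ N + 1` -/
def Span (X : FC) {ι : Type} {deg : ι → ℕ} {bd : Bar ι →ₗ[F2] Bar ι} {asym : Finset ι → Bar ι}
    (B : BarData X deg bd asym) (N : ℕ) : Prop :=
  ∀ n, 1 ≤ n → n ≤ N + 1 → ∀ z ∈ X.gr n, X.d z = 0 → ∃ c : Finset ι →₀ F2,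
    (∀ S ∈ c.support, degS deg S = n) ∧ ∃ x ∈ X.gr (n + 1), z = (c.sum fun S r => r • B.Psi S) + X.d x

/-- what is needed from 459's K1 -/
structure K1 {ι : Type} (deg : ι → ℕ) (bd : Bar ι →ₗ[F2] Bar ι) (asym : Finset ι → Bar ι) : Prop where
  bd_bd : ∀ b, bd (bd b) = 0
  bd_Wd : ∀ p q, ∀ b ∈ Wd deg (p + 1) q, bd b ∈ Wd deg p q
  bd_two : ∀ m m' : NMon ι, bd (Finsupp.single [m, m'] 1) =
    Finsupp.single [⟨m.1 + m'.1, fun h => m.2 (by
      ext i; have := DFunLike.congr_fun h i; simp only [Finsupp.add_apply, Finsupp.zero_apply] at this ⊢; omega)⟩] 1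
  asym_Wd : ∀ S, asym S ∈ Wd deg S.card (∑ i ∈ S, deg i)
  asym_one : ∀ i, asym {i} = Finsupp.single [⟨Finsupp.single i 1, by simp⟩] 1
  asym_two : ∀ S : Finset ι, S.card = 2 → bd (asym S) = 0
  asym_inj : ∀ (c : Finset ι →₀ F2) (y : Bar ι), (c.sum fun S r => r • asym S) = bd y → c = 0
  exact : ∀ p q, ∀ z ∈ Wd deg (p + 1) q, bd z = 0 → ∃ y ∈ Wd deg (p + 2) q, ∃ c : Finset ι →₀ F2,
    (∀ S ∈ c.support, S.card = p + 1 ∧ ∑ i ∈ S, deg i = q) ∧ z = bd y + c.sum fun S r => r • asym S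

/-- **K2**, the loop theorem in a range: injectivity in degrees `t ≤ N - 1`, surjectivity for `t ≤ N`. -/
def K2 : Prop := ∀ (X : FC) (ι : Type) (deg : ι → ℕ) (bd : Bar ι →ₗ[F2] Bar ι) (asym : Finset ι → Bar ι)
  (B : BarData X deg bd asym) (_ : K1 deg bd asym) (N : ℕ) (_ : Indep X B N) (_ : Span X B N),
  ∀ t, 1 ≤ t → (t + 1 ≤ N → ∀ b ∈ Wd deg 1 t, B.W b = 0 → b = 0) ∧
    (t ≤ N → ∀ θ : X.Z 1, (θ : X.T) ∈ X.gr (1 + t) → ∃ b ∈ Wd deg 1 t, B.lead 0 θ = B.W b)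

end Crest.Agent.R204.Bar334
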