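import Crest.Agent.R204.Koszul_459
import Crest.Agent.R204.BarIface_334

/-!
# Row 204, block B: `K1` of helper334's interface from helper459's Koszul theorem
-/

set_option autoImplicit false

namespace Crest.Agent.R204.K1_459

open Finsupp Crest.Agent.R204.Bar334
open Crest.Agent.R204.Koszul459 (bd asym exact_weight asym_not_bd mul2_bd mul2_asym bd_supp)

variable {ι : Type} (deg : ι → ℕ)

/-- the weight as an additive map -/
noncomputable def D : (ι →₀ ℕ) →+ ℕ :=
  Finsupp.liftAddHom (fun i => AddMonoidHom.mulRight (deg i))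

theorem D_apply (m : ι →₀ ℕ) : D deg m = wt1 deg m := by
  simp [D, wt1, Finsupp.liftAddHom_apply]

theorem wt_eq (w : List (Bar334.NMon ι)) : Koszul459.wt (D deg) w = Bar334.wt deg w := by
  simp only [Koszul459.wt, Bar334.wt, D_apply]

theorem D_single (i : ι) : D deg (single i 1) = deg i := by
  simp [D_apply, wt1]

theorem wtS_eq (S : Finset ι) : Koszul459.wtS (D deg) S = ∑ i ∈ S, deg i := by
  simp only [Koszul459.wtS, D_single]

theorem Wd_eq (p q : ℕ) :
    Bar334.Wd deg p q = supported (ZMod 2) (ZMod 2) (Koszul459.WS (D deg) p q) := by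
  unfold Bar334.Wd Koszul459.WS
  simp only [wt_eq]

theorem lc_eq (c : Finset ι →₀ ZMod 2) :
    Finsupp.linearCombination (ZMod 2) asym c = c.sum fun S r => r • asym S := rfl

/-- the input `K1` of the abstract loop theorem -/
theorem k1 : K1 deg (bd (ι := ι)) (asym (ι := ι)) where
  bd_bd := Koszul459.bd_bd
  bd_Wd p q b hb := by
    rw [Wd_eq] at hb ⊢
    exact bd_supp (D deg) hb
  bd_two m m' := by
    rw [Koszul459.bd_single_cons, Koszul459.bd_single_cons, Koszul459.bd_single_nil, map_zero,
      add_zero, Koszul459.mulH_single_nil, map_zero, add_zero, Koszul459.mulH_single_cons]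
    rfl
  asym_Wd S := by
    rw [Wd_eq, ← wtS_eq]
    exact Koszul459.asym_supp (D deg) S
  asym_one i := by
    have h : Koszul459.orderings ({i} : Finset ι) = {[i]} := by
      ext l
      rw [Koszul459.mem_orderings', Finset.mem_singleton]
      simp only [Finset.singleton_val]
      rw [← Multiset.coe_singleton, Multiset.coe_eq_coe, List.perm_singleton]
    rw [asym, h, Finset.sum_singleton]
    rfl
  asym_two S hS := by
    have h1 := Koszul459.asym_supp Finsupp.degree S
    rw [hS] at h1
    have h2 := mul2_asym S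
    -- on two-letter words, `bd` is determined by `mul2`
    have key : ∀ x ∈ supported (ZMod 2) (ZMod 2) {w : Koszul459.Wd ι | w.length = 2},
        ∀ m : Koszul459.NMon ι, bd x [m] = Koszul459.mul2 x m.1 := by
      intro x hx m
      have := Koszul459.eq_on_supp
        (Finsupp.lapply [m] ∘ₗ bd) (Finsupp.lapply m.1 ∘ₗ Koszul459.mul2) (M := ZMod 2) ?_ hx
      · exact this
      · intro w hw
        match w, hw with
        | [a, b], _ =>
          simp only [LinearMap.comp_apply, Finsupp.lapply_apply]
          rw [Koszul459.bd_single_cons, Koszul459.bd_single_cons, Koszul459.bd_single_nil, map_zero,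
            add_zero, Koszul459.mulH_single_nil, map_zero, add_zero, Koszul459.mulH_single_cons,
            Koszul459.mul2_single_pair]
          classical
          rw [Finsupp.single_apply, Finsupp.single_apply]
          refine if_congr ?_ rfl rfl
          rw [List.cons.injEq, Subtype.ext_iff]
          simp [Koszul459.act]
    have h3 : asym S ∈ supported (ZMod 2) (ZMod 2) {w : Koszul459.Wd ι | w.length = 2} :=
      Finsupp.supported_mono (fun w hw => hw.1) h1
    have h4 : bd (asym S) ∈ supported (ZMod 2) (ZMod 2) {w : Koszul459.Wd ι | w.length = 1} :=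
      Finsupp.supported_mono (fun w hw => hw.1) (bd_supp Finsupp.degree (p := 1) h1)
    ext w
    by_cases hw : w.length = 1
    · obtain ⟨m, rfl⟩ := List.length_eq_one_iff.mp hw
      rw [key _ h3, h2]; rfl
    · by_contra h0
      exact hw (h4 (Finsupp.mem_support_iff.mpr h0))
  asym_inj c y h := asym_not_bd c y h
  exact p q z hz hb := by
    rw [Wd_eq] at hz
    obtain ⟨y, hy, f, hf, h⟩ := exact_weight (D deg) (p + 1) q z hz hb
    refine ⟨y, by rw [Wd_eq]; exact hy, f, ?_, h⟩
    intro S hS
    have := hf hS
    refine ⟨this.1, ?_⟩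
    rw [← wtS_eq]; exact this.2

/-- the abstract loop theorem with `K1` discharged -/
theorem k2_koszul (X : FC) (B : BarData X deg (bd (ι := ι)) (asym (ι := ι))) (N : ℕ)
    (hI : Indep X B N) (hS : Span X B N) (h2 : K2) :
    ∀ t, 1 ≤ t → (t + 1 ≤ N → ∀ b ∈ Bar334.Wd deg 1 t, B.W b = 0 → b = 0) ∧
    (t ≤ N → ∀ θ : X.Z 1, (θ : X.T) ∈ X.gr (1 + t) →
      ∃ b ∈ Bar334.Wd deg 1 t, B.lead 0 θ = B.W b) :=
  h2 X ι deg _ _ B (k1 deg) N hI hS

end Crest.Agent.R204.K1_459
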