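import Crest.Agent.R204.GeoA_979
import Crest.Agent.R204.Glue_979
import Crest.Agent.R204.BrF_170
import Crest.Agent.R204.K1_459

/-!
# Row 204, block B, final instantiation, part B (helper979)

For `X : PFib`: one-letter brackets `j1 : H G → E¹_1`, its kernel, and the **loop theorem in a range** for `X`:
`PFib.loop_polyR` : for any `BarData` on `Tot (cech π)` compatible with 343's `lead` and 170's brackets and any
injective multiplicative `φ : H K → A` into a commutative algebra,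
`SimR grA (φ ∘ σ ∘ v) (deg + 1) (N + 1) → PolyR grG v deg N`.
-/

set_option autoImplicit false

noncomputable section

namespace Crest.Agent.R204.Geo979

open Crest.Agent.R204 Crest.Agent.R204.Bis343 Crest.Agent.R204.Bis343.BSS Crest.Agent.R204.Bar170
  Crest.Agent.R204.Coalg847 Crest.Agent.R204.Ind979 Crest.Agent.R204.Bar334
open TensorProduct

section br1
variable (X : PFib) (hi : SpecA.HomotopyInv) (Z : EZData)

/-- one-letter brackets -/
def br1 : H F2 X.G →ₗ[F2] H F2 (X.E 1) :=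
  H.map F2 (X.alpha 0) ∘ₗ (Z.cr X.G (X.E 0)).toLinearMap ∘ₗ
    (TensorProduct.mk F2 (H F2 X.G) (H F2 (X.E 0))).flip (X.br Z 0 Fin.elim0)

theorem br1_apply (a : H F2 X.G) : br1 X Z a = X.br Z 1 (fun _ => a) := by
  rw [PFib.br_succ]
  rfl

theorem br1_mem {t : ℕ} {a : H F2 X.G} (ha : a ∈ H.gr F2 X.G t) : br1 X Z a ∈ H.gr F2 (X.E 1) t := by
  have h0 : X.br Z 0 Fin.elim0 ∈ H.gr F2 (X.E 0) 0 := hMap_mem_gr _ (vtx_mem_gr _)
  exact hMap_mem_gr (X.alpha 0) (Z.cr_mem_gr ha h0)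

include hi in
theorem br1_inj {a : H F2 X.G} (h : br1 X Z a = 0) : a = 0 := by
  have h1 : X.alphaH hi 0 (Z.cr X.G (X.E 0) (a ⊗ₜ X.br Z 0 Fin.elim0)) = 0 := h
  rw [LinearEquiv.map_eq_zero_iff, LinearEquiv.map_eq_zero_iff] at h1
  have h2 := congrArg ((TensorProduct.rid F2 (H F2 X.G)).toLinearMap ∘ₗ
    TensorProduct.map LinearMap.id (eps (X.E 0))) h1
  rw [map_zero, LinearMap.comp_apply, TensorProduct.map_tmul, PFib.eps_br] at h2
  simpa using h2

/-- `a ↦ [a]` in `E¹_1` -/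
def j1 : H F2 X.G →ₗ[F2] (cech X.π).E1 1 := (Submodule.mkQ _) ∘ₗ br1 X Z

theorem j1_apply (a : H F2 X.G) :
    j1 X Z a = (Submodule.Quotient.mk (X.br Z 1 (fun _ => a)) : (cech X.π).E1 1) := by
  rw [← br1_apply]; rfl

include hi in
/-- the kernel of `j1` -/
theorem j1_ker {a : H F2 X.G} (h : j1 X Z a = 0) : ∃ c : F2, a = c • vtx X.e := by
  have h1 : br1 X Z a ∈ (cech X.π).SH.Deg 1 := (Submodule.Quotient.mk_eq_zero _).1 h
  have h2 : (cech X.π).SH.Deg 1 ≤ LinearMap.range (X.dg 0 0) := by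
    show (⨆ j : Fin 1, LinearMap.range ((cech X.π).SH.act (Op.dgn j))) ≤ _
    refine iSup_le fun j => ?_
    obtain rfl : j = 0 := Fin.ext (by omega)
    exact le_rfl
  obtain ⟨y, hy⟩ := h2 h1
  rw [X.E0_eq Z y Fin.elim0, map_smul, X.dg_br hi Z] at hy
  refine ⟨eps _ y, ?_⟩
  have h3 : br1 X Z (a - eps _ y • vtx X.e) = 0 := by
    rw [map_sub, map_smul, ← hy, br1_apply, sub_eq_zero]
    congr 2
    funext i
    obtain rfl : i = 0 := Fin.ext (by omega)
    simp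
  exact sub_eq_zero.1 (br1_inj X hi Z h3)

include hi in
/-- `j1` is injective in positive degrees -/
theorem j1_inj {t : ℕ} (ht : 1 ≤ t) {a : H F2 X.G} (ha : a ∈ H.gr F2 X.G t) (h : j1 X Z a = 0) :
    a = 0 := by
  obtain ⟨c, rfl⟩ := j1_ker X hi Z h
  have h1 : eps _ (c • vtx X.e) = (0 : F2) := eps_gr (by omega) ha
  rw [map_smul, eps_vtx, smul_eq_mul, mul_one] at h1
  rw [h1, zero_smul]

/-- every class of positive degree gives a leading term -/
theorem j1_lead (t : ℕ) {a : H F2 X.G} (ha : a ∈ H.gr F2 X.G t) :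
    ∃ θ : ↥((FCof (cech X.π)).Z 1), (θ : (cech X.π).Tot) ∈ (cech X.π).grT (1 + t) ∧
      lead (cech X.π) 1 θ = j1 X Z a := by
  obtain ⟨θ, h1, h2⟩ := exists_lead (E := cech X.π) 1 (br1_mem X Z ha)
  exact ⟨θ, h1, h2⟩

end br1

/-! ### the loop theorem -/

section loop
variable {X : PFib} {HG A : Type} [CommRing HG] [Algebra F2 HG] [CommRing A] [Algebra F2 A]
  {ι : Type}

/-- `BarData` compatible with 343's `lead` and 170's brackets -/
structure BarOK (X : PFib) (Z : EZData) (φ : (ι →₀ ℕ) → H F2 X.G) (deg : ι → ℕ)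
    (Ps : Finset ι → H F2 X.K)
    (B : BarData (FCof (cech X.π)) deg (Koszul459.bd (ι := ι)) (Koszul459.asym (ι := ι))) where
  /-- `E¹_1` into `E` -/
  jE : (cech X.π).E1 1 →ₗ[F2] B.E
  jE_inj : Function.Injective jE
  lead_eq : ∀ θ : ↥((FCof (cech X.π)).Z 1), B.lead 0 θ = jE (lead (cech X.π) 1 θ)
  W_eq : ∀ m : NMon ι, B.W (Finsupp.single [m] 1) = jE (j1 X Z (φ m.1))
  Psi_ev : ∀ S, evK X.π ⟨B.Psi S, B.Psi_d S⟩ = Ps S

/-- **the loop theorem in a range for a principal fibration up to homotopy** -/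
theorem loop_polyR (hi : SpecA.HomotopyInv) (Z : EZData) {deg : ι → ℕ} {φ : (ι →₀ ℕ) → H F2 X.G}
    {Ps : Finset ι → H F2 X.K}
    {B : BarData (FCof (cech X.π)) deg (Koszul459.bd (ι := ι)) (Koszul459.asym (ι := ι))}
    (O : BarOK X Z φ deg Ps B)
    -- the ring `H_* G`
    (g : HG →ₗ[F2] H F2 X.G) (grG : ℕ → Submodule F2 HG)
    (g_inj : Function.Injective g) (hgG : ∀ t a, a ∈ grG t → g a ∈ H.gr F2 X.G t)
    (one_mem : (1 : HG) ∈ grG 0)
    (mul_mem : ∀ s t a b, a ∈ grG s → b ∈ grG t → a * b ∈ grG (s + t))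
    (one_ne : (1 : HG) ≠ 0) (conn : grG 0 ≤ Submodule.span F2 {1})
    (v : ι → HG) (hv : ∀ i, v i ∈ grG (deg i)) (hφ : ∀ m, φ m = g (mval v m))
    -- the algebra containing `H_* K`
    (ψ : H F2 X.K →ₗ[F2] A) (grA : ℕ → Submodule F2 A) (ψ_inj : Function.Injective ψ)
    (hgA : ∀ t a, a ∈ H.gr F2 X.K t → ψ a ∈ grA t)
    (s : HG →ₗ[F2] A) (hs : ∀ S, ψ (Ps S) = ∏ i ∈ S, s (v i)) {N : ℕ}
    (h : SimR grA (fun i => s (v i)) (fun i => deg i + 1) (N + 1)) : PolyR grG v deg N := by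
  let C : Cmp grG grA s v deg (FCof (cech X.π)) B :=
    { ev := ψ ∘ₗ evK X.π
      ev_gr := fun n z hz => hgA n _ (evK_gr X.π n z hz)
      ev_ker := fun n z hz h0 => evK_ker X.π X.onto n z hz (ψ_inj (by rw [map_zero]; exact h0))
      ev_bd := fun z hz => by rw [LinearMap.comp_apply, evK_bd X.π z hz, map_zero]
      ev_Psi := fun S => by rw [LinearMap.comp_apply, O.Psi_ev, hs]
      j := O.jE ∘ₗ j1 X Z ∘ₗ g
      j_W := fun m => by
        rw [O.W_eq, hφ]; rfl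
      j_inj := fun t ht a ha h0 => by
        have h1 : j1 X Z (g a) = 0 := O.jE_inj (by rw [map_zero]; exact h0)
        exact g_inj (by rw [map_zero]; exact j1_inj X hi Z ht (hgG t a ha) h1)
      j_lead := fun t _ a ha => by
        obtain ⟨θ, h1, h2⟩ := j1_lead X Z t (hgG t a ha)
        exact ⟨θ, h1, by rw [O.lead_eq, h2]; rfl⟩ }
  exact C.polyR (K1_459.k1 deg) hv one_mem mul_mem one_ne conn h

end loop

end Crest.Agent.R204.Geo979
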