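import Crest.Agent.R204.BarG_170
import Crest.Agent.R204.GeoB_979

/-!
# Row 204, block B: `BarOK` (helper979) for `PFib.barData` (helper170)
-/

set_option autoImplicit false

namespace Crest.Agent.R204.Bar170

open Crest.Agent.R204 Crest.Agent.R204.Bis343 Crest.Agent.R204.SingAct265 Crest.Agent.R204.Coalg847
open Crest.Agent.R204.E1_459 Crest.Agent.R204.Geo979
open TensorProduct

namespace PFib

variable (X : PFib) (hi : SpecA.HomotopyInv) (Z : EZData)
  (conn : ∀ x ∈ H.gr F2 X.G 0, ∃ r : F2, x = r • vtx X.e)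
  {ι : Type} (deg : ι → ℕ) (φ : (ι →₀ ℕ) → H F2 X.G)

theorem Wp_one_j1 (m : Bar334.NMon ι) :
    (X.barMod hi Z conn).Wp φ 1 (Finsupp.single [m] 1) = j1 X Z (φ m.1) := by
  refine ((X.barMod hi Z conn).Wp_single φ 1 [m] 1).trans ?_
  exact one_smul F2 _

/-- `BarOK` for `barData` -/
noncomputable def barOK (hdeg : ∀ i, 1 ≤ deg i) (hφ : (X.barMod hi Z conn).Mult φ)
    (hgr : ∀ m, φ m ∈ H.gr F2 X.G (Bar334.wt1 deg m))
    (Psi : Finset ι → (cech X.π).Tot) (Psi_d : ∀ S, BSS.Tot.D (cech X.π) (Psi S) = 0)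
    (Psi_F : ∀ S, Psi S ∈ (cech X.π).Fp S.card)
    (Psi_gr : ∀ S, Psi S ∈ (cech X.π).grT (Bar334.degS deg S))
    (Psi_lead : ∀ p (S : Finset ι) (_ : S.card = p + 1)
      (h : Psi S ∈ (BSS.FCof (cech X.π)).Z (p + 1)),
      BSS.lead (cech X.π) (p + 1) ⟨Psi S, h⟩ =
        (X.barMod hi Z conn).Wp φ (p + 1) (Koszul459.asym S))
    (Ps : Finset ι → H F2 X.K) (Psi_ev : ∀ S, evK X.π ⟨Psi S, Psi_d S⟩ = Ps S) :
    BarOK X Z φ deg Ps
      (X.barData hi Z conn deg φ hdeg hφ hgr Psi Psi_d Psi_F Psi_gr Psi_lead) where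
  jE := (X.barMod hi Z conn).inc 1
  jE_inj := (X.barMod hi Z conn).inc_injective 1
  lead_eq θ := rfl
  W_eq m := by
    have hw : ∀ w ∈ (Finsupp.single [m] 1 : Bar334.Bar ι).support, w.length = 1 := fun w hw => by
      have := Finsupp.support_single_subset hw
      rw [Finset.mem_singleton] at this
      rw [this]; rfl
    have h1 := (X.barMod hi Z conn).W_eq φ hw
    exact h1.trans (congrArg ((X.barMod hi Z conn).inc 1) (X.Wp_one_j1 hi Z conn φ m))
  Psi_ev := Psi_ev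

end PFib

end Crest.Agent.R204.Bar170
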