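import Crest.Agent.R204.Bis3_343
import Crest.Agent.R204.Gr_334
import Crest.Agent.R204.BarIface_334

/-!
# Row 204, block B (T4): filtration, grading, leading terms of the normalised total complex of a bisimplicial
set (helper343).

`FCof E : Bar334.FC`, `comp p : Tot → N F2 (E.col p)` (horizontal Moore projection of the `p`-component),
`lead p : Z (p+1) → H F2 (E.col (p+1)) ⧸ Deg`, `lead_low`, `lead_bd`, `lead_ker`, `lead_lift`, `lead_D`.
-/

set_option autoImplicit false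

noncomputable section

namespace Crest.Agent.R204.Bis343

open Finsupp EZ271

/-! ## simplicial modules and their Moore projection -/

/-- lightweight simplicial `F2`-modules -/
structure SM where
  M : ℕ → Type
  [ac : ∀ n, AddCommGroup (M n)]
  [mo : ∀ n, Module F2 (M n)]
  act : ∀ {m n : ℕ}, Op m n → M n →ₗ[F2] M m
  act_id : ∀ {n : ℕ} (x : M n), act (OrderHom.id) x = x
  act_comp : ∀ {l m n : ℕ} (f : Op l m) (g : Op m n) (x : M n), act (g.comp f) x = act f (act g x)

attribute [instance] SM.ac SM.mo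

namespace SM

variable (X : SM)

/-- the operator `1 + tau_j^*` (identity if `n ≤ j`) -/
def opA (n j : ℕ) : X.M n →ₗ[F2] X.M n :=
  if h : j < n then LinearMap.id + X.act (tau j h) else LinearMap.id

theorem opA_lt {n j : ℕ} (h : j < n) (x : X.M n) : X.opA n j x = x + X.act (tau j h) x := by
  simp [opA, h]

/-- `A_0 A_1 ⋯ A_{k-1}` -/
def opP (n : ℕ) : ℕ → (X.M n →ₗ[F2] X.M n)
  | 0 => LinearMap.id
  | k + 1 => (opP n k) ∘ₗ X.opA n k

theorem opP_fixed {n i : ℕ} (hi : i < n) (k : ℕ) (hk : i < k) (hkn : k ≤ n) (x : X.M n)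
    (hx : X.act (tau i hi) x = x) : X.opP n k x = 0 := by
  induction k generalizing x with
  | zero => omega
  | succ k ih =>
    show X.opP n k (X.opA n k x) = 0
    rw [opA_lt _ (by omega : k < n)]
    rcases Nat.lt_succ_iff_lt_or_eq.1 hk with h | rfl
    · apply ih h (by omega)
      rw [map_add, hx]
      congr 1
      conv_lhs => rw [← hx]
      conv_rhs => rw [← hx]
      rw [← act_comp, ← act_comp, ← act_comp, ← tau_braid i k h (by omega)]
    · rw [hx, f2_add_self, map_zero]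

/-- Moore projection -/
def moore (n : ℕ) : X.M n →ₗ[F2] X.M n := X.opP n n

/-- degenerate part -/
def Deg : ∀ n : ℕ, Submodule F2 (X.M n)
  | 0 => ⊥
  | n + 1 => ⨆ j : Fin (n + 1), LinearMap.range (X.act (Op.dgn j))

theorem dgn_mem {n : ℕ} (j : Fin (n + 1)) (y : X.M n) : X.act (Op.dgn j) y ∈ X.Deg (n + 1) :=
  Submodule.mem_iSup_of_mem j ⟨y, rfl⟩

theorem moore_dgn {n : ℕ} (j : Fin (n + 1)) (y : X.M n) : X.moore (n + 1) (X.act (Op.dgn j) y) = 0 := by
  refine X.opP_fixed (i := j) (by omega) (n + 1) (by omega) le_rfl _ ?_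
  rw [tau_eq, act_comp, ← X.act_comp (Op.face j.succ), Ch.face_dgn_eq _ _ (Or.inr rfl), act_id]

theorem moore_of_mem {n : ℕ} {x : X.M n} (hx : x ∈ X.Deg n) : X.moore n x = 0 := by
  rcases n with _ | n
  · rw [Deg, Submodule.mem_bot] at hx; rw [hx, map_zero]
  · have : X.Deg (n + 1) ≤ LinearMap.ker (X.moore (n + 1)) := by
      rw [Deg, iSup_le_iff]
      rintro j _ ⟨y, rfl⟩
      exact X.moore_dgn j y
    exact this hx

theorem act_tau_mem {n j : ℕ} (h : j < n) (x : X.M n) : X.act (tau j h) x ∈ X.Deg n := by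
  obtain ⟨m, rfl⟩ : ∃ m, n = m + 1 := ⟨n - 1, by omega⟩
  have e : tau j h = (Op.face (⟨j, h⟩ : Fin (m + 1)).succ).comp (Op.dgn (⟨j, h⟩ : Fin (m + 1))) :=
    tau_eq (⟨j, h⟩ : Fin (m + 1))
  rw [e, act_comp]
  exact X.dgn_mem _ _

theorem sub_opP_mem {n : ℕ} (k : ℕ) (hk : k ≤ n) (x : X.M n) : x - X.opP n k x ∈ X.Deg n := by
  induction k generalizing x with
  | zero => simp [opP]
  | succ k ih =>
    have h1 := ih (by omega) (X.opA n k x)
    have h2 : x - X.opP n (k + 1) x = (X.opA n k x - X.opP n k (X.opA n k x)) -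
        X.act (tau k (by omega)) x := by
      show x - X.opP n k (X.opA n k x) = _
      rw [opA_lt _ (by omega : k < n)]; abel
    rw [h2]
    exact Submodule.sub_mem _ h1 (X.act_tau_mem _ _)

theorem sub_moore_mem {n : ℕ} (x : X.M n) : x - X.moore n x ∈ X.Deg n := X.sub_opP_mem n le_rfl x

theorem moore_eq_zero_iff {n : ℕ} {x : X.M n} : X.moore n x = 0 ↔ x ∈ X.Deg n := by
  refine ⟨fun h => ?_, X.moore_of_mem⟩
  have := X.sub_moore_mem x
  rwa [h, sub_zero] at this

theorem moore_moore {n : ℕ} (x : X.M n) : X.moore n (X.moore n x) = X.moore n x := by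
  have := X.moore_of_mem (X.sub_moore_mem x)
  rw [map_sub, sub_eq_zero] at this
  exact this.symm

/-- naturality -/
theorem moore_nat {X Y : SM} {n : ℕ} (φ : X.M n →ₗ[F2] Y.M n)
    (h : ∀ (f : Op n n) (x : X.M n), φ (X.act f x) = Y.act f (φ x)) (x : X.M n) :
    φ (X.moore n x) = Y.moore n (φ x) := by
  unfold moore
  suffices H : ∀ k ≤ n, ∀ x, φ (X.opP n k x) = Y.opP n k (φ x) from H n le_rfl x
  intro k
  induction k with
  | zero => intro _ x; rfl
  | succ k ih =>
    intro hk x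
    show φ (X.opP n k (X.opA n k x)) = Y.opP n k (Y.opA n k (φ x))
    rw [ih (by omega), opA_lt _ (by omega : k < n), opA_lt _ (by omega : k < n), map_add, h]

/-- sum of the faces -/
def dd (X : SM) (p : ℕ) : X.M (p + 1) →ₗ[F2] X.M p := ∑ i : Fin (p + 2), X.act (Op.face i)

theorem dd_apply (p : ℕ) (x : X.M (p + 1)) : X.dd p x = ∑ i : Fin (p + 2), X.act (Op.face i) x := by
  simp [dd, LinearMap.sum_apply]

/-- the sum of the faces preserves the degenerate part -/
theorem dd_mem {p : ℕ} {x : X.M (p + 1)} (hx : x ∈ X.Deg (p + 1)) : X.dd p x ∈ X.Deg p := by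
  have : X.Deg (p + 1) ≤ (X.Deg p).comap (X.dd p) := by
    rw [Deg, iSup_le_iff]
    rintro j _ ⟨y, rfl⟩
    rw [Submodule.mem_comap, dd_apply]
    rw [← Finset.sum_add_sum_compl ({j.castSucc, j.succ} : Finset (Fin (p + 2)))]
    refine Submodule.add_mem _ ?_ (Submodule.sum_mem _ ?_)
    · rw [Finset.sum_pair (by simp [Fin.ext_iff]), ← act_comp, ← act_comp,
        Ch.face_dgn_eq _ _ (Or.inl rfl), Ch.face_dgn_eq _ _ (Or.inr rfl), f2_add_self]
      exact Submodule.zero_mem _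
    · intro i hi
      simp only [Finset.mem_compl, Finset.mem_insert, Finset.mem_singleton, not_or] at hi
      rcases p with _ | p
      · exfalso
        have h1 := hi.1; have h2 := hi.2
        simp only [Fin.ext_iff, Fin.val_castSucc, Fin.val_succ] at h1 h2
        omega
      · obtain ⟨i', j', h⟩ := Ch.face_dgn_ne i j hi.1 hi.2
        rw [← act_comp, h, act_comp]
        exact X.dgn_mem _ _
  exact this hx

end SM

theorem Nmap_comp {K L M : SS} (f : SS.Hom K L) (g : SS.Hom L M) (c : N F2 K) :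
    N.map F2 g (N.map F2 f c) = N.map F2 (g.comp f) c := EZ271.map_map F2 f g c

theorem Hmap_mk {K L : SS} (f : SS.Hom K L) (z : N F2 K) (hz : N.bd F2 K z = 0)
    (hz' : N.bd F2 L (N.map F2 f z) = 0) :
    H.map F2 f (Hd.mk (N.bd F2 K) z hz) = Hd.mk (N.bd F2 L) (N.map F2 f z) hz' := rfl

theorem Hmap_comp {K L M : SS} (f : SS.Hom K L) (g : SS.Hom L M) (c : H F2 K) :
    H.map F2 g (H.map F2 f c) = H.map F2 (g.comp f) c := by
  obtain ⟨z, hz, rfl⟩ := Hd.mk_surj _ c
  have h1 : N.bd F2 L (N.map F2 f z) = 0 := by rw [← EZ271.map_bd', hz, map_zero]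
  have h2 : N.bd F2 M (N.map F2 g (N.map F2 f z)) = 0 := by rw [← EZ271.map_bd', h1, map_zero]
  have h3 : N.bd F2 M (N.map F2 (g.comp f) z) = 0 := by rw [← EZ271.map_bd', hz, map_zero]
  rw [Hmap_mk f z hz h1, Hmap_mk g _ h1 h2, Hmap_mk _ z hz h3]
  rw [Hd.mk_eq_mk]
  exact ⟨0, by rw [map_zero, Nmap_comp, sub_self]⟩

theorem Hmap_id {K : SS} (c : H F2 K) : H.map F2 (SS.Hom.id K) c = c := by
  obtain ⟨z, hz, rfl⟩ := Hd.mk_surj _ c
  have h3 : N.bd F2 K (N.map F2 (SS.Hom.id K) z) = 0 := by rw [← EZ271.map_bd', hz, map_zero]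
  rw [Hmap_mk _ z hz h3, Hd.mk_eq_mk]
  exact ⟨0, by rw [map_zero, EZ271.map_idHom, sub_self]⟩

namespace BSS

variable (E : BSS)

theorem colMap_comp {l m n : ℕ} (f : Op l m) (g : Op m n) :
    E.colMap (g.comp f) = (E.colMap f).comp (E.colMap g) :=
  SS.Hom.ext (funext fun _ => funext fun x => E.hact_comp f g x)

theorem colMap_id (n : ℕ) : E.colMap (OrderHom.id : Op n n) = SS.Hom.id _ :=
  SS.Hom.ext (funext fun _ => funext fun x => E.hact_id x)

/-- the simplicial module `p ↦ N F2 (E.col p)` -/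
@[reducible] def SN : SM where
  M p := N F2 (E.col p)
  act f := N.map F2 (E.colMap f)
  act_id x := by rw [colMap_id, EZ271.map_idHom]
  act_comp f g x := by rw [colMap_comp, Nmap_comp]

/-- the simplicial module `p ↦ H F2 (E.col p)` -/
@[reducible] def SH : SM where
  M p := H F2 (E.col p)
  act f := H.map F2 (E.colMap f)
  act_id x := by rw [colMap_id, Hmap_id]
  act_comp f g x := by rw [colMap_comp, Hmap_comp]

/-- `E¹_p` -/
abbrev E1 (p : ℕ) : Type := H F2 (E.col p) ⧸ E.SH.Deg p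

/-! ## filtration and grading -/

/-- horizontal filtration -/
def Fp (P : ℕ) : Submodule F2 E.Tot :=
  Submodule.span F2 {c | ∃ (p q : ℕ) (x : E.S p q), p ≤ P ∧ c = Tot.bx x}

/-- total degree -/
def grT (n : ℕ) : Submodule F2 E.Tot :=
  Submodule.span F2 {c | ∃ (p q : ℕ) (x : E.S p q), p + q = n ∧ c = Tot.bx x}

variable {E}

theorem bx_mem_Fp {p q P : ℕ} (x : E.S p q) (h : p ≤ P) : Tot.bx x ∈ E.Fp P :=
  Submodule.subset_span ⟨p, q, x, h, rfl⟩

theorem bx_mem_grT {p q n : ℕ} (x : E.S p q) (h : p + q = n) : Tot.bx x ∈ E.grT n :=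
  Submodule.subset_span ⟨p, q, x, h, rfl⟩

theorem Fp_le {P : ℕ} {S : Submodule F2 E.Tot}
    (h : ∀ (p q : ℕ) (x : E.S p q), p ≤ P → Tot.bx x ∈ S) : E.Fp P ≤ S := by
  rw [Fp, Submodule.span_le]
  rintro _ ⟨p, q, x, hp, rfl⟩
  exact h p q x hp

theorem grT_le {n : ℕ} {S : Submodule F2 E.Tot}
    (h : ∀ (p q : ℕ) (x : E.S p q), p + q = n → Tot.bx x ∈ S) : E.grT n ≤ S := by
  rw [grT, Submodule.span_le]
  rintro _ ⟨p, q, x, hp, rfl⟩
  exact h p q x hp

theorem Fp_mono : Monotone E.Fp := fun _ _ h => Fp_le fun _ _ x hp => bx_mem_Fp x (hp.trans h)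

theorem exists_Fp (x : E.Tot) : ∃ P, x ∈ E.Fp P := by
  refine Tot.induction_on (P := fun x => ∃ P, x ∈ E.Fp P) x ⟨0, Submodule.zero_mem _⟩ ?_ ?_
  · rintro a b ⟨P, hP⟩ ⟨Q, hQ⟩
    exact ⟨max P Q, Submodule.add_mem _ (Fp_mono (le_max_left _ _) hP) (Fp_mono (le_max_right _ _) hQ)⟩
  · intro p q x
    exact ⟨p, bx_mem_Fp x le_rfl⟩

theorem dH_Fp_zero {x : E.Tot} (hx : x ∈ E.Fp 0) : Tot.dH E x = 0 := by
  have : E.Fp 0 ≤ LinearMap.ker (Tot.dH E) := Fp_le fun p q x hp => by
    obtain rfl : p = 0 := by omega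
    exact Tot.dH_bx_zero x
  exact this hx

theorem dH_Fp {P : ℕ} {x : E.Tot} (hx : x ∈ E.Fp (P + 1)) : Tot.dH E x ∈ E.Fp P := by
  have : E.Fp (P + 1) ≤ (E.Fp P).comap (Tot.dH E) := Fp_le fun p q x hp => by
    rw [Submodule.mem_comap]
    rcases p with _ | p
    · rw [Tot.dH_bx_zero]; exact Submodule.zero_mem _
    · rw [Tot.dH_bx_succ]
      exact Submodule.sum_mem _ fun i _ => bx_mem_Fp _ (by omega)
  exact this hx

theorem dV_Fp {P : ℕ} {x : E.Tot} (hx : x ∈ E.Fp P) : Tot.dV E x ∈ E.Fp P := by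
  have : E.Fp P ≤ (E.Fp P).comap (Tot.dV E) := Fp_le fun p q x hp => by
    rw [Submodule.mem_comap]
    rcases q with _ | q
    · rw [Tot.dV_bx_zero]; exact Submodule.zero_mem _
    · rw [Tot.dV_bx_succ]
      exact Submodule.sum_mem _ fun i _ => bx_mem_Fp _ hp
  exact this hx

theorem D_Fp {P : ℕ} {x : E.Tot} (hx : x ∈ E.Fp P) : Tot.D E x ∈ E.Fp P := by
  rw [Tot.D_apply]
  refine Submodule.add_mem _ ?_ (dV_Fp hx)
  rcases P with _ | P
  · rw [dH_Fp_zero hx]; exact Submodule.zero_mem _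
  · exact Fp_mono (Nat.le_succ P) (dH_Fp hx)

theorem dH_grT {n : ℕ} {x : E.Tot} (hx : x ∈ E.grT (n + 1)) : Tot.dH E x ∈ E.grT n := by
  have : E.grT (n + 1) ≤ (E.grT n).comap (Tot.dH E) := grT_le fun p q x hp => by
    rw [Submodule.mem_comap]
    rcases p with _ | p
    · rw [Tot.dH_bx_zero]; exact Submodule.zero_mem _
    · rw [Tot.dH_bx_succ]
      exact Submodule.sum_mem _ fun i _ => bx_mem_grT _ (by omega)
  exact this hx

theorem dV_grT {n : ℕ} {x : E.Tot} (hx : x ∈ E.grT (n + 1)) : Tot.dV E x ∈ E.grT n := by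
  have : E.grT (n + 1) ≤ (E.grT n).comap (Tot.dV E) := grT_le fun p q x hp => by
    rw [Submodule.mem_comap]
    rcases q with _ | q
    · rw [Tot.dV_bx_zero]; exact Submodule.zero_mem _
    · rw [Tot.dV_bx_succ]
      exact Submodule.sum_mem _ fun i _ => bx_mem_grT _ (by omega)
  exact this hx

theorem D_grT {n : ℕ} {x : E.Tot} (hx : x ∈ E.grT (n + 1)) : Tot.D E x ∈ E.grT n := by
  rw [Tot.D_apply]; exact Submodule.add_mem _ (dH_grT hx) (dV_grT hx)

theorem D_grT_zero {x : E.Tot} (hx : x ∈ E.grT 0) : Tot.D E x = 0 := by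
  have : E.grT 0 ≤ LinearMap.ker (Tot.D E) := grT_le fun p q x hp => by
    obtain rfl : p = 0 := by omega
    obtain rfl : q = 0 := by omega
    rw [LinearMap.mem_ker, Tot.D_apply, Tot.dH_bx_zero, Tot.dV_bx_zero, add_zero]
  exact this hx

variable (E)

/-- the filtered complex of a bisimplicial set -/
@[reducible] def FCof : Bar334.FC where
  T := E.Tot
  d := Tot.D E
  dd := Tot.D_D
  gr := E.grT
  d_gr _ _ hx := D_grT hx
  d_gr0 _ hx := D_grT_zero hx
  F := E.Fp
  F_mono := Fp_mono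
  d_F _ _ hx := D_Fp hx
  gr_F n := grT_le fun p q x h => bx_mem_Fp x (by omega)

/-! ## components -/

variable {E}

theorem ofCol_dgn {p : ℕ} (j : Fin (p + 1)) (z : N F2 (E.col p)) :
    Tot.ofCol E (p + 1) (N.map F2 (E.colMap (Op.dgn j)) z) = 0 := by
  have : Tot.ofCol E (p + 1) ∘ₗ N.map F2 (E.colMap (Op.dgn j)) = 0 := EZ271.hom_ext fun q x => by
    rw [LinearMap.comp_apply, N.map_sx, LinearMap.zero_apply]
    exact (Tot.ofCol_sx _ _ _).trans (Tot.bx_hdgn j x)
  exact LinearMap.congr_fun this z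

theorem ofCol_of_mem {p : ℕ} {z : N F2 (E.col p)} (hz : z ∈ E.SN.Deg p) : Tot.ofCol E p z = 0 := by
  rcases p with _ | p
  · have : z = 0 := hz
    rw [this, map_zero]
  · have : E.SN.Deg (p + 1) ≤ LinearMap.ker (Tot.ofCol E (p + 1)) := by
      rw [SM.Deg, iSup_le_iff]
      rintro j _ ⟨y, rfl⟩
      exact ofCol_dgn j y
    exact this hz

theorem sx_hact {m n q : ℕ} (f : Op m n) (x : E.S n q) :
    N.sx F2 (K := E.col m) (n := q) (E.hact f x) = N.map F2 (E.colMap f) (N.sx F2 (K := E.col n) (n := q) x) := by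
  rw [N.map_sx (E.colMap f) (n := q) x]; rfl

theorem sx_vdgn {p q : ℕ} (j : Fin (q + 1)) (y : E.S p q) :
    N.sx F2 (K := E.col p) (n := q + 1) (E.vact (Op.dgn j) y) = 0 := N.sx_dgn (K := E.col p) j y

variable (E) in
/-- the Moore projection on `N F2 (E.col p)` -/
def mooreN (p : ℕ) : N F2 (E.col p) →ₗ[F2] N F2 (E.col p) := E.SN.moore p

theorem mooreN_hdgn {p q : ℕ} (j : Fin (p + 1)) (y : E.S p q) :
    mooreN E (p + 1) (N.sx F2 (K := E.col (p + 1)) (n := q) (E.hact (Op.dgn j) y)) = 0 := by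
  rw [sx_hact]; exact E.SN.moore_dgn j _

theorem ofCol_moore {p : ℕ} (z : N F2 (E.col p)) : Tot.ofCol E p (mooreN E p z) = Tot.ofCol E p z := by
  have := ofCol_of_mem (E.SN.sub_moore_mem (n := p) z)
  have h2 := map_sub (Tot.ofCol E p) z (E.SN.moore p z)
  rw [h2, sub_eq_zero] at this
  exact this.symm

theorem moore_bd {p : ℕ} (z : N F2 (E.col p)) :
    N.bd F2 _ (mooreN E p z) = mooreN E p (N.bd F2 _ z) :=
  SM.moore_nat (X := E.SN) (Y := E.SN) (N.bd F2 (E.col p)) (fun _ x => (EZ271.map_bd' F2 _ x).symm) z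

theorem moore_gr {p q : ℕ} {z : N F2 (E.col p)} (hz : z ∈ N.gr F2 (E.col p) q) :
    mooreN E p z ∈ N.gr F2 (E.col p) q := by
  unfold mooreN SM.moore
  suffices H : ∀ k ≤ p, ∀ z ∈ N.gr F2 (E.col p) q, E.SN.opP p k z ∈ N.gr F2 (E.col p) q from
    H p le_rfl z hz
  intro k
  induction k with
  | zero => intro _ z hz; exact hz
  | succ k ih =>
    intro hk z hz
    refine ih (by omega) _ ?_
    rw [SM.opA_lt _ (by omega : k < p)]
    exact Submodule.add_mem _ hz (Gr334.map_mem_gr _ hz)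

/-- value of the `p`-component on a bisimplex -/
def compV (p : ℕ) {p' q : ℕ} (x : E.S p' q) : N F2 (E.col p) :=
  if h : p' = p then mooreN E p (N.sx F2 (K := E.col p) (n := q) (h ▸ x)) else 0

theorem compV_self {p q : ℕ} (x : E.S p q) :
    compV p x = mooreN E p (N.sx F2 (K := E.col p) (n := q) x) := by
  rw [compV, dif_pos rfl]

theorem compV_ne {p p' q : ℕ} (h : p' ≠ p) (x : E.S p' q) : compV p x = 0 := by
  rw [compV, dif_neg h]

variable (E) in
/-- the `p`-component, horizontally Moore projected -/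
def comp (p : ℕ) : E.Tot →ₗ[F2] N F2 (E.col p) :=
  Tot.lift (fun p' q x => compV p x)
    (fun p' q j y => by
      by_cases h : p' + 1 = p
      · subst h; rw [compV_self, mooreN_hdgn]
      · rw [compV_ne h])
    (fun p' q j y => by
      by_cases h : p' = p
      · subst h; rw [compV_self, sx_vdgn, map_zero]
      · rw [compV_ne h])

theorem comp_bx_self {p q : ℕ} (x : E.S p q) :
    comp E p (Tot.bx x) = mooreN E p (N.sx F2 (K := E.col p) (n := q) x) := by
  rw [comp, Tot.lift_bx, compV_self]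

theorem comp_bx_ne {p p' q : ℕ} (h : p' ≠ p) (x : E.S p q) : comp E p' (Tot.bx x) = 0 := by
  rw [comp, Tot.lift_bx, compV_ne (Ne.symm h)]

theorem comp_ofCol (p : ℕ) (z : N F2 (E.col p)) : comp E p (Tot.ofCol E p z) = mooreN E p z := by
  have : comp E p ∘ₗ Tot.ofCol E p = mooreN E p := EZ271.hom_ext fun q x => by
    rw [LinearMap.comp_apply]
    exact (congrArg (comp E p) (Tot.ofCol_sx _ _ _)).trans (comp_bx_self x)
  exact LinearMap.congr_fun this z

theorem comp_ofCol_ne {p p' : ℕ} (h : p' ≠ p) (z : N F2 (E.col p)) :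
    comp E p' (Tot.ofCol E p z) = 0 := by
  have : comp E p' ∘ₗ Tot.ofCol E p = 0 := EZ271.hom_ext fun q x => by
    rw [LinearMap.comp_apply, LinearMap.zero_apply]
    exact (congrArg (comp E p') (Tot.ofCol_sx _ _ _)).trans (comp_bx_ne h x)
  exact LinearMap.congr_fun this z

theorem ofCol_mem_Fp (p : ℕ) (z : N F2 (E.col p)) : Tot.ofCol E p z ∈ E.Fp p := by
  refine EZ271.N_induction (R := F2) (p := fun z => Tot.ofCol E p z ∈ E.Fp p) z ?_ ?_ ?_ ?_
  · rw [map_zero]; exact Submodule.zero_mem _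
  · intro a b ha hb; rw [map_add]; exact Submodule.add_mem _ ha hb
  · intro r a ha; rw [map_smul]; exact Submodule.smul_mem _ _ ha
  · intro q x
    have := bx_mem_Fp (E := E) (p := p) (q := q) (P := p) x le_rfl
    rwa [← Tot.ofCol_sx] at this

theorem ofCol_mem_grT {p q : ℕ} {z : N F2 (E.col p)} (hz : z ∈ N.gr F2 (E.col p) q) :
    Tot.ofCol E p z ∈ E.grT (p + q) := by
  refine Gr334.gr_induction (p := fun z => Tot.ofCol E p z ∈ E.grT (p + q)) hz ?_ ?_ ?_ ?_
  · rw [map_zero]; exact Submodule.zero_mem _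
  · intro a b ha hb; rw [map_add]; exact Submodule.add_mem _ ha hb
  · intro r a ha; rw [map_smul]; exact Submodule.smul_mem _ _ ha
  · intro x
    have := bx_mem_grT (E := E) (p := p) (q := q) (n := p + q) x rfl
    rwa [← Tot.ofCol_sx] at this

/-- induction for elements of the total complex through columns -/
theorem tot_induction {Pr : E.Tot → Prop} (c : E.Tot) (h0 : Pr 0)
    (hadd : ∀ a b, Pr a → Pr b → Pr (a + b)) (h : ∀ (p : ℕ) (z : N F2 (E.col p)), Pr (Tot.ofCol E p z)) :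
    Pr c := by
  refine Tot.induction_on (P := Pr) c h0 hadd ?_
  intro p q x
  have := h p (N.sx F2 (K := E.col p) (n := q) x)
  rwa [Tot.ofCol_sx] at this

/-- the components of `dV` -/
theorem comp_dV (p : ℕ) (x : E.Tot) : comp E p (Tot.dV E x) = N.bd F2 _ (comp E p x) := by
  refine tot_induction (Pr := fun x => comp E p (Tot.dV E x) = N.bd F2 _ (comp E p x)) x ?_ ?_ ?_
  · simp
  · intro a b ha hb; simp only [map_add, ha, hb]
  · intro p' z
    rw [Tot.dV_ofCol]
    by_cases h : p = p'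
    · subst h
      rw [comp_ofCol, comp_ofCol, moore_bd]
    · rw [comp_ofCol_ne h, comp_ofCol_ne h, map_zero]

theorem comp_Fp {P p : ℕ} (h : P < p) {x : E.Tot} (hx : x ∈ E.Fp P) : comp E p x = 0 := by
  have : E.Fp P ≤ LinearMap.ker (comp E p) := Fp_le fun p' q x hp => by
    rw [LinearMap.mem_ker]; exact comp_bx_ne (by omega) x
  exact this hx

theorem sub_ofCol_comp_mem {P : ℕ} {x : E.Tot} (hx : x ∈ E.Fp (P + 1)) :
    x - Tot.ofCol E (P + 1) (comp E (P + 1) x) ∈ E.Fp P := by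
  have : E.Fp (P + 1) ≤ (E.Fp P).comap (LinearMap.id - Tot.ofCol E (P + 1) ∘ₗ comp E (P + 1)) :=
    Fp_le fun p q x hp => by
      rw [Submodule.mem_comap, LinearMap.sub_apply, LinearMap.id_apply, LinearMap.comp_apply]
      rcases Nat.lt_or_ge p (P + 1) with h | h
      · rw [comp_bx_ne (by omega), map_zero, sub_zero]
        exact bx_mem_Fp x (by omega)
      · obtain rfl : p = P + 1 := by omega
        rw [comp_bx_self, ofCol_moore]
        have e : Tot.ofCol E (P + 1) (N.sx F2 (K := E.col (P + 1)) (n := q) x) = Tot.bx x :=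
          Tot.ofCol_sx _ _ _
        rw [e, sub_self]
        exact Submodule.zero_mem _
  exact this hx

theorem ofCol_comp_zero {x : E.Tot} (hx : x ∈ E.Fp 0) : Tot.ofCol E 0 (comp E 0 x) = x := by
  have : E.Fp 0 ≤ LinearMap.ker (LinearMap.id - Tot.ofCol E 0 ∘ₗ comp E 0) := Fp_le fun p q x hp => by
    obtain rfl : p = 0 := by omega
    rw [LinearMap.mem_ker, LinearMap.sub_apply, LinearMap.id_apply, LinearMap.comp_apply, comp_bx_self,
      ofCol_moore]
    have e : Tot.ofCol E 0 (N.sx F2 (K := E.col 0) (n := q) x) = Tot.bx x := Tot.ofCol_sx _ _ _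
    rw [e, sub_self]
  have h := this hx
  rw [LinearMap.mem_ker, LinearMap.sub_apply, LinearMap.id_apply, LinearMap.comp_apply, sub_eq_zero] at h
  exact h.symm

theorem comp_gr {p q : ℕ} {x : E.Tot} (hx : x ∈ E.grT (p + q)) : comp E p x ∈ N.gr F2 (E.col p) q := by
  have : E.grT (p + q) ≤ (N.gr F2 (E.col p) q).comap (comp E p) := grT_le fun p' q' x h => by
    rw [Submodule.mem_comap]
    by_cases e : p = p'
    · subst e
      obtain rfl : q' = q := by omega
      rw [comp_bx_self]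
      exact moore_gr (Gr334.sx_mem_gr _)
    · rw [comp_bx_ne e]; exact Submodule.zero_mem _
  exact this hx

theorem comp_gr_lt {p n : ℕ} (h : n < p) {x : E.Tot} (hx : x ∈ E.grT n) : comp E p x = 0 := by
  have : E.grT n ≤ LinearMap.ker (comp E p) := grT_le fun p' q' x h' => by
    rw [LinearMap.mem_ker]; exact comp_bx_ne (by omega) x
  exact this hx

/-! ## leading terms -/

theorem mem_Z {p : ℕ} {x : E.Tot} : x ∈ (FCof E).Z p ↔ x ∈ E.Fp p ∧ Tot.D E x ∈ (FCof E).F' p := Iff.rfl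

theorem comp_F' {p : ℕ} {x : E.Tot} (hx : x ∈ (FCof E).F' p) : comp E p x = 0 := by
  rcases p with _ | p
  · have : x = 0 := hx
    rw [this, map_zero]
  · exact comp_Fp (Nat.lt_succ_self p) hx

theorem comp_dH {p : ℕ} {x : E.Tot} (hx : x ∈ E.Fp p) : comp E p (Tot.dH E x) = 0 := by
  rcases p with _ | p
  · rw [dH_Fp_zero hx, map_zero]
  · exact comp_Fp (Nat.lt_succ_self p) (dH_Fp hx)

theorem bd_comp_Z {p : ℕ} {x : E.Tot} (hx : x ∈ (FCof E).Z p) : N.bd F2 _ (comp E p x) = 0 := by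
  obtain ⟨h1, h2⟩ := mem_Z.1 hx
  have h3 := comp_F' h2
  rw [Tot.D_apply, map_add, comp_dH h1, zero_add, comp_dV] at h3
  exact h3

variable (E) in
/-- the class of the leading term in the homology of the column -/
def leadH (p : ℕ) : ↥((FCof E).Z p) →ₗ[F2] H F2 (E.col p) :=
  (Submodule.mkQ _) ∘ₗ LinearMap.codRestrict (LinearMap.ker (N.bd F2 (E.col p)))
    (comp E p ∘ₗ ((FCof E).Z p).subtype) (fun x => bd_comp_Z x.2)

theorem leadH_apply (p : ℕ) (x : (FCof E).Z p) :
    leadH E p x = Hd.mk (N.bd F2 (E.col p)) (comp E p (x : E.Tot)) (bd_comp_Z x.2) := rfl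

variable (E) in
/-- the leading term in `E¹_p` -/
def lead (p : ℕ) : ↥((FCof E).Z p) →ₗ[F2] E.E1 p := (Submodule.mkQ _) ∘ₗ leadH E p

theorem lead_apply (p : ℕ) (x : (FCof E).Z p) :
    lead E p x = Submodule.Quotient.mk (leadH E p x) := rfl

/-- the homology class of a Moore projected cycle -/
theorem mooreH_mk {p : ℕ} (z : N F2 (E.col p)) (hz : N.bd F2 _ z = 0)
    (hz' : N.bd F2 _ (mooreN E p z) = 0) :
    E.SH.moore p (Hd.mk (N.bd F2 (E.col p)) z hz) = Hd.mk (N.bd F2 (E.col p)) (mooreN E p z) hz' := by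
  have H : ∀ k ≤ p, ∀ (z : N F2 (E.col p)) (hz : N.bd F2 _ z = 0) (hz' : N.bd F2 _ (E.SN.opP p k z) = 0),
      E.SH.opP p k (Hd.mk (N.bd F2 (E.col p)) z hz) =
        Hd.mk (N.bd F2 (E.col p)) (E.SN.opP p k z) hz' := by
    intro k
    induction k with
    | zero => intro _ z hz hz'; rfl
    | succ k ih =>
      intro hk z hz hz'
      have h1 : N.bd F2 (E.col p) (E.SN.opA p k z) = 0 := by
        rw [SM.opA_lt _ (by omega : k < p), map_add, hz, zero_add]
        exact (EZ271.map_bd' F2 _ z).symm.trans (by rw [hz, map_zero])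
      have h2 : E.SH.opA p k (Hd.mk (N.bd F2 (E.col p)) z hz) =
          Hd.mk (N.bd F2 (E.col p)) (E.SN.opA p k z) h1 := by
        rw [SM.opA_lt _ (by omega : k < p)]
        have e := SM.opA_lt E.SN (by omega : k < p) z
        have h3 : N.bd F2 (E.col p) (z + E.SN.act (tau k (by omega)) z) = 0 := by rw [← e]; exact h1
        have : Hd.mk (N.bd F2 (E.col p)) (E.SN.opA p k z) h1 =
            Hd.mk (N.bd F2 (E.col p)) (z + E.SN.act (tau k (by omega)) z) h3 := by
          congr 1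
        rw [this]
        rfl
      show E.SH.opP p k (E.SH.opA p k _) = _
      rw [h2]
      exact ih (by omega) _ h1 hz'
  exact H p le_rfl z hz hz'

theorem moore_comp (p : ℕ) (x : E.Tot) : mooreN E p (comp E p x) = comp E p x := by
  refine tot_induction (Pr := fun x => mooreN E p (comp E p x) = comp E p x) x ?_ ?_ ?_
  · simp
  · intro a b ha hb
    rw [map_add]
    exact (map_add (mooreN E p) _ _).trans (by rw [ha, hb])
  · intro p' z
    by_cases h : p = p'
    · subst h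
      rw [comp_ofCol]
      exact SM.moore_moore E.SN z
    · rw [comp_ofCol_ne h]
      exact map_zero _

/-- the leading class lies in the Moore part, so it vanishes as soon as it is degenerate -/
theorem leadH_eq_zero_of_lead {p : ℕ} {x : (FCof E).Z p} (h : lead E p x = 0) : leadH E p x = 0 := by
  rw [lead_apply, Submodule.Quotient.mk_eq_zero] at h
  have h1 := E.SH.moore_of_mem h
  rw [leadH_apply] at h1 ⊢
  have h2 : N.bd F2 (E.col p) (mooreN E p (comp E p (x : E.Tot))) = 0 := by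
    rw [moore_comp]; exact bd_comp_Z x.2
  rw [mooreH_mk _ _ h2] at h1
  have : Hd.mk (N.bd F2 (E.col p)) (comp E p (x : E.Tot)) (bd_comp_Z x.2) =
      Hd.mk (N.bd F2 (E.col p)) (mooreN E p (comp E p (x : E.Tot))) h2 := by
    congr 1
    exact (moore_comp _ _).symm
  rw [this]; exact h1

theorem Hd_mk_congr {M : Type} [AddCommGroup M] [Module F2 M] {d : M →ₗ[F2] M} {z z' : M} (h : z = z')
    (hz : d z = 0) (hz' : d z' = 0) : Hd.mk d z hz = Hd.mk d z' hz' := by
  subst h; rfl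

/-- lower filtration has leading term zero -/
theorem leadH_low {p : ℕ} (x : (FCof E).Z (p + 1)) (hx : (x : E.Tot) ∈ E.Fp p) : leadH E (p + 1) x = 0 := by
  rw [leadH_apply, Hd.mk_eq_zero]
  exact ⟨0, by rw [map_zero, comp_Fp (Nat.lt_succ_self p) hx]⟩

theorem lead_low {p : ℕ} (x : (FCof E).Z (p + 1)) (hx : (x : E.Tot) ∈ E.Fp p) : lead E (p + 1) x = 0 := by
  rw [lead_apply, leadH_low x hx, Submodule.Quotient.mk_zero]

/-- vertical boundaries have leading term zero -/
theorem leadH_bd {p : ℕ} (x : (FCof E).Z p) (hx : ∃ y ∈ E.Fp p, Tot.D E y = (x : E.Tot)) :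
    leadH E p x = 0 := by
  obtain ⟨y, hy, e⟩ := hx
  rw [leadH_apply, Hd.mk_eq_zero]
  refine ⟨comp E p y, ?_⟩
  rw [← e, Tot.D_apply, map_add, comp_dH hy, zero_add, comp_dV]

theorem lead_bd {p : ℕ} (x : (FCof E).Z p) (hx : ∃ y ∈ E.Fp p, Tot.D E y = (x : E.Tot)) :
    lead E p x = 0 := by
  rw [lead_apply, leadH_bd x hx, Submodule.Quotient.mk_zero]

/-- the kernel of the leading term -/
theorem lead_ker {p n : ℕ} (x : (FCof E).Z (p + 1)) (hn : (x : E.Tot) ∈ E.grT n)
    (h : lead E (p + 1) x = 0) :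
    ∃ y ∈ E.Fp (p + 1) ⊓ E.grT (n + 1), (x : E.Tot) - Tot.D E y ∈ E.Fp p := by
  have hx := (mem_Z.1 x.2).1
  rcases Nat.lt_or_ge n (p + 1) with hlt | hge
  · refine ⟨0, Submodule.zero_mem _, ?_⟩
    rw [map_zero, sub_zero]
    have := sub_ofCol_comp_mem hx
    rw [comp_gr_lt hlt hn, map_zero, sub_zero] at this
    exact this
  · obtain ⟨q, rfl⟩ : ∃ q, n = p + 1 + q := ⟨n - (p + 1), by omega⟩
    have h1 := leadH_eq_zero_of_lead h
    rw [leadH_apply, Hd.mk_eq_zero] at h1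
    obtain ⟨y, hy⟩ := h1
    have hc := comp_gr (E := E) (p := p + 1) (q := q) hn
    have hy' : N.bd F2 _ (Gr334.prN F2 _ (q + 1) y) = comp E (p + 1) (x : E.Tot) := by
      rw [← Gr334.prN_bd, hy]
      exact Gr334.prN_of_mem hc
    refine ⟨Tot.ofCol E (p + 1) (Gr334.prN F2 _ (q + 1) y), ⟨ofCol_mem_Fp _ _, ?_⟩, ?_⟩
    · have := ofCol_mem_grT (E := E) (p := p + 1) (Gr334.prN_mem (R := F2) (q + 1) y)
      rwa [← add_assoc] at this
    · rw [Tot.D_apply, Tot.dV_ofCol, hy']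
      have h2 := sub_ofCol_comp_mem hx
      have h3 := dH_Fp (ofCol_mem_Fp (E := E) (p + 1) (Gr334.prN F2 _ (q + 1) y))
      have : (x : E.Tot) - (Tot.dH E (Tot.ofCol E (p + 1) (Gr334.prN F2 _ (q + 1) y)) +
          Tot.ofCol E (p + 1) (comp E (p + 1) (x : E.Tot))) =
          ((x : E.Tot) - Tot.ofCol E (p + 1) (comp E (p + 1) (x : E.Tot))) -
            Tot.dH E (Tot.ofCol E (p + 1) (Gr334.prN F2 _ (q + 1) y)) := by abel
      rw [this]
      exact Submodule.sub_mem _ h2 h3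

/-- every cycle of a column gives a vertical cycle -/
theorem ofCol_mem_Z {p : ℕ} {z : N F2 (E.col p)} (hz : N.bd F2 _ z = 0) :
    Tot.ofCol E p z ∈ (FCof E).Z p := by
  refine mem_Z.2 ⟨ofCol_mem_Fp _ _, ?_⟩
  rw [Tot.D_apply, Tot.dV_ofCol, hz, map_zero, add_zero]
  rcases p with _ | p
  · have := dH_Fp_zero (ofCol_mem_Fp (E := E) 0 z)
    rw [this]; exact Submodule.zero_mem _
  · exact dH_Fp (ofCol_mem_Fp _ _)

theorem mk_moore_eq {p : ℕ} (h : H F2 (E.col p)) :
    (Submodule.Quotient.mk (E.SH.moore p h) : E.E1 p) = Submodule.Quotient.mk h := by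
  have := E.SH.sub_moore_mem (n := p) h
  rw [← Submodule.Quotient.mk_eq_zero, Submodule.Quotient.mk_sub, sub_eq_zero] at this
  exact this.symm

/-- leading term of a cycle of a column -/
theorem lead_ofCol {p : ℕ} (z : N F2 (E.col p)) (hz : N.bd F2 _ z = 0)
    (h : Tot.ofCol E p z ∈ (FCof E).Z p) :
    lead E p ⟨Tot.ofCol E p z, h⟩ = Submodule.Quotient.mk (Hd.mk (N.bd F2 (E.col p)) z hz) := by
  rw [lead_apply, leadH_apply, ← mk_moore_eq (Hd.mk _ z hz)]
  have h2 : N.bd F2 (E.col p) (mooreN E p z) = 0 := by rw [moore_bd, hz, map_zero]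
  rw [mooreH_mk z hz h2]
  congr 1
  exact Hd_mk_congr (comp_ofCol p z) _ _

/-- the leading term is additive over lower filtration: an element of `Z p` with component `c` -/
theorem lead_eq_of_comp {p : ℕ} (x : (FCof E).Z p) (z : N F2 (E.col p)) (hz : N.bd F2 _ z = 0)
    (h : comp E p (x : E.Tot) = mooreN E p z) :
    lead E p x = Submodule.Quotient.mk (Hd.mk (N.bd F2 (E.col p)) z hz) := by
  rw [lead_apply, leadH_apply, ← mk_moore_eq (Hd.mk _ z hz)]
  have h2 : N.bd F2 (E.col p) (mooreN E p z) = 0 := by rw [moore_bd, hz, map_zero]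
  rw [mooreH_mk z hz h2]
  congr 1
  exact Hd_mk_congr h _ _

/-- if `x ∈ Z p` is `ofCol z` modulo lower filtration, its leading term is the class of `z` -/
theorem lead_eq_of_sub {p : ℕ} (x : (FCof E).Z (p + 1)) (z : N F2 (E.col (p + 1))) (hz : N.bd F2 _ z = 0)
    (h : (x : E.Tot) - Tot.ofCol E (p + 1) z ∈ E.Fp p) :
    lead E (p + 1) x = Submodule.Quotient.mk (Hd.mk (N.bd F2 (E.col (p + 1))) z hz) := by
  refine lead_eq_of_comp x z hz ?_
  have := comp_Fp (Nat.lt_succ_self p) h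
  rw [map_sub, comp_ofCol, sub_eq_zero] at this
  exact this

variable (E) in
/-- the differential of `E¹`: sum of the faces -/
def dE1 (p : ℕ) : E.E1 (p + 1) →ₗ[F2] E.E1 p :=
  Submodule.mapQ _ _ (E.SH.dd p) (fun _ hx => E.SH.dd_mem hx)

theorem dE1_mk (p : ℕ) (h : H F2 (E.col (p + 1))) :
    dE1 E p (Submodule.Quotient.mk h) =
      Submodule.Quotient.mk (∑ i : Fin (p + 2), H.map F2 (E.colMap (Op.face i)) h) := by
  show Submodule.Quotient.mk (E.SH.dd p h) = _
  rw [SM.dd_apply]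

theorem D_mem_Z {p : ℕ} {x : E.Tot} (hx : x ∈ (FCof E).Z (p + 1)) : Tot.D E x ∈ (FCof E).Z p := by
  refine mem_Z.2 ⟨(mem_Z.1 hx).2, ?_⟩
  rw [Tot.D_D]; exact Submodule.zero_mem _

/-- `d¹` -/
theorem lead_D {p : ℕ} (x : (FCof E).Z (p + 1)) (h : Tot.D E (x : E.Tot) ∈ (FCof E).Z p) :
    lead E p ⟨Tot.D E (x : E.Tot), h⟩ = dE1 E p (lead E (p + 1) x) := by
  have hx := (mem_Z.1 x.2).1
  set c := comp E (p + 1) (x : E.Tot) with hc
  have hcb : N.bd F2 _ c = 0 := bd_comp_Z x.2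
  -- x = ofCol c + y, y ∈ F p
  set y := (x : E.Tot) - Tot.ofCol E (p + 1) c with hy
  have hyF : y ∈ E.Fp p := sub_ofCol_comp_mem hx
  have e1 : comp E p (Tot.D E (x : E.Tot)) =
      mooreN E p (∑ i : Fin (p + 2), N.map F2 (E.colMap (Op.face i)) c) + N.bd F2 _ (comp E p y) := by
    have : (x : E.Tot) = Tot.ofCol E (p + 1) c + y := by rw [hy]; abel
    rw [this, Tot.D_apply, map_add (Tot.dH E), map_add (Tot.dV E), Tot.dV_ofCol, hcb, map_zero, zero_add,
      map_add, map_add, Tot.dH_ofCol_succ, map_sum, comp_dH hyF, add_zero, comp_dV, map_sum]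
    congr 1
    exact Finset.sum_congr rfl fun i _ => comp_ofCol p _
  rw [lead_apply, leadH_apply]
  have h3 : ∀ i : Fin (p + 2), N.bd F2 (E.col p) (N.map F2 (E.colMap (Op.face i)) c) = 0 := fun i => by
    rw [← EZ271.map_bd', hcb, map_zero]
  have h4 : N.bd F2 (E.col p) (∑ i : Fin (p + 2), N.map F2 (E.colMap (Op.face i)) c) = 0 := by
    rw [map_sum]; exact Finset.sum_eq_zero fun i _ => h3 i
  have h5 : N.bd F2 (E.col p) (mooreN E p (∑ i : Fin (p + 2), N.map F2 (E.colMap (Op.face i)) c)) = 0 := by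
    rw [moore_bd, h4, map_zero]
  have e2 : Hd.mk (N.bd F2 (E.col p)) (comp E p (Tot.D E (x : E.Tot))) (bd_comp_Z h) =
      Hd.mk (N.bd F2 (E.col p)) (mooreN E p (∑ i : Fin (p + 2), N.map F2 (E.colMap (Op.face i)) c)) h5 := by
    rw [Hd.mk_eq_mk]
    exact ⟨comp E p y, by rw [e1]; abel⟩
  rw [e2]
  have e3 := mooreH_mk _ h4 h5
  rw [← e3, mk_moore_eq, lead_apply, leadH_apply, dE1_mk]
  congr 1
  have e4 : Hd.mk (N.bd F2 (E.col p)) (∑ i : Fin (p + 2), N.map F2 (E.colMap (Op.face i)) c) h4 =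
      ∑ i : Fin (p + 2), Hd.mk (N.bd F2 (E.col p)) (N.map F2 (E.colMap (Op.face i)) c) (h3 i) :=
    Gr334.mk_sum _ _ h3 _
  rw [e4]
  rfl

end BSS

end Crest.Agent.R204.Bis343
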