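import Crest.Agent.R204.BrF_170
import Crest.Agent.R204.E1_459
import Crest.Agent.R204.Bis4_343
import Crest.Agent.R204.Gr_334

/-!
# Row 204, block B: `BarData` from a principal fibration `X : PFib`, with `Psi` as input (helper170)
-/

set_option autoImplicit false

namespace Crest.Agent.R204.Bar170

open Crest.Agent.R204 Crest.Agent.R204.Bis343 Crest.Agent.R204.SingAct265 Crest.Agent.R204.Coalg847
open TensorProduct

/-! ## grading lemmas in `Finsupp` form -/

theorem gr_top {K : SS} (x : H F2 K) :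
    ∃ c : ℕ →₀ H F2 K, (∀ n, c n ∈ H.gr F2 K n) ∧ x = c.sum fun _ y => y := by
  classical
  obtain ⟨M, h1, h2⟩ := Gr334.exists_sum_prH x
  refine ⟨Finsupp.onFinset (Finset.range M) (fun n => Gr334.prH F2 K n x) (fun n hn => ?_),
    fun n => Gr334.prH_mem n x, ?_⟩
  · rw [Finset.mem_range]
    by_contra h
    exact hn (h1 n (not_lt.1 h))
  · rw [Finsupp.sum, Finset.sum_subset Finsupp.support_onFinset_subset]
    · exact h2
    · intro n _ hn
      exact Finsupp.notMem_support_iff.1 hn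

theorem gr_ind {K : SS} (c : ℕ →₀ H F2 K) (hc : ∀ n, c n ∈ H.gr F2 K n)
    (h : (c.sum fun _ y => y) = 0) : c = 0 := by
  classical
  refine Finsupp.ext fun n => ?_
  have h1 := congrArg (Gr334.prH F2 K n) h
  rw [Finsupp.sum, map_sum, map_zero] at h1
  rw [Finsupp.coe_zero, Pi.zero_apply, ← h1]
  by_cases hn : n ∈ c.support
  · rw [Finset.sum_eq_single_of_mem n hn]
    · exact (Gr334.prH_of_mem (hc n)).symm
    · intro m _ hm
      exact Gr334.prH_of_mem_ne hm (hc m)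
  · rw [Finsupp.notMem_support_iff.1 hn]
    refine (Finset.sum_eq_zero fun m hm => ?_).symm
    refine Gr334.prH_of_mem_ne ?_ (hc m)
    rintro rfl
    exact hn hm

namespace PFib

variable (X : PFib) (hi : SpecA.HomotopyInv) (Z : EZData)

/-- `al a x = alpha_* (a × x)` as a bilinear map -/
noncomputable def alL (p : ℕ) : H F2 X.G →ₗ[F2] H F2 (X.E p) →ₗ[F2] H F2 (X.E (p + 1)) :=
  TensorProduct.curry ((H.map F2 (X.alpha p)) ∘ₗ (Z.cr X.G (X.E p)).toLinearMap)

theorem alL_apply (p : ℕ) (a : H F2 X.G) (x : H F2 (X.E p)) :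
    X.alL Z p a x = H.map F2 (X.alpha p) (Z.cr X.G (X.E p) (a ⊗ₜ x)) := rfl

/-- Pontryagin product as a bilinear map -/
noncomputable def mulL : H F2 X.G →ₗ[F2] H F2 X.G →ₗ[F2] H F2 X.G :=
  TensorProduct.curry ((H.map F2 X.mul) ∘ₗ (Z.cr X.G X.G).toLinearMap)

theorem mulL_apply (a b : H F2 X.G) : X.mulL Z a b = X.mulH Z a b := rfl

include hi in
theorem alL_bij (p : ℕ) : Function.Bijective (TensorProduct.lift (X.alL Z p)) := by
  have : TensorProduct.lift (X.alL Z p) =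
      ((Z.cr X.G (X.E p)).trans (X.alphaH hi p)).toLinearMap := by
    refine TensorProduct.ext' fun a x => ?_
    rw [TensorProduct.lift.tmul]
    rfl
  rw [this]
  exact ((Z.cr X.G (X.E p)).trans (X.alphaH hi p)).bijective

theorem fa_zero_al (p : ℕ) (a : H F2 X.G) (x : H F2 (X.E p)) :
    X.fa p 0 (X.alL Z p a x) = eps _ a • x := by
  rw [alL_apply, fa, map_comp']
  have : ((cech X.π).colMap (Op.face 0)).comp (X.alpha p) = SS.snd X.G (X.E p) :=
    SS.Hom.ext (funext fun q => funext fun x => X.face_zero_alpha p q x.1 x.2)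
  rw [this, Z.snd_cr]

/-- the base class of `E_0` -/
noncomputable def ptE : H F2 (X.E 0) := H.map F2 (toE0 X.π) (vtx X.p0)

theorem ptE_eq_br (a : Fin 0 → H F2 X.G) : X.ptE = X.br Z 0 a := rfl

theorem eps_ptE (Z : EZData) : eps _ X.ptE = 1 := by
  rw [X.ptE_eq_br Z Fin.elim0, eps_br]; simp

theorem E0_eq' (Z : EZData) (y : H F2 (X.E 0)) : y = eps _ y • X.ptE := X.E0_eq Z y Fin.elim0

theorem fa_one_pt (a : H F2 X.G) : X.fa 0 1 (X.alL Z 0 a X.ptE) = eps _ a • X.ptE := by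
  rw [X.E0_eq' Z (X.fa 0 1 (X.alL Z 0 a X.ptE)), fa, eps_map, alL_apply, eps_map, Z.eps_cr,
    X.eps_ptE Z, mul_one]

include hi in
/-- `al` is injective in the first variable on `ptE` -/
theorem al_ptE_inj {a b : H F2 X.G} (h : X.alL Z 0 a X.ptE = X.alL Z 0 b X.ptE) : a = b := by
  have h1 : Z.cr X.G (X.E 0) (a ⊗ₜ X.ptE) = Z.cr X.G (X.E 0) (b ⊗ₜ X.ptE) :=
    (X.alphaH hi 0).injective h
  have h2 := congrArg (H.map F2 (SS.fst X.G (X.E 0))) h1
  rw [Z.fst_cr, Z.fst_cr, X.eps_ptE Z, one_smul, one_smul] at h2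
  exact h2

theorem fa_dg_id (p : ℕ) (i : Fin (p + 2)) (j : Fin (p + 1)) (h : i = j.castSucc ∨ i = j.succ)
    (x : H F2 (X.E p)) : X.fa p i (X.dg p j x) = x := by
  rw [fa, dg, map_comp']
  have : ((cech X.π).colMap (Op.face i)).comp ((cech X.π).colMap (Op.dgn j)) = SS.Hom.id _ := by
    rw [← BSS.colMap_comp, Ch.face_dgn_eq i j h, BSS.colMap_id]
  rw [this]; exact hMap_id x

include hi in
theorem mulH_one_left (b : H F2 X.G) : X.mulH Z (vtx X.e) b = b := by
  refine X.al_ptE_inj hi Z ?_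
  have h1 := X.fa_dg_id 1 1 0 (Or.inr rfl) (X.alL Z 0 b X.ptE)
  rw [X.dg_zero hi Z] at h1
  rw [alL_apply X Z 0 b, X.fa_one_alpha hi Z] at h1
  exact h1

include hi in
theorem mulH_one_right (b : H F2 X.G) : X.mulH Z b (vtx X.e) = b := by
  refine X.al_ptE_inj hi Z ?_
  have h1 := X.fa_dg_id 1 1 1 (Or.inl rfl) (X.alL Z 0 b X.ptE)
  have e : (1 : Fin 2) = Fin.succ 0 := rfl
  rw [alL_apply X Z 0 b, e, X.dg_succ_alpha, X.dg_zero hi Z] at h1
  have e2 : (Fin.succ 0 : Fin 3) = 1 := rfl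
  rw [X.fa_one_alpha hi Z] at h1
  exact h1

/-- the simplicial module of homologies of the columns, in the form of helper459 -/
noncomputable def barMod (conn : ∀ x ∈ H.gr F2 X.G 0, ∃ r : F2, x = r • vtx X.e) : E1_459.BarMod where
  H := H F2 X.G
  M p := H F2 (X.E p)
  hgr := H.gr F2 X.G
  gr p := H.gr F2 (X.E p)
  one := vtx X.e
  mul := X.mulL Z
  eps := eps _
  pt := X.ptE
  al := X.alL Z
  face := X.fa
  dgn := X.dg
  hgr_top := gr_top
  hgr_ind := gr_ind
  one_mem := vtx_mem_gr _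
  hgr_zero := conn
  eps_one := nAug_sx_zero _
  eps_pos n x hx := eps_gr (Nat.succ_ne_zero n) hx
  one_mul x := X.mulH_one_left hi Z x
  mul_one x := X.mulH_one_right hi Z x
  pt_span x := ⟨_, X.E0_eq' Z x⟩
  pt_ne h := by
    have h1 := X.eps_ptE Z
    have h2 : X.ptE = 0 := h
    rw [h2, map_zero] at h1
    exact zero_ne_one h1
  pt_mem := hMap_mem_gr _ (vtx_mem_gr _)
  gr_top _ := gr_top
  gr_ind _ := gr_ind
  al_gr p i j a ha x hx := hMap_mem_gr _ (Z.cr_mem_gr ha hx)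
  al_bij := X.alL_bij hi Z
  face_zero := X.fa_zero_al Z
  face_one_pt := X.fa_one_pt Z
  face_one p a b x := X.fa_one_alpha hi Z p a b x
  face_succ p a x i hi0 := by
    obtain ⟨j, rfl⟩ := Fin.exists_succ_eq.2 hi0
    exact X.fa_succ_alpha Z p j a x
  dgn_zero p x := X.dg_zero hi Z p x
  dgn_succ p a x i := X.dg_succ_alpha Z p i a x

end PFib

end Crest.Agent.R204.Bar170
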