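import Crest.Agent.R204.BarIface_334

/-!
# Row 204, block B: K2, the abstract loop theorem in a range (helper334)
-/

set_option autoImplicit false

noncomputable section

namespace Crest.Agent.R204.Bar334

open Finsupp

section
variable {X : FC} {ι : Type} {deg : ι → ℕ} {bd : Bar ι →ₗ[F2] Bar ι} {asym : Finset ι → Bar ι}

theorem neg2 {M : Type*} [AddCommGroup M] [Module F2 M] (x : M) : -x = x := by
  have h : x + x = 0 := by
    have : (2 : F2) • x = 0 := by
      have h2 : (2 : F2) = 0 := by decide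
      rw [h2, zero_smul]
    rwa [two_smul] at this
  exact (eq_neg_of_add_eq_zero_left h).symm

theorem sub2 {M : Type*} [AddCommGroup M] [Module F2 M] (x y : M) : x - y = x + y := by
  rw [sub_eq_add_neg, neg2]

theorem add2 {M : Type*} [AddCommGroup M] [Module F2 M] (x : M) : x + x = 0 := by
  rw [← sub2, sub_self]

theorem FC.F_mem_Z (X : FC) {p : ℕ} {x : X.T} (h : x ∈ X.F p) : x ∈ X.Z (p + 1) :=
  ⟨X.F_mono (Nat.le_succ p) h, X.d_F p x h⟩

theorem FC.d_mem_Z (X : FC) {p : ℕ} {x : X.T} (h : x ∈ X.F (p + 1)) : X.d x ∈ X.Z (p + 1) :=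
  ⟨X.d_F _ x h, by
    show X.d (X.d x) ∈ X.F p
    rw [X.dd]; exact zero_mem _⟩

/-- the leading term maps extended to the whole complex, with all their properties -/
structure Ld (X : FC) {ι : Type} (deg : ι → ℕ) (bd : Bar ι →ₗ[F2] Bar ι)
    (asym : Finset ι → Bar ι) (B : BarData X deg bd asym) where
  L : ℕ → X.T →ₗ[F2] B.E
  eq : ∀ p (θ : X.T) (h : θ ∈ X.Z (p + 1)), L p θ = B.lead p ⟨θ, h⟩

theorem Ld.exists (B : BarData X deg bd asym) : Nonempty (Ld X deg bd asym B) := by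
  have h : ∀ p : ℕ, ∃ g : X.T →ₗ[F2] B.E, g.comp (X.Z (p + 1)).subtype = B.lead p := fun p =>
    LinearMap.exists_extend (B.lead p)
  choose L hL using h
  exact ⟨⟨L, fun p θ h => by rw [← hL p]; rfl⟩⟩

variable {B : BarData X deg bd asym} (A : Ld X deg bd asym B)

namespace Ld
include A

theorem low {p : ℕ} {x : X.T} (h : x ∈ X.F p) : A.L p x = 0 := by
  rw [A.eq p x (X.F_mem_Z h)]; exact B.lead_low p _ h

theorem bdy {p : ℕ} {x : X.T} (h : x ∈ X.F (p + 1)) : A.L p (X.d x) = 0 := by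
  rw [A.eq p _ (X.d_mem_Z h)]; exact B.lead_bd p _ ⟨x, h, rfl⟩

theorem ker {p n : ℕ} {θ : X.T} (h : θ ∈ X.Z (p + 1)) (hn : θ ∈ X.gr n) (h0 : A.L p θ = 0) :
    ∃ x ∈ X.F (p + 1) ⊓ X.gr (n + 1), θ - X.d x ∈ X.F p := by
  rw [A.eq p θ h] at h0
  exact B.lead_ker p n ⟨θ, h⟩ hn h0

theorem lift {p q : ℕ} {b : Bar ι} (hb : b ∈ Wd deg (p + 1) q) :
    ∃ θ ∈ X.Z (p + 1), θ ∈ X.gr (p + 1 + q) ∧ A.L p θ = B.W b := by
  rw [Wd, Finsupp.supported_eq_span_single] at hb
  refine Submodule.span_induction (p := fun b _ => ∃ θ ∈ X.Z (p + 1), θ ∈ X.gr (p + 1 + q) ∧ A.L p θ = B.W b)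
    ?_ ?_ ?_ ?_ hb
  · rintro _ ⟨w, ⟨hw1, hw2⟩, rfl⟩
    obtain ⟨θ, h1, h2⟩ := B.lift p w hw1
    refine ⟨θ, θ.2, by rw [← hw2]; exact h1, ?_⟩
    rw [A.eq p _ θ.2]; exact h2
  · exact ⟨0, zero_mem _, zero_mem _, by simp⟩
  · rintro x y - - ⟨θ, h1, h2, h3⟩ ⟨θ', h1', h2', h3'⟩
    exact ⟨θ + θ', add_mem h1 h1', add_mem h2 h2', by rw [map_add, map_add, h3, h3']⟩
  · rintro r x - ⟨θ, h1, h2, h3⟩
    exact ⟨r • θ, Submodule.smul_mem _ _ h1, Submodule.smul_mem _ _ h2, by rw [map_smul, map_smul, h3]⟩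

theorem dW {p q : ℕ} {θ : X.T} (h : θ ∈ X.Z (p + 2)) {b : Bar ι} (hb : b ∈ Wd deg (p + 2) q)
    (h0 : A.L (p + 1) θ = B.W b) : A.L p (X.d θ) = B.W (bd b) := by
  have hz : X.d θ ∈ X.Z (p + 1) := ⟨h.2, by
    show X.d (X.d θ) ∈ X.F' (p + 1)
    rw [X.dd]; exact zero_mem _⟩
  rw [A.eq p _ hz]
  refine B.dW p ⟨θ, h⟩ b (fun w hw => ?_) ?_ hz
  · exact (hb hw).1
  · rw [← h0, A.eq (p + 1) θ h]

theorem psi {p : ℕ} {S : Finset ι} (hS : S.card = p + 1) : A.L p (B.Psi S) = B.W (asym S) := by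
  have h : B.Psi S ∈ X.Z (p + 1) := ⟨by rw [← hS]; exact B.Psi_F S, by
    show X.d (B.Psi S) ∈ X.F' (p + 1)
    rw [B.Psi_d]; exact zero_mem _⟩
  rw [A.eq p _ h]; exact B.Psi_lead p S hS h

end Ld

/-- linear combinations of the products -/
def PsiL (B : BarData X deg bd asym) : (Finset ι →₀ F2) →ₗ[F2] X.T := Finsupp.linearCombination F2 B.Psi

/-- linear combinations of the antisymmetrisations -/
def asymL (asym : Finset ι → Bar ι) : (Finset ι →₀ F2) →ₗ[F2] Bar ι := Finsupp.linearCombination F2 asym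

theorem PsiL_d (B : BarData X deg bd asym) (ω : Finset ι →₀ F2) : X.d (PsiL B ω) = 0 := by
  rw [PsiL, Finsupp.linearCombination_apply, Finsupp.sum, map_sum]
  refine Finset.sum_eq_zero fun S _ => ?_
  rw [map_smul, B.Psi_d, smul_zero]

theorem PsiL_F (B : BarData X deg bd asym) {p : ℕ} {ω : Finset ι →₀ F2} (h : ∀ S ∈ ω.support, S.card ≤ p) :
    PsiL B ω ∈ X.F p := by
  rw [PsiL, Finsupp.linearCombination_apply, Finsupp.sum]
  exact Submodule.sum_mem _ fun S hS => Submodule.smul_mem _ _ (X.F_mono (h S hS) (B.Psi_F S))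

theorem PsiL_gr (B : BarData X deg bd asym) {n : ℕ} {ω : Finset ι →₀ F2}
    (h : ∀ S ∈ ω.support, degS deg S = n) : PsiL B ω ∈ X.gr n := by
  rw [PsiL, Finsupp.linearCombination_apply, Finsupp.sum]
  exact Submodule.sum_mem _ fun S hS => Submodule.smul_mem _ _ (by rw [← h S hS]; exact B.Psi_gr S)

theorem asymL_Wd (K : K1 deg bd asym) {p q : ℕ} {ω : Finset ι →₀ F2}
    (h : ∀ S ∈ ω.support, S.card = p ∧ ∑ i ∈ S, deg i = q) : asymL asym ω ∈ Wd deg p q := by
  rw [asymL, Finsupp.linearCombination_apply, Finsupp.sum]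
  exact Submodule.sum_mem _ fun S hS => Submodule.smul_mem _ _ (by
    have := K.asym_Wd S
    rwa [(h S hS).1, (h S hS).2] at this)

theorem Ld.psiL {p : ℕ} {ω : Finset ι →₀ F2} (h : ∀ S ∈ ω.support, S.card ≤ p + 1) :
    A.L p (PsiL B ω) = B.W (asymL asym (ω.filter fun S => S.card = p + 1)) := by
  classical
  have h1 : PsiL B ω = PsiL B (ω.filter fun S => S.card = p + 1) +
      PsiL B (ω.filter fun S => ¬ S.card = p + 1) := by
    rw [← map_add, Finsupp.filter_add_filter_not]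
  rw [h1, map_add]
  have h2 : A.L p (PsiL B (ω.filter fun S => ¬ S.card = p + 1)) = 0 := by
    refine A.low (PsiL_F B fun S hS => ?_)
    rw [Finsupp.support_filter, Finset.mem_filter] at hS
    have := h S hS.1
    omega
  rw [h2, add_zero, PsiL, Finsupp.linearCombination_apply, Finsupp.sum, map_sum, asymL,
    Finsupp.linearCombination_apply, Finsupp.sum, map_sum]
  refine Finset.sum_congr rfl fun S hS => ?_
  rw [Finsupp.support_filter, Finset.mem_filter] at hS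
  rw [map_smul, map_smul, A.psi hS.2]

/-- injectivity and surjectivity at position `1`, degree `s` -/
def Inj1 (B : BarData X deg bd asym) (s : ℕ) : Prop := ∀ b ∈ Wd deg 1 s, B.W b = 0 → b = 0
def Surj1 (B : BarData X deg bd asym) (s : ℕ) : Prop :=
  ∀ θ : X.Z 1, (θ : X.T) ∈ X.gr (1 + s) → ∃ b ∈ Wd deg 1 s, B.lead 0 θ = B.W b

include A in
theorem Ld.kinj {t : ℕ} (H : ∀ s, 1 ≤ s → s < t → Inj1 B s ∧ Surj1 B s) {p q : ℕ} (h : q ≤ t + p)
    {b : Bar ι} (hb : b ∈ Wd deg (p + 2) q) (h0 : B.W b = 0) : b = 0 :=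
  (B.kun t H p q h).1 b hb h0

theorem Ld.ksurj {t : ℕ} (H : ∀ s, 1 ≤ s → s < t → Inj1 B s ∧ Surj1 B s) {p q : ℕ} (h : q ≤ t + p)
    {θ : X.T} (hθ : θ ∈ X.Z (p + 2)) (hg : θ ∈ X.gr (p + 2 + q)) :
    ∃ b ∈ Wd deg (p + 2) q, A.L (p + 1) θ = B.W b := by
  obtain ⟨b, h1, h2⟩ := (B.kun t H p q h).2 ⟨θ, hθ⟩ hg
  exact ⟨b, h1, by rw [A.eq (p + 1) θ hθ, h2]⟩

theorem degS_card (hp : ∀ i, 1 ≤ deg i) (S : Finset ι) : 2 * S.card ≤ degS deg S := by
  have : S.card ≤ ∑ i ∈ S, deg i := by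
    have := Finset.sum_le_sum fun i (_ : i ∈ S) => hp i
    simpa using this
  rw [degS]; omega

include A in
/-- one step of the descent -/
theorem Ld.step (K : K1 deg bd asym) {r n t : ℕ} (hr : 1 ≤ r) (hn : n ≤ t + 2 * r)
    (H : ∀ s, 1 ≤ s → s < t → Inj1 B s ∧ Surj1 B s) {u : X.T} (hu : u ∈ X.F r) (k : ℕ)
    {ω : Finset ι →₀ F2} {θ : X.T} (hθ : θ ∈ X.F (r + 1 + (k + 1))) (hg : θ ∈ X.gr (n + 1))
    (hc : ∀ S ∈ ω.support, S.card ≤ r + (k + 1)) (hd : ∀ S ∈ ω.support, degS deg S = n)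
    (he : u = PsiL B ω + X.d θ) :
    ∃ θ' ∈ X.F (r + 1 + k), θ' ∈ X.gr (n + 1) ∧ (∀ S ∈ ω.support, S.card ≤ r + k) ∧
      u = PsiL B ω + X.d θ' := by
  classical
  by_cases hP : n + 1 < r + 1 + (k + 1)
  · refine ⟨θ, X.F_mono (by omega) (X.gr_F _ hg), hg, fun S hS => ?_, he⟩
    have := degS_card B.deg_pos S
    rw [hd S hS] at this
    omega
  · obtain ⟨p, rfl⟩ : ∃ p, r = p + 1 := ⟨r - 1, by omega⟩
    obtain ⟨q, hq⟩ : ∃ q, n + 1 = (p + k + 1) + 2 + q := ⟨n + 1 - (p + k + 1 + 2), by omega⟩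
    have e1 : p + 1 + 1 + (k + 1) = (p + k + 1) + 2 := by omega
    have e2 : p + 1 + (k + 1) = (p + k) + 2 := by omega
    rw [e1] at hθ
    rw [e2] at hc
    have hdθ : X.d θ = u + PsiL B ω := by
      rw [he, add_comm (PsiL B ω), add_assoc, add2, add_zero]
    have hz : θ ∈ X.Z (p + k + 1 + 2) := ⟨hθ, by
      show X.d θ ∈ X.F (p + k + 2)
      rw [hdθ]
      exact add_mem (X.F_mono (by omega) hu) (PsiL_F B hc)⟩
    obtain ⟨b, hb, hb2⟩ := A.ksurj H (p := p + k + 1) (q := q) (by omega) hz (by rw [← hq]; exact hg)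
    have h3 := A.dW hz hb hb2
    rw [hdθ, map_add, A.psiL hc] at h3
    have h4 : A.L (p + k + 1) u = 0 := A.low (X.F_mono (by omega) hu)
    rw [h4, zero_add] at h3
    set ω1 := ω.filter fun S => S.card = p + k + 1 + 1 with hω1
    have hω1' : ∀ S ∈ ω1.support, S.card = p + k + 2 ∧ ∑ i ∈ S, deg i = q := by
      intro S hS
      rw [hω1, Finsupp.support_filter, Finset.mem_filter] at hS
      have h5 := hd S hS.1
      rw [degS] at h5
      exact ⟨hS.2, by have := hS.2; omega⟩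
    have h6 : bd b = asymL asym ω1 := by
      have h7 : B.W (bd b + asymL asym ω1) = 0 := by
        rw [map_add, ← h3, add2]
      have h8 := Ld.kinj A H (p := p + k) (q := q) (by omega)
        (add_mem (K.bd_Wd (p + k + 2) q b hb) (asymL_Wd K hω1')) h7
      rw [← sub2, sub_eq_zero] at h8
      exact h8
    have h9 : ω1 = 0 := K.asym_inj ω1 b (by
      rw [h6, asymL, Finsupp.linearCombination_apply])
    have h10 : ∀ S ∈ ω.support, S.card ≤ p + 1 + k := by
      intro S hS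
      have h11 := hc S hS
      by_contra hcon
      have h12 : S.card = p + k + 1 + 1 := by omega
      have h13 : S ∈ ω1.support := by
        rw [hω1, Finsupp.support_filter, Finset.mem_filter]
        exact ⟨hS, h12⟩
      rw [h9] at h13
      simp at h13
    have h14 : bd b = 0 := by rw [h6, h9, map_zero]
    obtain ⟨y, hy, c, hc1, hc2⟩ := K.exact (p + k + 1 + 1) q b hb h14
    obtain ⟨β, hβ1, hβ2, hβ3⟩ := A.lift (p := p + k + 1 + 2 - 1 + 1) (q := q) (b := y) (by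
      have e : p + k + 1 + 2 - 1 + 1 + 1 = p + k + 1 + 1 + 2 := by omega
      rw [e]; exact hy)
    have e3 : p + k + 1 + 2 - 1 + 1 = p + k + 1 + 1 + 1 := by omega
    rw [e3] at hβ1 hβ2 hβ3
    have hβ4 : A.L (p + k + 1 + 1) (X.d β) = B.W (bd y) := A.dW hβ1 hy hβ3
    have hβF : X.d β ∈ X.F (p + k + 1 + 2) := hβ1.2
    have hcd : ∀ S ∈ c.support, S.card ≤ p + k + 1 + 2 := fun S hS => (hc1 S hS).1.le
    have hcg : ∀ S ∈ c.support, degS deg S = n + 1 := fun S hS => by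
      rw [degS, (hc1 S hS).1, (hc1 S hS).2, hq]
    have hfc : c.filter (fun S => S.card = p + k + 1 + 1 + 1) = c := by
      rw [Finsupp.filter_eq_self_iff]
      intro S hS
      exact (hc1 S (Finsupp.mem_support_iff.2 hS)).1
    have hL : A.L (p + k + 1 + 1) (θ + X.d β + PsiL B c) = 0 := by
      rw [map_add, map_add, hb2, hβ4, A.psiL hcd, hfc, hc2, map_add, asymL,
        Finsupp.linearCombination_apply]
      rw [add_assoc (B.W (bd y)), add_comm (B.W (c.sum _)) , add_assoc, add_assoc, add2, add_zero, add2]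
    have hZ' : θ + X.d β + PsiL B c ∈ X.Z (p + k + 1 + 1 + 1) := by
      refine ⟨add_mem (add_mem hθ hβF) (PsiL_F B hcd), ?_⟩
      show X.d (θ + X.d β + PsiL B c) ∈ X.F' (p + k + 1 + 2)
      rw [map_add, map_add, X.dd, PsiL_d, add_zero, add_zero]
      exact hz.2
    have hG' : θ + X.d β + PsiL B c ∈ X.gr (n + 1) := by
      refine add_mem (add_mem hg (X.d_gr _ _ ?_)) (PsiL_gr B hcg)
      have e : p + k + 1 + 1 + 1 + 1 + q = n + 1 + 1 := by omega
      rwa [e] at hβ2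
    obtain ⟨x, ⟨hx1, hx2⟩, hx3⟩ := A.ker hZ' hG' hL
    refine ⟨θ + X.d β + PsiL B c - X.d x, ?_, sub_mem hG' (X.d_gr _ _ hx2), h10, ?_⟩
    · have e : p + 1 + 1 + k = p + k + 1 + 1 := by omega
      rw [e]; exact hx3
    · rw [map_sub, map_add, map_add, X.dd, X.dd, PsiL_d, add_zero, add_zero, sub_zero]
      exact he

include A in
/-- the descent -/
theorem Ld.descend (K : K1 deg bd asym) {r n t : ℕ} (hr : 1 ≤ r) (hn : n ≤ t + 2 * r)
    (H : ∀ s, 1 ≤ s → s < t → Inj1 B s ∧ Surj1 B s) {u : X.T} (hu : u ∈ X.F r)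
    {ω : Finset ι →₀ F2} (hd : ∀ S ∈ ω.support, degS deg S = n) :
    ∀ (k : ℕ) (θ : X.T) (_ : θ ∈ X.F (r + 1 + k)) (_ : θ ∈ X.gr (n + 1))
    (_ : ∀ S ∈ ω.support, S.card ≤ r + k) (_ : u = PsiL B ω + X.d θ),
    ∃ θ' ∈ X.F (r + 1), θ' ∈ X.gr (n + 1) ∧ (∀ S ∈ ω.support, S.card ≤ r) ∧
      u = PsiL B ω + X.d θ' := by
  intro k
  induction k with
  | zero => intro θ h1 h2 h3 h4; exact ⟨θ, h1, h2, h3, h4⟩
  | succ k ih =>
    intro θ h1 h2 h3 h4
    obtain ⟨θ', g1, g2, g3, g4⟩ := A.step K hr hn H hu k h1 h2 h3 hd h4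
    exact ih θ' g1 g2 g3 g4

include A in
theorem Ld.descend' (K : K1 deg bd asym) {r n t N : ℕ} (hr : 1 ≤ r) (hn : n ≤ t + 2 * r)
    (H : ∀ s, 1 ≤ s → s < t → Inj1 B s ∧ Surj1 B s) {u : X.T} (hu : u ∈ X.F r)
    (hug : u ∈ X.gr n) (hud : X.d u = 0) (hn1 : 1 ≤ n) (hnN : n ≤ N + 1) (hs : Span X B N) :
    ∃ ω : Finset ι →₀ F2, (∀ S ∈ ω.support, degS deg S = n) ∧ (∀ S ∈ ω.support, S.card ≤ r) ∧
      ∃ θ ∈ X.F (r + 1), θ ∈ X.gr (n + 1) ∧ u = PsiL B ω + X.d θ := by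
  obtain ⟨ω, h1, θ, h2, h3⟩ := hs n hn1 hnN u hug hud
  have h3' : u = PsiL B ω + X.d θ := by rw [h3, PsiL, Finsupp.linearCombination_apply]
  obtain ⟨θ', g1, g2, g3, g4⟩ := A.descend K hr hn H hu h1 n θ
    (X.F_mono (by omega) (X.gr_F _ h2)) h2 (fun S hS => by
      have := degS_card B.deg_pos S
      rw [h1 S hS] at this
      omega) h3'
  exact ⟨ω, h1, g3, θ', g1, g2, g4⟩

include A in
/-- surjectivity at `t` -/
theorem Ld.surj (K : K1 deg bd asym) {t N : ℕ} (ht : 1 ≤ t) (htN : t ≤ N)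
    (H : ∀ s, 1 ≤ s → s < t → Inj1 B s ∧ Surj1 B s) (hs : Span X B N) : Surj1 B t := by
  classical
  intro θ1 hθ1
  obtain ⟨t, rfl⟩ : ∃ t', t = t' + 1 := ⟨t - 1, by omega⟩
  have hθ1g : (θ1 : X.T) ∈ X.gr (t + 2) := by
    have e : 1 + (t + 1) = t + 2 := by omega
    rwa [e] at hθ1
  have hθ1F : (θ1 : X.T) ∈ X.F 1 := θ1.2.1
  have hθ1d : X.d θ1 ∈ X.F 0 := θ1.2.2
  obtain ⟨x, ⟨hx1, hx2⟩, hx3⟩ := B.zero t (X.d θ1) ⟨hθ1d, X.d_gr _ _ hθ1g⟩ (X.dd _)
  have hu1 : (θ1 : X.T) - x ∈ X.F 1 := sub_mem hθ1F (X.F_mono (by omega) hx1)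
  obtain ⟨ω, h1, h2, θ, h3, h4, h5⟩ := A.descend' K (r := 1) (n := t + 2) le_rfl (by omega) H hu1
    (sub_mem hθ1g hx2) (by rw [map_sub, hx3, sub_self]) (by omega) (by omega) hs
  have hdθ : X.d θ = (θ1 - x) + PsiL B ω := by
    rw [h5, add_comm (PsiL B ω), add_assoc, add2, add_zero]
  have hz : θ ∈ X.Z (0 + 2) := ⟨h3, by
    show X.d θ ∈ X.F 1
    rw [hdθ]; exact add_mem hu1 (PsiL_F B h2)⟩
  obtain ⟨b, hb, hb2⟩ := A.ksurj H (p := 0) (q := t + 1) (by omega) hz (by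
    have e : 0 + 2 + (t + 1) = t + 2 + 1 := by omega
    rw [e]; exact h4)
  have h6 := A.dW hz hb hb2
  rw [hdθ, map_add, map_sub, A.low hx1, sub_zero, A.psiL h2] at h6
  have hfil : ∀ S ∈ (ω.filter fun S => S.card = 0 + 1).support, S.card = 1 ∧ ∑ i ∈ S, deg i = t + 1 := by
    intro S hS
    rw [Finsupp.support_filter, Finset.mem_filter] at hS
    have h7 := h1 S hS.1
    rw [degS] at h7
    exact ⟨hS.2, by have := hS.2; omega⟩
  refine ⟨bd b + asymL asym (ω.filter fun S => S.card = 0 + 1),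
    add_mem (K.bd_Wd 1 (t + 1) b hb) (asymL_Wd K hfil), ?_⟩
  rw [map_add, ← h6, add_assoc, add2, add_zero, A.eq 0 _ θ1.2]

/-- decomposition of one-letter words -/
theorem decomp (K : K1 deg bd asym) (t : ℕ) {b : Bar ι} (hb : b ∈ Wd deg 1 t) :
    ∃ c : ι →₀ F2, (∀ i ∈ c.support, deg i = t) ∧ ∃ a ∈ Wd deg 2 t,
      b = (c.sum fun i r => r • asym {i}) + bd a := by
  classical
  rw [Wd, Finsupp.supported_eq_span_single] at hb
  refine Submodule.span_induction (p := fun b _ => ∃ c : ι →₀ F2, (∀ i ∈ c.support, deg i = t) ∧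
    ∃ a ∈ Wd deg 2 t, b = (c.sum fun i r => r • asym {i}) + bd a) ?_ ?_ ?_ ?_ hb
  · rintro _ ⟨w, ⟨hw1, hw2⟩, rfl⟩
    obtain ⟨m, rfl⟩ := List.length_eq_one_iff.1 hw1
    have hm := m.2
    obtain ⟨i, hi⟩ : ∃ i, m.1 i ≠ 0 := by
      by_contra hcon
      push Not at hcon
      exact hm (Finsupp.ext hcon)
    by_cases h1 : m.1 = Finsupp.single i 1
    · refine ⟨Finsupp.single i 1, fun j hj => ?_, 0, zero_mem _, ?_⟩
      · have hj' : j = i := by
          have := Finsupp.support_single_subset hj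
          simpa using this
        subst hj'
        simp only [wt, List.map_cons, List.map_nil, List.sum_cons, List.sum_nil, add_zero, wt1, h1] at hw2
        rw [Finsupp.sum_single_index (by simp)] at hw2
        omega
      · rw [map_zero, add_zero, Finsupp.sum_single_index (by simp), one_smul, K.asym_one]
        congr 2
        exact Subtype.ext h1
    · have hle : Finsupp.single i 1 ≤ m.1 := by
        rw [Finsupp.single_le_iff]; omega
      have hne : m.1 - Finsupp.single i 1 ≠ 0 := by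
        intro h0
        apply h1
        have h2 := tsub_eq_zero_iff_le.1 h0
        exact le_antisymm h2 hle
      have hsum : Finsupp.single i 1 + (m.1 - Finsupp.single i 1) = m.1 := add_tsub_cancel_of_le hle
      refine ⟨0, by simp, Finsupp.single [⟨Finsupp.single i 1, by simp⟩, ⟨m.1 - Finsupp.single i 1, hne⟩] 1,
        ?_, ?_⟩
      · rw [Wd, Finsupp.mem_supported]
        intro w hw
        have hw' := Finsupp.support_single_subset hw
        simp only [Finset.mem_singleton] at hw'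
        subst hw'
        refine ⟨rfl, ?_⟩
        rw [← hw2]
        simp only [wt, List.map_cons, List.map_nil, List.sum_cons, List.sum_nil, add_zero, wt1]
        conv_rhs => rw [← hsum]
        rw [Finsupp.sum_add_index' (fun _ => by simp) (fun _ _ _ => by ring)]
      · rw [K.bd_two, Finsupp.sum_zero_index, zero_add]
        congr 2
        exact Subtype.ext hsum.symm
  · exact ⟨0, by simp, 0, zero_mem _, by simp⟩
  · rintro x y - - ⟨c, h1, a, h2, h3⟩ ⟨c', h1', a', h2', h3'⟩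
    refine ⟨c + c', fun i hi => ?_, a + a', add_mem h2 h2', ?_⟩
    · rcases Finset.mem_union.1 (Finsupp.support_add hi) with h | h
      · exact h1 i h
      · exact h1' i h
    · rw [h3, h3', map_add, Finsupp.sum_add_index' (fun _ => by simp) (fun _ _ _ => by rw [add_smul])]
      abel
  · rintro r x - ⟨c, h1, a, h2, h3⟩
    refine ⟨r • c, fun i hi => h1 i (Finsupp.support_smul hi), r • a, Submodule.smul_mem _ _ h2, ?_⟩
    rw [h3, smul_add, map_smul, Finsupp.sum_smul_index' (fun _ => by simp), Finsupp.smul_sum]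
    simp only [smul_smul, smul_eq_mul]

include A in
/-- injectivity at `t` -/
theorem Ld.inj (K : K1 deg bd asym) {t N : ℕ} (ht : 1 ≤ t) (htN : t + 1 ≤ N)
    (H : ∀ s, 1 ≤ s → s < t → Inj1 B s ∧ Surj1 B s) (hi : Indep X B N) (hs : Span X B N) :
    Inj1 B t := by
  classical
  intro b hb hWb
  obtain ⟨c, hc, a, ha, hba⟩ := decomp K t hb
  obtain ⟨θ, hθ, hθg, hθL⟩ := A.lift (p := 1) (q := t) (b := a) ha
  have hθg' : θ ∈ X.gr (t + 2) := by
    have e : 1 + 1 + t = t + 2 := by omega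
    rwa [e] at hθg
  have h1 : A.L 0 (X.d θ) = B.W (bd a) := A.dW (p := 0) hθ ha hθL
  set v : X.T := c.sum fun i r => r • B.Psi {i} with hv
  have hvF : v ∈ X.F 1 := by
    rw [hv, Finsupp.sum]
    refine Submodule.sum_mem _ fun i _ => Submodule.smul_mem _ _ ?_
    have := B.Psi_F {i}
    rwa [Finset.card_singleton] at this
  have hvd : X.d v = 0 := by
    rw [hv, Finsupp.sum, map_sum]
    exact Finset.sum_eq_zero fun i _ => by rw [map_smul, B.Psi_d, smul_zero]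
  have hvg : v ∈ X.gr (t + 1) := by
    rw [hv, Finsupp.sum]
    refine Submodule.sum_mem _ fun i hi => Submodule.smul_mem _ _ ?_
    have := B.Psi_gr {i}
    rw [degS, Finset.card_singleton, Finset.sum_singleton, hc i hi, add_comm] at this
    exact this
  have hvL : A.L 0 v = B.W (c.sum fun i r => r • asym {i}) := by
    rw [hv, Finsupp.sum, map_sum, Finsupp.sum, map_sum]
    refine Finset.sum_congr rfl fun i _ => ?_
    rw [map_smul, map_smul, A.psi (Finset.card_singleton i)]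
  have h2 : A.L 0 (X.d θ + v) = 0 := by
    rw [map_add, h1, hvL, ← map_add, add_comm (bd a), ← hba, hWb]
  have hz : X.d θ + v ∈ X.Z 1 := by
    refine ⟨add_mem hθ.2 hvF, ?_⟩
    show X.d (X.d θ + v) ∈ X.F' 1
    rw [map_add, X.dd, hvd, add_zero]; exact zero_mem _
  obtain ⟨x, ⟨hx1, hx2⟩, hx3⟩ := A.ker hz (add_mem (X.d_gr _ _ hθg') hvg) h2
  obtain ⟨t, rfl⟩ : ∃ t', t = t' + 1 := ⟨t - 1, by omega⟩
  obtain ⟨z, ⟨hz1, hz2⟩, hz3⟩ := B.zero (t + 1) (X.d θ + v - X.d x)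
    ⟨hx3, sub_mem (add_mem (X.d_gr _ _ hθg') hvg) (X.d_gr _ _ hx2)⟩ (by
      rw [map_sub, map_add, X.dd, X.dd, hvd]; simp)
  have hcz : c = 0 := by
    refine hi (t + 1) (by omega) c hc ⟨x + z + θ, add_mem (add_mem hx2 hz2) hθg', ?_⟩
    rw [map_add, map_add, hz3, ← hv]
    rw [add_comm (X.d x), sub_add_cancel, add_comm (X.d θ) v, add_assoc, add2, add_zero]
  have hv0 : v = 0 := by rw [hv, hcz, Finsupp.sum_zero_index]
  rw [hv0, add_zero] at hz3
  -- the cycle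
  set u : X.T := θ - x - z with hu
  have huF : u ∈ X.F 2 := sub_mem (sub_mem hθ.1 (X.F_mono (by omega) hx1)) (X.F_mono (by omega) hz1)
  have hug : u ∈ X.gr (t + 1 + 2) := sub_mem (sub_mem hθg' hx2) hz2
  have hud : X.d u = 0 := by
    rw [hu, map_sub, map_sub, hz3]; abel
  have huL : A.L 1 u = B.W a := by
    rw [hu, map_sub, map_sub, A.low hx1, A.low (X.F_mono (by omega) hz1), sub_zero, sub_zero, hθL]
  obtain ⟨ω, g1, g2, θ', g3, g4, g5⟩ := A.descend' K (r := 2) (n := t + 1 + 2) (by omega) (by omega) H huF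
    hug hud (by omega) (by omega) hs
  have hdθ' : X.d θ' = u + PsiL B ω := by
    rw [g5, add_comm (PsiL B ω), add_assoc, add2, add_zero]
  have hz' : θ' ∈ X.Z (1 + 2) := ⟨g3, by
    show X.d θ' ∈ X.F 2
    rw [hdθ']; exact add_mem huF (PsiL_F B g2)⟩
  obtain ⟨z3, hz3', hz4⟩ := A.ksurj H (p := 1) (q := t + 1) (by omega) hz' (by
    have e : 1 + 2 + (t + 1) = t + 1 + 2 + 1 := by omega
    rw [e]; exact g4)
  have h6 := A.dW hz' hz3' hz4
  rw [hdθ', map_add, A.psiL g2, huL] at h6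
  set ω2 := ω.filter fun S => S.card = 1 + 1 with hω2
  have hfil : ∀ S ∈ ω2.support, S.card = 2 ∧ ∑ i ∈ S, deg i = t + 1 := by
    intro S hS
    rw [hω2, Finsupp.support_filter, Finset.mem_filter] at hS
    have h7 := g1 S hS.1
    rw [degS] at h7
    exact ⟨hS.2, by have := hS.2; omega⟩
  have h8 : a + asymL asym ω2 + bd z3 = 0 := by
    refine Ld.kinj A H (p := 0) (q := t + 1) (by omega)
      (add_mem (add_mem ha (asymL_Wd K hfil)) (K.bd_Wd 2 (t + 1) z3 hz3')) ?_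
    rw [map_add, map_add, h6, add2]
  have h9 : a = asymL asym ω2 + bd z3 := by
    rw [add_assoc] at h8
    rw [← sub2, sub_eq_zero] at h8
    exact h8
  have h10 : bd a = 0 := by
    rw [h9, map_add, K.bd_bd, add_zero, asymL, Finsupp.linearCombination_apply, Finsupp.sum, map_sum]
    exact Finset.sum_eq_zero fun S hS => by rw [map_smul, K.asym_two S (hfil S hS).1, smul_zero]
  rw [hba, hcz, h10, Finsupp.sum_zero_index, add_zero]

end

/-- **K2** -/
theorem k2 : K2 := by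
  intro X ι deg bd asym B K N hi hs t
  obtain ⟨A⟩ := Ld.exists B
  have key : ∀ t, 1 ≤ t → t ≤ N → (t + 1 ≤ N → Inj1 B t) ∧ Surj1 B t := by
    intro t
    induction t using Nat.strong_induction_on with
    | _ t ih =>
      intro ht htN
      have H : ∀ s, 1 ≤ s → s < t → Inj1 B s ∧ Surj1 B s := fun s h1 h2 =>
        ⟨(ih s h2 h1 (by omega)).1 (by omega), (ih s h2 h1 (by omega)).2⟩
      exact ⟨fun h => A.inj K ht h H hi hs, A.surj K ht htN H hs⟩
  intro ht
  exact ⟨fun h => (key t ht (by omega)).1 h, fun h => (key t ht h).2⟩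

end Crest.Agent.R204.Bar334
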