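import Crest.Agent.R204.EZCone_271
import Crest.Agent.R204.ThetaSS_265
import Crest.Agent.R204.HtpInv_334

/-!
# Row 204, block A (helper76): A8d `HZero` (path connected spaces), A6c `Contr` (contractible spaces),
for all coefficients.
-/

set_option autoImplicit false

noncomputable section

open Function

namespace Crest.Agent.R204.HZ76

open Crest.Agent.R204

variable (R : Type) [CommRing R]

theorem H_map_comp {K L M : SS} (g : SS.Hom L M) (f : SS.Hom K L) (x : H R K) :
    H.map R (SS.Hom.comp g f) x = H.map R g (H.map R f x) := by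
  obtain ⟨z, hz, rfl⟩ := Hd.mk_surj _ x
  unfold H.map
  rw [Hd.map_mk, Hd.map_mk, Hd.map_mk]
  have : ∀ (c : N R K), N.map R (SS.Hom.comp g f) c = N.map R g (N.map R f c) := by
    intro c
    obtain ⟨c, rfl⟩ := Submodule.Quotient.mk_surjective _ c
    rw [N.map_mk, N.map_mk, N.map_mk]
    congr 1
    induction c using Finsupp.induction_linear with
    | zero => simp
    | add a b ha hb => simp only [map_add, ha, hb]
    | single t r => obtain ⟨n, x⟩ := t; simp [Ch.map_single, SS.Hom.comp]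
  exact (Hd.mk_eq_mk).2 ⟨0, by rw [map_zero, this, sub_self]⟩

theorem H_map_id {K : SS} (x : H R K) : H.map R (SS.Hom.id K) x = x := by
  obtain ⟨z, hz, rfl⟩ := Hd.mk_surj _ x
  unfold H.map
  rw [Hd.map_mk]
  have : ∀ (c : N R K), N.map R (SS.Hom.id K) c = c := by
    intro c
    obtain ⟨c, rfl⟩ := Submodule.Quotient.mk_surjective _ c
    rw [N.map_mk]
    congr 1
    induction c using Finsupp.induction_linear with
    | zero => simp
    | add a b ha hb => simp only [map_add, ha, hb]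
    | single t r => obtain ⟨n, x⟩ := t; simp [Ch.map_single, SS.Hom.id]
  exact (Hd.mk_eq_mk).2 ⟨0, by rw [map_zero, this, sub_self]⟩

/-- A6c -/
theorem contr' (hA : SpecA.TopHomotopyInv) : SpecA.Contr := by
  intro R _ X _ _
  obtain ⟨x0, hx0⟩ := id_nullhomotopic X
  have h1 := hA R X X (ContinuousMap.id X) (ContinuousMap.const X x0) hx0
  have hid : SS.SingMap (ContinuousMap.id X) = SS.Hom.id (SS.Sing X) := by
    ext n σ; rfl
  have hcst : SS.SingMap (ContinuousMap.const X x0) = SS.Hom.comp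
      (⟨fun _ _ => ContinuousMap.const _ x0, fun _ _ => rfl⟩ : SS.Hom SS.pt (SS.Sing X)) (SS.toPt (SS.Sing X)) := by
    ext n σ; rfl
  have hpt : SS.Hom.comp (SS.toPt (SS.Sing X))
      (⟨fun _ _ => ContinuousMap.const _ x0, fun _ _ => rfl⟩ : SS.Hom SS.pt (SS.Sing X)) = SS.Hom.id SS.pt := by
    ext n σ; rfl
  rw [hid, hcst] at h1
  constructor
  · intro a b hab
    have ha := LinearMap.congr_fun h1 a
    have hb := LinearMap.congr_fun h1 b
    rw [H_map_id, H_map_comp] at ha hb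
    rw [ha, hb, hab]
  · intro y
    refine ⟨H.map R (⟨fun _ _ => ContinuousMap.const _ x0, fun _ _ => rfl⟩ :
      SS.Hom SS.pt (SS.Sing X)) y, ?_⟩
    rw [← H_map_comp, hpt, H_map_id]

theorem topHomotopyInv : SpecA.TopHomotopyInv := ThetaSS265.topHomotopyInv HtpInv334.homotopyInv

theorem contr : SpecA.Contr := contr' topHomotopyInv

/-! ## A8d -/

section paths

open SingAct265 EZ271

variable {Y : Type} [TopologicalSpace Y]

/-- the singular 1-simplex of a path -/
def pathS {a b : Y} (γ : Path a b) : (SS.Sing Y).S 1 :=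
  mkS (fun t => γ (bar (OrderHom.id : Op 1 1) t)) (γ.continuous.comp (continuous_bar _))

/-- the vertex of a point -/
def vtx (y : Y) : (SS.Sing Y).S 0 := mkS (fun _ => y) continuous_const

theorem face_pathS_zero {a b : Y} (γ : Path a b) : (SS.Sing Y).act (Op.face 0) (pathS γ) = vtx b := by
  refine sing_ext fun t => ?_
  show γ (bar (OrderHom.id : Op 1 1) (stdSimplex.map (Op.face 0 : Op 0 1) t)) = b
  rw [← bar_comp]
  have : (OrderHom.id : Op 1 1).comp (Op.face 0 : Op 0 1) = cst 0 1 := by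
    ext a; fin_cases a; rfl
  rw [this, bar_cst_one, γ.target]

theorem face_pathS_one {a b : Y} (γ : Path a b) : (SS.Sing Y).act (Op.face 1) (pathS γ) = vtx a := by
  refine sing_ext fun t => ?_
  show γ (bar (OrderHom.id : Op 1 1) (stdSimplex.map (Op.face 1 : Op 0 1) t)) = a
  rw [← bar_comp]
  have : (OrderHom.id : Op 1 1).comp (Op.face 1 : Op 0 1) = cst 0 0 := by
    ext a; fin_cases a; rfl
  rw [this, bar_cst_zero, γ.source]

theorem vtx_ev (x : (SS.Sing Y).S 0) : vtx (ev x (stdSimplex.vertex 0)) = x := by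
  refine sing_ext fun t => ?_
  have : t = stdSimplex.vertex 0 := Subsingleton.elim _ _
  rw [this]; rfl

theorem bd_pathS {a b : Y} (γ : Path a b) : N.bd R (SS.Sing Y) (N.sx R (pathS γ)) =
    N.sx R (vtx b) - N.sx R (vtx a) := by
  rw [bd_sx_succ, Fin.sum_univ_two, face_pathS_zero, face_pathS_one]
  simp [sub_eq_add_neg]

/-- in a path connected space every 0-chain is homologous to a multiple of a vertex -/
theorem exists_bd [PathConnectedSpace Y] (y0 : Y) (z : N R (SS.Sing Y)) (hz : z ∈ N.gr R (SS.Sing Y) 0) :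
    ∃ w ∈ N.gr R (SS.Sing Y) 1, N.bd R _ w = z - aug R z • N.sx R (vtx y0) := by
  obtain ⟨c, hc, rfl⟩ := hz
  refine Submodule.span_induction (p := fun c _ => ∃ w ∈ N.gr R (SS.Sing Y) 1, N.bd R _ w =
    (Ch.Dg R (SS.Sing Y)).mkQ c - aug R ((Ch.Dg R (SS.Sing Y)).mkQ c) • N.sx R (vtx y0)) ?_ ?_ ?_ ?_ hc
  · rintro _ ⟨x, rfl⟩
    obtain ⟨γ⟩ := PathConnectedSpace.joined y0 (ev x (stdSimplex.vertex 0))
    refine ⟨N.sx R (pathS γ), ⟨_, Submodule.subset_span ⟨pathS γ, rfl⟩, rfl⟩, ?_⟩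
    rw [bd_pathS, vtx_ev]
    change _ = N.sx R x - aug R (N.sx R x) • _
    rw [aug_sx_zero, one_smul]
  · exact ⟨0, Submodule.zero_mem _, by simp⟩
  · rintro a b _ _ ⟨w, hw, hw'⟩ ⟨v, hv, hv'⟩
    refine ⟨w + v, Submodule.add_mem _ hw hv, ?_⟩
    rw [map_add, hw', hv', map_add, map_add, add_smul]
    abel
  · rintro r a _ ⟨w, hw, hw'⟩
    refine ⟨r • w, Submodule.smul_mem _ _ hw, ?_⟩
    rw [map_smul, hw', map_smul, map_smul, smul_sub, smul_smul, smul_eq_mul]

/-- `H_0` of a path connected space, any coefficients -/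
theorem hZero_R [PathConnectedSpace Y] (x : H R (SS.Sing Y)) (hx : x ∈ H.gr R (SS.Sing Y) 0)
    (h : H.map R (SS.toPt (SS.Sing Y)) x = 0) : x = 0 := by
  obtain ⟨⟨z, hz⟩, hz', rfl⟩ := hx
  obtain ⟨w', hw'⟩ := Hd.mk_eq_zero.1 h
  have haug : aug R z = 0 := by
    have hw'' : N.bd R SS.pt w' = N.map R (SS.toPt (SS.Sing Y)) z := hw'
    rw [← aug_map R (SS.toPt (SS.Sing Y)) z, ← hw'', aug_bd]
  obtain ⟨w, -, hw⟩ := exists_bd R (Classical.arbitrary Y) z hz'
  rw [haug, zero_smul, sub_zero] at hw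
  exact Hd.mk_eq_zero.2 ⟨w, hw⟩

end paths

theorem hZero : SpecA.HZero := fun _ _ _ x hx h => hZero_R F2 x hx h

end Crest.Agent.R204.HZ76
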