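import Crest.Agent.R204.Defs

/-!
# Row 204, block A-EZ (helper271): calculus of normalised chains, sign operator, augmentation,
cones (extra degeneracies).  Everything over an arbitrary commutative ring `R`.
-/

set_option autoImplicit false

namespace Crest.Agent.R204.EZ271

open Finsupp

section lift

variable {R : Type} [CommRing R] {K : SS} {M : Type*} [AddCommGroup M] [Module R M]

/-- linear maps out of normalised chains -/
noncomputable def liftN (φ : ∀ n : ℕ, K.S n → M)
    (h : ∀ (n : ℕ) (j : Fin (n + 1)) (y : K.S n), φ (n + 1) (K.act (Op.dgn j) y) = 0) :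
    N R K →ₗ[R] M :=
  Submodule.liftQ _ (Finsupp.linearCombination R (fun t : K.T => φ t.1 t.2)) (by
    refine Submodule.span_le.2 ?_
    rintro _ ⟨⟨n, x⟩, hx, rfl⟩
    rcases n with _ | n
    · exact hx.elim
    · obtain ⟨j, y, rfl⟩ := hx
      simp [h])

@[simp] theorem liftN_sx (φ : ∀ n : ℕ, K.S n → M)
    (h : ∀ (n : ℕ) (j : Fin (n + 1)) (y : K.S n), φ (n + 1) (K.act (Op.dgn j) y) = 0)
    {n : ℕ} (x : K.S n) : liftN (R := R) φ h (N.sx R x) = φ n x := by
  unfold liftN N.sx
  erw [Submodule.liftQ_apply]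
  simp

theorem span_sx : (⊤ : Submodule R (N R K)) = Submodule.span R {c | ∃ (n : ℕ) (x : K.S n), c = N.sx R x} := by
  symm
  rw [eq_top_iff]
  rintro c -
  obtain ⟨c, rfl⟩ := Submodule.Quotient.mk_surjective _ c
  induction c using Finsupp.induction_linear with
  | zero => exact Submodule.zero_mem _
  | add f g hf hg => exact Submodule.add_mem _ hf hg
  | single t r =>
    obtain ⟨n, x⟩ := t
    have : (single (⟨n, x⟩ : K.T) r : Ch R K) = r • single ⟨n, x⟩ 1 := by simp
    rw [this, Submodule.Quotient.mk_smul]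
    exact Submodule.smul_mem _ _ (Submodule.subset_span ⟨n, x, rfl⟩)

theorem N_induction {p : N R K → Prop} (c : N R K) (h0 : p 0) (hadd : ∀ a b, p a → p b → p (a + b))
    (hsmul : ∀ (r : R) a, p a → p (r • a)) (hsx : ∀ (n : ℕ) (x : K.S n), p (N.sx R x)) : p c := by
  have hc : c ∈ (⊤ : Submodule R (N R K)) := trivial
  rw [span_sx] at hc
  refine Submodule.span_induction (p := fun c _ => p c) ?_ h0 (fun a b _ _ => hadd a b)
    (fun r a _ => hsmul r a) hc
  rintro _ ⟨n, x, rfl⟩
  exact hsx n x

theorem hom_ext {M : Type*} [AddCommMonoid M] [Module R M] {f g : N R K →ₗ[R] M} (h : ∀ (n : ℕ) (x : K.S n), f (N.sx R x) = g (N.sx R x)) :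
    f = g := by
  ext c
  refine N_induction (R := R) (K := K) (p := fun c => f c = g c) _ ?_ ?_ ?_ ?_
  · simp
  · intro a b ha hb; rw [map_add, map_add, ha, hb]
  · intro r a ha; rw [map_smul, map_smul, ha]
  · exact h

end lift

section basic

variable (R : Type) [CommRing R] {K : SS}

theorem bd_sx_zero (x : K.S 0) : N.bd R K (N.sx R x) = 0 := by
  unfold N.sx
  rw [N.bd_mk, Ch.bd_single_zero]; rfl

theorem bd_sx_succ {n : ℕ} (x : K.S (n + 1)) : N.bd R K (N.sx R x) =
    ∑ i : Fin (n + 2), ((-1 : R) ^ (i : ℕ)) • N.sx R (K.act (Op.face i) x) := by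
  unfold N.sx
  rw [N.bd_mk, Ch.bd_single_succ]
  change (Ch.Dg R K).mkQ _ = _
  rw [map_sum]
  refine Finset.sum_congr rfl fun i _ => ?_
  have : (single (⟨n, K.act (Op.face i) x⟩ : K.T) (1 * (-1 : R) ^ (i : ℕ)) : Ch R K) =
      ((-1 : R) ^ (i : ℕ)) • single ⟨n, K.act (Op.face i) x⟩ 1 := by simp
  rw [this, map_smul]; rfl

/-- sign operator `x ↦ (-1)^|x| x` -/
noncomputable def sg : N R K →ₗ[R] N R K :=
  liftN (fun n x => ((-1 : R) ^ n) • N.sx R x) (fun n j y => by rw [N.sx_dgn, smul_zero])

@[simp] theorem sg_sx {n : ℕ} (x : K.S n) : sg R (N.sx R x) = ((-1 : R) ^ n) • N.sx R x := by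
  simp [sg]

/-- augmentation -/
noncomputable def aug : N R K →ₗ[R] R :=
  liftN (fun n _ => if n = 0 then 1 else 0) (fun n j y => by simp)

@[simp] theorem aug_sx_zero (x : K.S 0) : aug R (N.sx R x) = 1 := by simp [aug]
@[simp] theorem aug_sx_succ {n : ℕ} (x : K.S (n + 1)) : aug R (N.sx R x) = 0 := by simp [aug]

theorem sg_sg (c : N R K) : sg R (sg R c) = c := by
  have : (sg R (K := K)) ∘ₗ sg R = LinearMap.id := by
    refine hom_ext fun n x => ?_
    simp only [LinearMap.comp_apply, sg_sx, map_smul, smul_smul, LinearMap.id_apply]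
    rw [← mul_pow]; simp
  exact LinearMap.congr_fun this c

theorem bd_sg (c : N R K) : N.bd R K (sg R c) = - sg R (N.bd R K c) := by
  have : N.bd R K ∘ₗ (sg R (K := K)) = - (sg R ∘ₗ N.bd R K) := by
    refine hom_ext fun n x => ?_
    rcases n with _ | n
    · simp [bd_sx_zero]
    · simp only [LinearMap.comp_apply, sg_sx, map_smul, LinearMap.neg_apply]
      rw [bd_sx_succ, map_sum]
      simp only [map_smul, sg_sx]
      rw [Finset.smul_sum, ← Finset.sum_neg_distrib]
      refine Finset.sum_congr rfl fun i _ => ?_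
      rw [smul_smul, smul_smul, ← neg_smul]
      congr 1
      ring
  exact LinearMap.congr_fun this c

theorem map_sg {L : SS} (f : SS.Hom K L) (c : N R K) : N.map R f (sg R c) = sg R (N.map R f c) := by
  have : N.map R f ∘ₗ sg R = sg R ∘ₗ N.map R f := by
    refine hom_ext fun n x => ?_
    simp
  exact LinearMap.congr_fun this c

theorem aug_map {L : SS} (f : SS.Hom K L) (c : N R K) : aug R (N.map R f c) = aug R c := by
  have : aug R ∘ₗ N.map R f = aug R := by
    refine hom_ext fun n x => ?_
    rcases n with _ | n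
    · simp
    · simp
  exact LinearMap.congr_fun this c

theorem map_bd' {L : SS} (f : SS.Hom K L) (c : N R K) :
    N.map R f (N.bd R K c) = N.bd R L (N.map R f c) :=
  LinearMap.congr_fun (N.map_bd f) c

theorem map_map {L M : SS} (f : SS.Hom K L) (g : SS.Hom L M) (c : N R K) :
    N.map R g (N.map R f c) = N.map R (g.comp f) c := by
  have : N.map R g ∘ₗ N.map R f = N.map R (g.comp f) := by
    refine hom_ext fun n x => ?_
    simp [SS.Hom.comp]
  exact LinearMap.congr_fun this c

theorem map_idHom (c : N R K) : N.map R (SS.Hom.id K) c = c := by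
  have : N.map R (SS.Hom.id K) = LinearMap.id := by
    refine hom_ext fun n x => ?_
    simp [SS.Hom.id]
  exact LinearMap.congr_fun this c

theorem aug_bd (c : N R K) : aug R (N.bd R K c) = 0 := by
  have : aug R ∘ₗ N.bd R K = 0 := by
    refine hom_ext fun n x => ?_
    rcases n with _ | _ | n
    · simp [bd_sx_zero]
    · simp only [LinearMap.comp_apply, LinearMap.zero_apply]
      rw [bd_sx_succ, map_sum]
      simp [Fin.sum_univ_two]
    · simp only [LinearMap.comp_apply, LinearMap.zero_apply]
      rw [bd_sx_succ, map_sum]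
      simp
  exact LinearMap.congr_fun this c

end basic

/-! ## cones -/

/-- `cons 0 α` -/
def Op.cons {m n : ℕ} (α : Op m n) : Op (m + 1) n :=
  ⟨Fin.cons 0 α, by
    intro a b hab
    induction a using Fin.cases with
    | zero => simp
    | succ a =>
      induction b using Fin.cases with
      | zero => simp at hab
      | succ b => simpa using α.monotone (by simpa using hab)⟩

@[simp] theorem Op.cons_zero {m n : ℕ} (α : Op m n) : Op.cons α 0 = 0 := rfl
@[simp] theorem Op.cons_succ {m n : ℕ} (α : Op m n) (a : Fin (m + 1)) :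
    Op.cons α a.succ = α a := rfl

/-- `1 ⋆ α` -/
def Op.star {m n : ℕ} (α : Op m n) : Op (m + 1) (n + 1) :=
  Op.cons ((Op.face 0).comp α)

theorem face_zero_apply {n : ℕ} (a : Fin (n + 1)) : (Op.face 0 : Op n (n + 1)) a = a.succ := rfl

@[simp] theorem Op.star_zero {m n : ℕ} (α : Op m n) : Op.star α 0 = 0 := rfl
@[simp] theorem Op.star_succ {m n : ℕ} (α : Op m n) (a : Fin (m + 1)) :
    Op.star α a.succ = (α a).succ := rfl

theorem Op.star_face {n : ℕ} (i : Fin (n + 2)) : Op.star (Op.face i) = Op.face i.succ := by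
  refine OrderHom.ext _ _ (funext fun a => ?_)
  induction a using Fin.cases with
  | zero => simp [Op.face]
  | succ a => simp [Op.face]

theorem Op.star_dgn {n : ℕ} (i : Fin (n + 1)) : Op.star (Op.dgn i) = Op.dgn i.succ := by
  refine OrderHom.ext _ _ (funext fun a => ?_)
  induction a using Fin.cases with
  | zero => ext; simp [Ch.dgn_val]
  | succ a =>
    ext
    rw [Op.star_succ, Ch.dgn_val, Fin.val_succ, Ch.dgn_val]
    simp only [Fin.val_succ]
    split_ifs <;> omega

theorem Op.cons_id {n : ℕ} : Op.cons (OrderHom.id : Op n n) = Op.dgn 0 := by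
  refine OrderHom.ext _ _ (funext fun a => ?_)
  induction a using Fin.cases with
  | zero => ext; simp [Ch.dgn_val]
  | succ a => ext; simp [Ch.dgn_val]

/-- a contraction of a simplicial set to a vertex by an extra degeneracy (bottom vertex) -/
structure Cone (K : SS) where
  bot : K.S 0
  k : ∀ {n : ℕ}, K.S n → K.S (n + 1)
  h_cons : ∀ {m n : ℕ} (α : Op m (n + 1)) (x : K.S n), K.act (Op.cons α) (k x) = k (K.act α (k x))
  h_star : ∀ {m n : ℕ} (α : Op m n) (x : K.S n), k (K.act α x) = K.act (Op.star α) (k x)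
  h_face : ∀ {n : ℕ} (x : K.S n), K.act (Op.face 0) (k x) = x
  h_vert : ∀ {n : ℕ} (α : Op 0 (n + 1)) (x : K.S n), α 0 = 0 → K.act α (k x) = bot
  h_bot : k bot = K.act (Op.dgn 0) bot

namespace Cone

/-- the standard simplex -/
def std (p : ℕ) : Cone (SS.std p) where
  bot := ⟨fun _ => 0, fun _ _ _ => le_rfl⟩
  k α := Op.cons α
  h_cons α x := by
    refine OrderHom.ext _ _ (funext fun a => ?_)
    induction a using Fin.cases with
    | zero => simp [SS.std]
    | succ a => simp [SS.std]
  h_star α x := by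
    refine OrderHom.ext _ _ (funext fun a => ?_)
    induction a using Fin.cases with
    | zero => simp [SS.std]
    | succ a => simp [SS.std]
  h_face x := by
    refine OrderHom.ext _ _ (funext fun a => ?_)
    simp [SS.std, face_zero_apply]
  h_vert α x h := by
    refine OrderHom.ext _ _ (funext fun a => ?_)
    have : a = 0 := Fin.ext (by omega)
    subst this
    simp [SS.std, h]
  h_bot := by
    refine OrderHom.ext _ _ (funext fun a => ?_)
    induction a using Fin.cases with
    | zero => simp [SS.std]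
    | succ a => simp [SS.std]

/-- products -/
def prod {K L : SS} (A : Cone K) (B : Cone L) : Cone (K.prod L) where
  bot := (A.bot, B.bot)
  k x := (A.k x.1, B.k x.2)
  h_cons α x := Prod.ext (A.h_cons α x.1) (B.h_cons α x.2)
  h_star α x := Prod.ext (A.h_star α x.1) (B.h_star α x.2)
  h_face x := Prod.ext (A.h_face x.1) (B.h_face x.2)
  h_vert α x h := Prod.ext (A.h_vert α x.1 h) (B.h_vert α x.2 h)
  h_bot := Prod.ext A.h_bot B.h_bot

variable {K L : SS} (A : Cone K) (B : Cone L)

theorem k_dgn {n : ℕ} (j : Fin (n + 1)) (y : K.S n) :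
    A.k (K.act (Op.dgn j) y) = K.act (Op.dgn j.succ) (A.k y) := by
  rw [A.h_star, Op.star_dgn]

theorem k_k {n : ℕ} (x : K.S n) : A.k (A.k x) = K.act (Op.dgn 0) (A.k x) := by
  have := A.h_cons (OrderHom.id : Op (n + 1) (n + 1)) x
  rw [Op.cons_id, K.act_id] at this
  exact this.symm

variable (R : Type) [CommRing R]

/-- cone operator on normalised chains -/
noncomputable def c : N R K →ₗ[R] N R K :=
  liftN (fun n x => N.sx R (A.k x)) (fun n j y => by rw [k_dgn, N.sx_dgn])

@[simp] theorem c_sx {n : ℕ} (x : K.S n) : A.c R (N.sx R x) = N.sx R (A.k x) := by simp [c]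

theorem c_c (z : N R K) : A.c R (A.c R z) = 0 := by
  have : A.c R ∘ₗ A.c R = 0 := by
    refine hom_ext fun n x => ?_
    simp only [LinearMap.comp_apply, c_sx, LinearMap.zero_apply]
    rw [k_k, N.sx_dgn]
  exact LinearMap.congr_fun this z

theorem c_bot : A.c R (N.sx R A.bot) = 0 := by
  rw [c_sx, A.h_bot, N.sx_dgn]

theorem c_sg (z : N R K) : A.c R (sg R z) = - sg R (A.c R z) := by
  have : A.c R ∘ₗ sg R = - (sg R ∘ₗ A.c R) := by
    refine hom_ext fun n x => ?_
    simp only [LinearMap.comp_apply, c_sx, sg_sx, map_smul, LinearMap.neg_apply, ← neg_smul]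
    congr 1; ring
  exact LinearMap.congr_fun this z

theorem sg_c (z : N R K) : sg R (A.c R z) = - A.c R (sg R z) := by
  rw [c_sg, neg_neg]

@[simp] theorem aug_c (z : N R K) : aug R (A.c R z) = 0 := by
  have : aug R ∘ₗ A.c R = 0 := by
    refine hom_ext fun n x => ?_
    simp
  exact LinearMap.congr_fun this z

theorem bd_c (z : N R K) : N.bd R K (A.c R z) = z - A.c R (N.bd R K z) - aug R z • N.sx R A.bot := by
  have : N.bd R K ∘ₗ A.c R = LinearMap.id - A.c R ∘ₗ N.bd R K -
      (LinearMap.toSpanSingleton R _ (N.sx R A.bot)) ∘ₗ aug R := by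
    refine hom_ext fun n x => ?_
    simp only [LinearMap.comp_apply, c_sx, LinearMap.sub_apply, LinearMap.id_apply,
      LinearMap.toSpanSingleton_apply]
    rw [bd_sx_succ, Fin.sum_univ_succ]
    rcases n with _ | n
    · rw [bd_sx_zero, map_zero, aug_sx_zero]
      have e : ∀ i : Fin (0 + 1), ((-1 : R) ^ ((i.succ : Fin (0 + 2)) : ℕ)) •
          N.sx R (K.act (Op.face i.succ) (A.k x)) = - N.sx R A.bot := by
        intro i
        have hi : i = 0 := Fin.ext (by omega)
        subst hi
        rw [A.h_vert _ _ rfl]; simp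
      rw [Finset.sum_congr rfl fun i _ => e i, A.h_face]
      simp [sub_eq_add_neg]
    · rw [bd_sx_succ, aug_sx_succ, map_sum, zero_smul, sub_zero, A.h_face]
      simp only [Fin.val_zero, pow_zero, one_smul, map_smul, c_sx]
      rw [sub_eq_add_neg, ← Finset.sum_neg_distrib]
      congr 1
      refine Finset.sum_congr rfl fun i _ => ?_
      rw [A.h_star, Op.star_face, ← neg_smul]
      congr 1
      rw [Fin.val_succ]; ring
  exact LinearMap.congr_fun this z

end Cone

/-- cone preserving maps -/
structure IsConeMap {K L : SS} (A : Cone K) (B : Cone L) (f : SS.Hom K L) : Prop where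
  k : ∀ {n : ℕ} (x : K.S n), f.app (n + 1) (A.k x) = B.k (f.app n x)

theorem IsConeMap.c {K L : SS} {A : Cone K} {B : Cone L} {f : SS.Hom K L} (h : IsConeMap A B f)
    (R : Type) [CommRing R] (z : N R K) : N.map R f (A.c R z) = B.c R (N.map R f z) := by
  have : N.map R f ∘ₗ A.c R = B.c R ∘ₗ N.map R f := by
    refine hom_ext fun n x => ?_
    simp [h.k]
  exact LinearMap.congr_fun this z

end Crest.Agent.R204.EZ271
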