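import Crest.Agent.R204.Cov_892
import Crest.Agent.R204.ThetaSS_265
import Crest.Agent.R204.EZCone_271

/-!
# Row 204, leaf B5: products and homotopies on the covering `Bt b` (owner helper892)

* `mulP mu hb : C(PB b × PB b, PB b)` pointwise product, `mulT` the induced product on `Bt b`;
* `btHtpy` : compatible homotopies of `PB b` give simplicial homotopies of `Bt b`;
* `deck_homology` : for an H-space the deck transformations act as the identity on homology.
-/

set_option autoImplicit false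

noncomputable section

open Set unitInterval Topology

namespace Crest.Agent.R204.Cov892

open Crest.Agent.R204 Crest.Agent.R204.SS Crest.Agent.R204.SingAct265

variable {B : Type} [TopologicalSpace B] {b : B}

/-! ## pointwise product -/

/-- pointwise product of based paths -/
def mulP (mu : C(B × B, B)) (hb : mu (b, b) = b) : C(PB b × PB b, PB b) where
  toFun γ := ⟨⟨fun s => mu (γ.1.1 s, γ.2.1 s), by fun_prop⟩, by
    show mu (γ.1.1 0, γ.2.1 0) = b
    rw [γ.1.2, γ.2.2, hb]⟩
  continuous_toFun := by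
    refine Continuous.subtype_mk ?_ _
    exact ContinuousMap.continuous_of_continuous_uncurry _ (by
      show Continuous fun z : (PB b × PB b) × I => mu (z.1.1.1 z.2, z.1.2.1 z.2)
      fun_prop)

@[simp] theorem mulP_apply (mu : C(B × B, B)) (hb : mu (b, b) = b) (γ : PB b × PB b) (s : I) :
    (mulP mu hb γ).1 s = mu (γ.1.1 s, γ.2.1 s) := rfl

theorem mulP_pEq (mu : C(B × B, B)) (hb : mu (b, b) = b) {γ γ' δ δ' : PB b} (h : PEq γ γ')
    (h' : PEq δ δ') : PEq (mulP mu hb (γ, δ)) (mulP mu hb (γ', δ')) := by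
  obtain ⟨F⟩ := h
  obtain ⟨G⟩ := h'
  refine ⟨⟨⟨⟨fun z => mu (F z, G z), by fun_prop⟩, ?_, ?_⟩, ?_⟩⟩
  · intro s
    show mu (F (0, s), G (0, s)) = mu (γ.1 s, δ.1 s)
    rw [F.apply_zero, G.apply_zero]
  · intro s
    show mu (F (1, s), G (1, s)) = mu (γ'.1 s, δ'.1 s)
    rw [F.apply_one, G.apply_one]
  · intro t s hs
    show mu (F (t, s), G (t, s)) = mu (γ.1 s, δ.1 s)
    rw [F.eq_fst t hs, G.eq_fst t hs]

/-- the product on the covering -/
def mulT (mu : C(B × B, B)) (hb : mu (b, b) = b) : SS.Hom ((Bt b).prod (Bt b)) (Bt b) where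
  app n x := Quotient.map₂ (sa := rel b n) (sb := rel b n) (sc := rel b n)
    (fun f g : (Sing (PB b)).S n =>
      ((mulP mu hb).comp ((show C(stdSimplex ℝ (Fin (n + 1)), PB b) from f).prodMk
        (show C(stdSimplex ℝ (Fin (n + 1)), PB b) from g)) : C(stdSimplex ℝ (Fin (n + 1)), PB b)))
    (fun _ _ h _ _ h' t => mulP_pEq mu hb (h t) (h' t)) x.1 x.2
  nat f x := by
    obtain ⟨x, y⟩ := x
    obtain ⟨f, rfl⟩ := quo_surjective b _ x
    obtain ⟨g, rfl⟩ := quo_surjective b _ y
    rfl

theorem mulT_quo (mu : C(B × B, B)) (hb : mu (b, b) = b) (n : ℕ)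
    (f g : C(stdSimplex ℝ (Fin (n + 1)), PB b)) :
    (mulT mu hb).app n ((quo b).app n f, (quo b).app n g) =
      (quo b).app n ((mulP mu hb).comp (f.prodMk g)) := rfl

theorem prj_mulT (mu : C(B × B, B)) (hb : mu (b, b) = b) (n : ℕ) (x y : (Bt b).S n) :
    (prj b).app n ((mulT mu hb).app n (x, y)) =
      (SingMap mu).app n ((singPair B B).app n ((prj b).app n x, (prj b).app n y)) := by
  obtain ⟨f, rfl⟩ := quo_surjective b _ x
  obtain ⟨g, rfl⟩ := quo_surjective b _ y
  rfl

/-! ## homotopies -/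

/-- a homotopy of `PB b` compatible with the relation induces a simplicial homotopy of `Bt b` -/
def btHtpy (F : C(PB b × I, PB b)) (hF : ∀ γ γ', PEq γ γ' → ∀ s, PEq (F (γ, s)) (F (γ', s)))
    (f g : C(PB b, PB b)) (hf : ∀ γ γ', PEq γ γ' → PEq (f γ) (f γ'))
    (hg : ∀ γ γ', PEq γ γ' → PEq (g γ) (g γ')) (h0 : ∀ γ, F (γ, 0) = f γ)
    (h1 : ∀ γ, F (γ, 1) = g γ) : Htpy (btMap f hf) (btMap g hg) where
  h :=
    { app := fun n x => Quotient.map' (s₁ := rel b n) (s₂ := rel b n)
        (fun s : (Sing (PB b)).S n => (singHtpy F).app n (s, x.2))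
        (fun _ _ h t => hF _ _ (h t) _) x.1
      nat := by
        intro m n f x
        obtain ⟨x, θ⟩ := x
        obtain ⟨x, rfl⟩ := quo_surjective b _ x
        exact congrArg ((quo b).app m) ((singHtpy F).nat f (x, θ)) }
  zero n x := by
    obtain ⟨x, rfl⟩ := quo_surjective b _ x
    exact congrArg ((quo b).app n) (singHtpy_zero F f h0 x)
  one n x := by
    obtain ⟨x, rfl⟩ := quo_surjective b _ x
    exact congrArg ((quo b).app n) (singHtpy_one F g h1 x)

/-- constructor for continuous families of based paths -/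
def mkPB {X : Type*} [TopologicalSpace X] (F : X × I → B) (hc : Continuous F)
    (h0 : ∀ x, F (x, 0) = b) : C(X, PB b) where
  toFun x := ⟨⟨fun s => F (x, s), by fun_prop⟩, h0 x⟩
  continuous_toFun := by
    refine Continuous.subtype_mk ?_ _
    exact ContinuousMap.continuous_of_continuous_uncurry _ hc

@[simp] theorem mkPB_apply {X : Type*} [TopologicalSpace X] (F : X × I → B) (hc : Continuous F)
    (h0 : ∀ x, F (x, 0) = b) (x : X) (s : I) : (mkPB F hc h0 x).1 s = F (x, s) := rfl

/-! ## H-spaces -/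

/-- product with a two-sided unit up to based homotopy (exactly 696's statements for `mu2 c`) -/
structure HSp (b : B) (mu : C(B × B, B)) : Prop where
  hb : mu (b, b) = b
  hl : (mu.comp ⟨fun x : B => (b, x), by fun_prop⟩).HomotopicRel (ContinuousMap.id B) {b}
  hr : (mu.comp ⟨fun x : B => (x, b), by fun_prop⟩).HomotopicRel (ContinuousMap.id B) {b}

variable {mu : C(B × B, B)}

/-- `γ ↦ mu (b, γ)` -/
def lam (mu : C(B × B, B)) (hb : mu (b, b) = b) : C(PB b, PB b) :=
  (mulP mu hb).comp ⟨fun γ => (ofPath (Path.refl b), γ), by fun_prop⟩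

@[simp] theorem lam_apply (hb : mu (b, b) = b) (γ : PB b) (s : I) :
    (lam mu hb γ).1 s = mu (b, γ.1 s) := rfl

theorem lam_pEq (hb : mu (b, b) = b) (γ γ' : PB b) (h : PEq γ γ') : PEq (lam mu hb γ) (lam mu hb γ') :=
  mulP_pEq mu hb (PEq.refl _) h

/-- post-composition of based paths with a based map -/
def post (f : C(B, B)) (hf : f b = b) : C(PB b, PB b) where
  toFun γ := ⟨⟨fun s => f (γ.1 s), by fun_prop⟩, by
    show f (γ.1 0) = b
    rw [γ.2, hf]⟩
  continuous_toFun := by
    refine Continuous.subtype_mk ?_ _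
    exact ContinuousMap.continuous_of_continuous_uncurry _ (by
      show Continuous fun z : PB b × I => f (z.1.1 z.2)
      fun_prop)

theorem lam_htpy (hb : mu (b, b) = b)
    (hl : (mu.comp ⟨fun x : B => (b, x), by fun_prop⟩).HomotopicRel (ContinuousMap.id B) {b}) :
    Nonempty (Htpy (btMap (lam mu hb) (lam_pEq hb)) (SS.Hom.id (Bt b))) := by
  obtain ⟨K⟩ := hl
  have hK : ∀ s : I, K (s, b) = b := fun s => by
    have := K.eq_fst s (x := b) (by simp)
    rw [this]; exact hb
  have hc : Continuous fun z : (PB b × I) × I => K (z.1.2, z.1.1.1 z.2) := by fun_prop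
  let F : C(PB b × I, PB b) := mkPB (fun z => K (z.1.2, z.1.1.1 z.2)) hc (fun z => by
    show K (z.2, z.1.1 0) = b
    rw [z.1.2, hK])
  have hF : ∀ γ γ', PEq γ γ' → ∀ s, PEq (F (γ, s)) (F (γ', s)) := by
    rintro γ γ' ⟨G⟩ s
    refine ⟨⟨⟨⟨fun z => K (s, G z), by fun_prop⟩, ?_, ?_⟩, ?_⟩⟩
    · intro u
      show K (s, G (0, u)) = K (s, γ.1 u)
      rw [G.apply_zero]
    · intro u
      show K (s, G (1, u)) = K (s, γ'.1 u)
      rw [G.apply_one]
    · intro t u hu
      show K (s, G (t, u)) = K (s, γ.1 u)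
      rw [G.eq_fst t hu]
  have h0 : ∀ γ, F (γ, 0) = lam mu hb γ := by
    intro γ
    apply Subtype.ext
    ext u
    exact K.apply_zero _
  have h1 : ∀ γ, F (γ, 1) = ContinuousMap.id _ γ := by
    intro γ
    apply Subtype.ext
    ext u
    exact K.apply_one _
  have key := btHtpy F hF (lam mu hb) (ContinuousMap.id _) (lam_pEq hb) (fun _ _ h => h) h0 h1
  have e : btMap (ContinuousMap.id (PB b)) (fun _ _ h => h) = SS.Hom.id (Bt b) := by
    ext n x
    obtain ⟨x, rfl⟩ := quo_surjective b _ x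
    rfl
  rw [e] at key
  exact ⟨key⟩

/-- `γ ↦ mu (L, γ)` -/
def mulL (mu : C(B × B, B)) (hb : mu (b, b) = b) (L : Path b b) : C(PB b, PB b) :=
  (mulP mu hb).comp ⟨fun γ => (ofPath L, γ), by fun_prop⟩

theorem mulL_pEq' (hb : mu (b, b) = b) (L : Path b b) (γ γ' : PB b) (h : PEq γ γ') :
    PEq (mulL mu hb L γ) (mulL mu hb L γ') :=
  mulP_pEq mu hb (PEq.refl _) h

/-- the homotopy `γ ↦ mu (L (s ·), γ)` -/
theorem mulL_htpy (hb : mu (b, b) = b) (L : Path b b) :
    Nonempty (Htpy (btMap (lam mu hb) (lam_pEq hb)) (btMap (mulL mu hb L) (mulL_pEq' hb L))) := by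
  have hc : Continuous fun z : (PB b × I) × I => mu (L (z.1.2 * z.2), z.1.1.1 z.2) := by fun_prop
  let F : C(PB b × I, PB b) := mkPB (fun z => mu (L (z.1.2 * z.2), z.1.1.1 z.2)) hc (fun z => by
    show mu (L (z.2 * 0), z.1.1 0) = b
    rw [z.1.2, mul_zero, L.source, hb])
  have hF : ∀ γ γ', PEq γ γ' → ∀ s, PEq (F (γ, s)) (F (γ', s)) := by
    rintro γ γ' ⟨G⟩ s
    refine ⟨⟨⟨⟨fun z => mu (L (s * z.2), G z), by fun_prop⟩, ?_, ?_⟩, ?_⟩⟩
    · intro u
      show mu (L (s * u), G (0, u)) = mu (L (s * u), γ.1 u)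
      rw [G.apply_zero]
    · intro u
      show mu (L (s * u), G (1, u)) = mu (L (s * u), γ'.1 u)
      rw [G.apply_one]
    · intro t u hu
      show mu (L (s * u), G (t, u)) = mu (L (s * u), γ.1 u)
      rw [G.eq_fst t hu]
  refine ⟨btHtpy F hF _ _ _ _ ?_ ?_⟩
  · intro γ
    apply Subtype.ext
    ext u
    show mu (L (0 * u), γ.1 u) = mu (b, γ.1 u)
    rw [zero_mul, L.source]
  · intro γ
    apply Subtype.ext
    ext u
    show mu (L (1 * u), γ.1 u) = mu (L u, γ.1 u)
    rw [one_mul]

theorem path_prod_homotopic {x : B} (L : Path b b) (G : Path b x) :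
    (L.prod G).Homotopic ((L.prod (Path.refl b)).trans ((Path.refl b).prod G)) := by
  rw [Path.trans_prod_eq_prod_trans]
  exact ⟨Path.Homotopic.prodHomotopy (Path.Homotopic.trans_refl L).symm.some
    (Path.Homotopic.refl_trans G).symm.some⟩

/-- `mu (L, γ)` is homotopic to `L · mu (b, γ)` -/
theorem mulL_pre (h : HSp b mu) (L : Path b b) (γ : PB b) :
    PEq (mulL mu h.hb L γ) (pre L (lam mu h.hb γ)) := by
  let x := γ.1 1
  let G : Path b x := pa γ x rfl
  -- the three paths in `B`
  have e : b = mu (b, b) := h.hb.symm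
  have ex : (lam mu h.hb γ).1 1 = mu (b, x) := rfl
  have key := (path_prod_homotopic L G).map mu
  rw [Path.map_trans] at key
  let L' : Path b b := ((L.prod (Path.refl b)).map mu.continuous).cast e e
  let G' : Path b (mu (b, x)) := (((Path.refl b).prod G).map mu.continuous).cast e rfl
  have hL' : L'.Homotopic L := by
    obtain ⟨K⟩ := h.hr
    have hK : ∀ s : I, K (s, b) = b := fun s => by
      have := K.eq_fst s (x := b) (by simp)
      rw [this]; exact h.hb
    refine ⟨⟨⟨⟨fun z => K (z.1, L z.2), by fun_prop⟩, ?_, ?_⟩, ?_⟩⟩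
    · intro u; exact K.apply_zero _
    · intro u; exact K.apply_one _
    · intro t u hu
      have hu' : L u = b := by
        rcases hu with rfl | hu
        · exact L.source
        · rw [Set.mem_singleton_iff] at hu
          subst hu
          exact L.target
      show K (t, L u) = mu (L u, b)
      rw [hu', hK, h.hb]
  have k2 := key.pathCast e (rfl : mu (b, x) = mu (b, x))
  have e1 : (mulL mu h.hb L γ).1 1 = mu (b, x) := by
    show mu (L 1, γ.1 1) = mu (b, x)
    rw [L.target]
  have d1 : ((L.prod G).map mu.continuous).cast e rfl = pa (mulL mu h.hb L γ) (mu (b, x)) e1 := by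
    ext u; rfl
  have d2 : (((L.prod (Path.refl b)).map mu.continuous).trans
      (((Path.refl b).prod G).map mu.continuous)).cast e rfl = L'.trans G' := rfl
  have d3 : G' = pa (lam mu h.hb γ) (mu (b, x)) ex := by
    ext u; rfl
  have k3 : (pa (mulL mu h.hb L γ) (mu (b, x)) e1).Homotopic (L'.trans G') := by
    rw [← d1, ← d2]; exact k2
  have k4 : (L'.trans G').Homotopic (L.trans (pa (lam mu h.hb γ) (mu (b, x)) ex)) := by
    rw [d3]
    exact hL'.hcomp (Path.Homotopic.refl _)
  rw [pre_apply L (lam mu h.hb γ) _ ex]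
  exact PEq.of_path (k3.trans k4)

theorem hd_mk_congr {R M : Type} [CommRing R] [AddCommGroup M] [Module R M] {d : M →ₗ[R] M} {z z' : M}
    (h : z = z') (hz : d z = 0) (hz' : d z' = 0) : Hd.mk d z hz = Hd.mk d z' hz' := by
  subst h; rfl

theorem Hmap_id {R : Type} [CommRing R] {K : SS} (x : H R K) : H.map R (SS.Hom.id K) x = x := by
  obtain ⟨z, hz, rfl⟩ := Hd.mk_surj _ x
  exact (Hd.map_mk _ _ z hz).trans (hd_mk_congr (EZ271.map_idHom R z) _ _)

theorem Hmap_comp {R : Type} [CommRing R] {K L M : SS} (f : SS.Hom K L) (g : SS.Hom L M) (x : H R K) :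
    H.map R (g.comp f) x = H.map R g (H.map R f x) := by
  obtain ⟨z, hz, rfl⟩ := Hd.mk_surj _ x
  exact (Hd.map_mk _ _ z hz).trans (hd_mk_congr (EZ271.map_map R f g z).symm _ _)

/-- **in an H-space the deck transformations act trivially on the homology of the covering** -/
theorem deck_homology (hA : SpecA.HomotopyInv) (h : HSp b mu) (R : Type) [CommRing R] (L : Path b b) :
    H.map R (deck L) = LinearMap.id := by
  obtain ⟨h1⟩ := lam_htpy h.hb h.hl
  obtain ⟨h2⟩ := mulL_htpy h.hb L
  have e1 := ThetaSS265.Htpy_homology hA R h1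
  have e2 := ThetaSS265.Htpy_homology hA R h2
  have e3 : btMap (mulL mu h.hb L) (mulL_pEq' h.hb L) =
      SS.Hom.comp (deck L) (btMap (lam mu h.hb) (lam_pEq h.hb)) := by
    ext n x
    obtain ⟨f, rfl⟩ := quo_surjective b _ x
    exact (quo_eq_iff b _ _).2 fun t => mulL_pre h L _
  refine LinearMap.ext fun x => ?_
  have := LinearMap.congr_fun e2 x
  rw [e3, Hmap_comp, e1, Hmap_id] at this
  exact this.symm

theorem zcov_g_homology (hA : SpecA.HomotopyInv) (h : HSp b mu) (R : Type) [CommRing R]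
    [PathConnectedSpace B] (w : FundamentalGroup B b)
    (hgen : ∀ a : FundamentalGroup B b, ∃ k : ℤ, a = w ^ k)
    (hinf : ∀ k : ℤ, w ^ k = 1 → k = 0) :
    H.map R (zcov w hgen hinf).g = LinearMap.id :=
  deck_homology hA h R (Classical.choose (lc_surjective (w⁻¹ : FundamentalGroup B b)))

/-! ## simply connected spaces -/

/-- for a simply connected space the covering is `Sing B` itself -/
theorem prj_bijective [SimplyConnectedSpace B] (n : ℕ) : Function.Bijective ((prj b).app n) := by
  refine ⟨?_, prj_surjective n⟩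
  intro x y h
  obtain ⟨L, rfl⟩ := deck_transitive x y h
  rw [deck_congr (SimplyConnectedSpace.paths_homotopic L (Path.refl b)) n x, deck_refl]

/-- the inverse isomorphism -/
def prjInv [SimplyConnectedSpace B] : SS.Hom (Sing B) (Bt b) where
  app n := (Equiv.ofBijective _ (prj_bijective (b := b) n)).symm
  nat {m n} f x := by
    rw [Equiv.symm_apply_eq]
    show (Sing B).act f x = (prj b).app m ((Bt b).act f _)
    rw [(prj b).nat]
    congr 1
    exact ((Equiv.ofBijective _ (prj_bijective (b := b) n)).apply_symm_apply x).symm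

theorem prj_prjInv [SimplyConnectedSpace B] : (prj b).comp (prjInv (b := b)) = SS.Hom.id (Sing B) := by
  ext n x
  exact (Equiv.ofBijective _ (prj_bijective (b := b) n)).apply_symm_apply x

theorem prjInv_prj [SimplyConnectedSpace B] : (prjInv (b := b)).comp (prj b) = SS.Hom.id (Bt b) := by
  ext n x
  exact (Equiv.ofBijective _ (prj_bijective (b := b) n)).symm_apply_apply x

end Crest.Agent.R204.Cov892
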