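import Crest.Agent.R204.Defs
import Mathlib.Topology.Homotopy.Path
import Mathlib.Topology.Homotopy.Equiv
import Mathlib.Topology.CompactOpen

/-!
# Row 204, block B4 (section 02), topological half, space level (helper755)

`B` a space with base point `b0`.  `PB b0` = paths starting at `b0`; `SE g d` = homotopic rel end
points; `G0 b0` = null homotopic loops; `E0 b0 p` = `(p+1)`-tuples of based paths which are pairwise
homotopic rel end points.
-/

set_option autoImplicit false

open scoped unitInterval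

noncomputable section

namespace Crest.Agent.R204.Ep755

variable {B : Type} [TopologicalSpace B] {b0 : B}

/-! ## clamped evaluation -/

/-- value of a path at a real parameter (clamped to `[0,1]`) -/
def ev (g : C(I, B)) (x : ℝ) : B := g (Set.projIcc 0 1 zero_le_one x)

theorem continuous_ev : Continuous fun p : C(I, B) × ℝ => ev p.1 p.2 := by
  unfold ev
  have h1 : Continuous fun p : C(I, B) × ℝ => (p.1, Set.projIcc (0 : ℝ) 1 zero_le_one p.2) :=
    continuous_fst.prodMk (continuous_projIcc.comp continuous_snd)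
  exact continuous_eval.comp h1

@[fun_prop]
theorem Continuous.ev {P : Type*} [TopologicalSpace P] {f : P → C(I, B)} {a : P → ℝ}
    (hf : Continuous f) (ha : Continuous a) : Continuous fun p => ev (f p) (a p) :=
  continuous_ev.comp (hf.prodMk ha)

theorem ev_coe (g : C(I, B)) (t : I) : ev g (t : ℝ) = g t := by
  unfold ev
  rw [Set.projIcc_val]

theorem ev_le (g : C(I, B)) {x : ℝ} (h : x ≤ 0) : ev g x = g 0 := by
  unfold ev
  rw [Set.projIcc_of_le_left _ h]
  rfl

theorem ev_ge (g : C(I, B)) {x : ℝ} (h : 1 ≤ x) : ev g x = g 1 := by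
  unfold ev
  rw [Set.projIcc_of_right_le _ h]
  rfl

@[simp] theorem ev_zero (g : C(I, B)) : ev g 0 = g 0 := ev_le g le_rfl
@[simp] theorem ev_one (g : C(I, B)) : ev g 1 = g 1 := ev_ge g le_rfl

variable (b0)

/-- based paths -/
abbrev PB : Type := {g : C(I, B) // g 0 = b0}

variable {b0}

/-- the end of a based path -/
def PB.fin (g : PB b0) : B := g.1 1

theorem continuous_fin : Continuous (PB.fin : PB b0 → B) := by
  unfold PB.fin
  exact (continuous_eval_const (1 : I)).comp continuous_subtype_val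

variable (b0)

/-- the constant path -/
def PB.const : PB b0 := ⟨ContinuousMap.const I b0, rfl⟩

variable {b0}

@[simp] theorem ev_const (x : ℝ) : ev (PB.const b0).1 x = b0 := rfl
@[simp] theorem const_fin : (PB.const b0).fin = b0 := rfl

theorem PB.ev_le' (g : PB b0) {x : ℝ} (h : x ≤ 0) : ev g.1 x = b0 := (ev_le _ h).trans g.2
theorem PB.ev_ge' (g : PB b0) {x : ℝ} (h : 1 ≤ x) : ev g.1 x = g.fin := ev_ge _ h

theorem PB.ext_iff' {g d : PB b0} : g = d ↔ ∀ t : I, g.1 t = d.1 t := by
  rw [Subtype.ext_iff, ContinuousMap.ext_iff]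

/-- a family of based paths from an uncurried function of a real variable -/
def fam {P : Type*} [TopologicalSpace P] (h : P → ℝ → B)
    (hc : Continuous fun x : P × ℝ => h x.1 x.2) (h0 : ∀ p, h p 0 = b0) : C(P, PB b0) where
  toFun p := ⟨⟨fun t => h p t, hc.comp (continuous_const.prodMk continuous_subtype_val)⟩, by
    simpa using h0 p⟩
  continuous_toFun := by
    refine Continuous.subtype_mk ?_ _
    refine ContinuousMap.continuous_of_continuous_uncurry _ ?_
    exact hc.comp (continuous_fst.prodMk (continuous_subtype_val.comp continuous_snd))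

@[simp] theorem fam_apply {P : Type*} [TopologicalSpace P] (h : P → ℝ → B)
    (hc : Continuous fun x : P × ℝ => h x.1 x.2) (h0 : ∀ p, h p 0 = b0) (p : P) (t : I) :
    (fam h hc h0 p).1 t = h p t := rfl

theorem fam_ev {P : Type*} [TopologicalSpace P] (h : P → ℝ → B)
    (hc : Continuous fun x : P × ℝ => h x.1 x.2) (h0 : ∀ p, h p 0 = b0) (p : P) {x : ℝ}
    (hx : x ∈ Set.Icc (0 : ℝ) 1) : ev (fam h hc h0 p).1 x = h p x := by
  unfold ev
  rw [Set.projIcc_of_mem _ hx]
  rfl

theorem fam_fin {P : Type*} [TopologicalSpace P] (h : P → ℝ → B)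
    (hc : Continuous fun x : P × ℝ => h x.1 x.2) (h0 : ∀ p, h p 0 = b0) (p : P) :
    (fam h hc h0 p).fin = h p 1 := by
  simp [PB.fin]

/-! ## homotopy rel end points -/

/-- homotopic rel end points -/
def SE (g d : PB b0) : Prop := ContinuousMap.HomotopicRel g.1 d.1 {0, 1}

theorem SE.refl (g : PB b0) : SE g g := ContinuousMap.HomotopicRel.refl _
theorem SE.symm {g d : PB b0} (h : SE g d) : SE d g := ContinuousMap.HomotopicRel.symm h
theorem SE.trans {g d e : PB b0} (h : SE g d) (h' : SE d e) : SE g e :=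
  ContinuousMap.HomotopicRel.trans h h'
theorem SE.fin_eq {g d : PB b0} (h : SE g d) : g.fin = d.fin :=
  ContinuousMap.HomotopicRel.fst_eq_snd h (x := 1) (by simp)

theorem SE_of_path (c : C(I, PB b0)) (hc : ∀ s, (c s).fin = (c 0).fin) : SE (c 0) (c 1) := by
  refine ⟨{ toFun := fun x => (c x.1).1 x.2, continuous_toFun := ?_, map_zero_left := fun t => rfl,
            map_one_left := fun t => rfl, prop' := ?_ }⟩
  · exact continuous_eval.comp
      (((continuous_subtype_val.comp c.continuous).comp continuous_fst).prodMk continuous_snd)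
  · intro s t ht
    show (c s).1 t = (c 0).1 t
    rcases ht with rfl | ht
    · rw [(c s).2, (c 0).2]
    · have : t = 1 := ht
      subst this
      exact hc s

/-- families with constant end give homotopies rel end points -/
theorem SE_family {X : Type*} [TopologicalSpace X] (H : C(I × X, PB b0))
    (hH : ∀ s x, (H (s, x)).fin = (H (0, x)).fin) (s : I) (x : X) : SE (H (0, x)) (H (s, x)) := by
  let c : C(I, PB b0) := ⟨fun u => H (u * s, x), by fun_prop⟩
  have h := SE_of_path c (fun u => by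
    show (H (u * s, x)).fin = (H (0 * s, x)).fin
    rw [hH, zero_mul])
  have e0 : c 0 = H (0, x) := by show H (0 * s, x) = _; rw [zero_mul]
  have e1 : c 1 = H (s, x) := by show H (1 * s, x) = _; rw [one_mul]
  rwa [e0, e1] at h

theorem SE.path {g d : PB b0} (h : SE g d) :
    ∃ c : C(I, PB b0), c 0 = g ∧ c 1 = d ∧ ∀ s, (c s).fin = g.fin := by
  obtain ⟨F⟩ := h
  refine ⟨fam (P := I) (fun s t => F (s, Set.projIcc 0 1 zero_le_one t)) ?_ ?_, ?_, ?_, ?_⟩
  · exact F.continuous.comp (continuous_fst.prodMk (continuous_projIcc.comp continuous_snd))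
  · intro s
    have := F.eq_fst s (x := 0) (by simp)
    simp only [Set.projIcc_left]
    exact this.trans g.2
  · rw [PB.ext_iff']; intro t
    simp only [fam_apply, Set.projIcc_val]
    exact F.apply_zero t
  · rw [PB.ext_iff']; intro t
    simp only [fam_apply, Set.projIcc_val]
    exact F.apply_one t
  · intro s
    rw [fam_fin]
    simp only [Set.projIcc_right]
    exact F.eq_fst s (x := 1) (by simp)

variable (b0)
/-- pairs of based paths homotopic rel end points -/
abbrev P2 : Type := {x : PB b0 × PB b0 // SE x.1 x.2}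

/-- null homotopic loops -/
abbrev G0 : Type := {g : PB b0 // SE g (PB.const b0)}

/-- the constant loop in `G0` -/
def G0.const : G0 b0 := ⟨PB.const b0, SE.refl _⟩

/-- `(p+1)`-tuples of based paths, pairwise homotopic rel end points -/
abbrev E0 (p : ℕ) : Type := {y : Fin (p + 1) → PB b0 // ∀ i j, SE (y i) (y j)}
variable {b0}

theorem G0.fin_eq (g : G0 b0) : g.1.fin = b0 := g.2.fin_eq

theorem G0.ext' {g d : G0 b0} (h : ∀ t : I, g.1.1 t = d.1.1 t) : g = d :=
  Subtype.ext (PB.ext_iff'.2 h)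

theorem G0.ev_le (g : G0 b0) {x : ℝ} (h : x ≤ 0) : ev g.1.1 x = b0 := g.1.ev_le' h
theorem G0.ev_ge (g : G0 b0) {x : ℝ} (h : 1 ≤ x) : ev g.1.1 x = b0 := (g.1.ev_ge' h).trans g.fin_eq

/-- homotopies in `G0` from homotopies of loops -/
theorem homotopic_G0 {X : Type*} [TopologicalSpace X] (H : C(I × X, PB b0))
    (hH : ∀ s x, (H (s, x)).fin = b0) (f g : C(X, G0 b0)) (hf : ∀ x, H (0, x) = (f x).1)
    (hg : ∀ x, H (1, x) = (g x).1) : f.Homotopic g := by
  have key : ∀ s x, SE (H (s, x)) (PB.const b0) := fun s x =>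
    (SE_family H (fun s x => by rw [hH, hH]) s x).symm.trans (by rw [hf]; exact (f x).2)
  exact ⟨{ toFun := fun x => ⟨H x, key x.1 x.2⟩
           continuous_toFun := H.continuous.subtype_mk _
           map_zero_left := fun x => Subtype.ext (hf x)
           map_one_left := fun x => Subtype.ext (hg x) }⟩

/-! ## the quotient loop `q (γ, δ) = γ * rev δ` -/

/-- `γ * rev δ` -/
def qfun (g d : C(I, B)) (t : ℝ) : B :=
  if t ≤ 1 / 2 then ev g (2 * t) else ev d (2 - 2 * t)

theorem continuous_qfun {P : Type*} [TopologicalSpace P] {g d : P → C(I, B)} {t : P → ℝ}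
    (hg : Continuous g) (hd : Continuous d) (ht : Continuous t) (h : ∀ p, g p 1 = d p 1) :
    Continuous fun p => qfun (g p) (d p) (t p) := by
  unfold qfun
  refine Continuous.if_le ?_ ?_ ht continuous_const ?_
  · exact Continuous.ev hg (by fun_prop)
  · exact Continuous.ev hd (by fun_prop)
  · intro p hp
    rw [hp, ev_ge _ (by norm_num), ev_ge _ (by norm_num), h]

/-- `γ * rev δ`, path level -/
def qP : C(P2 b0, PB b0) :=
  fam (fun x t => qfun x.1.1.1 x.1.2.1 t)
    (continuous_qfun (by fun_prop) (by fun_prop) continuous_snd fun p => p.1.2.fin_eq)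
    (fun p => by
      show qfun _ _ 0 = b0
      rw [qfun, if_pos (by norm_num), mul_zero, ev_zero]; exact p.1.1.2)

theorem qP_apply (x : P2 b0) (t : I) : (qP x).1 t = qfun x.1.1.1 x.1.2.1 t := rfl

theorem qP_fin (x : P2 b0) : (qP x).fin = b0 := by
  rw [qP, fam_fin]
  show qfun _ _ 1 = b0
  rw [qfun, if_neg (by norm_num), mul_one, sub_self, ev_zero]; exact x.1.2.2

/-- the contraction of `γ * rev γ` -/
def h4 : C(I × PB b0, PB b0) :=
  fam (fun x t => ev x.2.1 ((1 - x.1) * min (2 * t) (2 - 2 * t))) (by fun_prop)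
    (fun p => by
      show ev _ _ = b0
      simp only [mul_zero, sub_zero]
      rw [min_eq_left (by norm_num), mul_zero]
      exact p.2.ev_le' le_rfl)

theorem h4_apply (x : I × PB b0) (t : I) :
    (h4 x).1 t = ev x.2.1 ((1 - (x.1 : ℝ)) * min (2 * (t : ℝ)) (2 - 2 * (t : ℝ))) := rfl

theorem h4_fin (x : I × PB b0) : (h4 x).fin = b0 := by
  rw [h4, fam_fin]
  show ev _ _ = b0
  rw [mul_one, sub_self, min_eq_right (by norm_num), mul_zero]
  exact x.2.ev_le' le_rfl

theorem h4_zero (g : PB b0) : h4 (0, g) = qP ⟨(g, g), SE.refl g⟩ := by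
  rw [PB.ext_iff']; intro t
  rw [h4_apply, qP_apply, qfun]
  simp only [Set.Icc.coe_zero, sub_zero, one_mul]
  split_ifs with h
  · rw [min_eq_left (by linarith)]
  · rw [min_eq_right (by linarith)]

theorem h4_one (g : PB b0) : h4 (1, g) = PB.const b0 := by
  rw [PB.ext_iff']; intro t
  rw [h4_apply]
  simp only [Set.Icc.coe_one, sub_self, zero_mul]
  rw [ev_zero]; exact g.2

theorem SE_qP (x : P2 b0) : SE (qP x) (PB.const b0) := by
  obtain ⟨⟨g, d⟩, h⟩ := x
  obtain ⟨c, c0, c1, c2⟩ := SE.path h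
  have hcs : ∀ s, SE (c s) d := by
    intro s
    have := SE_family (X := Unit) ⟨fun x => c x.1, by fun_prop⟩ (fun s _ => by
      show (c s).fin = (c 0).fin
      rw [c2, c2]) s ()
    refine (SE.symm this).trans ?_
    show SE (c 0) d
    rw [c0]; exact h
  let c' : C(I, PB b0) := ⟨fun s => qP ⟨(c s, d), hcs s⟩, by fun_prop⟩
  have h1 := SE_of_path c' (fun s => by
    show (qP _).fin = (qP _).fin
    rw [qP_fin, qP_fin])
  have e0 : c' 0 = qP ⟨(g, d), h⟩ := by
    show qP _ = qP _
    congr 1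
    exact Subtype.ext (Prod.ext c0 rfl)
  have e1 : c' 1 = qP ⟨(d, d), SE.refl d⟩ := by
    show qP _ = qP _
    congr 1
    exact Subtype.ext (Prod.ext c1 rfl)
  rw [e0, e1] at h1
  refine h1.trans ?_
  have h2 := SE_family h4 (fun s x => by rw [h4_fin, h4_fin]) 1 d
  rwa [h4_zero, h4_one] at h2

/-- `q (γ, δ) = γ * rev δ` as a null homotopic loop -/
def q : C(P2 b0, G0 b0) := ⟨fun x => ⟨qP x, SE_qP x⟩, qP.continuous.subtype_mk _⟩

@[simp] theorem q_val (x : P2 b0) : (q x).1 = qP x := rfl

theorem q_apply (x : P2 b0) (t : I) : (q x).1.1 t = qfun x.1.1.1 x.1.2.1 t := rfl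

theorem q_ev (x : P2 b0) {t : ℝ} (ht : t ∈ Set.Icc (0 : ℝ) 1) :
    ev (q x).1.1 t = qfun x.1.1.1 x.1.2.1 t := fam_ev _ _ _ _ ht

/-- `γ * rev γ` is homotopic to the constant loop -/
theorem q_diag : (q.comp ⟨fun g : PB b0 => (⟨(g, g), SE.refl g⟩ : P2 b0), by fun_prop⟩).Homotopic
    (ContinuousMap.const _ (G0.const b0)) :=
  homotopic_G0 h4 (fun _ _ => h4_fin _) _ _ (fun g => h4_zero g) (fun g => h4_one g)

/-! ## products -/

/-- concatenation -/
def mulfun (g d : C(I, B)) (t : ℝ) : B :=
  if t ≤ 1 / 2 then ev g (2 * t) else ev d (2 * t - 1)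

theorem continuous_mulfun {P : Type*} [TopologicalSpace P] {g d : P → C(I, B)} {t : P → ℝ}
    (hg : Continuous g) (hd : Continuous d) (ht : Continuous t) (h : ∀ p, g p 1 = d p 0) :
    Continuous fun p => mulfun (g p) (d p) (t p) := by
  unfold mulfun
  refine Continuous.if_le ?_ ?_ ht continuous_const ?_
  · exact Continuous.ev hg (by fun_prop)
  · exact Continuous.ev hd (by fun_prop)
  · intro p hp
    rw [hp, ev_ge _ (by norm_num), ev_le _ (by norm_num), h]

/-- loop times based path -/
def mul : C(G0 b0 × PB b0, PB b0) :=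
  fam (fun x t => mulfun x.1.1.1 x.2.1 t)
    (continuous_mulfun (by fun_prop) (by fun_prop) continuous_snd
      fun p => (G0.fin_eq p.1.1).trans p.1.2.2.symm)
    (fun p => by
      show mulfun _ _ 0 = b0
      rw [mulfun, if_pos (by norm_num), mul_zero, ev_zero]; exact p.1.1.2)

theorem mul_apply (x : G0 b0 × PB b0) (t : I) : (mul x).1 t = mulfun x.1.1.1 x.2.1 t := rfl

theorem mul_fin (x : G0 b0 × PB b0) : (mul x).fin = x.2.fin := by
  rw [mul, fam_fin]
  show mulfun _ _ 1 = _
  rw [mulfun, if_neg (by norm_num), mul_one]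
  exact x.2.ev_ge' (by norm_num)

/-- reversed loop times based path -/
def rmfun (g d : C(I, B)) (t : ℝ) : B :=
  if t ≤ 1 / 2 then ev g (1 - 2 * t) else ev d (2 * t - 1)

theorem continuous_rmfun {P : Type*} [TopologicalSpace P] {g d : P → C(I, B)} {t : P → ℝ}
    (hg : Continuous g) (hd : Continuous d) (ht : Continuous t) (h : ∀ p, g p 0 = d p 0) :
    Continuous fun p => rmfun (g p) (d p) (t p) := by
  unfold rmfun
  refine Continuous.if_le ?_ ?_ ht continuous_const ?_
  · exact Continuous.ev hg (by fun_prop)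
  · exact Continuous.ev hd (by fun_prop)
  · intro p hp
    rw [hp, ev_le _ (by norm_num), ev_le _ (by norm_num), h]

/-- reversed loop times based path -/
def rm : C(G0 b0 × PB b0, PB b0) :=
  fam (fun x t => rmfun x.1.1.1 x.2.1 t)
    (continuous_rmfun (by fun_prop) (by fun_prop) continuous_snd
      fun p => p.1.1.1.2.trans p.1.2.2.symm)
    (fun p => by
      show rmfun _ _ 0 = b0
      rw [rmfun, if_pos (by norm_num), mul_zero, sub_zero, ev_one]; exact p.1.fin_eq)

theorem rm_apply (x : G0 b0 × PB b0) (t : I) : (rm x).1 t = rmfun x.1.1.1 x.2.1 t := rfl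

theorem rm_ev (x : G0 b0 × PB b0) {t : ℝ} (ht : t ∈ Set.Icc (0 : ℝ) 1) :
    ev (rm x).1 t = rmfun x.1.1.1 x.2.1 t := fam_ev _ _ _ _ ht

theorem rm_fin (x : G0 b0 × PB b0) : (rm x).fin = x.2.fin := by
  rw [rm, fam_fin]
  show rmfun _ _ 1 = _
  rw [rmfun, if_neg (by norm_num), mul_one]
  exact x.2.ev_ge' (by norm_num)

/-- reparametrisation `d (2t-1) ~ d t` -/
def rep : C(I × PB b0, PB b0) :=
  fam (fun x t => ev x.2.1 ((1 - x.1) * (2 * t - 1) + x.1 * t)) (by fun_prop)
    (fun p => by
      show ev _ _ = b0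
      apply p.2.ev_le'
      have := p.1.2.2
      simp only [mul_zero, zero_sub, mul_neg, mul_one, add_zero]
      linarith)

theorem rep_apply (x : I × PB b0) (t : I) :
    (rep x).1 t = ev x.2.1 ((1 - (x.1 : ℝ)) * (2 * (t : ℝ) - 1) + (x.1 : ℝ) * (t : ℝ)) := rfl

theorem rep_fin (x : I × PB b0) : (rep x).fin = x.2.fin := by
  rw [rep, fam_fin]
  show ev _ _ = _
  apply x.2.ev_ge'
  ring_nf; rfl

theorem rep_one (d : PB b0) : rep (1, d) = d := by
  rw [PB.ext_iff']; intro t
  rw [rep_apply]
  simp only [Set.Icc.coe_one, sub_self, zero_mul, one_mul, zero_add]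
  exact ev_coe _ _

theorem rep_zero_mul (d : PB b0) : rep (0, d) = mul (G0.const b0, d) := by
  rw [PB.ext_iff']; intro t
  rw [rep_apply, mul_apply, mulfun]
  simp only [Set.Icc.coe_zero, sub_zero, one_mul, zero_mul, add_zero]
  split_ifs with h
  · rw [d.ev_le' (by linarith)]; rfl
  · rfl

theorem rep_zero_rm (d : PB b0) : rep (0, d) = rm (G0.const b0, d) := by
  rw [PB.ext_iff']; intro t
  rw [rep_apply, rm_apply, rmfun]
  simp only [Set.Icc.coe_zero, sub_zero, one_mul, zero_mul, add_zero]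
  split_ifs with h
  · rw [d.ev_le' (by linarith)]; rfl
  · rfl

/-- paths in `G0` from `g` to the constant loop -/
theorem G0.path (g : G0 b0) : ∃ c : C(I, G0 b0), c 0 = g ∧ c 1 = G0.const b0 := by
  obtain ⟨c, c0, c1, c2⟩ := SE.path g.2
  have hcs : ∀ s, SE (c s) (PB.const b0) := by
    intro s
    have := SE_family (X := Unit) ⟨fun x => c x.1, by fun_prop⟩ (fun s _ => by
      show (c s).fin = (c 0).fin
      rw [c2, c2]) s ()
    refine (SE.symm this).trans ?_
    show SE (c 0) _
    rw [c0]; exact g.2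
  exact ⟨⟨fun s => ⟨c s, hcs s⟩, by fun_prop⟩, Subtype.ext c0, Subtype.ext c1⟩

theorem SE_mul (g : G0 b0) (d : PB b0) : SE (mul (g, d)) d := by
  obtain ⟨c, c0, c1⟩ := g.path
  have h1 := SE_of_path (⟨fun s => mul (c s, d), by fun_prop⟩ : C(I, PB b0)) (fun s => by
    show (mul _).fin = (mul _).fin
    rw [mul_fin, mul_fin])
  simp only [ContinuousMap.coe_mk, c0, c1] at h1
  refine h1.trans ?_
  have h2 := SE_family rep (fun s x => by rw [rep_fin, rep_fin]) 1 d
  rwa [rep_zero_mul, rep_one] at h2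

theorem SE_rm (g : G0 b0) (d : PB b0) : SE (rm (g, d)) d := by
  obtain ⟨c, c0, c1⟩ := g.path
  have h1 := SE_of_path (⟨fun s => rm (c s, d), by fun_prop⟩ : C(I, PB b0)) (fun s => by
    show (rm _).fin = (rm _).fin
    rw [rm_fin, rm_fin])
  simp only [ContinuousMap.coe_mk, c0, c1] at h1
  refine h1.trans ?_
  have h2 := SE_family rep (fun s x => by rw [rep_fin, rep_fin]) 1 d
  rwa [rep_zero_rm, rep_one] at h2

/-- product of null homotopic loops -/
def mulG : C(G0 b0 × G0 b0, G0 b0) :=
  ⟨fun x => ⟨mul (x.1, x.2.1), (SE_mul x.1 x.2.1).trans x.2.2⟩, by fun_prop⟩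

theorem mulG_apply (x : G0 b0 × G0 b0) (t : I) :
    (mulG x).1.1 t = mulfun x.1.1.1 x.2.1.1 t := rfl

end Crest.Agent.R204.Ep755
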