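import Crest.Agent.R204.PFib_170
import Crest.Agent.R204.Cov_892
import Crest.Agent.R204.Ep_755

/-!
# Row 204, leaf B.P1 (helper94): simplicial homotopies over `Bt` from continuous homotopies
-/

set_option autoImplicit false

noncomputable section

open Set unitInterval Topology

namespace Crest.Agent.R204.PFL94

open Crest.Agent.R204 Crest.Agent.R204.SS Crest.Agent.R204.Cov892 Crest.Agent.R204.Bar170
open Crest.Agent.R204.SingAct265 Crest.Agent.R204.Ep755

variable {B : Type} [TopologicalSpace B] {b0 : B}

/-- a homotopy of based paths with constant end is, on singular simplices, a homotopy over the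
covering `Bt` -/
def overH {X : Type} [TopologicalSpace X] (f g : C(X, Ep755.PB b0)) (H : C(X × I, Ep755.PB b0))
    (h0 : ∀ x, H (x, 0) = f x) (h1 : ∀ x, H (x, 1) = g x)
    (hE : ∀ x s, (H (x, s)).fin = (f x).fin) :
    HtpyOver (quo b0) (SingMap f) (SingMap g) where
  toHtpy := Htpy.ofTop f g H h0 h1
  ov n w t := by
    refine (quo_eq_iff b0 _ _).2 fun u => ?_
    have h := SE_family (b0 := b0) (H.comp ContinuousMap.prodSwap)
      (fun s x => (hE x s).trans (hE x 0).symm) (bar t u) (SingAct265.ev w u)
    have e : (H.comp ContinuousMap.prodSwap) (0, SingAct265.ev w u) = f (SingAct265.ev w u) :=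
      h0 _
    rw [e] at h
    exact h.symm

/-- pre-composition -/
def overPre {J K L B : SS} {π : SS.Hom L B} {f g : SS.Hom K L} (H : HtpyOver π f g) (k : SS.Hom J K) :
    HtpyOver π (f.comp k) (g.comp k) :=
  ⟨H.toHtpy.pre k, fun n x t => H.ov n (k.app n x) t⟩

/-- change the two ends by pointwise equal maps -/
def overCongr {K L B : SS} {π : SS.Hom L B} {f g f' g' : SS.Hom K L} (H : HtpyOver π f g)
    (hf : ∀ n x, f.app n x = f'.app n x) (hg : ∀ n x, g.app n x = g'.app n x) :
    HtpyOver π f' g' :=
  ⟨⟨H.h, fun n x => (H.zero n x).trans (hf n x), fun n x => (H.one n x).trans (hg n x)⟩,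
    fun n x t => (H.ov n x t).trans (congrArg _ (hf n x))⟩

/-- change the two ends by pointwise equal maps -/
def htpyCongr {K L : SS} {f g f' g' : SS.Hom K L} (H : Htpy f g)
    (hf : ∀ n x, f.app n x = f'.app n x) (hg : ∀ n x, g.app n x = g'.app n x) :
    Htpy f' g' :=
  ⟨H.h, fun n x => (H.zero n x).trans (hf n x), fun n x => (H.one n x).trans (hg n x)⟩

end Crest.Agent.R204.PFL94
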