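import Crest.Agent.R204.PFdefs_872
import Crest.Agent.R204.PFL_94
import Crest.Agent.R204.Cov2_892
import Crest.Agent.R204.HtpInv_334
import Crest.Agent.R204.Gr_334


/-!
# Row 204, leaf B.P1 (helper94): the path space is acyclic; contraction; pointwise product; naturality

Everything that is needed for the instance of `PFib`, `PSus`, `PMul`, `PFibMap`, space level and
simplicial level.
-/

set_option autoImplicit false

noncomputable section

open Set unitInterval Topology

namespace Crest.Agent.R204.PF94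

open Crest.Agent.R204 Crest.Agent.R204.SS Crest.Agent.R204.Cov892 Crest.Agent.R204.Bar170
open Crest.Agent.R204.SingAct265 hiding cst ev
open Crest.Agent.R204.PF872

/-! ## constant maps in homology -/

theorem N_map_constHom (J K : SS) (x : K.S 0) (z : N F2 J) :
    ∃ c : F2, N.map F2 (constHom J K x) z = c • N.sx F2 x := by
  induction z using Submodule.Quotient.induction_on with
  | H z =>
    induction z using Finsupp.induction_linear with
    | zero => exact ⟨0, by rw [Submodule.Quotient.mk_zero, map_zero, zero_smul]⟩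
    | add f g hf hg =>
      obtain ⟨c, hc⟩ := hf
      obtain ⟨d, hd⟩ := hg
      exact ⟨c + d, by rw [Submodule.Quotient.mk_add, map_add, hc, hd, add_smul]⟩
    | single a r =>
      obtain ⟨n, y⟩ := a
      have e : (Submodule.Quotient.mk (Finsupp.single (⟨n, y⟩ : J.T) r) : N F2 J) = r • N.sx F2 y := by
        show _ = r • (Submodule.Quotient.mk _ : N F2 J)
        rw [← Submodule.Quotient.mk_smul]
        congr 1
        rw [Finsupp.smul_single, smul_eq_mul, mul_one]
      have e2 : N.map F2 (constHom J K x) (N.sx F2 y) = N.sx F2 ((constHom J K x).app n y) :=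
        N.map_sx _ _
      rw [e, map_smul, e2]
      cases n with
      | zero =>
        refine ⟨r, ?_⟩
        congr 2
        have : (⟨fun _ => 0, fun _ _ _ => le_rfl⟩ : Op 0 0) = OrderHom.id :=
          HtpInv334.op_zero_ext _ _
        show K.act (⟨fun _ => 0, fun _ _ _ => le_rfl⟩ : Op 0 0) x = x
        rw [this, K.act_id]
      | succ n =>
        refine ⟨0, ?_⟩
        have : N.sx F2 ((constHom J K x).app (n + 1) y) = 0 :=
          Gr334.sx_act_of_lt (Nat.succ_pos n) _ x
        rw [this, smul_zero, zero_smul]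

theorem H_map_constHom (J K : SS) (x : K.S 0) (a : H F2 J) :
    ∃ c : F2, H.map F2 (constHom J K x) a = c • H.pt x := by
  obtain ⟨z, hz, rfl⟩ := Hd.mk_surj _ a
  obtain ⟨c, hc⟩ := N_map_constHom J K x z
  refine ⟨c, ?_⟩
  show Hd.mk (N.bd F2 K) (N.map F2 (constHom J K x) z) _ = _
  have e : c • H.pt x = Hd.mk (N.bd F2 K) (c • N.sx F2 x) (by
      rw [map_smul, Gr334.bd_sx_zero, smul_zero]) := rfl
  rw [e]
  exact hd_mk_congr hc _ _

variable {B : Type} [TopologicalSpace B] {b : B}

/-! ## (a) the path space is contractible -/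

/-- the shrinking `(γ, s) ↦ (t ↦ γ (s t))` -/
def shr : C(PB b × I, PB b) :=
  PF872.mkPB (fun z => z.1.1.1 (z.1.2 * z.2)) (by fun_prop) (fun y => by
    show y.1.1 (y.2 * 0) = b
    rw [mul_zero]; exact y.1.2)

@[simp] theorem shr_apply (γ : PB b) (s t : I) : (shr (γ, s)).1 t = γ.1 (s * t) := rfl

theorem shr_one (γ : PB b) : shr (γ, 1) = γ := PB_ext fun t => by rw [shr_apply, one_mul]

theorem shr_zero (γ : PB b) : shr (γ, 0) = cst := PB_ext fun t => by
  rw [shr_apply, zero_mul]; exact γ.2

theorem shr_end (γ : PB b) (s : I) : (shr (γ, s)).1 1 = γ.1 s := by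
  rw [shr_apply, mul_one]

variable (b)

/-- base vertex of the path space -/
def p0 : (Sing (PB b)).S 0 := ContinuousMap.const _ cst

/-- base vertex of the space of null homotopic loops -/
def e0 : (Sing (G0 b)).S 0 := ContinuousMap.const _ one

variable {b}

theorem acyc (x : H F2 (Sing (PB b))) : ∃ c : F2, x = c • H.pt (p0 b) := by
  have h : Htpy (cmap (Sing (PB b)) (p0 b)) (SS.Hom.id (Sing (PB b))) :=
    PFL94.htpyCongr (Htpy.ofTop (ContinuousMap.const _ cst) (ContinuousMap.id (PB b)) shr
      (fun y => shr_zero y) (fun y => shr_one y)) (fun _ _ => rfl) (fun _ _ => rfl)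
  have e := ThetaSS265.Htpy_homology HtpInv334.homotopyInv F2 h
  obtain ⟨c, hc⟩ := H_map_constHom (Sing (PB b)) (Sing (PB b)) (p0 b) x
  refine ⟨c, ?_⟩
  rw [← hc]
  have := LinearMap.congr_fun e x
  rw [Hmap_id] at this
  exact this.symm

/-! ## (b) loops as paths, and the contraction -/

/-- the inclusion `G0 → PB` -/
def incT : C(G0 b, PB b) := ⟨Subtype.val, continuous_subtype_val⟩

@[simp] theorem incT_apply (g : G0 b) : incT g = g.1 := rfl

variable (b) in
/-- simplicial version -/
def inc : SS.Hom (Sing (G0 b)) (Sing (PB b)) := SingMap incT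

variable (b) in
/-- the contraction `(g, s) ↦ g (s ·)` -/
def hs : Htpy (cmap (Sing (G0 b)) (p0 b)) (inc b) :=
  PFL94.htpyCongr (Htpy.ofTop (ContinuousMap.const _ cst) incT
    (shr.comp ⟨fun z => (z.1.1, z.2), by fun_prop⟩)
    (fun y => shr_zero _) (fun y => shr_one _)) (fun _ _ => rfl) (fun _ _ => rfl)

theorem quo_inc (q : ℕ) (g : (Sing (G0 b)).S q) :
    (quo b).app q ((inc b).app q g) = (quo b).app q ((cmap (Sing (G0 b)) (p0 b)).app q g) :=
  (quo_eq_iff b _ _).2 fun t =>
    ((show C(stdSimplex ℝ (Fin (q + 1)), G0 b) from g) t).2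

/-- reparametrisation `g ≃ g · c` -/
def H5 : C(G0 b × I, PB b) :=
  PF872.mkPB (fun z => z.1.1.1.1 (pj ((1 + (z.1.2 : ℝ)) * z.2))) (by fun_prop) (fun y => by
    show y.1.1.1 (pj ((1 + (y.2 : ℝ)) * ((0 : I) : ℝ))) = b
    rw [pj_of_nonpos (by simp)]; exact y.1.1.2)

theorem H5_apply (g : G0 b) (s t : I) : (H5 (g, s)).1 t = g.1.1 (pj ((1 + (s : ℝ)) * t)) := rfl

theorem H5_zero (g : G0 b) : H5 (g, 0) = g.1 := PB_ext fun t => by
  rw [H5_apply]
  simp

theorem H5_one (g : G0 b) : H5 (g, 1) = cat (g, cst) := PB_ext fun t => by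
  rw [H5_apply, cat_apply, catF]
  have e : (1 + ((1 : I) : ℝ)) * t = 2 * t := by
    rw [Set.Icc.coe_one]; ring
  rw [e]
  split_ifs with h
  · rfl
  · rw [pj_of_one_le (by linarith)]
    exact G0_one g

theorem H5_end (g : G0 b) (s : I) : (H5 (g, s)).1 1 = g.1.1 1 := by
  rw [H5_apply, pj_of_one_le]
  have : (0 : ℝ) ≤ s := s.2.1
  simp only [Set.Icc.coe_one, mul_one]
  linarith

/-! ## (c) pointwise products -/

variable (mu : C(B × B, B)) (hb : mu (b, b) = b)

theorem mulP_cst : mulP mu hb (cst, cst) = cst := PB_ext fun _ => hb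

theorem mulG_pEq (g h : G0 b) : PEq (mulP mu hb (g.1, h.1)) cst := by
  have := mulP_pEq mu hb g.2 h.2
  rwa [mulP_cst] at this

/-- pointwise product of null homotopic loops -/
def mulG : C(G0 b × G0 b, G0 b) where
  toFun z := ⟨mulP mu hb (z.1.1, z.2.1), mulG_pEq mu hb z.1 z.2⟩
  continuous_toFun := Continuous.subtype_mk (by fun_prop) _

@[simp] theorem mulG_val (z : G0 b × G0 b) : (mulG mu hb z).1 = mulP mu hb (z.1.1, z.2.1) := rfl

/-- strict interchange of the pointwise product and concatenation -/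
theorem mulP_cat (g h : G0 b) (x y : PB b) :
    mulP mu hb (cat (g, x), cat (h, y)) = cat (mulG mu hb (g, h), mulP mu hb (x, y)) :=
  PB_ext fun t => by
    rw [mulP_apply, cat_apply, cat_apply, cat_apply]
    simp only [catF]
    split_ifs
    · rfl
    · rfl

/-- strict interchange, loops -/
theorem mulG_mul (g h x y : G0 b) :
    mulG mu hb (mul (g, x), mul (h, y)) = mul (mulG mu hb (g, h), mulG mu hb (x, y)) :=
  Subtype.ext (mulP_cat mu hb g h x.1 y.1)

variable {mu}

/-- homotopies in `G0` from homotopies of paths -/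
theorem homotopic_G0 {X : Type} [TopologicalSpace X] (F : C(I × X, PB b)) (hF : ∀ z, PEq (F z) cst)
    (f g : C(X, G0 b)) (h0 : ∀ x, F (0, x) = (f x).1) (h1 : ∀ x, F (1, x) = (g x).1) :
    f.Homotopic g :=
  ⟨{ toFun := fun x => ⟨F x, hF x⟩
     continuous_toFun := F.continuous.subtype_mk _
     map_zero_left := fun x => Subtype.ext (h0 x)
     map_one_left := fun x => Subtype.ext (h1 x) }⟩

/-- a based homotopy of the identity acts on null homotopic loops -/
theorem homotopic_of_rel {m : C(B, B)} (hm : m b = b) (K : m.HomotopyRel (ContinuousMap.id B) {b})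
    (f : C(G0 b, G0 b)) (hf : ∀ g t, (f g).1.1 t = m (g.1.1 t)) :
    f.Homotopic (ContinuousMap.id _) := by
  have hK : ∀ s : I, K (s, b) = b := fun s => by
    have := K.eq_fst s (x := b) (by simp)
    rw [this]; exact hm
  let F : C(I × G0 b, PB b) := PF872.mkPB (fun z => K (z.1.1, z.1.2.1.1 z.2)) (by fun_prop) (fun y => by
    show K (y.1, y.2.1.1 0) = b
    rw [y.2.1.2, hK])
  refine homotopic_G0 F ?_ _ _ ?_ ?_
  · rintro ⟨s, g⟩
    obtain ⟨G⟩ := g.2
    refine ⟨⟨⟨⟨fun w => K (s, G w), by fun_prop⟩, ?_, ?_⟩, ?_⟩⟩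
    · intro u
      show K (s, G (0, u)) = K (s, g.1.1 u)
      rw [G.apply_zero]
    · intro u
      show K (s, G (1, u)) = b
      rw [G.apply_one]; exact hK _
    · intro t u hu
      show K (s, G (t, u)) = K (s, g.1.1 u)
      rw [G.eq_fst t hu]
  · intro g
    exact PB_ext fun u => (K.apply_zero _).trans (hf g u).symm
  · intro g
    exact PB_ext fun u => K.apply_one _

theorem mulG_one_left (h : HSp b mu) :
    ((mulG mu h.hb).comp ⟨fun g : G0 b => (one, g), by fun_prop⟩).Homotopic (ContinuousMap.id _) := by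
  obtain ⟨K⟩ := h.hl
  exact homotopic_of_rel h.hb K _ (fun _ _ => rfl)

theorem mulG_one_right (h : HSp b mu) :
    ((mulG mu h.hb).comp ⟨fun g : G0 b => (g, one), by fun_prop⟩).Homotopic (ContinuousMap.id _) := by
  obtain ⟨K⟩ := h.hr
  exact homotopic_of_rel h.hb K _ (fun _ _ => rfl)

variable (mu)

/-- pointwise product on simplices -/
def MS : SS.Hom ((Sing (PB b)).prod (Sing (PB b))) (Sing (PB b)) :=
  (SingMap (mulP mu hb)).comp (singPair _ _)

/-- pointwise product of loops on simplices -/
def MGS : SS.Hom ((Sing (G0 b)).prod (Sing (G0 b))) (Sing (G0 b)) :=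
  (SingMap (mulG mu hb)).comp (singPair _ _)

/-- loop times path on simplices -/
def catS (b : B) : SS.Hom ((Sing (G0 b)).prod (Sing (PB b))) (Sing (PB b)) :=
  (SingMap cat).comp (singPair _ _)

/-- product of loops on simplices -/
def mulS (b : B) : SS.Hom ((Sing (G0 b)).prod (Sing (G0 b))) (Sing (G0 b)) :=
  (SingMap mul).comp (singPair _ _)

theorem quo_MS (q : ℕ) (x y : (Sing (PB b)).S q) :
    (quo b).app q ((MS mu hb).app q (x, y)) =
      (mulT mu hb).app q ((quo b).app q x, (quo b).app q y) := rfl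

theorem MS_catS (q : ℕ) (g h : (Sing (G0 b)).S q) (x y : (Sing (PB b)).S q) :
    (MS mu hb).app q ((catS b).app q (g, x), (catS b).app q (h, y)) =
      (catS b).app q ((MGS mu hb).app q (g, h), (MS mu hb).app q (x, y)) :=
  sing_ext fun t => mulP_cat mu hb (SingAct265.ev g t) (SingAct265.ev h t) (SingAct265.ev x t)
    (SingAct265.ev y t)

variable {mu}

theorem MGS_unit_l (h : HSp b mu) (a : H F2 (Sing (G0 b))) :
    H.map F2 ((MGS mu h.hb).comp (SS.pair (cmap (Sing (G0 b)) (e0 b)) (SS.Hom.id _))) a = a := by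
  have e := ThetaSS265.topHomotopyInv HtpInv334.homotopyInv F2 _ _ _ _ (mulG_one_left h)
  have := LinearMap.congr_fun e a
  have h2 : SingMap (ContinuousMap.id (G0 b)) = SS.Hom.id _ := rfl
  rw [h2, Hmap_id] at this
  exact this

theorem MGS_unit_r (h : HSp b mu) (a : H F2 (Sing (G0 b))) :
    H.map F2 ((MGS mu h.hb).comp (SS.pair (SS.Hom.id _) (cmap (Sing (G0 b)) (e0 b)))) a = a := by
  have e := ThetaSS265.topHomotopyInv HtpInv334.homotopyInv F2 _ _ _ _ (mulG_one_right h)
  have := LinearMap.congr_fun e a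
  have h2 : SingMap (ContinuousMap.id (G0 b)) = SS.Hom.id _ := rfl
  rw [h2, Hmap_id] at this
  exact this

/-! ## (d) naturality -/

section nat

variable {B' : Type} [TopologicalSpace B'] {b' : B'} (f : C(B, B')) (hf : f b = b')

/-- post-composition of based paths -/
def postP : C(PB b, PB b') :=
  PF872.mkPB (fun z => f (z.1.1 z.2)) (by fun_prop) (fun y => by
    show f (y.1 0) = b'
    rw [y.2, hf])

@[simp] theorem postP_apply (γ : PB b) (t : I) : (postP f hf γ).1 t = f (γ.1 t) := rfl

theorem postP_cst : postP f hf cst = cst := PB_ext fun _ => hf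

theorem postP_pEq {γ γ' : PB b} (h : PEq γ γ') : PEq (postP f hf γ) (postP f hf γ') := by
  obtain ⟨F⟩ := h
  refine ⟨⟨⟨⟨fun z => f (F z), by fun_prop⟩, ?_, ?_⟩, ?_⟩⟩
  · intro s
    show f (F (0, s)) = f (γ.1 s)
    rw [F.apply_zero]
  · intro s
    show f (F (1, s)) = f (γ'.1 s)
    rw [F.apply_one]
  · intro t s hs
    show f (F (t, s)) = f (γ.1 s)
    rw [F.eq_fst t hs]

theorem postG_pEq (g : G0 b) : PEq (postP f hf g.1) cst := by
  have := postP_pEq f hf g.2
  rwa [postP_cst] at this

/-- post-composition of null homotopic loops -/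
def postG : C(G0 b, G0 b') where
  toFun g := ⟨postP f hf g.1, postG_pEq f hf g⟩
  continuous_toFun := Continuous.subtype_mk (by fun_prop) _

theorem postP_cat (g : G0 b) (x : PB b) : postP f hf (cat (g, x)) = cat (postG f hf g, postP f hf x) :=
  PB_ext fun t => by
    rw [postP_apply, cat_apply, cat_apply]
    simp only [catF]
    split_ifs
    · rfl
    · rfl

theorem postG_mul (g h : G0 b) : postG f hf (mul (g, h)) = mul (postG f hf g, postG f hf h) :=
  Subtype.ext (postP_cat f hf g h.1)

/-- the induced map of coverings -/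
def btPost : SS.Hom (Bt b) (Bt b') where
  app n := Quotient.map' ((SingMap (postP f hf)).app n) (fun _ _ h t => postP_pEq f hf (h t))
  nat f x := by
    induction x using Quotient.inductionOn with
    | h x => rfl

@[simp] theorem btPost_quo (n : ℕ) (x : (Sing (PB b)).S n) :
    (btPost f hf).app n ((quo b).app n x) = (quo b').app n ((SingMap (postP f hf)).app n x) := rfl

theorem prj_btPost (n : ℕ) (x : (Bt b).S n) :
    (prj b').app n ((btPost f hf).app n x) = (SingMap f).app n ((prj b).app n x) := by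
  obtain ⟨x, rfl⟩ := quo_surjective b _ x
  rfl

end nat

end Crest.Agent.R204.PF94
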