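import Crest.Agent.R204.LoopId_872
import Crest.Agent.R204.PFA_94

/-!
# Row 204, block B: pointwise products and naturality under the identification
`G0 (Ω^n Z) = Ω^(n+1) Z` (helper872)
-/

set_option autoImplicit false

noncomputable section

open Set unitInterval Topology

namespace Crest.Agent.R204.PF872

open Crest.Agent.R204 Crest.Agent.R204.SS Crest.Agent.R204.Cov892 Crest.Agent.R204.Bis343
  Crest.Agent.R204.SingAct265 Crest.Agent.R204.Bar170 Crest.Agent.R204.Cubes735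
open Crest.Agent.R204.HspSS696 (Om)

variable {Z : Type} [TopologicalSpace Z] {z₀ : Z} {n : ℕ}

/-- `Ω^n Z` with a little cube product is an H-space (892's form) -/
theorem hsp (c : BoxConf (Fin 2) (Fin n)) : HSp (bo Z z₀ n) (Hsp696.mu2 c) where
  hb := by
    show mu c ![GenLoop.const, GenLoop.const] = GenLoop.const
    rw [Hsp696.cons_const, mu_const]
  hl := Hsp696.mu2_const_left c
  hr := Hsp696.mu2_const_right c

/-- the pointwise product of loops in `Ω^n Z` is the product `mu (ext1 c)` of `Ω^(n+1) Z` -/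
theorem G0H'_mulG (h : ∀ x : Om (Fin (n + 1)) Z z₀, Joined x GenLoop.const)
    (c : BoxConf (Fin 2) (Fin n)) (x y : Om (Fin (n + 1)) Z z₀) :
    G0H' h (mu (Hsp696.ext1 c) ![x, y]) =
      PF94.mulG (Hsp696.mu2 c) (hsp c).hb (G0H' h x, G0H' h y) :=
  Subtype.ext (PB_ext fun t => HspSS696.ev_mu_pair c t x y)

theorem G0H_mulG (c : BoxConf (Fin 2) (Fin n)) (x y : Om0 n Z z₀) :
    G0H (mu0 (Hsp696.ext1 c) (x, y)) = PF94.mulG (Hsp696.mu2 c) (hsp c).hb (G0H x, G0H y) :=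
  Subtype.ext (PB_ext fun t => HspSS696.ev_mu_pair c t x.1 y.1)

/-- simplicial level -/
theorem MGS_G0H' (h : ∀ x : Om (Fin (n + 1)) Z z₀, Joined x GenLoop.const)
    (c : BoxConf (Fin 2) (Fin n)) :
    (SingMap (hc (G0H' h))).comp (HspSS696.mulS (Hsp696.ext1 c)) =
      (PF94.MGS (Hsp696.mu2 c) (hsp (Z := Z) (z₀ := z₀) c).hb).comp
        (SS.prodMap (SingMap (hc (G0H' h))) (SingMap (hc (G0H' h)))) := by
  ext q x
  exact sing_ext (Y := G0 (bo Z z₀ n)) fun t => G0H'_mulG h c _ _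

theorem MGS_G0H (c : BoxConf (Fin 2) (Fin n)) :
    (SingMap (hc (G0H (n := n) (Z := Z) (z₀ := z₀)))).comp
        ((SingMap (mu0 (Hsp696.ext1 c))).comp (singPair _ _)) =
      (PF94.MGS (Hsp696.mu2 c) (hsp (Z := Z) (z₀ := z₀) c).hb).comp
        (SS.prodMap (SingMap (hc G0H)) (SingMap (hc G0H))) := by
  ext q x
  exact sing_ext (Y := G0 (bo Z z₀ n)) fun t => G0H_mulG c _ _

/-! ## naturality in `Z` -/

variable {Z' : Type} [TopologicalSpace Z'] {z₀' : Z'}

/-- `Ω^n g` -/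
def omMap (n : ℕ) (g : C(Z, Z')) (hg : g z₀ = z₀') : C(Om (Fin n) Z z₀, Om (Fin n) Z' z₀') :=
  ⟨Cubes735.GenLoop.map g hg, HspSS696.continuous_genLoop_map g hg⟩

theorem omMap_const (g : C(Z, Z')) (hg : g z₀ = z₀') : omMap n g hg (bo Z z₀ n) = bo Z' z₀' n := by
  ext t
  exact hg

theorem ev_omMap (g : C(Z, Z')) (hg : g z₀ = z₀') (x : Om (Fin (n + 1)) Z z₀) (s : I) :
    Cubes735.ev s (omMap (n + 1) g hg x) = omMap n g hg (Cubes735.ev s x) := by
  ext t
  rfl

/-- naturality of `G0H'` -/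
theorem G0H'_map (h : ∀ x : Om (Fin (n + 1)) Z z₀, Joined x GenLoop.const)
    (h' : ∀ x : Om (Fin (n + 1)) Z' z₀', Joined x GenLoop.const) (g : C(Z, Z')) (hg : g z₀ = z₀')
    (x : Om (Fin (n + 1)) Z z₀) :
    G0H' h' (omMap (n + 1) g hg x) = mapG (omMap n g hg) (omMap_const g hg) (G0H' h x) :=
  Subtype.ext (PB_ext fun t => ev_omMap g hg x t)

theorem joined_omMap (g : C(Z, Z')) (hg : g z₀ = z₀') (x : Om0 n Z z₀) :
    Joined (omMap (n + 1) g hg x.1) GenLoop.const := by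
  obtain ⟨p⟩ := x.2
  have := p.map (omMap (n + 1) g hg).continuous
  rw [omMap_const] at this
  exact ⟨this⟩

/-- `Ω^(n+1) g` on the base component -/
def omMap0 (n : ℕ) (g : C(Z, Z')) (hg : g z₀ = z₀') : C(Om0 n Z z₀, Om0 n Z' z₀') where
  toFun x := ⟨omMap (n + 1) g hg x.1, joined_omMap g hg x⟩
  continuous_toFun := Continuous.subtype_mk
    ((omMap (n + 1) g hg).continuous.comp continuous_subtype_val) _

/-- naturality of `G0H` -/
theorem G0H_map (g : C(Z, Z')) (hg : g z₀ = z₀') (x : Om0 n Z z₀) :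
    G0H (omMap0 n g hg x) = mapG (omMap n g hg) (omMap_const g hg) (G0H x) :=
  Subtype.ext (PB_ext fun t => ev_omMap g hg x.1 t)

end Crest.Agent.R204.PF872
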