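import Crest.Agent.R204.Bis2_343
import Crest.Agent.R204.SingAct_265

/-!
# Row 204, block B: principal fibrations up to homotopy, simplicial level (helper170)

`PFib` : `π : P → K` levelwise onto, `G` acting on `P` over `K` (`cat`), division `dif` on `P ×_K P`, and
simplicial homotopies (H1)-(H4).  `E_p = (cech π).col p`.
Key map `alpha : G × E_p → E_{p+1}`, `(g, (x_0,…,x_p)) ↦ (cat(g,x_0), x_0, …, x_p)`.

`PMul`  : levelwise product (from an H-space structure on the base).
`PSus`  : loops as paths and the contraction (gives the suspension cycles).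
-/

set_option autoImplicit false

namespace Crest.Agent.R204.Bar170

open Crest.Agent.R204 Crest.Agent.R204.Bis343 Crest.Agent.R204.SingAct265

/-! ## maps into the columns of the Cech nerve -/

section cech
variable {P B : SS} (f : SS.Hom P B)

/-- `i`-th vertex `E_p → P` -/
def evc (p : ℕ) (i : Fin (p + 1)) : SS.Hom ((cech f).col p) P := ⟨fun _ x => x.1 i, fun _ _ => rfl⟩

@[simp] theorem evc_app (p : ℕ) (i : Fin (p + 1)) (q : ℕ) (x : (cech f).S p q) :
    (evc f p i).app q x = x.1 i := rfl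

/-- `E_0` from `P` -/
def toE0 : SS.Hom P ((cech f).col 0) := ⟨fun _ x => ⟨fun _ => x, fun _ _ => rfl⟩, fun _ _ => rfl⟩

/-- adjoin a zeroth entry -/
def consE {J : SS} {p : ℕ} (u : SS.Hom J ((cech f).col p)) (v : SS.Hom J P)
    (h : ∀ q x, f.app q (v.app q x) = f.app q ((u.app q x).1 0)) : SS.Hom J ((cech f).col (p + 1)) where
  app q x := ⟨Fin.cons (v.app q x) (u.app q x).1, by
    have H : ∀ i : Fin (p + 2), f.app q
        ((Fin.cons (v.app q x) (u.app q x).1 : Fin (p + 2) → P.S q) i) = f.app q ((u.app q x).1 0) := by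
      intro i
      refine Fin.cases ?_ (fun i => ?_) i
      · rw [Fin.cons_zero, h]
      · rw [Fin.cons_succ]; exact (u.app q x).2 _ _
    intro i j; rw [H, H]⟩
  nat g x := by
    apply Subtype.ext
    funext i
    refine Fin.cases ?_ (fun i => ?_) i
    · show (Fin.cons (v.app _ (J.act g x)) (u.app _ (J.act g x)).1 : Fin (p + 2) → P.S _) 0 =
        P.act g ((Fin.cons (v.app _ x) (u.app _ x).1 : Fin (p + 2) → P.S _) 0)
      rw [Fin.cons_zero, Fin.cons_zero, v.nat]
    · show (Fin.cons (v.app _ (J.act g x)) (u.app _ (J.act g x)).1 : Fin (p + 2) → P.S _) i.succ =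
        P.act g ((Fin.cons (v.app _ x) (u.app _ x).1 : Fin (p + 2) → P.S _) i.succ)
      rw [Fin.cons_succ, Fin.cons_succ, u.nat]
      rfl

variable {f}

@[simp] theorem consE_zero {J : SS} {p : ℕ} (u : SS.Hom J ((cech f).col p)) (v : SS.Hom J P) (h)
    (q : ℕ) (x : J.S q) : ((consE f u v h).app q x).1 0 = v.app q x := rfl

@[simp] theorem consE_succ {J : SS} {p : ℕ} (u : SS.Hom J ((cech f).col p)) (v : SS.Hom J P) (h)
    (q : ℕ) (x : J.S q) (i : Fin (p + 1)) : ((consE f u v h).app q x).1 i.succ = (u.app q x).1 i := rfl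

theorem E_ext {p q : ℕ} {x y : (cech f).S p q} (h : ∀ i, x.1 i = y.1 i) : x = y :=
  Subtype.ext (funext h)

/-- two entries of `E_p` as an element of `E_1` -/
def pairE {J : SS} (v w : SS.Hom J P) (h : ∀ q x, f.app q (v.app q x) = f.app q (w.app q x)) :
    SS.Hom J ((cech f).col 1) :=
  consE f ((toE0 f).comp w) v h

@[simp] theorem pairE_zero {J : SS} (v w : SS.Hom J P) (h) (q : ℕ) (x : J.S q) :
    ((pairE (f := f) v w h).app q x).1 0 = v.app q x := rfl

@[simp] theorem pairE_one {J : SS} (v w : SS.Hom J P) (h) (q : ℕ) (x : J.S q) :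
    ((pairE (f := f) v w h).app q x).1 1 = w.app q x := rfl

end cech

/-! ## the structures -/

/-- homotopy over a base -/
structure HtpyOver {K L B : SS} (π : SS.Hom L B) (f g : SS.Hom K L) extends Htpy f g where
  ov : ∀ (n : ℕ) (x : K.S n) (t : (SS.std 1).S n), π.app n (h.app n (x, t)) = π.app n (f.app n x)

/-- the class of a vertex in `H_0` -/
noncomputable def H.pt {K : SS} (x : K.S 0) : H F2 K :=
  Hd.mk (N.bd F2 K) (N.sx F2 x) (by
    show Submodule.Quotient.mk (Ch.bd F2 K (Finsupp.single ⟨0, x⟩ 1)) = _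
    rw [Ch.bd_single_zero]; rfl)

/-- constant maps (on a vertex) -/
abbrev cmap (J : SS) {K : SS} (x : K.S 0) : SS.Hom J K := SS.constHom J K x

/-- principal fibration up to homotopy -/
structure PFib where
  P : SS
  K : SS
  G : SS
  π : SS.Hom P K
  onto : ∀ q, Function.Surjective (π.app q)
  /-- base points -/
  p0 : P.S 0
  e : G.S 0
  /-- action of `G` on `P` over `K` -/
  cat : SS.Hom (G.prod P) P
  π_cat : ∀ (q : ℕ) (g : G.S q) (x : P.S q), π.app q (cat.app q (g, x)) = π.app q x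
  /-- product of `G` -/
  mul : SS.Hom (G.prod G) G
  /-- division -/
  dif : SS.Hom ((cech π).col 1) G
  /-- (H1) `(x y⁻¹) y ≃ x` over `K` -/
  h1 : HtpyOver π (cat.comp (SS.pair dif (evc π 1 1))) (evc π 1 0)
  /-- (H2) `(g y) y⁻¹ ≃ g` -/
  h2 : Htpy (dif.comp (pairE (f := π) cat (SS.snd G P) (fun q x => π_cat q x.1 x.2))) (SS.fst G P)
  /-- (H3) `g (h x) ≃ (g h) x` over `K`; simplices of the source: `(g, (h, x))` -/
  h3 : HtpyOver π (cat.comp (SS.prodMap (SS.Hom.id G) cat))
    (cat.comp (SS.pair (mul.comp (SS.pair (SS.fst G (G.prod P)) ((SS.fst G P).comp (SS.snd G (G.prod P)))))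
      ((SS.snd G P).comp (SS.snd G (G.prod P)))))
  /-- (H4) `1 x ≃ x` over `K` -/
  h4 : HtpyOver π (cat.comp (SS.pair (cmap P e) (SS.Hom.id P))) (SS.Hom.id P)
  /-- `P` is acyclic -/
  acyc : ∀ x : H F2 P, ∃ c : F2, x = c • H.pt p0

/-- levelwise product -/
structure PMul (X : PFib) where
  M : SS.Hom (X.P.prod X.P) X.P
  MK : SS.Hom (X.K.prod X.K) X.K
  MG : SS.Hom (X.G.prod X.G) X.G
  π_M : ∀ (q : ℕ) (x y : X.P.S q), X.π.app q (M.app q (x, y)) = MK.app q (X.π.app q x, X.π.app q y)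
  cat_M : ∀ (q : ℕ) (g h : X.G.S q) (x y : X.P.S q),
    M.app q (X.cat.app q (g, x), X.cat.app q (h, y)) = X.cat.app q (MG.app q (g, h), M.app q (x, y))
  /-- unit of `MG`, on homology -/
  unit_l : ∀ a, H.map F2 (MG.comp (SS.pair (cmap X.G X.e) (SS.Hom.id X.G))) a = a
  unit_r : ∀ a, H.map F2 (MG.comp (SS.pair (SS.Hom.id X.G) (cmap X.G X.e))) a = a

/-- loops as paths, and the contraction `γ_s(t) = γ(st)` -/
structure PSus (X : PFib) where
  inc : SS.Hom X.G X.P
  /-- the contraction: from the constant path to `inc g` -/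
  hs : Htpy (cmap X.G X.p0) inc
  /-- `inc g` lies over the base point -/
  π_inc : ∀ (q : ℕ) (g : X.G.S q), X.π.app q (inc.app q g) = X.π.app q ((cmap X.G X.p0).app q g)
  /-- `inc g ≃ g · c` over `K` -/
  h5 : HtpyOver X.π inc (X.cat.comp (SS.pair (SS.Hom.id X.G) (cmap X.G X.p0)))

/-- maps of principal fibrations (strictly compatible with everything) -/
structure PFibMap (X Y : PFib) where
  fP : SS.Hom X.P Y.P
  fK : SS.Hom X.K Y.K
  fG : SS.Hom X.G Y.G
  π_f : ∀ (q : ℕ) (x : X.P.S q), Y.π.app q (fP.app q x) = fK.app q (X.π.app q x)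
  p0_f : fP.app 0 X.p0 = Y.p0
  e_f : fG.app 0 X.e = Y.e
  cat_f : ∀ (q : ℕ) (g : X.G.S q) (x : X.P.S q),
    fP.app q (X.cat.app q (g, x)) = Y.cat.app q (fG.app q g, fP.app q x)

/-! ## the key map -/

namespace PFib
variable (X : PFib)

/-- the column `E_p` -/
abbrev E (p : ℕ) : SS := (cech X.π).col p

/-- `alpha : G × E_p → E_{p+1}` -/
def alpha (p : ℕ) : SS.Hom (X.G.prod (X.E p)) (X.E (p + 1)) :=
  consE X.π (SS.snd X.G (X.E p)) (X.cat.comp (SS.prodMap (SS.Hom.id X.G) (evc X.π p 0)))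
    (fun q x => X.π_cat q x.1 _)

@[simp] theorem alpha_zero (p q : ℕ) (g : X.G.S q) (x : (X.E p).S q) :
    (((X.alpha p).app q (g, x)) : (cech X.π).S (p + 1) q).1 0 = X.cat.app q (g, x.1 0) := rfl

@[simp] theorem alpha_succ (p q : ℕ) (g : X.G.S q) (x : (X.E p).S q) (i : Fin (p + 1)) :
    (((X.alpha p).app q (g, x)) : (cech X.π).S (p + 1) q).1 i.succ = x.1 i := rfl

/-- homotopy inverse of `alpha` -/
def beta (p : ℕ) : SS.Hom (X.E (p + 1)) (X.G.prod (X.E p)) :=
  SS.pair (X.dif.comp ⟨fun _ x => ⟨fun i => x.1 (Fin.castLE (by omega) i), fun _ _ => x.2 _ _⟩,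
    fun _ _ => rfl⟩) ((cech X.π).colMap (Op.face 0))

/-- strict face relation `d_0 alpha = pr_2` -/
theorem face_zero_alpha (p q : ℕ) (g : X.G.S q) (x : (X.E p).S q) :
    ((cech X.π).colMap (Op.face 0)).app q ((X.alpha p).app q (g, x)) = x := by
  refine E_ext fun i => ?_
  show (((X.alpha p).app q (g, x)) : (cech X.π).S (p + 1) q).1 (Op.face 0 i) = x.1 i
  rw [Cech.face_zero_val, alpha_succ]

/-- strict face relation `d_{i+1} alpha = alpha (1 × d_i)`, `i ≥ 1` -/
theorem face_succ_alpha (p q : ℕ) (i : Fin (p + 1)) (g : X.G.S q) (x : (X.E (p + 1)).S q) :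
    ((cech X.π).colMap (Op.face i.succ.succ)).app q ((X.alpha (p + 1)).app q (g, x)) =
      (X.alpha p).app q (g, ((cech X.π).colMap (Op.face i.succ)).app q x) := by
  refine E_ext fun a => ?_
  show (((X.alpha (p + 1)).app q (g, x)) : (cech X.π).S (p + 2) q).1 (Op.face i.succ.succ a) = _
  refine Fin.cases ?_ (fun a => ?_) a
  · rw [Cech.face_succ_zero, alpha_zero, alpha_zero]
    have h : (0 : Fin (p + 2)) = Op.face i.succ 0 := by apply Fin.ext; rw [Ch.face_val]; simp
    exact congrArg (fun j => X.cat.app q (g, x.1 j)) h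
  · rw [Cech.face_succ_succ, alpha_succ, alpha_succ]
    rfl

/-- strict degeneracy relation `s_{i+1} alpha = alpha (1 × s_i)` -/
theorem dgn_succ_alpha (p q : ℕ) (i : Fin (p + 1)) (g : X.G.S q) (x : (X.E p).S q) :
    ((cech X.π).colMap (Op.dgn i.succ)).app q ((X.alpha p).app q (g, x)) =
      (X.alpha (p + 1)).app q (g, ((cech X.π).colMap (Op.dgn i)).app q x) := by
  refine E_ext fun a => ?_
  show (((X.alpha p).app q (g, x)) : (cech X.π).S (p + 1) q).1 (Op.dgn i.succ a) = _
  refine Fin.cases ?_ (fun a => ?_) a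
  · rw [Cech.dgn_succ_zero, alpha_zero, alpha_zero]
    have h : (0 : Fin (p + 1)) = Op.dgn i 0 := by apply Fin.ext; rw [Ch.dgn_val]; simp
    exact congrArg (fun j => X.cat.app q (g, x.1 j)) h
  · rw [Cech.dgn_succ_succ, alpha_succ, alpha_succ]
    rfl

end PFib

end Crest.Agent.R204.Bar170
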