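import Crest.Agent.R204.PFdefs_872
import Crest.Agent.R204.PFib_170

/-!
# Row 204, block B (B.P1): the topological instance of `PFib` (helper872)
-/

set_option autoImplicit false

noncomputable section

open Set unitInterval Topology

namespace Crest.Agent.R204.PF872

open Crest.Agent.R204 Crest.Agent.R204.SS Crest.Agent.R204.Cov892 Crest.Agent.R204.Bis343
  Crest.Agent.R204.SingAct265 Crest.Agent.R204.Bar170

variable {B : Type} [TopologicalSpace B] {b : B}

/-- a homotopy through `PEq` paths is a homotopy over `Bt` -/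
def overTop {Y : Type} [TopologicalSpace Y] (f g : C(Y, PB b)) (Φ : C(Y × I, PB b))
    (h0 : ∀ y, Φ (y, 0) = f y) (h1 : ∀ y, Φ (y, 1) = g y) (hp : ∀ y s, PEq (Φ (y, s)) (f y)) :
    HtpyOver (quo b) (SingMap f) (SingMap g) where
  toHtpy := Htpy.ofTop f g Φ h0 h1
  ov _ x t := (quo_eq_iff b _ _).2 fun τ => hp (ev x τ) (bar t τ)

/-- precomposition -/
def overPre {J K L C : SS} {π : SS.Hom L C} {f g : SS.Hom K L} (Φ : HtpyOver π f g) (k : SS.Hom J K) :
    HtpyOver π (f.comp k) (g.comp k) where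
  toHtpy := Φ.toHtpy.pre k
  ov n x t := Φ.ov n (k.app n x) t

/-- the columns `E_1 → Sing (E1 b)` -/
def toE1 : SS.Hom ((cech (quo b)).col 1) (Sing (E1 b)) where
  app _ x := mkS (fun t => ⟨(ev (Y := PB b) (x.1 0) t, ev (Y := PB b) (x.1 1) t),
      (quo_eq_iff b _ _).1 (x.2 0 1) t⟩)
    (Continuous.subtype_mk ((continuous_ev _).prodMk (continuous_ev _)) _)
  nat _ _ := rfl

/-- the action at the simplicial level -/
def catS : SS.Hom ((Sing (G0 b)).prod (Sing (PB b))) (Sing (PB b)) :=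
  (SingMap cat).comp (singPair (G0 b) (PB b))

theorem quo_catS (q : ℕ) (g : (Sing (G0 b)).S q) (x : (Sing (PB b)).S q) :
    (quo b).app q (catS.app q (g, x)) = (quo b).app q x :=
  (quo_eq_iff b _ _).2 fun τ => cat_pEq (ev g τ) (ev x τ)

/-- the product at the simplicial level -/
def mulS : SS.Hom ((Sing (G0 b)).prod (Sing (G0 b))) (Sing (G0 b)) :=
  (SingMap mul).comp (singPair (G0 b) (G0 b))

/-- the division at the simplicial level -/
def difS : SS.Hom ((cech (quo b)).col 1) (Sing (G0 b)) := (SingMap dif).comp toE1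

/-- vertex -/
def vtx {Y : Type} [TopologicalSpace Y] (y : Y) : (Sing Y).S 0 := mkS (fun _ => y) continuous_const

theorem ev_cmap {Y : Type} [TopologicalSpace Y] (J : SS) (y : Y) (n : ℕ) (x : J.S n)
    (t : stdSimplex ℝ (Fin (n + 1))) : ev (((cmap J (vtx y)).app n x) : (Sing Y).S n) t = y := rfl

/-- (H1) -/
def h1S : HtpyOver (quo b) (catS.comp (SS.pair difS (evc (quo b) 1 1))) (evc (quo b) 1 0) :=
  overPre (overTop ⟨fun z : E1 b => cat (dif z, z.1.2), by fun_prop⟩ ⟨fun z : E1 b => z.1.1, by fun_prop⟩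
    H1 H1_zero H1_one (fun z s => (H1_pEq z s).trans (z.2.trans (cat_pEq (dif z) z.1.2).symm))) toE1

/-- (H2) -/
def h2S : Htpy (difS.comp (pairE (f := quo b) catS (SS.snd (Sing (G0 b)) (Sing (PB b)))
    (fun q x => quo_catS q x.1 x.2))) (SS.fst (Sing (G0 b)) (Sing (PB b))) :=
  (Htpy.ofTop ⟨fun z : G0 b × PB b => dif (catE z), by fun_prop⟩ ⟨fun z : G0 b × PB b => z.1, by fun_prop⟩
    H2 (fun z => H2_zero z.1 z.2) (fun z => H2_one z.1 z.2)).pre (singPair (G0 b) (PB b))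

/-- `Sing G × (Sing G × Sing P) → Sing (G × (G × P))` -/
def sing3 : SS.Hom ((Sing (G0 b)).prod ((Sing (G0 b)).prod (Sing (PB b)))) (Sing (G0 b × G0 b × PB b)) :=
  (singPair (G0 b) (G0 b × PB b)).comp (SS.prodMap (SS.Hom.id _) (singPair (G0 b) (PB b)))

/-- (H3) -/
def h3S : HtpyOver (quo b) (catS.comp (SS.prodMap (SS.Hom.id (Sing (G0 b))) catS))
    (catS.comp (SS.pair (mulS.comp (SS.pair (SS.fst (Sing (G0 b)) ((Sing (G0 b)).prod (Sing (PB b))))
      ((SS.fst (Sing (G0 b)) (Sing (PB b))).comp (SS.snd (Sing (G0 b)) ((Sing (G0 b)).prod (Sing (PB b)))))))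
      ((SS.snd (Sing (G0 b)) (Sing (PB b))).comp
        (SS.snd (Sing (G0 b)) ((Sing (G0 b)).prod (Sing (PB b))))))) :=
  overPre (overTop ⟨fun z : G0 b × G0 b × PB b => cat (z.1, cat (z.2.1, z.2.2)), by fun_prop⟩
    ⟨fun z : G0 b × G0 b × PB b => cat (mul (z.1, z.2.1), z.2.2), by fun_prop⟩
    H3 (fun z => H3_zero z.1 z.2.1 z.2.2) (fun z => H3_one z.1 z.2.1 z.2.2)
    (fun z s => (H3_pEq z.1 z.2.1 z.2.2 s).trans
      ((cat_pEq z.1 (cat (z.2.1, z.2.2))).trans (cat_pEq z.2.1 z.2.2)).symm)) sing3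

/-- (H4) -/
def h4S : HtpyOver (quo b) (catS.comp (SS.pair (cmap (Sing (PB b)) (vtx (one (b := b))))
    (SS.Hom.id (Sing (PB b))))) (SS.Hom.id (Sing (PB b))) :=
  overTop ⟨fun x : PB b => cat (one, x), by fun_prop⟩ ⟨fun x : PB b => x, by fun_prop⟩
    H4 H4_zero H4_one (fun x s => (H4_pEq x s).trans (cat_pEq one x).symm)

variable (b)

/-- **the topological instance**; `acyc` = the space of based paths is acyclic -/
def pfib (acyc : ∀ x : H F2 (Sing (PB b)), ∃ c : F2, x = c • H.pt (K := Sing (PB b)) (vtx cst)) : PFib where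
  P := Sing (PB b)
  K := Bt b
  G := Sing (G0 b)
  π := quo b
  onto := quo_surjective b
  p0 := vtx cst
  e := vtx one
  cat := catS
  π_cat := quo_catS
  mul := mulS
  dif := difS
  h1 := h1S
  h2 := h2S
  h3 := h3S
  h4 := h4S
  acyc := acyc

end Crest.Agent.R204.PF872
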