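import Crest.Agent.R204.PFA_94
import Crest.Agent.R204.PFibTop_872

/-!
# Row 204, leaf B.P1 (helper94): the path fibration of a based space as a `PFib`, with `PSus`, `PMul`

* `PF94.pf b : PFib` (872's `pfib` with acyclicity proved),
* `PF94.psus b : PSus (pf b)`,
* `PF94.pmul h : PMul (pf b)` for `h : Cov892.HSp b mu`,
* `PF94.pfMap f hf : PFibMap (pf b) (pf b')`.
-/

set_option autoImplicit false

noncomputable section

open Set unitInterval Topology

namespace Crest.Agent.R204.PF94

open Crest.Agent.R204 Crest.Agent.R204.SS Crest.Agent.R204.Cov892 Crest.Agent.R204.Bar170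
open Crest.Agent.R204.SingAct265 hiding cst ev
open Crest.Agent.R204.PF872

variable {B : Type} [TopologicalSpace B]

/-- the path fibration of a based space -/
def pf (b : B) : PFib := pfib b acyc

section
variable (b : B)
@[simp] theorem pf_P : (pf b).P = Sing (PB b) := rfl
@[simp] theorem pf_K : (pf b).K = Bt b := rfl
@[simp] theorem pf_G : (pf b).G = Sing (G0 b) := rfl
theorem pf_π : (pf b).π = quo b := rfl
theorem pf_p0 : (pf b).p0 = vtx cst := rfl
theorem pf_e : (pf b).e = vtx one := rfl
theorem pf_cat : (pf b).cat = PF872.catS := rfl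
theorem pf_mul : (pf b).mul = PF872.mulS := rfl
end

variable {b : B}

/-- loops as paths and the contraction -/
def psus (b : B) : PSus (pf b) where
  inc := inc b
  hs := hs b
  π_inc := quo_inc
  h5 := PFL94.overCongr (overTop incT ⟨fun g : G0 b => cat (g, cst), by fun_prop⟩ H5 H5_zero H5_one
    (fun g s => pEq_of_path (H5.comp ⟨fun s => (g, s), by fun_prop⟩)
      (fun s => (H5_end g s).trans (H5_end g 0).symm) s 0 |>.trans (by
        rw [show (H5.comp ⟨fun s => (g, s), by fun_prop⟩) (0 : I) = H5 (g, 0) from rfl, H5_zero]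
        exact PEq.refl _))) (fun _ _ => rfl) (fun _ _ => rfl)

/-- levelwise product -/
def pmul {mu : C(B × B, B)} (h : HSp b mu) : PMul (pf b) where
  M := MS mu h.hb
  MK := mulT mu h.hb
  MG := MGS mu h.hb
  π_M := quo_MS mu h.hb
  cat_M := MS_catS mu h.hb
  unit_l := MGS_unit_l h
  unit_r := MGS_unit_r h

end Crest.Agent.R204.PF94
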