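import Crest.Agent.R204.Hsp3_696
import Crest.Agent.R204.SingAct_265

/-!
# Row 204, block C (helper696): the simplicial H-space `Sing (Ω^J Z)`

`mulS c : Hom (Sing X × Sing X) (Sing X)` for `c : BoxConf (Fin 2) J`, with simplicial homotopies for
unit, associativity, commutativity, inverse, independence of `c`; strict interchange and strict
compatibility with `ev`.
-/

set_option autoImplicit false
set_option linter.unusedSectionVars false

open scoped Topology unitInterval Topology.Homotopy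

noncomputable section

namespace Crest.Agent.R204.HspSS696

open Crest.Agent.R204 SS SingAct265 Cubes735 Hsp696

/-! ## generalities -/

theorem Hom.ext' {K L : SS} {f g : Hom K L} (h : ∀ n x, f.app n x = g.app n x) : f = g := by
  ext n x; exact h n x

theorem singMap_comp {X Y Z : Type} [TopologicalSpace X] [TopologicalSpace Y] [TopologicalSpace Z]
    (g : C(Y, Z)) (f : C(X, Y)) : SingMap (g.comp f) = (SingMap g).comp (SingMap f) := rfl

theorem singMap_id {X : Type} [TopologicalSpace X] :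
    SingMap (ContinuousMap.id X) = Hom.id (Sing X) := by
  apply Hom.ext'; intro n x; rfl

/-- homotopic maps of spaces induce homotopic maps of singular sets -/
theorem nonempty_htpy {X Y : Type} [TopologicalSpace X] [TopologicalSpace Y] {f g : C(X, Y)}
    (h : f.Homotopic g) : Nonempty (Htpy (SingMap f) (SingMap g)) :=
  h.elim fun H => ⟨Htpy.ofHomotopy H⟩

theorem nonempty_htpy_rel {X Y : Type} [TopologicalSpace X] [TopologicalSpace Y] {f g : C(X, Y)}
    {S : Set X} (h : f.HomotopicRel g S) : Nonempty (Htpy (SingMap f) (SingMap g)) :=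
  nonempty_htpy h.homotopic

/-- constant map of simplicial sets onto a vertex given by a point -/
def ptS {X : Type} [TopologicalSpace X] (x : X) : (Sing X).S 0 := mkS (fun _ => x) continuous_const

/-- the constant map to a point -/
theorem singMap_const {X Y : Type} [TopologicalSpace X] [TopologicalSpace Y] (y : Y) :
    SingMap (ContinuousMap.const X y) = constHom (Sing X) (Sing Y) (ptS y) := by
  apply Hom.ext'; intro n x; rfl

variable {F J : Type} [Finite F] [Finite J] {Z : Type} [TopologicalSpace Z] {z₀ : Z}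

/-- The space `Ω^J Z` -/
abbrev Om (J Z : Type) [TopologicalSpace Z] (z₀ : Z) : Type := Ω^ J Z z₀

/-- multiplication on `Sing (Ω^J Z)` -/
def mulS (c : BoxConf (Fin 2) J) : Hom ((Sing (Om J Z z₀)).prod (Sing (Om J Z z₀))) (Sing (Om J Z z₀)) :=
  (SingMap (mu2 c)).comp (singPair _ _)

/-- the base vertex of `Sing (Ω^J Z)` -/
def eS : (Sing (Om J Z z₀)).S 0 := ptS GenLoop.const

@[simp] theorem ev_mulS (c : BoxConf (Fin 2) J) {n : ℕ} (x y : (Sing (Om J Z z₀)).S n)
    (t : stdSimplex ℝ (Fin (n + 1))) :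
    SingAct265.ev ((mulS c).app n (x, y)) t = mu c ![SingAct265.ev x t, SingAct265.ev y t] := rfl

/-- `n`-ary operations -/
def opS (c : BoxConf F J) : Hom (pow F (Sing (Om J Z z₀))) (Sing (Om J Z z₀)) :=
  (SingMap (muC c)).comp (singPi F _)

@[simp] theorem ev_opS (c : BoxConf F J) {n : ℕ} (x : (pow F (Sing (Om J Z z₀))).S n)
    (t : stdSimplex ℝ (Fin (n + 1))) :
    SingAct265.ev ((opS c).app n x) t = mu c (fun v => SingAct265.ev (x v) t) := rfl

/-! ## independence of the configuration -/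

theorem opS_htpy {c d : BoxConf F J} (h : Joined c d) :
    Nonempty (Htpy (opS c : Hom (pow F (Sing (Om J Z z₀))) _) (opS d)) := by
  obtain ⟨H⟩ := nonempty_htpy_rel (muC_homotopicRel (Z := Z) (z₀ := z₀) h)
  exact ⟨H.pre (singPi F _)⟩

theorem mulS_htpy {c d : BoxConf (Fin 2) J} (h : Joined c d) :
    Nonempty (Htpy (mulS c : Hom ((Sing (Om J Z z₀)).prod (Sing (Om J Z z₀))) _) (mulS d)) := by
  obtain ⟨H⟩ := nonempty_htpy_rel (mu2_homotopicRel (Z := Z) (z₀ := z₀) h)
  exact ⟨H.pre (singPair _ _)⟩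

theorem mulS_htpy' [Nontrivial J] (c d : BoxConf (Fin 2) J) :
    Nonempty (Htpy (mulS c : Hom ((Sing (Om J Z z₀)).prod (Sing (Om J Z z₀))) _) (mulS d)) :=
  mulS_htpy (joined c d)

/-! ## commutativity -/

theorem mulS_comm [Nontrivial J] (c : BoxConf (Fin 2) J) :
    Nonempty (Htpy (mulS c : Hom ((Sing (Om J Z z₀)).prod (Sing (Om J Z z₀))) _)
      ((mulS c).comp (SS.swap _ _))) := by
  obtain ⟨H⟩ := nonempty_htpy_rel (mu2_comm (Z := Z) (z₀ := z₀) c)
  exact ⟨H.pre (singPair _ _)⟩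

/-! ## unit -/

/-- `x ↦ (e, x)` -/
def inS_left : Hom (Sing (Om J Z z₀)) ((Sing (Om J Z z₀)).prod (Sing (Om J Z z₀))) :=
  SS.pair (constHom _ _ eS) (Hom.id _)

/-- `x ↦ (x, e)` -/
def inS_right : Hom (Sing (Om J Z z₀)) ((Sing (Om J Z z₀)).prod (Sing (Om J Z z₀))) :=
  SS.pair (Hom.id _) (constHom _ _ eS)

theorem mulS_unit_left (c : BoxConf (Fin 2) J) :
    Nonempty (Htpy ((mulS c).comp (inS_left (Z := Z) (z₀ := z₀))) (Hom.id _)) := by
  obtain ⟨H⟩ := nonempty_htpy_rel (mu2_const_left (Z := Z) (z₀ := z₀) c)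
  rw [singMap_id] at H
  exact ⟨H⟩

theorem mulS_unit_right (c : BoxConf (Fin 2) J) :
    Nonempty (Htpy ((mulS c).comp (inS_right (Z := Z) (z₀ := z₀))) (Hom.id _)) := by
  obtain ⟨H⟩ := nonempty_htpy_rel (mu2_const_right (Z := Z) (z₀ := z₀) c)
  rw [singMap_id] at H
  exact ⟨H⟩

/-! ## associativity -/

/-- `((x, y), z) ↦ (x y) z` -/
def mulSL (c : BoxConf (Fin 2) J) :
    Hom (((Sing (Om J Z z₀)).prod (Sing (Om J Z z₀))).prod (Sing (Om J Z z₀))) (Sing (Om J Z z₀)) :=
  (mulS c).comp (SS.prodMap (mulS c) (Hom.id _))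

/-- `((x, y), z) ↦ x (y z)` -/
def mulSR (c : BoxConf (Fin 2) J) :
    Hom (((Sing (Om J Z z₀)).prod (Sing (Om J Z z₀))).prod (Sing (Om J Z z₀))) (Sing (Om J Z z₀)) :=
  (mulS c).comp (SS.pair ((SS.fst _ _).comp (SS.fst _ _))
    ((mulS c).comp (SS.pair ((SS.snd _ _).comp (SS.fst _ _)) (SS.snd _ _))))

theorem mulS_assoc' (c : BoxConf (Fin 2) J) (h : Joined (assocL c c) (assocR c c)) :
    Nonempty (Htpy (mulSL c : Hom (((Sing (Om J Z z₀)).prod (Sing (Om J Z z₀))).prod
      (Sing (Om J Z z₀))) _) (mulSR c)) := by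
  obtain ⟨H⟩ := nonempty_htpy_rel (mu2_assoc' (Z := Z) (z₀ := z₀) c h)
  exact ⟨(H.pre (singPair ((Om J Z z₀) × (Om J Z z₀)) (Om J Z z₀))).pre
    (SS.prodMap (singPair _ _) (Hom.id _))⟩

theorem mulS_assoc [Nontrivial J] (c : BoxConf (Fin 2) J) :
    Nonempty (Htpy (mulSL c : Hom (((Sing (Om J Z z₀)).prod (Sing (Om J Z z₀))).prod
      (Sing (Om J Z z₀))) _) (mulSR c)) :=
  mulS_assoc' c (joined _ _)

/-! ## inverse -/

section inv
variable [DecidableEq J]

/-- inversion on `Sing (Ω^J Z)` -/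
def invS (i : J) : Hom (Sing (Om J Z z₀)) (Sing (Om J Z z₀)) :=
  SingMap ⟨GenLoop.symmAt i, continuous_symmAt i⟩

theorem mulS_inv_right (i : J) :
    Nonempty (Htpy ((mulS (halves i)).comp (SS.pair (Hom.id (Sing (Om J Z z₀))) (invS i)))
      (constHom _ _ eS)) := by
  obtain ⟨H⟩ := nonempty_htpy_rel (mul_inv_homotopic (Z := Z) (z₀ := z₀) i)
  rw [singMap_const] at H
  exact ⟨H⟩

theorem mulS_inv_left (i : J) :
    Nonempty (Htpy ((mulS (halves i)).comp (SS.pair (invS i) (Hom.id (Sing (Om J Z z₀)))))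
      (constHom _ _ eS)) := by
  obtain ⟨H⟩ := nonempty_htpy_rel (inv_mul_homotopic (Z := Z) (z₀ := z₀) i)
  rw [singMap_const] at H
  exact ⟨H⟩

end inv

/-! ## base vertex -/

theorem mulS_base (c : BoxConf (Fin 2) J) :
    (mulS c : Hom ((Sing (Om J Z z₀)).prod (Sing (Om J Z z₀))) _).app 0 (eS, eS) = eS := by
  refine sing_ext fun t => ?_
  show mu c ![GenLoop.const, GenLoop.const] = GenLoop.const
  rw [cons_const, mu_const]

/-! ## naturality in `Z` -/

variable {Z' : Type} [TopologicalSpace Z'] {z₀' : Z'}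

theorem continuous_genLoop_map (g : C(Z, Z')) (hg : g z₀ = z₀') :
    Continuous (Cubes735.GenLoop.map (J := J) g hg) :=
  Continuous.subtype_mk ((ContinuousMap.continuous_postcomp g).comp continuous_subtype_val) _

/-- the map `Sing (Ω^J Z) → Sing (Ω^J Z')` -/
def mapS (g : C(Z, Z')) (hg : g z₀ = z₀') : Hom (Sing (Om J Z z₀)) (Sing (Om J Z' z₀')) :=
  SingMap ⟨Cubes735.GenLoop.map g hg, continuous_genLoop_map g hg⟩

/-- **`Ω^J g` is strictly multiplicative** -/
theorem mapS_mulS (g : C(Z, Z')) (hg : g z₀ = z₀') (c : BoxConf (Fin 2) J) :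
    (mapS g hg).comp (mulS c) = (mulS c).comp (SS.prodMap (mapS g hg) (mapS g hg)) := by
  apply Hom.ext'
  rintro n ⟨x, y⟩
  refine sing_ext fun t => ?_
  show Cubes735.GenLoop.map g hg (mu c ![SingAct265.ev x t, SingAct265.ev y t]) =
    mu c ![Cubes735.GenLoop.map g hg (SingAct265.ev x t),
      Cubes735.GenLoop.map g hg (SingAct265.ev y t)]
  rw [← mu_map]
  congr 1
  funext v
  fin_cases v <;> rfl

/-! ## evaluation -/

/-- **strict spectator law**: `ev s (x · y) = ev s x · ev s y` for the pointwise product -/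
theorem ev_mu_pair {n : ℕ} (c : BoxConf (Fin 2) (Fin n)) (s : I) (x y : Om (Fin (n + 1)) Z z₀) :
    Cubes735.ev s (mu (ext1 c) ![x, y]) = mu c ![Cubes735.ev s x, Cubes735.ev s y] := by
  rw [ev_mu_ext1]
  congr 1
  funext v
  fin_cases v <;> rfl

/-- the looping homeomorphism turns the pointwise product into the pointwise product of paths -/
theorem interchange {n : ℕ} (c : BoxConf (Fin 2) (Fin n)) (x y x' y' : Om (Fin (n + 1)) Z z₀) :
    mu (ext1 c) ![GenLoop.transAt (Fin.last n) x y, GenLoop.transAt (Fin.last n) x' y'] =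
      GenLoop.transAt (Fin.last n) (mu (ext1 c) ![x, x']) (mu (ext1 c) ![y, y']) := by
  rw [← mu_ext1_transAt]
  congr 1
  funext v
  fin_cases v <;> rfl

end Crest.Agent.R204.HspSS696
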