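import Crest.Agent.R204.Sus_330
import Crest.Agent.R204.C2_735

/-!
# Row 204, block E/C7 (helper330): `GenLoop (Fin (n+1)) Z` as loop space of `GenLoop (Fin n) Z`
(735's evaluation at the last coordinate)
-/

set_option autoImplicit false

noncomputable section

namespace Crest.Agent.R204.Sus330

open scoped Topology unitInterval Topology.Homotopy
open Crest.Agent.R204.Cubes735

variable {Z : Type} [TopologicalSpace Z] {z₀ : Z}

theorem continuous_genEval {T : Type*} [TopologicalSpace T] {N : Type} [Finite N]
    {g : T → Ω^ N Z z₀} {t : T → N → I} (hg : Continuous g) (ht : Continuous t) :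
    Continuous fun p => g p (t p) := by
  have h : Continuous fun q : C(N → I, Z) × (N → I) => q.1 q.2 := continuous_eval
  exact h.comp ((continuous_subtype_val.comp hg).prodMk ht)

/-- the loop structure of iterated loop spaces (last coordinate) -/
def genLoop (n : ℕ) : LoopStr (Ω^ (Fin (n + 1)) Z z₀) (Ω^ (Fin n) Z z₀) GenLoop.const
    GenLoop.const where
  ev := ⟨fun p => ev p.1 p.2, continuous_ev continuous_fst continuous_snd⟩
  ev_zero g := ev_zero g
  ev_one g := ev_one g
  ev_base s := ev_const s
  inj g h e := by
    refine GenLoop.ext _ _ fun t => ?_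
    have h1 := congrArg (fun f : Ω^ (Fin n) Z z₀ => f (Fin.init t)) (e (t (Fin.last n)))
    simp only [ContinuousMap.coe_mk, ev_apply] at h1
    rwa [show (Fin.snoc (α := fun _ => I) (Fin.init t) (t (Fin.last n)) : Fin (n + 1) → I) = t
      from Fin.snoc_init_self t] at h1
  curry {T} _ F h0 h1 := by
    have hinit : Continuous fun t : Fin (n + 1) → I => (Fin.init t : Fin n → I) :=
      continuous_pi fun i => continuous_apply _
    have hc : Continuous fun p : T × (Fin (n + 1) → I) =>
        (F (p.2 (Fin.last n), p.1)) (Fin.init p.2) :=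
      continuous_genEval (g := fun p : T × (Fin (n + 1) → I) => F (p.2 (Fin.last n), p.1))
        (F.continuous.comp (((continuous_apply (Fin.last n)).comp continuous_snd).prodMk
          continuous_fst)) (hinit.comp continuous_snd)
    refine ⟨⟨fun t => ⟨⟨fun c => F (c (Fin.last n), t) (Fin.init c), ?_⟩, ?_⟩, ?_⟩, ?_⟩
    · exact hc.comp (Continuous.prodMk_right t)
    · rintro c ⟨i, hi⟩
      show F (c (Fin.last n), t) (Fin.init c) = z₀
      induction i using Fin.lastCases with
      | last =>
        rcases hi with hi | hi
        · rw [hi, h0]; rfl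
        · rw [hi, h1]; rfl
      | cast i => exact (F (c (Fin.last n), t)).2 _ ⟨i, hi⟩
    · refine Continuous.subtype_mk ?_ _
      exact (ContinuousMap.curry ⟨_, hc⟩).continuous
    · intro s t
      refine GenLoop.ext _ _ fun c => ?_
      show ev s _ c = F (s, t) c
      rw [ev_apply]
      show F (Fin.snoc (α := fun _ => I) c s (Fin.last n), t)
        (Fin.init (Fin.snoc (α := fun _ => I) c s)) = F (s, t) c
      rw [Fin.snoc_last, Fin.init_snoc]

end Crest.Agent.R204.Sus330
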