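import Crest.Agent.R204.Adj_330
import Crest.Agent.R204.EZCross_271

/-!
# Row 204, block E / C7 (helper330): the loop suspension on normalised chains
`sig c = ev_*(ι × c)` and spherical simplices
-/

set_option autoImplicit false

noncomputable section

namespace Crest.Agent.R204.Sus330

open Cone330
open EZ271 (cross cross_sx map_cross map_map map_bd' map_idHom aug bd_sx_succ bd_sx_zero hom_ext
  aug_map aug_cross bd_cross sg_sx yo_iota comp_yo)
open scoped unitInterval

variable (R : Type) [CommRing R]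

/-! ## generalities -/

/-- a constant simplicial map -/
theorem map_constHom {K L : SS} (f : SS.Hom K L) (b : L.S 0) (h : ∀ n x, f.app n x = base L b n)
    (c : N R K) : N.map R f c = aug R c • N.sx R b := by
  have : N.map R f = (aug R (K := K)).smulRight (N.sx R b) := by
    refine hom_ext fun n x => ?_
    rw [N.map_sx, h, LinearMap.smulRight_apply]
    rcases n with _ | n
    · rw [EZ271.aug_sx_zero, one_smul, base_zero]
    · rw [EZ271.aug_sx_succ, zero_smul, sx_base L b R (Nat.succ_pos n)]
  exact LinearMap.congr_fun this c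

/-- the constant simplicial map at a vertex -/
def kst {J : SS} (K : SS) (x : K.S 0) : SS.Hom J K := ⟨fun n _ => base K x n, fun f _ => by
  rw [act_base]⟩

theorem E_zero (q : ℕ) : EZ271.E R 0 q =
    N.sx R (K := (SS.std 0).prod (SS.std q)) (n := q) (cst q, (OrderHom.id : Op q q)) := by
  induction q with
  | zero =>
    rw [EZ271.E_zero_zero]
    congr 1
    refine Prod.ext ?_ ?_
    · rfl
    · exact OrderHom.ext _ _ (funext fun a => Fin.ext (by
        have := a.isLt
        show 0 = (a : ℕ)
        omega))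
  | succ q ih =>
    rw [EZ271.E_zero_succ, ih, N.map_sx, EZ271.Cone.c_sx]
    congr 1
    refine Prod.ext ?_ ?_
    · refine OrderHom.ext _ _ (funext fun a => ?_)
      induction a using Fin.cases with
      | zero => rfl
      | succ a => rfl
    · refine OrderHom.ext _ _ (funext fun a => ?_)
      induction a using Fin.cases with
      | zero => rfl
      | succ a => rfl

/-- cross product with a vertex -/
theorem cross_vertex {K L : SS} (x : K.S 0) (c : N R L) :
    cross R (N.sx R x) c = N.map R (SS.pair (kst K x) (SS.Hom.id L)) c := by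
  have : cross R (L := L) (N.sx R x) = N.map R (SS.pair (kst K x) (SS.Hom.id L)) := by
    refine hom_ext fun q y => ?_
    rw [cross_sx, E_zero, N.map_sx, N.map_sx]
    congr 1
    refine Prod.ext rfl ?_
    exact L.act_id y
  exact LinearMap.congr_fun this c

/-- degrees of the universal shuffle chain -/
theorem mem_gr_sx {K : SS} {n : ℕ} (x : K.S n) : N.sx R x ∈ N.gr R K n :=
  Submodule.mem_map_of_mem (Submodule.subset_span ⟨x, rfl⟩)

theorem gr_ind {K : SS} {n : ℕ} {p : N R K → Prop} {c : N R K} (hc : c ∈ N.gr R K n)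
    (h0 : p 0) (hadd : ∀ a b, p a → p b → p (a + b)) (hsmul : ∀ (r : R) a, p a → p (r • a))
    (hsx : ∀ x : K.S n, p (N.sx R x)) : p c := by
  have : N.gr R K n = Submodule.span R {c | ∃ x : K.S n, c = N.sx R x} := by
    rw [N.gr, Ch.gr, Submodule.map_span]
    congr 1
    ext c
    constructor
    · rintro ⟨_, ⟨x, rfl⟩, rfl⟩; exact ⟨x, rfl⟩
    · rintro ⟨x, rfl⟩; exact ⟨_, ⟨x, rfl⟩, rfl⟩
  rw [this] at hc
  refine Submodule.span_induction (p := fun c _ => p c) ?_ h0 (fun a b _ _ => hadd a b)
    (fun r a _ => hsmul r a) hc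
  rintro _ ⟨x, rfl⟩
  exact hsx x

theorem map_mem_gr {K L : SS} (f : SS.Hom K L) {n : ℕ} {c : N R K} (hc : c ∈ N.gr R K n) :
    N.map R f c ∈ N.gr R L n := by
  refine gr_ind R (p := fun c => N.map R f c ∈ N.gr R L n) hc (by simp) ?_ ?_ ?_
  · intro a b ha hb; rw [map_add]; exact Submodule.add_mem _ ha hb
  · intro r a ha; rw [map_smul]; exact Submodule.smul_mem _ _ ha
  · intro x; rw [N.map_sx]; exact mem_gr_sx R _

theorem c_mem_gr {K : SS} (A : EZ271.Cone K) {n : ℕ} {c : N R K} (hc : c ∈ N.gr R K n) :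
    A.c R c ∈ N.gr R K (n + 1) := by
  refine gr_ind R (p := fun c => A.c R c ∈ N.gr R K (n + 1)) hc (by simp) ?_ ?_ ?_
  · intro a b ha hb; rw [map_add]; exact Submodule.add_mem _ ha hb
  · intro r a ha; rw [map_smul]; exact Submodule.smul_mem _ _ ha
  · intro x; rw [EZ271.Cone.c_sx]; exact mem_gr_sx R _

theorem E_mem_gr (n : ℕ) : ∀ p q : ℕ, p + q = n → EZ271.E R p q ∈ N.gr R _ n := by
  induction n with
  | zero =>
    intro p q h
    obtain rfl : p = 0 := by omega
    obtain rfl : q = 0 := by omega
    rw [EZ271.E_zero_zero]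
    exact mem_gr_sx R _
  | succ n ih =>
    intro p q h
    rcases p with _ | p <;> rcases q with _ | q
    · omega
    · rw [EZ271.E_zero_succ]
      exact c_mem_gr R _ (map_mem_gr R _ (ih 0 q (by omega)))
    · rw [EZ271.E_succ_zero]
      exact c_mem_gr R _ (map_mem_gr R _ (ih p 0 (by omega)))
    · rw [EZ271.E_succ_succ]
      exact c_mem_gr R _ (Submodule.add_mem _ (map_mem_gr R _ (ih p (q + 1) (by omega)))
        (Submodule.smul_mem _ _ (map_mem_gr R _ (ih (p + 1) q (by omega)))))

theorem cross_mem_gr {K L : SS} {p q : ℕ} {a : N R K} {b : N R L} (ha : a ∈ N.gr R K p)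
    (hb : b ∈ N.gr R L q) : cross R a b ∈ N.gr R (K.prod L) (p + q) := by
  refine gr_ind R (p := fun a => cross R a b ∈ N.gr R (K.prod L) (p + q)) ha (by simp) ?_ ?_ ?_
  · intro a b ha hb; rw [map_add]; exact Submodule.add_mem _ ha hb
  · intro r a ha; rw [map_smul]; exact Submodule.smul_mem _ _ ha
  · intro x
    refine gr_ind R (p := fun b => cross R (N.sx R x) b ∈ N.gr R (K.prod L) (p + q)) hb (by simp)
      ?_ ?_ ?_
    · intro a b ha hb; rw [map_add]; exact Submodule.add_mem _ ha hb
    · intro r a ha; rw [map_smul]; exact Submodule.smul_mem _ _ ha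
    · intro y
      rw [cross_sx]
      exact map_mem_gr R _ (E_mem_gr R _ p q rfl)

/-- the fundamental simplex of `Δ^1` -/
def io : (SS.std 1).S 1 := (OrderHom.id : Op 1 1)

/-- the vertices of `Δ^1` -/
def ve (i : Fin 2) : (SS.std 1).S 0 := (⟨fun _ => i, fun _ _ _ => le_rfl⟩ : Op 0 1)

theorem bd_io : N.bd R (SS.std 1) (N.sx R io) = N.sx R (ve 1) - N.sx R (ve 0) := by
  rw [bd_sx_succ, Fin.sum_univ_two]
  have h0 : (SS.std 1).act (Op.face 0) io = ve 1 := by
    refine OrderHom.ext _ _ (funext fun a => ?_)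
    have : a = 0 := Fin.ext (by omega)
    subst this
    rfl
  have h1 : (SS.std 1).act (Op.face 1) io = ve 0 := by
    refine OrderHom.ext _ _ (funext fun a => ?_)
    have : a = 0 := Fin.ext (by omega)
    subst this
    rfl
  rw [h0, h1]
  simp only [Fin.val_zero, pow_zero, one_smul, Fin.val_one, pow_one, neg_smul]
  rw [sub_eq_add_neg]

variable {P Y : Type} [TopologicalSpace P] [TopologicalSpace Y] {g0 : P} {y0 : Y}

namespace LoopStr

variable (Λ : LoopStr P Y g0 y0)

/-- loop suspension on normalised chains -/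
def sig : N R (SS.Sing P) →ₗ[R] N R (SS.Sing Y) := N.map R Λ.evH ∘ₗ cross R (N.sx R io)

theorem sig_apply (c : N R (SS.Sing P)) : Λ.sig R c = N.map R Λ.evH (cross R (N.sx R io) c) := rfl

theorem map_evH_vertex (i : Fin 2) (c : N R (SS.Sing P)) :
    N.map R Λ.evH (cross R (N.sx R (ve i)) c) = aug R c • N.sx R (cY y0 0) := by
  rw [cross_vertex, map_map]
  refine map_constHom R _ _ (fun n x => ?_) c
  rw [base_sing]
  fin_cases i
  · exact Λ.evH_zero _ (fun _ => rfl) x
  · exact Λ.evH_one _ (fun _ => rfl) x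

theorem bd_sig (c : N R (SS.Sing P)) : N.bd R _ (Λ.sig R c) = - Λ.sig R (N.bd R _ c) := by
  rw [sig_apply, ← map_bd', bd_cross, map_add, bd_io, map_sub, LinearMap.sub_apply, map_sub,
    map_evH_vertex, map_evH_vertex, sub_self, zero_add, sg_sx, map_smul, LinearMap.smul_apply,
    map_smul, pow_one, neg_smul, one_smul, sig_apply]

theorem sig_mem_gr {n : ℕ} {c : N R (SS.Sing P)} (hc : c ∈ N.gr R _ n) :
    Λ.sig R c ∈ N.gr R _ (n + 1) := by
  rw [sig_apply, add_comm n 1]
  exact map_mem_gr R _ (cross_mem_gr R (mem_gr_sx R _) hc)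

theorem aug_sig (c : N R (SS.Sing P)) : aug R (Λ.sig R c) = 0 := by
  rw [sig_apply, aug_map, aug_cross]
  rw [show aug R (N.sx R io) = 0 from EZ271.aug_sx_succ R _, zero_mul]

end LoopStr

/-! ## the poset collapse -/

theorem isConeMap_piH (N' : ℕ) : EZ271.IsConeMap (EZ271.Cpq 1 N') (EZ271.Cone.std (N' + 1))
    (piH N') where
  k x := by
    refine OrderHom.ext _ _ (funext fun a => ?_)
    induction a using Fin.cases with
    | zero => rfl
    | succ a => rfl

/-- the collapse `[1] × [N] → [N+1]` has degree one, strictly -/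
theorem map_piH_E (q : ℕ) : N.map R (piH q) (EZ271.E R 1 q) =
    N.sx R (K := SS.std (q + 1)) (OrderHom.id : Op (q + 1) (q + 1)) := by
  have hid : ∀ q : ℕ, (EZ271.Cone.std (q + 1)).k (n := q)
      (piO (N := q) ((Op.face 0).comp (cst q)) (OrderHom.id : Op q q)) =
      (OrderHom.id : Op (q + 1) (q + 1)) := by
    intro q
    refine OrderHom.ext _ _ (funext fun a => ?_)
    induction a using Fin.cases with
    | zero => rfl
    | succ a =>
      show piO ((Op.face 0).comp (cst q)) (OrderHom.id : Op q q) a = a.succ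
      rw [piO_apply, if_neg]
      · rfl
      · intro h
        have := congrArg Fin.val h
        rw [OrderHom.comp_coe, Function.comp_apply, Ch.face_val] at this
        simp at this
  induction q with
  | zero =>
    rw [EZ271.E_succ_zero, (isConeMap_piH 0).c, map_map, E_zero, N.map_sx, EZ271.Cone.c_sx]
    congr 1
    exact hid 0
  | succ q ih =>
    rw [EZ271.E_succ_succ, (isConeMap_piH (q + 1)).c, map_add, map_add, map_smul, map_smul, map_map,
      map_map, E_zero, N.map_sx, EZ271.Cone.c_sx]
    have h2 : SS.Hom.comp (piH (q + 1)) (SS.prodMap (SS.Hom.id (SS.std 1))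
        (EZ271.stdMap (Op.face (0 : Fin (q + 2))))) =
        SS.Hom.comp (EZ271.stdMap (Op.face (1 : Fin (q + 3)))) (piH q) := by
      refine SS.Hom.ext (funext fun n => funext fun x => OrderHom.ext _ _ (funext fun a => ?_))
      show (if so x.1 a = 0 then (0 : Fin (q + 3)) else (Op.face 0 (so x.2 a)).succ) =
        Op.face 1 (if so x.1 a = 0 then (0 : Fin (q + 2)) else (so x.2 a).succ)
      split_ifs with h
      · ext; rw [Ch.face_val]; simp
      · ext; rw [Ch.face_val, Fin.val_succ, Fin.val_succ, Ch.face_val]; simp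
    rw [h2, ← map_map, ih, N.map_sx]
    have h3 : (EZ271.Cone.std (q + 1 + 1)).c R (N.sx R (K := SS.std (q + 1 + 1))
        ((EZ271.stdMap (Op.face (1 : Fin (q + 3)))).app (q + 1)
          (OrderHom.id : Op (q + 1) (q + 1)))) = 0 := by
      have h4 : ((EZ271.stdMap (Op.face (1 : Fin (q + 3)))).app (q + 1)
          (OrderHom.id : Op (q + 1) (q + 1)) : (SS.std (q + 1 + 1)).S (q + 1)) =
          (EZ271.Cone.std (q + 1 + 1)).k (n := q)
            ((Op.face (1 : Fin (q + 3))).comp (Op.face (0 : Fin (q + 2))) : Op q (q + 2)) := by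
        refine OrderHom.ext _ _ (funext fun a => ?_)
        induction a using Fin.cases with
        | zero => rfl
        | succ a => rfl
      rw [h4, ← EZ271.Cone.c_sx, EZ271.Cone.c_c]
    rw [h3, smul_zero, add_zero]
    congr 1
    exact hid (q + 1)

namespace LoopStr

variable (Λ : LoopStr P Y g0 y0)

/-- `σ(a') = x` exactly, for the piecewise linear adjoint `a'` of `x` -/
theorem sig_adj {q : ℕ} (a : (SS.Sing P).S q) (x : (SS.Sing Y).S (q + 1))
    (h : ∀ (s : I) (u : Dl q), Λ.ev (s, sg a u) = sg x (qP (s, u))) :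
    Λ.sig R (N.sx R a) = N.sx R x := by
  rw [sig_apply, cross_sx, map_map]
  have : SS.Hom.comp Λ.evH (SS.prodMap ((SS.std 1).yo io) ((SS.Sing P).yo a)) =
      ((SS.Sing Y).yo x).comp (piH q) := by
    refine SS.Hom.ext (funext fun n => funext fun y => ContinuousMap.ext fun u => ?_)
    have e := h (lam1 (stdSimplex.map (so y.1) u)) (stdSimplex.map (so y.2) u)
    rw [qP_map] at e
    exact e
  rw [this, ← map_map, map_piH_E, N.map_sx]
  congr 1
  exact (SS.Sing Y).act_id x

end LoopStr

end Crest.Agent.R204.Sus330
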