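import Crest.Agent.R204.Defs

/-!
# Row 204, leaf B7a: the algebra of the induction `R(k)` (range form, section 02b)
owner helper979

* `RB gr e deg N` : the family `e : β → H` with degrees `deg` is linearly independent in degrees `≤ N`
  and spans in degrees `≤ N + 1`.
* `PolyR gr y d N` : the monomials in the `y i` have this property.
* `SimR gr z d N` : the products of distinct `z i` have this property.
* `polyR_iff_simR` : monomials in the `y i` = products of distinct elements `y i ^ 2 ^ b`.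
* words: `Word`, `wv` (value), `wd` (degree).
-/

set_option autoImplicit false
set_option linter.unusedSectionVars false

namespace Crest.Agent.R204.Ind979

open Finsupp

section general

variable {H : Type*} [CommRing H] [Algebra F2 H]

/-- linearly independent in degrees `≤ N`, spanning in degrees `≤ N + 1` -/
def RB (gr : ℕ → Submodule F2 H) {β : Type*} (e : β → H) (deg : β → ℕ) (N : ℕ) : Prop :=
  (∀ t ≤ N, LinearIndependent F2 (fun b : {b : β // deg b = t} => e b)) ∧
  (∀ t ≤ N + 1, gr t ≤ Submodule.span F2 (e '' {b | deg b = t}))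

/-- reindexing along a partial bijection (bijection in the degrees `≤ N + 1`) -/
theorem RB.reindex_iff {gr : ℕ → Submodule F2 H} {β γ : Type*} {e : β → H} {deg : β → ℕ} {e' : γ → H}
    {deg' : γ → ℕ} {N : ℕ} (f : β → γ)
    (hf : Set.BijOn f {b | deg b ≤ N + 1} {c | deg' c ≤ N + 1})
    (hd : ∀ b, deg b ≤ N + 1 → deg' (f b) = deg b) (he : ∀ b, deg b ≤ N + 1 → e' (f b) = e b) :
    RB gr e deg N ↔ RB gr e' deg' N := by
  have hdt : ∀ t ≤ N + 1, ∀ b : {b : β // deg b = t}, deg' (f b) = t := fun t ht b => by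
    have := b.2
    rw [hd b (by omega), this]
  have hB : ∀ (t : ℕ) (ht : t ≤ N + 1), Function.Bijective
      (fun b : {b : β // deg b = t} => (⟨f b, hdt t ht b⟩ : {c : γ // deg' c = t})) := by
    intro t ht
    constructor
    · intro b b' hbb
      have h1 : deg b.1 ≤ N + 1 := by have := b.2; omega
      have h2 : deg b'.1 ≤ N + 1 := by have := b'.2; omega
      simp only [Subtype.mk.injEq] at hbb
      exact Subtype.ext (hf.injOn h1 h2 hbb)
    · rintro ⟨c, hc⟩
      obtain ⟨b, hb, rfl⟩ := hf.surjOn (show c ∈ {c | deg' c ≤ N + 1} by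
        simp only [Set.mem_ofPred_eq]; omega)
      simp only [Set.mem_ofPred_eq] at hb
      exact ⟨⟨b, by rw [← hc, hd b hb]⟩, rfl⟩
  refine and_congr ?_ ?_
  · refine forall₂_congr fun t ht => ?_
    refine linearIndependent_equiv' (Equiv.ofBijective _ (hB t (by omega))) ?_
    funext b
    have h1 : deg b.1 ≤ N + 1 := by have := b.2; omega
    exact he b h1
  · refine forall₂_congr fun t ht => ?_
    have : e '' {b | deg b = t} = e' '' {c | deg' c = t} := by
      ext x
      constructor
      · rintro ⟨b, hb, rfl⟩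
        simp only [Set.mem_ofPred_eq] at hb
        exact ⟨f b, by simp only [Set.mem_ofPred_eq]; rw [hd b (by omega), hb], he b (by omega)⟩
      · rintro ⟨c, hc, rfl⟩
        simp only [Set.mem_ofPred_eq] at hc
        obtain ⟨b, hb, rfl⟩ := hf.surjOn (show c ∈ {c | deg' c ≤ N + 1} by
          simp only [Set.mem_ofPred_eq]; omega)
        exact ⟨b, by simp only [Set.mem_ofPred_eq]; rw [← hc, hd b hb], (he b hb).symm⟩
    rw [this]

theorem RB.reindex {gr : ℕ → Submodule F2 H} {β γ : Type*} {e : β → H} {deg : β → ℕ} {e' : γ → H}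
    {deg' : γ → ℕ} {N : ℕ} (f : β → γ)
    (hf : Set.BijOn f {b | deg b ≤ N + 1} {c | deg' c ≤ N + 1})
    (hd : ∀ b, deg b ≤ N + 1 → deg' (f b) = deg b) (he : ∀ b, deg b ≤ N + 1 → e' (f b) = e b)
    (h : RB gr e' deg' N) : RB gr e deg N := (RB.reindex_iff f hf hd he).2 h

theorem RB.mono {gr : ℕ → Submodule F2 H} {β : Type*} {e : β → H} {deg : β → ℕ} {N N' : ℕ}
    (h : RB gr e deg N) (hN : N' ≤ N) : RB gr e deg N' :=
  ⟨fun t ht => h.1 t (by omega), fun t ht => h.2 t (by omega)⟩

/-- value of the monomial `m` -/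
noncomputable def mval {ι : Type*} (y : ι → H) (m : ι →₀ ℕ) : H := m.prod (fun i n => y i ^ n)

/-- value of the product of the elements of `S` -/
noncomputable def sval {κ : Type*} (z : κ → H) (S : Finset κ) : H := ∏ k ∈ S, z k

/-- degree of a set -/
def sdeg {κ : Type*} (d : κ → ℕ) (S : Finset κ) : ℕ := ∑ k ∈ S, d k

/-- degree of a monomial -/
noncomputable def mdeg {ι : Type*} (d : ι → ℕ) (m : ι →₀ ℕ) : ℕ := m.sum (fun i n => n * d i)

theorem mdeg_eq_weight {ι : Type*} (d : ι → ℕ) (m : ι →₀ ℕ) : mdeg d m = Finsupp.weight d m := by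
  rw [Finsupp.weight_apply]; rfl

/-- polynomial generators in a range -/
def PolyR (gr : ℕ → Submodule F2 H) {ι : Type*} (y : ι → H) (d : ι → ℕ) (N : ℕ) : Prop :=
  RB gr (mval y) (mdeg d) N

/-- simple system of generators in a range -/
def SimR (gr : ℕ → Submodule F2 H) {κ : Type*} (z : κ → H) (d : κ → ℕ) (N : ℕ) : Prop :=
  RB gr (sval z) (sdeg d) N

/-! ### exponents from sets of 2-powers -/

section toM

variable {ι : Type*}

/-- exponent of a product of distinct `y i ^ 2 ^ b` -/
noncomputable def toM (S : Finset (ι × ℕ)) : ι →₀ ℕ := ∑ k ∈ S, Finsupp.single k.1 (2 ^ k.2)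

open Classical in
theorem toM_apply (S : Finset (ι × ℕ)) (i : ι) :
    toM S i = ∑ b ∈ (S.filter (fun k => k.1 = i)).image Prod.snd, 2 ^ b := by
  rw [toM, Finsupp.finsetSum_apply, Finset.sum_image, Finset.sum_filter]
  · refine Finset.sum_congr rfl fun k _ => ?_
    rw [Finsupp.single_apply]
  · intro a ha b hb hab
    simp only [Finset.coe_filter, Set.mem_ofPred_eq] at ha hb
    exact Prod.ext (ha.2.trans hb.2.symm) hab

theorem toM_bijective : Function.Bijective (toM (ι := ι)) := by
  classical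
  constructor
  · intro S T h
    ext ⟨i, b⟩
    have h1 := DFunLike.congr_fun h i
    rw [toM_apply, toM_apply] at h1
    have h2 := Finset.geomSum_injective (le_refl 2) h1
    have h3 := Finset.ext_iff.1 h2 b
    simp only [Finset.mem_image, Finset.mem_filter] at h3
    constructor
    · intro hS
      obtain ⟨⟨i', b'⟩, ⟨h4, h5⟩, h6⟩ := h3.1 ⟨(i, b), ⟨hS, rfl⟩, rfl⟩
      dsimp only at h5 h6
      rw [← h5, ← h6]; exact h4
    · intro hT
      obtain ⟨⟨i', b'⟩, ⟨h4, h5⟩, h6⟩ := h3.2 ⟨(i, b), ⟨hT, rfl⟩, rfl⟩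
      dsimp only at h5 h6
      rw [← h5, ← h6]; exact h4
  · intro m
    refine ⟨m.support.biUnion (fun i => (Finset.equivBitIndices (m i)).map ⟨fun b => (i, b), fun a b h => (Prod.ext_iff.1 h).2⟩), ?_⟩
    ext i
    rw [toM_apply]
    have : ((m.support.biUnion (fun i => (Finset.equivBitIndices (m i)).map
        ⟨fun b => (i, b), fun a b h => (Prod.ext_iff.1 h).2⟩)).filter (fun k => k.1 = i)).image Prod.snd =
        Finset.equivBitIndices (m i) := by
      ext b
      simp only [Finset.mem_image, Finset.mem_filter, Finset.mem_biUnion, Finset.mem_map]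
      constructor
      · rintro ⟨⟨i', b'⟩, ⟨⟨i'', h1, b'', h2, h3⟩, h5⟩, h6⟩
        change (i'', b'') = (i', b') at h3
        change i' = i at h5
        change b' = b at h6
        have h7 : i'' = i' := congrArg Prod.fst h3
        have h8 : b'' = b' := congrArg Prod.snd h3
        subst h6 h5 h8 h7
        exact h2
      · intro hb
        refine ⟨(i, b), ⟨⟨i, ?_, b, hb, rfl⟩, rfl⟩, rfl⟩
        rw [Finsupp.mem_support_iff]
        intro h0
        rw [h0] at hb
        exact absurd hb (by simp [Finset.equivBitIndices])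
    rw [this]
    have h := Finset.equivBitIndices.symm_apply_apply (m i)
    rwa [Finset.equivBitIndices_symm_apply] at h

theorem mval_add (y : ι → H) (m m' : ι →₀ ℕ) : mval y (m + m') = mval y m * mval y m' :=
  Finsupp.prod_add_index' (fun _ => pow_zero _) (fun _ _ _ => pow_add _ _ _)

theorem mval_zero (y : ι → H) : mval y (0 : ι →₀ ℕ) = 1 := Finsupp.prod_zero_index

theorem mval_single (y : ι → H) (i : ι) (n : ℕ) : mval y (Finsupp.single i n) = y i ^ n :=
  Finsupp.prod_single_index (pow_zero _)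

theorem mval_sum (y : ι → H) {κ : Type*} (S : Finset κ) (f : κ → (ι →₀ ℕ)) :
    mval y (∑ k ∈ S, f k) = ∏ k ∈ S, mval y (f k) := by
  classical
  induction S using Finset.induction_on with
  | empty => simp [mval_zero]
  | insert a s ha ih => rw [Finset.sum_insert ha, Finset.prod_insert ha, mval_add, ih]

theorem mdeg_add (d : ι → ℕ) (m m' : ι →₀ ℕ) : mdeg d (m + m') = mdeg d m + mdeg d m' :=
  Finsupp.sum_add_index' (fun _ => zero_mul _) (fun _ _ _ => add_mul _ _ _)

theorem mdeg_zero (d : ι → ℕ) : mdeg d (0 : ι →₀ ℕ) = 0 := Finsupp.sum_zero_index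

theorem mdeg_single (d : ι → ℕ) (i : ι) (n : ℕ) : mdeg d (Finsupp.single i n) = n * d i :=
  Finsupp.sum_single_index (zero_mul _)

theorem mdeg_sum (d : ι → ℕ) {κ : Type*} (S : Finset κ) (f : κ → (ι →₀ ℕ)) :
    mdeg d (∑ k ∈ S, f k) = ∑ k ∈ S, mdeg d (f k) := by
  classical
  induction S using Finset.induction_on with
  | empty => simp [mdeg_zero]
  | insert a s ha ih => rw [Finset.sum_insert ha, Finset.sum_insert ha, mdeg_add, ih]

/-- the simple system `y i ^ 2 ^ b` -/
def dbl (y : ι → H) (k : ι × ℕ) : H := y k.1 ^ 2 ^ k.2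

/-- its degrees -/
def dbd (d : ι → ℕ) (k : ι × ℕ) : ℕ := 2 ^ k.2 * d k.1

theorem mval_toM (y : ι → H) (S : Finset (ι × ℕ)) : mval y (toM S) = sval (dbl y) S := by
  rw [toM, mval_sum, sval]
  exact Finset.prod_congr rfl fun k _ => mval_single y k.1 _

theorem mdeg_toM (d : ι → ℕ) (S : Finset (ι × ℕ)) : mdeg d (toM S) = sdeg (dbd d) S := by
  rw [toM, mdeg_sum, sdeg]
  exact Finset.sum_congr rfl fun k _ => mdeg_single d k.1 _

end toM

/-- **monomials in the `y i` are the products of distinct `y i ^ 2 ^ b`** -/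
theorem polyR_iff_simR {ι : Type*} (gr : ℕ → Submodule F2 H) (y : ι → H) (d : ι → ℕ) (N : ℕ) :
    PolyR gr y d N ↔ SimR gr (dbl y) (dbd d) N := by
  constructor
  · intro h
    refine RB.reindex (f := toM) ?_ (fun S _ => mdeg_toM d S) (fun S _ => mval_toM y S) h
    refine ⟨fun S hS => ?_, toM_bijective.1.injOn, fun m hm => ?_⟩
    · simp only [Set.mem_ofPred_eq] at hS ⊢
      rwa [mdeg_toM]
    · obtain ⟨S, rfl⟩ := toM_bijective.2 m
      refine ⟨S, ?_, rfl⟩
      simp only [Set.mem_ofPred_eq] at hm ⊢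
      rwa [← mdeg_toM]
  · intro h
    obtain ⟨g, hg⟩ := Function.bijective_iff_has_inverse.1 (toM_bijective (ι := ι))
    have hdg : ∀ m, sdeg (dbd d) (g m) = mdeg d m := fun m => by rw [← mdeg_toM, hg.2]
    refine RB.reindex (f := g) ?_ (fun m _ => hdg m) (fun m _ => by rw [← mval_toM, hg.2]) h
    refine ⟨fun m hm => ?_, hg.2.injective.injOn, fun S hS => ?_⟩
    · simp only [Set.mem_ofPred_eq] at hm ⊢
      rwa [hdg]
    · refine ⟨toM S, ?_, hg.1 S⟩
      simp only [Set.mem_ofPred_eq] at hS ⊢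
      rwa [mdeg_toM]

/-- reindexing of a simple system along a partial bijection -/
theorem SimR.reindex_iff {gr : ℕ → Submodule F2 H} {κ κ' : Type*} {z : κ → H} {d : κ → ℕ} {z' : κ' → H}
    {d' : κ' → ℕ} {N : ℕ} (f : κ → κ')
    (hf : Set.BijOn f {k | d k ≤ N + 1} {k | d' k ≤ N + 1})
    (hd : ∀ k, d k ≤ N + 1 → d' (f k) = d k) (hz : ∀ k, d k ≤ N + 1 → z' (f k) = z k) :
    SimR gr z d N ↔ SimR gr z' d' N := by
  classical
  have hle : ∀ {S : Finset κ}, sdeg d S ≤ N + 1 → ∀ k ∈ S, d k ≤ N + 1 := fun {S} hS k hk =>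
    (Finset.single_le_sum (f := d) (fun _ _ => Nat.zero_le _) hk).trans hS
  have hle' : ∀ {S : Finset κ'}, sdeg d' S ≤ N + 1 → ∀ k ∈ S, d' k ≤ N + 1 := fun {S} hS k hk =>
    (Finset.single_le_sum (f := d') (fun _ _ => Nat.zero_le _) hk).trans hS
  have hinj : ∀ {S : Finset κ}, sdeg d S ≤ N + 1 → Set.InjOn f (S : Set κ) := fun {S} hS =>
    hf.injOn.mono (fun k hk => hle hS k hk)
  have hdeg : ∀ {S : Finset κ}, sdeg d S ≤ N + 1 → sdeg d' (S.image f) = sdeg d S := fun {S} hS => by
    rw [sdeg, Finset.sum_image (fun a ha b hb => hinj hS ha hb), sdeg]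
    exact Finset.sum_congr rfl fun k hk => hd k (hle hS k hk)
  refine RB.reindex_iff (f := fun S => S.image f) ?_ (fun S hS => hdeg hS) (fun S hS => ?_)
  · refine ⟨fun S hS => ?_, fun S hS T hT hST => ?_, fun S' hS' => ?_⟩
    · simp only [Set.mem_ofPred_eq] at hS ⊢
      rwa [hdeg hS]
    · simp only [Set.mem_ofPred_eq] at hS hT hST
      ext k
      constructor
      · intro hk
        have : f k ∈ T.image f := hST ▸ Finset.mem_image_of_mem f hk
        obtain ⟨l, hl, hlk⟩ := Finset.mem_image.1 this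
        rwa [← hf.injOn (hle hT l hl) (hle hS k hk) hlk]
      · intro hk
        have : f k ∈ S.image f := hST ▸ Finset.mem_image_of_mem f hk
        obtain ⟨l, hl, hlk⟩ := Finset.mem_image.1 this
        rwa [← hf.injOn (hle hS l hl) (hle hT k hk) hlk]
    · simp only [Set.mem_ofPred_eq] at hS'
      have hsub : (S' : Set κ') ⊆ f '' {k | d k ≤ N + 1} := fun k hk => hf.surjOn (hle' hS' k hk)
      obtain ⟨S, hS1, hS2, hS3⟩ : ∃ S : Finset κ, (∀ k ∈ S, d k ≤ N + 1) ∧ S.image f = S' ∧ True := by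
        obtain ⟨S, hS, hS2⟩ := Finset.subset_set_image_iff.1 hsub
        exact ⟨S, fun k hk => hS hk, hS2, trivial⟩
      have hinjS : Set.InjOn f (S : Set κ) := hf.injOn.mono (fun k hk => hS1 k hk)
      refine ⟨S, ?_, hS2⟩
      simp only [Set.mem_ofPred_eq]
      rw [← hS2, sdeg, Finset.sum_image (fun a ha b hb => hinjS ha hb)] at hS'
      rwa [sdeg, ← Finset.sum_congr rfl fun k hk => hd k (hS1 k hk)]
  · rw [sval, Finset.prod_image (fun a ha b hb => hinj hS ha hb), sval]
    exact Finset.prod_congr rfl fun k hk => hz k (hle hS k hk)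

/-- reindexing of polynomial generators along a partial bijection -/
theorem PolyR.reindex_iff {gr : ℕ → Submodule F2 H} {ι ι' : Type*} {y : ι → H} {d : ι → ℕ}
    {y' : ι' → H} {d' : ι' → ℕ} {N : ℕ} (f : ι → ι')
    (hf : Set.BijOn f {k | d k ≤ N + 1} {k | d' k ≤ N + 1})
    (hd : ∀ k, d k ≤ N + 1 → d' (f k) = d k) (hy : ∀ k, d k ≤ N + 1 → y' (f k) = y k) :
    PolyR gr y d N ↔ PolyR gr y' d' N := by
  have hle : ∀ {n b : ℕ}, 2 ^ b * n ≤ N + 1 → n ≤ N + 1 := fun {n b} h =>
    (Nat.le_mul_of_pos_left n (by positivity)).trans h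
  rw [polyR_iff_simR, polyR_iff_simR]
  refine SimR.reindex_iff (fun k => (f k.1, k.2)) ?_ ?_ ?_
  · refine ⟨fun k hk => ?_, fun k hk l hl hkl => ?_, fun k hk => ?_⟩
    · simp only [Set.mem_ofPred_eq, dbd] at hk ⊢
      rwa [hd _ (hle hk)]
    · simp only [Set.mem_ofPred_eq, dbd] at hk hl
      simp only [Prod.mk.injEq] at hkl
      exact Prod.ext (hf.injOn (hle hk) (hle hl) hkl.1) hkl.2
    · simp only [Set.mem_ofPred_eq, dbd] at hk
      obtain ⟨i, hi, hik⟩ := hf.surjOn (show k.1 ∈ {k | d' k ≤ N + 1} from hle hk)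
      refine ⟨(i, k.2), ?_, Prod.ext hik rfl⟩
      simp only [Set.mem_ofPred_eq, dbd] at hi ⊢
      rwa [← hd i hi, hik]
  · intro k hk
    simp only [dbd] at hk ⊢
    rw [hd _ (hle hk)]
  · intro k hk
    simp only [dbd] at hk
    simp only [dbl]
    rw [hy _ (hle hk)]

/-- only the generators of degree `≤ N + 1` matter -/
theorem PolyR.subtype_iff {gr : ℕ → Submodule F2 H} {ι : Type*} {y : ι → H} {d : ι → ℕ} {N : ℕ}
    (p : ι → Prop) (hp : ∀ i, d i ≤ N + 1 → p i) :
    PolyR gr (fun i : {i // p i} => y i) (fun i => d i) N ↔ PolyR gr y d N := by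
  refine PolyR.reindex_iff Subtype.val ?_ (fun _ _ => rfl) (fun _ _ => rfl)
  exact ⟨fun i hi => hi, Subtype.val_injective.injOn, fun i hi => ⟨⟨i, hp i hi⟩, hi, rfl⟩⟩

/-- only the elements of degree `≤ N + 1` matter -/
theorem SimR.subtype_iff {gr : ℕ → Submodule F2 H} {ι : Type*} {y : ι → H} {d : ι → ℕ} {N : ℕ}
    (p : ι → Prop) (hp : ∀ i, d i ≤ N + 1 → p i) :
    SimR gr (fun i : {i // p i} => y i) (fun i => d i) N ↔ SimR gr y d N := by
  refine SimR.reindex_iff Subtype.val ?_ (fun _ _ => rfl) (fun _ _ => rfl)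
  exact ⟨fun i hi => hi, Subtype.val_injective.injOn, fun i hi => ⟨⟨i, hp i hi⟩, hi, rfl⟩⟩

/-! ### the `MvPolynomial` form -/

section mvp

variable {ι : Type*}

theorem repr_apply (p : MvPolynomial ι F2) (m : ι →₀ ℕ) :
    (MvPolynomial.basisMonomials ι F2).repr p m = MvPolynomial.coeff m p := rfl

theorem aeval_eq (y : ι → H) (p : MvPolynomial ι F2) :
    MvPolynomial.aeval y p =
      Finsupp.linearCombination F2 (mval y) ((MvPolynomial.basisMonomials ι F2).repr p) := by
  have key : (MvPolynomial.aeval y).toLinearMap =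
      Finsupp.linearCombination F2 (mval y) ∘ₗ
        (MvPolynomial.basisMonomials ι F2).repr.toLinearMap := by
    refine (MvPolynomial.basisMonomials ι F2).ext fun m => ?_
    rw [LinearMap.comp_apply, LinearEquiv.coe_coe, Module.Basis.repr_self,
      Finsupp.linearCombination_single, one_smul, MvPolynomial.coe_basisMonomials]
    show MvPolynomial.aeval y (MvPolynomial.monomial m 1) = _
    rw [MvPolynomial.aeval_monomial, map_one, one_mul]
    rfl
  exact LinearMap.congr_fun key p

theorem mem_whs_iff (d : ι → ℕ) (t : ℕ) (p : MvPolynomial ι F2) :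
    p ∈ MvPolynomial.weightedHomogeneousSubmodule F2 d t ↔
      (MvPolynomial.basisMonomials ι F2).repr p ∈ Finsupp.supported F2 F2 {m | mdeg d m = t} := by
  rw [MvPolynomial.mem_weightedHomogeneousSubmodule, Finsupp.mem_supported]
  constructor
  · intro h m hm
    rw [Finset.mem_coe, Finsupp.mem_support_iff] at hm
    rw [Set.mem_ofPred_eq, mdeg_eq_weight]
    exact h hm
  · intro h m hm
    have := h (show m ∈ _ from Finsupp.mem_support_iff.2 hm)
    rwa [Set.mem_ofPred_eq, mdeg_eq_weight] at this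

/-- the `MvPolynomial` form of `PolyR` -/
theorem polyR_iff (gr : ℕ → Submodule F2 H) (y : ι → H) (d : ι → ℕ) (N : ℕ) :
    PolyR gr y d N ↔
      (∀ t ≤ N, ∀ p ∈ MvPolynomial.weightedHomogeneousSubmodule F2 d t,
        MvPolynomial.aeval y p = 0 → p = 0) ∧
      (∀ t ≤ N + 1, gr t ≤ (MvPolynomial.weightedHomogeneousSubmodule F2 d t).map
        (MvPolynomial.aeval y : MvPolynomial ι F2 →ₐ[F2] H).toLinearMap) := by
  unfold PolyR RB
  refine and_congr ?_ ?_
  · refine forall₂_congr fun t _ => ?_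
    have : (LinearIndependent F2 fun b : {m : ι →₀ ℕ // mdeg d m = t} => mval y b) ↔
        LinearIndepOn F2 (mval y) {m | mdeg d m = t} := Iff.rfl
    rw [this, linearIndepOn_iff]
    constructor
    · intro h p hp h0
      rw [mem_whs_iff] at hp
      rw [aeval_eq] at h0
      have := h _ hp h0
      rwa [LinearEquiv.map_eq_zero_iff] at this
    · intro h l hl h0
      have := h ((MvPolynomial.basisMonomials ι F2).repr.symm l)
        (by rw [mem_whs_iff, LinearEquiv.apply_symm_apply]; exact hl)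
        (by rw [aeval_eq, LinearEquiv.apply_symm_apply]; exact h0)
      rwa [LinearEquiv.map_eq_zero_iff] at this
  · refine forall₂_congr fun t _ => ?_
    rw [Finsupp.span_image_eq_map_linearCombination]
    have : Submodule.map (Finsupp.linearCombination F2 (mval y))
        (Finsupp.supported F2 F2 {b | mdeg d b = t}) =
        (MvPolynomial.weightedHomogeneousSubmodule F2 d t).map
        (MvPolynomial.aeval y : MvPolynomial ι F2 →ₐ[F2] H).toLinearMap := by
      ext h
      simp only [Submodule.mem_map]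
      constructor
      · rintro ⟨l, hl, rfl⟩
        refine ⟨(MvPolynomial.basisMonomials ι F2).repr.symm l, ?_, ?_⟩
        · rw [mem_whs_iff, LinearEquiv.apply_symm_apply]; exact hl
        · show MvPolynomial.aeval y _ = _
          rw [aeval_eq, LinearEquiv.apply_symm_apply]
      · rintro ⟨p, hp, rfl⟩
        exact ⟨_, (mem_whs_iff d t p).1 hp, (aeval_eq y p).symm⟩
    rw [this]

end mvp

end general

end Crest.Agent.R204.Ind979
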