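import Crest.Agent.R204.Spec_114
import Crest.Agent.R204.Ind_979

/-!
# Row 204, leaf B7: the induction `R(k)` for the tower of `Spec_114`
owner helper979

`LoopStep X k N` : the range loop theorem for `X_k = Ω X_{k+1}` (to be proved by B2/B4).
`factPoly_of_steps` : `FactPoly D` from `LoopStep` for `1 ≤ k ≤ D + 1` and the base case `k = D + 2`.
-/

set_option autoImplicit false

namespace Crest.Agent.R204.Ind979

open Crest.Agent.R204.Spec114 Crest.Agent.R204.Spec114.Tower

/-! ### words -/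

theorem wdeg_cons (k i : ℕ) (L : List ℕ) : wdeg k (i :: L) = 2 * wdeg k L + i := rfl
theorem wdeg_nil (k : ℕ) : wdeg k [] = k := rfl

theorem le_wdeg (k : ℕ) (L : List ℕ) : k ≤ wdeg k L := by
  induction L with
  | nil => exact le_rfl
  | cons i L ih => rw [wdeg_cons]; omega

theorem entry_le_wdeg (k : ℕ) (L : List ℕ) : ∀ i ∈ L, k + i ≤ wdeg k L := by
  induction L with
  | nil => simp
  | cons j L ih =>
    intro i hi
    rw [wdeg_cons]
    have := le_wdeg k L
    rcases List.mem_cons.1 hi with rfl | hi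
    · omega
    · have := ih i hi; omega

theorem wdeg_map_succ (k : ℕ) (L : List ℕ) : wdeg k (L.map (· + 1)) + 1 = wdeg (k + 1) L := by
  induction L with
  | nil => rfl
  | cons i L ih => rw [List.map_cons, wdeg_cons, wdeg_cons, ← ih]; ring

theorem wdeg_replicate (k b : ℕ) (L : List ℕ) :
    wdeg k (List.replicate b 1 ++ L) + 1 = 2 ^ b * (wdeg k L + 1) := by
  induction b with
  | zero => simp
  | succ b ih =>
    have h2 : 2 ^ (b + 1) * (wdeg k L + 1) = 2 * (2 ^ b * (wdeg k L + 1)) := by ring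
    rw [List.replicate_succ, List.cons_append, wdeg_cons, h2, ← ih]; ring

/-- `(J, b) ↦ 1^b, J + 1` -/
def up (p : Wd × ℕ) : Wd :=
  ⟨List.replicate p.2 1 ++ p.1.1.map (· + 1), by
    refine ⟨List.pairwise_append.2 ⟨?_, ?_, ?_⟩, ?_⟩
    · exact List.pairwise_replicate.2 (Or.inr le_rfl)
    · exact List.pairwise_map.2 (p.1.2.1.imp (fun h => by omega))
    · intro a ha c hc
      rw [List.eq_of_mem_replicate ha]
      obtain ⟨j, -, rfl⟩ := List.mem_map.1 hc
      omega
    · intro i hi
      rcases List.mem_append.1 hi with h | h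
      · rw [List.eq_of_mem_replicate h]
      · obtain ⟨j, -, rfl⟩ := List.mem_map.1 h
        omega⟩

theorem up_injective : Function.Injective up := by
  rintro ⟨J, b⟩ ⟨J', b'⟩ h
  have h1 : List.replicate b 1 ++ J.1.map (· + 1) = List.replicate b' 1 ++ J'.1.map (· + 1) :=
    congrArg Subtype.val h
  have hc : ∀ K : Wd, (K.1.map (· + 1)).count 1 = 0 := fun K => by
    rw [List.count_eq_zero]
    intro hK
    obtain ⟨j, hj, hj1⟩ := List.mem_map.1 hK
    have := K.2.2 j hj
    omega
  have hb : b = b' := by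
    have h2 := congrArg (List.count 1) h1
    rwa [List.count_append, List.count_append, hc, hc, List.count_replicate_self,
      List.count_replicate_self] at h2
  subst hb
  have h3 : J.1.map (· + 1) = J'.1.map (· + 1) := List.append_cancel_left h1
  have h4 : J.1 = J'.1 := List.map_injective_iff.2 (fun a b hab => by simpa using hab) h3
  exact Prod.ext (Subtype.ext h4) rfl

theorem up_surjective : Function.Surjective up := by
  rintro ⟨I, hI⟩
  induction I with
  | nil => exact ⟨(⟨[], by simp⟩, 0), rfl⟩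
  | cons i L ih =>
    have hL : L.Pairwise (· ≤ ·) ∧ ∀ j ∈ L, 1 ≤ j :=
      ⟨(List.pairwise_cons.1 hI.1).2, fun j hj => hI.2 j (List.mem_cons_of_mem _ hj)⟩
    obtain ⟨⟨J, b⟩, hJ⟩ := ih hL
    have hJ' : List.replicate b 1 ++ J.1.map (· + 1) = L := congrArg Subtype.val hJ
    have hi1 : 1 ≤ i := hI.2 i List.mem_cons_self
    rcases eq_or_lt_of_le hi1 with h | h
    · refine ⟨(J, b + 1), Subtype.ext ?_⟩
      show List.replicate (b + 1) 1 ++ J.1.map (· + 1) = i :: L
      rw [List.replicate_succ, List.cons_append, hJ', ← h]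
    · have hb : b = 0 := by
        by_contra hb
        obtain ⟨c, rfl⟩ := Nat.exists_eq_succ_of_ne_zero hb
        have h1 : 1 ∈ L := by rw [← hJ', List.replicate_succ]; simp
        have := (List.pairwise_cons.1 hI.1).1 1 h1
        omega
      subst hb
      rw [List.replicate_zero, List.nil_append] at hJ'
      refine ⟨(⟨(i - 1) :: J.1, ?_, ?_⟩, 0), Subtype.ext ?_⟩
      · refine List.pairwise_cons.2 ⟨fun j hj => ?_, J.2.1⟩
        have := (List.pairwise_cons.1 hI.1).1 (j + 1) (by rw [← hJ']; exact List.mem_map_of_mem hj)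
        omega
      · intro j hj
        rcases List.mem_cons.1 hj with rfl | hj
        · omega
        · exact J.2.2 j hj
      · show List.replicate 0 1 ++ List.map (· + 1) ((i - 1) :: J.1) = i :: L
        rw [List.replicate_zero, List.nil_append, List.map_cons, hJ', Nat.sub_add_cancel hi1]

theorem wdeg_up (k : ℕ) (p : Wd × ℕ) : wdeg k (up p).1 + 1 = 2 ^ p.2 * wdeg (k + 1) p.1.1 := by
  show wdeg k (List.replicate p.2 1 ++ p.1.1.map (· + 1)) + 1 = _
  rw [wdeg_replicate, wdeg_map_succ]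

variable (X : Tower)

theorem word_cons (k i : ℕ) (L : List ℕ) : X.word k (i :: L) = X.Q k i (X.word k L) := rfl
theorem word_nil (k : ℕ) : X.word k [] = X.x k := rfl

variable {X}

theorem word_mem {D k : ℕ} (hQ : X.FactQ D) (hx : X.FactX D) (hk : k ≤ D + 2) (L : List ℕ)
    (hL : ∀ i ∈ L, i ≤ D + 1) : X.word k L ∈ X.gr k (wdeg k L) := by
  induction L with
  | nil => exact (hx.1 k hk).1
  | cons i L ih =>
    rw [word_cons, wdeg_cons]
    exact (hQ k hk).2.2 i (hL i List.mem_cons_self) _ _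
      (ih fun j hj => hL j (List.mem_cons_of_mem _ hj))

theorem sigma_word_map_succ {D k : ℕ} (hσ : X.FactSigma D) (hk : k ≤ D + 1) (L : List ℕ)
    (hL : ∀ i ∈ L, i + 1 ≤ D + 1) : X.σ k (X.word k (L.map (· + 1))) = X.word (k + 1) L := by
  induction L with
  | nil => exact (hσ k hk).2.2.2.2.2.2
  | cons i L ih =>
    rw [List.map_cons, word_cons, word_cons,
      (hσ k hk).2.2.2.2.2.1 i (hL i List.mem_cons_self), ih fun j hj => hL j (List.mem_cons_of_mem _ hj)]

theorem sigma_word_replicate {D k : ℕ} (hQ : X.FactQ D) (hσ : X.FactSigma D) (hk : k ≤ D + 1) (b : ℕ)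
    (L : List ℕ) : X.σ k (X.word k (List.replicate b 1 ++ L)) = X.σ k (X.word k L) ^ 2 ^ b := by
  induction b with
  | zero => simp
  | succ b ih =>
    rw [List.replicate_succ, List.cons_append, word_cons,
      (hσ k hk).2.2.2.2.2.1 0 (by omega), (hQ (k + 1) (by omega)).1, ih, pow_succ, pow_mul]
    ring

theorem sigma_word_up {D k : ℕ} (hQ : X.FactQ D) (hσ : X.FactSigma D) (hk : k ≤ D + 1) (p : Wd × ℕ)
    (hp : ∀ i ∈ (up p).1, i ≤ D + 1) :
    X.σ k (X.word k (up p).1) = dbl (fun I : Wd => X.word (k + 1) I.1) p := by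
  show X.σ k (X.word k (List.replicate p.2 1 ++ p.1.1.map (· + 1))) = X.word (k + 1) p.1.1 ^ 2 ^ p.2
  rw [sigma_word_replicate hQ hσ hk, sigma_word_map_succ hσ hk]
  intro i hi
  exact hp _ (List.mem_append_right _ (List.mem_map_of_mem hi))

/-- the suspended words of `X_k` are the simple system of 2-powers of the words of `X_{k+1}` -/
theorem simR_sigma_iff {D k : ℕ} (hQ : X.FactQ D) (hσ : X.FactSigma D) (hk : k ≤ D + 1) :
    PolyR (X.gr (k + 1)) (fun I : Wd => X.word (k + 1) I.1) (fun I : Wd => wdeg (k + 1) I.1)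
      (k + 1 + D) ↔
    SimR (X.gr (k + 1)) (fun I : Wd => X.σ k (X.word k I.1)) (fun I : Wd => wdeg k I.1 + 1)
      (k + 1 + D) := by
  rw [polyR_iff_simR]
  refine SimR.reindex_iff up ?_ (fun p _ => wdeg_up k p) (fun p hp => ?_)
  · refine ⟨fun p hp => ?_, up_injective.injOn, fun I hI => ?_⟩
    · simp only [Set.mem_ofPred_eq, dbd] at hp ⊢
      rwa [wdeg_up]
    · obtain ⟨p, rfl⟩ := up_surjective I
      refine ⟨p, ?_, rfl⟩
      simp only [Set.mem_ofPred_eq, dbd] at hI ⊢
      rwa [wdeg_up] at hI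
  · refine sigma_word_up hQ hσ hk p fun i hi => ?_
    have h1 := entry_le_wdeg k _ i hi
    have h2 := wdeg_up k p
    simp only [dbd] at hp
    omega

/-- **the range loop theorem** for `X_k = Ω X_{k+1}` -/
def LoopStep (X : Tower) (k N : ℕ) : Prop :=
  ∀ (J : Type) (v : J → X.H k) (e : J → ℕ), (∀ j, 1 ≤ e j) → (∀ j, v j ∈ X.gr k (e j)) →
    SimR (X.gr (k + 1)) (fun j => X.σ k (v j)) (fun j => e j + 1) (N + 1) → PolyR (X.gr k) v e N

theorem polyR_step {D k : ℕ} (hQ : X.FactQ D) (hσ : X.FactSigma D) (hx : X.FactX D) (hk : k ≤ D + 1)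
    (hk1 : 1 ≤ k) (hstep : LoopStep X k (k + D))
    (h : PolyR (X.gr (k + 1)) (fun I : Wd => X.word (k + 1) I.1) (fun I : Wd => wdeg (k + 1) I.1)
      (k + 1 + D)) :
    PolyR (X.gr k) (fun I : Wd => X.word k I.1) (fun I : Wd => wdeg k I.1) (k + D) := by
  rw [simR_sigma_iff hQ hσ hk] at h
  rw [← PolyR.subtype_iff (fun I : Wd => wdeg k I.1 ≤ k + D + 1) (fun I hI => hI)]
  refine hstep _ _ _ (fun j => ?_) (fun j => ?_) ?_
  · have := le_wdeg k j.1.1
    omega
  · refine word_mem hQ hx (by omega) _ fun i hi => ?_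
    have h1 := entry_le_wdeg k _ i hi
    have h2 := j.2
    omega
  · have h3 : k + 1 + D = k + D + 1 := by omega
    rw [h3] at h
    exact (SimR.subtype_iff (fun I : Wd => wdeg k I.1 ≤ k + D + 1) (fun I hI => by
      simpa using hI)).2 h

/-! ### base case -/

/-- polynomial generators reduce to one element -/
theorem polyR_unique {H : Type*} [CommRing H] [Algebra F2 H] {gr : ℕ → Submodule F2 H} {ι : Type*}
    (i₀ : ι) (y : ι → H) (d : ι → ℕ) (N : ℕ) (hu : ∀ i, i = i₀) :
    PolyR gr y d N ↔ RB gr (fun n : ℕ => y i₀ ^ n) (fun n => n * d i₀) N := by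
  have hm : ∀ m : ι →₀ ℕ, m = Finsupp.single i₀ (m i₀) := fun m => by
    ext i; rw [hu i, Finsupp.single_eq_same]
  refine RB.reindex_iff (fun m : ι →₀ ℕ => m i₀) ?_ ?_ ?_
  · refine ⟨fun m hm' => ?_, fun m _ m' _ h => ?_, fun n hn => ?_⟩
    · simp only [Set.mem_ofPred_eq] at hm' ⊢
      rw [hm m, mdeg_single] at hm'
      exact hm'
    · rw [hm m, hm m']; exact congrArg _ h
    · refine ⟨Finsupp.single i₀ n, ?_, Finsupp.single_eq_same⟩
      simp only [Set.mem_ofPred_eq] at hn ⊢
      rwa [mdeg_single]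
  · intro m _
    conv_rhs => rw [hm m, mdeg_single]
  · intro m _
    conv_rhs => rw [hm m, mval_single]

/-- base case `k = D + 2`: only `1` and `x_k` -/
theorem polyR_base {D k : ℕ} (hk : D + 2 ≤ k) (h1 : (1 : X.H k) ≠ 0)
    (h0 : X.gr k 0 ≤ Submodule.span F2 {1}) (hxk : X.x k ≠ 0)
    (hgk : X.gr k k ≤ Submodule.span F2 {X.x k})
    (hg : ∀ t ≤ k + D + 1, t ≠ 0 → t ≠ k → X.gr k t = ⊥) :
    PolyR (X.gr k) (fun I : Wd => X.word k I.1) (fun I : Wd => wdeg k I.1) (k + D) := by
  rw [← PolyR.subtype_iff (fun I : Wd => I.1 = []) (fun I hI => ?_)]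
  · rw [polyR_unique (⟨⟨[], by simp⟩, rfl⟩ : {I : Wd // I.1 = []}) _ _ _
      (fun i => Subtype.ext (Subtype.ext i.2))]
    show RB (X.gr k) (fun n : ℕ => X.word k [] ^ n) (fun n => n * wdeg k []) (k + D)
    rw [word_nil, wdeg_nil]
    have hn : ∀ n : ℕ, n * k ≤ k + D + 1 → n = 0 ∨ n = 1 := by
      intro n hn
      by_contra hc
      have : 2 ≤ n := by omega
      have := Nat.mul_le_mul_right k this
      omega
    refine ⟨fun t ht => ?_, fun t ht => ?_⟩
    · have hss : Subsingleton {n : ℕ // n * k = t} := ⟨fun a b => by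
        have h2 : a.1 * k = b.1 * k := a.2.trans b.2.symm
        exact Subtype.ext (Nat.eq_of_mul_eq_mul_right (by omega) h2)⟩
      rw [linearIndependent_subsingleton_index_iff]
      rintro ⟨n, hnt⟩
      have hnt' : n * k = t := hnt
      rcases hn n (by omega) with rfl | rfl
      · simpa using h1
      · simpa using hxk
    · by_cases ht0 : t = 0
      · subst ht0
        refine h0.trans (Submodule.span_mono ?_)
        rintro _ rfl
        exact ⟨0, by simp, by simp⟩
      · by_cases htk : t = k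
        · subst htk
          refine hgk.trans (Submodule.span_mono ?_)
          rintro _ rfl
          exact ⟨1, by simp, by simp⟩
        · rw [hg t (by omega) ht0 htk]
          exact bot_le
  · rcases hL : I.1 with _ | ⟨i, L⟩
    · rfl
    · exfalso
      rw [hL, wdeg_cons] at hI
      have := le_wdeg k L
      have := I.2.2 i (by rw [hL]; exact List.mem_cons_self)
      omega

theorem factPoly_iff (D : ℕ) : X.FactPoly D ↔ ∀ k, 1 ≤ k → k ≤ D + 2 →
    PolyR (X.gr k) (fun I : Wd => X.word k I.1) (fun I : Wd => wdeg k I.1) (k + D) := by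
  unfold FactPoly
  refine forall₃_congr fun k _ _ => ?_
  rw [polyR_iff]

/-- **induction**: `FactPoly` from the range loop theorem and the base case -/
theorem factPoly_of_steps {D : ℕ} (hQ : X.FactQ D) (hσ : X.FactSigma D) (hx : X.FactX D)
    (hstep : ∀ k, 1 ≤ k → k ≤ D + 1 → LoopStep X k (k + D))
    (h1 : (1 : X.H (D + 2)) ≠ 0)
    (h0 : X.gr (D + 2) 0 ≤ Submodule.span F2 {1}) (hxk : X.x (D + 2) ≠ 0)
    (hgk : X.gr (D + 2) (D + 2) ≤ Submodule.span F2 {X.x (D + 2)})
    (hg : ∀ t ≤ 2 * D + 3, t ≠ 0 → t ≠ D + 2 → X.gr (D + 2) t = ⊥) : X.FactPoly D := by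
  rw [factPoly_iff]
  have key : ∀ j k, 1 ≤ k → k + j = D + 2 →
      PolyR (X.gr k) (fun I : Wd => X.word k I.1) (fun I : Wd => wdeg k I.1) (k + D) := by
    intro j
    induction j with
    | zero =>
      intro k _ hk
      obtain rfl : k = D + 2 := by omega
      exact polyR_base le_rfl h1 h0 hxk hgk (fun t ht => hg t (by omega))
    | succ j ih =>
      intro k hk1 hk
      exact polyR_step hQ hσ hx (by omega) hk1 (hstep k hk1 (by omega)) (ih (k + 1) (by omega) (by omega))
  intro k hk1 hk2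
  exact key (D + 2 - k) k hk1 (by omega)

end Crest.Agent.R204.Ind979
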