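import Crest.Agent.R204.Hsp2_696
import Crest.Agent.R204.C2_735

/-!
# Row 204, block C (helper696): `Ω^(n+1) Z` as the loop space of `Ω^n Z`

`loopLast : Ω^(Fin (n+1)) Z ≃ₜ Path const const` (the last coordinate is the looping coordinate,
compatible with `Cubes735.ev`).
-/

set_option autoImplicit false
set_option linter.unusedSectionVars false

open scoped Topology unitInterval Topology.Homotopy
open Set

noncomputable section

namespace Crest.Agent.R204.Hsp696

open Cubes735 BoxConf

variable {F J Z : Type*} [TopologicalSpace Z] {z₀ : Z}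

/-- The base point of `Ω^n Z`. -/
abbrev cst {n : ℕ} : Ω^ (Fin n) Z z₀ := GenLoop.const

/-- a generalized loop as a path of generalized loops -/
def toPath {n : ℕ} (x : Ω^ (Fin (n + 1)) Z z₀) :
    Path (cst : Ω^ (Fin n) Z z₀) (cst : Ω^ (Fin n) Z z₀) where
  toFun s := ev s x
  continuous_toFun := continuous_ev continuous_id continuous_const
  source' := ev_zero x
  target' := ev_one x

@[simp] theorem toPath_apply {n : ℕ} (x : Ω^ (Fin (n + 1)) Z z₀) (s : I) : toPath x s = ev s x := rfl

theorem snoc_init_last {n : ℕ} (t : Fin (n + 1) → I) :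
    Fin.snoc (α := fun _ => I) (fun i : Fin n => t i.castSucc) (t (Fin.last n)) = t := by
  funext j
  refine Fin.lastCases ?_ (fun i => ?_) j
  · rw [Fin.snoc_last]
  · rw [Fin.snoc_castSucc]

/-- a path of generalized loops as a generalized loop -/
def ofPath {n : ℕ} (p : Path (cst : Ω^ (Fin n) Z z₀) (cst : Ω^ (Fin n) Z z₀)) :
    Ω^ (Fin (n + 1)) Z z₀ :=
  ⟨⟨fun t => p (t (Fin.last n)) (fun i : Fin n => t i.castSucc), by
      refine Continuous.eval ?_ ?_
      · exact p.continuous.comp (continuous_apply _)
      · exact continuous_pi fun i => continuous_apply _⟩, by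
    rintro t ⟨j, hj⟩
    show p (t (Fin.last n)) (fun i : Fin n => t i.castSucc) = z₀
    refine Fin.lastCases (motive := fun j => (t j = 0 ∨ t j = 1) → _) ?_ (fun i => ?_) j hj
    · rintro (h | h)
      · rw [h, p.source]; rfl
      · rw [h, p.target]; rfl
    · intro h
      exact GenLoop.boundary _ _ ⟨i, h⟩⟩

theorem ofPath_apply {n : ℕ} (p : Path (cst : Ω^ (Fin n) Z z₀) (cst : Ω^ (Fin n) Z z₀))
    (t : Fin (n + 1) → I) : ofPath p t = p (t (Fin.last n)) (fun i : Fin n => t i.castSucc) := rfl

@[simp] theorem ev_ofPath {n : ℕ} (p : Path (cst : Ω^ (Fin n) Z z₀) (cst : Ω^ (Fin n) Z z₀))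
    (s : I) : ev s (ofPath p) = p s := by
  ext t
  rw [ev_apply, ofPath_apply, Fin.snoc_last]
  congr 1
  funext i
  rw [Fin.snoc_castSucc]

@[simp] theorem ofPath_toPath {n : ℕ} (x : Ω^ (Fin (n + 1)) Z z₀) : ofPath (toPath x) = x := by
  ext t
  rw [ofPath_apply, toPath_apply, ev_apply, snoc_init_last]

@[simp] theorem toPath_ofPath {n : ℕ} (p : Path (cst : Ω^ (Fin n) Z z₀) (cst : Ω^ (Fin n) Z z₀)) :
    toPath (ofPath p) = p := by
  apply Path.ext
  funext s
  rw [toPath_apply, ev_ofPath]

theorem continuous_toPath {n : ℕ} :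
    Continuous (toPath : Ω^ (Fin (n + 1)) Z z₀ → Path (cst : Ω^ (Fin n) Z z₀) cst) := by
  rw [← Path.continuous_uncurry_iff]
  exact continuous_ev continuous_snd continuous_fst

theorem continuous_ofPath {n : ℕ} :
    Continuous (ofPath : Path (cst : Ω^ (Fin n) Z z₀) cst → Ω^ (Fin (n + 1)) Z z₀) := by
  rw [continuous_genLoop_iff]
  simp only [ofPath_apply]
  refine Continuous.eval ?_ ?_
  · exact Continuous.eval continuous_fst ((continuous_apply _).comp continuous_snd)
  · exact continuous_pi fun i => (continuous_apply _).comp continuous_snd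

/-- **`Ω^(n+1) Z ≃ₜ Ω (Ω^n Z)`**, the last coordinate being the loop coordinate. -/
def loopLast (n : ℕ) : Ω^ (Fin (n + 1)) Z z₀ ≃ₜ Path (cst : Ω^ (Fin n) Z z₀) cst where
  toFun := toPath
  invFun := ofPath
  left_inv := ofPath_toPath
  right_inv := toPath_ofPath
  continuous_toFun := continuous_toPath
  continuous_invFun := continuous_ofPath

@[simp] theorem loopLast_apply (n : ℕ) (x : Ω^ (Fin (n + 1)) Z z₀) (s : I) :
    loopLast n x s = ev s x := rfl

@[simp] theorem loopLast_symm_apply (n : ℕ)
    (p : Path (cst : Ω^ (Fin n) Z z₀) (cst : Ω^ (Fin n) Z z₀)) :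
    (loopLast n).symm p = ofPath p := rfl

@[simp] theorem loopLast_const (n : ℕ) :
    loopLast n (GenLoop.const : Ω^ (Fin (n + 1)) Z z₀) = Path.refl _ := rfl

/-- a generalized loop is determined by its evaluations -/
theorem ext_ev {n : ℕ} {x y : Ω^ (Fin (n + 1)) Z z₀} (h : ∀ s, ev s x = ev s y) : x = y :=
  (loopLast n).injective (Path.ext (funext fun s => h s))

/-- a map into `Ω^(n+1) Z` is continuous iff it is after evaluation -/
theorem continuous_iff_ev {P : Type*} [TopologicalSpace P] {n : ℕ} {f : P → Ω^ (Fin (n + 1)) Z z₀} :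
    Continuous f ↔ Continuous fun p : P × I => ev p.2 (f p.1) := by
  constructor
  · intro h
    exact continuous_ev continuous_snd (h.comp continuous_fst)
  · intro h
    rw [continuous_genLoop_iff]
    have e : (fun p : P × (Fin (n + 1) → I) => f p.1 p.2) =
        fun p => ev (p.2 (Fin.last n)) (f p.1) (fun i : Fin n => p.2 i.castSucc) := by
      funext p
      rw [ev_apply, snoc_init_last]
    rw [e]
    refine Continuous.eval ?_ ?_
    · exact h.comp (f := fun p : P × (Fin (n + 1) → I) => (p.1, p.2 (Fin.last n)))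
        (continuous_fst.prodMk ((continuous_apply (Fin.last n)).comp continuous_snd))
    · exact continuous_pi fun i => (continuous_apply _).comp continuous_snd

/-- **concatenation in the last coordinate is concatenation of paths** -/
theorem loopLast_transAt {n : ℕ} (x y : Ω^ (Fin (n + 1)) Z z₀) :
    loopLast n (GenLoop.transAt (Fin.last n) x y) = (loopLast n x).trans (loopLast n y) := by
  have hinit : ∀ (z : Ω^ (Fin (n + 1)) Z z₀) (t : Fin n → I) (s s' : I),
      z (Function.update (Fin.snoc (α := fun _ => I) t s) (Fin.last n) s') = ev s' z t := by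
    intro z t s s'
    rw [ev_apply]
    congr 1
    funext j
    refine Fin.lastCases ?_ (fun i => ?_) j
    · rw [Function.update_self, Fin.snoc_last]
    · rw [Function.update_of_ne (Fin.castSucc_lt_last i).ne, Fin.snoc_castSucc, Fin.snoc_castSucc]
  ext s t
  rw [loopLast_apply, ev_apply]
  unfold GenLoop.transAt
  rw [GenLoop.coe_copy]
  rw [Path.trans_apply]
  simp only [Fin.snoc_last]
  by_cases h : ((s : I) : ℝ) ≤ 1 / 2
  · simp only [h, if_true, dif_pos]
    rw [hinit, loopLast_apply]
    congr 2
    exact (Set.projIcc_of_mem zero_le_one _)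
  · simp only [h, if_false, dif_neg, not_false_eq_true]
    rw [hinit, loopLast_apply]
    congr 2
    exact (Set.projIcc_of_mem zero_le_one _)

/-- reversal -/
theorem loopLast_symmAt {n : ℕ} (x : Ω^ (Fin (n + 1)) Z z₀) :
    loopLast n (GenLoop.symmAt (Fin.last n) x) = (loopLast n x).symm := by
  ext s t
  rw [loopLast_apply, ev_apply, Path.symm_apply, Function.comp_apply, loopLast_apply, ev_apply]
  unfold GenLoop.symmAt
  rw [GenLoop.coe_copy]
  congr 1
  funext j
  refine Fin.lastCases ?_ (fun i => ?_) j
  · simp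
  · rw [if_neg (Fin.castSucc_lt_last i).ne, Fin.snoc_castSucc, Fin.snoc_castSucc]

/-- configurations of `Ω^n` acting on `Ω^(n+1)` -/
abbrev ext1 {n : ℕ} (c : BoxConf F (Fin n)) : BoxConf F (Fin (n + 1)) := c.extend Fin.castSuccEmb

/-- **the little cube operations of the first `n` coordinates are pointwise operations** -/
theorem ev_mu_ext1 [Finite F] {n : ℕ} (c : BoxConf F (Fin n)) (s : I)
    (x : F → Ω^ (Fin (n + 1)) Z z₀) : ev s (mu (ext1 c) x) = mu c (fun v => ev s (x v)) := by
  have h := ev_mu (Function.Embedding.refl (Fin n)) c s x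
  have e1 : (Function.Embedding.refl (Fin n)).trans Fin.castSuccEmb = Fin.castSuccEmb := rfl
  have e2 : c.extend (Function.Embedding.refl (Fin n)) = c := by
    ext v j
    · exact BoxConf.extend_a_emb c (Function.Embedding.refl (Fin n)) v j
    · exact BoxConf.extend_r_emb c (Function.Embedding.refl (Fin n)) v j
  rw [e1, e2] at h
  exact h

theorem extend_refl (c : BoxConf F J) : c.extend (Function.Embedding.refl J) = c := by
  ext v j
  · exact BoxConf.extend_a_emb c (Function.Embedding.refl J) v j
  · exact BoxConf.extend_r_emb c (Function.Embedding.refl J) v j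

/-- **interchange law**: the operation of a configuration in the first `n` coordinates commutes
strictly with concatenation in the last coordinate. -/
theorem mu_ext1_transAt [Finite F] {n : ℕ} (c : BoxConf F (Fin n))
    (x y : F → Ω^ (Fin (n + 1)) Z z₀) :
    mu (ext1 c) (fun v => GenLoop.transAt (Fin.last n) (x v) (y v)) =
      GenLoop.transAt (Fin.last n) (mu (ext1 c) x) (mu (ext1 c) y) := by
  apply (loopLast n).injective
  apply Path.ext
  funext s
  rw [loopLast_apply, ev_mu_ext1, loopLast_transAt, Path.trans_apply]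
  have h : ∀ v, ev s (GenLoop.transAt (Fin.last n) (x v) (y v)) =
      (loopLast n (x v)).trans (loopLast n (y v)) s := by
    intro v
    rw [← loopLast_transAt]; rfl
  simp only [h, Path.trans_apply]
  by_cases hs : ((s : I) : ℝ) ≤ 1 / 2
  · simp only [hs, dif_pos, loopLast_apply]
    rw [ev_mu_ext1]
  · simp only [hs, dif_neg, not_false_eq_true, loopLast_apply]
    rw [ev_mu_ext1]

/-- the operations of configurations with at least two coordinates, of the same arity, are all
homotopic; in particular: concatenation in the last coordinate is homotopic to any pointwise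
product (Eckmann-Hilton). -/
theorem eckmann_hilton {n : ℕ} (c : BoxConf (Fin 2) (Fin (n + 1))) :
    (mu2 (ext1 c) : C((Ω^ (Fin (n + 2)) Z z₀) × (Ω^ (Fin (n + 2)) Z z₀), Ω^ (Fin (n + 2)) Z z₀)
      ).HomotopicRel (mu2 (halves (Fin.last (n + 1)))) {bp2} :=
  mu2_homotopicRel (joined _ _)

end Crest.Agent.R204.Hsp696
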