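import Crest.Agent.R204.Deg_808
import Crest.Agent.R204.Cov_892
import Crest.Agent.R204.Hsp3_696

/-!
# Row 204, B5 (helper808): `π_1(Ω^m Z)` and `π_{m+1}(Z)`; `π_1(X_1)` is generated by the class of the
last-coordinate path of the degree one loop; `X_k` is path connected for `k ≥ 1`
-/

set_option autoImplicit false
set_option linter.unusedVariables false

noncomputable section

namespace Crest.Agent.R204.Pi808

open scoped Topology unitInterval Topology.Homotopy
open Crest.Agent.R204 Crest.Agent.R204.Freu297 Crest.Agent.R204.HDeg160 Crest.Agent.R204.Inst194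
open Crest.Agent.R204.Hsp696 Crest.Agent.R204.Cubes735

variable {Z : Type} [TopologicalSpace Z] {z₀ : Z}

/-- homotopic generalized loops give homotopic paths -/
theorem toPath_homotopic {m : ℕ} {f g : Ω^ (Fin (m + 1)) Z z₀} (h : GenLoop.Homotopic f g) :
    (toPath f).Homotopic (toPath g) := by
  obtain ⟨H⟩ := h
  let G : C(I, Ω^ (Fin (m + 1)) Z z₀) :=
    ⟨fun s => ⟨⟨fun t => H (s, t), H.continuous.comp (by fun_prop)⟩, fun t ht => by
      show H (s, t) = z₀
      rw [H.eq_fst s ht]; exact f.2 t ht⟩,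
      Continuous.subtype_mk (H.toContinuousMap.curry.continuous) _⟩
  have hG : ∀ s t, G s t = H (s, t) := fun _ _ => rfl
  refine ⟨⟨⟨⟨fun p => ev p.2 (G p.1), ?_⟩, ?_, ?_⟩, ?_⟩⟩
  · exact continuous_ev continuous_snd (G.continuous.comp continuous_fst)
  · intro t
    show ev t (G 0) = ev t f
    congr 1
    ext x
    rw [hG, H.apply_zero]; rfl
  · intro t
    show ev t (G 1) = ev t g
    congr 1
    ext x
    rw [hG, H.apply_one]; rfl
  · intro s t ht
    show ev t (G s) = ev t f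
    rcases ht with ht | ht
    · rw [ht, ev_zero, ev_zero]
    · rw [Set.mem_singleton_iff.1 ht, ev_one, ev_one]

/-- `π_{m+1}(Z) → π_1(Ω^m Z)` -/
def toPi (m : ℕ) : HomotopyGroup (Fin (m + 1)) Z z₀ →*
    FundamentalGroup (Ω^ (Fin m) Z z₀) GenLoop.const :=
  MonoidHom.mk' (fun a => Quotient.lift (s := GenLoop.Homotopic.setoid (Fin (m + 1)) z₀)
      (fun f => Cov892.lc (toPath f)) (fun f g h => Quotient.sound (toPath_homotopic h)) a) (by
      intro a b
      obtain ⟨a, rfl⟩ := cls_surj a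
      obtain ⟨b, rfl⟩ := cls_surj b
      rw [cls_mul (Fin.last m)]
      show Cov892.lc (loopLast m (GenLoop.transAt (Fin.last m) b a)) =
        Cov892.lc (toPath a) * Cov892.lc (toPath b)
      rw [loopLast_transAt, FundamentalGroup.mul_def]
      rfl)

@[simp] theorem toPi_cls {m : ℕ} (f : Ω^ (Fin (m + 1)) Z z₀) :
    toPi m (cls f) = Cov892.lc (toPath f) := rfl

theorem toPi_surjective (m : ℕ) :
    Function.Surjective (toPi m : HomotopyGroup (Fin (m + 1)) Z z₀ → _) := by
  intro a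
  obtain ⟨L, rfl⟩ := Cov892.lc_surjective a
  refine ⟨cls (ofPath L), ?_⟩
  rw [toPi_cls, toPath_ofPath]

/-- **generation of `π_1(Ω^m Z)`** -/
theorem hgen_of_cls {m : ℕ} (c : Ω^ (Fin (m + 1)) Z z₀)
    (h : ∀ g : Ω^ (Fin (m + 1)) Z z₀, ∃ D : ℤ, cls g = cls c ^ D)
    (a : FundamentalGroup (Ω^ (Fin m) Z z₀) GenLoop.const) :
    ∃ k : ℤ, a = Cov892.lc (toPath c) ^ k := by
  obtain ⟨b, rfl⟩ := toPi_surjective m a
  obtain ⟨g, rfl⟩ := cls_surj b
  obtain ⟨D, hD⟩ := h g
  exact ⟨D, by rw [hD, map_zpow, toPi_cls]⟩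

/-! ## the tower `XT` -/

/-- the last-coordinate path in `X_1` of the degree one loop -/
def iotaP (J0 K : ℕ) (h : 0 < K) :
    Path (GenLoop.const : XT J0 K 1) (GenLoop.const : XT J0 K 1) :=
  toPath (castL (cd_succ h) (iotaL (J0 + K)))

/-- generation of `π_n(S^n)` in the form needed for the tower -/
theorem gen_castL {n a : ℕ} (hn : n = a + 1) (g : Ω^ (Fin (a + 1)) (Sph n) (pt n)) :
    ∃ D : ℤ, cls g = cls (castL hn (iotaL n)) ^ D := by
  subst hn
  exact Deg808.gen a g

/-- **`π_1(X_1)` is generated by the class of `iotaP`** -/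
theorem hgen_XT {J0 K : ℕ} (h : 0 < K)
    (a : FundamentalGroup (XT J0 K 1) (GenLoop.const : XT J0 K 1)) :
    ∃ k : ℤ, a = Cov892.lc (iotaP J0 K h) ^ k := by
  refine hgen_of_cls _ (fun g => ?_) a
  exact gen_castL (cd_succ h) g

/-! ## path connectedness -/

theorem pc_Sph (m : ℕ) (hm : 1 ≤ m) (x y : Sph m) : Joined x y := by
  have h1 : 1 < Module.rank ℝ (EuclideanSpace ℝ (Fin (m + 1))) := by
    rw [rank_eq_card_basis (EuclideanSpace.basisFun (Fin (m + 1)) ℝ).toBasis]
    have : 1 < Fintype.card (Fin (m + 1)) := by simp; omega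
    exact_mod_cast this
  have h2 : IsPathConnected (Metric.sphere (0 : EuclideanSpace ℝ (Fin (m + 1))) 1) :=
    isPathConnected_sphere h1 0 zero_le_one
  have := isPathConnected_iff_pathConnectedSpace.1 h2
  exact PathConnectedSpace.joined x y

theorem joined_const {m : ℕ} (hm : 1 ≤ m) (J : ℕ) (g : Ω^ (Fin J) (Sph (m + J)) (pt (m + J))) :
    Joined g GenLoop.const := by
  obtain ⟨f, -, ⟨H⟩⟩ := freudenthal (q := 0) (m := m) (by omega) J (ContinuousMap.const _ g)
    (by rintro x ⟨i, _⟩; exact i.elim0)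
  let x0 : Fin 0 → I := fun i => i.elim0
  have h1 : Joined g (EJ m J (f x0)) := by
    refine ⟨⟨⟨fun s => H (s, x0), H.continuous.comp (by fun_prop)⟩, ?_, ?_⟩⟩
    · show H (0, x0) = g
      rw [H.apply_zero]; rfl
    · show H (1, x0) = _
      rw [H.apply_one]; rfl
  have h2 : Joined (EJ m J (f x0)) (EJ m J (pt m)) :=
    (pc_Sph m hm (f x0) (pt m)).map (EJ m J).continuous
  rw [EJ_pt] at h2
  exact h1.trans h2

/-- `Ω^j S^n` is path connected for `j < n` -/
theorem pathConnected_Om {j n : ℕ} (h : j < n) : PathConnectedSpace (Ω^ (Fin j) (Sph n) (pt n)) := by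
  obtain ⟨m, rfl⟩ : ∃ m, n = m + j := ⟨n - j, by omega⟩
  refine ⟨⟨GenLoop.const⟩, fun x y => ?_⟩
  exact (joined_const (by omega) j x).trans (joined_const (by omega) j y).symm

theorem pathConnected_XT {J0 K k : ℕ} (hK : 1 ≤ K) (hk : 1 ≤ k) : PathConnectedSpace (XT J0 K k) :=
  pathConnected_Om (by simp only [cd]; omega)

end Crest.Agent.R204.Pi808
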