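import Crest.Agent.R204.LoopId2_872
import Crest.Agent.R204.PiC_808

/-!
# Row 204, block B (helper872): `Ω^j S^n` is simply connected for `j + 1 < n`
-/

set_option autoImplicit false

noncomputable section

open Set unitInterval Topology

namespace Crest.Agent.R204.ConnS872

open Crest.Agent.R204 Crest.Agent.R204.SS Crest.Agent.R204.Cov892 Crest.Agent.R204.Bis343
  Crest.Agent.R204.SingAct265 Crest.Agent.R204.Bar170 Crest.Agent.R204.Cubes735
  Crest.Agent.R204.PF872 Crest.Agent.R204.Freu297 Crest.Agent.R204.Inst194
open Crest.Agent.R204.HspSS696 (Om)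

variable {Z : Type} [TopologicalSpace Z] {z₀ : Z} {n : ℕ}

/-- loops at the base point of `Ω^n Z` are null homotopic if `Ω^(n+1) Z` is path connected -/
theorem loop_null (h : ∀ x : Om (Fin (n + 1)) Z z₀, Joined x GenLoop.const)
    (L : Path (bo Z z₀ n) (bo Z z₀ n)) : L.Homotopic (Path.refl _) := by
  have h1 := (joined_iff (loopH.symm (pathLB _ L))).1 (h _)
  rw [Homeomorph.apply_symm_apply] at h1
  exact h1

/-- a path connected space whose loops at one point are null homotopic is simply connected -/
theorem simply_of {X : Type} [TopologicalSpace X] [PathConnectedSpace X] (x₀ : X)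
    (h : ∀ L : Path x₀ x₀, L.Homotopic (Path.refl _)) : SimplyConnectedSpace X := by
  refine simply_connected_iff_loops_nullhomotopic.2 ⟨inferInstance, fun {x} γ => ?_⟩
  have p : Path x₀ x := PathConnectedSpace.somePath x₀ x
  have h1 : Subsingleton (FundamentalGroup X x₀) := by
    refine ⟨fun a b => ?_⟩
    obtain ⟨L, rfl⟩ := Cov892.lc_surjective a
    obtain ⟨L', rfl⟩ := Cov892.lc_surjective b
    exact Quotient.sound ((h L).trans (h L').symm)
  have h2 : Subsingleton (FundamentalGroup X x) :=
    (FundamentalGroup.fundamentalGroupMulEquivOfPath p).symm.toEquiv.subsingleton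
  exact Quotient.exact (h2.elim (Cov892.lc γ) (Cov892.lc (Path.refl x)))

theorem simply_Om (h0 : ∀ x : Om (Fin n) Z z₀, Joined x GenLoop.const)
    (h : ∀ x : Om (Fin (n + 1)) Z z₀, Joined x GenLoop.const) :
    SimplyConnectedSpace (Om (Fin n) Z z₀) := by
  have : PathConnectedSpace (Om (Fin n) Z z₀) :=
    ⟨⟨GenLoop.const⟩, fun x y => (h0 x).trans (h0 y).symm⟩
  exact simply_of (bo Z z₀ n) (loop_null h)

/-- in the path connected range every generalized loop is joined to the constant one -/
theorem joined_Om {j n : ℕ} (h : j < n) (x : Om (Fin j) (Sph n) (pt n)) :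
    Joined x GenLoop.const :=
  (Pi808.pathConnected_Om h).joined x _

/-- **`Ω^j S^n` is simply connected for `j + 1 < n`** -/
theorem simply_Om_Sph {j n : ℕ} (h : j + 1 < n) :
    SimplyConnectedSpace (Om (Fin j) (Sph n) (pt n)) :=
  simply_Om (joined_Om (by omega)) (joined_Om h)

/-- `S^n` is simply connected for `2 ≤ n` -/
theorem simply_Sph {n : ℕ} (h : 1 < n) : SimplyConnectedSpace (Sph n) := by
  have h1 : PathConnectedSpace (Sph n) :=
    ⟨⟨pt n⟩, fun x y => Pi808.pc_Sph n (by omega) x y⟩
  have h2 := simply_Om_Sph (j := 0) (n := n) (by omega)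
  let e : Om (Fin 0) (Sph n) (pt n) ≃ₜ Sph n :=
    { toFun := fun f => f default
      invFun := fun y => ⟨ContinuousMap.const _ y, fun x ⟨i, _⟩ => i.elim0⟩
      left_inv := fun f => Subtype.ext (ContinuousMap.ext fun x => by
        show f default = f x
        rw [Subsingleton.elim (default : Fin 0 → I) x])
      right_inv := fun y => rfl
      continuous_toFun := by fun_prop
      continuous_invFun := by
        refine Continuous.subtype_mk ?_ _
        exact ContinuousMap.continuous_const' }
  exact (Homeomorph.toHomotopyEquiv e.symm).simplyConnectedSpace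

/-- the spaces of the tower are simply connected for `k ≥ 2` -/
theorem simply_XT {J0 K k : ℕ} (hK : 2 ≤ K) (hk : 2 ≤ k) :
    SimplyConnectedSpace (XT J0 K k) :=
  simply_Om_Sph (by simp only [cd]; omega)

end Crest.Agent.R204.ConnS872
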