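import Crest.Agent.R204.Inst_194
import Crest.Agent.R204.Ind3_979
import Crest.Agent.R204.ConnS_872
import Crest.Agent.R204.Sigma2_88

/-!
# Row 204, block B, final instantiation (helper979): `FactPoly` for the concrete tower of helper194

`LoopThm` : the loop space theorem in a range for `Ω^(b+1) Z` over `Ω^b Z`, both path connected.
`factPoly` : `p.tower.FactPoly D`.
-/

set_option autoImplicit false
set_option linter.style.haveILetI false

noncomputable section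

namespace Crest.Agent.R204.PolyT979

open Crest.Agent.R204 Crest.Agent.R204.Inst194 Crest.Agent.R204.Ind979 Crest.Agent.R204.Spec114
open Crest.Agent.R204.HspSS696 (Om)
open Crest.Agent.R204.Hopf450 (HMon)
open Crest.Agent.R204.Freu297

/-- the loop space theorem in a range, `k ≥ 1` -/
def LoopThm : Prop := ∀ (M b : ℕ) (hM : 1 ≤ M) (hb : M + 1 ≤ b) (Z : Type) [TopologicalSpace Z] (z₀ : Z),
  (∀ y : Om (Fin b) Z z₀, Joined y GenLoop.const) →
  (∀ x : Om (Fin (b + 1)) Z z₀, Joined x GenLoop.const) →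
  ∀ (J : Type) (v : J → H F2 (SS.Sing (Om (Fin (b + 1)) Z z₀))) (e : J → ℕ), (∀ j, 1 ≤ e j) →
  (∀ j, v j ∈ H.gr F2 (SS.Sing (Om (Fin (b + 1)) Z z₀)) (e j)) → ∀ N : ℕ,
  letI := (hmonA hM (hb.trans (Nat.le_succ b)) : HMon (SS.Sing (Om (Fin (b + 1)) Z z₀))).ring EE
  letI := (hmonA hM (hb.trans (Nat.le_succ b)) : HMon (SS.Sing (Om (Fin (b + 1)) Z z₀))).alg EE
  letI := (hmonA hM hb : HMon (SS.Sing (Om (Fin b) Z z₀))).ring EE
  letI := (hmonA hM hb : HMon (SS.Sing (Om (Fin b) Z z₀))).alg EE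
  SimR (H.gr F2 (SS.Sing (Om (Fin b) Z z₀))) (fun j => (Sus330.genLoop b).sigma (v j))
    (fun j => e j + 1) (N + 1) →
  PolyR (H.gr F2 (SS.Sing (Om (Fin (b + 1)) Z z₀))) v e N

/-- along an equality `a = b + 1` -/
theorem loopThm_cast (G : LoopThm) {M a b : ℕ} (hM : 1 ≤ M) (hb : M + 1 ≤ b) (ha : M + 1 ≤ a)
    (h : a = b + 1) (Z : Type) [TopologicalSpace Z] (z₀ : Z)
    (h0 : ∀ y : Om (Fin b) Z z₀, Joined y GenLoop.const)
    (h1 : ∀ x : Om (Fin a) Z z₀, Joined x GenLoop.const)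
    (J : Type) (v : J → H F2 (SS.Sing (Om (Fin a) Z z₀))) (e : J → ℕ) (he : ∀ j, 1 ≤ e j)
    (hv : ∀ j, v j ∈ H.gr F2 (SS.Sing (Om (Fin a) Z z₀)) (e j)) (N : ℕ) :
    letI := (hmonA hM ha : HMon (SS.Sing (Om (Fin a) Z z₀))).ring EE
    letI := (hmonA hM ha : HMon (SS.Sing (Om (Fin a) Z z₀))).alg EE
    letI := (hmonA hM hb : HMon (SS.Sing (Om (Fin b) Z z₀))).ring EE
    letI := (hmonA hM hb : HMon (SS.Sing (Om (Fin b) Z z₀))).alg EE
    SimR (H.gr F2 (SS.Sing (Om (Fin b) Z z₀))) (fun j => (loopC h).sigma (v j))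
      (fun j => e j + 1) (N + 1) →
    PolyR (H.gr F2 (SS.Sing (Om (Fin a) Z z₀))) v e N := by
  subst h
  exact G M b hM hb Z z₀ h0 h1 J v e he hv N

theorem loopStep (G : LoopThm) (p : Par) {k : ℕ} (hk1 : 1 ≤ k) (hk : k < p.K) (N : ℕ) :
    LoopStep p.tower k N := by
  intro J v e he hv hS
  have hs : p.tower.σ k = (loopX p.J0 hk).sigma := dif_pos hk
  rw [hs] at hS
  exact loopThm_cast G p.hM (p.hc (k + 1)) (p.hc k) (cd_succ hk) (Sph p.n) (pt p.n)
    (fun y => ConnS872.joined_Om (by simp only [cd]; show _ < p.J0 + p.K; omega) y)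
    (fun y => ConnS872.joined_Om (by simp only [cd]; show _ < p.J0 + p.K; omega) y) J v e he hv N hS

/-- **`FactPoly` for the concrete tower** -/
theorem factPoly (G : LoopThm) (p : Par) {D : ℕ} (hK : D + 2 ≤ p.K) (hQ : p.tower.FactQ D)
    (hσ : p.tower.FactSigma D) (hx : p.tower.FactX D)
    (h1 : (1 : p.tower.H (D + 2)) ≠ 0)
    (h0 : p.tower.gr (D + 2) 0 ≤ Submodule.span F2 {1}) (hxk : p.tower.x (D + 2) ≠ 0)
    (hgk : p.tower.gr (D + 2) (D + 2) ≤ Submodule.span F2 {p.tower.x (D + 2)})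
    (hg : ∀ t ≤ 2 * D + 3, t ≠ 0 → t ≠ D + 2 → p.tower.gr (D + 2) t = ⊥) : p.tower.FactPoly D :=
  factPoly_of_steps hQ hσ hx (fun _ hk1 hk => loopStep G p hk1 (by omega) _) h1 h0 hxk hgk hg

end Crest.Agent.R204.PolyT979
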