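import Crest.Agent.R204.Cone_330

/-!
# Row 204, leaf FactSph (helper478): classes of spherical simplices

`scl x hx` = class in `H F2 K` of a simplex of positive dimension all of whose proper faces are the
base simplex.  Additivity `scl (x, y) = scl (x, *) + scl (*, y)` (one explicit chain), the simplicial
sphere `Sp e` (one cell of dimension `e+1`) and its homology, primitivity and vanishing of Steenrod
operations by naturality.
-/

set_option autoImplicit false

open scoped TensorProduct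

namespace Crest.Agent.R204.SphSS478

open Crest.Agent.R204 Cone330

theorem add_self_F2 {M : Type*} [AddCommGroup M] [Module F2 M] (x : M) : x + x = 0 := by
  rw [← two_smul F2, show (2 : F2) = 0 from rfl, zero_smul]

theorem neg_F2 {M : Type*} [AddCommGroup M] [Module F2 M] (x : M) : -x = x :=
  neg_eq_of_add_eq_zero_left (add_self_F2 x)

theorem sub_F2 {M : Type*} [AddCommGroup M] [Module F2 M] (x y : M) : x - y = x + y := by
  rw [sub_eq_add_neg, neg_F2]

/-- boundary of a simplex over `F2` -/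
theorem bd_sx_F2 {K : SS} {n : ℕ} (x : K.S (n + 1)) :
    N.bd F2 K (N.sx F2 x) = ∑ i : Fin (n + 2), N.sx F2 (K.act (Op.face i) x) := by
  rw [N.sx, N.bd_mk, Ch.bd_single_succ, ← Submodule.mkQ_apply, map_sum]
  refine Finset.sum_congr rfl fun i _ => ?_
  have h : ((1 : F2) * (-1) ^ (i : ℕ)) = 1 := by
    have : (-1 : F2) = 1 := by decide
    rw [this, one_pow, one_mul]
  rw [h]
  rfl

variable {K L : SS} {b : K.S 0} {c : L.S 0}

theorem bd_sph {e : ℕ} {x : K.S (e + 1)} (hx : IsSph b x) : N.bd F2 K (N.sx F2 x) = 0 := by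
  rw [bd_sx_F2, Finset.sum_congr rfl fun i _ => by rw [hx.face i]]
  rcases e with _ | e
  · rw [Fin.sum_univ_two, add_self_F2]
  · exact Finset.sum_eq_zero fun i _ => sx_base K b F2 (Nat.succ_pos e)

/-- the class of a spherical simplex -/
noncomputable def scl {e : ℕ} (x : K.S (e + 1)) (hx : IsSph b x) : H F2 K :=
  Hd.mk (N.bd F2 K) (N.sx F2 x) (bd_sph hx)

theorem scl_congr {e : ℕ} {x y : K.S (e + 1)} (hx : IsSph b x) (hy : IsSph b y) (h : x = y) :
    scl x hx = scl y hy := by subst h; rfl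

theorem scl_mem_gr {e : ℕ} (x : K.S (e + 1)) (hx : IsSph b x) : scl x hx ∈ H.gr F2 K (e + 1) := by
  refine Submodule.mem_map.2 ⟨⟨N.sx F2 x, ?_⟩, ?_, rfl⟩
  · rw [LinearMap.mem_ker]; exact bd_sph hx
  · exact Submodule.mem_map.2 ⟨Finsupp.single ⟨e + 1, x⟩ 1, Submodule.subset_span ⟨x, rfl⟩, rfl⟩

/-- naturality -/
theorem map_scl (f : SS.Hom K L) (hf : f.app 0 b = c) {e : ℕ} {x : K.S (e + 1)} (hx : IsSph b x) :
    H.map F2 f (scl x hx) = scl (b := c) (f.app (e + 1) x) (hf ▸ hx.map f) := by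
  refine Hd.mk_eq_mk.2 ⟨0, ?_⟩
  rw [map_zero]
  exact (sub_eq_zero.2 (N.map_sx f x)).symm

theorem scl_base {e : ℕ} (h : IsSph b (base K b (e + 1))) : scl (base K b (e + 1)) h = 0 := by
  refine Hd.mk_eq_zero.2 ⟨0, ?_⟩
  rw [map_zero, sx_base K b F2 (Nat.succ_pos e)]

theorem isSph_base {M : ℕ} : IsSph b (base K b M) := fun g _ => act_base K b g

/-! ## additivity -/

theorem dgn_face_not_surj {n : ℕ} (j : Fin (n + 1)) (i : Fin (n + 2)) (h1 : (i : ℕ) ≠ j)
    (h2 : (i : ℕ) ≠ j + 1) : ¬ Function.Surjective ((Op.dgn j).comp (Op.face i)) := by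
  intro hs
  obtain ⟨a, ha⟩ := hs (Op.dgn j i)
  have ha' := congrArg Fin.val ha
  simp only [OrderHom.comp_coe, Function.comp_apply, Ch.dgn_val, Ch.face_val] at ha'
  have := a.isLt
  split_ifs at ha' <;> omega

/-- the simplex `(x, y)` of the product -/
def pr {q : ℕ} (x : K.S q) (y : L.S q) : (K.prod L).S q := (x, y)

theorem act_pr {p q : ℕ} (f : Op p q) (x : K.S q) (y : L.S q) :
    (K.prod L).act f (pr x y) = pr (K.act f x) (L.act f y) := rfl

theorem isSph_pr {M : ℕ} {x : K.S M} {y : L.S M} (hx : IsSph b x) (hy : IsSph c y) :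
    IsSph (K := K.prod L) (pr b c) (pr x y) := by
  intro p g hg
  exact Prod.ext (hx g hg) (hy g hg)

theorem base_prod (q : ℕ) : base (K.prod L) (pr b c) q = pr (base K b q) (base L c q) := rfl

/-- **additivity**: `[(x, y)] = [(x, *)] + [(*, y)]` -/
theorem scl_pair {e : ℕ} {x : K.S (e + 1)} {y : L.S (e + 1)} (hx : IsSph b x) (hy : IsSph c y) :
    scl (pr x y) (isSph_pr hx hy) =
      scl (pr x (base L c (e + 1))) (isSph_pr hx isSph_base) +
      scl (pr (base K b (e + 1)) y) (isSph_pr isSph_base hy) := by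
  have key : N.bd F2 (K.prod L) (N.sx F2
      (pr (K.act (Op.dgn 0) x) (L.act (Op.dgn (1 : Fin (e + 2))) y))) =
      N.sx F2 (pr x (base L c (e + 1))) + (N.sx F2 (pr x y) +
        N.sx F2 (pr (base K b (e + 1)) y)) := by
    have v0 : ((0 : Fin (e + 2)) : ℕ) = 0 := rfl
    have v1 : ((1 : Fin (e + 2)) : ℕ) = 1 := Nat.mod_eq_of_lt (a := 1) (b := e + 2) (by omega)
    have v2 : ((2 : Fin (e + 1 + 2)) : ℕ) = 2 :=
      Nat.mod_eq_of_lt (a := 2) (b := e + 1 + 2) (by omega)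
    rw [bd_sx_F2]
    have hface : ∀ i : Fin (e + 3), (K.prod L).act (Op.face i)
        (pr (K.act (Op.dgn 0) x) (L.act (Op.dgn (1 : Fin (e + 2))) y)) =
        pr (K.act ((Op.dgn 0).comp (Op.face i)) x)
          (L.act ((Op.dgn (1 : Fin (e + 2))).comp (Op.face i)) y) := by
      intro i
      exact Prod.ext (K.act_comp _ _ _).symm (L.act_comp _ _ _).symm
    have e0 : (K.prod L).act (Op.face 0)
        (pr (K.act (Op.dgn 0) x) (L.act (Op.dgn (1 : Fin (e + 2))) y)) =
        pr x (base L c (e + 1)) := by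
      rw [hface, Ch.face_dgn_eq 0 0 (Or.inl rfl), K.act_id,
        hy _ (dgn_face_not_surj (1 : Fin (e + 2)) 0 (by simp) (by simp))]
    have e1 : (K.prod L).act (Op.face 1)
        (pr (K.act (Op.dgn 0) x) (L.act (Op.dgn (1 : Fin (e + 2))) y)) = pr x y := by
      rw [hface, Ch.face_dgn_eq 1 0 (Or.inr rfl), K.act_id, Ch.face_dgn_eq 1 1 (Or.inl rfl),
        L.act_id]
    have e2 : (K.prod L).act (Op.face 2)
        (pr (K.act (Op.dgn 0) x) (L.act (Op.dgn (1 : Fin (e + 2))) y)) =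
        pr (base K b (e + 1)) y := by
      rw [hface, Ch.face_dgn_eq 2 1 (Or.inr rfl), L.act_id,
        hx _ (dgn_face_not_surj 0 2 (by omega) (by omega))]
    have e3 : ∀ i : Fin (e + 3), 3 ≤ (i : ℕ) → N.sx F2 ((K.prod L).act (Op.face i)
        (pr (K.act (Op.dgn 0) x) (L.act (Op.dgn (1 : Fin (e + 2))) y))) = 0 := by
      intro i hi
      rw [hface, hx _ (dgn_face_not_surj 0 i (by omega) (by omega)),
        hy _ (dgn_face_not_surj 1 i (by omega) (by omega)), ← base_prod]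
      exact sx_base _ _ _ (Nat.succ_pos e)
    rw [Fin.sum_univ_succ, Fin.sum_univ_succ, e0]
    have hs : (Fin.succ (0 : Fin (e + 2)) : Fin (e + 3)) = 1 := rfl
    rw [hs, e1]
    rcases e with _ | e
    · rw [Fin.sum_univ_one]
      have h2 : ((0 : Fin 1).succ.succ : Fin 3) = 2 := rfl
      rw [h2, e2]
    · rw [Fin.sum_univ_succ]
      have h2 : ((0 : Fin (e + 2)).succ.succ : Fin (e + 1 + 3)) = 2 := rfl
      rw [h2, e2, Finset.sum_eq_zero, add_zero]
      intro i _
      exact e3 _ (by simp only [Fin.val_succ]; omega)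
  have h1 : scl (pr x y) (isSph_pr hx hy) -
      (scl (pr x (base L c (e + 1))) (isSph_pr hx isSph_base) +
      scl (pr (base K b (e + 1)) y) (isSph_pr isSph_base hy)) = 0 := by
    refine Hd.mk_eq_zero.2 ⟨N.sx F2
      (pr (K.act (Op.dgn 0) x) (L.act (Op.dgn (1 : Fin (e + 2))) y)), ?_⟩
    refine key.trans ?_
    show _ = N.sx F2 (pr x y) - (N.sx F2 (pr x (base L c (e + 1))) +
      N.sx F2 (pr (base K b (e + 1)) y))
    rw [sub_F2]
    abel
  exact sub_eq_zero.1 h1

theorem constHom_app_zero (J K : SS) (b : K.S 0) (x : J.S 0) : (SS.constHom J K b).app 0 x = b := by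
  show K.act _ b = b
  rw [show (⟨fun _ => 0, fun _ _ _ => le_rfl⟩ : Op 0 0) = OrderHom.id from by
    ext a; have := a.isLt; show 0 = (a : ℕ); omega, K.act_id]

theorem constHom_app (J K : SS) (b : K.S 0) (q : ℕ) (x : J.S q) :
    (SS.constHom J K b).app q x = base K b q := rfl

/-- additivity under a product `m` with homotopy unit -/
theorem scl_mul {m : SS.Hom (K.prod K) K} (hb : m.app 0 (pr b b) = b)
    (hr : H.map F2 (m.comp (SS.pair (SS.Hom.id K) (SS.constHom K K b))) = LinearMap.id)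
    (hl : H.map F2 (m.comp (SS.pair (SS.constHom K K b) (SS.Hom.id K))) = LinearMap.id)
    {e : ℕ} {x y : K.S (e + 1)} (hx : IsSph b x) (hy : IsSph b y)
    (hxy : IsSph b (m.app (e + 1) (pr x y))) :
    scl (m.app (e + 1) (pr x y)) hxy = scl x hx + scl y hy := by
  have e0 := map_scl m hb (isSph_pr hx hy)
  have e1 := map_scl m hb (isSph_pr hx (isSph_base (b := b)))
  have e2 := map_scl m hb (isSph_pr (isSph_base (b := b)) hy)
  have hu : (m.comp (SS.pair (SS.Hom.id K) (SS.constHom K K b))).app 0 b = b := by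
    show m.app 0 (b, (SS.constHom K K b).app 0 b) = b
    rw [constHom_app_zero]; exact hb
  have hu' : (m.comp (SS.pair (SS.constHom K K b) (SS.Hom.id K))).app 0 b = b := by
    show m.app 0 ((SS.constHom K K b).app 0 b, b) = b
    rw [constHom_app_zero]; exact hb
  have h1 := LinearMap.congr_fun hr (scl x hx)
  have h2 := LinearMap.congr_fun hl (scl y hy)
  rw [LinearMap.id_apply, map_scl _ hu hx] at h1
  rw [LinearMap.id_apply, map_scl _ hu' hy] at h2
  rw [← h1, ← h2]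
  refine e0.symm.trans ?_
  rw [scl_pair hx hy, map_add, e1, e2]
  rfl

/-! ## the simplicial sphere -/

/-- the vertex of the point -/
def vpt : SS.pt.S 0 := ()

/-- the sphere of dimension `e+1`: one point and one cell -/
noncomputable abbrev Sp (e : ℕ) : SS :=
  Cone SS.pt vpt (base SS.pt vpt e) isSph_base

/-- the base vertex of the sphere -/
noncomputable abbrev pSp (e : ℕ) : (Sp e).S 0 := (incl (K := SS.pt) (b := vpt) (M := e)
  (x := base SS.pt vpt e) isSph_base).app 0 vpt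

/-- the cell of the sphere -/
noncomputable abbrev tSp (e : ℕ) : (Sp e).S (e + 1) :=
  top (K := SS.pt) (b := vpt) (M := e) (x := base SS.pt vpt e) isSph_base

theorem isSph_tSp (e : ℕ) : IsSph (pSp e) (tSp e) := by
  apply isSph_of_face
  intro i
  refine Fin.cases ?_ (fun j => ?_) i
  · exact face_zero_top _
  · exact face_succ_top _ j

/-- the classifying map of a spherical simplex -/
noncomputable def clas {e : ℕ} (x : K.S (e + 1)) (hx : IsSph b x) : SS.Hom (Sp e) K :=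
  Cone330.lift (K := SS.pt) (b := vpt) (x := base SS.pt vpt e) isSph_base
    (SS.constHom SS.pt K b) x (by rw [IsSph.face hx 0]; rfl)
    (fun i => by rw [IsSph.face hx i.succ, constHom_app_zero])

theorem clas_tSp {e : ℕ} (x : K.S (e + 1)) (hx : IsSph b x) :
    (clas x hx).app (e + 1) (tSp e) = x := Cone330.lift_top _ _ _ _ _

theorem clas_pSp {e : ℕ} (x : K.S (e + 1)) (hx : IsSph b x) :
    (clas x hx).app 0 (pSp e) = b := constHom_app_zero SS.pt K b vpt

/-- the class of the sphere -/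
noncomputable def fund (e : ℕ) : H F2 (Sp e) := scl (tSp e) (isSph_tSp e)

theorem map_fund {e : ℕ} (x : K.S (e + 1)) (hx : IsSph b x) :
    H.map F2 (clas x hx) (fund e) = scl x hx := by
  rw [fund, map_scl (clas x hx) (clas_pSp x hx)]
  exact scl_congr _ _ (clas_tSp x hx)

/-- the class of a vertex -/
noncomputable def vcl (v : K.S 0) : H F2 K :=
  Hd.mk (N.bd F2 K) (N.sx F2 v) (by rw [N.sx, N.bd_mk, Ch.bd_single_zero]; rfl)

theorem map_vcl (f : SS.Hom K L) (v : K.S 0) : H.map F2 f (vcl v) = vcl (f.app 0 v) := by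
  refine Hd.mk_eq_mk.2 ⟨0, ?_⟩
  rw [map_zero]
  exact (sub_eq_zero.2 (N.map_sx f v)).symm

/-- the simplices of the sphere in dimension `q` are degenerate unless `q = 0, e+1` -/
theorem sx_Sp_eq_zero {e q : ℕ} (h0 : q ≠ 0) (h1 : q ≠ e + 1) (y : (Sp e).S q) :
    N.sx F2 y = 0 := by
  rcases y with y | θ
  · exact sx_base (Sp e) (pSp e) F2 (Nat.pos_of_ne_zero h0)
  · exact sx_inr_of_ne _ θ h1

theorem Ngr_Sp_eq_bot {e q : ℕ} (h0 : q ≠ 0) (h1 : q ≠ e + 1) : N.gr F2 (Sp e) q = ⊥ := by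
  rw [N.gr, Ch.gr, Submodule.map_span, Submodule.span_eq_bot]
  rintro _ ⟨_, ⟨x, rfl⟩, rfl⟩
  exact sx_Sp_eq_zero h0 h1 x

theorem Hgr_Sp_eq_bot {e q : ℕ} (h0 : q ≠ 0) (h1 : q ≠ e + 1) : H.gr F2 (Sp e) q = ⊥ := by
  rw [H.gr, Ngr_Sp_eq_bot h0 h1]
  rw [eq_bot_iff]
  rintro _ ⟨⟨z, hz⟩, hz', rfl⟩
  have : z = 0 := hz'
  subst this
  exact (Submodule.mem_bot F2).2 (map_zero (Submodule.mkQ _))

theorem Hgr_Sp_top (e : ℕ) : H.gr F2 (Sp e) (e + 1) ≤ Submodule.span F2 {fund e} := by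
  rintro _ ⟨⟨z, hz⟩, hz', rfl⟩
  have h1 : z ∈ N.gr F2 (Sp e) (e + 1) := hz'
  have h2 : N.gr F2 (Sp e) (e + 1) ≤ Submodule.span F2 {N.sx F2 (tSp e)} := by
    rw [N.gr, Ch.gr, Submodule.map_span, Submodule.span_le]
    rintro _ ⟨_, ⟨x, rfl⟩, rfl⟩
    rcases x with y | θ
    · have : N.sx (K := Sp e) (n := e + 1) F2 (Sum.inl y) = 0 :=
        sx_base (Sp e) (pSp e) F2 (Nat.succ_pos e)
      change N.sx (K := Sp e) (n := e + 1) F2 (Sum.inl y) ∈ _
      rw [this]
      exact Submodule.zero_mem _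
    · have : (Sum.inr θ : (Sp e).S (e + 1)) = tSp e := by
        refine Eq.trans ?_ (top_eq _).symm
        exact congrArg Sum.inr (Subtype.ext (eq_id_of_surjective _ θ.2))
      change N.sx (K := Sp e) (n := e + 1) F2 (Sum.inr θ) ∈ _
      rw [this]
      exact Submodule.mem_span_singleton_self _
  obtain ⟨r, hr⟩ := Submodule.mem_span_singleton.1 (h2 h1)
  refine Submodule.mem_span_singleton.2 ⟨r, ?_⟩
  subst hr
  rfl

theorem Hgr_Sp_zero (e : ℕ) : H.gr F2 (Sp e) 0 ≤ Submodule.span F2 {vcl (pSp e)} := by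
  rintro _ ⟨⟨z, hz⟩, hz', rfl⟩
  have h1 : z ∈ N.gr F2 (Sp e) 0 := hz'
  have h2 : N.gr F2 (Sp e) 0 ≤ Submodule.span F2 {N.sx F2 (pSp e)} := by
    rw [N.gr, Ch.gr, Submodule.map_span, Submodule.span_le]
    rintro _ ⟨_, ⟨x, rfl⟩, rfl⟩
    rcases x with y | θ
    · exact Submodule.mem_span_singleton_self _
    · have := le_of_surjective θ.1 θ.2
      omega
  obtain ⟨r, hr⟩ := Submodule.mem_span_singleton.1 (h2 h1)
  refine Submodule.mem_span_singleton.2 ⟨r, ?_⟩
  subst hr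
  rfl

/-! ## primitivity and Steenrod operations by naturality -/

/-- an element of `H(Sp e) ⊗ H(Sp e)` of total degree `e+1` -/
theorem mem_tensor {e : ℕ} {u : H F2 (Sp e) ⊗[F2] H F2 (Sp e)}
    (hu : u ∈ ⨆ p ∈ Finset.HasAntidiagonal.antidiagonal (e + 1),
      LinearMap.range (TensorProduct.map (H.gr F2 (Sp e) p.1).subtype (H.gr F2 (Sp e) p.2).subtype)) :
    ∃ α β : F2, u = vcl (pSp e) ⊗ₜ[F2] (α • fund e) + (β • fund e) ⊗ₜ[F2] vcl (pSp e) := by
  set W : Submodule F2 (H F2 (Sp e) ⊗[F2] H F2 (Sp e)) :=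
    Submodule.span F2 {vcl (pSp e) ⊗ₜ[F2] fund e, fund e ⊗ₜ[F2] vcl (pSp e)} with hW
  have key : (⨆ p ∈ Finset.HasAntidiagonal.antidiagonal (e + 1),
      LinearMap.range (TensorProduct.map (H.gr F2 (Sp e) p.1).subtype
        (H.gr F2 (Sp e) p.2).subtype)) ≤ W := by
    refine iSup₂_le fun p hp => ?_
    rintro _ ⟨t, rfl⟩
    have hp' : p.1 + p.2 = e + 1 := Finset.HasAntidiagonal.mem_antidiagonal.1 hp
    induction t using TensorProduct.induction_on with
    | zero => rw [map_zero]; exact Submodule.zero_mem _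
    | add a b ha hb => rw [map_add]; exact Submodule.add_mem _ ha hb
    | tmul a b =>
      rw [TensorProduct.map_tmul]
      obtain ⟨a, ha⟩ := a
      obtain ⟨b, hb⟩ := b
      show a ⊗ₜ[F2] b ∈ W
      by_cases h1 : p.1 = 0
      · have h2 : p.2 = e + 1 := by omega
        rw [h1] at ha
        rw [h2] at hb
        obtain ⟨r, rfl⟩ := Submodule.mem_span_singleton.1 (Hgr_Sp_zero e ha)
        obtain ⟨s, rfl⟩ := Submodule.mem_span_singleton.1 (Hgr_Sp_top e hb)
        rw [TensorProduct.smul_tmul_smul]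
        exact Submodule.smul_mem _ _ (Submodule.subset_span (Or.inl rfl))
      · by_cases h2 : p.1 = e + 1
        · have h3 : p.2 = 0 := by omega
          rw [h2] at ha
          rw [h3] at hb
          obtain ⟨r, rfl⟩ := Submodule.mem_span_singleton.1 (Hgr_Sp_top e ha)
          obtain ⟨s, rfl⟩ := Submodule.mem_span_singleton.1 (Hgr_Sp_zero e hb)
          rw [TensorProduct.smul_tmul_smul]
          exact Submodule.smul_mem _ _ (Submodule.subset_span (Or.inr rfl))
        · rw [Hgr_Sp_eq_bot h1 h2] at ha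
          rw [(Submodule.mem_bot F2).1 ha, TensorProduct.zero_tmul]
          exact Submodule.zero_mem _
  obtain ⟨α, β, h⟩ := Submodule.mem_span_pair.1 (key hu)
  refine ⟨α, β, ?_⟩
  rw [← h, TensorProduct.tmul_smul, ← TensorProduct.smul_tmul']

/-- the fundamental class of the sphere is primitive for every counital graded coproduct -/
theorem fund_prim {e : ℕ} (Δ : H F2 (Sp e) →ₗ[F2] H F2 (Sp e) ⊗[F2] H F2 (Sp e))
    (ε : H F2 (Sp e) →ₗ[F2] F2) (hε0 : ε (vcl (pSp e)) = 1)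
    (hε : ∀ y ∈ H.gr F2 (Sp e) (e + 1), ε y = 0)
    (hl : ∀ y, TensorProduct.lid F2 _ (TensorProduct.map ε LinearMap.id (Δ y)) = y)
    (hr : ∀ y, TensorProduct.rid F2 _ (TensorProduct.map LinearMap.id ε (Δ y)) = y)
    (hd : Δ (fund e) ∈ ⨆ p ∈ Finset.HasAntidiagonal.antidiagonal (e + 1),
      LinearMap.range (TensorProduct.map (H.gr F2 (Sp e) p.1).subtype
        (H.gr F2 (Sp e) p.2).subtype)) :
    Δ (fund e) = fund e ⊗ₜ[F2] vcl (pSp e) + vcl (pSp e) ⊗ₜ[F2] fund e := by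
  obtain ⟨α, β, h⟩ := mem_tensor hd
  have hf : ε (fund e) = 0 := hε _ (scl_mem_gr _ _)
  have hf' : ∀ r : F2, ε (r • fund e) = 0 := fun r => by rw [map_smul, hf, smul_zero]
  have h1 := hl (fund e)
  have h2 := hr (fund e)
  rw [h, map_add, map_add, TensorProduct.map_tmul, TensorProduct.map_tmul, TensorProduct.lid_tmul,
    TensorProduct.lid_tmul, hε0, hf', zero_smul, add_zero, one_smul, LinearMap.id_apply] at h1
  rw [h, map_add, map_add, TensorProduct.map_tmul, TensorProduct.map_tmul, TensorProduct.rid_tmul,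
    TensorProduct.rid_tmul, hε0, hf', zero_smul, zero_add, one_smul, LinearMap.id_apply] at h2
  rw [h, h1, h2, add_comm]

/-- **a spherical class is primitive** -/
theorem scl_prim {e : ℕ} (ΔS : H F2 (Sp e) →ₗ[F2] H F2 (Sp e) ⊗[F2] H F2 (Sp e))
    (ΔK : H F2 K →ₗ[F2] H F2 K ⊗[F2] H F2 K)
    (ε : H F2 (Sp e) →ₗ[F2] F2) (hε0 : ε (vcl (pSp e)) = 1)
    (hε : ∀ y ∈ H.gr F2 (Sp e) (e + 1), ε y = 0)
    (hl : ∀ y, TensorProduct.lid F2 _ (TensorProduct.map ε LinearMap.id (ΔS y)) = y)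
    (hr : ∀ y, TensorProduct.rid F2 _ (TensorProduct.map LinearMap.id ε (ΔS y)) = y)
    (hd : ΔS (fund e) ∈ ⨆ p ∈ Finset.HasAntidiagonal.antidiagonal (e + 1),
      LinearMap.range (TensorProduct.map (H.gr F2 (Sp e) p.1).subtype
        (H.gr F2 (Sp e) p.2).subtype))
    (x : K.S (e + 1)) (hx : IsSph b x)
    (nat : ∀ y, ΔK (H.map F2 (clas x hx) y) =
      TensorProduct.map (H.map F2 (clas x hx)) (H.map F2 (clas x hx)) (ΔS y)) :
    ΔK (scl x hx) = scl x hx ⊗ₜ[F2] vcl b + vcl b ⊗ₜ[F2] scl x hx := by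
  have h := nat (fund e)
  rw [fund_prim ΔS ε hε0 hε hl hr hd, map_add, TensorProduct.map_tmul, TensorProduct.map_tmul,
    map_fund, map_vcl, clas_pSp] at h
  exact h

/-- **a natural degree lowering unstable operation kills spherical classes** -/
theorem scl_sq {e a : ℕ} (ha : 1 ≤ a) (SqS : H F2 (Sp e) →ₗ[F2] H F2 (Sp e))
    (SqK : H F2 K →ₗ[F2] H F2 K)
    (hdeg : ∀ y ∈ H.gr F2 (Sp e) (e + 1), SqS y ∈ H.gr F2 (Sp e) (e + 1 - a))
    (hun : e + 1 < 2 * a → ∀ y ∈ H.gr F2 (Sp e) (e + 1), SqS y = 0)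
    (x : K.S (e + 1)) (hx : IsSph b x)
    (nat : ∀ y, SqK (H.map F2 (clas x hx) y) = H.map F2 (clas x hx) (SqS y)) :
    SqK (scl x hx) = 0 := by
  have hf : fund e ∈ H.gr F2 (Sp e) (e + 1) := scl_mem_gr _ _
  have h0 : SqS (fund e) = 0 := by
    by_cases h : e + 1 < 2 * a
    · exact hun h _ hf
    · have h1 := hdeg _ hf
      rw [Hgr_Sp_eq_bot (by omega) (by omega)] at h1
      exact (Submodule.mem_bot F2).1 h1
  rw [← map_fund x hx, nat, h0, map_zero]

end Crest.Agent.R204.SphSS478
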