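import Crest.Agent.R204.ConnE_747
import Crest.Agent.R204.Sph_94d
import Crest.Agent.R204.PiC_808
import Crest.Agent.R204.GeoC_979
import Crest.Agent.R204.Ind2_979
import Crest.Agent.R204.SphSS_478
import Crest.Agent.R204.PolyT_979

/-!
# Row 204, block B: the base case of the descending induction (helper170)

For `1 ≤ k ≤ K` the homology of `X_k = Ω^(n-k) S^n` in degrees `< 2k`: `F2` in degree `0`,
at most one nonzero class in degree `k`, nothing else.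
-/

set_option autoImplicit false

noncomputable section

namespace Crest.Agent.R204.BaseR170

open Topology.Homotopy
open Crest.Agent.R204 Crest.Agent.R204.SS Crest.Agent.R204.Freu297 Crest.Agent.R204.Inst194

/-- `H_t(Y) ` is onto image of `H_t(A)` -/
theorem gr_bot_of_onto {A Y : SS} (f : SS.Hom A Y) {t : ℕ}
    (hs : ∀ v ∈ H.gr F2 Y t, ∃ u ∈ H.gr F2 A t, H.map F2 f u = v) (h : H.gr F2 A t = ⊥) :
    H.gr F2 Y t = ⊥ := by
  rw [eq_bot_iff]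
  intro v hv
  obtain ⟨u, hu, rfl⟩ := hs v hv
  rw [h, Submodule.mem_bot] at hu
  rw [hu, map_zero]
  exact Submodule.zero_mem _

theorem f2_cases (r : F2) : r = 0 ∨ r = 1 := by
  revert r; decide

theorem gr_span_of_onto {A Y : SS} (f : SS.Hom A Y) {t : ℕ}
    (hs : ∀ v ∈ H.gr F2 Y t, ∃ u ∈ H.gr F2 A t, H.map F2 f u = v) {g : H F2 A}
    (h : H.gr F2 A t ≤ Submodule.span F2 {g}) {x : H F2 Y} (hx : x ∈ H.gr F2 Y t) (hx0 : x ≠ 0) :
    H.gr F2 Y t ≤ Submodule.span F2 {x} := by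
  have key : ∀ v ∈ H.gr F2 Y t, ∃ r : F2, v = r • H.map F2 f g := by
    intro v hv
    obtain ⟨u, hu, rfl⟩ := hs v hv
    obtain ⟨r, rfl⟩ := Submodule.mem_span_singleton.1 (h hu)
    exact ⟨r, map_smul _ _ _⟩
  intro v hv
  obtain ⟨r, hr⟩ := key v hv
  obtain ⟨r', hr'⟩ := key x hx
  rcases f2_cases r' with h5 | h5
  · exact absurd (by rw [hr', h5, zero_smul]) hx0
  · rw [h5, one_smul] at hr'
    rw [Submodule.mem_span_singleton]
    exact ⟨r, by rw [hr, hr']⟩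

theorem sph_bot (m t : ℕ) (h0 : t ≠ 0) (h1 : t ≠ m + 1) : H.gr F2 (Sing (Sph (m + 1))) t = ⊥ := by
  obtain ⟨x, -, -, h3⟩ := Sph94.spheres m (pt (m + 1))
  exact h3 t h0 h1

theorem sph_span (m : ℕ) : ∃ g : H F2 (Sing (Sph (m + 1))),
    H.gr F2 (Sing (Sph (m + 1))) (m + 1) ≤ Submodule.span F2 {g} := by
  obtain ⟨s, hs, h2, -⟩ := Sph94.spheres m (pt (m + 1))
  have hz : N.bd F2 (Sing (Sph (m + 1))) (N.sx F2 s) = 0 := by
    rw [SphSS478.bd_sx_F2, Finset.sum_congr rfl fun i _ => by rw [hs i]]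
    rcases m with _ | m
    · rw [Fin.sum_univ_two, SphSS478.add_self_F2]
    · refine Finset.sum_eq_zero fun i _ => ?_
      exact N.sx_dgn (K := Sing (Sph (m + 1 + 1))) (R := F2) 0 (SpecA.cst (pt (m + 1 + 1)) m)
  obtain ⟨-, h4⟩ := h2 hz
  exact ⟨_, h4.le⟩

/-- homology of `Ω^J S^(m+1+J)` in degrees `< 2(m+1)` other than `0`, `m+1` -/
theorem om_bot (m J t : ℕ) (ht : t < 2 * (m + 1)) (h0 : t ≠ 0) (h1 : t ≠ m + 1) :
    H.gr F2 (Sing (GenLoop (Fin J) (Sph (m + 1 + J)) (pt (m + 1 + J)))) t = ⊥ :=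
  gr_bot_of_onto (SingMap (EJ (m + 1) J)) (fun _ hv => Conn747.EJ_surj F2 ht J hv)
    (sph_bot m t h0 h1)

/-- degree `m + 1`: every class is a multiple of any given nonzero class -/
theorem om_span (m J : ℕ) {x : H F2 (Sing (GenLoop (Fin J) (Sph (m + 1 + J)) (pt (m + 1 + J))))}
    (hx : x ∈ H.gr F2 _ (m + 1)) (hx0 : x ≠ 0) :
    H.gr F2 (Sing (GenLoop (Fin J) (Sph (m + 1 + J)) (pt (m + 1 + J)))) (m + 1) ≤
      Submodule.span F2 {x} := by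
  obtain ⟨g, hg⟩ := sph_span m
  exact gr_span_of_onto (SingMap (EJ (m + 1) J))
    (fun _ hv => Conn747.EJ_surj F2 (by omega) J hv) hg hx hx0

/-! ## along an equality `m + 1 + J = n` -/

theorem om_bot' {m J n t : ℕ} (h : m + 1 + J = n) (ht : t < 2 * (m + 1)) (h0 : t ≠ 0)
    (h1 : t ≠ m + 1) : H.gr F2 (Sing (GenLoop (Fin J) (Sph n) (pt n))) t = ⊥ := by
  subst h; exact om_bot m J t ht h0 h1

theorem om_span' {m J n : ℕ} (h : m + 1 + J = n)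
    {x : H F2 (Sing (GenLoop (Fin J) (Sph n) (pt n)))}
    (hx : x ∈ H.gr F2 _ (m + 1)) (hx0 : x ≠ 0) :
    H.gr F2 (Sing (GenLoop (Fin J) (Sph n) (pt n))) (m + 1) ≤ Submodule.span F2 {x} := by
  subst h; exact om_span m J hx hx0

/-! ## 194's spaces -/

theorem xs_bot {J0 K k t : ℕ} (hk1 : 1 ≤ k) (hk : k ≤ K) (ht : t < 2 * k) (h0 : t ≠ 0)
    (h1 : t ≠ k) : H.gr F2 (XS J0 K k) t = ⊥ := by
  obtain ⟨m, rfl⟩ : ∃ m, k = m + 1 := ⟨k - 1, by omega⟩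
  exact om_bot' (add_cd hk) ht h0 h1

theorem xs_span {J0 K k : ℕ} (hk1 : 1 ≤ k) (hk : k ≤ K) {x : H F2 (XS J0 K k)}
    (hx : x ∈ H.gr F2 (XS J0 K k) k) (hx0 : x ≠ 0) :
    H.gr F2 (XS J0 K k) k ≤ Submodule.span F2 {x} := by
  obtain ⟨m, rfl⟩ : ∃ m, k = m + 1 := ⟨k - 1, by omega⟩
  exact om_span' (add_cd hk) hx hx0

theorem xs_zero {J0 K k : ℕ} (hK : 1 ≤ K) (hk1 : 1 ≤ k) (v : (XS J0 K k).S 0) :
    H.gr F2 (XS J0 K k) 0 ≤ Submodule.span F2 {Coalg847.vtx v} := by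
  have := Pi808.pathConnected_XT (J0 := J0) (K := K) (k := k) hK hk1
  intro x hx
  rw [Geo979.gr_zero_eq v hx]
  exact Submodule.mem_span_singleton.2 ⟨_, rfl⟩

/-! ## the tower -/

variable (p : Par)

theorem tower_one_ne (k : ℕ) : (1 : p.tower.H k) ≠ 0 := by
  intro h
  have h1 : Coalg847.eps (p.S k) (Coalg847.vtx HspSS696.eS) = (1 : F2) := Coalg847.eps_vtx _
  have h2 : (Coalg847.vtx HspSS696.eS : H F2 (p.S k)) = 0 := h
  rw [h2, map_zero] at h1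
  exact zero_ne_one h1

theorem tower_zero {k : ℕ} (hK : 1 ≤ p.K) (hk1 : 1 ≤ k) :
    p.tower.gr k 0 ≤ Submodule.span F2 {(1 : p.tower.H k)} :=
  xs_zero hK hk1 HspSS696.eS

theorem tower_span {k : ℕ} (hk1 : 1 ≤ k) (hk : k ≤ p.K) (hx : p.tower.x k ∈ p.tower.gr k k)
    (hx0 : p.tower.x k ≠ 0) : p.tower.gr k k ≤ Submodule.span F2 {p.tower.x k} :=
  xs_span hk1 hk hx hx0

theorem tower_bot {k t : ℕ} (hk1 : 1 ≤ k) (hk : k ≤ p.K) (ht : t < 2 * k) (h0 : t ≠ 0)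
    (h1 : t ≠ k) : p.tower.gr k t = ⊥ :=
  xs_bot hk1 hk ht h0 h1

end Crest.Agent.R204.BaseR170
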