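import Crest.Agent.R204.Sph_94d

/-!
# Row 204, leaf A8b (helper94), part 5: `SpecA.CollapseGen`
-/

set_option autoImplicit false

noncomputable section

open Topology Set

namespace Crest.Agent.R204.Sph94

open Crest.Agent.R224.T (Dl face bd push)

theorem sg_bdry {n : ℕ} (v : Sp (n + 1)) (x : Dl (n + 1)) (i : Fin (n + 2)) (hi : x.1 i = 0) : sg v x = v := by
  have h0 : mn x.1 = 0 := by
    apply le_antisymm
    · rw [← hi]; exact mn_le _ i
    · exact mn_nonneg _
  apply Subtype.ext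
  rw [sg_coe, h0]
  refine st_zero v _ _ ?_
  have h : L v x.1 ≠ 0 := by
    intro h
    have := mn_pos_of_L h
    rw [h0] at this
    exact lt_irrefl _ this
  have h2 : (L v x.1 : Eu (n + 2)) ≠ 0 := fun h3 => h (Subtype.ext h3)
  positivity

theorem map_sx' {Y Z : Type} [TopologicalSpace Y] [TopologicalSpace Z] (φ : C(Y, Z)) (m : ℕ)
    (x : C(Dl m, Y)) : N.map F2 (SS.SingMap φ) (N.sx (K := SS.Sing Y) (n := m) F2 x) =
      N.sx (K := SS.Sing Z) (n := m) F2 (φ.comp x) :=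
  N.map_sx (R := F2) (K := SS.Sing Y) (SS.SingMap φ) (n := m) x

/-- every simplex that collapses exactly the boundary is a generator -/
theorem collapseGen : SpecA.CollapseGen := by
  intro n y x hface hsurj hinj hz hzero
  have hq : IsQuotientMap x := by
    have hc : IsClosedMap x := x.continuous.isClosedMap
    exact hc.isQuotientMap x.continuous hsurj
  have hfac : ∀ p q : Dl (n + 1), x p = x q → sg y p = sg y q := by
    intro p q h
    rcases hinj p q h with rfl | ⟨⟨i, hi⟩, ⟨j, hj⟩⟩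
    · rfl
    · rw [sg_bdry y p i hi, sg_bdry y q j hj]
  let φ : C(Sp (n + 1), Sp (n + 1)) := hq.lift (sg y) (fun p q h => hfac p q h)
  have hφ : φ.comp x = sg y := hq.lift_comp _ _
  have hz' : N.bd F2 (SS.Sing (Sp (n + 1))) (N.sx (K := SS.Sing (Sp (n + 1))) (n := n + 1) F2 (sg y)) = 0 := by
    have h1 : N.map F2 (SS.SingMap φ) (N.sx (K := SS.Sing (Sp (n + 1))) (n := n + 1) F2 x) =
        N.sx (K := SS.Sing (Sp (n + 1))) (n := n + 1) F2 (sg y) :=
      (map_sx' φ (n + 1) x).trans (by rw [hφ])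
    rw [← h1]
    have h2 := LinearMap.congr_fun (N.map_bd (R := F2) (SS.SingMap φ)) (N.sx (K := SS.Sing (Sp (n + 1))) (n := n + 1) F2 x)
    simp only [LinearMap.comp_apply] at h2
    rw [← h2, hz, map_zero]
  have hc : Ch.bd F2 (SS.Sing (Sp (n + 1))) (SpecA.emb (Sp (n + 1)) (n + 1) (fc y)) = 0 := by
    rw [bd_emb, bd_fc, map_zero]
  have h1 := cl_fc n y hc hz'
  have h2 : cl (n + 1) (fc y) hc ≠ 0 := fun h => nb (n + 1) y (cl_eq_zero.1 h)
  apply h2
  rw [h1]
  have h3 : H.map F2 (SS.SingMap φ) (Hd.mk (N.bd F2 (SS.Sing (Sp (n + 1))))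
      (N.sx (K := SS.Sing (Sp (n + 1))) (n := n + 1) F2 x) hz) = 0 := by
    have e : Hd.mk (N.bd F2 (SS.Sing (Sp (n + 1)))) (N.sx (K := SS.Sing (Sp (n + 1))) (n := n + 1) F2 x) hz = 0 := hzero
    rw [e, map_zero]
  rw [← h3]
  show _ = Hd.mk _ (N.map F2 (SS.SingMap φ) (N.sx (K := SS.Sing (Sp (n + 1))) (n := n + 1) F2 x)) _
  congr 1
  exact ((map_sx' φ (n + 1) x).trans (by rw [hφ])).symm

end Crest.Agent.R204.Sph94
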