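import Crest.Agent.R204.XNeA_194
import Crest.Agent.R204.AdjC_330
import Crest.Agent.R204.Coalg_847
import Crest.Agent.R204.Sph_94e

/-!
# Row 204 (helper194): the classes `x_k = σ^k [ι_n]` are represented by one spherical simplex and
are not zero
-/

set_option autoImplicit false

noncomputable section

namespace Crest.Agent.R204.Inst194

open scoped unitInterval _root_.Topology _root_.Topology.Homotopy
open Crest.Agent.R204 Crest.Agent.R204.Freu297 Crest.Agent.R204.Sus330 Crest.Agent.R204.Cone330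

/-! ## the adjoint with all its properties -/

section adj
variable {P Y : Type} [TopologicalSpace P] [TopologicalSpace Y] {g0 : P} {y0 : Y}
variable (Λ : LoopStr P Y g0 y0)

/-- 330's `exists_adjoint'` with the bilinear formula kept -/
theorem exists_adjoint'' {N' : ℕ} (a : (SS.Sing P).S N')
    (ha : IsSph (K := SS.Sing P) (LoopStr.cY g0 0) a) :
    ∃ (x : (SS.Sing Y).S (N' + 1)) (a' : (SS.Sing P).S N') (G : C(I × Dl N', P)),
      IsSph (K := SS.Sing Y) (LoopStr.cY y0 0) x ∧ IsSph (K := SS.Sing P) (LoopStr.cY g0 0) a' ∧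
      (∀ (s : I) (u : Dl N'), sg x (qB (s, u)) = Λ.ev (s, sg a u)) ∧
      (∀ (s : I) (u : Dl N'), Λ.ev (s, sg a' u) = sg x (qP (s, u))) ∧
      (∀ u, G (0, u) = sg a u) ∧ (∀ u, G (1, u) = sg a' u) ∧
      (∀ r u, u ∈ Bdy N' → G (r, u) = g0) := by
  obtain ⟨x, hx, hxa⟩ := Λ.exists_adjoint a ha
  have hx' := (isSph_iff y0 x).1 hx
  let F : C(I × (I × Dl N'), Y) := ⟨fun p => sg x (mix p.2.1 (qB (p.1, p.2.2)) (qP (p.1, p.2.2))), by
    refine (sg x).continuous.comp ?_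
    have h1 : Continuous fun p : I × (I × Dl N') => (p.1, p.2.2) := by fun_prop
    exact continuous_mix.comp ((by fun_prop : Continuous fun p : I × (I × Dl N') => p.2.1).prodMk
      ((continuous_qB.comp h1).prodMk (continuous_qP.comp h1)))⟩
  have hF0 : ∀ t, F (0, t) = y0 := by
    rintro ⟨r, u⟩
    show sg x (mix r (qB (0, u)) (qP (0, u))) = y0
    rw [← qB_left, mix_self]
    exact hx' _ (qB_zero_mem u)
  have hF1 : ∀ t, F (1, t) = y0 := by
    rintro ⟨r, u⟩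
    show sg x (mix r (qB (1, u)) (qP (1, u))) = y0
    rw [← qB_right, mix_self]
    exact hx' _ (qB_one_mem u)
  obtain ⟨G, hG⟩ := Λ.curry F hF0 hF1
  let a' : C(Dl N', P) := ⟨fun u => G (1, u), by fun_prop⟩
  have hbd : ∀ r u, u ∈ Bdy N' → G (r, u) = g0 := by
    intro r u hu
    refine Λ.inj _ _ fun s => ?_
    rw [hG, Λ.ev_base]
    exact hx' _ (mix_mem r s hu)
  refine ⟨x, a', G, hx, ?_, hxa, ?_, ?_, fun _ => rfl, hbd⟩
  · exact (isSph_iff g0 (a' : (SS.Sing P).S N')).2 fun v hv => hbd 1 v hv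
  · intro s u
    show Λ.ev (s, G (1, u)) = _
    rw [hG]
    show sg x (mix 1 _ _) = _
    rw [mix_one]
  · intro u
    refine Λ.inj _ _ fun s => ?_
    rw [hG, ← hxa]
    show sg x (mix 0 _ _) = _
    rw [mix_zero]

/-- the class of a simplex which is a cycle -/
def cls {K : SS} {q : ℕ} (a : K.S q) (h : N.bd F2 K (N.sx F2 a) = 0) : H F2 K :=
  Hd.mk _ (N.sx F2 a) h

/-- `sigma` of the class of a spherical simplex is the class of its adjoint -/
theorem sigma_cls {N' : ℕ} (a : (SS.Sing P).S N')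
    (ha : IsSph (K := SS.Sing P) (LoopStr.cY g0 0) a) (hz : N.bd F2 _ (N.sx F2 a) = 0) :
    ∃ (x : (SS.Sing Y).S (N' + 1)) (hx : N.bd F2 _ (N.sx F2 x) = 0),
      IsSph (K := SS.Sing Y) (LoopStr.cY y0 0) x ∧
      (∀ (s : I) (u : Dl N'), sg x (qB (s, u)) = Λ.ev (s, sg a u)) ∧
      Λ.sigma (cls a hz) = cls x hx := by
  obtain ⟨x, a', G, hx, ha', hB, hP, h0, h1, hb⟩ := exists_adjoint'' Λ a ha
  obtain ⟨w, -, hw⟩ := exists_chain_homotopy F2 a a' G h0 h1 hb
  have e1 : Λ.sig F2 (N.sx F2 a') = N.sx F2 x := Λ.sig_adj F2 a' x hP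
  have hz' : N.bd F2 _ (N.sx F2 a') = 0 := by
    have := congrArg (N.bd F2 _) hw
    rw [N.bd_bd, map_sub, hz, sub_zero] at this
    exact this.symm
  have hxz : N.bd F2 _ (N.sx F2 x) = 0 := by
    rw [← e1, LoopStr.bd_sig F2 Λ, hz', map_zero, neg_zero]
  refine ⟨x, hxz, hx, hB, ?_⟩
  have e2 : cls a hz = cls a' hz' := by
    refine Hd.mk_eq_mk.2 ⟨-w, ?_⟩
    rw [map_neg, hw, neg_sub]
  rw [e2]
  exact Hd.mk_eq_mk.2 ⟨0, by rw [map_zero]; exact (sub_eq_zero.2 e1).symm⟩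

end adj

/-! ## boundary points of the bilinear collapse -/

theorem qB_mem_Bdy {N : ℕ} (s : I) (u : Dl N) :
    qB (s, u) ∈ Bdy (N + 1) ↔ s = 0 ∨ s = 1 ∨ u ∈ Bdy N := by
  constructor
  · rintro ⟨i, hi⟩
    induction i using Fin.cases with
    | zero =>
      rw [qB_zero] at hi
      exact Or.inr (Or.inl (Subtype.ext (by show (s : ℝ) = 1; linarith)))
    | succ i =>
      rw [qB_succ] at hi
      rcases mul_eq_zero.1 hi with h | h
      · exact Or.inl (Subtype.ext h)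
      · exact Or.inr (Or.inr ⟨i, h⟩)
  · rintro (rfl | rfl | ⟨i, hi⟩)
    · exact ⟨Fin.succ 0, by rw [qB_succ]; simp⟩
    · exact ⟨0, by rw [qB_zero]; simp⟩
    · exact ⟨i.succ, by rw [qB_succ, hi, mul_zero]⟩

/-! ## collapsing simplices -/

/-- `a : Δ^k → Ω^j S^n` whose adjoint `Δ^k × I^j → S^n` collapses exactly the boundary -/
structure Coll {n k j : ℕ} (a : (SS.Sing (Ω^ (Fin j) (Sph n) (pt n))).S k) : Prop where
  sph : ∀ u ∈ Bdy k, sg a u = GenLoop.const
  ne : ∀ (u : Dl k) (t : Fin j → I), u ∉ Bdy k → t ∉ Cube.boundary (Fin j) → sg a u t ≠ pt n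
  inj : ∀ (u u' : Dl k) (t t' : Fin j → I), u ∉ Bdy k → t ∉ Cube.boundary (Fin j) →
    u' ∉ Bdy k → t' ∉ Cube.boundary (Fin j) → sg a u t = sg a u' t' → u = u' ∧ t = t'
  surj : ∀ y : Sph n, y ≠ pt n → ∃ (u : Dl k) (t : Fin j → I),
    u ∉ Bdy k ∧ t ∉ Cube.boundary (Fin j) ∧ sg a u t = y

theorem Coll.isSph {n k j : ℕ} {a : (SS.Sing (Ω^ (Fin j) (Sph n) (pt n))).S k} (ha : Coll a) :
    IsSph (K := SS.Sing (Ω^ (Fin j) (Sph n) (pt n))) (LoopStr.cY GenLoop.const 0) a :=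
  (isSph_iff _ a).2 ha.sph

/-- the vertex `ι_n` -/
theorem coll_iota (n : ℕ) : Coll (HspSS696.ptS (iotaL n)) where
  sph u hu := by rw [Bdy_zero] at hu; exact hu.elim
  ne u t _ ht := iotaL_ne n t ht
  inj u u' t t' _ ht _ ht' h := by
    refine ⟨?_, iotaL_inj n t t' ht ht' h⟩
    refine stdSimplex.ext (funext fun i => ?_)
    have h1 := stdSimplex.sum_eq_one u
    have h2 := stdSimplex.sum_eq_one u'
    rw [Fin.sum_univ_succ, Fin.sum_univ_zero] at h1 h2
    have hi : i = 0 := Fin.ext (by omega)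
    rw [hi]
    linarith
  surj y hy := by
    obtain ⟨w, hw, hwy⟩ := iotaL_surj n y hy
    refine ⟨⟨fun _ => 1, fun _ => zero_le_one, by simp⟩, w, ?_, hw, hwy⟩
    rw [Bdy_zero]
    exact fun h => h.elim

/-- the adjoint of a collapsing simplex is a collapsing simplex -/
theorem Coll.step {n k j : ℕ} {a : (SS.Sing (Ω^ (Fin (j + 1)) (Sph n) (pt n))).S k} (ha : Coll a)
    {x : (SS.Sing (Ω^ (Fin j) (Sph n) (pt n))).S (k + 1)}
    (hs : IsSph (K := SS.Sing (Ω^ (Fin j) (Sph n) (pt n))) (LoopStr.cY GenLoop.const 0) x)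
    (hx : ∀ (s : I) (u : Dl k), sg x (qB (s, u)) = (genLoop j).ev (s, sg a u)) : Coll x := by
  have hev : ∀ (s : I) (u : Dl k) (t : Fin j → I), sg x (qB (s, u)) t =
      sg a u (Fin.snoc (α := fun _ => I) t s) := by
    intro s u t
    rw [hx]
    show Cubes735.ev s (sg a u) t = _
    rw [Cubes735.ev_apply]
  have hbd : ∀ (s : I) (u : Dl k) (t : Fin j → I), (qB (s, u) ∉ Bdy (k + 1) ∧
      t ∉ Cube.boundary (Fin j)) ↔ (u ∉ Bdy k ∧
        (Fin.snoc (α := fun _ => I) t s : Fin (j + 1) → I) ∉ Cube.boundary (Fin (j + 1))) := by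
    intro s u t
    rw [qB_mem_Bdy, mem_boundary_iff, Fin.init_snoc, Fin.snoc_last]
    tauto
  refine ⟨(isSph_iff _ x).1 hs, ?_, ?_, ?_⟩
  · intro v t hv ht
    obtain ⟨⟨s, u⟩, rfl⟩ := qB_surjective v
    rw [hev]
    obtain ⟨h1, h2⟩ := (hbd s u t).1 ⟨hv, ht⟩
    exact ha.ne u _ h1 h2
  · intro v v' t t' hv ht hv' ht' h
    obtain ⟨⟨s, u⟩, rfl⟩ := qB_surjective v
    obtain ⟨⟨s', u'⟩, rfl⟩ := qB_surjective v'
    rw [hev, hev] at h
    obtain ⟨h1, h2⟩ := (hbd s u t).1 ⟨hv, ht⟩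
    obtain ⟨h1', h2'⟩ := (hbd s' u' t').1 ⟨hv', ht'⟩
    obtain ⟨e1, e2⟩ := ha.inj u u' _ _ h1 h2 h1' h2' h
    have e3 : s = s' := by
      have := congrFun e2 (Fin.last j)
      rwa [Fin.snoc_last, Fin.snoc_last] at this
    have e4 : t = t' := by
      have := congrArg (fun w : Fin (j + 1) → I => (Fin.init (α := fun _ => I) w : Fin j → I)) e2
      simpa only [Fin.init_snoc] using this
    exact ⟨by rw [e1, e3], e4⟩
  · intro y hy
    obtain ⟨u, w, h1, h2, h3⟩ := ha.surj y hy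
    have e : (Fin.snoc (α := fun _ => I) (Fin.init w) (w (Fin.last j)) : Fin (j + 1) → I) = w :=
      Fin.snoc_init_self w
    have := (hbd (w (Fin.last j)) u (Fin.init w)).2 ⟨h1, by rw [e]; exact h2⟩
    exact ⟨qB (w (Fin.last j), u), Fin.init w, this.1, this.2, by rw [hev, e, h3]⟩

/-! ## the classes `x_k` -/

/-- `x = σ^k [ι_n]` in `H_*(Ω^j S^n)`, `k + j = n` -/
inductive IsX (n : ℕ) : (k j : ℕ) → H F2 (SS.Sing (Ω^ (Fin j) (Sph n) (pt n))) → Prop
  | zero : IsX n 0 n (Coalg847.vtx (HspSS696.ptS (iotaL n)))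
  | succ {k j : ℕ} {x : H F2 (SS.Sing (Ω^ (Fin (j + 1)) (Sph n) (pt n)))} :
      IsX n k (j + 1) x → IsX n (k + 1) j ((genLoop j).sigma x)

theorem IsX.add {n k j : ℕ} {x : H F2 (SS.Sing (Ω^ (Fin j) (Sph n) (pt n)))} (h : IsX n k j x) :
    k + j = n := by
  induction h with
  | zero => exact Nat.zero_add n
  | succ _ ih => omega

/-- `x_k` is the class of one collapsing simplex -/
theorem IsX.exists_simplex {n k j : ℕ} {x : H F2 (SS.Sing (Ω^ (Fin j) (Sph n) (pt n)))}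
    (h : IsX n k j x) : ∃ (a : (SS.Sing (Ω^ (Fin j) (Sph n) (pt n))).S k)
      (hz : N.bd F2 _ (N.sx F2 a) = 0), Coll a ∧ x = cls a hz := by
  induction h with
  | zero => exact ⟨_, Coalg847.bd_vertex _, coll_iota n, rfl⟩
  | succ _ ih =>
    obtain ⟨a, hz, ha, rfl⟩ := ih
    obtain ⟨x, hx, hs, hB, e⟩ := sigma_cls (genLoop _) a ha.isSph hz
    exact ⟨x, hx, ha.step hs hB, e⟩

/-- evaluation `Ω^0 Z → Z` -/
def ev0 {Z : Type} [TopologicalSpace Z] {z₀ : Z} : C(Ω^ (Fin 0) Z z₀, Z) where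
  toFun g := g (fun i => i.elim0)
  continuous_toFun := by
    have h : Continuous fun g : Ω^ (Fin 0) Z z₀ => (g : C(Fin 0 → I, Z)) := continuous_subtype_val
    exact (continuous_eval_const (F := C(Fin 0 → I, Z)) (fun i => i.elim0)).comp h

theorem IsX.ne_zero_of_j {n : ℕ} (hn : 1 ≤ n) {x : H F2 (SS.Sing (Ω^ (Fin 0) (Sph n) (pt n)))}
    (h : IsX n n 0 x) : x ≠ 0 := by
  obtain ⟨a, hz, ha, rfl⟩ := h.exists_simplex
  obtain ⟨m, rfl⟩ : ∃ m, n = m + 1 := ⟨n - 1, by omega⟩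
  intro h0
  have ht : ∀ t : Fin 0 → I, t ∉ Cube.boundary (Fin 0) := fun t ⟨i, _⟩ => i.elim0
  have htt : ∀ t : Fin 0 → I, t = fun i => i.elim0 := fun t => funext fun i => i.elim0
  set b : (SS.Sing (Sph (m + 1))).S (m + 1) := (SS.SingMap ev0).app (m + 1) a with hb
  have hbu : ∀ u : Dl (m + 1), sg b u = sg a u (fun i => i.elim0) := fun u => rfl
  have hface : ∀ i, (SS.Sing (Sph (m + 1))).act (Op.face i) b = SpecA.cst (pt (m + 1)) m := by
    intro i
    refine ContinuousMap.ext fun u => ?_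
    show sg a (stdSimplex.map (Op.face i) u) _ = pt (m + 1)
    rw [ha.sph]
    · rfl
    · refine map_mem_Bdy _ (fun hs => ?_) u
      obtain ⟨c, hc⟩ := hs i
      have h3 := congrArg Fin.val hc
      change ((Op.face i c : Fin (m + 2)) : ℕ) = i at h3
      rw [Ch.face_val] at h3
      split_ifs at h3 <;> omega
  have hbz : N.bd F2 (SS.Sing (Sph (m + 1))) (N.sx F2 b) = 0 := by
    have := congrArg (N.map F2 (SS.SingMap (ev0 (z₀ := pt (m + 1))))) hz
    rw [map_zero] at this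
    rw [hb, ← N.map_sx]
    have e := LinearMap.congr_fun (N.map_bd (R := F2) (SS.SingMap (ev0 (z₀ := pt (m + 1)))))
      (N.sx F2 a)
    exact e.symm.trans this
  have key := Sph94.collapseGen m (pt (m + 1)) b hface ?_ ?_ hbz
  · apply key
    have e := congrArg (H.map F2 (SS.SingMap (ev0 (z₀ := pt (m + 1))))) h0
    rw [map_zero] at e
    exact (Hd.mk_eq_mk.2 ⟨0, by rw [map_zero]; exact (sub_eq_zero.2 (N.map_sx _ a).symm).symm⟩ :
      Hd.mk _ (N.sx F2 b) hbz = H.map F2 (SS.SingMap ev0) (cls a hz)).trans e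
  · intro y
    by_cases hy : y = pt (m + 1)
    · let v0 : Dl m := ⟨fun i => if i = 0 then 1 else 0, fun i => by
        show (0 : ℝ) ≤ if i = 0 then 1 else 0
        split_ifs <;> norm_num, by simp⟩
      refine ⟨stdSimplex.map (Op.face (0 : Fin (m + 2))) v0, ?_⟩
      have := congrArg (fun f : C(Dl m, Sph (m + 1)) => f v0) (hface 0)
      exact this.trans hy.symm
    · obtain ⟨u, t, -, -, h3⟩ := ha.surj y hy
      refine ⟨u, ?_⟩
      show sg a u (fun i => i.elim0) = y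
      rw [← htt t]
      exact h3
  · intro p q hpq
    have hpq' : sg a p (fun i => i.elim0) = sg a q (fun i => i.elim0) := hpq
    by_cases hp : p ∈ Bdy (m + 1)
    · by_cases hq : q ∈ Bdy (m + 1)
      · exact Or.inr ⟨hp, hq⟩
      · rw [ha.sph p hp] at hpq'
        exact (ha.ne q _ hq (ht _) hpq'.symm).elim
    · by_cases hq : q ∈ Bdy (m + 1)
      · rw [ha.sph q hq] at hpq'
        exact (ha.ne p _ hp (ht _) hpq').elim
      · exact Or.inl (ha.inj p q _ _ hp (ht _) hq (ht _) hpq').1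

/-- `x_k ≠ 0` -/
theorem IsX.ne_zero {n : ℕ} (hn : 1 ≤ n) : ∀ (j k : ℕ)
    (x : H F2 (SS.Sing (Ω^ (Fin j) (Sph n) (pt n)))), IsX n k j x → x ≠ 0
  | 0, k, x, h => by
    obtain rfl : k = n := by have := h.add; omega
    exact h.ne_zero_of_j hn
  | j + 1, k, x, h => fun h0 => IsX.ne_zero hn j (k + 1) _ h.succ (by rw [h0, map_zero])

end Crest.Agent.R204.Inst194
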