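import Crest.Agent.R204.BaseR_170
import Crest.Agent.R204.XNe_194

/-!
# Row 204, block B (helper170): `p.tower.x k ≠ 0`, and `FactPoly` for the concrete tower
-/

set_option autoImplicit false

noncomputable section

namespace Crest.Agent.R204.BaseR170

open Topology.Homotopy
open Crest.Agent.R204 Crest.Agent.R204.SS Crest.Agent.R204.Freu297 Crest.Agent.R204.Inst194

theorem isX_loopC {n k a b : ℕ} (h : a = b + 1) {x : H F2 (SS.Sing (GenLoop (Fin a) (Sph n) (pt n)))}
    (hx : IsX n k a x) : IsX n (k + 1) b ((loopC h).sigma x) := by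
  subst h; exact hx.succ

variable (p : Par)

theorem tower_isX : ∀ k, k ≤ p.K → IsX p.n k (cd p.J0 p.K k) (p.tower.x k)
  | 0, _ => IsX.zero
  | k + 1, hk => by
    have h1 := isX_loopC (cd_succ (J0 := p.J0) hk) (tower_isX k (by omega))
    have h2 : p.x (k + 1) = (loopX p.J0 hk).sigma (p.x k) :=
      LinearMap.congr_fun (show p.sig k = (loopX p.J0 hk).sigma from dif_pos (show k < p.K from hk))
        (p.x k)
    show IsX p.n (k + 1) (cd p.J0 p.K (k + 1)) (p.x (k + 1))
    rw [h2]
    exact h1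

/-- `x_k ≠ 0` for all `k ≤ K` -/
theorem tower_x_ne {k : ℕ} (hK : 1 ≤ p.n) (hk : k ≤ p.K) : p.tower.x k ≠ 0 :=
  IsX.ne_zero hK _ _ _ (tower_isX p k hk)

end Crest.Agent.R204.BaseR170
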