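import Crest.Agent.R204.Bis2_343
import Crest.Agent.R204.EZCross_271

/-!
# Row 204, block B: functoriality and the Eilenberg-Zilber product of normalised total complexes of
bisimplicial sets (helper343).

`Tot.map`, `Tot.lift`, `box : N K → N L → Tot (K ⊠ L)`, `xT : Tot E → Tot E' → Tot (E × E')` with the
Leibniz rules `dH_xT`, `dV_xT`, `D_xT`, naturality `map_xT`, compatibility with filtrations and degrees,
and with the augmentation of Cech nerves (`Cech.aug_xT`).
-/

set_option autoImplicit false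

namespace Crest.Agent.R204.Bis343

open Finsupp EZ271

theorem neg_one_pow_F2 (n : ℕ) : ((-1 : F2) ^ n) = 1 := by
  have : (-1 : F2) = 1 := rfl
  rw [this, one_pow]

namespace BSS

/-- maps of bisimplicial sets -/
@[ext] structure Hom (E E' : BSS) where
  app : ∀ p q : ℕ, E.S p q → E'.S p q
  hnat : ∀ {m n q : ℕ} (f : Op m n) (x : E.S n q), app m q (E.hact f x) = E'.hact f (app n q x)
  vnat : ∀ {m n p : ℕ} (f : Op m n) (x : E.S p n), app p m (E.vact f x) = E'.vact f (app p n x)

/-- identity -/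
def Hom.id (E : BSS) : Hom E E := ⟨fun _ _ x => x, fun _ _ => rfl, fun _ _ => rfl⟩

/-- composition (`g` after `f`) -/
def Hom.comp {E E' E'' : BSS} (g : Hom E' E'') (f : Hom E E') : Hom E E'' :=
  ⟨fun p q x => g.app p q (f.app p q x), fun a x => by rw [f.hnat, g.hnat], fun a x => by rw [f.vnat, g.vnat]⟩

/-- induced map of columns -/
def Hom.col {E E' : BSS} (φ : Hom E E') (p : ℕ) : SS.Hom (E.col p) (E'.col p) :=
  ⟨fun q x => φ.app p q x, fun f x => φ.vnat f x⟩

/-- induced map of rows -/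
def Hom.row {E E' : BSS} (φ : Hom E E') (q : ℕ) : SS.Hom (E.row q) (E'.row q) :=
  ⟨fun p x => φ.app p q x, fun f x => φ.hnat f x⟩

/-- product -/
def prod (E E' : BSS) : BSS where
  S p q := E.S p q × E'.S p q
  hact f x := (E.hact f x.1, E'.hact f x.2)
  vact f x := (E.vact f x.1, E'.vact f x.2)
  hact_id x := by simp [E.hact_id, E'.hact_id]
  hact_comp f g x := by simp [E.hact_comp, E'.hact_comp]
  vact_id x := by simp [E.vact_id, E'.vact_id]
  vact_comp f g x := by simp [E.vact_comp, E'.vact_comp]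
  comm f g x := by simp [E.comm, E'.comm]

/-- product of maps -/
def prodMap {E F E' F' : BSS} (f : Hom E E') (g : Hom F F') : Hom (E.prod F) (E'.prod F') :=
  ⟨fun p q x => (f.app p q x.1, g.app p q x.2), fun a x => by simp [prod, f.hnat, g.hnat],
    fun a x => by simp [prod, f.vnat, g.vnat]⟩

/-- external product of simplicial sets -/
def boxP (K L : SS) : BSS where
  S p q := K.S p × L.S q
  hact f x := (K.act f x.1, x.2)
  vact f x := (x.1, L.act f x.2)
  hact_id x := by simp [K.act_id]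
  hact_comp f g x := by simp [K.act_comp]
  vact_id x := by simp [L.act_id]
  vact_comp f g x := by simp [L.act_comp]
  comm f g x := rfl

/-- pair as a bisimplex of the external product -/
def bb {K L : SS} {p q : ℕ} (x : K.S p) (y : L.S q) : (boxP K L).S p q := (x, y)

theorem hact_bb {K L : SS} {p q m : ℕ} (f : Op m p) (x : K.S p) (y : L.S q) :
    (boxP K L).hact f (bb x y) = bb (K.act f x) y := rfl

theorem vact_bb {K L : SS} {p q m : ℕ} (f : Op m q) (x : K.S p) (y : L.S q) :
    (boxP K L).vact f (bb x y) = bb x (L.act f y) := rfl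

/-- external product of maps -/
def boxMap {K L K' L' : SS} (f : SS.Hom K K') (g : SS.Hom L L') : Hom (boxP K L) (boxP K' L') :=
  ⟨fun p q x => (f.app p x.1, g.app q x.2), fun a x => by simp [boxP, f.nat],
    fun a x => by simp [boxP, g.nat]⟩

namespace Tot

variable {E E' E'' F F' : BSS}

section lift
variable {M : Type*} [AddCommGroup M] [Module F2 M]

/-- linear maps out of the normalised total complex -/
noncomputable def lift (φ : ∀ p q : ℕ, E.S p q → M)
    (h : ∀ (p q : ℕ) (j : Fin (p + 1)) (y : E.S p q), φ (p + 1) q (E.hact (Op.dgn j) y) = 0)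
    (h' : ∀ (p q : ℕ) (j : Fin (q + 1)) (y : E.S p q), φ p (q + 1) (E.vact (Op.dgn j) y) = 0) :
    E.Tot →ₗ[F2] M :=
  Submodule.liftQ _ (Finsupp.linearCombination F2 (fun t : E.TT => φ t.1 t.2.1 t.2.2)) (by
    refine Submodule.span_le.2 ?_
    rintro _ ⟨p, q, x, hx | hx, rfl⟩
    · rcases p with _ | p
      · exact hx.elim
      · obtain ⟨j, y, rfl⟩ := hx
        simp [h]
    · rcases q with _ | q
      · exact hx.elim
      · obtain ⟨j, y, rfl⟩ := hx
        simp [h'])

@[simp] theorem lift_bx (φ : ∀ p q : ℕ, E.S p q → M)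
    (h : ∀ (p q : ℕ) (j : Fin (p + 1)) (y : E.S p q), φ (p + 1) q (E.hact (Op.dgn j) y) = 0)
    (h' : ∀ (p q : ℕ) (j : Fin (q + 1)) (y : E.S p q), φ p (q + 1) (E.vact (Op.dgn j) y) = 0)
    {p q : ℕ} (x : E.S p q) : lift φ h h' (bx x) = φ p q x := by
  unfold lift bx
  erw [Submodule.liftQ_apply]
  simp

theorem induction_on {P : E.Tot → Prop} (c : E.Tot) (h0 : P 0) (hadd : ∀ a b, P a → P b → P (a + b))
    (hbx : ∀ (p q : ℕ) (x : E.S p q), P (bx x)) : P c := by
  obtain ⟨c, rfl⟩ := Submodule.Quotient.mk_surjective _ c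
  induction c using induction_H with
  | h0 => exact h0
  | ha a b ha hb => rw [Submodule.Quotient.mk_add]; exact hadd _ _ ha hb
  | h p q x r =>
    rw [mk_single]
    rcases (show r = 0 ∨ r = 1 by revert r; decide) with rfl | rfl
    · rw [zero_smul]; exact h0
    · rw [one_smul]; exact hbx p q x

theorem hom_ext {f g : E.Tot →ₗ[F2] M} (h : ∀ (p q : ℕ) (x : E.S p q), f (bx x) = g (bx x)) : f = g := by
  refine LinearMap.ext fun c => ?_
  refine induction_on (P := fun c => f c = g c) _ ?_ ?_ ?_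
  · simp
  · intro a b ha hb; rw [map_add, map_add, ha, hb]
  · exact h

end lift

theorem bx_hdgn {p q : ℕ} (j : Fin (p + 1)) (y : E.S p q) : bx (E.hact (Op.dgn j) y) = 0 :=
  (Submodule.Quotient.mk_eq_zero _).2 (Submodule.subset_span ⟨p + 1, q, _, Or.inl ⟨j, y, rfl⟩, rfl⟩)

theorem bx_vdgn {p q : ℕ} (j : Fin (q + 1)) (y : E.S p q) : bx (E.vact (Op.dgn j) y) = 0 :=
  (Submodule.Quotient.mk_eq_zero _).2 (Submodule.subset_span ⟨p, q + 1, _, Or.inr ⟨j, y, rfl⟩, rfl⟩)

theorem dH_bx_zero {q : ℕ} (x : E.S 0 q) : dH E (bx x) = 0 := by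
  rw [bx, dH_mk, dh_zero]; rfl

theorem dH_bx_succ {p q : ℕ} (x : E.S (p + 1) q) :
    dH E (bx x) = ∑ i : Fin (p + 2), bx (E.hact (Op.face i) x) := by
  rw [bx, dH_mk, dh_succ, ← Submodule.mkQ_apply, map_sum]
  rfl

theorem dV_bx_zero {p : ℕ} (x : E.S p 0) : dV E (bx x) = 0 := by
  rw [bx, dV_mk, dv_zero]; rfl

theorem dV_bx_succ {p q : ℕ} (x : E.S p (q + 1)) :
    dV E (bx x) = ∑ i : Fin (q + 2), bx (E.vact (Op.face i) x) := by
  rw [bx, dV_mk, dv_succ, ← Submodule.mkQ_apply, map_sum]
  rfl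

/-- functoriality -/
noncomputable def map (φ : Hom E E') : E.Tot →ₗ[F2] E'.Tot :=
  lift (fun p q x => bx (φ.app p q x)) (fun p q j y => by rw [φ.hnat, bx_hdgn])
    (fun p q j y => by rw [φ.vnat, bx_vdgn])

@[simp] theorem map_bx (φ : Hom E E') {p q : ℕ} (x : E.S p q) : map φ (bx x) = bx (φ.app p q x) := by
  simp [map]

theorem map_map (φ : Hom E E') (ψ : Hom E' E'') (c : E.Tot) : map ψ (map φ c) = map (ψ.comp φ) c := by
  have : map ψ ∘ₗ map φ = map (ψ.comp φ) := hom_ext fun p q x => by simp [Hom.comp]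
  exact LinearMap.congr_fun this c

theorem map_id (c : E.Tot) : map (Hom.id E) c = c := by
  have : map (Hom.id E) = LinearMap.id := hom_ext fun p q x => by simp [Hom.id]
  exact LinearMap.congr_fun this c

theorem dH_map (φ : Hom E E') (c : E.Tot) : dH E' (map φ c) = map φ (dH E c) := by
  have : dH E' ∘ₗ map φ = map φ ∘ₗ dH E := hom_ext fun p q x => by
    simp only [LinearMap.comp_apply, map_bx]
    rcases p with _ | p
    · rw [dH_bx_zero, dH_bx_zero, map_zero]
    · rw [dH_bx_succ, dH_bx_succ, map_sum]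
      simp only [map_bx, φ.hnat]
  exact LinearMap.congr_fun this c

theorem dV_map (φ : Hom E E') (c : E.Tot) : dV E' (map φ c) = map φ (dV E c) := by
  have : dV E' ∘ₗ map φ = map φ ∘ₗ dV E := hom_ext fun p q x => by
    simp only [LinearMap.comp_apply, map_bx]
    rcases q with _ | q
    · rw [dV_bx_zero, dV_bx_zero, map_zero]
    · rw [dV_bx_succ, dV_bx_succ, map_sum]
      simp only [map_bx, φ.vnat]
  exact LinearMap.congr_fun this c

theorem D_map (φ : Hom E E') (c : E.Tot) : D E' (map φ c) = map φ (D E c) := by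
  rw [D_apply, D_apply, dH_map, dV_map, map_add]

/-! ### external product -/

section box
variable {K L K' L' : SS}

/-- external product of chains -/
noncomputable def box (K L : SS) : N F2 K →ₗ[F2] N F2 L →ₗ[F2] (boxP K L).Tot :=
  liftN (fun p x => liftN (fun q y => bx (bb x y))
    (fun q j y => by rw [← vact_bb, bx_vdgn]))
    (fun p j x => by
      refine EZ271.hom_ext fun q y => ?_
      rw [liftN_sx, LinearMap.zero_apply, ← hact_bb, bx_hdgn])

theorem box_sx {p q : ℕ} (x : K.S p) (y : L.S q) :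
    box K L (N.sx F2 x) (N.sx F2 y) = bx (bb x y) := by
  rw [box, liftN_sx, liftN_sx]

theorem boxMap_bb (f : SS.Hom K K') (g : SS.Hom L L') {p q : ℕ} (x : K.S p) (y : L.S q) :
    (boxMap f g).app p q (bb x y) = bb (f.app p x) (g.app q y) := rfl

theorem map_box (f : SS.Hom K K') (g : SS.Hom L L') (a : N F2 K) (b : N F2 L) :
    map (boxMap f g) (box K L a b) = box K' L' (N.map F2 f a) (N.map F2 g b) := by
  have : (box K L).compr₂ (map (boxMap f g)) = ((box K' L').comp (N.map F2 f)).compl₂ (N.map F2 g) := by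
    refine bilin_ext F2 fun p x q y => ?_
    simp only [LinearMap.compr₂_apply, LinearMap.compl₂_apply, LinearMap.comp_apply, N.map_sx, box_sx,
      map_bx, boxMap_bb]
  exact LinearMap.congr_fun₂ this a b

theorem dH_box (a : N F2 K) (b : N F2 L) : dH _ (box K L a b) = box K L (N.bd F2 K a) b := by
  have : (box K L).compr₂ (dH _) = (box K L).comp (N.bd F2 K) := by
    refine bilin_ext F2 fun p x q y => ?_
    simp only [LinearMap.compr₂_apply, LinearMap.comp_apply, box_sx]
    rcases p with _ | p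
    · rw [dH_bx_zero, bd_sx_zero, map_zero, LinearMap.zero_apply]
    · rw [dH_bx_succ, bd_sx_succ, map_sum, LinearMap.sum_apply]
      simp only [neg_one_pow_F2, one_smul, box_sx, hact_bb]
  exact LinearMap.congr_fun₂ this a b

theorem dV_box (a : N F2 K) (b : N F2 L) : dV _ (box K L a b) = box K L a (N.bd F2 L b) := by
  have : (box K L).compr₂ (dV _) = (box K L).compl₂ (N.bd F2 L) := by
    refine bilin_ext F2 fun p x q y => ?_
    simp only [LinearMap.compr₂_apply, LinearMap.compl₂_apply, box_sx]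
    rcases q with _ | q
    · rw [dV_bx_zero, bd_sx_zero, map_zero]
    · rw [dV_bx_succ, bd_sx_succ, map_sum]
      simp only [neg_one_pow_F2, one_smul, box_sx, vact_bb]
  exact LinearMap.congr_fun₂ this a b

end box

/-! ### the product -/

/-- components of a simplex of the product of two standard simplices -/
def p1 {p p' m : ℕ} (z : ((SS.std p).prod (SS.std p')).S m) : Op m p := z.1
/-- components of a simplex of the product of two standard simplices -/
def p2 {p p' m : ℕ} (z : ((SS.std p).prod (SS.std p')).S m) : Op m p' := z.2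

theorem p1_act {p p' m l : ℕ} (f : Op l m) (z : ((SS.std p).prod (SS.std p')).S m) :
    p1 (((SS.std p).prod (SS.std p')).act f z) = (p1 z).comp f := rfl
theorem p2_act {p p' m l : ℕ} (f : Op l m) (z : ((SS.std p).prod (SS.std p')).S m) :
    p2 (((SS.std p).prod (SS.std p')).act f z) = (p2 z).comp f := rfl
theorem p1_map {p p' r r' m : ℕ} (f : Op p r) (g : Op p' r') (z : ((SS.std p).prod (SS.std p')).S m) :
    p1 ((SS.prodMap (stdMap f) (stdMap g)).app m z) = f.comp (p1 z) := rfl
theorem p2_map {p p' r r' m : ℕ} (f : Op p r) (g : Op p' r') (z : ((SS.std p).prod (SS.std p')).S m) :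
    p2 ((SS.prodMap (stdMap f) (stdMap g)).app m z) = g.comp (p2 z) := rfl

/-- horizontal / vertical components of a bisimplex of an external product -/
def b1 {K L : SS} {m n : ℕ} (z : (boxP K L).S m n) : K.S m := z.1
/-- horizontal / vertical components of a bisimplex of an external product -/
def b2 {K L : SS} {m n : ℕ} (z : (boxP K L).S m n) : L.S n := z.2

theorem b1_hact {K L : SS} {m n l : ℕ} (f : Op l m) (z : (boxP K L).S m n) :
    b1 ((boxP K L).hact f z) = K.act f (b1 z) := rfl
theorem b2_hact {K L : SS} {m n l : ℕ} (f : Op l m) (z : (boxP K L).S m n) :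
    b2 ((boxP K L).hact f z) = b2 z := rfl
theorem b1_vact {K L : SS} {m n l : ℕ} (f : Op l n) (z : (boxP K L).S m n) :
    b1 ((boxP K L).vact f z) = b1 z := rfl
theorem b2_vact {K L : SS} {m n l : ℕ} (f : Op l n) (z : (boxP K L).S m n) :
    b2 ((boxP K L).vact f z) = L.act f (b2 z) := rfl

/-- underlying function of `yoP` -/
def yoF {p q p' q' : ℕ} (x : E.S p q) (y : E'.S p' q') (m n : ℕ)
    (z : (boxP ((SS.std p).prod (SS.std p')) ((SS.std q).prod (SS.std q'))).S m n) : (E.prod E').S m n :=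
  (E.hact (p1 (b1 z)) (E.vact (p1 (b2 z)) x), E'.hact (p2 (b1 z)) (E'.vact (p2 (b2 z)) y))

/-- pair of bisimplices as a map from an external product of standard simplices -/
def yoP {p q p' q' : ℕ} (x : E.S p q) (y : E'.S p' q') :
    Hom (boxP ((SS.std p).prod (SS.std p')) ((SS.std q).prod (SS.std q'))) (E.prod E') where
  app := yoF x y
  hnat f z := by
    refine Prod.ext ?_ ?_
    · show E.hact (p1 (b1 _)) (E.vact (p1 (b2 _)) x) = E.hact f (E.hact (p1 (b1 z)) (E.vact (p1 (b2 z)) x))
      rw [b1_hact, b2_hact, p1_act, E.hact_comp]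
    · show E'.hact (p2 (b1 _)) (E'.vact (p2 (b2 _)) y) =
        E'.hact f (E'.hact (p2 (b1 z)) (E'.vact (p2 (b2 z)) y))
      rw [b1_hact, b2_hact, p2_act, E'.hact_comp]
  vnat f z := by
    refine Prod.ext ?_ ?_
    · show E.hact (p1 (b1 _)) (E.vact (p1 (b2 _)) x) = E.vact f (E.hact (p1 (b1 z)) (E.vact (p1 (b2 z)) x))
      rw [b1_vact, b2_vact, p1_act, E.vact_comp, E.comm]
    · show E'.hact (p2 (b1 _)) (E'.vact (p2 (b2 _)) y) =
        E'.vact f (E'.hact (p2 (b1 z)) (E'.vact (p2 (b2 z)) y))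
      rw [b1_vact, b2_vact, p2_act, E'.vact_comp, E'.comm]

/-- evaluation of universal chains on a pair of bisimplices -/
noncomputable def evP {p q p' q' : ℕ} (x : E.S p q) (y : E'.S p' q')
    (α : N F2 ((SS.std p).prod (SS.std p'))) (β : N F2 ((SS.std q).prod (SS.std q'))) :
    (E.prod E').Tot := map (yoP x y) (box _ _ α β)

theorem evP_hact_left {m p q p' q' : ℕ} (f : Op m p) (x : E.S p q) (y : E'.S p' q')
    (α : N F2 ((SS.std m).prod (SS.std p'))) (β : N F2 ((SS.std q).prod (SS.std q'))) :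
    evP (E.hact f x) y α β = evP x y (N.map F2 (SS.prodMap (stdMap f) (SS.Hom.id _)) α) β := by
  unfold evP
  have e : box _ _ (N.map F2 (SS.prodMap (stdMap f) (SS.Hom.id (SS.std p'))) α) β =
      map (boxMap (SS.prodMap (stdMap f) (SS.Hom.id (SS.std p'))) (SS.Hom.id _)) (box _ _ α β) := by
    rw [map_box, map_idHom]
  rw [e, map_map]
  congr 2
  refine Hom.ext (funext fun m' => funext fun n' => funext fun z => Prod.ext ?_ rfl)
  show E.hact (p1 (b1 z)) (E.vact (p1 (b2 z)) (E.hact f x)) = E.hact (f.comp (p1 (b1 z))) (E.vact (p1 (b2 z)) x)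
  rw [E.hact_comp, ← E.comm]

theorem evP_hact_right {m p q p' q' : ℕ} (f : Op m p') (x : E.S p q) (y : E'.S p' q')
    (α : N F2 ((SS.std p).prod (SS.std m))) (β : N F2 ((SS.std q).prod (SS.std q'))) :
    evP x (E'.hact f y) α β = evP x y (N.map F2 (SS.prodMap (SS.Hom.id _) (stdMap f)) α) β := by
  unfold evP
  have e : box _ _ (N.map F2 (SS.prodMap (SS.Hom.id (SS.std p)) (stdMap f)) α) β =
      map (boxMap (SS.prodMap (SS.Hom.id (SS.std p)) (stdMap f)) (SS.Hom.id _)) (box _ _ α β) := by
    rw [map_box, map_idHom]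
  rw [e, map_map]
  congr 2
  refine Hom.ext (funext fun m' => funext fun n' => funext fun z => Prod.ext rfl ?_)
  show E'.hact (p2 (b1 z)) (E'.vact (p2 (b2 z)) (E'.hact f y)) =
    E'.hact (f.comp (p2 (b1 z))) (E'.vact (p2 (b2 z)) y)
  rw [E'.hact_comp, ← E'.comm]

theorem evP_vact_left {m p q p' q' : ℕ} (f : Op m q) (x : E.S p q) (y : E'.S p' q')
    (α : N F2 ((SS.std p).prod (SS.std p'))) (β : N F2 ((SS.std m).prod (SS.std q'))) :
    evP (E.vact f x) y α β = evP x y α (N.map F2 (SS.prodMap (stdMap f) (SS.Hom.id _)) β) := by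
  unfold evP
  have e : box _ _ α (N.map F2 (SS.prodMap (stdMap f) (SS.Hom.id (SS.std q'))) β) =
      map (boxMap (SS.Hom.id _) (SS.prodMap (stdMap f) (SS.Hom.id (SS.std q')))) (box _ _ α β) := by
    rw [map_box, map_idHom]
  rw [e, map_map]
  congr 2
  refine Hom.ext (funext fun m' => funext fun n' => funext fun z => Prod.ext ?_ rfl)
  show E.hact (p1 (b1 z)) (E.vact (p1 (b2 z)) (E.vact f x)) = E.hact (p1 (b1 z)) (E.vact (f.comp (p1 (b2 z))) x)
  rw [E.vact_comp]

theorem evP_vact_right {m p q p' q' : ℕ} (f : Op m q') (x : E.S p q) (y : E'.S p' q')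
    (α : N F2 ((SS.std p).prod (SS.std p'))) (β : N F2 ((SS.std q).prod (SS.std m))) :
    evP x (E'.vact f y) α β = evP x y α (N.map F2 (SS.prodMap (SS.Hom.id _) (stdMap f)) β) := by
  unfold evP
  have e : box _ _ α (N.map F2 (SS.prodMap (SS.Hom.id (SS.std q)) (stdMap f)) β) =
      map (boxMap (SS.Hom.id _) (SS.prodMap (SS.Hom.id (SS.std q)) (stdMap f))) (box _ _ α β) := by
    rw [map_box, map_idHom]
  rw [e, map_map]
  congr 2
  refine Hom.ext (funext fun m' => funext fun n' => funext fun z => Prod.ext rfl ?_)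
  show E'.hact (p2 (b1 z)) (E'.vact (p2 (b2 z)) (E'.vact f y)) =
    E'.hact (p2 (b1 z)) (E'.vact (f.comp (p2 (b2 z))) y)
  rw [E'.vact_comp]

/-- the Eilenberg-Zilber product of total complexes -/
noncomputable def xT : E.Tot →ₗ[F2] E'.Tot →ₗ[F2] (E.prod E').Tot :=
  lift (fun p q x => lift (fun p' q' y => evP x y (EZ271.E F2 p p') (EZ271.E F2 q q'))
      (fun p' q' j y => by
        rw [evP_hact_right, E_dgn_right, evP, map_zero, LinearMap.zero_apply, map_zero])
      (fun p' q' j y => by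
        rw [evP_vact_right, E_dgn_right, evP, map_zero, map_zero]))
    (fun p q j x => by
      refine hom_ext fun p' q' y => ?_
      rw [lift_bx, LinearMap.zero_apply, evP_hact_left, E_dgn_left, evP, map_zero,
        LinearMap.zero_apply, map_zero])
    (fun p q j x => by
      refine hom_ext fun p' q' y => ?_
      rw [lift_bx, LinearMap.zero_apply, evP_vact_left, E_dgn_left, evP, map_zero, map_zero])

theorem xT_bx {p q p' q' : ℕ} (x : E.S p q) (y : E'.S p' q') :
    xT (bx x) (bx y) = evP x y (EZ271.E F2 p p') (EZ271.E F2 q q') := by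
  simp [xT]

theorem evP_add_left {p q p' q' : ℕ} (x : E.S p q) (y : E'.S p' q')
    (α α' : N F2 ((SS.std p).prod (SS.std p'))) (β : N F2 ((SS.std q).prod (SS.std q'))) :
    evP x y (α + α') β = evP x y α β + evP x y α' β := by
  simp only [evP, map_add, LinearMap.add_apply]

theorem evP_sum_left {ι : Type*} (s : Finset ι) {p q p' q' : ℕ} (x : E.S p q) (y : E'.S p' q')
    (α : ι → N F2 ((SS.std p).prod (SS.std p'))) (β : N F2 ((SS.std q).prod (SS.std q'))) :
    evP x y (∑ i ∈ s, α i) β = ∑ i ∈ s, evP x y (α i) β := by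
  simp only [evP, map_sum, LinearMap.sum_apply]

theorem evP_sum_right {ι : Type*} (s : Finset ι) {p q p' q' : ℕ} (x : E.S p q) (y : E'.S p' q')
    (α : N F2 ((SS.std p).prod (SS.std p'))) (β : ι → N F2 ((SS.std q).prod (SS.std q'))) :
    evP x y α (∑ i ∈ s, β i) = ∑ i ∈ s, evP x y α (β i) := by
  simp only [evP, map_sum]

theorem evP_zero_left {p q p' q' : ℕ} (x : E.S p q) (y : E'.S p' q')
    (β : N F2 ((SS.std q).prod (SS.std q'))) : evP x y 0 β = 0 := by
  simp [evP]

theorem evP_zero_right {p q p' q' : ℕ} (x : E.S p q) (y : E'.S p' q')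
    (α : N F2 ((SS.std p).prod (SS.std p'))) : evP x y α 0 = 0 := by
  simp [evP]

theorem evP_add_right {p q p' q' : ℕ} (x : E.S p q) (y : E'.S p' q')
    (α : N F2 ((SS.std p).prod (SS.std p'))) (β β' : N F2 ((SS.std q).prod (SS.std q'))) :
    evP x y α (β + β') = evP x y α β + evP x y α β' := by
  simp only [evP, map_add]

/-- the fundamental simplex -/
def iot (p : ℕ) : (SS.std p).S p := (OrderHom.id : Op p p)

/-- a monotone map as a simplex of the standard simplex -/
def opS {m n : ℕ} (f : Op m n) : (SS.std n).S m := f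

theorem act_iot {m n : ℕ} (f : Op m n) : (SS.std n).act f (iot n) = opS f := rfl

theorem cross_iot (p q : ℕ) : cross F2 (N.sx F2 (iot p)) (N.sx F2 (iot q)) = EZ271.E F2 p q :=
  cross_iota F2 p q

theorem cross_opS_left {m p q : ℕ} (f : Op m p) : cross F2 (N.sx F2 (opS f)) (N.sx F2 (iot q)) =
    N.map F2 (SS.prodMap (stdMap f) (SS.Hom.id _)) (EZ271.E F2 m q) := by
  rw [← cross_iot, map_cross, N.map_sx, N.map_sx]
  rfl

theorem cross_opS_right {m p q : ℕ} (f : Op m q) : cross F2 (N.sx F2 (iot p)) (N.sx F2 (opS f)) =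
    N.map F2 (SS.prodMap (SS.Hom.id _) (stdMap f)) (EZ271.E F2 p m) := by
  rw [← cross_iot, map_cross, N.map_sx, N.map_sx]
  rfl

/-- left boundary of the universal chain -/
noncomputable def dL (p p' : ℕ) : N F2 ((SS.std p).prod (SS.std p')) :=
  cross F2 (N.bd F2 _ (N.sx F2 (iot p))) (N.sx F2 (iot p'))

/-- right boundary of the universal chain -/
noncomputable def dR (p p' : ℕ) : N F2 ((SS.std p).prod (SS.std p')) :=
  cross F2 (N.sx F2 (iot p)) (N.bd F2 _ (N.sx F2 (iot p')))

theorem sg_F2 {K : SS} (c : N F2 K) : sg F2 c = c := by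
  have : sg F2 = (LinearMap.id : N F2 K →ₗ[F2] N F2 K) := EZ271.hom_ext fun n x => by
    rw [sg_sx, neg_one_pow_F2, one_smul, LinearMap.id_apply]
  exact LinearMap.congr_fun this c

theorem bd_E (p p' : ℕ) : N.bd F2 _ (EZ271.E F2 p p') = dL p p' + dR p p' := by
  rw [← cross_iot, bd_cross, sg_F2]; rfl

theorem dL_zero (p' : ℕ) : dL 0 p' = 0 := by
  rw [dL, bd_sx_zero, map_zero, LinearMap.zero_apply]

theorem dR_zero (p : ℕ) : dR p 0 = 0 := by
  rw [dR, bd_sx_zero, map_zero]

theorem dL_succ (p p' : ℕ) : dL (p + 1) p' = ∑ i : Fin (p + 2),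
    N.map F2 (SS.prodMap (stdMap (Op.face i)) (SS.Hom.id _)) (EZ271.E F2 p p') := by
  rw [dL, bd_sx_succ, map_sum, LinearMap.sum_apply]
  refine Finset.sum_congr rfl fun i _ => ?_
  rw [neg_one_pow_F2, one_smul, act_iot, cross_opS_left]

theorem dR_succ (p p' : ℕ) : dR p (p' + 1) = ∑ i : Fin (p' + 2),
    N.map F2 (SS.prodMap (SS.Hom.id _) (stdMap (Op.face i))) (EZ271.E F2 p p') := by
  rw [dR, bd_sx_succ, map_sum]
  refine Finset.sum_congr rfl fun i _ => ?_
  rw [neg_one_pow_F2, one_smul, act_iot, cross_opS_right]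

/-- horizontal Leibniz rule -/
theorem dH_xT (a : E.Tot) (b : E'.Tot) : dH _ (xT a b) = xT (dH E a) b + xT a (dH E' b) := by
  have : (xT (E := E) (E' := E')).compr₂ (dH _) = xT.comp (dH E) + xT.compl₂ (dH E') := by
    refine hom_ext fun p q x => hom_ext fun p' q' y => ?_
    simp only [LinearMap.compr₂_apply, LinearMap.compl₂_apply, LinearMap.comp_apply,
      LinearMap.add_apply]
    rw [xT_bx]
    have h0 : dH _ (evP x y (EZ271.E F2 p p') (EZ271.E F2 q q')) =
        evP x y (dL p p') (EZ271.E F2 q q') + evP x y (dR p p') (EZ271.E F2 q q') := by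
      rw [evP, dH_map, dH_box, bd_E, ← evP_add_left]; rfl
    rw [h0]
    congr 1
    · rcases p with _ | p
      · rw [dL_zero, evP_zero_left, dH_bx_zero, map_zero, LinearMap.zero_apply]
      · rw [dL_succ, evP_sum_left, dH_bx_succ, map_sum, LinearMap.sum_apply]
        refine Finset.sum_congr rfl fun i _ => ?_
        rw [xT_bx, evP_hact_left]
    · rcases p' with _ | p'
      · rw [dR_zero, evP_zero_left, dH_bx_zero, map_zero]
      · rw [dR_succ, evP_sum_left, dH_bx_succ, map_sum]
        refine Finset.sum_congr rfl fun i _ => ?_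
        rw [xT_bx, evP_hact_right]
  exact LinearMap.congr_fun₂ this a b

/-- vertical Leibniz rule -/
theorem dV_xT (a : E.Tot) (b : E'.Tot) : dV _ (xT a b) = xT (dV E a) b + xT a (dV E' b) := by
  have : (xT (E := E) (E' := E')).compr₂ (dV _) = xT.comp (dV E) + xT.compl₂ (dV E') := by
    refine hom_ext fun p q x => hom_ext fun p' q' y => ?_
    simp only [LinearMap.compr₂_apply, LinearMap.compl₂_apply, LinearMap.comp_apply,
      LinearMap.add_apply]
    rw [xT_bx]
    have h0 : dV _ (evP x y (EZ271.E F2 p p') (EZ271.E F2 q q')) =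
        evP x y (EZ271.E F2 p p') (dL q q') + evP x y (EZ271.E F2 p p') (dR q q') := by
      rw [evP, dV_map, dV_box, bd_E, ← evP_add_right]; rfl
    rw [h0]
    congr 1
    · rcases q with _ | q
      · rw [dL_zero, evP_zero_right, dV_bx_zero, map_zero, LinearMap.zero_apply]
      · rw [dL_succ, evP_sum_right, dV_bx_succ, map_sum, LinearMap.sum_apply]
        refine Finset.sum_congr rfl fun i _ => ?_
        rw [xT_bx, evP_vact_left]
    · rcases q' with _ | q'
      · rw [dR_zero, evP_zero_right, dV_bx_zero, map_zero]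
      · rw [dR_succ, evP_sum_right, dV_bx_succ, map_sum]
        refine Finset.sum_congr rfl fun i _ => ?_
        rw [xT_bx, evP_vact_right]
  exact LinearMap.congr_fun₂ this a b

/-- Leibniz rule for the total differential -/
theorem D_xT (a : E.Tot) (b : E'.Tot) : D _ (xT a b) = xT (D E a) b + xT a (D E' b) := by
  rw [D_apply, D_apply, D_apply, dH_xT, dV_xT, map_add, map_add, LinearMap.add_apply]
  abel

/-- naturality of the product -/
theorem map_xT (φ : Hom E F) (ψ : Hom E' F') (a : E.Tot) (b : E'.Tot) :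
    map (prodMap φ ψ) (xT a b) = xT (map φ a) (map ψ b) := by
  have : (xT (E := E) (E' := E')).compr₂ (map (prodMap φ ψ)) = (xT.comp (map φ)).compl₂ (map ψ) := by
    refine hom_ext fun p q x => hom_ext fun p' q' y => ?_
    simp only [LinearMap.compr₂_apply, LinearMap.compl₂_apply, LinearMap.comp_apply, map_bx]
    rw [xT_bx, xT_bx, evP, evP, map_map]
    congr 2
    refine Hom.ext (funext fun m' => funext fun n' => funext fun z => Prod.ext ?_ ?_)
    · show φ.app _ _ (E.hact (p1 (b1 z)) (E.vact (p1 (b2 z)) x)) =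
        F.hact (p1 (b1 z)) (F.vact (p1 (b2 z)) (φ.app _ _ x))
      rw [φ.hnat, φ.vnat]
    · show ψ.app _ _ (E'.hact (p2 (b1 z)) (E'.vact (p2 (b2 z)) y)) =
        F'.hact (p2 (b1 z)) (F'.vact (p2 (b2 z)) (ψ.app _ _ y))
      rw [ψ.hnat, ψ.vnat]
  exact LinearMap.congr_fun₂ this a b

end Tot

end BSS

end Crest.Agent.R204.Bis343
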