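import Crest.Agent.R204.Bis4_343
import Crest.Agent.R204.EZAW_271

/-!
# Row 204, block B (T3): the product of total complexes: filtration, degree, leading terms, augmentation of
Cech nerves, multiplication on the Cech nerve (helper343).
-/

set_option autoImplicit false

noncomputable section

namespace Crest.Agent.R204.Bis343

open Finsupp EZ271

/-! ## the universal shuffle chain -/

theorem cone_gr {K : SS} (A : Cone K) {n : ℕ} {z : N F2 K} (hz : z ∈ N.gr F2 K n) :
    A.c F2 z ∈ N.gr F2 K (n + 1) := by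
  refine Gr334.gr_induction (p := fun z => A.c F2 z ∈ N.gr F2 K (n + 1)) hz ?_ ?_ ?_ ?_
  · rw [map_zero]; exact Submodule.zero_mem _
  · intro a b ha hb; rw [map_add]; exact Submodule.add_mem _ ha hb
  · intro r a ha; rw [map_smul]; exact Submodule.smul_mem _ _ ha
  · intro x; rw [Cone.c_sx]; exact Gr334.sx_mem_gr _

theorem E_gr (n : ℕ) : ∀ p q : ℕ, p + q = n → EZ271.E F2 p q ∈ N.gr F2 ((SS.std p).prod (SS.std q)) n := by
  induction n with
  | zero =>
    intro p q h
    obtain rfl : p = 0 := by omega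
    obtain rfl : q = 0 := by omega
    rw [E_zero_zero]; exact Gr334.sx_mem_gr _
  | succ n ih =>
    intro p q h
    rcases p with _ | p <;> rcases q with _ | q
    · omega
    · rw [E_zero_succ]; exact cone_gr _ (Gr334.map_mem_gr _ (ih 0 q (by omega)))
    · rw [E_succ_zero]; exact cone_gr _ (Gr334.map_mem_gr _ (ih p 0 (by omega)))
    · rw [E_succ_succ]
      exact cone_gr _ (Submodule.add_mem _ (Gr334.map_mem_gr _ (ih p (q + 1) (by omega)))
        (Submodule.smul_mem _ _ (Gr334.map_mem_gr _ (ih (p + 1) q (by omega)))))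

/-- step function `[q+1] → [1]`, value `0` exactly on `{0,…,j}` -/
def chi {q : ℕ} (j : ℕ) : Op q 1 where
  toFun a := if (a : ℕ) ≤ j then 0 else 1
  monotone' a b h := by
    have h' : (a : ℕ) ≤ b := h
    dsimp only
    split_ifs with h1 h2 h2
    · exact le_rfl
    · exact Fin.zero_le _
    · omega
    · exact le_rfl

theorem chi_apply {q : ℕ} (j : ℕ) (a : Fin (q + 1)) :
    (chi (q := q) j) a = if (a : ℕ) ≤ j then (0 : Fin 2) else 1 := rfl

/-- simplices of a product of two standard simplices -/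
def pS {p p' m : ℕ} (f : Op m p) (g : Op m p') : ((SS.std p).prod (SS.std p')).S m := (f, g)

theorem k_pS {p p' m : ℕ} (f : Op m p) (g : Op m p') :
    (Cpq p p').k (pS f g) = pS (Op.cons f) (Op.cons g) := rfl

theorem E_zero_left (q : ℕ) : EZ271.E F2 0 q = N.sx F2 (pS (⟨fun _ => 0, fun _ _ _ => le_rfl⟩ : Op q 0)
    (OrderHom.id : Op q q)) := by
  induction q with
  | zero =>
    rw [E_zero_zero]
    congr 1
    refine Prod.ext rfl ?_
    refine OrderHom.ext _ _ (funext fun a => Fin.ext ?_)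
    have : ((OrderHom.id : Op 0 0) a : Fin 1) = a := rfl
    show (0 : ℕ) = _
    have h2 : ((OrderHom.id : Op 0 0) a : ℕ) = (a : ℕ) := rfl
    exact (by omega : (0 : ℕ) = (a : ℕ))
  | succ q ih =>
    rw [E_zero_succ, ih, N.map_sx]
    have e : (SS.prodMap (SS.Hom.id (SS.std 0)) (stdMap (Op.face (0 : Fin (q + 2))))).app q
        (pS (⟨fun _ => 0, fun _ _ _ => le_rfl⟩ : Op q 0) (OrderHom.id : Op q q)) =
        pS (⟨fun _ => 0, fun _ _ _ => le_rfl⟩ : Op q 0) (Op.face 0) := rfl
    rw [e, Cone.c_sx, k_pS]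
    congr 1
    refine Prod.ext ?_ ?_
    · refine OrderHom.ext _ _ (funext fun a => Fin.ext ?_)
      show ((Op.cons _ a : Fin 1) : ℕ) = 0
      omega
    · refine OrderHom.ext _ _ (funext fun a => ?_)
      refine Fin.cases ?_ (fun a => ?_) a
      · rfl
      · rfl

/-- the shuffle chain of type `(1, q)` -/
theorem E_one (q : ℕ) : EZ271.E F2 1 q = ∑ j : Fin (q + 1), N.sx F2 (pS (chi (q := q + 1) j) (Op.dgn j)) := by
  induction q with
  | zero =>
    rw [E_succ_zero, E_zero_zero, N.map_sx, Cone.c_sx, Fin.sum_univ_one]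
    congr 1
    refine Prod.ext ?_ ?_
    · refine OrderHom.ext _ _ (funext fun a => ?_)
      refine Fin.cases ?_ (fun a => ?_) a
      · rfl
      · rfl
    · refine OrderHom.ext _ _ (funext fun a => Fin.ext ?_)
      show ((_ : Fin 1) : ℕ) = _
      omega
  | succ q ih =>
    rw [E_succ_succ, neg_one_pow_F2, one_smul, ih, E_zero_left, N.map_sx, map_add,
      Fin.sum_univ_succ (n := q + 1)]
    congr 1
    · rw [Cone.c_sx]
      congr 1
      refine Prod.ext ?_ ?_
      · refine OrderHom.ext _ _ (funext fun a => ?_)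
        refine Fin.cases ?_ (fun a => ?_) a
        · rfl
        · rfl
      · refine OrderHom.ext _ _ (funext fun a => ?_)
        refine Fin.cases ?_ (fun a => ?_) a
        · rfl
        · rfl
    · rw [map_sum, map_sum]
      refine Finset.sum_congr rfl fun j _ => ?_
      rw [N.map_sx, Cone.c_sx]
      congr 1
      refine Prod.ext ?_ ?_
      · refine OrderHom.ext _ _ (funext fun a => ?_)
        refine Fin.cases ?_ (fun a => ?_) a
        · rfl
        · show (if (a : ℕ) ≤ (j : ℕ) then (0 : Fin 2) else 1) =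
            if ((a.succ : Fin _) : ℕ) ≤ ((j.succ : Fin _) : ℕ) then (0 : Fin 2) else 1
          simp only [Fin.val_succ, Nat.add_le_add_iff_right]
      · refine OrderHom.ext _ _ (funext fun a => ?_)
        refine Fin.cases ?_ (fun a => ?_) a
        · exact (Cech.dgn_succ_zero j).symm
        · refine Eq.trans ?_ (Cech.dgn_succ_succ j a).symm
          rfl

namespace BSS

variable {E E' E'' : BSS}

/-! ## filtration and degree of products -/

theorem evP_sx {p q p' q' m n : ℕ} (x : E.S p q) (y : E'.S p' q')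
    (z : ((SS.std p).prod (SS.std p')).S m) (w : ((SS.std q).prod (SS.std q')).S n) :
    Tot.evP x y (N.sx F2 z) (N.sx F2 w) = Tot.bx (Tot.yoF x y m n (bb z w)) := by
  rw [Tot.evP, Tot.box_sx, Tot.map_bx]; rfl

theorem evP_mem {p q p' q' m n : ℕ} (x : E.S p q) (y : E'.S p' q')
    {α : N F2 ((SS.std p).prod (SS.std p'))} (hα : α ∈ N.gr F2 _ m)
    {β : N F2 ((SS.std q).prod (SS.std q'))} (hβ : β ∈ N.gr F2 _ n) (S : Submodule F2 (E.prod E').Tot)
    (h : ∀ z : (E.prod E').S m n, Tot.bx z ∈ S) : Tot.evP x y α β ∈ S := by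
  refine Gr334.gr_induction (p := fun α => Tot.evP x y α β ∈ S) hα ?_ ?_ ?_ ?_
  · rw [Tot.evP_zero_left]; exact Submodule.zero_mem _
  · intro a b ha hb; rw [Tot.evP_add_left]; exact Submodule.add_mem _ ha hb
  · intro r a ha
    have : Tot.evP x y (r • a) β = r • Tot.evP x y a β := by
      simp only [Tot.evP, map_smul, LinearMap.smul_apply]
    rw [this]; exact Submodule.smul_mem _ _ ha
  · intro z
    refine Gr334.gr_induction (p := fun β => Tot.evP x y (N.sx F2 z) β ∈ S) hβ ?_ ?_ ?_ ?_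
    · rw [Tot.evP_zero_right]; exact Submodule.zero_mem _
    · intro a b ha hb; rw [Tot.evP_add_right]; exact Submodule.add_mem _ ha hb
    · intro r a ha
      have : Tot.evP x y (N.sx F2 z) (r • a) = r • Tot.evP x y (N.sx F2 z) a := by
        simp only [Tot.evP, map_smul]
      rw [this]; exact Submodule.smul_mem _ _ ha
    · intro w
      rw [evP_sx]; exact h _

theorem xT_Fp {P P' : ℕ} {a : E.Tot} (ha : a ∈ E.Fp P) {b : E'.Tot} (hb : b ∈ E'.Fp P') :
    Tot.xT a b ∈ (E.prod E').Fp (P + P') := by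
  have h1 : E.Fp P ≤ ⨅ b : E'.Fp P', ((E.prod E').Fp (P + P')).comap (Tot.xT.flip (b : E'.Tot)) :=
    Fp_le fun p q x hp => by
      rw [Submodule.mem_iInf]
      rintro ⟨b, hb⟩
      rw [Submodule.mem_comap, LinearMap.flip_apply]
      have h2 : E'.Fp P' ≤ ((E.prod E').Fp (P + P')).comap (Tot.xT (Tot.bx x)) := Fp_le fun p' q' y hp' => by
        rw [Submodule.mem_comap, Tot.xT_bx]
        exact evP_mem x y (E_gr _ p p' rfl) (E_gr _ q q' rfl) _ fun z => bx_mem_Fp z (by omega)
      exact h2 hb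
  have := h1 ha
  rw [Submodule.mem_iInf] at this
  exact this ⟨b, hb⟩

theorem xT_grT {n m : ℕ} {a : E.Tot} (ha : a ∈ E.grT n) {b : E'.Tot} (hb : b ∈ E'.grT m) :
    Tot.xT a b ∈ (E.prod E').grT (n + m) := by
  have h1 : E.grT n ≤ ⨅ b : E'.grT m, ((E.prod E').grT (n + m)).comap (Tot.xT.flip (b : E'.Tot)) :=
    grT_le fun p q x hp => by
      rw [Submodule.mem_iInf]
      rintro ⟨b, hb⟩
      rw [Submodule.mem_comap, LinearMap.flip_apply]
      have h2 : E'.grT m ≤ ((E.prod E').grT (n + m)).comap (Tot.xT (Tot.bx x)) := grT_le fun p' q' y hp' => by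
        rw [Submodule.mem_comap, Tot.xT_bx]
        exact evP_mem x y (E_gr _ p p' rfl) (E_gr _ q q' rfl) _ fun z => bx_mem_grT z (by omega)
      exact h2 hb
  have := h1 ha
  rw [Submodule.mem_iInf] at this
  exact this ⟨b, hb⟩

theorem map_Fp (φ : Hom E E') {P : ℕ} {a : E.Tot} (ha : a ∈ E.Fp P) : Tot.map φ a ∈ E'.Fp P := by
  have : E.Fp P ≤ (E'.Fp P).comap (Tot.map φ) := Fp_le fun p q x hp => by
    rw [Submodule.mem_comap, Tot.map_bx]; exact bx_mem_Fp _ hp
  exact this ha

theorem map_grT (φ : Hom E E') {n : ℕ} {a : E.Tot} (ha : a ∈ E.grT n) : Tot.map φ a ∈ E'.grT n := by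
  have : E.grT n ≤ (E'.grT n).comap (Tot.map φ) := grT_le fun p q x hp => by
    rw [Submodule.mem_comap, Tot.map_bx]; exact bx_mem_grT _ hp
  exact this ha

theorem map_ofCol (φ : Hom E E') (p : ℕ) (z : N F2 (E.col p)) :
    Tot.map φ (Tot.ofCol E p z) = Tot.ofCol E' p (N.map F2 (φ.col p) z) := by
  have : Tot.map φ ∘ₗ Tot.ofCol E p = Tot.ofCol E' p ∘ₗ N.map F2 (φ.col p) := EZ271.hom_ext fun q x => by
    rw [LinearMap.comp_apply, LinearMap.comp_apply, N.map_sx]
    have e1 : Tot.ofCol E p (N.sx F2 x) = Tot.bx (E := E) (p := p) (q := q) x := Tot.ofCol_sx _ _ _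
    rw [e1, Tot.map_bx]
    exact (Tot.ofCol_sx _ _ _).symm
  exact LinearMap.congr_fun this z

/-! ## the product of columns -/

/-- the shuffle map of a pair of horizontal operators -/
def shufMap (E E' : BSS) {m p p' : ℕ} (f : Op m p) (g : Op m p') :
    SS.Hom ((E.col p).prod (E'.col p')) ((E.prod E').col m) :=
  ⟨fun _ z => (E.hact f z.1, E'.hact g z.2), fun a z => Prod.ext (E.comm f a z.1) (E'.comm g a z.2)⟩

theorem evP_sx_E {p q p' q' m : ℕ} (x : E.S p q) (y : E'.S p' q') (f : Op m p) (g : Op m p') :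
    Tot.evP x y (N.sx F2 (pS f g)) (EZ271.E F2 q q') =
      Tot.ofCol (E.prod E') m (N.map F2 (shufMap E E' f g)
        (cross F2 (N.sx F2 (K := E.col p) (n := q) x) (N.sx F2 (K := E'.col p') (n := q') y))) := by
  rw [cross_sx, EZ271.map_map]
  generalize EZ271.E F2 q q' = β
  refine EZ271.N_induction (R := F2) (p := fun β => Tot.evP x y (N.sx F2 (pS f g)) β =
      Tot.ofCol (E.prod E') m (N.map F2 ((shufMap E E' f g).comp
        (SS.prodMap ((E.col p).yo x) ((E'.col p').yo y))) β)) β ?_ ?_ ?_ ?_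
  · rw [Tot.evP_zero_right, map_zero, map_zero]
  · intro a b ha hb; rw [Tot.evP_add_right, map_add, map_add, ha, hb]
  · intro r a ha
    have : Tot.evP x y (N.sx F2 (pS f g)) (r • a) = r • Tot.evP x y (N.sx F2 (pS f g)) a := by
      simp only [Tot.evP, map_smul]
    rw [this, map_smul, map_smul, ha]
  · intro n w
    rw [evP_sx, N.map_sx]
    refine Eq.trans ?_ (Tot.ofCol_sx (E := E.prod E') m n _).symm
    rfl

/-- product with an element of column `1`: sum over the insertions -/
theorem xT_one (p : ℕ) (z : N F2 (E.col 1)) (w : N F2 (E'.col p)) :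
    Tot.xT (Tot.ofCol E 1 z) (Tot.ofCol E' p w) = ∑ j : Fin (p + 1),
      Tot.ofCol (E.prod E') (p + 1) (N.map F2 (shufMap E E' (chi (q := p + 1) j) (Op.dgn j)) (cross F2 z w)) := by
  have : ((Tot.xT (E := E) (E' := E')).comp (Tot.ofCol E 1)).compl₂ (Tot.ofCol E' p) =
      ∑ j : Fin (p + 1), (cross F2 (K := E.col 1) (L := E'.col p)).compr₂
        (Tot.ofCol (E.prod E') (p + 1) ∘ₗ N.map F2 (shufMap E E' (chi (q := p + 1) j) (Op.dgn j))) := by
    refine bilin_ext F2 fun q x q' y => ?_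
    simp only [LinearMap.compl₂_apply, LinearMap.comp_apply, LinearMap.sum_apply, LinearMap.compr₂_apply]
    have e1 : Tot.ofCol E 1 (N.sx F2 x) = Tot.bx (E := E) (p := 1) (q := q) x := Tot.ofCol_sx _ _ _
    have e2 : Tot.ofCol E' p (N.sx F2 y) = Tot.bx (E := E') (p := p) (q := q') y := Tot.ofCol_sx _ _ _
    rw [e1, e2, Tot.xT_bx, E_one, Tot.evP_sum_left]
    exact Finset.sum_congr rfl fun j _ => evP_sx_E x y _ _
  have h := LinearMap.congr_fun₂ this z w
  simp only [LinearMap.compl₂_apply, LinearMap.comp_apply, LinearMap.sum_apply,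
    LinearMap.compr₂_apply] at h
  exact h

end BSS

/-! ## Cech nerves: functoriality and products -/

namespace Cech

open BSS

variable {P B P' B' : SS} {f : SS.Hom P B} {f' : SS.Hom P' B'}

/-- map of Cech nerves from a commutative square -/
def cechMap (u : SS.Hom P P') (v : SS.Hom B B') (h : ∀ q x, f'.app q (u.app q x) = v.app q (f.app q x)) :
    BSS.Hom (cech f) (cech f') where
  app p q x := ⟨fun i => u.app q (x.1 i), fun i j => by rw [h, h, x.2 i j]⟩
  hnat _ _ := rfl
  vnat g x := Subtype.ext (funext fun i => u.nat g _)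

theorem cechMap_val (u : SS.Hom P P') (v : SS.Hom B B') (h : ∀ q x, f'.app q (u.app q x) = v.app q (f.app q x))
    {p q : ℕ} (x : (cech f).S p q) (i : Fin (p + 1)) :
    ((cechMap (f := f) (f' := f') u v h).app p q x).1 i = u.app q (x.1 i) := rfl

/-- the augmentation is natural -/
theorem aug_cechMap (u : SS.Hom P P') (v : SS.Hom B B')
    (h : ∀ q x, f'.app q (u.app q x) = v.app q (f.app q x)) (a : (cech f).Tot) :
    aug f' (Tot.map (cechMap u v h) a) = N.map F2 v (aug f a) := by
  have : aug f' ∘ₗ Tot.map (cechMap u v h) = N.map F2 v ∘ₗ aug f := Tot.hom_ext fun p q x => by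
    rw [LinearMap.comp_apply, LinearMap.comp_apply, Tot.map_bx]
    rcases p with _ | p
    · rw [aug_bx_zero, aug_bx_zero, N.map_sx, cechMap_val, h]
    · rw [aug_bx_succ, aug_bx_succ, map_zero]
  exact LinearMap.congr_fun this a

/-- product of Cech nerves -/
def prodCech (f : SS.Hom P B) (f' : SS.Hom P' B') :
    BSS.Hom ((cech f).prod (cech f')) (cech (SS.prodMap f f')) where
  app _ _ x := ⟨fun i => (x.1.1 i, x.2.1 i), fun i j => Prod.ext (x.1.2 i j) (x.2.2 i j)⟩
  hnat _ _ := rfl
  vnat _ _ := rfl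

theorem aug_evP_zero {q q' : ℕ} (x : (cech f).S 0 q) (y : (cech f').S 0 q')
    (z : ((SS.std 0).prod (SS.std 0)).S 0) (β : N F2 ((SS.std q).prod (SS.std q'))) :
    aug (SS.prodMap f f') (Tot.map (prodCech f f') (Tot.evP x y (N.sx F2 z) β)) =
      N.map F2 (SS.prodMap (B.yo (f.app q (x.1 0))) (B'.yo (f'.app q' (y.1 0)))) β := by
  refine EZ271.N_induction (R := F2) (p := fun β =>
    aug (SS.prodMap f f') (Tot.map (prodCech f f') (Tot.evP x y (N.sx F2 z) β)) =
      N.map F2 (SS.prodMap (B.yo (f.app q (x.1 0))) (B'.yo (f'.app q' (y.1 0)))) β) β ?_ ?_ ?_ ?_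
  · rw [Tot.evP_zero_right, map_zero, map_zero, map_zero]
  · intro a b ha hb; rw [Tot.evP_add_right, map_add, map_add, map_add, ha, hb]
  · intro r a ha
    have : Tot.evP x y (N.sx F2 z) (r • a) = r • Tot.evP x y (N.sx F2 z) a := by
      simp only [Tot.evP, map_smul]
    rw [this, map_smul, map_smul, map_smul, ha]
  · intro n w
    rw [evP_sx, Tot.map_bx, aug_bx_zero, N.map_sx]
    congr 1
    have h1 : ∀ (g : Op 0 0), g = OrderHom.id := fun g => OrderHom.ext _ _ (funext fun a => Fin.ext (by omega))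
    refine Prod.ext ?_ ?_
    · show f.app n (((cech f).hact (Tot.p1 (Tot.b1 (bb z w))) ((cech f).vact (Tot.p1 (Tot.b2 (bb z w))) x)).1 0) =
        B.act (Tot.p1 w) (f.app q (x.1 0))
      rw [h1 (Tot.p1 (Tot.b1 (bb z w))), (cech f).hact_id, ← f.nat]
      rfl
    · show f'.app n (((cech f').hact (Tot.p2 (Tot.b1 (bb z w))) ((cech f').vact (Tot.p2 (Tot.b2 (bb z w))) y)).1 0) =
        B'.act (Tot.p2 w) (f'.app q' (y.1 0))
      rw [h1 (Tot.p2 (Tot.b1 (bb z w))), (cech f').hact_id, ← f'.nat]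
      rfl

/-- the augmentation is multiplicative -/
theorem aug_xT (a : (cech f).Tot) (b : (cech f').Tot) :
    aug (SS.prodMap f f') (Tot.map (prodCech f f') (Tot.xT a b)) = cross F2 (aug f a) (aug f' b) := by
  have : (Tot.xT (E := cech f) (E' := cech f')).compr₂ (aug (SS.prodMap f f') ∘ₗ Tot.map (prodCech f f')) =
      ((cross F2).comp (aug f)).compl₂ (aug f') := by
    refine Tot.hom_ext fun p q x => Tot.hom_ext fun p' q' y => ?_
    simp only [LinearMap.compr₂_apply, LinearMap.compl₂_apply, LinearMap.comp_apply]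
    rw [Tot.xT_bx]
    rcases Nat.eq_zero_or_pos (p + p') with h | h
    · obtain rfl : p = 0 := by omega
      obtain rfl : p' = 0 := by omega
      rw [aug_bx_zero, aug_bx_zero, cross_sx, E_zero_zero, aug_evP_zero]
    · have h0 : ∀ z : ((cech f).prod (cech f')).S (p + p') (q + q'),
          Tot.bx z ∈ LinearMap.ker (aug (SS.prodMap f f') ∘ₗ Tot.map (prodCech f f')) := by
        obtain ⟨m, hm⟩ : ∃ m, p + p' = m + 1 := ⟨p + p' - 1, by omega⟩
        rw [hm]
        intro z
        rw [LinearMap.mem_ker, LinearMap.comp_apply, Tot.map_bx, aug_bx_succ]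
      have h1 := evP_mem x y (E_gr _ p p' rfl) (E_gr _ q q' rfl) _ h0
      rw [LinearMap.mem_ker, LinearMap.comp_apply] at h1
      rw [h1]
      rcases p with _ | p
      · rcases p' with _ | p'
        · omega
        · rw [aug_bx_succ, map_zero]
      · rw [aug_bx_succ, map_zero, LinearMap.zero_apply]
  exact LinearMap.congr_fun₂ this a b

section mul

variable (M : SS.Hom (P.prod P) P) (MB : SS.Hom (B.prod B) B)
  (hM : ∀ (q : ℕ) (x y : P.S q), f.app q (M.app q (x, y)) = MB.app q (f.app q x, f.app q y))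

/-- multiplication of the Cech nerve -/
def mulE : BSS.Hom ((cech f).prod (cech f)) (cech f) :=
  (cechMap (f := SS.prodMap f f) (f' := f) M MB (fun q x => hM q x.1 x.2)).comp (prodCech f f)

theorem mulE_val {p q : ℕ} (x y : (cech f).S p q) (i : Fin (p + 1)) :
    ((mulE M MB hM).app p q (x, y)).1 i = M.app q (x.1 i, y.1 i) := rfl

/-- multiplication on the total complex of the Cech nerve -/
def mulT : (cech f).Tot →ₗ[F2] (cech f).Tot →ₗ[F2] (cech f).Tot :=
  Tot.xT.compr₂ (Tot.map (mulE M MB hM))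

theorem mulT_apply (a b : (cech f).Tot) : mulT M MB hM a b = Tot.map (mulE M MB hM) (Tot.xT a b) := rfl

/-- Leibniz rule -/
theorem D_mulT (a b : (cech f).Tot) :
    Tot.D _ (mulT M MB hM a b) = mulT M MB hM (Tot.D _ a) b + mulT M MB hM a (Tot.D _ b) := by
  rw [mulT_apply, mulT_apply, mulT_apply, Tot.D_map, Tot.D_xT, map_add]

theorem mulT_Fp {p p' : ℕ} {a b : (cech f).Tot} (ha : a ∈ (cech f).Fp p) (hb : b ∈ (cech f).Fp p') :
    mulT M MB hM a b ∈ (cech f).Fp (p + p') := map_Fp _ (xT_Fp ha hb)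

theorem mulT_grT {p p' : ℕ} {a b : (cech f).Tot} (ha : a ∈ (cech f).grT p) (hb : b ∈ (cech f).grT p') :
    mulT M MB hM a b ∈ (cech f).grT (p + p') := map_grT _ (xT_grT ha hb)

/-- the augmentation is multiplicative -/
theorem aug_mulT (a b : (cech f).Tot) :
    aug f (mulT M MB hM a b) = N.map F2 MB (cross F2 (aug f a) (aug f b)) := by
  rw [mulT_apply, mulE, ← Tot.map_map]
  refine (aug_cechMap (f := SS.prodMap f f) (f' := f) M MB (fun q x => hM q x.1 x.2)
    (Tot.map (prodCech f f) (Tot.xT a b))).trans ?_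
  rw [aug_xT]

/-- product with an element of column `1`: sum over the insertions; `insMap j (x, y)` is the levelwise product
of `(x_0,…,x_0,x_1,…,x_1)` (`j+1` times `x_0`) and `(y_0,…,y_j,y_j,…,y_p)` -/
def insMap (p : ℕ) (j : Fin (p + 1)) : SS.Hom (((cech f).col 1).prod ((cech f).col p)) ((cech f).col (p + 1)) :=
  ((mulE M MB hM).col (p + 1)).comp (shufMap (cech f) (cech f) (chi (q := p + 1) j) (Op.dgn j))

theorem insMap_val (p q : ℕ) (j : Fin (p + 1)) (x : (cech f).S 1 q) (y : (cech f).S p q) (i : Fin (p + 2)) :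
    (((insMap M MB hM p j).app q (x, y) : (cech f).S (p + 1) q)).1 i =
      M.app q (x.1 (if (i : ℕ) ≤ j then 0 else 1), y.1 (Op.dgn j i)) := rfl

theorem mulT_one (p : ℕ) (z : N F2 ((cech f).col 1)) (w : N F2 ((cech f).col p)) :
    mulT M MB hM (Tot.ofCol _ 1 z) (Tot.ofCol _ p w) = ∑ j : Fin (p + 1),
      Tot.ofCol _ (p + 1) (N.map F2 (insMap M MB hM p j) (cross F2 z w)) := by
  rw [mulT_apply, xT_one, map_sum]
  refine Finset.sum_congr rfl fun j _ => ?_
  rw [map_ofCol, EZ271.map_map]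
  rfl

/-- leading term of a product with an element of `F_1` -/
theorem comp_mulT_one {p : ℕ} {a b : (cech f).Tot} {z : N F2 ((cech f).col 1)} {w : N F2 ((cech f).col (p + 1))}
    (ha : a - Tot.ofCol _ 1 z ∈ (cech f).Fp 0) (hb : b - Tot.ofCol _ (p + 1) w ∈ (cech f).Fp p) :
    mulT M MB hM a b - Tot.ofCol _ (p + 2) (∑ j : Fin (p + 2),
      N.map F2 (insMap M MB hM (p + 1) j) (cross F2 z w)) ∈ (cech f).Fp (p + 1) := by
  have e : mulT M MB hM a b - Tot.ofCol _ (p + 2) (∑ j : Fin (p + 2),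
      N.map F2 (insMap M MB hM (p + 1) j) (cross F2 z w)) =
      mulT M MB hM (a - Tot.ofCol _ 1 z) b +
        mulT M MB hM (Tot.ofCol _ 1 z) (b - Tot.ofCol _ (p + 1) w) := by
    rw [map_sum, ← mulT_one, map_sub, map_sub, LinearMap.sub_apply]
    abel
  rw [e]
  have hbF : b ∈ (cech f).Fp (p + 1) := by
    have := Submodule.add_mem _ (Fp_mono (Nat.le_succ p) hb) (ofCol_mem_Fp (E := cech f) (p + 1) w)
    rwa [sub_add_cancel] at this
  refine Submodule.add_mem _ ?_ ?_
  · have := mulT_Fp M MB hM ha hbF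
    rwa [zero_add] at this
  · have := mulT_Fp M MB hM (ofCol_mem_Fp (E := cech f) 1 z) hb
    rwa [add_comm] at this

end mul

end Cech

end Crest.Agent.R204.Bis343
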