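import Crest.Agent.R204.Defs

/-!
# Row 204, block B (section 02): bisimplicial sets and their normalised total complex over `F2`
(helper343)
-/

set_option autoImplicit false

namespace Crest.Agent.R204.Bis343

open Finsupp

/-! ## the Moore projection of the chains of a simplicial set -/

/-- underlying function of `tau` -/
def tauFun {n : ℕ} (j : ℕ) (hj : j < n) (a : Fin (n + 1)) : Fin (n + 1) :=
  ⟨if (a : ℕ) = j + 1 then j else a, by split_ifs <;> omega⟩

/-- the idempotent endomorphism of `[n]` sending `j+1` to `j` and fixing everything else -/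
def tau {n : ℕ} (j : ℕ) (hj : j < n) : Op n n where
  toFun := tauFun j hj
  monotone' a b h := by
    have h' : (a : ℕ) ≤ b := h
    rw [Fin.le_def]
    simp only [tauFun]
    split_ifs <;> omega

theorem tau_val {n : ℕ} (j : ℕ) (hj : j < n) (a : Fin (n + 1)) :
    ((tau j hj a : Fin (n + 1)) : ℕ) = if (a : ℕ) = j + 1 then j else a := rfl

theorem tau_eq {n : ℕ} (j : Fin (n + 1)) :
    (tau (n := n + 1) (j : ℕ) (by omega)) = (Op.face j.succ).comp (Op.dgn j) := by
  ext a
  simp only [OrderHom.comp_coe, Function.comp_apply, tau_val, Ch.face_val, Ch.dgn_val,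
    Fin.val_succ]
  split_ifs <;> omega

theorem tau_tau {n : ℕ} (j : ℕ) (hj : j < n) : (tau j hj).comp (tau j hj) = tau j hj := by
  ext a
  simp only [OrderHom.comp_coe, Function.comp_apply, tau_val]
  split_ifs <;> omega

theorem tau_braid {n : ℕ} (i j : ℕ) (hij : i < j) (hj : j < n) :
    (tau i (hij.trans hj)).comp ((tau j hj).comp (tau i (hij.trans hj))) =
      (tau i (hij.trans hj)).comp (tau j hj) := by
  ext a
  simp only [OrderHom.comp_coe, Function.comp_apply, tau_val]
  split_ifs <;> omega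

/-- action on the free module on the `n`-simplices -/
noncomputable def actL (K : SS) {m n : ℕ} (f : Op m n) : (K.S n →₀ F2) →ₗ[F2] (K.S m →₀ F2) :=
  Finsupp.lmapDomain F2 F2 (K.act f)

variable {K : SS}

theorem actL_single {m n : ℕ} (f : Op m n) (x : K.S n) (r : F2) :
    actL K f (single x r) = single (K.act f x) r := by
  simp [actL, Finsupp.lmapDomain_apply, Finsupp.mapDomain_single]

theorem actL_comp {l m n : ℕ} (f : Op l m) (g : Op m n) (x : K.S n →₀ F2) :
    actL K (g.comp f) x = actL K f (actL K g x) := by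
  induction x using Finsupp.induction_linear with
  | zero => simp
  | add a b ha hb => rw [map_add, map_add, map_add, ha, hb]
  | single t r => rw [actL_single, actL_single, actL_single, K.act_comp]

theorem f2_add_self {M : Type*} [AddCommGroup M] [Module F2 M] (x : M) : x + x = 0 := by
  have : (2 : F2) • x = 0 := by
    have h2 : (2 : F2) = 0 := rfl
    rw [h2, zero_smul]
  rwa [two_smul] at this

/-- the operator `1 + tau_j^*` (identity if `n ≤ j`) -/
noncomputable def opA (K : SS) (n j : ℕ) : (K.S n →₀ F2) →ₗ[F2] (K.S n →₀ F2) :=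
  if h : j < n then LinearMap.id + actL K (tau j h) else LinearMap.id

theorem opA_lt {n j : ℕ} (h : j < n) (x : K.S n →₀ F2) : opA K n j x = x + actL K (tau j h) x := by
  simp [opA, h]

/-- `A_0 A_1 ⋯ A_{k-1}` -/
noncomputable def opP (K : SS) (n : ℕ) : ℕ → ((K.S n →₀ F2) →ₗ[F2] (K.S n →₀ F2))
  | 0 => LinearMap.id
  | k + 1 => (opP K n k) ∘ₗ opA K n k

theorem opP_fixed {n i : ℕ} (hi : i < n) (k : ℕ) (hk : i < k) (hkn : k ≤ n) (x : K.S n →₀ F2)
    (hx : actL K (tau i hi) x = x) : opP K n k x = 0 := by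
  induction k generalizing x with
  | zero => omega
  | succ k ih =>
    show opP K n k (opA K n k x) = 0
    rw [opA_lt (by omega : k < n)]
    rcases Nat.lt_succ_iff_lt_or_eq.1 hk with h | rfl
    · apply ih h (by omega)
      rw [map_add, hx]
      congr 1
      conv_lhs => rw [← hx]
      conv_rhs => rw [← hx]
      rw [← actL_comp, ← actL_comp, ← actL_comp, ← tau_braid i k h (by omega)]
    · rw [hx, f2_add_self, map_zero]

/-- the Moore projection on `n`-chains -/
noncomputable def moore (K : SS) (n : ℕ) : (K.S n →₀ F2) →ₗ[F2] (K.S n →₀ F2) := opP K n n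

theorem moore_dgn {n : ℕ} (j : Fin (n + 1)) (y : K.S n →₀ F2) :
    moore K (n + 1) (actL K (Op.dgn j) y) = 0 := by
  refine opP_fixed (i := j) (by omega) (n + 1) (by omega) le_rfl _ ?_
  rw [tau_eq, actL_comp, ← actL_comp (Op.face j.succ), Ch.face_dgn_eq _ _ (Or.inr rfl)]
  congr 1
  induction y using Finsupp.induction_linear with
  | zero => simp
  | add a b ha hb => rw [map_add, ha, hb]
  | single t r => rw [actL_single, K.act_id]

/-- the submodule spanned by the degenerate `n`-simplices -/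
noncomputable def DgN (K : SS) (n : ℕ) : Submodule F2 (K.S n →₀ F2) :=
  Submodule.span F2 {c | ∃ x : K.S n, Ch.IsDgn K ⟨n, x⟩ ∧ c = single x 1}

theorem actL_tau_mem {n j : ℕ} (h : j < n) (x : K.S n →₀ F2) : actL K (tau j h) x ∈ DgN K n := by
  obtain ⟨m, rfl⟩ : ∃ m, n = m + 1 := ⟨n - 1, by omega⟩
  induction x using Finsupp.induction_linear with
  | zero => simp
  | add a b ha hb => rw [map_add]; exact Submodule.add_mem _ ha hb
  | single t r =>
    rw [actL_single]
    have e : tau j h = (Op.face (⟨j, h⟩ : Fin (m + 1)).succ).comp (Op.dgn (⟨j, h⟩ : Fin (m + 1))) :=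
      tau_eq (⟨j, h⟩ : Fin (m + 1))
    rw [e, K.act_comp]
    have : (single (K.act (Op.dgn (⟨j, h⟩ : Fin (m + 1)))
        (K.act (Op.face (⟨j, h⟩ : Fin (m + 1)).succ) t)) r : K.S (m + 1) →₀ F2) =
        r • single (K.act (Op.dgn (⟨j, h⟩ : Fin (m + 1)))
        (K.act (Op.face (⟨j, h⟩ : Fin (m + 1)).succ) t)) 1 := by simp
    rw [this]
    exact Submodule.smul_mem _ _ (Submodule.subset_span ⟨_, Ch.isDgn_act _ _ _, rfl⟩)

theorem opP_sub_mem {n : ℕ} (k : ℕ) (hk : k ≤ n) (x : K.S n →₀ F2) : x - opP K n k x ∈ DgN K n := by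
  induction k generalizing x with
  | zero => simp [opP]
  | succ k ih =>
    have h1 := ih (by omega) (opA K n k x)
    have h2 : x - opP K n (k + 1) x = (opA K n k x - opP K n k (opA K n k x)) -
        actL K (tau k (by omega)) x := by
      show x - opP K n k (opA K n k x) = _
      rw [opA_lt (by omega : k < n)]; abel
    rw [h2]
    exact Submodule.sub_mem _ h1 (actL_tau_mem _ _)

theorem moore_sub_mem {n : ℕ} (x : K.S n →₀ F2) : x - moore K n x ∈ DgN K n := opP_sub_mem n le_rfl x

theorem moore_eq_zero_of_mem {n : ℕ} {x : K.S n →₀ F2} (hx : x ∈ DgN K n) : moore K n x = 0 := by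
  refine Submodule.span_induction (p := fun c _ => moore K n c = 0) ?_ ?_ ?_ ?_ hx
  · rintro _ ⟨x, hx, rfl⟩
    rcases n with _ | n
    · exact hx.elim
    · obtain ⟨j, y, rfl⟩ := hx
      have := moore_dgn (K := K) j (single y 1)
      rwa [actL_single] at this
  · simp
  · intro a b _ _ ha hb; rw [map_add, ha, hb, add_zero]
  · intro r a _ ha; rw [map_smul, ha, smul_zero]

/-- naturality of the Moore projection -/
theorem moore_nat {K L : SS} {n : ℕ} (φ : (K.S n →₀ F2) →ₗ[F2] (L.S n →₀ F2))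
    (h : ∀ (f : Op n n) (x : K.S n →₀ F2), φ (actL K f x) = actL L f (φ x)) (x : K.S n →₀ F2) :
    φ (moore K n x) = moore L n (φ x) := by
  unfold moore
  suffices H : ∀ k ≤ n, ∀ x, φ (opP K n k x) = opP L n k (φ x) from H n le_rfl x
  intro k
  induction k with
  | zero => intro _ x; rfl
  | succ k ih =>
    intro hk x
    show φ (opP K n k (opA K n k x)) = opP L n k (opA L n k (φ x))
    rw [ih (by omega), opA_lt (by omega : k < n), opA_lt (by omega : k < n), map_add, h]

/-! ## bisimplicial sets -/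

/-- lightweight bisimplicial sets; first index horizontal, second index vertical -/
structure BSS where
  S : ℕ → ℕ → Type
  hact : ∀ {m n q : ℕ}, Op m n → S n q → S m q
  vact : ∀ {m n p : ℕ}, Op m n → S p n → S p m
  hact_id : ∀ {n q : ℕ} (x : S n q), hact (OrderHom.id) x = x
  hact_comp : ∀ {l m n q : ℕ} (f : Op l m) (g : Op m n) (x : S n q),
    hact (g.comp f) x = hact f (hact g x)
  vact_id : ∀ {p n : ℕ} (x : S p n), vact (OrderHom.id) x = x
  vact_comp : ∀ {l m n p : ℕ} (f : Op l m) (g : Op m n) (x : S p n),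
    vact (g.comp f) x = vact f (vact g x)
  comm : ∀ {m n m' n' : ℕ} (f : Op m n) (g : Op m' n') (x : S n n'),
    hact f (vact g x) = vact g (hact f x)

namespace BSS

/-- the row `E_{•,q}` -/
abbrev row (E : BSS) (q : ℕ) : SS where
  S p := E.S p q
  act f x := E.hact f x
  act_id := E.hact_id
  act_comp := E.hact_comp

/-- the column `E_{p,•}` -/
abbrev col (E : BSS) (p : ℕ) : SS where
  S q := E.S p q
  act f x := E.vact f x
  act_id := E.vact_id
  act_comp := E.vact_comp

/-- the horizontal operators are maps of columns -/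
def colMap (E : BSS) {m n : ℕ} (f : Op m n) : SS.Hom (E.col n) (E.col m) :=
  ⟨fun _ x => E.hact f x, fun g x => E.comm f g x⟩

/-- the vertical operators are maps of rows -/
def rowMap (E : BSS) {m n : ℕ} (f : Op m n) : SS.Hom (E.row n) (E.row m) :=
  ⟨fun _ x => E.vact f x, fun g x => (E.comm g f x).symm⟩

/-- all bisimplices -/
abbrev TT (E : BSS) : Type := Σ p : ℕ, Σ q : ℕ, E.S p q

/-- unnormalised total chains -/
abbrev Bt (E : BSS) : Type := E.TT →₀ F2

/-- inclusion of the chains of a row -/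
noncomputable def inH (E : BSS) (q : ℕ) : Ch F2 (E.row q) →ₗ[F2] E.Bt :=
  Finsupp.lmapDomain F2 F2 (fun t : (E.row q).T => (⟨t.1, q, t.2⟩ : E.TT))

/-- inclusion of the chains of a column -/
noncomputable def inV (E : BSS) (p : ℕ) : Ch F2 (E.col p) →ₗ[F2] E.Bt :=
  Finsupp.lmapDomain F2 F2 (fun t : (E.col p).T => (⟨p, t.1, t.2⟩ : E.TT))

variable (E : BSS)

@[simp] theorem inH_single (q p : ℕ) (x : E.S p q) (r : F2) :
    E.inH q (single (⟨p, x⟩ : (E.row q).T) r) = single (⟨p, q, x⟩ : E.TT) r := by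
  simp [inH, Finsupp.lmapDomain_apply, Finsupp.mapDomain_single]

@[simp] theorem inV_single (p q : ℕ) (x : E.S p q) (r : F2) :
    E.inV p (single (⟨q, x⟩ : (E.col p).T) r) = single (⟨p, q, x⟩ : E.TT) r := by
  simp [inV, Finsupp.lmapDomain_apply, Finsupp.mapDomain_single]

/-- horizontal differential -/
noncomputable def dh : E.Bt →ₗ[F2] E.Bt :=
  Finsupp.linearCombination F2 (fun t : E.TT =>
    E.inH t.2.1 (Ch.bd F2 (E.row t.2.1) (single (⟨t.1, t.2.2⟩ : (E.row t.2.1).T) 1)))

/-- vertical differential -/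
noncomputable def dv : E.Bt →ₗ[F2] E.Bt :=
  Finsupp.linearCombination F2 (fun t : E.TT =>
    E.inV t.1 (Ch.bd F2 (E.col t.1) (single (⟨t.2.1, t.2.2⟩ : (E.col t.1).T) 1)))

theorem dh_inH (q : ℕ) (c : Ch F2 (E.row q)) : E.dh (E.inH q c) = E.inH q (Ch.bd F2 (E.row q) c) := by
  induction c using Finsupp.induction_linear with
  | zero => simp
  | add a b ha hb => simp only [map_add, ha, hb]
  | single t r =>
    obtain ⟨p, x⟩ := t
    rw [inH_single]
    simp only [dh, Finsupp.linearCombination_single]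
    rw [← map_smul, ← map_smul, Finsupp.smul_single, smul_eq_mul, mul_one]

theorem dv_inV (p : ℕ) (c : Ch F2 (E.col p)) : E.dv (E.inV p c) = E.inV p (Ch.bd F2 (E.col p) c) := by
  induction c using Finsupp.induction_linear with
  | zero => simp
  | add a b ha hb => simp only [map_add, ha, hb]
  | single t r =>
    obtain ⟨q, x⟩ := t
    rw [inV_single]
    simp only [dv, Finsupp.linearCombination_single]
    rw [← map_smul, ← map_smul, Finsupp.smul_single, smul_eq_mul, mul_one]

theorem dh_zero (q : ℕ) (x : E.S 0 q) (r : F2) : E.dh (single ⟨0, q, x⟩ r) = 0 := by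
  rw [← inH_single, dh_inH, Ch.bd_single_zero, map_zero]

theorem dh_succ (p q : ℕ) (x : E.S (p + 1) q) (r : F2) : E.dh (single ⟨p + 1, q, x⟩ r) =
    ∑ i : Fin (p + 2), single ⟨p, q, E.hact (Op.face i) x⟩ r := by
  rw [← inH_single, dh_inH, Ch.bd_single_succ, map_sum]
  refine Finset.sum_congr rfl fun i _ => ?_
  rw [inH_single]
  congr 1
  have : (-1 : F2) = 1 := rfl
  rw [this, one_pow, mul_one]

theorem dv_zero (p : ℕ) (x : E.S p 0) (r : F2) : E.dv (single ⟨p, 0, x⟩ r) = 0 := by
  rw [← inV_single, dv_inV, Ch.bd_single_zero, map_zero]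

theorem dv_succ (p q : ℕ) (x : E.S p (q + 1)) (r : F2) : E.dv (single ⟨p, q + 1, x⟩ r) =
    ∑ i : Fin (q + 2), single ⟨p, q, E.vact (Op.face i) x⟩ r := by
  rw [← inV_single, dv_inV, Ch.bd_single_succ, map_sum]
  refine Finset.sum_congr rfl fun i _ => ?_
  rw [inV_single]
  congr 1
  have : (-1 : F2) = 1 := rfl
  rw [this, one_pow, mul_one]

theorem induction_H {P : E.Bt → Prop} (c : E.Bt) (h0 : P 0) (ha : ∀ a b, P a → P b → P (a + b))
    (h : ∀ p q (x : E.S p q) (r : F2), P (single ⟨p, q, x⟩ r)) : P c := by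
  induction c using Finsupp.induction_linear with
  | zero => exact h0
  | add a b h1 h2 => exact ha _ _ h1 h2
  | single t r => exact h t.1 t.2.1 t.2.2 r

theorem dh_dh (c : E.Bt) : E.dh (E.dh c) = 0 := by
  induction c using induction_H with
  | h0 => simp
  | ha a b ha hb => rw [map_add, map_add, ha, hb, add_zero]
  | h p q x r => rw [← inH_single, dh_inH, dh_inH, Ch.bd_bd, map_zero]

theorem dv_dv (c : E.Bt) : E.dv (E.dv c) = 0 := by
  induction c using induction_H with
  | h0 => simp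
  | ha a b ha hb => rw [map_add, map_add, ha, hb, add_zero]
  | h p q x r => rw [← inV_single, dv_inV, dv_inV, Ch.bd_bd, map_zero]

theorem dh_dv (c : E.Bt) : E.dh (E.dv c) = E.dv (E.dh c) := by
  induction c using induction_H with
  | h0 => simp
  | ha a b ha hb => simp only [map_add, ha, hb]
  | h p q x r =>
    rcases q with _ | q
    · rw [dv_zero, map_zero]
      rcases p with _ | p
      · rw [dh_zero, map_zero]
      · rw [dh_succ, map_sum]
        exact (Finset.sum_eq_zero fun i _ => dv_zero _ _ _ _).symm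
    · rcases p with _ | p
      · rw [dh_zero, map_zero, dv_succ, map_sum]
        exact Finset.sum_eq_zero fun i _ => dh_zero _ _ _ _
      · rw [dh_succ, dv_succ, map_sum, map_sum]
        simp only [dh_succ, dv_succ]
        rw [Finset.sum_comm]
        refine Finset.sum_congr rfl fun i _ => Finset.sum_congr rfl fun j _ => ?_
        rw [E.comm]

/-- span of the (horizontally or vertically) degenerate bisimplices -/
noncomputable def Dg : Submodule F2 E.Bt :=
  Submodule.span F2 {c | ∃ (p q : ℕ) (x : E.S p q),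
    (Ch.IsDgn (E.row q) ⟨p, x⟩ ∨ Ch.IsDgn (E.col p) ⟨q, x⟩) ∧ c = single ⟨p, q, x⟩ 1}

theorem inH_mem (q : ℕ) {c : Ch F2 (E.row q)} (hc : c ∈ Ch.Dg F2 (E.row q)) : E.inH q c ∈ E.Dg := by
  refine Submodule.span_induction (p := fun c _ => E.inH q c ∈ E.Dg) ?_ ?_ ?_ ?_ hc
  · rintro _ ⟨⟨p, x⟩, hx, rfl⟩
    rw [inH_single]
    exact Submodule.subset_span ⟨p, q, x, Or.inl hx, rfl⟩
  · simp
  · intro a b _ _ ha hb; rw [map_add]; exact Submodule.add_mem _ ha hb
  · intro r a _ ha; rw [map_smul]; exact Submodule.smul_mem _ _ ha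

theorem inV_mem (p : ℕ) {c : Ch F2 (E.col p)} (hc : c ∈ Ch.Dg F2 (E.col p)) : E.inV p c ∈ E.Dg := by
  refine Submodule.span_induction (p := fun c _ => E.inV p c ∈ E.Dg) ?_ ?_ ?_ ?_ hc
  · rintro _ ⟨⟨q, x⟩, hx, rfl⟩
    rw [inV_single]
    exact Submodule.subset_span ⟨p, q, x, Or.inr hx, rfl⟩
  · simp
  · intro a b _ _ ha hb; rw [map_add]; exact Submodule.add_mem _ ha hb
  · intro r a _ ha; rw [map_smul]; exact Submodule.smul_mem _ _ ha

theorem single_mem_Dg_h {p q : ℕ} {x : E.S p q} (h : Ch.IsDgn (E.row q) ⟨p, x⟩) (r : F2) :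
    (single ⟨p, q, x⟩ r : E.Bt) ∈ E.Dg := by
  have : (single ⟨p, q, x⟩ r : E.Bt) = r • single ⟨p, q, x⟩ 1 := by simp
  rw [this]
  exact Submodule.smul_mem _ _ (Submodule.subset_span ⟨p, q, x, Or.inl h, rfl⟩)

theorem single_mem_Dg_v {p q : ℕ} {x : E.S p q} (h : Ch.IsDgn (E.col p) ⟨q, x⟩) (r : F2) :
    (single ⟨p, q, x⟩ r : E.Bt) ∈ E.Dg := by
  have : (single ⟨p, q, x⟩ r : E.Bt) = r • single ⟨p, q, x⟩ 1 := by simp
  rw [this]
  exact Submodule.smul_mem _ _ (Submodule.subset_span ⟨p, q, x, Or.inr h, rfl⟩)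

theorem isDgn_map {K L : SS} (f : SS.Hom K L) {n : ℕ} {x : K.S n} (h : Ch.IsDgn K ⟨n, x⟩) :
    Ch.IsDgn L ⟨n, f.app n x⟩ := by
  rcases n with _ | n
  · exact h.elim
  · obtain ⟨j, y, rfl⟩ := h
    exact ⟨j, f.app n y, f.nat _ _⟩

theorem dh_mem {c : E.Bt} (hc : c ∈ E.Dg) : E.dh c ∈ E.Dg := by
  refine Submodule.span_induction (p := fun c _ => E.dh c ∈ E.Dg) ?_ ?_ ?_ ?_ hc
  · rintro _ ⟨p, q, x, hx | hx, rfl⟩
    · rw [← inH_single, dh_inH]
      exact E.inH_mem q (Ch.bd_mem_Dg (Submodule.subset_span ⟨_, hx, rfl⟩))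
    · rcases p with _ | p
      · rw [dh_zero]; exact Submodule.zero_mem _
      · rw [dh_succ]
        refine Submodule.sum_mem _ fun i _ => E.single_mem_Dg_v ?_ _
        exact isDgn_map (E.colMap (Op.face i)) hx
  · simp
  · intro a b _ _ ha hb; rw [map_add]; exact Submodule.add_mem _ ha hb
  · intro r a _ ha; rw [map_smul]; exact Submodule.smul_mem _ _ ha

theorem dv_mem {c : E.Bt} (hc : c ∈ E.Dg) : E.dv c ∈ E.Dg := by
  refine Submodule.span_induction (p := fun c _ => E.dv c ∈ E.Dg) ?_ ?_ ?_ ?_ hc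
  · rintro _ ⟨p, q, x, hx | hx, rfl⟩
    · rcases q with _ | q
      · rw [dv_zero]; exact Submodule.zero_mem _
      · rw [dv_succ]
        refine Submodule.sum_mem _ fun i _ => E.single_mem_Dg_h ?_ _
        exact isDgn_map (E.rowMap (Op.face i)) hx
    · rw [← inV_single, dv_inV]
      exact E.inV_mem p (Ch.bd_mem_Dg (Submodule.subset_span ⟨_, hx, rfl⟩))
  · simp
  · intro a b _ _ ha hb; rw [map_add]; exact Submodule.add_mem _ ha hb
  · intro r a _ ha; rw [map_smul]; exact Submodule.smul_mem _ _ ha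

/-- the normalised total complex -/
abbrev Tot : Type := E.Bt ⧸ E.Dg

namespace Tot

variable {E}

/-- class of a bisimplex -/
noncomputable def bx {p q : ℕ} (x : E.S p q) : E.Tot := Submodule.Quotient.mk (single ⟨p, q, x⟩ 1)

variable (E)

/-- horizontal differential -/
noncomputable def dH : E.Tot →ₗ[F2] E.Tot := Submodule.mapQ _ _ E.dh (fun _ hc => E.dh_mem hc)

/-- vertical differential -/
noncomputable def dV : E.Tot →ₗ[F2] E.Tot := Submodule.mapQ _ _ E.dv (fun _ hc => E.dv_mem hc)

/-- total differential -/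
noncomputable def D : E.Tot →ₗ[F2] E.Tot := dH E + dV E

variable {E}

theorem dH_mk (c : E.Bt) : dH E (Submodule.Quotient.mk c) = Submodule.Quotient.mk (E.dh c) := rfl
theorem dV_mk (c : E.Bt) : dV E (Submodule.Quotient.mk c) = Submodule.Quotient.mk (E.dv c) := rfl
theorem D_apply (c : E.Tot) : D E c = dH E c + dV E c := rfl

theorem dH_dH (c : E.Tot) : dH E (dH E c) = 0 := by
  obtain ⟨c, rfl⟩ := Submodule.Quotient.mk_surjective _ c
  rw [dH_mk, dH_mk, E.dh_dh]; rfl

theorem dV_dV (c : E.Tot) : dV E (dV E c) = 0 := by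
  obtain ⟨c, rfl⟩ := Submodule.Quotient.mk_surjective _ c
  rw [dV_mk, dV_mk, E.dv_dv]; rfl

theorem dH_dV (c : E.Tot) : dH E (dV E c) = dV E (dH E c) := by
  obtain ⟨c, rfl⟩ := Submodule.Quotient.mk_surjective _ c
  rw [dH_mk, dV_mk, dH_mk, dV_mk, E.dh_dv]

theorem D_D (c : E.Tot) : D E (D E c) = 0 := by
  rw [D_apply, D_apply, map_add, map_add, dH_dH, dV_dV, dH_dV, zero_add, add_zero, f2_add_self]

/-- the normalised chains of a row -/
noncomputable def ofRow (E : BSS) (q : ℕ) : N F2 (E.row q) →ₗ[F2] E.Tot :=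
  Submodule.mapQ _ _ (E.inH q) (fun _ hc => E.inH_mem q hc)

/-- the normalised chains of a column -/
noncomputable def ofCol (E : BSS) (p : ℕ) : N F2 (E.col p) →ₗ[F2] E.Tot :=
  Submodule.mapQ _ _ (E.inV p) (fun _ hc => E.inV_mem p hc)

@[simp] theorem ofRow_sx (q p : ℕ) (x : E.S p q) : ofRow E q (N.sx F2 (K := E.row q) (n := p) x) = bx x := by
  show Submodule.Quotient.mk (E.inH q _) = _
  rw [inH_single]; rfl

@[simp] theorem ofCol_sx (p q : ℕ) (x : E.S p q) : ofCol E p (N.sx F2 (K := E.col p) (n := q) x) = bx x := by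
  show Submodule.Quotient.mk (E.inV p _) = _
  rw [inV_single]; rfl

theorem dH_ofRow (q : ℕ) (c : N F2 (E.row q)) : dH E (ofRow E q c) = ofRow E q (N.bd F2 _ c) := by
  obtain ⟨c, rfl⟩ := Submodule.Quotient.mk_surjective _ c
  show Submodule.Quotient.mk (E.dh (E.inH q c)) = Submodule.Quotient.mk (E.inH q (Ch.bd F2 _ c))
  rw [dh_inH]

theorem dV_ofCol (p : ℕ) (c : N F2 (E.col p)) : dV E (ofCol E p c) = ofCol E p (N.bd F2 _ c) := by
  obtain ⟨c, rfl⟩ := Submodule.Quotient.mk_surjective _ c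
  show Submodule.Quotient.mk (E.dv (E.inV p c)) = Submodule.Quotient.mk (E.inV p (Ch.bd F2 _ c))
  rw [dv_inV]

/-- the horizontal differential on a column: sum of the horizontal faces -/
theorem dH_ofCol_zero (c : N F2 (E.col 0)) : dH E (ofCol E 0 c) = 0 := by
  obtain ⟨c, rfl⟩ := Submodule.Quotient.mk_surjective _ c
  induction c using Finsupp.induction_linear with
  | zero => simp
  | add a b ha hb => rw [Submodule.Quotient.mk_add, map_add, map_add, ha, hb, add_zero]
  | single t r =>
    show Submodule.Quotient.mk (E.dh (E.inV 0 (single ⟨t.1, t.2⟩ r))) = (0 : E.Tot)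
    rw [inV_single, dh_zero]; rfl

theorem dH_ofCol_succ (p : ℕ) (c : N F2 (E.col (p + 1))) :
    dH E (ofCol E (p + 1) c) = ∑ i : Fin (p + 2), ofCol E p (N.map F2 (E.colMap (Op.face i)) c) := by
  obtain ⟨c, rfl⟩ := Submodule.Quotient.mk_surjective _ c
  induction c using Finsupp.induction_linear with
  | zero => simp
  | add a b ha hb =>
    rw [Submodule.Quotient.mk_add, map_add, map_add, ha, hb, ← Finset.sum_add_distrib]
    simp only [map_add]
  | single t r =>
    obtain ⟨q, x⟩ := t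
    show Submodule.Quotient.mk (E.dh (E.inV (p + 1) (single ⟨q, x⟩ r))) = _
    rw [inV_single, dh_succ, ← Submodule.mkQ_apply, map_sum]
    refine Finset.sum_congr rfl fun i _ => ?_
    show _ = Submodule.Quotient.mk (E.inV p (Ch.map F2 (E.colMap (Op.face i)) (single ⟨q, x⟩ r)))
    rw [Ch.map_single, inV_single]
    rfl

end Tot

end BSS

end Crest.Agent.R204.Bis343
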