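import Crest.Agent.R204.EZAW_271
import Crest.Agent.R204.SpecA_334

/-!
# Row 204, A6a: homotopy invariance of simplicial homology, from the cross product
-/

set_option autoImplicit false

namespace Crest.Agent.R204.HInv328

open Finsupp Crest.Agent.R204 EZ271 SS

/-- cross product with a vertex -/
theorem cross_vertex (R : Type) [CommRing R] {K L : SS} (a : N R K) (v : L.S 0) :
    cross R a (N.sx R v) = N.map R (SS.pair (SS.Hom.id K) (SS.constHom K L v)) a := by
  have h0 : ∀ a : N R K, cross R a (N.sx R (iota 0)) =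
      N.map R (SS.pair (SS.Hom.id K) (SS.constHom K (SS.std 0) (iota 0))) a := by
    intro a
    have h1 := fst_cross R a (N.sx R (iota 0))
    rw [aug_sx_zero, one_smul] at h1
    conv_rhs => rw [← h1]
    rw [map_map]
    have h2 : (SS.pair (SS.Hom.id K) (SS.constHom K (SS.std 0) (iota 0))).comp
        (SS.fst K (SS.std 0)) = SS.Hom.id (K.prod (SS.std 0)) := by
      refine SS.Hom.ext (funext fun n => funext fun x => ?_)
      refine Prod.ext rfl ?_
      refine OrderHom.ext _ _ (funext fun i => ?_)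
      exact Fin.ext (by omega)
    rw [h2, map_idHom]
  have h3 : N.sx R v = N.map R (L.yo v) (N.sx R (iota 0)) := by
    rw [N.map_sx]
    congr 1
    exact (L.act_id v).symm
  rw [h3]
  have h4 := map_cross R (SS.Hom.id K) (L.yo v) a (N.sx R (iota 0))
  rw [map_idHom] at h4
  rw [← h4, h0, map_map]
  rfl

theorem bd_iota_one (R : Type) [CommRing R] : N.bd R (SS.std 1) (N.sx R (iota 1)) =
    N.sx R (K := SS.std 1) (Op.face 0 : Op 0 1) - N.sx R (K := SS.std 1) (Op.face 1 : Op 0 1) := by
  rw [bd_sx_succ, Fin.sum_univ_two]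
  simp only [Fin.val_zero, pow_zero, one_smul, Fin.val_one, pow_one, neg_smul]
  rw [sub_eq_add_neg]
  rfl

/-- chain homotopy -/
theorem map_end_sub (R : Type) [CommRing R] {K L : SS} (h : SS.Hom (K.prod (SS.std 1)) L)
    (z : N R K) (hz : N.bd R K z = 0) :
    N.bd R L (N.map R h (cross R (sg R z) (N.sx R (iota 1)))) =
      N.map R (SS.Hom.comp h (SpecA.endMap K 1)) z - N.map R (SS.Hom.comp h (SpecA.endMap K 0)) z := by
  rw [← map_bd', bd_cross, bd_sg, hz, map_zero, neg_zero, map_zero, LinearMap.zero_apply, zero_add,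
    sg_sg, bd_iota_one, map_sub, map_sub, cross_vertex, cross_vertex, map_map, map_map]
  have e1 : (SS.pair (SS.Hom.id K) (SS.constHom K (SS.std 1) (Op.face 0 : Op 0 1))) =
      SpecA.endMap K 1 := by
    refine SS.Hom.ext (funext fun n => funext fun x => ?_)
    refine Prod.ext rfl ?_
    exact OrderHom.ext _ _ (funext fun i => rfl)
  have e0 : (SS.pair (SS.Hom.id K) (SS.constHom K (SS.std 1) (Op.face 1 : Op 0 1))) =
      SpecA.endMap K 0 := by
    refine SS.Hom.ext (funext fun n => funext fun x => ?_)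
    refine Prod.ext rfl ?_
    exact OrderHom.ext _ _ (funext fun i => rfl)
  rw [e1, e0]

/-- **A6a**: simplicially homotopic maps agree in homology -/
theorem homotopyInv : SpecA.HomotopyInv := by
  intro R _ K L h
  refine LinearMap.ext fun x => ?_
  obtain ⟨z, hz, rfl⟩ := Hd.mk_surj _ x
  rw [H.map, Hd.map_mk, H.map, Hd.map_mk, Hd.mk_eq_mk]
  refine ⟨- N.map R h (cross R (sg R z) (N.sx R (iota 1))), ?_⟩
  rw [map_neg, map_end_sub R h z hz, neg_sub]

end Crest.Agent.R204.HInv328
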