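import Crest.Agent.R204.Corr_328
import Crest.Agent.R204.Gr_334
import Crest.Agent.R204.HInv_328
import Crest.Agent.R204.Coef_947

/-!
# Row 204, block G: products in homology

* `crossH R : H R K → H R L → H R (K × L)`, natural, graded; `Corr.h` of a product.
* `prd R e a b : H R (Fs U a) → H R (Fs U b) → H R (Fs U (a + b))` for `e : U ⊕ U ↪ U`.
* `tau_prd` : `τ_c (x * y) = Σ_{a' + b' = c} τ_a' x * τ_b' y` (any coefficients).
* `tau_zero` : `τ_0` vanishes in positive degrees.
-/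

set_option autoImplicit false

namespace Crest.Agent.R204.Prd328

open Finsupp Crest.Agent.R204 Fs348 Thr328 SS Tr348 Corr328

section cross

variable (R : Type) [CommRing R] {K L : SS}

theorem cross_cyc {a : N R K} {b : N R L} (ha : N.bd R K a = 0) (hb : N.bd R L b = 0) :
    N.bd R (K.prod L) (EZ271.cross R a b) = 0 := by
  rw [EZ271.bd_cross, ha, hb, map_zero, map_zero, LinearMap.zero_apply, add_zero]

/-- cross product of cycles -/
noncomputable def cross0 : LinearMap.ker (N.bd R K) →ₗ[R] LinearMap.ker (N.bd R L) →ₗ[R]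
    H R (K.prod L) :=
  LinearMap.mk₂ R (fun a b => Hd.mk (N.bd R (K.prod L)) (EZ271.cross R a.1 b.1)
      (cross_cyc R a.2 b.2))
    (fun a a' b => by
      rw [Hd.mk, Hd.mk, Hd.mk, ← Submodule.Quotient.mk_add]
      congr 1
      exact Subtype.ext (by
        change EZ271.cross R (a.1 + a'.1) b.1 = EZ271.cross R a.1 b.1 + EZ271.cross R a'.1 b.1
        rw [map_add, LinearMap.add_apply]))
    (fun r a b => by
      rw [Hd.mk, Hd.mk, ← Submodule.Quotient.mk_smul]
      congr 1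
      exact Subtype.ext (by
        change EZ271.cross R (r • a.1) b.1 = r • EZ271.cross R a.1 b.1
        rw [map_smul, LinearMap.smul_apply]))
    (fun a b b' => by
      rw [Hd.mk, Hd.mk, Hd.mk, ← Submodule.Quotient.mk_add]
      congr 1
      exact Subtype.ext (by
        change EZ271.cross R a.1 (b.1 + b'.1) = EZ271.cross R a.1 b.1 + EZ271.cross R a.1 b'.1
        rw [map_add]))
    (fun r a b => by
      rw [Hd.mk, Hd.mk, ← Submodule.Quotient.mk_smul]
      congr 1
      exact Subtype.ext (by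
        change EZ271.cross R a.1 (r • b.1) = r • EZ271.cross R a.1 b.1
        rw [map_smul]))

theorem cross0_bdl (w : N R K) (hw : N.bd R K (N.bd R K w) = 0) (b : LinearMap.ker (N.bd R L)) :
    cross0 R (⟨N.bd R K w, hw⟩ : LinearMap.ker (N.bd R K)) b = 0 := by
  refine Hd.mk_eq_zero.2 ⟨EZ271.cross R w b.1, ?_⟩
  rw [EZ271.bd_cross, show N.bd R L b.1 = 0 from b.2, map_zero, add_zero]

theorem cross0_bdr (a : LinearMap.ker (N.bd R K)) (w : N R L) (hw : N.bd R L (N.bd R L w) = 0) :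
    cross0 R a (⟨N.bd R L w, hw⟩ : LinearMap.ker (N.bd R L)) = 0 := by
  refine Hd.mk_eq_zero.2 ⟨EZ271.cross R (EZ271.sg R a.1) w, ?_⟩
  rw [EZ271.bd_cross, EZ271.bd_sg, show N.bd R K a.1 = 0 from a.2, map_zero, neg_zero, map_zero,
    LinearMap.zero_apply, zero_add, EZ271.sg_sg]

/-- the cross product in homology -/
noncomputable def crossH : H R K →ₗ[R] H R L →ₗ[R] H R (K.prod L) :=
  Submodule.liftQ _ (LinearMap.flip (Submodule.liftQ _ (LinearMap.flip (cross0 R)) (by
    rintro ⟨b, hb⟩ hb'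
    simp only [Submodule.mem_comap, Submodule.subtype_apply, LinearMap.mem_range] at hb'
    obtain ⟨w, rfl⟩ := hb'
    rw [LinearMap.mem_ker]
    refine LinearMap.ext fun a => ?_
    exact cross0_bdr R a w _))) (by
    rintro ⟨a, ha⟩ ha'
    simp only [Submodule.mem_comap, Submodule.subtype_apply, LinearMap.mem_range] at ha'
    obtain ⟨w, rfl⟩ := ha'
    rw [LinearMap.mem_ker]
    refine LinearMap.ext fun y => ?_
    obtain ⟨b, hb, rfl⟩ := Hd.mk_surj _ y
    exact cross0_bdl R w _ ⟨b, hb⟩)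

@[simp] theorem crossH_mk (a : N R K) (b : N R L) (ha : N.bd R K a = 0) (hb : N.bd R L b = 0) :
    crossH R (Hd.mk (N.bd R K) a ha) (Hd.mk (N.bd R L) b hb) =
      Hd.mk (N.bd R (K.prod L)) (EZ271.cross R a b) (cross_cyc R ha hb) := rfl

/-- naturality -/
theorem map_crossH {K' L' : SS} (f : SS.Hom K K') (g : SS.Hom L L') (x : H R K) (y : H R L) :
    H.map R (SS.prodMap f g) (crossH R x y) = crossH R (H.map R f x) (H.map R g y) := by
  obtain ⟨a, ha, rfl⟩ := Hd.mk_surj _ x
  obtain ⟨b, hb, rfl⟩ := Hd.mk_surj _ y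
  rw [crossH_mk, H.map, Hd.map_mk, H.map, Hd.map_mk, H.map, Hd.map_mk, crossH_mk]
  rw [Hd.mk_eq_mk]
  exact ⟨0, by rw [map_zero, EZ271.map_cross, sub_self]⟩

theorem h_crossH {K' L' : SS} (c : Corr K K') (c' : Corr L L') (x : H R K) (y : H R L) :
    (c.prod c').h R (crossH R x y) = crossH R (c.h R x) (c'.h R y) := by
  obtain ⟨a, ha, rfl⟩ := Hd.mk_surj _ x
  obtain ⟨b, hb, rfl⟩ := Hd.mk_surj _ y
  rw [crossH_mk, Corr.h_mk, Corr.h_mk, Corr.h_mk, crossH_mk, Hd.mk_eq_mk]
  exact ⟨0, by rw [map_zero, Corr.nm_cross, sub_self]⟩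

end cross

section gr

variable (R : Type) [CommRing R] {K L : SS}

theorem c_mem_gr (A : EZ271.Cone K) {n : ℕ} {z : N R K} (hz : z ∈ N.gr R K n) :
    A.c R z ∈ N.gr R K (n + 1) := by
  refine Gr334.gr_induction (p := fun z => A.c R z ∈ N.gr R K (n + 1)) hz ?_ ?_ ?_ ?_
  · rw [map_zero]; exact Submodule.zero_mem _
  · intro a b ha hb; rw [map_add]; exact Submodule.add_mem _ ha hb
  · intro r a ha; rw [map_smul]; exact Submodule.smul_mem _ _ ha
  · intro x; rw [EZ271.Cone.c_sx]; exact Gr334.sx_mem_gr _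

theorem E_mem_gr (n : ℕ) : ∀ p q : ℕ, p + q = n →
    EZ271.E R p q ∈ N.gr R ((SS.std p).prod (SS.std q)) n := by
  induction n with
  | zero =>
    intro p q h
    obtain rfl : p = 0 := by omega
    obtain rfl : q = 0 := by omega
    rw [EZ271.E_zero_zero]; exact Gr334.sx_mem_gr _
  | succ n ih =>
    intro p q h
    rcases p with _ | p <;> rcases q with _ | q
    · omega
    · rw [EZ271.E_zero_succ]
      exact c_mem_gr R _ (Gr334.map_mem_gr _ (ih 0 q (by omega)))
    · rw [EZ271.E_succ_zero]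
      exact c_mem_gr R _ (Gr334.map_mem_gr _ (ih p 0 (by omega)))
    · rw [EZ271.E_succ_succ]
      exact c_mem_gr R _ (Submodule.add_mem _ (Gr334.map_mem_gr _ (ih p (q + 1) (by omega)))
        (Submodule.smul_mem _ _ (Gr334.map_mem_gr _ (ih (p + 1) q (by omega)))))

theorem cross_mem_gr {p q : ℕ} {a : N R K} {b : N R L} (ha : a ∈ N.gr R K p)
    (hb : b ∈ N.gr R L q) : EZ271.cross R a b ∈ N.gr R (K.prod L) (p + q) := by
  refine Gr334.gr_induction (p := fun a => EZ271.cross R a b ∈ N.gr R (K.prod L) (p + q))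
    ha ?_ ?_ ?_ ?_
  · rw [map_zero, LinearMap.zero_apply]; exact Submodule.zero_mem _
  · intro a b ha hb; rw [map_add, LinearMap.add_apply]; exact Submodule.add_mem _ ha hb
  · intro r a ha; rw [map_smul, LinearMap.smul_apply]; exact Submodule.smul_mem _ _ ha
  · intro x
    refine Gr334.gr_induction
      (p := fun b => EZ271.cross R (N.sx R x) b ∈ N.gr R (K.prod L) (p + q)) hb ?_ ?_ ?_ ?_
    · rw [map_zero]; exact Submodule.zero_mem _
    · intro a b ha hb; rw [map_add]; exact Submodule.add_mem _ ha hb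
    · intro r a ha; rw [map_smul]; exact Submodule.smul_mem _ _ ha
    · intro y
      rw [EZ271.cross_sx]
      exact Gr334.map_mem_gr _ (E_mem_gr R (p + q) p q rfl)

theorem crossH_mem_gr {p q : ℕ} {x : H R K} {y : H R L} (hx : x ∈ H.gr R K p)
    (hy : y ∈ H.gr R L q) : crossH R x y ∈ H.gr R (K.prod L) (p + q) := by
  obtain ⟨a, ha, ha', rfl⟩ := Gr334.mem_H_gr.1 hx
  obtain ⟨b, hb, hb', rfl⟩ := Gr334.mem_H_gr.1 hy
  rw [crossH_mk]
  exact Gr334.mem_H_gr.2 ⟨_, cross_mem_gr R ha hb, _, rfl⟩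

end gr

/-! ## the point class -/

section vtx

variable (R : Type) [CommRing R] {K L : SS}

theorem H_map_mk (f : SS.Hom K L) (a : N R K) (ha : N.bd R K a = 0) :
    H.map R f (Hd.mk (N.bd R K) a ha) =
      Hd.mk (N.bd R L) (N.map R f a) (by rw [← EZ271.map_bd', ha, map_zero]) := rfl

/-- the class of a vertex -/
noncomputable def vt (v : K.S 0) : H R K := Hd.mk (N.bd R K) (N.sx R v) (EZ271.bd_sx_zero R v)

theorem map_vt (f : SS.Hom K L) (v : K.S 0) : H.map R f (vt R v) = vt R (f.app 0 v) := by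
  rw [vt, H.map, Hd.map_mk, vt, Hd.mk_eq_mk]
  exact ⟨0, by rw [map_zero, N.map_sx, sub_self]⟩

theorem vt_mem_gr (v : K.S 0) : vt R v ∈ H.gr R K 0 :=
  Gr334.mem_H_gr.2 ⟨_, Gr334.sx_mem_gr v, _, rfl⟩

theorem crossH_vt (x : H R K) (v : L.S 0) :
    crossH R x (vt R v) = H.map R (SS.pair (SS.Hom.id K) (SS.constHom K L v)) x := by
  obtain ⟨a, ha, rfl⟩ := Hd.mk_surj _ x
  rw [vt, crossH_mk, H.map, Hd.map_mk, Hd.mk_eq_mk]
  exact ⟨0, by rw [map_zero, HInv328.cross_vertex, sub_self]⟩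

theorem map_congr {f g : SS.Hom K L} (h : f = g) (x : H R K) : H.map R f x = H.map R g x := by
  rw [h]

theorem map_comp {M : SS} (f : SS.Hom K L) (g : SS.Hom L M) (x : H R K) :
    H.map R g (H.map R f x) = H.map R (g.comp f) x := by
  obtain ⟨a, ha, rfl⟩ := Hd.mk_surj _ x
  rw [H_map_mk, H_map_mk, H_map_mk, Hd.mk_eq_mk]
  exact ⟨0, by rw [map_zero, EZ271.map_map, sub_self]⟩

theorem map_idH (x : H R K) : H.map R (SS.Hom.id K) x = x := by
  obtain ⟨a, ha, rfl⟩ := Hd.mk_surj _ x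
  rw [H.map, Hd.map_mk, Hd.mk_eq_mk]
  exact ⟨0, by rw [map_zero, EZ271.map_idHom, sub_self]⟩

end vtx

/-! ## the product on `Fs U` -/

section prd

variable (R : Type) [CommRing R] {U W : Type} (e : U ⊕ U ↪ U)

/-- any two injections induce the same map -/
theorem map_inj (v : ℕ) (f g : U ↪ W) (x : H R (Fs U v)) :
    H.map R (Thr328.map v f) x = H.map R (Thr328.map v g) x := by
  have h := LinearMap.congr_fun (HInv328.homotopyInv R _ _ (hmtV v f g)) x
  have e0 : (hmtV v f g).comp (SpecA.endMap (Fs U v) 0) = Thr328.map v f := by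
    refine SS.Hom.ext (funext fun n => funext fun A => ?_)
    exact hmtV_zero v f g A _ fun _ => rfl
  have e1 : (hmtV v f g).comp (SpecA.endMap (Fs U v) 1) = Thr328.map v g := by
    refine SS.Hom.ext (funext fun n => funext fun A => ?_)
    exact hmtV_one v f g A _ fun _ => rfl
  rwa [e0, e1] at h

theorem map_self (v : ℕ) (f : U ↪ U) (x : H R (Fs U v)) : H.map R (Thr328.map v f) x = x := by
  rw [map_inj R v f (Function.Embedding.refl U), Thr328.map_id, map_idH]

/-- disjoint union on `Fs U` -/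
noncomputable def mu {a b c : ℕ} (h : a + b = c) : SS.Hom ((Fs U a).prod (Fs U b)) (Fs U c) :=
  (Thr328.map c e).comp ((cst (U ⊕ U) h).comp (djV U U a b))

/-- the product in the homology of `Fs U` -/
noncomputable def prd {a b c : ℕ} (h : a + b = c) :
    H R (Fs U a) →ₗ[R] H R (Fs U b) →ₗ[R] H R (Fs U c) :=
  (crossH R).compr₂ (H.map R (mu e h))

theorem prd_apply {a b c : ℕ} (h : a + b = c) (x : H R (Fs U a)) (y : H R (Fs U b)) :
    prd R e h x y = H.map R (mu e h) (crossH R x y) := rfl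

theorem prd_mk {a b c : ℕ} (h : a + b = c) (x : N R (Fs U a)) (hx : N.bd R _ x = 0)
    (y : N R (Fs U b)) (hy : N.bd R _ y = 0) :
    prd R e h (Hd.mk _ x hx) (Hd.mk _ y hy) =
      Hd.mk _ (N.map R (mu e h) (EZ271.cross R x y))
        (by rw [← EZ271.map_bd', cross_cyc R hx hy, map_zero]) := rfl

theorem prd_mem_gr {a b c : ℕ} (h : a + b = c) {p q : ℕ} {x : H R (Fs U a)} {y : H R (Fs U b)}
    (hx : x ∈ H.gr R _ p) (hy : y ∈ H.gr R _ q) : prd R e h x y ∈ H.gr R (Fs U c) (p + q) :=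
  Gr334.H_map_mem_gr _ (crossH_mem_gr R hx hy)

/-- the product does not depend on the embedding -/
theorem prd_indep (e' : U ⊕ U ↪ U) {a b c : ℕ} (h : a + b = c) (x : H R (Fs U a))
    (y : H R (Fs U b)) : prd R e h x y = prd R e' h x y := by
  rw [prd_apply, prd_apply, mu, mu, ← map_comp R ((cst (U ⊕ U) h).comp (djV U U a b)),
    ← map_comp R ((cst (U ⊕ U) h).comp (djV U U a b)), map_inj R c e e']

/-- chain level transfer of a product -/
theorem nm_mu {a b c : ℕ} (h : a + b = c) (v : ℕ) (z : N R ((Fs U a).prod (Fs U b))) :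
    (sbV U c v).nm R (N.map R (mu e h) z) =
      ∑ p ∈ (Finset.HasAntidiagonal.antidiagonal v).attach,
        N.map R (mu e (Finset.HasAntidiagonal.mem_antidiagonal.1 p.2))
          (((sbV U a p.1.1).prod (sbV U b p.1.2)).nm R z) := by
  subst h
  have h1 : mu e (rfl : a + b = a + b) = (Thr328.map (a + b) e).comp (djV U U a b) := rfl
  rw [h1, ← EZ271.map_map, nm_sbV_map, nm_sbV_djV, map_sum]
  refine Finset.sum_congr rfl fun p _ => ?_
  rw [EZ271.map_map]
  rfl

/-- **transfer of a product**, any coefficients -/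
theorem tau_prd {a b c : ℕ} (h : a + b = c) (v : ℕ) (x : H R (Fs U a)) (y : H R (Fs U b)) :
    tau R U c v (prd R e h x y) =
      ∑ p ∈ (Finset.HasAntidiagonal.antidiagonal v).attach,
        prd R e (Finset.HasAntidiagonal.mem_antidiagonal.1 p.2) (tau R U a p.1.1 x)
          (tau R U b p.1.2 y) := by
  obtain ⟨x, hx, rfl⟩ := Hd.mk_surj _ x
  obtain ⟨y, hy, rfl⟩ := Hd.mk_surj _ y
  have hx' : ∀ w, N.bd R (Fs U w) ((sbV U a w).nm R x) = 0 := fun w => by
    rw [← Corr.nm_bd', hx, map_zero]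
  have hy' : ∀ w, N.bd R (Fs U w) ((sbV U b w).nm R y) = 0 := fun w => by
    rw [← Corr.nm_bd', hy, map_zero]
  have hz : ∀ p : {p : ℕ × ℕ // p ∈ Finset.HasAntidiagonal.antidiagonal v},
      N.bd R (Fs U v) (N.map R (mu e (Finset.HasAntidiagonal.mem_antidiagonal.1 p.2))
        (EZ271.cross R ((sbV U a p.1.1).nm R x) ((sbV U b p.1.2).nm R y))) = 0 := fun p => by
    rw [← EZ271.map_bd', cross_cyc R (hx' _) (hy' _), map_zero]
  have key := Gr334.mk_sum (Finset.HasAntidiagonal.antidiagonal v).attach _ hz (by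
    rw [map_sum]; exact Finset.sum_eq_zero fun i _ => hz i)
  simp only [tau, Corr.h_mk, prd_mk]
  refine Eq.trans ?_ key
  rw [Hd.mk_eq_mk]
  refine ⟨0, ?_⟩
  rw [map_zero, nm_mu]
  simp only [Corr.nm_cross]
  rw [sub_self]

/-! ### degree zero transfer -/

theorem Fs_zero_eq {n : ℕ} (A B : (Fs U 0).S n) : A = B := by
  refine Subtype.ext ?_
  rw [Finset.card_eq_zero.1 A.2.2, Finset.card_eq_zero.1 B.2.2]

theorem N_gr_Fs_zero (n : ℕ) {z : N R (Fs U 0)} (hz : z ∈ N.gr R (Fs U 0) (n + 1)) : z = 0 := by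
  refine Gr334.gr_induction (p := fun z => z = 0) hz rfl ?_ ?_ ?_
  · rintro a b rfl rfl; exact add_zero _
  · rintro r a rfl; exact smul_zero _
  · intro x
    have : x = (Fs U 0).act (Op.dgn 0) ((Fs U 0).act (Op.face 0) x) := Fs_zero_eq _ _
    rw [this, N.sx_dgn]

theorem H_gr_Fs_zero {n : ℕ} (hn : n ≠ 0) {z : H R (Fs U 0)} (hz : z ∈ H.gr R (Fs U 0) n) :
    z = 0 := by
  obtain ⟨n, rfl⟩ := Nat.exists_eq_succ_of_ne_zero hn
  obtain ⟨a, ha, ha', rfl⟩ := Gr334.mem_H_gr.1 hz
  exact Hd.mk_eq_zero.2 ⟨0, by rw [map_zero, N_gr_Fs_zero R n ha]⟩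

/-- `τ_0` vanishes in positive degrees -/
theorem tau_zero {n w : ℕ} (hn : n ≠ 0) {z : H R (Fs U w)} (hz : z ∈ H.gr R (Fs U w) n) :
    tau R U w 0 z = 0 := H_gr_Fs_zero R hn ((sbV U w 0).h_mem_gr R hz)

end prd

/-! ## unit -/

section unit

variable (R : Type) [CommRing R] {U : Type} (e : U ⊕ U ↪ U)

/-- the empty set as a vertex of `Fs U 0` -/
noncomputable def e0 (U : Type) : (Fs U 0).S 0 := ⟨∅, fun i a ha => by simp at ha, rfl⟩

theorem mu_e0 {a : ℕ} : (mu e (Nat.add_zero a)).comp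
    (SS.pair (SS.Hom.id (Fs U a)) (SS.constHom (Fs U a) (Fs U 0) (e0 U))) =
      Thr328.map a (Function.Embedding.inl.trans e) := by
  refine SS.Hom.ext (funext fun n => funext fun A => Subtype.ext ?_)
  have h1 : (((SS.constHom (Fs U a) (Fs U 0) (e0 U)).app n A).1) = ∅ :=
    congrArg Subtype.val (Fs_zero_eq _ (⟨∅, fun i a ha => by simp at ha, rfl⟩ : (Fs U 0).S n))
  change pu e (du A.1 ((SS.constHom (Fs U a) (Fs U 0) (e0 U)).app n A).1) = pu (e ∘ Sum.inl) A.1
  rw [h1, du_empty, pu_pu]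

/-- the empty set is a unit -/
theorem prd_e0 {a : ℕ} (x : H R (Fs U a)) : prd R e (Nat.add_zero a) x (vt R (e0 U)) = x := by
  rw [prd_apply, crossH_vt, map_comp, mu_e0, map_self]

theorem tau_vt_zero {v : ℕ} (A : (Fs U v).S 0) : tau R U v 0 (vt R A) = vt R (e0 U) := by
  rw [vt, tau, Corr.h_mk, vt, Hd.mk_eq_mk]
  refine ⟨0, ?_⟩
  rw [map_zero, Corr.nm_sx, Finset.sum_eq_single (e0 U), sub_self]
  · intro B _ hB
    exact absurd (Fs_zero_eq B (e0 U)) hB
  · intro h
    exact absurd (mem_sbV.2 (Finset.empty_subset _)) h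

/-- stabilisation does not change the lowest transfer -/
theorem tau_prd_vt {a b c : ℕ} (h : a + b = c) (w : ℕ) (x : H R (Fs U a)) (B : (Fs U b).S 0)
    (hx : ∀ w' < w, tau R U a w' x = 0) :
    tau R U c w (prd R e h x (vt R B)) = tau R U a w x := by
  rw [tau_prd, Finset.sum_eq_single
    ⟨(w, 0), Finset.HasAntidiagonal.mem_antidiagonal.2 (Nat.add_zero w)⟩]
  · rw [tau_vt_zero]
    exact prd_e0 R e _
  · rintro ⟨⟨p, q⟩, hp⟩ _ hne
    have hp' : p + q = w := Finset.HasAntidiagonal.mem_antidiagonal.1 hp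
    have hlt : p < w := by
      rcases Nat.eq_zero_or_pos q with h0 | h0
      · subst h0
        have hpw : p = w := hp'
        subst hpw
        exact absurd rfl hne
      · omega
    simp only [hx p hlt, map_zero, LinearMap.zero_apply]
  · intro h
    exact absurd (Finset.mem_attach _ _) h

end unit

/-! ## change of coefficients -/

section coef

variable {R S : Type} [CommRing R] [CommRing S] {K L : SS}

open Coef947

/-- additive induction on normalised chains -/
theorem N_ind {p : N R K → Prop} (c : N R K) (h0 : p 0) (hadd : ∀ a b, p a → p b → p (a + b))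
    (hsx : ∀ (r : R) (n : ℕ) (x : K.S n), p (r • N.sx R x)) : p c := by
  obtain ⟨c, rfl⟩ := Submodule.Quotient.mk_surjective _ c
  induction c using Finsupp.induction_linear with
  | zero => exact h0
  | add f g hf hg => exact hadd _ _ hf hg
  | single t r =>
    obtain ⟨n, x⟩ := t
    have h1 : (Submodule.Quotient.mk (single (⟨n, x⟩ : K.T) r) : N R K) = r • N.sx R x := by
      rw [N.sx, ← Submodule.Quotient.mk_smul]; simp
    rw [h1]; exact hsx r n x

theorem coN_smul_sx (g : R →+ S) (r : R) {n : ℕ} (x : K.S n) :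
    coN g K (r • N.sx R x) = g r • N.sx S x := by
  rw [N.sx, ← Submodule.Quotient.mk_smul, coN_mk, N.sx, ← Submodule.Quotient.mk_smul]
  congr 1
  rw [Finsupp.smul_single, smul_eq_mul, mul_one, coC_single, Finsupp.smul_single, smul_eq_mul,
    mul_one]

theorem coN_c (g : R →+ S) (A : EZ271.Cone K) (z : N R K) :
    coN g K (A.c R z) = A.c S (coN g K z) := by
  refine N_ind (p := fun z => coN g K (A.c R z) = A.c S (coN g K z)) z ?_ ?_ ?_
  · simp
  · intro a b ha hb; rw [map_add, map_add, ha, hb, map_add, map_add]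
  · intro r n x
    rw [map_smul, EZ271.Cone.c_sx, coN_smul_sx, coN_smul_sx, map_smul, EZ271.Cone.c_sx]

theorem coN_nm (g : R →+ S) (c : Corr L K) (z : N R L) :
    coN g K (c.nm R z) = c.nm S (coN g L z) := by
  refine N_ind (p := fun z => coN g K (c.nm R z) = c.nm S (coN g L z)) z ?_ ?_ ?_
  · simp
  · intro a b ha hb; rw [map_add, map_add, ha, hb, map_add, map_add]
  · intro r n x
    rw [map_smul, Corr.nm_sx, Finset.smul_sum, map_sum, coN_smul_sx, map_smul, Corr.nm_sx,
      Finset.smul_sum]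
    exact Finset.sum_congr rfl fun y _ => coN_smul_sx g r y

theorem coH_h (g : R →+ S) (c : Corr L K) (x : H R L) :
    coH g K (c.h R x) = c.h S (coH g L x) := by
  obtain ⟨z, hz, rfl⟩ := Hd.mk_surj _ x
  rw [Corr.h_mk, coH_mk, coH_mk, Corr.h_mk]
  exact mk_congr _ _ (coN_nm g c z)

theorem coH_tau (g : R →+ S) {U : Type} (w v : ℕ) (x : H R (Fs U w)) :
    coH g (Fs U v) (tau R U w v x) = tau S U w v (coH g (Fs U w) x) := coH_h g _ x

theorem coN_neg_pow (g : R →+ S) (k : ℕ) (z : N R K) :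
    coN g K (((-1 : R) ^ k) • z) = ((-1 : S) ^ k) • coN g K z := by
  refine coN_smul g _ _ (fun x => ?_) z
  rw [mul_comm, map_neg_one_pow, mul_comm]

/-- the universal chain is compatible with every additive change of coefficients -/
theorem coN_E (g : R →+ S) (t : R) (n : ℕ) : ∀ p q : ℕ, p + q = n →
    coN g _ (t • EZ271.E R p q) = g t • EZ271.E S p q := by
  induction n with
  | zero =>
    intro p q h
    obtain rfl : p = 0 := by omega
    obtain rfl : q = 0 := by omega
    rw [EZ271.E_zero_zero, EZ271.E_zero_zero, coN_smul_sx]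
  | succ n ih =>
    intro p q h
    rcases p with _ | p <;> rcases q with _ | q
    · omega
    · rw [EZ271.E_zero_succ, EZ271.E_zero_succ, ← map_smul, ← map_smul, coN_c, coN_map,
        ih 0 q (by omega), map_smul, map_smul]
    · rw [EZ271.E_succ_zero, EZ271.E_succ_zero, ← map_smul, ← map_smul, coN_c, coN_map,
        ih p 0 (by omega), map_smul, map_smul]
    · rw [EZ271.E_succ_succ, EZ271.E_succ_succ, ← map_smul, smul_add, smul_comm t, ← map_smul,
        ← map_smul, coN_c, map_add, coN_neg_pow, coN_map, coN_map,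
        ih p (q + 1) (by omega), ih (p + 1) q (by omega), map_smul, map_smul,
        smul_comm _ (g t), ← smul_add, map_smul]

theorem cross_ss (r s : R) {p q : ℕ} (x : K.S p) (y : L.S q) :
    EZ271.cross R (r • N.sx R x) (s • N.sx R y) =
      N.map R (SS.prodMap (K.yo x) (L.yo y)) ((r * s) • EZ271.E R p q) := by
  have h1 : EZ271.cross R (r • N.sx R x) = r • EZ271.cross R (L := L) (N.sx R x) := map_smul _ _ _
  rw [h1, LinearMap.smul_apply, map_smul (EZ271.cross R (N.sx R x)), EZ271.cross_sx, smul_smul,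
    ← map_smul]

/-- `i(a × ρ b) = i(a) × b` -/
theorem coN_cross (g : R →+ S) (ρ : S →+ R) (hg : ∀ r s, g (r * ρ s) = g r * s)
    (a : N R K) (b : N S L) :
    coN g (K.prod L) (EZ271.cross R a (coN ρ L b)) = EZ271.cross S (coN g K a) b := by
  refine N_ind (p := fun a => coN g (K.prod L) (EZ271.cross R a (coN ρ L b)) =
    EZ271.cross S (coN g K a) b) a ?_ ?_ ?_
  · simp
  · intro a b ha hb
    rw [map_add, LinearMap.add_apply, map_add, ha, hb, map_add, map_add, LinearMap.add_apply]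
  intro r p x
  refine N_ind (p := fun b => coN g (K.prod L) (EZ271.cross R (r • N.sx R x) (coN ρ L b)) =
    EZ271.cross S (coN g K (r • N.sx R x)) b) b ?_ ?_ ?_
  · simp
  · intro a b ha hb
    rw [map_add, map_add, map_add, ha, hb, map_add]
  intro s q y
  rw [coN_smul_sx, coN_smul_sx, cross_ss, cross_ss, coN_map, coN_E g _ _ p q rfl, hg]

/-- `i(ρ a × b) = a × i(b)` -/
theorem coN_cross' (g : R →+ S) (ρ : S →+ R) (hg : ∀ r s, g (ρ s * r) = s * g r)
    (a : N S K) (b : N R L) :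
    coN g (K.prod L) (EZ271.cross R (coN ρ K a) b) = EZ271.cross S a (coN g L b) := by
  refine N_ind (p := fun a => coN g (K.prod L) (EZ271.cross R (coN ρ K a) b) =
    EZ271.cross S a (coN g L b)) a ?_ ?_ ?_
  · simp
  · intro a b ha hb
    rw [map_add, map_add, LinearMap.add_apply, map_add, ha, hb, map_add, LinearMap.add_apply]
  intro s p x
  refine N_ind (p := fun b => coN g (K.prod L) (EZ271.cross R (coN ρ K (s • N.sx S x)) b) =
    EZ271.cross S (s • N.sx S x) (coN g L b)) b ?_ ?_ ?_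
  · simp
  · intro a b ha hb
    rw [map_add, map_add, ha, hb, map_add, map_add]
  intro r q y
  rw [coN_smul_sx, coN_smul_sx, cross_ss, cross_ss, coN_map, coN_E g _ _ p q rfl, hg]

theorem coH_crossH (g : R →+ S) (ρ : S →+ R) (hg : ∀ r s, g (r * ρ s) = g r * s)
    (x : H R K) (y : H S L) :
    coH g (K.prod L) (crossH R x (coH ρ L y)) = crossH S (coH g K x) y := by
  obtain ⟨a, ha, rfl⟩ := Hd.mk_surj _ x
  obtain ⟨b, hb, rfl⟩ := Hd.mk_surj _ y
  rw [coH_mk, crossH_mk, coH_mk, coH_mk, crossH_mk]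
  exact mk_congr _ _ (coN_cross g ρ hg a b)

theorem coH_crossH' (g : R →+ S) (ρ : S →+ R) (hg : ∀ r s, g (ρ s * r) = s * g r)
    (x : H S K) (y : H R L) :
    coH g (K.prod L) (crossH R (coH ρ K x) y) = crossH S x (coH g L y) := by
  obtain ⟨a, ha, rfl⟩ := Hd.mk_surj _ x
  obtain ⟨b, hb, rfl⟩ := Hd.mk_surj _ y
  rw [coH_mk, crossH_mk, coH_mk, coH_mk, crossH_mk]
  exact mk_congr _ _ (coN_cross' g ρ hg a b)

/-- multiplicative change of coefficients -/
theorem coN_cross_mul (ρ : S →+ R) (hρ : ∀ r s, ρ (r * s) = ρ r * ρ s)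
    (a : N S K) (b : N S L) :
    coN ρ (K.prod L) (EZ271.cross S a b) = EZ271.cross R (coN ρ K a) (coN ρ L b) := by
  refine N_ind (p := fun a => coN ρ (K.prod L) (EZ271.cross S a b) =
    EZ271.cross R (coN ρ K a) (coN ρ L b)) a ?_ ?_ ?_
  · simp
  · intro a b ha hb
    rw [map_add, LinearMap.add_apply, map_add, ha, hb, map_add, map_add, LinearMap.add_apply]
  intro s p x
  refine N_ind (p := fun b => coN ρ (K.prod L) (EZ271.cross S (s • N.sx S x) b) =
    EZ271.cross R (coN ρ K (s • N.sx S x)) (coN ρ L b)) b ?_ ?_ ?_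
  · simp
  · intro a b ha hb
    rw [map_add, map_add, ha, hb, map_add, map_add]
  intro r q y
  rw [coN_smul_sx, coN_smul_sx, cross_ss, cross_ss, coN_map, coN_E ρ _ _ p q rfl, hρ]

theorem coH_crossH_mul (ρ : S →+ R) (hρ : ∀ r s, ρ (r * s) = ρ r * ρ s)
    (x : H S K) (y : H S L) :
    coH ρ (K.prod L) (crossH S x y) = crossH R (coH ρ K x) (coH ρ L y) := by
  obtain ⟨a, ha, rfl⟩ := Hd.mk_surj _ x
  obtain ⟨b, hb, rfl⟩ := Hd.mk_surj _ y
  rw [coH_mk, crossH_mk, coH_mk, coH_mk, crossH_mk]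
  exact mk_congr _ _ (coN_cross_mul ρ hρ a b)

variable {U : Type} (e : U ⊕ U ↪ U)

/-- `i(x · ρ y) = i(x) · y` -/
theorem coH_prd (g : R →+ S) (ρ : S →+ R) (hg : ∀ r s, g (r * ρ s) = g r * s) {a b c : ℕ}
    (h : a + b = c) (x : H R (Fs U a)) (y : H S (Fs U b)) :
    coH g (Fs U c) (prd R e h x (coH ρ _ y)) = prd S e h (coH g _ x) y := by
  rw [prd_apply, coH_map, coH_crossH g ρ hg]; rfl

/-- `i(ρ x · y) = x · i(y)` -/
theorem coH_prd' (g : R →+ S) (ρ : S →+ R) (hg : ∀ r s, g (ρ s * r) = s * g r) {a b c : ℕ}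
    (h : a + b = c) (x : H S (Fs U a)) (y : H R (Fs U b)) :
    coH g (Fs U c) (prd R e h (coH ρ _ x) y) = prd S e h x (coH g _ y) := by
  rw [prd_apply, coH_map, coH_crossH' g ρ hg]; rfl

/-- `ρ(x · y) = ρ(x) · ρ(y)` -/
theorem coH_prd_mul (ρ : S →+ R) (hρ : ∀ r s, ρ (r * s) = ρ r * ρ s) {a b c : ℕ}
    (h : a + b = c) (x : H S (Fs U a)) (y : H S (Fs U b)) :
    coH ρ (Fs U c) (prd S e h x y) = prd R e h (coH ρ _ x) (coH ρ _ y) := by
  rw [prd_apply, coH_map, coH_crossH_mul ρ hρ]; rfl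

/-- the instance used in block G: `i : Z/a → Z/b`, `b = a c` -/
theorem inj_prd (a' b' c' : ℕ) (hb : b' = a' * c') (hd : a' ∣ b') {a b c : ℕ}
    (h : a + b = c) (x : H (ZMod a') (Fs U a)) (y : H (ZMod b') (Fs U b)) :
    prd (ZMod b') e h (coH (inj a' b' c' hb) _ x) y =
      coH (inj a' b' c' hb) _ (prd (ZMod a') e h x (coH (rho b' a' hd) _ y)) :=
  (coH_prd e (inj a' b' c' hb) (rho b' a' hd)
    (fun r s => (inj_mul_right a' b' c' hb hd r s).symm) h x y).symm

end coef

end Crest.Agent.R204.Prd328
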