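import Crest.Agent.R204.PontMain_718

/-!
# Row 204, block G: squares vanish on classes killed by `H(K; F_2) → H(K; Z/4)` (even degree)
(helper947)
-/

set_option autoImplicit false

namespace Crest.Agent.R204.Bock947

open Crest.Agent.R204 SS Coef947 Pont718

variable {K : SS}

theorem inj_eq_dblf : inj 2 4 2 rfl = dblf := by
  refine AddMonoidHom.ext fun r => ?_
  obtain ⟨k, rfl⟩ := ZMod.intCast_surjective r
  rw [inj_intCast]
  have h1 : ((k : ℤ) : ZMod 2) = k • (1 : ZMod 2) := by rw [zsmul_eq_mul, mul_one]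
  have h2 : dblf (((k : ℤ) : ZMod 2)) = k • dblf (1 : ZMod 2) := by rw [h1, map_zsmul]
  have h3 : dblf (1 : ZMod 2) = 2 := by decide
  rw [h2, h3, zsmul_eq_mul]
  push_cast
  ring

theorem rho_eq_c42 : Coef947.rho 4 2 (by norm_num) = c42.toAddMonoidHom := rfl

/-- `⟨U ∪ U, c⟩ = 0` if `i(c)` is a boundary over `Z/4`, `U` a cocycle of even degree -/
theorem cup_bock {m : ℕ} (hm : Even m) (U : Co F2 K) (hU : IsDeg m U) (hU' : U ∘ₗ N.bd F2 K = 0)
    (c : N F2 K) (w : N Z4 K) (h : N.bd Z4 K w = inc K c) : cup U U c = 0 := by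
  set u : PC K m := lfPC U hU hU' with hu
  have hur : red u.a = U := by rw [hu]; exact red_lf U
  have E6 : red u.P = cup U U := by
    unfold PC.P PC.B
    rw [red_add, red_cup, red_dbl, add_zero, hur]
  have E5 : u.P (N.bd Z4 K w) = 0 := LinearMap.congr_fun (u.P_bd hm) w
  rw [h, inc_eval, E6] at E5
  exact dblf_injective (by rw [E5, map_zero])

end Crest.Agent.R204.Bock947
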