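import Mathlib

/-!
# Fourier coefficients of continuous Banach-space valued functions on the circle

`coef F k` is the coefficient of `z ^ k` of `F : C(Circle, E)`.
-/

set_option autoImplicit false
set_option linter.unusedSectionVars false

open MeasureTheory Filter Topology Set
open scoped FourierTransform Real

namespace Crest.Agent.R204.Bott671

section vector

variable {E E' : Type*} [NormedAddCommGroup E] [NormedSpace ℂ E]
  [NormedAddCommGroup E'] [NormedSpace ℂ E']

/-- The coefficient of `z ^ k`. -/
noncomputable def coef (F : C(Circle, E)) (k : ℤ) : E :=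
  ∫ t in (0:ℝ)..1, (((𝐞 t) ^ (-k) : Circle)) • F (𝐞 t)

theorem continuous_integrand (F : C(Circle, E)) (k : ℤ) :
    Continuous fun t : ℝ => (((𝐞 t) ^ (-k) : Circle)) • F (𝐞 t) := by
  have h1 : Continuous fun t : ℝ => (𝐞 t : Circle) := Real.continuous_fourierChar
  exact (h1.zpow (-k)).smul (F.continuous.comp h1)

theorem intervalIntegrable_integrand (F : C(Circle, E)) (k : ℤ) :
    IntervalIntegrable (fun t : ℝ => (((𝐞 t) ^ (-k) : Circle)) • F (𝐞 t)) volume 0 1 :=
  (continuous_integrand F k).intervalIntegrable _ _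

@[simp] theorem coef_zero (k : ℤ) : coef (0 : C(Circle, E)) k = 0 := by
  simp [coef]

theorem coef_add (F G : C(Circle, E)) (k : ℤ) : coef (F + G) k = coef F k + coef G k := by
  rw [coef, coef, coef, ← intervalIntegral.integral_add (intervalIntegrable_integrand F k)
    (intervalIntegrable_integrand G k)]
  refine intervalIntegral.integral_congr fun t _ => ?_
  simp

theorem coef_neg (F : C(Circle, E)) (k : ℤ) : coef (-F) k = -coef F k := by
  rw [coef, coef, ← intervalIntegral.integral_neg]
  refine intervalIntegral.integral_congr fun t _ => ?_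
  simp

theorem coef_sub (F G : C(Circle, E)) (k : ℤ) : coef (F - G) k = coef F k - coef G k := by
  rw [sub_eq_add_neg, coef_add, coef_neg, sub_eq_add_neg]

theorem coef_clm [CompleteSpace E] [CompleteSpace E'] (L : E →L[ℂ] E') (F : C(Circle, E))
    (G : C(Circle, E')) (h : ∀ z, G z = L (F z)) (k : ℤ) : coef G k = L (coef F k) := by
  rw [coef, coef, ← ContinuousLinearMap.intervalIntegral_comp_comm L
    (intervalIntegrable_integrand F k)]
  refine intervalIntegral.integral_congr fun t _ => ?_
  simp only [h, Circle.smul_def, map_smul]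

theorem coef_zpow_smul (F G : C(Circle, E)) (j : ℤ) (h : ∀ z : Circle, G z = (z ^ j : Circle) • F z)
    (k : ℤ) : coef G k = coef F (k - j) := by
  rw [coef, coef]
  refine intervalIntegral.integral_congr fun t _ => ?_
  simp only [h, smul_smul, ← zpow_add]
  congr 2
  ring

theorem coef_const [CompleteSpace E] (a : E) (k : ℤ) :
    coef (ContinuousMap.const Circle a) k = if k = 0 then a else 0 := by
  rw [coef]
  have h0 : ∀ t : ℝ, (((𝐞 t) ^ (-k) : Circle)) • (ContinuousMap.const Circle a) (𝐞 t)
      = Complex.exp ((2 * π * Complex.I * (-k : ℤ)) * t) • a := by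
    intro t
    simp only [ContinuousMap.const_apply, Circle.smul_def]
    congr 1
    rw [Circle.coe_zpow, Real.fourierChar_apply', Circle.coe_exp, ← Complex.exp_int_mul]
    congr 1
    push_cast
    ring
  simp only [h0]
  rw [intervalIntegral.integral_smul_const]
  split_ifs with hk
  · subst hk
    simp
  · have hne : (2 * π * Complex.I * (-k : ℤ) : ℂ) ≠ 0 := by
      have : ((-k : ℤ) : ℂ) ≠ 0 := by
        simpa using hk
      have h2 : (2 * π * Complex.I : ℂ) ≠ 0 := Complex.two_pi_I_ne_zero
      exact mul_ne_zero h2 this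
    rw [integral_exp_mul_complex hne]
    have h3 : Complex.exp (2 * π * Complex.I * (-k : ℤ) * (1 : ℝ)) = 1 := by
      have := Complex.exp_int_mul_two_pi_mul_I (-k)
      rw [← this]
      congr 1
      push_cast
      ring
    rw [h3]
    simp

theorem norm_coef_le (F : C(Circle, E)) (k : ℤ) : ‖coef F k‖ ≤ ‖F‖ := by
  rw [coef]
  have := intervalIntegral.norm_integral_le_of_norm_le_const (a := (0:ℝ)) (b := 1) (C := ‖F‖)
    (f := fun t : ℝ => (((𝐞 t) ^ (-k) : Circle)) • F (𝐞 t)) (fun t _ => by
      rw [Circle.smul_def, norm_smul, Circle.norm_coe, one_mul]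
      exact F.norm_coe_le_norm (𝐞 t))
  simpa using this

theorem tendsto_coef_cofinite (F : C(Circle, E)) : Tendsto (coef F) cofinite (𝓝 0) := by
  have h := Real.tendsto_integral_exp_smul_cocompact
    (f := (Ioc (0:ℝ) 1).indicator fun t => F (𝐞 t))
  have hk : Tendsto (fun k : ℤ => (k : ℝ)) cofinite (cocompact ℝ) := by
    exact Int.tendsto_coe_cofinite
  have h2 := h.comp hk
  refine h2.congr fun k => ?_
  rw [coef, intervalIntegral.integral_of_le zero_le_one, ← integral_indicator measurableSet_Ioc]
  refine integral_congr_ae (Eventually.of_forall fun t => ?_)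
  beta_reduce
  by_cases ht : t ∈ Ioc (0:ℝ) 1
  · rw [indicator_of_mem ht, indicator_of_mem ht]
    congr 1
    rw [zpow_neg, ← AddChar.map_zsmul_eq_zpow, ← AddChar.map_neg_eq_inv]
    congr 1
    simp [mul_comm]
  · rw [indicator_of_notMem ht, indicator_of_notMem ht, smul_zero]

theorem tendsto_coef_atTop (F : C(Circle, E)) :
    Tendsto (fun n : ℕ => coef F (n : ℤ)) atTop (𝓝 0) := by
  refine (tendsto_coef_cofinite F).comp ?_
  rw [← Nat.cofinite_eq_atTop]
  exact Nat.cast_injective.tendsto_cofinite

theorem tendsto_coef_atBot (F : C(Circle, E)) :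
    Tendsto (fun n : ℕ => coef F (-(n : ℤ))) atTop (𝓝 0) := by
  refine (tendsto_coef_cofinite F).comp ?_
  rw [← Nat.cofinite_eq_atTop]
  exact Function.Injective.tendsto_cofinite fun a b h => by simpa using h

end vector

section alg

variable {R : Type*} [NormedCommRing R] [NormedAlgebra ℂ R] [CompleteSpace R]

/-- The coordinate `z` as an element of `C(Circle, R)`. -/
noncomputable def zc : C(Circle, R) :=
  ⟨fun z => algebraMap ℂ R (z : ℂ), (algebraMapCLM ℂ R).continuous.comp continuous_subtype_val⟩

@[simp] theorem zc_apply (z : Circle) : (zc : C(Circle, R)) z = algebraMap ℂ R (z : ℂ) := rfl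

/-- The loop attached to a polynomial. -/
noncomputable def loop : Polynomial R →+* C(Circle, R) :=
  Polynomial.eval₂RingHom (ContinuousMap.C (α := Circle)) zc

@[simp] theorem loop_C (r : R) : loop (Polynomial.C r) = ContinuousMap.C r := by
  simp [loop]

@[simp] theorem loop_X : loop (Polynomial.X : Polynomial R) = zc := by
  simp [loop]

theorem loop_apply (p : Polynomial R) (z : Circle) :
    loop p z = p.eval (algebraMap ℂ R (z : ℂ)) := by
  have h : (((Pi.evalRingHom (fun _ : Circle => R) z).comp ContinuousMap.coeFnRingHom).comp loop)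
      = Polynomial.evalRingHom (algebraMap ℂ R (z : ℂ)) := by
    ext
    · simp
    · simp
  exact congrArg (fun f => f p) h

theorem coef_C_mul (r : R) (F : C(Circle, R)) (k : ℤ) :
    coef (ContinuousMap.C r * F) k = r * coef F k :=
  coef_clm ((ContinuousLinearMap.mul ℂ R) r) F _ (fun z => by simp) k

theorem coef_mul_C (r : R) (F : C(Circle, R)) (k : ℤ) :
    coef (F * ContinuousMap.C r) k = coef F k * r := by
  rw [mul_comm, coef_C_mul, mul_comm]

theorem coef_zc_mul (F : C(Circle, R)) (k : ℤ) : coef (zc * F) k = coef F (k - 1) :=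
  coef_zpow_smul F _ 1 (fun z => by simp [Circle.smul_def, Algebra.smul_def]) k

theorem coef_zc_pow_mul (F : C(Circle, R)) (n : ℕ) (k : ℤ) :
    coef (zc ^ n * F) k = coef F (k - n) :=
  coef_zpow_smul F _ n (fun z => by simp [Circle.smul_def, Algebra.smul_def]) k

theorem coef_one (k : ℤ) : coef (1 : C(Circle, R)) k = if k = 0 then 1 else 0 :=
  coef_const (1 : R) k

theorem coef_finsetSum {α : Type*} (s : Finset α) (F : α → C(Circle, R)) (k : ℤ) :
    coef (∑ i ∈ s, F i) k = ∑ i ∈ s, coef (F i) k := by
  classical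
  induction s using Finset.induction_on with
  | empty => simp
  | insert a s ha ih => rw [Finset.sum_insert ha, Finset.sum_insert ha, coef_add, ih]

theorem coef_mul_loop (F : C(Circle, R)) (p : Polynomial R) (N : ℕ) (hN : p.natDegree < N)
    (k : ℤ) : coef (F * loop p) k = ∑ j ∈ Finset.range N, coef F (k - j) * p.coeff j := by
  conv_lhs => rw [p.as_sum_range' N hN, map_sum, Finset.mul_sum, coef_finsetSum]
  refine Finset.sum_congr rfl fun j _ => ?_
  rw [← Polynomial.C_mul_X_pow_eq_monomial, map_mul, map_pow, loop_C, loop_X]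
  rw [show F * (ContinuousMap.C (p.coeff j) * zc ^ j) = zc ^ j * (F * ContinuousMap.C (p.coeff j))
    by ring, coef_zc_pow_mul, coef_mul_C]

/-- Functions with nonnegative frequencies only. -/
def Hol (F : C(Circle, R)) : Prop := ∀ k : ℤ, k < 0 → coef F k = 0

theorem Hol.mul_loop {F : C(Circle, R)} (hF : Hol F) (p : Polynomial R) : Hol (F * loop p) := by
  intro k hk
  rw [coef_mul_loop F p _ (Nat.lt_succ_self _)]
  refine Finset.sum_eq_zero fun j _ => ?_
  rw [hF _ (by omega), zero_mul]

theorem Hol.add {F G : C(Circle, R)} (hF : Hol F) (hG : Hol G) : Hol (F + G) := by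
  intro k hk
  rw [coef_add, hF k hk, hG k hk, add_zero]

theorem Hol.sum {α : Type*} (s : Finset α) (F : α → C(Circle, R)) (h : ∀ i ∈ s, Hol (F i)) :
    Hol (∑ i ∈ s, F i) := by
  intro k hk
  rw [coef_finsetSum]
  exact Finset.sum_eq_zero fun i hi => h i hi k hk

end alg

section mat

variable {R : Type*} [NormedCommRing R] [NormedAlgebra ℂ R] [CompleteSpace R]
  {ι κ l m : Type*} [Fintype ι] [Fintype κ] [Fintype l] [DecidableEq ι] [DecidableEq κ]

/-- Entrywise Fourier coefficient. -/
noncomputable def coefM (G : Matrix ι κ C(Circle, R)) (k : ℤ) : Matrix ι κ R :=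
  G.map fun F => coef F k

@[simp] theorem coefM_apply (G : Matrix ι κ C(Circle, R)) (k : ℤ) (i : ι) (j : κ) :
    coefM G k i j = coef (G i j) k := rfl

/-- The matrix of constant loops. -/
noncomputable def cM (a : Matrix ι κ R) : Matrix ι κ C(Circle, R) :=
  a.map (ContinuousMap.C (α := Circle))

/-- The matrix of loops attached to a matrix of polynomials. -/
noncomputable def loopM (p : Matrix ι κ (Polynomial R)) : Matrix ι κ C(Circle, R) :=
  p.map loop

theorem coefM_add (F G : Matrix ι κ C(Circle, R)) (k : ℤ) :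
    coefM (F + G) k = coefM F k + coefM G k := by
  ext i j; simp [coef_add]

theorem coefM_sub (F G : Matrix ι κ C(Circle, R)) (k : ℤ) :
    coefM (F - G) k = coefM F k - coefM G k := by
  ext i j; simp [coef_sub]

theorem coefM_cM_mul (a : Matrix m ι R) (G : Matrix ι κ C(Circle, R)) (k : ℤ) :
    coefM (cM a * G) k = a * coefM G k := by
  ext i j
  simp only [coefM_apply, Matrix.mul_apply, cM, Matrix.map_apply, coef_finsetSum, coef_C_mul]

theorem coefM_mul_cM (G : Matrix ι κ C(Circle, R)) (a : Matrix κ m R) (k : ℤ) :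
    coefM (G * cM a) k = coefM G k * a := by
  ext i j
  simp only [coefM_apply, Matrix.mul_apply, cM, Matrix.map_apply, coef_finsetSum, coef_mul_C]

theorem coefM_zc_smul (G : Matrix ι κ C(Circle, R)) (k : ℤ) :
    coefM ((zc : C(Circle, R)) • G) k = coefM G (k - 1) := by
  ext i j
  simp only [coefM_apply, Matrix.smul_apply, smul_eq_mul, coef_zc_mul]

theorem coefM_one (k : ℤ) : coefM (1 : Matrix ι ι C(Circle, R)) k = if k = 0 then 1 else 0 := by
  ext i j
  rw [coefM_apply]
  by_cases hij : i = j
  · subst hij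
    rw [Matrix.one_apply_eq, coef_one]
    split_ifs <;> simp
  · rw [Matrix.one_apply_ne hij, coef_zero]
    split_ifs <;> simp [hij]

theorem coefM_mul_loopM (G : Matrix ι κ C(Circle, R)) (p : Matrix κ m (Polynomial R)) (N : ℕ)
    (hN : ∀ i j, (p i j).natDegree < N) (k : ℤ) :
    coefM (G * loopM p) k =
      ∑ j ∈ Finset.range N, coefM G (k - j) * (p.map fun q => q.coeff j) := by
  ext i l
  simp only [coefM_apply, Matrix.mul_apply, loopM, Matrix.map_apply, coef_finsetSum,
    Matrix.sum_apply]
  rw [Finset.sum_comm]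
  refine Finset.sum_congr rfl fun j _ => ?_
  exact coef_mul_loop _ _ N (hN _ _) k

/-- Matrices of functions with nonnegative frequencies. -/
def HolM (G : Matrix ι κ C(Circle, R)) : Prop := ∀ k : ℤ, k < 0 → coefM G k = 0

theorem HolM.mul_loopM {G : Matrix ι κ C(Circle, R)} (hG : HolM G)
    (p : Matrix κ m (Polynomial R)) : HolM (G * loopM p) := by
  intro k hk
  ext i j
  simp only [coefM_apply, Matrix.mul_apply, loopM, Matrix.map_apply, Matrix.zero_apply]
  refine Hol.sum _ _ (fun l _ => Hol.mul_loop (fun k' hk' => ?_) _) k hk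
  exact congrFun (congrFun (hG k' hk') i) l

theorem HolM.loopM_mul {G : Matrix ι κ C(Circle, R)} (hG : HolM G)
    (p : Matrix m ι (Polynomial R)) : HolM (loopM p * G) := by
  intro k hk
  ext i j
  simp only [coefM_apply, Matrix.mul_apply, loopM, Matrix.map_apply, Matrix.zero_apply]
  refine Hol.sum _ _ (fun l _ => ?_) k hk
  rw [mul_comm]
  refine Hol.mul_loop (fun k' hk' => ?_) _
  exact congrFun (congrFun (hG k' hk') l) j

end mat

end Crest.Agent.R204.Bott671
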