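import Crest.Agent.R204.BottPencil_671

/-!
# Pointwise invertibility, paths of invertible matrices, deformation of a pencil
-/

set_option autoImplicit false
set_option linter.unusedSectionVars false

open Filter Topology

namespace Crest.Agent.R204.Bott671

section pointwise

variable {R : Type*} [NormedCommRing R] [CompleteSpace R]
  {X : Type*} [TopologicalSpace X] {ι κ l : Type*} [Fintype ι] [DecidableEq ι] [Fintype κ]

/-- Evaluation of a matrix of functions at a point. -/
def evM (x : X) (F : Matrix ι κ C(X, R)) : Matrix ι κ R := F.map fun f => f x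

@[simp] theorem evM_apply (x : X) (F : Matrix ι κ C(X, R)) (i : ι) (j : κ) :
    evM x F i j = F i j x := rfl

theorem evM_mul (x : X) (F : Matrix l κ C(X, R)) {m : Type*} (G : Matrix κ m C(X, R)) :
    evM x (F * G) = evM x F * evM x G := by
  ext i j
  simp [Matrix.mul_apply]

theorem evM_add (x : X) (F G : Matrix l κ C(X, R)) : evM x (F + G) = evM x F + evM x G := by
  ext i j
  simp

theorem evM_one (x : X) : evM x (1 : Matrix ι ι C(X, R)) = 1 := by
  ext i j
  by_cases h : i = j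
  · subst h; simp
  · simp [Matrix.one_apply_ne h]

theorem evM_smul (x : X) (f : C(X, R)) (F : Matrix l κ C(X, R)) :
    evM x (f • F) = f x • evM x F := by
  ext i j
  simp

/-- The evaluation homomorphism. -/
def evHom (x : X) : C(X, R) →+* R :=
  (Pi.evalRingHom (fun _ : X => R) x).comp ContinuousMap.coeFnRingHom

theorem evM_eq_mapMatrix (x : X) (F : Matrix ι ι C(X, R)) :
    evM x F = (evHom x).mapMatrix F := rfl

theorem isUnit_iff_evM (F : Matrix ι ι C(X, R)) : IsUnit F ↔ ∀ x, IsUnit (evM x F) := by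
  rw [Matrix.isUnit_iff_isUnit_det, ContinuousMap.isUnit_iff_forall_isUnit]
  refine forall_congr' fun x => ?_
  rw [Matrix.isUnit_iff_isUnit_det, evM_eq_mapMatrix, ← RingHom.map_det]
  rfl

end pointwise

section conn

variable {S : Type*} [CommRing S] [TopologicalSpace S] [IsTopologicalRing S]
  {ι κ : Type*} [Fintype ι] [DecidableEq ι] [Fintype κ] [DecidableEq κ]

/-- Two invertible matrices are joined by a path of invertible matrices. -/
def Conn (F G : Matrix ι ι S) : Prop := JoinedIn {M : Matrix ι ι S | IsUnit M} F G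

theorem Conn.refl {F : Matrix ι ι S} (h : IsUnit F) : Conn F F := JoinedIn.refl h

theorem Conn.symm {F G : Matrix ι ι S} (h : Conn F G) : Conn G F := JoinedIn.symm h

theorem Conn.trans {F G H : Matrix ι ι S} (h : Conn F G) (h' : Conn G H) : Conn F H :=
  JoinedIn.trans h h'

theorem Conn.left {F G : Matrix ι ι S} (h : Conn F G) : IsUnit F := h.source_mem

theorem Conn.right {F G : Matrix ι ι S} (h : Conn F G) : IsUnit G := h.target_mem

theorem Conn.mul {F G F' G' : Matrix ι ι S} (h : Conn F G) (h' : Conn F' G') :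
    Conn (F * F') (G * G') := by
  obtain ⟨γ, hγ⟩ := h
  obtain ⟨γ', hγ'⟩ := h'
  refine ⟨⟨⟨fun t => γ t * γ' t, γ.continuous.mul γ'.continuous⟩, by simp, by simp⟩, fun t => ?_⟩
  exact (hγ t).mul (hγ' t)

/-- Constructor from a continuous function on `ℝ`. -/
theorem Conn.of_real {F : ℝ → Matrix ι ι S} (hc : Continuous F)
    (hu : ∀ t ∈ Set.Icc (0:ℝ) 1, IsUnit (F t)) : Conn (F 0) (F 1) := by
  refine ⟨⟨⟨fun t => F t, hc.comp continuous_subtype_val⟩, by simp, by simp⟩, fun t => ?_⟩
  exact hu _ t.2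

theorem isUnit_fromBlocks_diag {F : Matrix ι ι S} {G : Matrix κ κ S} (hF : IsUnit F)
    (hG : IsUnit G) : IsUnit (Matrix.fromBlocks F 0 0 G) := by
  rw [Matrix.isUnit_iff_isUnit_det] at *
  rw [Matrix.det_fromBlocks_zero₂₁]
  exact hF.mul hG

theorem Conn.blocks {F F' : Matrix ι ι S} {G G' : Matrix κ κ S} (h : Conn F F')
    (h' : Conn G G') : Conn (Matrix.fromBlocks F 0 0 G) (Matrix.fromBlocks F' 0 0 G') := by
  obtain ⟨γ, hγ⟩ := h
  obtain ⟨γ', hγ'⟩ := h'
  refine ⟨⟨⟨fun t => Matrix.fromBlocks (γ t) 0 0 (γ' t), ?_⟩, by simp, by simp⟩, fun t => ?_⟩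
  · exact γ.continuous.matrix_fromBlocks continuous_const continuous_const γ'.continuous
  · exact isUnit_fromBlocks_diag (hγ t) (hγ' t)

theorem Conn.map {T : Type*} [CommRing T] [TopologicalSpace T] [IsTopologicalRing T]
    (f : S →+* T) (hf : Continuous f) {F G : Matrix ι ι S} (h : Conn F G) :
    Conn (f.mapMatrix F) (f.mapMatrix G) := by
  obtain ⟨γ, hγ⟩ := h
  refine ⟨⟨⟨fun t => f.mapMatrix (γ t), ?_⟩, by simp, by simp⟩, fun t => ?_⟩
  · exact γ.continuous.matrix_map hf
  · exact (hγ t).map f.mapMatrix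

theorem Conn.reindex (e : ι ≃ κ) {F G : Matrix ι ι S} (h : Conn F G) :
    Conn (Matrix.reindex e e F) (Matrix.reindex e e G) := by
  obtain ⟨γ, hγ⟩ := h
  refine ⟨⟨⟨fun t => Matrix.reindex e e (γ t), ?_⟩, by simp, by simp⟩, fun t => ?_⟩
  · exact γ.continuous.matrix_submatrix _ _
  · exact (hγ t).map (Matrix.reindexAlgEquiv S S e).toRingEquiv.toRingHom

end conn

section pencil

variable {R : Type*} [NormedCommRing R] [NormedAlgebra ℂ R] [CompleteSpace R]
  {ι : Type*} [Fintype ι] [DecidableEq ι]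

attribute [local instance] Matrix.linftyOpNormedRing Matrix.linftyOpNormedAlgebra

/-- `(-M)^j → 0` implies `1 + w M` is a unit for all scalars `‖w‖ ≤ 1`. -/
theorem isUnit_one_add_smul {M : Matrix ι ι R} (h : Tendsto (fun j : ℕ => (-M) ^ j) atTop (𝓝 0))
    {w : ℂ} (hw : ‖w‖ ≤ 1) : IsUnit (1 + w • M) := by
  have h1 : ∀ᶠ j : ℕ in atTop, ‖(-M) ^ j‖ < 1 := by
    have := h.norm
    rw [norm_zero] at this
    exact this.eventually (gt_mem_nhds one_pos)
  obtain ⟨j, hj⟩ := h1.exists
  have h2 : ‖(-(w • M)) ^ j‖ < 1 := by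
    rw [← smul_neg, smul_pow, norm_smul, norm_pow]
    calc ‖w‖ ^ j * ‖(-M) ^ j‖ ≤ 1 * ‖(-M) ^ j‖ := by
          gcongr
          exact pow_le_one₀ (norm_nonneg _) hw
      _ < 1 := by rwa [one_mul]
  have : @CompleteSpace (Matrix ι ι R) (PseudoMetricSpace.toUniformSpace) :=
    inferInstanceAs (CompleteSpace (ι → ι → R))
  have h3 : IsUnit (1 - (-(w • M)) ^ j) := isUnit_one_sub_of_norm_lt_one h2
  have h4 : (1 + w • M) * (∑ i ∈ Finset.range j, (-(w • M)) ^ i) = 1 - (-(w • M)) ^ j := by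
    have := mul_neg_geom_sum (-(w • M)) j
    rwa [sub_neg_eq_add] at this
  have h5 : (∑ i ∈ Finset.range j, (-(w • M)) ^ i) * (1 + w • M) = 1 - (-(w • M)) ^ j := by
    have := geom_sum_mul_neg (-(w • M)) j
    rwa [sub_neg_eq_add] at this
  have hc : Commute (1 + w • M) (∑ i ∈ Finset.range j, (-(w • M)) ^ i) := by
    rw [Commute, SemiconjBy, h4, h5]
  rw [← h4] at h3
  exact (hc.isUnit_mul_iff.1 h3).1

theorem cM_apply_ev (z : Circle) {κ l : Type*} (a : Matrix κ l R) : (cM a).map (fun f => f z) = a := by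
  ext i j
  simp [cM]

theorem isUnit_one_add_zi {M : Matrix ι ι R} (h : Tendsto (fun j : ℕ => (-M) ^ j) atTop (𝓝 0))
    {t : ℝ} (ht : t ∈ Set.Icc (0:ℝ) 1) : IsUnit (1 + ((t : ℂ) • (zi : C(Circle, R))) • cM M) := by
  rw [isUnit_iff_evM]
  intro z
  have h1 : evM z (1 + ((t : ℂ) • (zi : C(Circle, R))) • cM M)
      = 1 + ((t : ℂ) * ((z⁻¹ : Circle) : ℂ)) • M := by
    rw [evM_add, evM_one, evM_smul]
    congr 1
    ext i j
    simp [evM, cM, Algebra.smul_def]
  rw [h1]
  refine isUnit_one_add_smul h ?_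
  rw [norm_mul, Circle.norm_coe, mul_one, Complex.norm_real, Real.norm_of_nonneg ht.1]
  exact ht.2

theorem isUnit_one_add_zc {M : Matrix ι ι R} (h : Tendsto (fun j : ℕ => (-M) ^ j) atTop (𝓝 0))
    {t : ℝ} (ht : t ∈ Set.Icc (0:ℝ) 1) : IsUnit (1 + ((t : ℂ) • (zc : C(Circle, R))) • cM M) := by
  rw [isUnit_iff_evM]
  intro z
  have h1 : evM z (1 + ((t : ℂ) • (zc : C(Circle, R))) • cM M)
      = 1 + ((t : ℂ) * (z : ℂ)) • M := by
    rw [evM_add, evM_one, evM_smul]
    congr 1
    ext i j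
    simp [evM, cM, Algebra.smul_def]
  rw [h1]
  refine isUnit_one_add_smul h ?_
  rw [norm_mul, Circle.norm_coe, mul_one, Complex.norm_real, Real.norm_of_nonneg ht.1]
  exact ht.2

theorem zi_smul_cM (c : C(Circle, R)) (P : Matrix ι ι R) (z : Circle) :
    evM z (c • cM P) = c z • P := by
  rw [evM_smul]
  congr 1

/-- `z P + (1 - P)` is invertible for an idempotent `P`. -/
theorem Lam_mul_inv {P : Matrix ι ι R} (hP : P * P = P) :
    Lam P * ((zi : C(Circle, R)) • cM P + cM (1 - P)) = 1 := by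
  have h1 : cM P * cM P = cM P := by rw [← cM_mul, hP]
  rw [Lam, cM_sub, cM_one, add_mul, mul_add, mul_add, smul_mul_smul_comm, zc_mul_zi, one_smul, h1,
    smul_mul_assoc, mul_sub, mul_one, h1, sub_self, smul_zero, add_zero, sub_mul, one_mul, mul_sub,
    mul_one, mul_smul_comm, h1, sub_self, zero_add, sub_mul, one_mul, h1, sub_self, sub_zero]
  abel

theorem isUnit_Lam {P : Matrix ι ι R} (hP : P * P = P) : IsUnit (Lam P) :=
  ⟨⟨Lam P, _, Lam_mul_inv hP, mul_eq_one_comm.1 (Lam_mul_inv hP)⟩, rfl⟩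

theorem isUnit_cM {a : Matrix ι ι R} (h : IsUnit a) : IsUnit (cM a) := by
  have := h.map ((ContinuousMap.C (α := Circle) : R →+* C(Circle, R)).mapMatrix (m := ι))
  exact this

/-- **Deformation of a pencil** to `u (z P + (1 - P))`. -/
theorem Pen.conn (p : Pen R ι) : Conn (cM p.u * Lam p.P) (pl p.a p.b) := by
  let F : ℝ → Matrix ι ι C(Circle, R) := fun t =>
    cM p.u * Lam p.P * (1 + ((t : ℂ) • (zi : C(Circle, R))) • cM p.M)
      * (1 + ((t : ℂ) • (zc : C(Circle, R))) • cM p.N)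
  have hF0 : F 0 = cM p.u * Lam p.P := by simp [F]
  have hF1 : F 1 = pl p.a p.b := by
    rw [p.birkhoff]
    simp [F]
  rw [← hF0, ← hF1]
  refine Conn.of_real ?_ fun t ht => ?_
  · have h1 : Continuous fun t : ℝ => ((t : ℂ) • (zi : C(Circle, R))) :=
      Complex.continuous_ofReal.smul continuous_const
    have h2 : Continuous fun t : ℝ => ((t : ℂ) • (zc : C(Circle, R))) :=
      Complex.continuous_ofReal.smul continuous_const
    exact ((continuous_const.mul (continuous_const.add (h1.smul continuous_const))).mul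
      (continuous_const.add (h2.smul continuous_const)))
  · exact (((isUnit_cM p.isUnit_u).mul (isUnit_Lam p.P_mul_P)).mul
      (isUnit_one_add_zi p.tendsto_M_pow ht)).mul (isUnit_one_add_zc p.tendsto_N_pow ht)

end pencil

end Crest.Agent.R204.Bott671
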