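import Crest.Agent.R204.BottConn_671

/-!
# Murray–von Neumann equivalence; equivalence of pencils over `R[X]`; linearisation
-/

set_option autoImplicit false
set_option linter.unusedSectionVars false

open Filter Topology Polynomial

namespace Crest.Agent.R204.Bott671

section mvn

variable {S : Type*} [CommRing S] {ι κ l m : Type*} [Fintype ι] [Fintype κ] [Fintype l] [Fintype m]
  [DecidableEq ι] [DecidableEq κ] [DecidableEq l] [DecidableEq m]

/-- Murray–von Neumann equivalence of (idempotent) square matrices of possibly different sizes. -/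
def MvN (e : Matrix ι ι S) (f : Matrix κ κ S) : Prop :=
  ∃ (x : Matrix ι κ S) (y : Matrix κ ι S), x * y = e ∧ y * x = f

theorem MvN.refl {e : Matrix ι ι S} (h : e * e = e) : MvN e e := ⟨e, e, h, h⟩

theorem MvN.symm {e : Matrix ι ι S} {f : Matrix κ κ S} (h : MvN e f) : MvN f e := by
  obtain ⟨x, y, h1, h2⟩ := h
  exact ⟨y, x, h2, h1⟩

theorem MvN.trans {e : Matrix ι ι S} {f : Matrix κ κ S} {g : Matrix l l S} (he : e * e = e)
    (hg : g * g = g) (h : MvN e f) (h' : MvN f g) : MvN e g := by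
  obtain ⟨x, y, h1, h2⟩ := h
  obtain ⟨x', y', h3, h4⟩ := h'
  refine ⟨x * x', y' * y, ?_, ?_⟩
  · calc x * x' * (y' * y) = x * (x' * y') * y := by simp only [Matrix.mul_assoc]
      _ = x * (y * x) * y := by rw [h3, h2]
      _ = (x * y) * (x * y) := by simp only [Matrix.mul_assoc]
      _ = e := by rw [h1, he]
  · calc y' * y * (x * x') = y' * (y * x) * x' := by simp only [Matrix.mul_assoc]
      _ = y' * (x' * y') * x' := by rw [h3, h2]
      _ = (y' * x') * (y' * x') := by simp only [Matrix.mul_assoc]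
      _ = g := by rw [h4, hg]

theorem MvN.blocks {e : Matrix ι ι S} {f : Matrix κ κ S} {e' : Matrix l l S} {f' : Matrix m m S}
    (h : MvN e f) (h' : MvN e' f') :
    MvN (Matrix.fromBlocks e 0 0 e') (Matrix.fromBlocks f 0 0 f') := by
  obtain ⟨x, y, h1, h2⟩ := h
  obtain ⟨x', y', h3, h4⟩ := h'
  refine ⟨Matrix.fromBlocks x 0 0 x', Matrix.fromBlocks y 0 0 y', ?_, ?_⟩ <;>
    simp [Matrix.fromBlocks_multiply, h1, h2, h3, h4]

theorem MvN.add_zero (e : Matrix ι ι S) (he : e * e = e) :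
    MvN (Matrix.fromBlocks e 0 0 (0 : Matrix κ κ S)) e := by
  refine ⟨Matrix.fromRows e 0, Matrix.fromCols e 0, ?_, ?_⟩
  · rw [Matrix.fromRows_mul_fromCols]
    simp [he]
  · rw [Matrix.fromCols_mul_fromRows]
    simp [he]

theorem MvN.map {T : Type*} [CommRing T] (φ : S →+* T) {e : Matrix ι ι S} {f : Matrix κ κ S}
    (h : MvN e f) : MvN (e.map φ) (f.map φ) := by
  obtain ⟨x, y, h1, h2⟩ := h
  refine ⟨x.map φ, y.map φ, ?_, ?_⟩
  · rw [← Matrix.map_mul, h1]
  · rw [← Matrix.map_mul, h2]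

/-- Equivalence of square matrices through invertible rectangular matrices. -/
def Eqv (p : Matrix ι ι S) (q : Matrix κ κ S) : Prop :=
  ∃ (E F : Matrix κ ι S) (E' F' : Matrix ι κ S), E' * E = 1 ∧ E * E' = 1 ∧ F' * F = 1 ∧
    F * F' = 1 ∧ E * p = q * F

theorem Eqv.refl (p : Matrix ι ι S) : Eqv p p :=
  ⟨1, 1, 1, 1, by simp, by simp, by simp, by simp, by simp⟩

theorem Eqv.symm {p : Matrix ι ι S} {q : Matrix κ κ S} (h : Eqv p q) : Eqv q p := by
  obtain ⟨E, F, E', F', h1, h2, h3, h4, h5⟩ := h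
  refine ⟨E', F', E, F, h2, h1, h4, h3, ?_⟩
  calc E' * q = E' * q * (F * F') := by rw [h4, Matrix.mul_one]
    _ = E' * (q * F) * F' := by simp only [Matrix.mul_assoc]
    _ = (E' * E) * p * F' := by rw [← h5]; simp only [Matrix.mul_assoc]
    _ = p * F' := by rw [h1, Matrix.one_mul]

theorem Eqv.trans {p : Matrix ι ι S} {q : Matrix κ κ S} {r : Matrix l l S} (h : Eqv p q)
    (h' : Eqv q r) : Eqv p r := by
  obtain ⟨E, F, E', F', h1, h2, h3, h4, h5⟩ := h
  obtain ⟨A, B, A', B', k1, k2, k3, k4, k5⟩ := h'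
  refine ⟨A * E, B * F, E' * A', F' * B', ?_, ?_, ?_, ?_, ?_⟩
  · calc E' * A' * (A * E) = E' * (A' * A) * E := by simp only [Matrix.mul_assoc]
      _ = 1 := by rw [k1, Matrix.mul_one, h1]
  · calc A * E * (E' * A') = A * (E * E') * A' := by simp only [Matrix.mul_assoc]
      _ = 1 := by rw [h2, Matrix.mul_one, k2]
  · calc F' * B' * (B * F) = F' * (B' * B) * F := by simp only [Matrix.mul_assoc]
      _ = 1 := by rw [k3, Matrix.mul_one, h3]
  · calc B * F * (F' * B') = B * (F * F') * B' := by simp only [Matrix.mul_assoc]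
      _ = 1 := by rw [h4, Matrix.mul_one, k4]
  · rw [Matrix.mul_assoc, h5, ← Matrix.mul_assoc, k5, Matrix.mul_assoc]

theorem Eqv.blocks {p : Matrix ι ι S} {q : Matrix κ κ S} {p' : Matrix l l S} {q' : Matrix m m S}
    (h : Eqv p q) (h' : Eqv p' q') :
    Eqv (Matrix.fromBlocks p 0 0 p') (Matrix.fromBlocks q 0 0 q') := by
  obtain ⟨E, F, E', F', h1, h2, h3, h4, h5⟩ := h
  obtain ⟨A, B, A', B', k1, k2, k3, k4, k5⟩ := h'
  refine ⟨Matrix.fromBlocks E 0 0 A, Matrix.fromBlocks F 0 0 B, Matrix.fromBlocks E' 0 0 A',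
    Matrix.fromBlocks F' 0 0 B', ?_, ?_, ?_, ?_, ?_⟩ <;>
    simp [Matrix.fromBlocks_multiply, h1, h2, h3, h4, h5, k1, k2, k3, k4, k5]

theorem Eqv.reindex (e : ι ≃ κ) (p : Matrix ι ι S) : Eqv p (p.submatrix e.symm e.symm) := by
  refine ⟨(1 : Matrix ι ι S).submatrix e.symm id, (1 : Matrix ι ι S).submatrix e.symm id,
    (1 : Matrix ι ι S).submatrix id e.symm, (1 : Matrix ι ι S).submatrix id e.symm, ?_, ?_, ?_, ?_,
    ?_⟩
  · rw [Matrix.submatrix_mul_equiv]; simp
  · rw [← Matrix.submatrix_mul _ _ _ _ _ Function.bijective_id]; simp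
  · rw [Matrix.submatrix_mul_equiv]; simp
  · rw [← Matrix.submatrix_mul _ _ _ _ _ Function.bijective_id]; simp
  · ext i j
    simp only [Matrix.mul_apply, Matrix.submatrix_apply, Matrix.one_apply, id_eq, ite_mul, one_mul,
      zero_mul, Finset.sum_ite_eq, Finset.mem_univ, if_true, mul_ite, mul_one, mul_zero]
    rw [Finset.sum_eq_single (e j)]
    · simp
    · intro b _ hb
      rw [if_neg]
      rintro rfl
      exact hb (by simp)
    · simp

theorem Eqv.of_mul {p E F : Matrix ι ι S} (hE : IsUnit E) (hF : IsUnit F) : Eqv (E * p * F) p := by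
  obtain ⟨E, rfl⟩ := hE
  obtain ⟨F, rfl⟩ := hF
  refine ⟨(E⁻¹ : (Matrix ι ι S)ˣ), F, E, (F⁻¹ : (Matrix ι ι S)ˣ), ?_, ?_, ?_, ?_, ?_⟩
  · simp
  · simp
  · simp
  · simp
  · rw [← Matrix.mul_assoc, ← Matrix.mul_assoc]
    simp

theorem Eqv.isUnit {p : Matrix ι ι S} {q : Matrix κ κ S} (h : Eqv p q) (hp : IsUnit p) :
    IsUnit q := by
  obtain ⟨E, F, E', F', h1, h2, h3, h4, h5⟩ := h
  obtain ⟨p, rfl⟩ := hp
  have hq : q * (F * ((p⁻¹ : (Matrix ι ι S)ˣ) : Matrix ι ι S) * E') = 1 := by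
    rw [← Matrix.mul_assoc, ← Matrix.mul_assoc, ← h5, Matrix.mul_assoc E]
    simp [h2]
  exact ⟨⟨q, _, hq, mul_eq_one_comm.1 hq⟩, rfl⟩

theorem Eqv.map {T : Type*} [CommRing T] (φ : S →+* T) {e : Matrix ι ι S} {f : Matrix κ κ S}
    (h : Eqv e f) : Eqv (e.map φ) (f.map φ) := by
  obtain ⟨E, F, E', F', h1, h2, h3, h4, h5⟩ := h
  refine ⟨E.map φ, F.map φ, E'.map φ, F'.map φ, ?_, ?_, ?_, ?_, ?_⟩
  · rw [← Matrix.map_mul, h1]; simp
  · rw [← Matrix.map_mul, h2]; simp
  · rw [← Matrix.map_mul, h3]; simp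
  · rw [← Matrix.map_mul, h4]; simp
  · rw [← Matrix.map_mul, h5, Matrix.map_mul]

end mvn

section eqvLemma

variable {R : Type*} [NormedCommRing R] [NormedAlgebra ℂ R] [CompleteSpace R]
  {ι κ l : Type*} [Fintype ι] [Fintype κ] [DecidableEq ι] [DecidableEq κ] [Fintype l]

theorem loopM_mul {m : Type*} (p : Matrix l κ R[X]) (q : Matrix κ m R[X]) :
    loopM (p * q) = loopM p * loopM q := by
  rw [loopM, Matrix.map_mul]; rfl

theorem loopM_sub (p q : Matrix l κ R[X]) : loopM (p - q) = loopM p - loopM q := by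
  ext i j : 2
  simp [loopM]

theorem loopM_one : loopM (1 : Matrix ι ι R[X]) = 1 := by
  simp [loopM]

theorem loopM_map_C (a : Matrix l κ R) : loopM (a.map (C : R →+* R[X])) = cM a := by
  ext i j : 2
  simp [loopM, cM]

/-- The pencil as a polynomial matrix. -/
noncomputable def ppl (a b : Matrix ι ι R) : Matrix ι ι R[X] :=
  a.map (C : R →+* R[X]) + (X : R[X]) • b.map (C : R →+* R[X])

theorem loopM_ppl (a b : Matrix ι ι R) : loopM (ppl a b) = pl a b := by
  ext i j z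
  simp only [loopM, pl, cM, ppl, Matrix.map_apply, Matrix.add_apply, Matrix.smul_apply, smul_eq_mul,
    map_add, map_mul, loop_C, loop_X]

namespace Pen

variable (q : Pen R κ)

theorem coefM_G (k : ℤ) : coefM q.G k = q.c k := rfl

theorem exists_deg (h : Matrix κ l R[X]) : ∃ N : ℕ, ∀ i j, (h i j).natDegree < N := by
  refine ⟨(Finset.univ.sup fun i => Finset.univ.sup fun j => (h i j).natDegree) + 1, fun i j => ?_⟩
  refine Nat.lt_succ_of_le ?_
  exact (Finset.le_sup (f := fun j => (h i j).natDegree) (Finset.mem_univ j)).trans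
    (Finset.le_sup (f := fun i => Finset.univ.sup fun j => (h i j).natDegree) (Finset.mem_univ i))

theorem P_mul_res (h : Matrix κ l R[X]) :
    q.P * coefM (q.G * loopM h) (-1) = coefM (q.G * loopM h) (-1) := by
  obtain ⟨N, hN⟩ := exists_deg h
  rw [coefM_mul_loopM _ _ N hN, Matrix.mul_sum]
  refine Finset.sum_congr rfl fun j _ => ?_
  rw [coefM_G, ← Matrix.mul_assoc, P_mul_c_neg]

theorem holM_of_res (h : Matrix κ l R[X]) (h0 : coefM (q.G * loopM h) (-1) = 0) :
    HolM (q.G * loopM h) := by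
  intro k hk
  obtain ⟨j, rfl⟩ : ∃ j : ℕ, k = -1 - j := ⟨(-1 - k).toNat, by omega⟩
  obtain ⟨N, hN⟩ := exists_deg h
  rw [coefM_mul_loopM _ _ N hN] at h0 ⊢
  have h1 : ∀ i : ℕ, coefM q.G (-1 - j - i) = (-(q.c (-1) * q.a)) ^ j * coefM q.G (-1 - i) := by
    intro i
    have e1 : (-1 - (j : ℤ) - i) = -1 - ((j + i : ℕ) : ℤ) := by push_cast; ring
    rw [e1, coefM_G, coefM_G, c_neg_eq_pow, c_neg_eq_pow, pow_add, Matrix.mul_assoc]
  simp only [h1, Matrix.mul_assoc]
  rw [← Matrix.mul_sum, h0, Matrix.mul_zero]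

theorem yx_eq (p : Pen R ι) (q : Pen R κ) (E F : Matrix κ ι R[X]) (E' F' : Matrix ι κ R[X])
    (hE' : E' * E = 1) (hF : F * F' = 1)
    (h : E * ppl p.a p.b = ppl q.a q.b * F) :
    coefM (p.G * loopM (E' * q.b.map (C : R →+* R[X]))) (-1) * q.P *
      (coefM (q.G * loopM (E * p.b.map (C : R →+* R[X]))) (-1) * p.P) = p.P := by
  -- `g E' = F' g'`
  have k1 : p.G * loopM E' = loopM F' * q.G := by
    have h1 : E' * ppl q.a q.b = ppl p.a p.b * F' := by
      calc E' * ppl q.a q.b = E' * ppl q.a q.b * (F * F') := by rw [hF, Matrix.mul_one]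
        _ = E' * (ppl q.a q.b * F) * F' := by simp only [Matrix.mul_assoc]
        _ = (E' * E) * ppl p.a p.b * F' := by rw [← h]; simp only [Matrix.mul_assoc]
        _ = ppl p.a p.b * F' := by rw [hE', Matrix.one_mul]
    have h2 := congrArg loopM h1
    rw [loopM_mul, loopM_mul, loopM_ppl, loopM_ppl] at h2
    calc p.G * loopM E' = p.G * loopM E' * (pl q.a q.b * q.G) := by rw [q.fG, Matrix.mul_one]
      _ = p.G * (loopM E' * pl q.a q.b) * q.G := by simp only [Matrix.mul_assoc]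
      _ = (p.G * pl p.a p.b) * loopM F' * q.G := by rw [h2]; simp only [Matrix.mul_assoc]
      _ = loopM F' * q.G := by rw [p.Gf, Matrix.one_mul]
  set w : Matrix κ ι R := coefM (q.G * loopM (E * p.b.map (C : R →+* R[X]))) (-1) * p.P with hw
  let H : Matrix κ ι R[X] := E * p.b.map (C : R →+* R[X]) * p.P.map (C : R →+* R[X])
  have hwH : coefM (q.G * loopM H) (-1) = w := by
    rw [hw, ← coefM_mul_cM, Matrix.mul_assoc, ← loopM_map_C p.P, ← loopM_mul]
  have hPw : q.P * w = w := by rw [← hwH, P_mul_res]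
  let h1 : Matrix κ ι R[X] := q.b.map (C : R →+* R[X]) * w.map (C : R →+* R[X]) - H
  have hres : coefM (q.G * loopM h1) (-1) = 0 := by
    rw [show loopM h1 = cM q.b * cM w - loopM H by
      rw [← loopM_map_C, ← loopM_map_C, ← loopM_mul, ← loopM_sub], Matrix.mul_sub, coefM_sub, hwH,
      ← Matrix.mul_assoc, coefM_mul_cM, coefM_mul_cM, coefM_G]
    change q.P * w - w = 0
    rw [hPw, sub_self]
  have hhol := (q.holM_of_res h1 hres).loopM_mul F'
  rw [← Matrix.mul_assoc, ← k1] at hhol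
  have h3 := hhol (-1) (by norm_num)
  have h4 : p.G * loopM E' * loopM h1
      = p.G * loopM (E' * q.b.map (C : R →+* R[X])) * cM w - p.G * cM p.b * cM p.P := by
    rw [show loopM h1 = cM q.b * cM w - loopM H by
      rw [← loopM_map_C, ← loopM_map_C, ← loopM_mul, ← loopM_sub], Matrix.mul_sub]
    congr 1
    · rw [loopM_mul, loopM_map_C]; simp only [Matrix.mul_assoc]
    · have : loopM E' * loopM H = cM p.b * cM p.P := by
        rw [← loopM_mul]
        have e : E' * H = p.b.map (C : R →+* R[X]) * p.P.map (C : R →+* R[X]) := by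
          simp only [H]
          rw [← Matrix.mul_assoc, ← Matrix.mul_assoc, hE', Matrix.one_mul]
        rw [e, loopM_mul, loopM_map_C, loopM_map_C]
      rw [Matrix.mul_assoc, this, ← Matrix.mul_assoc]
  rw [h4, coefM_sub, coefM_mul_cM, coefM_mul_cM, coefM_mul_cM, coefM_G, sub_eq_zero] at h3
  rw [Matrix.mul_assoc, hPw, h3]
  exact p.P_mul_P

/-- **Equivalence lemma.** -/
theorem mvn_of_eqv {p : Pen R ι} {q : Pen R κ} (h : Eqv (ppl p.a p.b) (ppl q.a q.b)) :
    MvN p.P q.P := by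
  obtain ⟨E, F, E', F', h1, h2, h3, h4, h5⟩ := h
  have h5' : E' * ppl q.a q.b = ppl p.a p.b * F' := by
    calc E' * ppl q.a q.b = E' * ppl q.a q.b * (F * F') := by rw [h4, Matrix.mul_one]
      _ = E' * (ppl q.a q.b * F) * F' := by simp only [Matrix.mul_assoc]
      _ = (E' * E) * ppl p.a p.b * F' := by rw [← h5]; simp only [Matrix.mul_assoc]
      _ = ppl p.a p.b * F' := by rw [h1, Matrix.one_mul]
  exact ⟨_, _, yx_eq p q E F E' F' h1 h4 h5, yx_eq q p E' F' E F h2 h3 h5'⟩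

end Pen

end eqvLemma

end Crest.Agent.R204.Bott671
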