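import Crest.Agent.R204.BottS_671

/-!
# Injectivity half of Bott periodicity (statement (I))
-/

set_option autoImplicit false
set_option linter.unusedSectionVars false

open Filter Topology Polynomial Matrix

namespace Crest.Agent.R204.Bott671

section

variable {R : Type*} [NormedCommRing R] [NormedAlgebra ℂ R] [CompleteSpace R]
  {ι κ l : Type} [Fintype ι] [DecidableEq ι] [Fintype κ] [DecidableEq κ] [Fintype l] [DecidableEq l]

/-- A matrix over `C(Circle, C(unitInterval, R))` is a unit iff it is so pointwise. -/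
theorem isUnit_CI (M : Matrix ι ι C(Circle, C(unitInterval, R)))
    (h : ∀ (z : Circle) (t : unitInterval), IsUnit (M.map fun f => f z t)) : IsUnit M := by
  rw [isUnit_iff_evM]
  intro z
  rw [isUnit_iff_evM]
  intro t
  exact h z t

/-- Continuous algebra homomorphisms, with the instances coming from `NormedCommRing`. -/
abbrev Ev (R' R : Type*) [NormedCommRing R'] [NormedAlgebra ℂ R'] [NormedCommRing R]
    [NormedAlgebra ℂ R] := R' →A[ℂ] R

/-- Evaluation at a time. -/
noncomputable def evA (t : unitInterval) : Ev C(unitInterval, R) R :=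
  { toAlgHom := ContinuousMap.evalAlgHom ℂ R t
    cont := continuous_eval_const t }

theorem evA_apply (t : unitInterval) (f : C(unitInterval, R)) : evA t f = f t := rfl

/-- The underlying ring homomorphism. -/
noncomputable abbrev Ev.rh {R' : Type*} [NormedCommRing R'] [NormedAlgebra ℂ R'] (φ : Ev R' R) :
    R' →+* R := (φ : R' →+* R)

/-- Value of `loop` over the path algebra. -/
theorem loop_CI_apply (p : C(unitInterval, R)[X]) (z : Circle) (t : unitInterval) :
    (loop p : C(Circle, C(unitInterval, R))) z t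
      = (loop (p.map (Ev.rh (evA t))) : C(Circle, R)) z := by
  rw [loop_map]
  rfl

section gen

variable {R' : Type*} [NormedCommRing R'] [NormedAlgebra ℂ R'] [CompleteSpace R']

/-- The segment between two polynomial matrices, over a path algebra. -/
noncomputable def segP (A : PathAlg R R') (p0 p1 : Matrix ι ι R[X]) : Matrix ι ι R'[X] :=
  (Polynomial.C (1 - A.tI)) • p0.map (Polynomial.mapRingHom (A.cst : R →+* R'))
    + (Polynomial.C A.tI) • p1.map (Polynomial.mapRingHom (A.cst : R →+* R'))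

theorem segP_map (A : PathAlg R R') (p0 p1 : Matrix ι ι R[X]) (φ : R' →A[ℂ] R)
    (hφ : ∀ r, φ (A.cst r) = r) :
    (segP A p0 p1).map (Polynomial.mapRingHom (φ : R' →+* R))
      = (Polynomial.C (1 - φ A.tI)) • p0 + (Polynomial.C (φ A.tI)) • p1 := by
  have hid : (φ : R' →+* R).comp (A.cst : R →+* R') = RingHom.id R := by
    ext r; exact hφ r
  ext i j : 2
  simp only [segP, Matrix.map_apply, Matrix.add_apply, Matrix.smul_apply, smul_eq_mul,
    Polynomial.coe_mapRingHom, Polynomial.map_add, Polynomial.map_mul, Polynomial.map_C,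
    Polynomial.map_map, hid, Polynomial.map_id]
  congr 2
  simp

/-- The two ends of a polynomial path have equivalent indices. -/
theorem nu_ends (A : PathAlg R R') {P : Matrix ι ι R'[X]} (hP : IsUnit (loopM P)) :
    ∃ (κ : Type) (_ : Fintype κ) (_ : DecidableEq κ) (e0 e1 : Matrix κ κ R),
      e0 * e0 = e0 ∧ e1 * e1 = e1 ∧
      NuRel (P.map (Polynomial.mapRingHom (A.φ0 : R' →+* R))) e0 ∧
      NuRel (P.map (Polynomial.mapRingHom (A.φ1 : R' →+* R))) e1 ∧ MvN e0 e1 := by
  obtain ⟨κ, i1, i2, E, hE, hPE⟩ := nu_exists P hP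
  exact ⟨κ, i1, i2, E.map A.φ0, E.map A.φ1, map_idem A.φ0 hE, map_idem A.φ1 hE,
    nu_map A.φ0 hPE, nu_map A.φ1 hPE, A.mvn E hE⟩

/-- iterated shift -/
theorem nu_X_pow (A : PathAlg R R') (N : ℕ) :
    ∃ (α : Type) (_ : Fintype α) (_ : DecidableEq α),
      ∀ {κ : Type} [Fintype κ] [DecidableEq κ] {p : Matrix ι ι R[X]} {e : Matrix κ κ R},
        IsUnit (loopM p) → e * e = e → NuRel p e →
        NuRel ((X : R[X]) ^ N • p) (fromBlocks e 0 0 (1 : Matrix α α R)) := by
  induction N with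
  | zero =>
    refine ⟨Empty, inferInstance, inferInstance, ?_⟩
    intro κ _ _ p e hu he hp
    rw [pow_zero, one_smul]
    refine nu_mvn ?_ ?_ hp
    · rw [fromBlocks_multiply]; simp [he]
    · have h := MvN.add_zero (κ := Empty) e he
      have h1 : (1 : Matrix Empty Empty R) = 0 := Subsingleton.elim _ _
      rw [h1]
      exact h.symm
  | succ N ih =>
    obtain ⟨α, _, _, hα⟩ := ih
    refine ⟨α ⊕ ι, inferInstance, inferInstance, ?_⟩
    intro κ _ _ p e hu he hp
    have h1 := hα hu he hp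
    have he1 : fromBlocks e 0 0 (1 : Matrix α α R) * fromBlocks e 0 0 (1 : Matrix α α R)
        = fromBlocks e 0 0 (1 : Matrix α α R) := by
      rw [fromBlocks_multiply]; simp [he]
    have hu1 : IsUnit (loopM ((X : R[X]) ^ N • p)) := by
      have h : loopM ((X : R[X]) ^ N • p) = ((zc : C(Circle, R)) ^ N) • loopM p := by
        ext i j : 2
        simp [loopM]
      rw [h, Matrix.isUnit_iff_isUnit_det, Matrix.det_smul]
      exact ((isUnit_zc.pow _).pow _).mul ((Matrix.isUnit_iff_isUnit_det _).1 hu)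
    have h2 := nu_X_smul' A hu1 he1 h1
    rw [smul_smul, ← pow_succ'] at h2
    have he2 : fromBlocks e 0 0 (1 : Matrix (α ⊕ ι) (α ⊕ ι) R) * fromBlocks e 0 0 1
        = fromBlocks e 0 0 (1 : Matrix (α ⊕ ι) (α ⊕ ι) R) := by
      rw [fromBlocks_multiply]; simp [he]
    refine nu_mvn he2 ?_ h2
    -- reindexing
    have hcast : fromBlocks (fromBlocks e 0 0 (1 : Matrix α α R)) 0 0 (1 : Matrix ι ι R)
        = (fromBlocks e 0 0 (1 : Matrix (α ⊕ ι) (α ⊕ ι) R)).submatrix (Equiv.sumAssoc κ α ι)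
          (Equiv.sumAssoc κ α ι) := by
      ext i j
      rcases i with (i | i) | i <;> rcases j with (j | j) | j <;> simp [Matrix.one_apply]
    rw [hcast]
    set f := fromBlocks e 0 0 (1 : Matrix (α ⊕ ι) (α ⊕ ι) R)
    refine ⟨f.submatrix (Equiv.sumAssoc κ α ι) id, f.submatrix id (Equiv.sumAssoc κ α ι), ?_, ?_⟩
    · rw [← Matrix.submatrix_mul _ _ _ _ _ Function.bijective_id, he2]
    · rw [Matrix.submatrix_mul_equiv, he2]
      rfl

end gen

theorem loopM_CI_apply (P : Matrix ι ι C(unitInterval, R)[X]) (z : Circle) (t : unitInterval) :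
    (loopM P).map (fun f => f z t)
      = evM z (loopM (P.map (Polynomial.mapRingHom (Ev.rh (evA t))))) := by
  ext i j
  simp only [loopM, Matrix.map_apply, evM_apply, Polynomial.coe_mapRingHom]
  exact loop_CI_apply _ _ _

/-- The index is constant along a segment of polynomial loops. -/
theorem nu_segment {p0 p1 : Matrix ι ι R[X]}
    (h : ∀ t ∈ Set.Icc (0:ℝ) 1, IsUnit ((1 - (t : ℂ)) • loopM p0 + (t : ℂ) • loopM p1))
    {e0 : Matrix κ κ R} {e1 : Matrix l l R} (he0 : e0 * e0 = e0) (he1 : e1 * e1 = e1)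
    (h0 : NuRel p0 e0) (h1 : NuRel p1 e1) : MvN e0 e1 := by
  have hu : IsUnit (loopM (segP (pathAlg R) p0 p1)) := by
    refine isUnit_CI _ fun z t => ?_
    rw [loopM_CI_apply, segP_map _ _ _ _ (fun r => rfl)]
    have ht := h t t.2
    rw [isUnit_iff_evM] at ht
    convert ht z using 1
    ext i j
    have e1 : evA t (pathAlg R).tI = algebraMap ℂ R ((t : ℝ) : ℂ) := rfl
    rw [e1]
    simp only [evM_apply, loopM, Matrix.map_apply, Matrix.add_apply, Matrix.smul_apply, smul_eq_mul,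
      map_add, map_mul, loop_C, ContinuousMap.add_apply, ContinuousMap.mul_apply,
      ContinuousMap.C_apply, ContinuousMap.smul_apply]
    simp only [Algebra.smul_def, map_sub, map_one, Algebra.algebraMap_self, RingHom.id_apply]
  refine nu_path (pathAlg R) hu he0 he1 ?_ ?_
  · rw [segP_map _ _ _ _ (pathAlg R).h0, (pathAlg R).ht0]
    simpa using h0
  · rw [segP_map _ _ _ _ (pathAlg R).h1, (pathAlg R).ht1]
    simpa using h1

/-- The family of loops given by a path, as a matrix over `C(Circle, C(unitInterval, R))`. -/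
noncomputable def Hmat (γ : unitInterval → Matrix ι ι C(Circle, R)) (hγ : Continuous γ) :
    Matrix ι ι C(Circle, C(unitInterval, R)) := fun i j =>
  ContinuousMap.curry ⟨fun zt : Circle × unitInterval => γ zt.2 i j zt.1, by
    have h1 : Continuous fun zt : Circle × unitInterval => γ zt.2 i j :=
      ((continuous_apply_apply i j).comp hγ).comp continuous_snd
    exact h1.eval continuous_fst⟩

theorem Hmat_apply (γ : unitInterval → Matrix ι ι C(Circle, R)) (hγ : Continuous γ) (i j : ι)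
    (z : Circle) (t : unitInterval) : Hmat γ hγ i j z t = γ t i j z := rfl

theorem isUnit_Hmat (γ : unitInterval → Matrix ι ι C(Circle, R)) (hγ : Continuous γ)
    (h : ∀ t, IsUnit (γ t)) : IsUnit (Hmat γ hγ) := by
  refine isUnit_CI _ fun z t => ?_
  exact (isUnit_iff_evM (γ t)).1 (h t) z

theorem close_eval {δ : ℝ} (hδ : 0 < δ) (F : C(Circle, R)) (H : C(Circle, C(unitInterval, R)))
    (t : unitInterval) (hF : ∀ z, F z = H z t) (N : ℕ) (P : C(unitInterval, R)[X])
    (h : ‖H - zi ^ N * loop P‖ < δ) :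
    ‖F - zi ^ N * loop (P.map (Ev.rh (evA t)))‖ < δ := by
  rw [ContinuousMap.norm_lt_iff _ hδ]
  intro z
  have h2 : (loop P : C(Circle, C(unitInterval, R))) z t
      = (loop (P.map (Ev.rh (evA t))) : C(Circle, R)) z := loop_CI_apply _ _ _
  have h1 : (F - zi ^ N * loop (P.map (Ev.rh (evA t))) : C(Circle, R)) z
      = ((H - zi ^ N * loop P : C(Circle, C(unitInterval, R))) z) t := by
    have h3 : ((H - zi ^ N * loop P : C(Circle, C(unitInterval, R))) z) t
        = H z t - ((zi : C(Circle, C(unitInterval, R))) z t) ^ N * (loop P) z t := rfl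
    have h4 : (F - zi ^ N * loop (P.map (Ev.rh (evA t))) : C(Circle, R)) z
        = F z - ((zi : C(Circle, R)) z) ^ N * (loop (P.map (Ev.rh (evA t))) : C(Circle, R)) z := rfl
    rw [h3, h4, h2, hF]
    rfl
  rw [h1]
  exact ((ContinuousMap.norm_coe_le_norm _ t).trans (ContinuousMap.norm_coe_le_norm _ z)).trans_lt h

theorem Lam_eq_loopM (p : Matrix ι ι R) : Lam p = loopM (ppl (1 - p) p) := by
  rw [loopM_ppl, pl, Lam, add_comm]

theorem loopM_X_pow_smul (N : ℕ) (p : Matrix ι ι R[X]) :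
    loopM ((X : R[X]) ^ N • p) = ((zc : C(Circle, R)) ^ N) • loopM p := by
  ext i j : 2
  simp [loopM]

theorem isUnit_smul_zc_pow {N : ℕ} {M : Matrix ι ι C(Circle, R)} (h : IsUnit M) :
    IsUnit (((zc : C(Circle, R)) ^ N) • M) := by
  rw [Matrix.isUnit_iff_isUnit_det, Matrix.det_smul]
  exact ((isUnit_zc.pow _).pow _).mul ((Matrix.isUnit_iff_isUnit_det _).1 h)

/-- one endpoint of the homotopy -/
theorem nu_endpoint {f : Matrix ι ι R[X]} {P0 : Matrix ι ι R[X]} {δ : ℝ} {N : ℕ}
    (hball : ∀ v : Matrix ι ι C(Circle, R), (∀ i j, ‖loopM f i j - v i j‖ < δ) → IsUnit v)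
    (hclose : ∀ i j, ‖loopM f i j - zi ^ N * loop (P0 i j)‖ < δ)
    {e0 : Matrix κ κ R} {e1 : Matrix l l R} (he0 : e0 * e0 = e0) (he1 : e1 * e1 = e1)
    (h0 : NuRel ((X : R[X]) ^ N • f) e0) (h1 : NuRel P0 e1) : MvN e0 e1 := by
  refine nu_segment (fun t ht => ?_) he0 he1 h0 h1
  have h2 : (zi ^ N : C(Circle, R)) • loopM P0 = fun i j => zi ^ N * loop (P0 i j) := by
    ext i j : 2
    rfl
  have h3 := isUnit_segment hball (v := (zi ^ N : C(Circle, R)) • loopM P0) (by
    rw [h2]; exact hclose) ht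
  have h4 := isUnit_smul_zc_pow (N := N) h3
  have h5 : ((zc : C(Circle, R)) ^ N) • ((1 - (t : ℂ)) • loopM f
      + (t : ℂ) • ((zi ^ N : C(Circle, R)) • loopM P0))
      = (1 - (t : ℂ)) • loopM ((X : R[X]) ^ N • f) + (t : ℂ) • loopM P0 := by
    rw [loopM_X_pow_smul, smul_add, smul_comm _ (1 - (t : ℂ)), smul_comm _ (t : ℂ), smul_smul,
      mul_comm, zi_pow_mul_zc_pow, one_smul]
  rwa [h5] at h4

/-- Approximation of a unit loop by Laurent polynomials. -/
theorem exists_laurent_unit {H : Matrix ι ι C(Circle, R)} (hH : IsUnit H) {δ : ℝ} (hδ : 0 < δ) :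
    ∃ (N : ℕ) (P : Matrix ι ι R[X]), IsUnit (loopM P) ∧
      ∀ i j, ‖H i j - zi ^ N * loop (P i j)‖ < δ := by
  obtain ⟨δ0, hδ0, hb0⟩ := exists_ball hH
  obtain ⟨N, P, hP⟩ := exists_laurentM H (lt_min hδ0 hδ)
  have h1 : IsUnit ((zi ^ N : C(Circle, R)) • loopM P) := by
    refine hb0 _ fun i j => ?_
    exact (hP i j).trans_le (min_le_left _ _)
  have h2 := isUnit_smul_zc_pow (N := N) h1
  rw [smul_smul, mul_comm, zi_pow_mul_zc_pow, one_smul] at h2
  exact ⟨N, P, h2, fun i j => (hP i j).trans_le (min_le_right _ _)⟩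

/-- Approximation of a path of loops by a polynomial path. -/
theorem exists_poly_path {F G : Matrix ι ι C(Circle, R)} (h : Conn F G) {δ : ℝ} (hδ : 0 < δ) :
    ∃ (N : ℕ) (P : Matrix ι ι C(unitInterval, R)[X]), IsUnit (loopM P) ∧
      (∀ i j, ‖F i j - zi ^ N * loop ((P i j).map (Ev.rh (evA 0)))‖ < δ) ∧
      (∀ i j, ‖G i j - zi ^ N * loop ((P i j).map (Ev.rh (evA 1)))‖ < δ) := by
  obtain ⟨γ, hγ⟩ := h
  obtain ⟨N, P, h2, hP⟩ := exists_laurent_unit (isUnit_Hmat (fun t => γ t) γ.continuous hγ) hδ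
  refine ⟨N, P, h2, fun i j => ?_, fun i j => ?_⟩
  · refine close_eval hδ _ (Hmat (fun t => γ t) γ.continuous i j) 0 (fun z => ?_) N (P i j) (hP i j)
    rw [Hmat_apply, γ.source]
  · refine close_eval hδ _ (Hmat (fun t => γ t) γ.continuous i j) 1 (fun z => ?_) N (P i j) (hP i j)
    rw [Hmat_apply, γ.target]

/-- **(I)**. -/
theorem bott_inj {p q : Matrix ι ι R} (hp : p * p = p) (hq : q * q = q)
    (h : Conn (Lam p) (Lam q)) :
    ∃ (α : Type) (_ : Fintype α) (_ : DecidableEq α),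
      MvN (fromBlocks p 0 0 (1 : Matrix α α R)) (fromBlocks q 0 0 (1 : Matrix α α R)) := by
  obtain ⟨δ1, hδ1, hb1⟩ := exists_ball (isUnit_Lam hp)
  obtain ⟨δ2, hδ2, hb2⟩ := exists_ball (isUnit_Lam hq)
  obtain ⟨N, P, hPu, hP0, hP1⟩ := exists_poly_path h (lt_min hδ1 hδ2)
  obtain ⟨κ0, _, _, e0, e1, he0, he1, hn0, hn1, h01⟩ := nu_ends (pathAlg R) hPu
  obtain ⟨α, i1, i2, hα⟩ := nu_X_pow (ι := ι) (pathAlg R) N
  have hpu : IsUnit (loopM (ppl (1 - p) p)) := by rw [← Lam_eq_loopM]; exact isUnit_Lam hp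
  have hqu : IsUnit (loopM (ppl (1 - q) q)) := by rw [← Lam_eq_loopM]; exact isUnit_Lam hq
  have hp' := hα hpu hp (nu_idem hp)
  have hq' := hα hqu hq (nu_idem hq)
  have hpp : fromBlocks p 0 0 (1 : Matrix α α R) * fromBlocks p 0 0 1 = fromBlocks p 0 0 1 := by
    rw [fromBlocks_multiply]; simp [hp]
  have hqq : fromBlocks q 0 0 (1 : Matrix α α R) * fromBlocks q 0 0 1 = fromBlocks q 0 0 1 := by
    rw [fromBlocks_multiply]; simp [hq]
  have m0 : MvN (fromBlocks p 0 0 (1 : Matrix α α R)) e0 := by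
    refine nu_endpoint (δ := min δ1 δ2) (N := N) ?_ ?_ hpp he0 hp' hn0
    · intro v hv
      rw [← Lam_eq_loopM] at hv
      exact hb1 v fun i j => (hv i j).trans_le (min_le_left _ _)
    · intro i j
      rw [← Lam_eq_loopM]
      exact hP0 i j
  have m1 : MvN (fromBlocks q 0 0 (1 : Matrix α α R)) e1 := by
    refine nu_endpoint (δ := min δ1 δ2) (N := N) ?_ ?_ hqq he1 hq' hn1
    · intro v hv
      rw [← Lam_eq_loopM] at hv
      exact hb2 v fun i j => (hv i j).trans_le (min_le_right _ _)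
    · intro i j
      rw [← Lam_eq_loopM]
      exact hP1 i j
  exact ⟨α, i1, i2, (m0.trans hpp he1 h01).trans hpp hqq m1.symm⟩

end

end Crest.Agent.R204.Bott671
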