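import Crest.Agent.R204.BottK_369

/-!
# Row 204, block H: Bott periodicity for augmented algebras (T2), part 2, helper369

`B : K0 A →+ K0 (SigA (Sig.aug ε))`, `B [p] = d (be p)`.
-/

set_option autoImplicit false
set_option linter.unusedSectionVars false
set_option linter.unusedSimpArgs false

open Matrix Topology
open scoped unitInterval
open Crest.Agent.R204.K357 Crest.Agent.R204.Clutch369

namespace Crest.Agent.R204.BottK369

noncomputable section

universe u

/-- half turn -/
def hw (t : I) : ℂ := (Circle.exp (Real.pi * t) : ℂ)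
/-- inverse half turn -/
def hw' (t : I) : ℂ := (((Circle.exp (Real.pi * t))⁻¹ : Circle) : ℂ)

theorem continuous_hw : Continuous hw := by unfold hw; fun_prop
theorem continuous_hw' : Continuous hw' := by
  unfold hw'
  exact continuous_subtype_val.comp ((continuous_inv (G := Circle)).comp (by fun_prop))

theorem hw_mul (t : I) : hw t * hw' t = 1 := by
  unfold hw hw'
  rw [← Circle.coe_mul]
  simp

theorem hw_mul' (t : I) : hw' t * hw t = 1 := by rw [mul_comm, hw_mul]

@[simp] theorem hw_zero : hw 0 = 1 := by simp [hw]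
@[simp] theorem hw'_zero : hw' 0 = 1 := by simp [hw']
@[simp] theorem hw_one : hw 1 = -1 := by
  simp [hw, Circle.coe_exp]
@[simp] theorem hw'_one : hw' 1 = -1 := by
  have := hw_mul 1
  rw [hw_one] at this
  linear_combination -this

variable {A : Type u} [NormedRing A] [NormedAlgebra ℂ A] [CompleteSpace A]
variable {ε : A →ₐ[ℂ] ℂ}
variable {n m k l : Type} [Fintype n] [DecidableEq n] [Fintype m] [DecidableEq m]
  [Fintype k] [DecidableEq k] [Fintype l] [DecidableEq l]

/-- an involution is joined to `1` -/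
theorem rho_idem {S : Matrix n n A} (hS : S * S = 1) :
    ((1 / 2 : ℂ) • (1 - S)) * ((1 / 2 : ℂ) • (1 - S)) = (1 / 2 : ℂ) • (1 - S) := by
  have h : (1 - S) * (1 - S) = (2 : ℂ) • (1 - S) := by
    rw [Matrix.sub_mul, Matrix.mul_sub, Matrix.mul_sub, hS, two_smul]
    simp only [Matrix.one_mul, Matrix.mul_one]
    abel
  rw [Matrix.smul_mul, Matrix.mul_smul, h, smul_smul, smul_smul]
  norm_num

theorem Lz_neg_one {S : Matrix n n A} : Lz (-1) ((1 / 2 : ℂ) • (1 - S)) = S := by
  unfold Lz
  have : ((-1 : ℂ) • ((1 / 2 : ℂ) • (1 - S))) + (1 - (1 / 2 : ℂ) • (1 - S)) = 1 - (1 : ℂ) • (1 - S) := by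
    rw [smul_smul]
    have : (1 : ℂ) • (1 - S) = (1 / 2 : ℂ) • (1 - S) + (1 / 2 : ℂ) • (1 - S) := by
      rw [← add_smul]; norm_num
    rw [this]
    norm_num
    abel
  rw [this, one_smul]
  abel

theorem d_be_mvn {p : Matrix n n A} (hp : p * p = p) {q : Matrix m m A} (hq : q * q = q)
    (h : MvN p q) : d (be (ε := ε) p hp) = d (be q hq) := by
  obtain ⟨v, w, h1, h2⟩ := h
  have hn := Ex837.MvN.norm hp hq h1 h2
  set S := Ex837.sym p q (p * v * q) (q * w * p) with hS
  have hSS : S * S = 1 := Ex837.sym_sq hn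
  have hSc : S * fromBlocks p 0 0 0 * S = fromBlocks 0 0 0 q := Ex837.sym_conj hn
  set r := (1 / 2 : ℂ) • (1 - S) with hr
  have hrr : r * r = r := rho_idem hSS
  let P : I → Matrix (n ⊕ m) (n ⊕ m) A := fun t => Lz (hw t) r * fromBlocks p 0 0 0 * Lz (hw' t) r
  have cP : Continuous P := ((continuous_Lz continuous_hw continuous_const).matrix_mul
    continuous_const).matrix_mul (continuous_Lz continuous_hw' continuous_const)
  have z0 : (0 : Matrix m m A) * 0 = 0 := by simp
  have z0' : (0 : Matrix n n A) * 0 = 0 := by simp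
  have hpp := idem_sum hp z0
  have hP : ∀ t, P t * P t = P t := fun t => by
    calc Lz (hw t) r * fromBlocks p 0 0 0 * Lz (hw' t) r * (Lz (hw t) r * fromBlocks p 0 0 0 * Lz (hw' t) r)
        = Lz (hw t) r * fromBlocks p 0 0 0 * (Lz (hw' t) r * Lz (hw t) r) *
          (fromBlocks p 0 0 0 * Lz (hw' t) r) := by simp only [Matrix.mul_assoc]
      _ = Lz (hw t) r * (fromBlocks p 0 0 0 * fromBlocks p 0 0 0) * Lz (hw' t) r := by
          rw [Lz_mul (hw_mul' t) hrr, Matrix.mul_one]; simp only [Matrix.mul_assoc]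
      _ = _ := by rw [hpp]
  have P0 : P 0 = fromBlocks p 0 0 0 := by simp [P, Lz_one]
  have P1 : P 1 = fromBlocks 0 0 0 q := by
    change Lz (hw 1) r * fromBlocks p 0 0 0 * Lz (hw' 1) r = _
    rw [hw_one, hw'_one, hr, Lz_neg_one, hSc]
  have key := (be_path (ε := ε) P cP hP (map_continuous ε)).d_eq
  have e0 : be (ε := ε) (P 0) (hP 0) = (be p hp).sum (be 0 z0) := by
    rw [← be_sum]
    congr 1
  have e1 : be (ε := ε) (P 1) (hP 1) = (be 0 z0').sum (be q hq) := by
    rw [← be_sum]
    congr 1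
  have z1 : ∀ {κ : Type} [Fintype κ] [DecidableEq κ] (hz : (0 : Matrix κ κ A) * 0 = 0),
      d (be (ε := ε) (0 : Matrix κ κ A) hz) = 0 := by
    intro κ _ _ hz
    have hc : (0 : Matrix κ κ ℂ) * 0 = 0 := by simp
    have h3 := be_scalar (A := A) (ε := ε) (0 : Matrix κ κ ℂ) hc
    have h4 : io A (0 : Matrix κ κ ℂ) = 0 := by simp [io]
    have h5 : be (ε := ε) (0 : Matrix κ κ A) hz = RU.one := by
      rw [← h3]
      congr 1
      exact h4.symm
    rw [h5, d_one]
  rw [e0, e1, d_sum, d_sum, z1, z1, add_zero, zero_add] at key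
  exact key

/-- the Bott homomorphism on `V A` -/
def B0 (ε : A →ₐ[ℂ] ℂ) : V A → K0 (SigA (Sig.aug ε)) :=
  Quotient.lift (fun x : Idem A => d (be (ε := ε) x.e x.idem))
    (fun x y h => d_be_mvn x.idem y.idem h)

theorem B0_cl {p : Matrix n n A} (hp : p * p = p) : B0 ε (cl p) = d (be (ε := ε) p hp) := by
  obtain ⟨r, e, he, h1⟩ := V.exists_rep (cl p)
  rw [← h1]
  have h2 : B0 ε (cl e) = d (be (ε := ε) e he) := by
    have := cl_mk ⟨r, e, he⟩
    simp only at this
    rw [this]
    rfl
  rw [h2]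
  exact d_be_mvn he hp ((cl_eq_iff he hp).1 h1)

/-- the Bott homomorphism -/
def Bott (ε : A →ₐ[ℂ] ℂ) : K0 A →+ K0 (SigA (Sig.aug ε)) :=
  Groth.lift
    { toFun := B0 ε
      map_zero' := by
        have hc : (0 : Matrix Empty Empty ℂ) * 0 = 0 := by simp
        have h3 := be_scalar (A := A) (ε := ε) (0 : Matrix Empty Empty ℂ) hc
        have hz : (0 : Matrix Empty Empty A) * 0 = 0 := by simp
        have h5 : be (ε := ε) (0 : Matrix Empty Empty A) hz = RU.one := by
          rw [← h3]
          congr 1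
          ext i
          exact i.elim
        rw [cl_zero_def, B0_cl hz, h5, d_one]
      map_add' := fun x y => by
        induction x using V.ind with
        | _ n e he =>
        induction y using V.ind with
        | _ m f hf =>
          rw [← cl_sum he hf, B0_cl (idem_sum he hf), B0_cl he, B0_cl hf, be_sum, d_sum] }

theorem Bott_cls {p : Matrix n n A} (hp : p * p = p) : Bott ε (K0.cls p) = d (be (ε := ε) p hp) := by
  have : Bott ε (K0.cls p) = B0 ε (cl p) := Groth.lift_ofAdd _ _
  rw [this, B0_cl]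

/-- `Bott` kills scalars -/
theorem Bott_scalar (x : K0 ℂ) : Bott ε (K0.map (algebraMap ℂ A) x) = 0 := by
  induction x using K0.ind with
  | _ n m e f he hf =>
    have key : ∀ {κ : Type} [Fintype κ] [DecidableEq κ] (e : Matrix κ κ ℂ) (he : e * e = e),
        Bott ε (K0.map (algebraMap ℂ A) (K0.cls e)) = 0 := by
      intro κ _ _ e he
      rw [K0.map_cls _ he]
      have h1 : io A e * io A e = io A e := by rw [← io_mul, he]
      have := Bott_cls (ε := ε) h1
      rw [be_scalar e he, d_one] at this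
      exact this
    rw [map_sub, map_sub, key e he, key f hf, sub_zero]

/-- augmentation -/
theorem aug_Bott (x : K0 A) :
    K0.map ((Sig.aug (Sig.aug ε) : SigA (Sig.aug ε) →ₐ[ℂ] ℂ) : SigA (Sig.aug ε) →+* ℂ) (Bott ε x) = 0 := by
  induction x using K0.ind with
  | _ n m e f he hf => rw [map_sub, map_sub, Bott_cls he, Bott_cls hf, aug_d, aug_d, sub_zero]

end

end Crest.Agent.R204.BottK369
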