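import Crest.Agent.R204.BottK2_369

/-!
# Row 204, block H: Bott periodicity for augmented algebras (T2), part 3, helper369

With the loop theorems `BottS A`, `BottI A` as hypotheses:
`Bott ε` is an isomorphism from `ker (K0 A → K0 ℂ)` to `ker (K0 (SigA (Sig.aug ε)) → K0 ℂ)`.
-/

set_option autoImplicit false
set_option linter.unusedSectionVars false
set_option linter.unusedSimpArgs false

open Matrix Topology
open scoped unitInterval
open Crest.Agent.R204.K357 Crest.Agent.R204.Clutch369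

namespace Crest.Agent.R204.BottK369

noncomputable section

universe u

section defs

variable (A : Type u) [NormedRing A] [NormedAlgebra ℂ A]

/-- loops of units joined through loops of units -/
def FConn {A : Type u} [NormedRing A] [NormedAlgebra ℂ A] {n : Type} [Fintype n] [DecidableEq n]
    (F G : I → Matrix n n A) : Prop :=
  ∃ a b : I × I → Matrix n n A, Continuous a ∧ Continuous b ∧ (∀ x, a x * b x = 1) ∧
    (∀ x, b x * a x = 1) ∧ (∀ r, a (r, 0) = a (r, 1)) ∧ (∀ s, a (0, s) = F s) ∧ ∀ s, a (1, s) = G s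

/-- loop theorem, surjectivity -/
def BottS : Prop := ∀ (n : Type) [Fintype n] [DecidableEq n] (u v : I → Matrix n n A),
  Continuous u → Continuous v → (∀ s, u s * v s = 1) → (∀ s, v s * u s = 1) → u 0 = u 1 →
    ∃ (N : ℕ) (k : Type) (_ : Fintype k) (_ : DecidableEq k) (p c c' : Matrix (n ⊕ k) (n ⊕ k) A),
      p * p = p ∧ c * c' = 1 ∧ c' * c = 1 ∧
        FConn (fun s => fromBlocks ((zz s) ^ N • u s) 0 0 1) (fun s => Lz (zz s) p * c)

/-- loop theorem, injectivity -/
def BottI : Prop := ∀ (n : Type) [Fintype n] [DecidableEq n] (p q : Matrix n n A),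
  p * p = p → q * q = q → FConn (fun s => Lz (zz s) p) (fun s => Lz (zz s) q) →
    K0.cls p = K0.cls q

end defs

variable {A : Type u} [NormedRing A] [NormedAlgebra ℂ A] [CompleteSpace A]
variable {ε : A →ₐ[ℂ] ℂ}
variable {n m k l : Type} [Fintype n] [DecidableEq n] [Fintype m] [DecidableEq m]
  [Fintype k] [DecidableEq k] [Fintype l] [DecidableEq l]

theorem sc_mul (x y : Matrix n n A) : sc ε (x * y) = sc ε x * sc ε y := by
  unfold sc
  rw [eps_mul, io_mul]

theorem sc_one : sc ε (1 : Matrix n n A) = 1 := by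
  simp [sc, io]

theorem sc_Lz (z : ℂ) (p : Matrix n n A) : sc ε (Lz z p) = Lz z (sc ε p) := by
  unfold sc
  rw [Lz_map, Lz_io]

theorem exists_be (hS : BottS A) (g : RU (Sig.aug ε) n) :
    ∃ (k : Type) (_ : Fintype k) (_ : DecidableEq k) (p : Matrix (n ⊕ k) (n ⊕ k) A) (hp : p * p = p),
      Jn (Sig.aug ε) (g.sum (RU.one : RU (Sig.aug ε) k)) (be p hp) := by
  have gu0 : g.u.map (Sig.ev ε 0) = 1 := by
    rw [mat_zero, g.eu]; simp
  have gu1 : g.u.map (Sig.ev ε 1) = 1 := by
    rw [mat_one, g.eu]; simp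
  have guv : ∀ s, g.u.map (Sig.ev ε s) * g.v.map (Sig.ev ε s) = 1 := fun s => by
    rw [← ev_mul, g.uv, Matrix.map_one _ (map_zero _) (map_one _)]
  have gvu : ∀ s, g.v.map (Sig.ev ε s) * g.u.map (Sig.ev ε s) = 1 := fun s => by
    rw [← ev_mul, g.vu, Matrix.map_one _ (map_zero _) (map_one _)]
  obtain ⟨N, k, ik, dk, p, c, c', hp, hcc', hc'c, a, b, ca, cb, ab, ba, a01, hF, hG⟩ :=
    hS n (fun s => g.u.map (Sig.ev ε s)) (fun s => g.v.map (Sig.ev ε s)) (mat_continuous _)
      (mat_continuous _) guv gvu (by rw [gu0, gu1])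
  refine ⟨k, ik, dk, p, hp, ?_⟩
  have hε : Continuous ε := map_continuous ε
  have csc : ∀ {f : I × I → Matrix (n ⊕ k) (n ⊕ k) A}, Continuous f → Continuous fun x => sc ε (f x) := by
    intro f hf
    unfold sc io
    exact (hf.matrix_map hε).matrix_map (continuous_algebraMap ℂ A)
  have c0 : Continuous fun x : I × I => ((x.1, 0) : I × I) := by fun_prop
  have b01 : ∀ r, b (r, 0) = b (r, 1) := fun r => inv_eq_of (ba (r, 0)) (by rw [a01, ab])
  have sab : ∀ x, sc ε (a x) * sc ε (b x) = 1 := fun x => by rw [← sc_mul, ab, sc_one]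
  have sba : ∀ x, sc ε (b x) * sc ε (a x) = 1 := fun x => by rw [← sc_mul, ba, sc_one]
  refine jn_of_fam _ _ (fun x => a x * b (x.1, 0) * (sc ε (a (x.1, 0)) * sc ε (b x)))
    (fun x => sc ε (a x) * sc ε (b (x.1, 0)) * (a (x.1, 0) * b x))
    ((ca.matrix_mul (cb.comp c0)).matrix_mul ((csc (ca.comp c0)).matrix_mul (csc cb)))
    (((csc ca).matrix_mul (csc (cb.comp c0))).matrix_mul ((ca.comp c0).matrix_mul cb))
    (fun x => ?_) (fun x => ?_) (fun r => ?_) (fun r => ?_) (fun x => ?_) (fun s => ?_) (fun s => ?_)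
  · calc a x * b (x.1, 0) * (sc ε (a (x.1, 0)) * sc ε (b x)) *
          (sc ε (a x) * sc ε (b (x.1, 0)) * (a (x.1, 0) * b x))
        = a x * (b (x.1, 0) * (sc ε (a (x.1, 0)) * (sc ε (b x) * sc ε (a x)) * sc ε (b (x.1, 0))) *
          a (x.1, 0)) * b x := by simp only [Matrix.mul_assoc]
      _ = 1 := by rw [sba, Matrix.mul_one, sab, Matrix.mul_one, ba, Matrix.mul_one, ab]
  · calc sc ε (a x) * sc ε (b (x.1, 0)) * (a (x.1, 0) * b x) *
          (a x * b (x.1, 0) * (sc ε (a (x.1, 0)) * sc ε (b x)))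
        = sc ε (a x) * (sc ε (b (x.1, 0)) * (a (x.1, 0) * (b x * a x) * b (x.1, 0)) *
          sc ε (a (x.1, 0))) * sc ε (b x) := by simp only [Matrix.mul_assoc]
      _ = 1 := by rw [ba, Matrix.mul_one, ab, Matrix.mul_one, sba, Matrix.mul_one, sab]
  · change a (r, 0) * b (r, 0) * (sc ε (a (r, 0)) * sc ε (b (r, 0))) = 1
    rw [ab, sab, Matrix.mul_one]
  · change a (r, 1) * b (r, 0) * (sc ε (a (r, 0)) * sc ε (b (r, 1))) = 1
    rw [← a01, ← b01, ab, sab, Matrix.mul_one]
  · rw [eps_mul, eps_mul, eps_mul, sc_map, sc_map]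
    calc (a x).map ε * (b (x.1, 0)).map ε * ((a (x.1, 0)).map ε * (b x).map ε)
        = (a x).map ε * ((b (x.1, 0)).map ε * (a (x.1, 0)).map ε) * (b x).map ε := by
          simp only [Matrix.mul_assoc]
      _ = 1 := by
          rw [← eps_mul, ba, Matrix.map_one _ (map_zero _) (map_one _), Matrix.mul_one, ← eps_mul, ab,
            Matrix.map_one _ (map_zero _) (map_one _)]
  · -- start
    have ha0 : a (0, 0) = 1 := by
      rw [hF 0]
      show fromBlocks ((zz 0) ^ N • g.u.map (Sig.ev ε 0)) 0 0 1 = 1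
      rw [gu0, zz_zero]
      simp
    have hb0 : b (0, 0) = 1 := by
      have := ab (0, 0)
      rwa [ha0, Matrix.one_mul] at this
    have hbs : b (0, s) = fromBlocks ((zi s) ^ N • g.v.map (Sig.ev ε s)) 0 0 1 := by
      refine inv_eq_of (ba (0, s)) ?_
      rw [hF s]
      show fromBlocks ((zz s) ^ N • g.u.map (Sig.ev ε s)) 0 0 1 *
        fromBlocks ((zi s) ^ N • g.v.map (Sig.ev ε s)) 0 0 1 = 1
      have h0 : (zi s) ^ N • ((zz s) ^ N • (1 : Matrix n n A)) = 1 := by
        rw [smul_smul, ← mul_pow, zi_mul_zz, one_pow, one_smul]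
      simp only [fromBlocks_multiply, Matrix.zero_mul, Matrix.mul_zero, add_zero, zero_add,
        Matrix.one_mul, Matrix.smul_mul, Matrix.mul_smul, guv, smul_zero, h0]
      exact fromBlocks_one
    change a (0, s) * b (0, 0) * (sc ε (a (0, 0)) * sc ε (b (0, s))) =
      (fromBlocks g.u 0 0 (1 : Matrix k k (SigA ε))).map (Sig.ev ε s)
    have hv : (g.v.map (Sig.ev ε s)).map ε = 1 := by rw [mat_aug]; exact g.ev
    have hsc : sc ε (b (0, s)) = fromBlocks ((zi s) ^ N • 1) 0 0 1 := by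
      rw [hbs, sc_fb, sc_one]
      congr 1
      unfold sc
      have : ((zi s) ^ N • g.v.map (Sig.ev ε s)).map ε = (zi s) ^ N • (1 : Matrix n n ℂ) := by
        rw [← hv]
        ext i j
        simp
      rw [this]
      ext i j
      by_cases h : i = j <;> simp [io, h, Matrix.one_apply, Algebra.algebraMap_eq_smul_one, smul_pow]
    rw [hF s, hb0, ha0, sc_one, Matrix.mul_one, Matrix.one_mul, hsc, ev_fb,
      Matrix.map_one _ (map_zero _) (map_one _)]
    show fromBlocks ((zz s) ^ N • g.u.map (Sig.ev ε s)) 0 0 1 *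
        fromBlocks ((zi s) ^ N • 1) 0 0 1 = _
    have h0 : (zi s) ^ N • ((zz s) ^ N • g.u.map (Sig.ev ε s)) = g.u.map (Sig.ev ε s) := by
      rw [smul_smul, ← mul_pow, zi_mul_zz, one_pow, one_smul]
    simp only [fromBlocks_multiply, Matrix.zero_mul, Matrix.mul_zero, add_zero, zero_add,
      Matrix.one_mul, Matrix.smul_mul, Matrix.mul_smul, Matrix.mul_one, smul_zero, h0]
  · -- end
    have ha0 : a (1, 0) = c := by
      rw [hG 0]
      show Lz (zz 0) p * c = c
      rw [zz_zero, Lz_one, Matrix.one_mul]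
    have hb0 : b (1, 0) = c' := by
      refine inv_eq_of (ba (1, 0)) ?_
      rw [ha0, hcc']
    have hbs : b (1, s) = c' * Lz (zi s) p := by
      refine inv_eq_of (ba (1, s)) ?_
      rw [hG s]
      calc Lz (zz s) p * c * (c' * Lz (zi s) p) = Lz (zz s) p * (c * c') * Lz (zi s) p := by
            simp only [Matrix.mul_assoc]
        _ = 1 := by rw [hcc', Matrix.mul_one, Lz_mul (zz_mul_zi s) hp]
    change a (1, s) * b (1, 0) * (sc ε (a (1, 0)) * sc ε (b (1, s))) = _
    rw [be_ev, hG s, hb0, ha0, hbs, sc_mul, sc_Lz]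
    calc Lz (zz s) p * c * c' * (sc ε c * (sc ε c' * Lz (zi s) (sc ε p)))
        = Lz (zz s) p * (c * c') * (sc ε c * sc ε c') * Lz (zi s) (sc ε p) := by
          simp only [Matrix.mul_assoc]
      _ = _ := by rw [← sc_mul, hcc', sc_one, Matrix.mul_one, Matrix.mul_one]

theorem cls_sc {p : Matrix n n A} (hp : p * p = p) :
    K0.map (algebraMap ℂ A) (K0.map (ε : A →+* ℂ) (K0.cls p)) = K0.cls (sc ε p) := by
  rw [K0.map_cls _ hp, K0.map_cls _ (idem_map _ hp)]
  rfl

/-- **Bott periodicity, surjectivity** -/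
theorem Bott_surj (hS : BottS A) (y : K0 (SigA (Sig.aug ε)))
    (hy : K0.map ((Sig.aug (Sig.aug ε) : SigA (Sig.aug ε) →ₐ[ℂ] ℂ) : SigA (Sig.aug ε) →+* ℂ) y = 0) :
    ∃ x : K0 A, K0.map (ε : A →+* ℂ) x = 0 ∧ Bott ε x = y := by
  obtain ⟨r, g, rfl⟩ := exists_d y hy
  obtain ⟨k, ik, dk, p, hp, hj⟩ := exists_be hS g
  have h1 := hj.d_eq
  rw [d_sum, d_one, add_zero] at h1
  refine ⟨K0.cls p - K0.map (algebraMap ℂ A) (K0.map (ε : A →+* ℂ) (K0.cls p)), ?_, ?_⟩
  · rw [map_sub, ← K0.map_comp]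
    have : (ε : A →+* ℂ).comp (algebraMap ℂ A) = RingHom.id ℂ := by
      ext x
      simp
    rw [this, K0.map_id, sub_self]
  · rw [map_sub, Bott_scalar, sub_zero, Bott_cls hp, h1]

/-- **Bott periodicity, injectivity** -/
theorem cls_eq_sc (hI : BottI A) {p : Matrix n n A} (hp : p * p = p)
    (h : d (be (ε := ε) p hp) = 0) : K0.cls p = K0.cls (sc ε p) := by
  obtain ⟨M, α, β, cα, cβ, αβ, βα, α0, α1, eα⟩ := jn_of_d (be (ε := ε) p hp) h
  have z0 : (0 : Matrix (Fin M) (Fin M) A) * 0 = 0 := by simp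
  have hq := sc_idem (ε := ε) hp
  have key : FConn (fun s => Lz (zz s) (fromBlocks (sc ε p) 0 0 (0 : Matrix (Fin M) (Fin M) A)))
      (fun s => Lz (zz s) (fromBlocks p 0 0 (0 : Matrix (Fin M) (Fin M) A))) := by
    have cev : ∀ {γ : I → Matrix (n ⊕ Fin M) (n ⊕ Fin M) (SigA ε)}, Continuous γ →
        Continuous fun x : I × I => (γ x.1).map (Sig.ev ε x.2) := by
      intro γ hγ
      refine continuous_matrix fun i j => ?_
      have h1 : Continuous fun x : I × I => (γ x.1 i j).fn := by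
        have : Continuous fun r : I => (γ r i j).fn :=
          continuous_subtype_val.comp (hγ.matrix_elem i j)
        exact this.comp continuous_fst
      exact h1.eval continuous_snd
    refine ⟨fun x => (α x.1).map (Sig.ev ε x.2) *
        Lz (zz x.2) (fromBlocks (sc ε p) 0 0 (0 : Matrix (Fin M) (Fin M) A)),
      fun x => Lz (zi x.2) (fromBlocks (sc ε p) 0 0 (0 : Matrix (Fin M) (Fin M) A)) *
        (β x.1).map (Sig.ev ε x.2),
      (cev cα).matrix_mul (continuous_Lz (continuous_zz.comp continuous_snd) continuous_const),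
      (continuous_Lz (continuous_zi.comp continuous_snd) continuous_const).matrix_mul (cev cβ),
      fun x => ?_, fun x => ?_, fun r => ?_, fun s => ?_, fun s => ?_⟩
    · calc (α x.1).map (Sig.ev ε x.2) * Lz (zz x.2) (fromBlocks (sc ε p) 0 0 0) *
            (Lz (zi x.2) (fromBlocks (sc ε p) 0 0 0) * (β x.1).map (Sig.ev ε x.2))
          = (α x.1).map (Sig.ev ε x.2) * (Lz (zz x.2) (fromBlocks (sc ε p) 0 0 0) *
            Lz (zi x.2) (fromBlocks (sc ε p) 0 0 0)) * (β x.1).map (Sig.ev ε x.2) := by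
            simp only [Matrix.mul_assoc]
        _ = 1 := by
            rw [Lz_mul (zz_mul_zi _) (idem_sum hq z0), Matrix.mul_one, ← ev_mul, αβ,
              Matrix.map_one _ (map_zero _) (map_one _)]
    · calc Lz (zi x.2) (fromBlocks (sc ε p) 0 0 0) * (β x.1).map (Sig.ev ε x.2) *
            ((α x.1).map (Sig.ev ε x.2) * Lz (zz x.2) (fromBlocks (sc ε p) 0 0 0))
          = Lz (zi x.2) (fromBlocks (sc ε p) 0 0 0) * ((β x.1).map (Sig.ev ε x.2) *
            (α x.1).map (Sig.ev ε x.2)) * Lz (zz x.2) (fromBlocks (sc ε p) 0 0 0) := by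
            simp only [Matrix.mul_assoc]
        _ = 1 := by
            rw [← ev_mul, βα, Matrix.map_one _ (map_zero _) (map_one _), Matrix.mul_one,
              Lz_mul (zi_mul_zz _) (idem_sum hq z0)]
    · simp only [zz_zero, zz_one, Lz_one, Matrix.mul_one]
      rw [mat_zero, mat_one]
    · simp only
      rw [α0]
      change (1 : Matrix (n ⊕ Fin M) (n ⊕ Fin M) (SigA ε)).map (Sig.ev ε s) * _ = _
      rw [Matrix.map_one _ (map_zero _) (map_one _), Matrix.one_mul]
    · simp only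
      rw [α1]
      change (fromBlocks (be p hp).u 0 0 (1 : Matrix (Fin M) (Fin M) (SigA ε))).map (Sig.ev ε s) * _ = _
      rw [ev_fb, be_ev, Matrix.map_one _ (map_zero _) (map_one _), Lz_fb, Lz_fb]
      have hL0 : ∀ z : ℂ, Lz z (0 : Matrix (Fin M) (Fin M) A) = 1 := fun z => by simp [Lz]
      rw [hL0, fromBlocks_multiply]
      simp only [Matrix.zero_mul, Matrix.mul_zero, add_zero, zero_add, Matrix.one_mul,
        Matrix.mul_assoc]
      rw [Lz_mul (zi_mul_zz s) hq, Matrix.mul_one]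
  have h2 := hI _ _ _ (idem_sum hq z0) (idem_sum hp z0) key
  rw [K0.cls_sum hq z0, K0.cls_sum hp z0, K0.cls_zero, add_zero, add_zero] at h2
  exact h2.symm

theorem Bott_inj (hI : BottI A) (x : K0 A) (hx : K0.map (ε : A →+* ℂ) x = 0) (h : Bott ε x = 0) :
    x = 0 := by
  obtain ⟨r, m, p, hp, rfl⟩ := K0.exists_rep_one x
  have h1 : Bott ε (K0.cls (1 : Matrix (Fin m) (Fin m) A)) = 0 := by
    have := Bott_scalar (A := A) (ε := ε) (K0.cls (1 : Matrix (Fin m) (Fin m) ℂ))
    rwa [map_one_cls] at this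
  rw [map_sub, h1, sub_zero, Bott_cls hp] at h
  rw [cls_eq_sc hI hp h, ← cls_sc hp]
  rw [map_sub, sub_eq_zero] at hx
  rw [hx, map_one_cls, map_one_cls, sub_self]

end

end Crest.Agent.R204.BottK369
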