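import Crest.Agent.R204.Clutch3_369
import Crest.Agent.R204.BottLoop_313

/-!
# Row 204, block H: Bott periodicity for augmented algebras (T2), helper369
-/

set_option autoImplicit false
set_option linter.unusedSectionVars false
set_option linter.unusedSimpArgs false

open Matrix Topology
open scoped unitInterval
open Crest.Agent.R204.K357 Crest.Agent.R204.Clutch369

namespace Crest.Agent.R204.BottK369

noncomputable section

universe u

/-- the point `e^{2πis}` -/
def zz (s : I) : ℂ := (BottLoop313.circPt s : ℂ)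

/-- its inverse -/
def zi (s : I) : ℂ := (((BottLoop313.circPt s)⁻¹ : Circle) : ℂ)

theorem continuous_zz : Continuous zz := continuous_subtype_val.comp BottLoop313.continuous_circPt
theorem continuous_zi : Continuous zi :=
  continuous_subtype_val.comp ((continuous_inv (G := Circle)).comp BottLoop313.continuous_circPt)

@[simp] theorem zz_zero : zz 0 = 1 := by simp [zz, BottLoop313.circPt_zero]
@[simp] theorem zz_one : zz 1 = 1 := by simp [zz, BottLoop313.circPt_one]
@[simp] theorem zi_zero : zi 0 = 1 := by simp [zi, BottLoop313.circPt_zero]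
@[simp] theorem zi_one : zi 1 = 1 := by simp [zi, BottLoop313.circPt_one]

theorem zz_mul_zi (s : I) : zz s * zi s = 1 := by
  unfold zz zi
  rw [← Circle.coe_mul]
  simp

theorem zi_mul_zz (s : I) : zi s * zz s = 1 := by rw [mul_comm, zz_mul_zi]

section fam

variable {A : Type u} [NormedRing A] [NormedAlgebra ℂ A] [CompleteSpace A]
variable {ε : A →ₐ[ℂ] ℂ}
variable {n m k l : Type} [Fintype n] [DecidableEq n] [Fintype m] [DecidableEq m]
  [Fintype k] [DecidableEq k] [Fintype l] [DecidableEq l]

/-- continuity of families of matrices over `SigA ε` -/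
theorem continuous_mkM (F : I × I → Matrix n m A) (hF : Continuous F) (c : Matrix n m ℂ)
    (h0 : ∀ r, F (r, 0) = c.map (algebraMap ℂ A)) (h1 : ∀ r, F (r, 1) = c.map (algebraMap ℂ A))
    (hε : ∀ x, (F x).map ε = c) :
    Continuous fun r => mkM (ε := ε) (fun s => F (r, s)) (hF.comp (Continuous.prodMk_right r)) c (h0 r)
      (h1 r) (fun s => hε (r, s)) := by
  refine continuous_matrix fun i j => ?_
  have hc : Continuous fun r : I => (ContinuousMap.curry ⟨fun x : I × I => F x i j, hF.matrix_elem i j⟩) r :=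
    ContinuousMap.continuous _
  exact Continuous.subtype_mk hc _

/-- two reduced units over `Sig` joined through a two parameter family -/
theorem jn_of_fam (g h : RU (Sig.aug ε) n) (a b : I × I → Matrix n n A) (ca : Continuous a)
    (cb : Continuous b) (ab : ∀ x, a x * b x = 1) (ba : ∀ x, b x * a x = 1)
    (a0 : ∀ r, a (r, 0) = 1) (a1 : ∀ r, a (r, 1) = 1) (ea : ∀ x, (a x).map ε = 1)
    (hg : ∀ s, a (0, s) = g.u.map (Sig.ev ε s)) (hh : ∀ s, a (1, s) = h.u.map (Sig.ev ε s)) :
    Jn (Sig.aug ε) g h := by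
  have h1 : (1 : Matrix n n A) = (1 : Matrix n n ℂ).map (algebraMap ℂ A) := by simp
  have b0 : ∀ r, b (r, 0) = 1 := fun r => by have := ab (r, 0); rwa [a0, Matrix.one_mul] at this
  have b1 : ∀ r, b (r, 1) = 1 := fun r => by have := ab (r, 1); rwa [a1, Matrix.one_mul] at this
  have eb : ∀ x, (b x).map ε = 1 := fun x => by
    have h : (b x * a x).map ε = (b x).map ε * (a x).map ε := Matrix.map_mul (f := (ε : A →+* ℂ))
    rw [ba, ea, Matrix.mul_one] at h
    rw [← h]; simp
  refine ⟨fun r => mkM (ε := ε) (fun s => a (r, s)) (ca.comp (Continuous.prodMk_right r)) 1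
      ((a0 r).trans h1) ((a1 r).trans h1) (fun s => ea (r, s)),
    fun r => mkM (ε := ε) (fun s => b (r, s)) (cb.comp (Continuous.prodMk_right r)) 1
      ((b0 r).trans h1) ((b1 r).trans h1) (fun s => eb (r, s)),
    continuous_mkM a ca 1 (fun r => (a0 r).trans h1) (fun r => (a1 r).trans h1) ea,
    continuous_mkM b cb 1 (fun r => (b0 r).trans h1) (fun r => (b1 r).trans h1) eb,
    fun r => mat_ext fun t => ?_, fun r => mat_ext fun t => ?_, mat_ext fun t => ?_,
    mat_ext fun t => ?_, fun r => ?_⟩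
  · rw [ev_mul, mkM_ev, mkM_ev, ab, Matrix.map_one _ (map_zero _) (map_one _)]
  · rw [ev_mul, mkM_ev, mkM_ev, ba, Matrix.map_one _ (map_zero _) (map_one _)]
  · rw [mkM_ev, hg]
  · rw [mkM_ev, hh]
  · rw [← mat_aug _ 0, mkM_ev, ea]

/-- reduced units over `Sig` from paths -/
def mkRU (F G : I → Matrix n n A) (cF : Continuous F) (cG : Continuous G) (FG : ∀ s, F s * G s = 1)
    (GF : ∀ s, G s * F s = 1) (F0 : F 0 = 1) (F1 : F 1 = 1) (eF : ∀ s, (F s).map ε = 1) :
    RU (Sig.aug ε) n :=
  have h1 : (1 : Matrix n n A) = (1 : Matrix n n ℂ).map (algebraMap ℂ A) := by simp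
  { u := mkM F cF 1 (F0.trans h1) (F1.trans h1) eF
    v := mkM G cG 1 (by
        have := FG 0
        rw [F0, Matrix.one_mul] at this
        rw [this, h1])
      (by
        have := FG 1
        rw [F1, Matrix.one_mul] at this
        rw [this, h1])
      (fun s => by
        have h : (G s * F s).map ε = (G s).map ε * (F s).map ε := Matrix.map_mul (f := (ε : A →+* ℂ))
        rw [GF, eF, Matrix.mul_one] at h
        rw [← h]; simp)
    uv := mat_ext fun t => by
      rw [ev_mul, mkM_ev, mkM_ev, FG, Matrix.map_one _ (map_zero _) (map_one _)]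
    vu := mat_ext fun t => by
      rw [ev_mul, mkM_ev, mkM_ev, GF, Matrix.map_one _ (map_zero _) (map_one _)]
    eu := by rw [← mat_aug _ 0, mkM_ev, eF] }

theorem mkRU_ev (F G : I → Matrix n n A) (cF : Continuous F) (cG : Continuous G)
    (FG : ∀ s, F s * G s = 1) (GF : ∀ s, G s * F s = 1) (F0 : F 0 = 1) (F1 : F 1 = 1)
    (eF : ∀ s, (F s).map ε = 1) (s : I) :
    (mkRU F G cF cG FG GF F0 F1 eF).u.map (Sig.ev ε s) = F s := rfl

/-! ### the Bott loop of an idempotent -/

/-- `z p + 1 - p` -/
def Lz (z : ℂ) (p : Matrix n n A) : Matrix n n A := z • p + (1 - p)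

theorem Lz_mul {z w : ℂ} (h : z * w = 1) {p : Matrix n n A} (hp : p * p = p) :
    Lz z p * Lz w p = 1 := by
  have h1 : (1 - p) * (1 - p) = 1 - p := K0.idem_compl hp
  have h2 : p * (1 - p) = 0 := by simp [Matrix.mul_sub, hp]
  have h3 : (1 - p) * p = 0 := by simp [Matrix.sub_mul, hp]
  unfold Lz
  calc (z • p + (1 - p)) * (w • p + (1 - p))
      = (z * w) • (p * p) + z • (p * (1 - p)) + (w • ((1 - p) * p) + (1 - p) * (1 - p)) := by
        rw [Matrix.add_mul, Matrix.mul_add, Matrix.mul_add, Matrix.smul_mul, Matrix.mul_smul,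
          Matrix.smul_mul, Matrix.mul_smul, smul_smul]
    _ = 1 := by rw [h1, h2, h3, h, hp]; simp

theorem Lz_one (p : Matrix n n A) : Lz 1 p = 1 := by simp [Lz]

theorem Lz_map (z : ℂ) (p : Matrix n n A) : (Lz z p).map ε = Lz z (p.map ε) := by
  unfold Lz
  ext i j
  by_cases h : i = j <;> simp [Matrix.one_apply, h]

theorem Lz_io (z : ℂ) (c : Matrix n n ℂ) : Lz z (io A c) = io A (Lz z c) := by
  ext i j
  simp only [Lz, io, Matrix.add_apply, Matrix.smul_apply, Matrix.map_apply, Matrix.sub_apply,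
    smul_eq_mul, map_add, map_mul, map_sub]
  rw [Algebra.smul_def]
  by_cases h : i = j <;> simp [Matrix.one_apply, h]

theorem continuous_Lz {X : Type*} [TopologicalSpace X] {z : X → ℂ} {p : X → Matrix n n A}
    (hz : Continuous z) (hp : Continuous p) : Continuous fun x => Lz (z x) (p x) := by
  unfold Lz
  exact (hz.smul hp).add (continuous_const.sub hp)

theorem Lz_fb (z : ℂ) (p : Matrix n n A) (q : Matrix m m A) :
    Lz z (fromBlocks p 0 0 q) = fromBlocks (Lz z p) 0 0 (Lz z q) := by
  ext (i | i) (j | j) <;> simp [Lz, Matrix.one_apply]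

variable (ε) in
/-- scalar part of a matrix over `A` -/
abbrev sc (p : Matrix n n A) : Matrix n n A := io A (p.map ε)

theorem sc_idem {p : Matrix n n A} (hp : p * p = p) : sc ε p * sc ε p = sc ε p := by
  unfold sc
  rw [← io_mul]
  congr 1
  have h : (p * p).map ε = p.map ε * p.map ε := Matrix.map_mul (f := (ε : A →+* ℂ))
  rw [← h, hp]

theorem sc_map (p : Matrix n n A) : (sc ε p).map ε = p.map ε := io_map _

/-- the reduced Bott loop `(z p + 1 - p)(z ε(p) + 1 - ε(p))⁻¹` -/
def be (p : Matrix n n A) (hp : p * p = p) : RU (Sig.aug ε) n :=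
  mkRU (fun s => Lz (zz s) p * Lz (zi s) (sc ε p)) (fun s => Lz (zz s) (sc ε p) * Lz (zi s) p)
    ((continuous_Lz continuous_zz continuous_const).matrix_mul
      (continuous_Lz continuous_zi continuous_const))
    ((continuous_Lz continuous_zz continuous_const).matrix_mul
      (continuous_Lz continuous_zi continuous_const))
    (fun s => by
      rw [Matrix.mul_assoc, ← Matrix.mul_assoc (Lz (zi s) (sc ε p)), Lz_mul (zi_mul_zz s) (sc_idem hp),
        Matrix.one_mul, Lz_mul (zz_mul_zi s) hp])
    (fun s => by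
      rw [Matrix.mul_assoc, ← Matrix.mul_assoc (Lz (zi s) p), Lz_mul (zi_mul_zz s) hp,
        Matrix.one_mul, Lz_mul (zz_mul_zi s) (sc_idem hp)])
    (by simp [Lz_one]) (by simp [Lz_one])
    (fun s => by
      have h : (Lz (zz s) p * Lz (zi s) (sc ε p)).map ε = (Lz (zz s) p).map ε *
        (Lz (zi s) (sc ε p)).map ε := Matrix.map_mul (f := (ε : A →+* ℂ))
      rw [h, Lz_map, Lz_map, sc_map, Lz_mul (zz_mul_zi s)]
      have h : (p * p).map ε = p.map ε * p.map ε := Matrix.map_mul (f := (ε : A →+* ℂ))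
      rw [← h, hp])

theorem be_ev (p : Matrix n n A) (hp : p * p = p) (s : I) :
    (be (ε := ε) p hp).u.map (Sig.ev ε s) = Lz (zz s) p * Lz (zi s) (sc ε p) := rfl

theorem be_v_ev (p : Matrix n n A) (hp : p * p = p) (s : I) :
    (be (ε := ε) p hp).v.map (Sig.ev ε s) = Lz (zz s) (sc ε p) * Lz (zi s) p := rfl

/-- extensionality of reduced units -/
theorem RU.ext' {g h : RU ε n} (hu : g.u = h.u) : g = h := by
  obtain ⟨u, v, uv, vu, eu⟩ := g
  obtain ⟨u', v', uv', vu', eu'⟩ := h
  simp only at hu
  subst hu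
  have : v = v' := inv_eq_of vu uv'
  subst this
  rfl

/-- the Bott loop of a scalar idempotent is trivial -/
theorem be_scalar (c : Matrix n n ℂ) (hc : c * c = c) :
    be (ε := ε) (io A c) (by rw [← io_mul, hc]) = RU.one := by
  refine RU.ext' (mat_ext fun s => ?_)
  rw [be_ev]
  have : sc ε (io A c) = io A c := by unfold sc; rw [io_map]
  rw [this, Lz_mul (zz_mul_zi s) (by rw [← io_mul, hc])]
  change 1 = (1 : Matrix n n (SigA ε)).map (Sig.ev ε s)
  rw [Matrix.map_one _ (map_zero _) (map_one _)]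

theorem sc_fb (p : Matrix n n A) (q : Matrix m m A) :
    sc ε (fromBlocks p 0 0 q) = fromBlocks (sc ε p) 0 0 (sc ε q) := by
  unfold sc
  rw [eps_fb, io_fb]

theorem be_sum (p : Matrix n n A) (hp : p * p = p) (q : Matrix m m A) (hq : q * q = q) :
    be (ε := ε) (fromBlocks p 0 0 q) (idem_sum hp hq) = (be p hp).sum (be q hq) := by
  refine RU.ext' (mat_ext fun s => ?_)
  change _ = (fromBlocks (be p hp).u 0 0 (be q hq).u).map (Sig.ev ε s)
  rw [be_ev, ev_fb, be_ev, be_ev, sc_fb, Lz_fb, Lz_fb, fromBlocks_multiply]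
  simp

/-- a path of idempotents gives joined Bott loops -/
theorem be_path (P : I → Matrix n n A) (cP : Continuous P) (hP : ∀ t, P t * P t = P t) 
    (hcε : Continuous ε) :
    Jn (Sig.aug ε) (be (ε := ε) (P 0) (hP 0)) (be (P 1) (hP 1)) := by
  have csc : Continuous fun t => sc ε (P t) := by
    unfold sc io
    exact (cP.matrix_map hcε).matrix_map (continuous_algebraMap ℂ A)
  refine jn_of_fam _ _ (fun x => Lz (zz x.2) (P x.1) * Lz (zi x.2) (sc ε (P x.1)))
    (fun x => Lz (zz x.2) (sc ε (P x.1)) * Lz (zi x.2) (P x.1)) ?_ ?_ ?_ ?_ ?_ ?_ ?_ ?_ ?_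
  · exact (continuous_Lz (continuous_zz.comp continuous_snd) (cP.comp continuous_fst)).matrix_mul
      (continuous_Lz (continuous_zi.comp continuous_snd) (csc.comp continuous_fst))
  · exact (continuous_Lz (continuous_zz.comp continuous_snd) (csc.comp continuous_fst)).matrix_mul
      (continuous_Lz (continuous_zi.comp continuous_snd) (cP.comp continuous_fst))
  · intro x
    exact congrArg (fun M => M) (by
      have := congrArg (fun M : Matrix n n (SigA ε) => M.map (Sig.ev ε x.2)) (be (P x.1) (hP x.1)).uv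
      simp only [ev_mul, be_ev, be_v_ev] at this
      rw [this, Matrix.map_one _ (map_zero _) (map_one _)])
  · intro x
    have := congrArg (fun M : Matrix n n (SigA ε) => M.map (Sig.ev ε x.2)) (be (P x.1) (hP x.1)).vu
    simp only [ev_mul, be_ev, be_v_ev] at this
    rw [this, Matrix.map_one _ (map_zero _) (map_one _)]
  · intro r
    simp [Lz_one]
  · intro r
    simp [Lz_one]
  · intro x
    have := (be (P x.1) (hP x.1)).eu (ε := Sig.aug ε)
    rw [← mat_aug _ x.2, be_ev] at this
    exact this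
  · intro s
    rfl
  · intro s
    rfl

end fam

end

end Crest.Agent.R204.BottK369
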