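import Crest.Agent.R204.BottEqv_671

/-!
# Stable equivalence and linearisation of polynomial matrices
-/

set_option autoImplicit false
set_option linter.unusedSectionVars false

open Filter Topology Polynomial Matrix

namespace Crest.Agent.R204.Bott671

section stable

variable {S : Type*} [CommRing S] {ι κ l m : Type} [Fintype ι] [Fintype κ] [Fintype l] [Fintype m]
  [DecidableEq ι] [DecidableEq κ] [DecidableEq l] [DecidableEq m]

theorem Eqv.of_submatrix (e : ι ≃ κ) {p : Matrix ι ι S} {q : Matrix κ κ S}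
    (h : ∀ i j, q i j = p (e.symm i) (e.symm j)) : Eqv p q := by
  have : q = p.submatrix e.symm e.symm := by ext i j; exact h i j
  rw [this]
  exact Eqv.reindex e p

theorem Eqv.assoc (p : Matrix ι ι S) (q : Matrix κ κ S) (r : Matrix l l S) :
    Eqv (fromBlocks (fromBlocks p 0 0 q) 0 0 r) (fromBlocks p 0 0 (fromBlocks q 0 0 r)) := by
  refine Eqv.of_submatrix (Equiv.sumAssoc ι κ l) fun i j => ?_
  rcases i with i | i | i <;> rcases j with j | j | j <;> rfl

theorem Eqv.comm (p : Matrix ι ι S) (q : Matrix κ κ S) :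
    Eqv (fromBlocks p 0 0 q) (fromBlocks q 0 0 p) := by
  refine Eqv.of_submatrix (Equiv.sumComm ι κ) fun i j => ?_
  rcases i with i | i <;> rcases j with j | j <;> rfl

theorem Eqv.empty (p : Matrix ι ι S) (q : Matrix Empty Empty S) :
    Eqv (fromBlocks p 0 0 q) p := by
  refine Eqv.of_submatrix (Equiv.sumEmpty ι Empty) fun i j => ?_
  rfl

/-- Stable equivalence. -/
def SEqv (p : Matrix ι ι S) (q : Matrix κ κ S) : Prop :=
  ∃ (α β : Type) (_ : Fintype α) (_ : DecidableEq α) (_ : Fintype β) (_ : DecidableEq β),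
    Eqv (fromBlocks p 0 0 (1 : Matrix α α S)) (fromBlocks q 0 0 (1 : Matrix β β S))

theorem Eqv.seqv {p : Matrix ι ι S} {q : Matrix κ κ S} (h : Eqv p q) : SEqv p q :=
  ⟨Empty, Empty, inferInstance, inferInstance, inferInstance, inferInstance,
    (Eqv.empty p 1).trans (h.trans (Eqv.empty q 1).symm)⟩

theorem SEqv.refl (p : Matrix ι ι S) : SEqv p p := (Eqv.refl p).seqv

theorem SEqv.symm {p : Matrix ι ι S} {q : Matrix κ κ S} (h : SEqv p q) : SEqv q p := by
  obtain ⟨α, β, _, _, _, _, h⟩ := h
  exact ⟨β, α, inferInstance, inferInstance, inferInstance, inferInstance, h.symm⟩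

theorem SEqv.trans {p : Matrix ι ι S} {q : Matrix κ κ S} {r : Matrix l l S} (h : SEqv p q)
    (h' : SEqv q r) : SEqv p r := by
  obtain ⟨α, β, _, _, _, _, h⟩ := h
  obtain ⟨α', β', _, _, _, _, h'⟩ := h'
  refine ⟨α ⊕ α', β' ⊕ β, inferInstance, inferInstance, inferInstance, inferInstance, ?_⟩
  rw [← fromBlocks_one (l := α), ← fromBlocks_one (l := β')]
  have h1 := (Eqv.assoc p (1 : Matrix α α S) (1 : Matrix α' α' S)).symm
  have h2 := h.blocks (Eqv.refl (1 : Matrix α' α' S))
  have h3 := Eqv.assoc q (1 : Matrix β β S) (1 : Matrix α' α' S)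
  have h4 := (Eqv.refl q).blocks (Eqv.comm (1 : Matrix β β S) (1 : Matrix α' α' S))
  have h5 := (Eqv.assoc q (1 : Matrix α' α' S) (1 : Matrix β β S)).symm
  have h6 := h'.blocks (Eqv.refl (1 : Matrix β β S))
  have h7 := Eqv.assoc r (1 : Matrix β' β' S) (1 : Matrix β β S)
  exact h1.trans (h2.trans (h3.trans (h4.trans (h5.trans (h6.trans h7)))))

theorem SEqv.of_stab {p : Matrix ι ι S} {q : Matrix κ κ S}
    (h : Eqv (fromBlocks p 0 0 (1 : Matrix l l S)) q) : SEqv p q :=
  ⟨l, Empty, inferInstance, inferInstance, inferInstance, inferInstance,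
    h.trans (Eqv.empty q 1).symm⟩

theorem SEqv.blocks {p : Matrix ι ι S} {q : Matrix κ κ S} {p' : Matrix l l S} {q' : Matrix m m S}
    (h : SEqv p q) (h' : SEqv p' q') :
    SEqv (fromBlocks p 0 0 p') (fromBlocks q 0 0 q') := by
  obtain ⟨α, β, _, _, _, _, h⟩ := h
  obtain ⟨α', β', _, _, _, _, h'⟩ := h'
  have key : ∀ {ι l : Type} [Fintype ι] [DecidableEq ι] [Fintype l] [DecidableEq l]
      (α α' : Type) [Fintype α] [DecidableEq α] [Fintype α'] [DecidableEq α']
      (p : Matrix ι ι S) (p' : Matrix l l S),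
      Eqv (fromBlocks (fromBlocks p 0 0 p') 0 0 (1 : Matrix (α ⊕ α') (α ⊕ α') S))
        (fromBlocks (fromBlocks p 0 0 (1 : Matrix α α S)) 0 0
          (fromBlocks p' 0 0 (1 : Matrix α' α' S))) := by
    intro ι l _ _ _ _ α α' _ _ _ _ p p'
    refine Eqv.of_submatrix (Equiv.sumSumSumComm ι l α α') fun i j => ?_
    rcases i with (i | i) | (i | i) <;> rcases j with (j | j) | (j | j) <;>
      simp [Equiv.sumSumSumComm, Matrix.one_apply]
  refine ⟨α ⊕ α', β ⊕ β', inferInstance, inferInstance, inferInstance, inferInstance, ?_⟩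
  exact (key α α' p p').trans ((h.blocks h').trans (key β β' q q').symm)

theorem SEqv.map {T : Type*} [CommRing T] (φ : S →+* T) {p : Matrix ι ι S} {q : Matrix κ κ S}
    (h : SEqv p q) : SEqv (p.map φ) (q.map φ) := by
  obtain ⟨α, β, _, _, _, _, h⟩ := h
  refine ⟨α, β, inferInstance, inferInstance, inferInstance, inferInstance, ?_⟩
  have := h.map φ
  simpa [fromBlocks_map] using this

theorem SEqv.isUnit {p : Matrix ι ι S} {q : Matrix κ κ S} (h : SEqv p q) (hp : IsUnit p) :
    IsUnit q := by
  obtain ⟨α, β, _, _, _, _, h⟩ := h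
  rw [Matrix.isUnit_iff_isUnit_det] at hp ⊢
  have h1 : IsUnit (fromBlocks p 0 0 (1 : Matrix α α S)) := by
    rw [Matrix.isUnit_iff_isUnit_det, det_fromBlocks_zero₂₁]
    simpa using hp
  have h2 := h.isUnit h1
  rw [Matrix.isUnit_iff_isUnit_det, det_fromBlocks_zero₂₁] at h2
  simpa using h2

/-- The basic linearisation step: `a + z q ~ [[a, q], [-z, 1]]`. -/
theorem seqv_step (z : S) (a q : Matrix ι ι S) :
    SEqv (a + z • q) (fromBlocks a q (-(z • (1 : Matrix ι ι S))) 1) := by
  refine SEqv.of_stab (l := ι) ?_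
  refine ⟨fromBlocks 1 q 0 1, fromBlocks 1 0 (z • (1 : Matrix ι ι S)) 1, fromBlocks 1 (-q) 0 1,
    fromBlocks 1 0 (-(z • (1 : Matrix ι ι S))) 1, ?_, ?_, ?_, ?_, ?_⟩ <;>
    simp [fromBlocks_multiply]

/-- The shift step: `[[p, 0], [1, -z]] ~ z p`. -/
theorem seqv_shift (z : S) (p : Matrix ι ι S) :
    SEqv (z • p) (fromBlocks p 0 (1 : Matrix ι ι S) (-(z • (1 : Matrix ι ι S)))) := by
  refine SEqv.of_stab (l := ι) ?_
  -- `E (z p ⊕ 1) = L F`
  refine ⟨fromBlocks 1 p 0 1, fromBlocks (z • (1 : Matrix ι ι S)) 1 1 0,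
    fromBlocks 1 (-p) 0 1, fromBlocks 0 1 1 (-(z • (1 : Matrix ι ι S))), ?_, ?_, ?_, ?_, ?_⟩ <;>
    simp [fromBlocks_multiply]

end stable

section lin

variable {R : Type*} [CommRing R]

/-- The pencil as a polynomial matrix (general version). -/
noncomputable def gpl {ι : Type*} (a b : Matrix ι ι R) : Matrix ι ι R[X] :=
  a.map (C : R →+* R[X]) + (X : R[X]) • b.map (C : R →+* R[X])

theorem exists_pencil_aux (N : ℕ) : ∀ {ι : Type} [Fintype ι] [DecidableEq ι] (p : Matrix ι ι R[X]),
    (∀ i j, (p i j).natDegree ≤ N + 1) →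
    ∃ (κ : Type) (_ : Fintype κ) (_ : DecidableEq κ) (a b : Matrix κ κ R), SEqv p (gpl a b) := by
  induction N with
  | zero =>
    intro ι _ _ p hp
    refine ⟨ι, inferInstance, inferInstance, p.map fun q => q.coeff 0, p.map fun q => q.coeff 1, ?_⟩
    have : p = gpl (p.map fun q => q.coeff 0) (p.map fun q => q.coeff 1) := by
      ext i j : 2
      simp only [gpl, Matrix.add_apply, Matrix.smul_apply, Matrix.map_apply, smul_eq_mul]
      conv_lhs => rw [Polynomial.eq_X_add_C_of_natDegree_le_one (hp i j)]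
      rw [add_comm, mul_comm]
    rw [← this]
    exact SEqv.refl p
  | succ N ih =>
    intro ι _ _ p hp
    have h1 : p = p.map (fun q => C (q.coeff 0)) + (X : R[X]) • p.map (fun q => q.divX) := by
      ext i j : 2
      simp only [Matrix.add_apply, Matrix.smul_apply, Matrix.map_apply, smul_eq_mul]
      conv_lhs => rw [← Polynomial.divX_mul_X_add (p i j)]
      rw [add_comm, mul_comm]
    have h2 := seqv_step (X : R[X]) (p.map fun q => C (q.coeff 0)) (p.map fun q => q.divX)
    rw [← h1] at h2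
    obtain ⟨κ, i1, i2, a, b, h3⟩ := ih (fromBlocks (p.map fun q => C (q.coeff 0))
      (p.map fun q => q.divX) (-((X : R[X]) • (1 : Matrix ι ι R[X]))) 1) (by
        intro i j
        rcases i with i | i <;> rcases j with j | j
        · simp
        · simp only [fromBlocks_apply₁₂, Matrix.map_apply]
          rw [Polynomial.natDegree_divX_eq_natDegree_tsub_one]
          have := hp i j
          omega
        · simp only [fromBlocks_apply₂₁, Matrix.neg_apply, Matrix.smul_apply, natDegree_neg,
            smul_eq_mul]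
          by_cases hij : i = j
          · subst hij
            rw [Matrix.one_apply_eq, mul_one]
            exact natDegree_X_le.trans (by omega)
          · rw [Matrix.one_apply_ne hij]
            simp
        · simp only [fromBlocks_apply₂₂]
          by_cases hij : i = j
          · subst hij
            simp
          · rw [Matrix.one_apply_ne hij]
            simp)
    exact ⟨κ, i1, i2, a, b, h2.trans h3⟩

/-- **Linearisation.** -/
theorem exists_pencil {ι : Type} [Fintype ι] [DecidableEq ι] (p : Matrix ι ι R[X]) :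
    ∃ (κ : Type) (_ : Fintype κ) (_ : DecidableEq κ) (a b : Matrix κ κ R), SEqv p (gpl a b) := by
  refine exists_pencil_aux (Finset.univ.sup fun i => Finset.univ.sup fun j => (p i j).natDegree) p
    fun i j => ?_
  refine le_trans ?_ (Nat.le_succ _)
  exact (Finset.le_sup (f := fun j => (p i j).natDegree) (Finset.mem_univ j)).trans
    (Finset.le_sup (f := fun i => Finset.univ.sup fun j => (p i j).natDegree) (Finset.mem_univ i))

end lin

end Crest.Agent.R204.Bott671
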