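import Crest.Agent.R204.BottLin_671
import Crest.Agent.R204.Banach_313

/-!
# The index `ν` of a polynomial loop
-/

set_option autoImplicit false
set_option linter.unusedSectionVars false

open Filter Topology Polynomial Matrix

namespace Crest.Agent.R204.Bott671

section

variable {R : Type*} [NormedCommRing R] [NormedAlgebra ℂ R] [CompleteSpace R]
  {R' : Type*} [NormedCommRing R'] [NormedAlgebra ℂ R'] [CompleteSpace R']
  {ι κ l m : Type} [Fintype ι] [Fintype κ] [Fintype l] [Fintype m]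
  [DecidableEq ι] [DecidableEq κ] [DecidableEq l] [DecidableEq m]

theorem gpl_eq_ppl (a b : Matrix ι ι R) : gpl a b = ppl a b := rfl

namespace Pen

/-- A pencil whose value in `C(Circle, R)` is a unit. -/
noncomputable def ofUnit (a b : Matrix ι ι R) (h : IsUnit (pl a b)) : Pen R ι where
  a := a
  b := b
  G := (h.unit⁻¹ : (Matrix ι ι C(Circle, R))ˣ)
  fG := h.mul_val_inv
  Gf := h.val_inv_mul

/-- Block sum. -/
noncomputable def sum (p : Pen R ι) (q : Pen R κ) : Pen R (ι ⊕ κ) where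
  a := fromBlocks p.a 0 0 q.a
  b := fromBlocks p.b 0 0 q.b
  G := fromBlocks p.G 0 0 q.G
  fG := by
    have : pl (fromBlocks p.a 0 0 q.a) (fromBlocks p.b 0 0 q.b)
        = fromBlocks (pl p.a p.b) 0 0 (pl q.a q.b) := by
      simp only [pl, cM, fromBlocks_map, fromBlocks_smul, fromBlocks_add]
      simp
    rw [this, fromBlocks_multiply, p.fG, q.fG]
    simp
  Gf := by
    have : pl (fromBlocks p.a 0 0 q.a) (fromBlocks p.b 0 0 q.b)
        = fromBlocks (pl p.a p.b) 0 0 (pl q.a q.b) := by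
      simp only [pl, cM, fromBlocks_map, fromBlocks_smul, fromBlocks_add]
      simp
    rw [this, fromBlocks_multiply, p.Gf, q.Gf]
    simp

theorem ppl_sum (p : Pen R ι) (q : Pen R κ) :
    ppl (p.sum q).a (p.sum q).b = fromBlocks (ppl p.a p.b) 0 0 (ppl q.a q.b) := by
  simp only [sum, ppl, fromBlocks_map, fromBlocks_smul, fromBlocks_add]
  simp

theorem c_sum (p : Pen R ι) (q : Pen R κ) (k : ℤ) :
    (p.sum q).c k = fromBlocks (p.c k) 0 0 (q.c k) := by
  ext i j
  rcases i with i | i <;> rcases j with j | j <;> simp [sum, c]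

theorem P_sum (p : Pen R ι) (q : Pen R κ) :
    (p.sum q).P = fromBlocks p.P 0 0 q.P := by
  rw [P, c_sum]
  simp only [sum]
  rw [fromBlocks_multiply]
  simp [P]

variable (R ι) in
/-- The trivial pencil. -/
noncomputable def one : Pen R ι where
  a := 1
  b := 0
  G := 1
  fG := by simp [pl, cM_one, cM_zero]
  Gf := by simp [pl, cM_one, cM_zero]

theorem P_one : (one R ι).P = 0 := by simp [P, one]

theorem ppl_one : ppl (one R ι).a (one R ι).b = 1 := by
  simp [ppl, one]

/-- The pencil `z e + (1 - e)` of an idempotent. -/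
noncomputable def idem (e : Matrix ι ι R) (he : e * e = e) : Pen R ι where
  a := 1 - e
  b := e
  G := (zi : C(Circle, R)) • cM e + cM (1 - e)
  fG := by
    have := Lam_mul_inv he
    rw [Lam, add_comm] at this
    exact this
  Gf := by
    have := Lam_mul_inv he
    rw [Lam, add_comm] at this
    exact mul_eq_one_comm.1 this

theorem coef_zi (k : ℤ) : coef (zi : C(Circle, R)) k = if k = -1 then 1 else 0 := by
  have h := coef_zc_mul (zi : C(Circle, R)) (k + 1)
  rw [zc_mul_zi, coef_one, add_sub_cancel_right] at h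
  rw [← h]
  congr 1
  simp only [eq_iff_iff]
  omega

theorem coefM_zi_smul_cM (x : Matrix ι κ R) (k : ℤ) :
    coefM ((zi : C(Circle, R)) • cM x) k = if k = -1 then x else 0 := by
  ext i j
  simp only [coefM_apply, Matrix.smul_apply, cM, Matrix.map_apply, smul_eq_mul, coef_mul_C,
    coef_zi]
  split_ifs <;> simp

theorem coefM_cM (x : Matrix ι κ R) (k : ℤ) :
    coefM (cM x) k = if k = 0 then x else 0 := by
  have h := coefM_cM_mul x (1 : Matrix κ κ C(Circle, R)) k
  rw [Matrix.mul_one, coefM_one] at h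
  rw [h]
  split_ifs <;> simp

theorem P_idem (e : Matrix ι ι R) (he : e * e = e) : (idem e he).P = e := by
  have h1 : (idem e he).c (-1) = e := by
    rw [c]
    simp only [idem]
    rw [coefM_add, coefM_zi_smul_cM, coefM_cM]
    simp
  rw [P, h1]
  exact he

theorem pl_map (φ : R' →A[ℂ] R) (a b : Matrix ι ι R') :
    pl (a.map φ) (b.map φ)
        = (pl a b).map ((φ : R' →+* R).compLeftContinuous Circle φ.continuous) := by
  ext i j z
  have h1 : ((pl a b).map ((φ : R' →+* R).compLeftContinuous Circle φ.continuous)) i j z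
      = φ (a i j + algebraMap ℂ R' (z : ℂ) * b i j) := rfl
  have h2 : (pl (a.map φ) (b.map φ)) i j z = φ (a i j) + algebraMap ℂ R (z : ℂ) * φ (b i j) := rfl
  rw [h1, h2, map_add, map_mul, AlgHomClass.commutes]

/-- Functoriality. -/
noncomputable def map (φ : R' →A[ℂ] R) (p : Pen R' ι) : Pen R ι where
  a := p.a.map φ
  b := p.b.map φ
  G := p.G.map ((φ : R' →+* R).compLeftContinuous Circle φ.continuous)
  fG := by
    rw [pl_map, ← Matrix.map_mul, p.fG]
    simp
  Gf := by
    rw [pl_map, ← Matrix.map_mul, p.Gf]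
    simp

theorem c_map (φ : R' →A[ℂ] R) (p : Pen R' ι) (k : ℤ) : (p.map φ).c k = (p.c k).map φ := by
  ext i j
  simp only [c, map, coefM_apply, Matrix.map_apply]
  exact coef_clm (φ.toContinuousLinearMap) _ _ (fun z => rfl) k

theorem P_map (φ : R' →A[ℂ] R) (p : Pen R' ι) : (p.map φ).P = (p.P).map φ := by
  rw [P, c_map, P]
  simp only [map]
  exact (Matrix.map_mul (f := (φ : R' →+* R))).symm

end Pen

/-- `NuRel p e`: the index of the polynomial loop `p` is the class of the idempotent `e`. -/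
def NuRel (p : Matrix ι ι R[X]) (e : Matrix κ κ R) : Prop :=
  ∃ (l : Type) (_ : Fintype l) (_ : DecidableEq l) (q : Pen R l),
    SEqv p (ppl q.a q.b) ∧ MvN q.P e

theorem nu_exists (p : Matrix ι ι R[X]) (hp : IsUnit (loopM p)) :
    ∃ (κ : Type) (_ : Fintype κ) (_ : DecidableEq κ) (e : Matrix κ κ R), e * e = e ∧ NuRel p e := by
  obtain ⟨κ, _, _, a, b, h⟩ := exists_pencil p
  have h1 : IsUnit (loopM (ppl a b)) :=
    (h.map (loop : R[X] →+* C(Circle, R))).isUnit (show IsUnit (p.map loop) from hp)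
  rw [loopM_ppl] at h1
  refine ⟨κ, inferInstance, inferInstance, (Pen.ofUnit a b h1).P, Pen.P_mul_P _, κ, inferInstance,
    inferInstance, Pen.ofUnit a b h1, h, MvN.refl (Pen.P_mul_P _)⟩

theorem nu_seqv {p : Matrix ι ι R[X]} {p' : Matrix m m R[X]} (h : SEqv p p') {e : Matrix κ κ R}
    (hp : NuRel p e) : NuRel p' e := by
  obtain ⟨l, _, _, q, h1, h2⟩ := hp
  exact ⟨l, inferInstance, inferInstance, q, h.symm.trans h1, h2⟩

theorem nu_mvn {p : Matrix ι ι R[X]} {e : Matrix κ κ R} {e' : Matrix m m R} (he' : e' * e' = e')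
    (h : MvN e e') (hp : NuRel p e) : NuRel p e' := by
  obtain ⟨l, _, _, q, h1, h2⟩ := hp
  exact ⟨l, inferInstance, inferInstance, q, h1, MvN.trans q.P_mul_P he' h2 h⟩

theorem Pen.mvn_of_seqv {p : Pen R ι} {q : Pen R κ} (h : SEqv (ppl p.a p.b) (ppl q.a q.b)) :
    MvN p.P q.P := by
  obtain ⟨α, β, _, _, _, _, h⟩ := h
  have h1 : Eqv (ppl (p.sum (Pen.one R α)).a (p.sum (Pen.one R α)).b)
      (ppl (q.sum (Pen.one R β)).a (q.sum (Pen.one R β)).b) := by
    rw [Pen.ppl_sum, Pen.ppl_sum, Pen.ppl_one, Pen.ppl_one]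
    exact h
  have h2 := Pen.mvn_of_eqv h1
  rw [Pen.P_sum, Pen.P_sum, Pen.P_one, Pen.P_one] at h2
  have h3 := MvN.add_zero (κ := α) p.P p.P_mul_P
  have h4 := MvN.add_zero (κ := β) q.P q.P_mul_P
  have h5 : fromBlocks q.P 0 0 (0 : Matrix β β R) * fromBlocks q.P 0 0 0
      = fromBlocks q.P 0 0 0 := by
    rw [fromBlocks_multiply]; simp [q.P_mul_P]
  exact (h3.symm.trans p.P_mul_P h5 h2).trans p.P_mul_P q.P_mul_P h4

theorem nu_unique {p : Matrix ι ι R[X]} {e : Matrix κ κ R} {e' : Matrix m m R} (he : e * e = e)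
    (he' : e' * e' = e') (hp : NuRel p e) (hp' : NuRel p e') : MvN e e' := by
  obtain ⟨l, _, _, q, h1, h2⟩ := hp
  obtain ⟨l', _, _, q', h1', h2'⟩ := hp'
  have h3 := Pen.mvn_of_seqv (h1.symm.trans h1')
  exact (h2.symm.trans he q'.P_mul_P h3).trans he he' h2'

theorem nu_blocks {p : Matrix ι ι R[X]} {p' : Matrix κ κ R[X]} {e : Matrix l l R}
    {e' : Matrix m m R} (hp : NuRel p e) (hp' : NuRel p' e') :
    NuRel (fromBlocks p 0 0 p') (fromBlocks e 0 0 e') := by
  obtain ⟨α, _, _, q, h1, h2⟩ := hp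
  obtain ⟨β, _, _, q', h1', h2'⟩ := hp'
  refine ⟨α ⊕ β, inferInstance, inferInstance, q.sum q', ?_, ?_⟩
  · rw [Pen.ppl_sum]
    exact h1.blocks h1'
  · rw [Pen.P_sum]
    exact h2.blocks h2'

theorem nu_idem {e : Matrix ι ι R} (he : e * e = e) : NuRel (ppl (1 - e) e) e := by
  refine ⟨ι, inferInstance, inferInstance, Pen.idem e he, SEqv.refl _, ?_⟩
  rw [Pen.P_idem]
  exact MvN.refl he

theorem nu_pencil (p : Pen R ι) : NuRel (ppl p.a p.b) p.P :=
  ⟨ι, inferInstance, inferInstance, p, SEqv.refl _, MvN.refl p.P_mul_P⟩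

theorem ppl_map (φ : R' →A[ℂ] R) (a b : Matrix ι ι R') :
    (ppl a b).map (Polynomial.mapRingHom (φ : R' →+* R)) = ppl (a.map φ) (b.map φ) := by
  ext i j : 2
  simp [ppl]

theorem nu_map (φ : R' →A[ℂ] R) {p : Matrix ι ι R'[X]} {e : Matrix κ κ R'} (hp : NuRel p e) :
    NuRel (p.map (Polynomial.mapRingHom (φ : R' →+* R))) (e.map φ) := by
  obtain ⟨l, _, _, q, h1, h2⟩ := hp
  refine ⟨l, inferInstance, inferInstance, q.map φ, ?_, ?_⟩
  · have := h1.map (Polynomial.mapRingHom (φ : R' →+* R))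
    rw [ppl_map] at this
    exact this
  · rw [Pen.P_map]
    exact h2.map (φ : R' →+* R)

theorem loop_map (φ : R' →A[ℂ] R) (p : R'[X]) :
    loop (p.map (φ : R' →+* R)) = (φ : R' →+* R).compLeftContinuous Circle φ.continuous (loop p) := by
  have h : (loop : R[X] →+* C(Circle, R)).comp (Polynomial.mapRingHom (φ : R' →+* R))
      = ((φ : R' →+* R).compLeftContinuous Circle φ.continuous).comp loop := by
    refine Polynomial.ringHom_ext (fun a => ?_) ?_
    · simp only [RingHom.comp_apply, Polynomial.coe_mapRingHom, Polynomial.map_C, loop_C]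
      ext z
      rfl
    · simp only [RingHom.comp_apply, Polynomial.coe_mapRingHom, Polynomial.map_X, loop_X]
      ext z
      have h2 : ((φ : R' →+* R).compLeftContinuous Circle φ.continuous (zc : C(Circle, R'))) z
        = φ (algebraMap ℂ R' (z : ℂ)) := rfl
      rw [h2, AlgHomClass.commutes]
      rfl
  exact congrArg (fun f => f p) h

theorem loopM_map' (φ : R' →A[ℂ] R) (p : Matrix ι κ R'[X]) :
    loopM (p.map (Polynomial.mapRingHom (φ : R' →+* R)))
      = (loopM p).map ((φ : R' →+* R).compLeftContinuous Circle φ.continuous) := by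
  ext i j : 2
  simp only [loopM, Matrix.map_apply, Polynomial.coe_mapRingHom, loop_map]

theorem isUnit_loopM_map (φ : R' →A[ℂ] R) (p : Matrix ι ι R'[X]) (h : IsUnit (loopM p)) :
    IsUnit (loopM (p.map (Polynomial.mapRingHom (φ : R' →+* R)))) := by
  rw [loopM_map']
  exact h.map ((φ : R' →+* R).compLeftContinuous Circle φ.continuous).mapMatrix

/-- An "algebra of paths" over `R`: two evaluations, constants, a parameter. -/
structure PathAlg (R : Type*) [NormedCommRing R] [NormedAlgebra ℂ R] (R' : Type*)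
    [NormedCommRing R'] [NormedAlgebra ℂ R'] where
  φ0 : R' →A[ℂ] R
  φ1 : R' →A[ℂ] R
  cst : R →A[ℂ] R'
  h0 : ∀ r, φ0 (cst r) = r
  h1 : ∀ r, φ1 (cst r) = r
  tI : R'
  ht0 : φ0 tI = 0
  ht1 : φ1 tI = 1
  mvn : ∀ {κ : Type} [Fintype κ] [DecidableEq κ] (e : Matrix κ κ R'), e * e = e →
    MvN (e.map φ0) (e.map φ1)

theorem map_idem (φ : R' →A[ℂ] R) {e : Matrix κ κ R'} (he : e * e = e) :
    e.map φ * e.map φ = e.map φ := by
  have := congrArg (fun M => M.map (φ : R' →+* R)) he
  simp only [Matrix.map_mul] at this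
  exact this

/-- **Homotopy invariance** of the index along polynomial paths. -/
theorem nu_path (A : PathAlg R R') {P : Matrix ι ι R'[X]} (hP : IsUnit (loopM P))
    {e : Matrix κ κ R} {e' : Matrix l l R} (he : e * e = e) (he' : e' * e' = e')
    (h : NuRel (P.map (Polynomial.mapRingHom (A.φ0 : R' →+* R))) e)
    (h' : NuRel (P.map (Polynomial.mapRingHom (A.φ1 : R' →+* R))) e') :
    MvN e e' := by
  obtain ⟨α, _, _, E, hE, hPE⟩ := nu_exists P hP
  have hEs := map_idem A.φ0 hE
  have hEt := map_idem A.φ1 hE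
  have h1 := nu_unique he hEs h (nu_map A.φ0 hPE)
  have h2 := nu_unique hEt he' (nu_map A.φ1 hPE) h'
  have h3 := A.mvn E hE
  exact (h1.trans he hEt h3).trans he he' h2

theorem nu_X_one : NuRel ((X : R[X]) • (1 : Matrix ι ι R[X])) (1 : Matrix ι ι R) := by
  have h := nu_idem (R := R) (e := (1 : Matrix ι ι R)) (Matrix.one_mul 1)
  have h1 : ppl (1 - 1) (1 : Matrix ι ι R) = (X : R[X]) • (1 : Matrix ι ι R[X]) := by
    simp [ppl]
  rwa [h1] at h

theorem nu_neg_X_one : NuRel (-((X : R[X]) • (1 : Matrix ι ι R[X]))) (1 : Matrix ι ι R) := by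
  refine nu_seqv ?_ (nu_X_one (R := R) (ι := ι))
  have h : Eqv ((-1) * ((X : R[X]) • (1 : Matrix ι ι R[X])) * 1) ((X : R[X]) • (1 : Matrix ι ι R[X])) :=
    Eqv.of_mul (isUnit_one.neg) isUnit_one
  have h2 : (-1) * ((X : R[X]) • (1 : Matrix ι ι R[X])) * 1 = -((X : R[X]) • (1 : Matrix ι ι R[X])) := by
    simp
  rw [h2] at h
  exact h.symm.seqv

theorem loopM_blocks (A : Matrix ι ι R[X]) (B : Matrix ι κ R[X]) (C' : Matrix κ ι R[X])
    (D : Matrix κ κ R[X]) :
    loopM (fromBlocks A B C' D) = fromBlocks (loopM A) (loopM B) (loopM C') (loopM D) := by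
  rw [loopM, fromBlocks_map]; rfl

theorem isUnit_zc : IsUnit (zc : C(Circle, R)) := ⟨⟨zc, zi, zc_mul_zi, zi_mul_zc⟩, rfl⟩

theorem isUnit_loopM_X : IsUnit (loopM ((X : R[X]) • (1 : Matrix ι ι R[X]))) := by
  have h : loopM ((X : R[X]) • (1 : Matrix ι ι R[X])) = (zc : C(Circle, R)) • (1 : Matrix ι ι _) := by
    ext i j : 2
    by_cases hij : i = j
    · subst hij; simp [loopM]
    · simp [loopM, Matrix.one_apply_ne hij]
  rw [h, Matrix.isUnit_iff_isUnit_det, Matrix.det_smul, Matrix.det_one, mul_one]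
  exact isUnit_zc.pow _

theorem isUnit_loopM_neg_X : IsUnit (loopM (-((X : R[X]) • (1 : Matrix ι ι R[X])))) := by
  have h : loopM (-((X : R[X]) • (1 : Matrix ι ι R[X])))
      = -loopM ((X : R[X]) • (1 : Matrix ι ι R[X])) := by
    ext i j : 2
    simp [loopM]
  rw [h]
  exact isUnit_loopM_X.neg

theorem isUnit_lower {S : Type*} [CommRing S] {A : Matrix ι ι S} {C' : Matrix κ ι S}
    {D : Matrix κ κ S} (hA : IsUnit A) (hD : IsUnit D) : IsUnit (fromBlocks A 0 C' D) := by
  rw [Matrix.isUnit_iff_isUnit_det] at hA hD ⊢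
  rw [det_fromBlocks_zero₁₂]
  exact hA.mul hD

theorem loopM_zero : loopM (0 : Matrix ι κ R[X]) = 0 := by
  ext i j : 2
  simp [loopM]

/-- **Shift**: `ν(z p) = ν(p) + 1`. -/
theorem nu_X_smul' (A : PathAlg R R') {p : Matrix ι ι R[X]} (hu : IsUnit (loopM p))
    {e : Matrix κ κ R} (he : e * e = e) (hp : NuRel p e) :
    NuRel ((X : R[X]) • p) (fromBlocks e 0 0 (1 : Matrix ι ι R)) := by
  let p' : Matrix ι ι R'[X] := p.map (Polynomial.mapRingHom (A.cst : R →+* R'))
  let L : Matrix (ι ⊕ ι) (ι ⊕ ι) R'[X] :=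
    fromBlocks p' 0 ((Polynomial.C A.tI) • (1 : Matrix ι ι _)) (-((X : R'[X]) • (1 : Matrix ι ι _)))
  have hL : IsUnit (loopM L) := by
    have h1 : IsUnit (loopM p') := isUnit_loopM_map A.cst p hu
    have h2 : IsUnit (loopM (-((X : R'[X]) • (1 : Matrix ι ι _)))) :=
      isUnit_loopM_neg_X
    rw [loopM_blocks, loopM_zero]
    exact isUnit_lower h1 h2
  have hmap : ∀ (φ : R' →A[ℂ] R) (_ : ∀ r, φ (A.cst r) = r),
      L.map (Polynomial.mapRingHom (φ : R' →+* R))
      = fromBlocks p 0 ((Polynomial.C (φ A.tI)) • (1 : Matrix ι ι _))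
        (-((X : R[X]) • (1 : Matrix ι ι _))) := by
    intro φ hφ
    rw [fromBlocks_map]
    congr 1
    · ext i j : 2
      simp only [p', Matrix.map_apply, Polynomial.coe_mapRingHom, Polynomial.map_map]
      have : (φ : R' →+* R).comp (A.cst : R →+* R') = RingHom.id R := by
        ext r; exact hφ r
      rw [this, Polynomial.map_id]
    · ext i j : 2
      simp
    · ext i j : 2
      by_cases hij : i = j
      · subst hij
        simp
      · simp [Matrix.one_apply_ne hij]
    · ext i j : 2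
      by_cases hij : i = j
      · subst hij
        simp
      · simp [Matrix.one_apply_ne hij]
  -- value at time 0
  have h0 : NuRel (L.map (Polynomial.mapRingHom (A.φ0 : R' →+* R)))
      (fromBlocks e 0 0 (1 : Matrix ι ι R)) := by
    rw [hmap _ A.h0, A.ht0, Polynomial.C_0, zero_smul]
    exact nu_blocks hp nu_neg_X_one
  -- value at time 1
  have h1 : SEqv ((X : R[X]) • p) (L.map (Polynomial.mapRingHom (A.φ1 : R' →+* R))) := by
    rw [hmap _ A.h1, A.ht1, Polynomial.C_1, one_smul]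
    exact seqv_shift _ _
  have hXp : IsUnit (loopM (L.map (Polynomial.mapRingHom (A.φ1 : R' →+* R)))) :=
    isUnit_loopM_map A.φ1 L hL
  obtain ⟨α, _, _, f, hf, hLf⟩ := nu_exists _ hXp
  have he1 : fromBlocks e 0 0 (1 : Matrix ι ι R) * fromBlocks e 0 0 (1 : Matrix ι ι R)
      = fromBlocks e 0 0 (1 : Matrix ι ι R) := by
    rw [fromBlocks_multiply]; simp [he]
  have h2 := nu_path A hL he1 hf h0 hLf
  exact nu_mvn he1 h2.symm (nu_seqv h1.symm hLf)

end

end Crest.Agent.R204.Bott671
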