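import Crest.Agent.R204.BottNu_671

/-!
# The path algebra `C(unitInterval, R)`
-/

set_option autoImplicit false
set_option linter.unusedSectionVars false

open Filter Topology Polynomial Matrix

namespace Crest.Agent.R204.Bott671

section

variable (R : Type*) [NormedCommRing R] [NormedAlgebra ℂ R] [CompleteSpace R]

/-- The path algebra. -/
noncomputable def pathAlg : PathAlg R C(unitInterval, R) where
  φ0 :=
    { toAlgHom := ContinuousMap.evalAlgHom ℂ R 0
      cont := continuous_eval_const 0 }
  φ1 :=
    { toAlgHom := ContinuousMap.evalAlgHom ℂ R 1
      cont := continuous_eval_const 1 }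
  cst :=
    { toAlgHom :=
        { toRingHom := ContinuousMap.C
          commutes' := fun r => by ext t; rfl }
      cont := by
        change Continuous fun r : R => ContinuousMap.const unitInterval r
        exact ContinuousMap.continuous_const' }
  h0 := fun r => rfl
  h1 := fun r => rfl
  tI := ⟨fun t => algebraMap ℂ R ((t : ℝ) : ℂ), (algebraMapCLM ℂ R).continuous.comp
    (Complex.continuous_ofReal.comp continuous_subtype_val)⟩
  ht0 := by
    change algebraMap ℂ R (((0 : unitInterval) : ℝ) : ℂ) = 0
    simp
  ht1 := by
    change algebraMap ℂ R (((1 : unitInterval) : ℝ) : ℂ) = 1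
    simp
  mvn := by
    intro κ _ _ e he
    obtain ⟨u, v, h1, h2⟩ := Crest.Agent.R204.Banach313.mvn_of_path (A := R) (n := κ)
      (fun r : unitInterval => e.map (fun f => f r))
      (continuous_matrix fun i j => (e i j).continuous) (fun r => by
        have h := congrArg (evM r) he
        rw [evM_mul] at h
        exact h)
    exact ⟨v, u, h2, h1⟩

end

end Crest.Agent.R204.Bott671
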