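import Mathlib

/-!
# Linear pencils `a + z b` over a complex Banach algebra, invertible on the unit circle

Row 204, block H (Bott periodicity), leaf B3, helper313.
-/

set_option autoImplicit false

open MeasureTheory Filter Set Topology
open scoped FourierTransform

namespace Crest.Agent.R204.BottPencil313

noncomputable section

/-- `ek k t = exp (2 π i k t)`. -/
def ek (k : ℤ) (t : ℝ) : ℂ := Complex.exp (2 * Real.pi * k * t * Complex.I)

theorem ek_zero (t : ℝ) : ek 0 t = 1 := by simp [ek]

theorem ek_add (k l : ℤ) (t : ℝ) : ek (k + l) t = ek k t * ek l t := by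
  unfold ek
  rw [← Complex.exp_add]
  congr 1
  push_cast
  ring

theorem norm_ek (k : ℤ) (t : ℝ) : ‖ek k t‖ = 1 := by
  unfold ek
  have : (2 * Real.pi * k * t * Complex.I : ℂ) = ((2 * Real.pi * k * t : ℝ) : ℂ) * Complex.I := by
    push_cast
    ring
  rw [this, Complex.norm_exp_ofReal_mul_I]

theorem continuous_ek (k : ℤ) : Continuous (ek k) := by
  unfold ek
  fun_prop

theorem integral_ek (k : ℤ) : ∫ t in (0 : ℝ)..1, ek k t = if k = 0 then 1 else 0 := by
  split_ifs with h
  · subst h
    simp [ek_zero]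
  · unfold ek
    have hc : (2 * Real.pi * k * Complex.I : ℂ) ≠ 0 := by
      have : (k : ℂ) ≠ 0 := by exact_mod_cast h
      simp [Real.pi_ne_zero, this]
    have : ∀ t : ℝ, Complex.exp (2 * Real.pi * k * t * Complex.I)
        = Complex.exp ((2 * Real.pi * k * Complex.I) * t) := by
      intro t
      congr 1
      ring
    simp_rw [this]
    rw [integral_exp_mul_complex hc]
    have e1 : Complex.exp (2 * Real.pi * k * Complex.I * (1 : ℝ)) = 1 := by
      rw [Complex.exp_eq_one_iff]
      exact ⟨k, by push_cast; ring⟩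
    rw [e1]
    simp

variable {A : Type*} [NormedRing A] [NormedAlgebra ℂ A]

/-- The pencil `a + z b` is invertible for every `z` on the unit circle. -/
def IsPencil (a b : A) : Prop := ∀ z : ℂ, ‖z‖ = 1 → IsUnit (a + z • b)

/-- The inverse function of the pencil along the circle. -/
def resolv (a b : A) (t : ℝ) : A := Ring.inverse (a + ek 1 t • b)

/-- Fourier coefficients of the inverse of the pencil. -/
def coef (a b : A) (k : ℤ) : A := ∫ t in (0 : ℝ)..1, ek (-k) t • resolv a b t

/-- The source idempotent of the pencil (equal to `1` for `a = 0` and to `0` for `b = 0`). -/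
def proj (a b : A) : A := coef a b (-1) * b

/-- The target idempotent of the pencil. -/
def proj' (a b : A) : A := b * coef a b (-1)

section basic

variable [CompleteSpace A] {a b : A}

theorem isUnit_pencil (h : IsPencil a b) (t : ℝ) : IsUnit (a + ek 1 t • b) := h _ (norm_ek 1 t)

theorem continuous_resolv (h : IsPencil a b) : Continuous (resolv a b) := by
  rw [continuous_iff_continuousAt]
  intro t
  obtain ⟨u, hu⟩ := isUnit_pencil h t
  have h1 : ContinuousAt Ring.inverse (a + ek 1 t • b) := by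
    rw [← hu]
    exact NormedRing.inverse_continuousAt u
  have h2 : ContinuousAt (fun s : ℝ => a + ek 1 s • b) t := by
    have := continuous_ek 1
    fun_prop
  exact ContinuousAt.comp (f := fun s : ℝ => a + ek 1 s • b) h1 h2

theorem pencil_mul_resolv (h : IsPencil a b) (t : ℝ) :
    a * resolv a b t + ek 1 t • (b * resolv a b t) = 1 := by
  have := Ring.mul_inverse_cancel _ (isUnit_pencil h t)
  rw [add_mul, smul_mul_assoc] at this
  exact this

theorem resolv_mul_pencil (h : IsPencil a b) (t : ℝ) :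
    resolv a b t * a + ek 1 t • (resolv a b t * b) = 1 := by
  have := Ring.inverse_mul_cancel _ (isUnit_pencil h t)
  rw [mul_add, mul_smul_comm] at this
  exact this

theorem continuous_integrand (h : IsPencil a b) (k : ℤ) :
    Continuous (fun t : ℝ => ek k t • resolv a b t) :=
  (continuous_ek k).smul (continuous_resolv h)

theorem mul_coef (h : IsPencil a b) (x : A) (k : ℤ) :
    x * coef a b k = ∫ t in (0 : ℝ)..1, ek (-k) t • (x * resolv a b t) := by
  have := (ContinuousLinearMap.mul ℂ A x).intervalIntegral_comp_comm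
    (a := 0) (b := 1) (μ := volume)
    ((continuous_integrand h (-k)).intervalIntegrable 0 1)
  simp only [ContinuousLinearMap.mul_apply', mul_smul_comm] at this
  exact this.symm

theorem coef_mul (h : IsPencil a b) (x : A) (k : ℤ) :
    coef a b k * x = ∫ t in (0 : ℝ)..1, ek (-k) t • (resolv a b t * x) := by
  have := ((ContinuousLinearMap.mul ℂ A).flip x).intervalIntegral_comp_comm
    (a := 0) (b := 1) (μ := volume)
    ((continuous_integrand h (-k)).intervalIntegrable 0 1)
  simp only [ContinuousLinearMap.flip_apply, ContinuousLinearMap.mul_apply',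
    smul_mul_assoc] at this
  exact this.symm

theorem integral_ek_smul_one (k : ℤ) :
    ∫ t in (0 : ℝ)..1, ek k t • (1 : A) = if k = 0 then 1 else 0 := by
  rw [intervalIntegral.integral_smul_const, integral_ek]
  split_ifs <;> simp

/-- The left recursion `a c_k + b c_{k-1} = δ_{k0}`. -/
theorem coef_left (h : IsPencil a b) (k : ℤ) :
    a * coef a b k + b * coef a b (k - 1) = if k = 0 then 1 else 0 := by
  rw [mul_coef h, mul_coef h, ← intervalIntegral.integral_add]
  · have : ∀ t : ℝ, ek (-k) t • (a * resolv a b t) + ek (-(k - 1)) t • (b * resolv a b t)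
        = ek (-k) t • (1 : A) := by
      intro t
      have e : -(k - 1) = -k + 1 := by ring
      rw [e, ek_add, mul_smul, ← smul_add, pencil_mul_resolv h]
    simp_rw [this]
    rw [integral_ek_smul_one]
    simp
  · exact ((continuous_ek _).smul (continuous_const.mul (continuous_resolv h))).intervalIntegrable
      _ _
  · exact ((continuous_ek _).smul (continuous_const.mul (continuous_resolv h))).intervalIntegrable
      _ _

/-- The right recursion `c_k a + c_{k-1} b = δ_{k0}`. -/
theorem coef_right (h : IsPencil a b) (k : ℤ) :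
    coef a b k * a + coef a b (k - 1) * b = if k = 0 then 1 else 0 := by
  rw [coef_mul h, coef_mul h, ← intervalIntegral.integral_add]
  · have : ∀ t : ℝ, ek (-k) t • (resolv a b t * a) + ek (-(k - 1)) t • (resolv a b t * b)
        = ek (-k) t • (1 : A) := by
      intro t
      have e : -(k - 1) = -k + 1 := by ring
      rw [e, ek_add, mul_smul, ← smul_add, resolv_mul_pencil h]
    simp_rw [this]
    rw [integral_ek_smul_one]
    simp
  · exact ((continuous_ek _).smul ((continuous_resolv h).mul continuous_const)).intervalIntegrable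
      _ _
  · exact ((continuous_ek _).smul ((continuous_resolv h).mul continuous_const)).intervalIntegrable
      _ _

theorem exists_bound (h : IsPencil a b) : ∃ M : ℝ, 0 ≤ M ∧ ∀ k : ℤ, ‖coef a b k‖ ≤ M := by
  obtain ⟨M, hM⟩ := (isCompact_Icc (a := (0 : ℝ)) (b := 1)).exists_bound_of_continuousOn
    (continuous_resolv h).continuousOn
  have hM0 : 0 ≤ M := (norm_nonneg _).trans (hM 0 ⟨le_refl _, zero_le_one⟩)
  refine ⟨M, hM0, fun k => ?_⟩
  have := intervalIntegral.norm_integral_le_of_norm_le_const (a := 0) (b := 1) (C := M)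
    (f := fun t : ℝ => ek (-k) t • resolv a b t) (by
      intro t ht
      rw [norm_smul, norm_ek, one_mul]
      rw [uIoc_of_le zero_le_one] at ht
      exact hM t ⟨ht.1.le, ht.2⟩)
  simpa [coef] using this

/-- Riemann-Lebesgue for the coefficients. -/
theorem tendsto_coef (h : IsPencil a b) : Tendsto (fun n : ℕ => coef a b n) atTop (𝓝 0) := by
  have key := Real.tendsto_integral_exp_smul_cocompact
    (f := Set.indicator (Ioc (0 : ℝ) 1) (resolv a b))
  have h2 : Tendsto (fun n : ℕ => (n : ℝ)) atTop (cocompact ℝ) :=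
    (tendsto_natCast_atTop_atTop (R := ℝ)).mono_right atTop_le_cocompact
  have h3 := key.comp h2
  refine h3.congr fun n => ?_
  simp only [Function.comp]
  unfold coef
  rw [intervalIntegral.integral_of_le zero_le_one, ← integral_indicator measurableSet_Ioc]
  congr 1
  ext t
  by_cases ht : t ∈ Ioc (0 : ℝ) 1
  · simp only [Set.indicator_of_mem ht]
    rw [Circle.smul_def, Real.fourierChar_apply]
    congr 1
    unfold ek
    congr 1
    push_cast
    ring
  · simp only [Set.indicator_of_notMem ht, smul_zero]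

/-! ### Orthogonality of the coefficients -/

theorem coef_a_coef_shift (h : IsPencil a b) (j k N : ℕ) :
    coef a b (-1 - j) * a * coef a b k
      = coef a b (-1 - j - N) * a * coef a b (k + N) := by
  induction N with
  | zero => simp
  | succ N ih =>
    rw [ih]
    have h1 := coef_right h (-1 - j - N)
    rw [if_neg (by omega)] at h1
    have h2 := coef_left h (k + N + 1)
    rw [if_neg (by omega)] at h2
    have e1 : (-1 - j - N - 1 : ℤ) = -1 - j - (N + 1 : ℕ) := by push_cast; ring
    have e2 : (k + N + 1 - 1 : ℤ) = k + N := by ring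
    have e3 : (k + N + 1 : ℤ) = k + (N + 1 : ℕ) := by push_cast; ring
    rw [e1] at h1
    rw [e2, e3] at h2
    have h1' : coef a b (-1 - j - N) * a = - (coef a b (-1 - j - (N + 1 : ℕ)) * b) :=
      eq_neg_of_add_eq_zero_left h1
    have h2' : b * coef a b (k + N) = - (a * coef a b (k + (N + 1 : ℕ))) :=
      eq_neg_of_add_eq_zero_right h2
    rw [h1', neg_mul, mul_assoc, h2', mul_neg, neg_neg, mul_assoc]

/-- `c_{-1-j} a c_k = 0`. -/
theorem coef_a_coef (h : IsPencil a b) (j k : ℕ) :
    coef a b (-1 - j) * a * coef a b k = 0 := by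
  obtain ⟨M, hM0, hM⟩ := exists_bound h
  have h1 : Tendsto (fun N : ℕ => coef a b (k + N)) atTop (𝓝 0) := by
    have := (tendsto_coef h).comp (tendsto_add_atTop_nat k)
    refine this.congr fun n => ?_
    simp only [Function.comp]
    congr 1
    push_cast
    ring
  have h2 : Tendsto (fun N : ℕ => coef a b (-1 - j - N) * a * coef a b (k + N)) atTop (𝓝 0) := by
    rw [tendsto_zero_iff_norm_tendsto_zero] at h1 ⊢
    have h3 := h1.const_mul (M * ‖a‖)
    rw [mul_zero] at h3
    refine squeeze_zero (fun _ => norm_nonneg _) (fun N => ?_) h3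
    calc ‖coef a b (-1 - j - N) * a * coef a b (k + N)‖
        ≤ ‖coef a b (-1 - j - N) * a‖ * ‖coef a b (k + N)‖ := norm_mul_le _ _
      _ ≤ (‖coef a b (-1 - j - N)‖ * ‖a‖) * ‖coef a b (k + N)‖ := by
          gcongr
          exact norm_mul_le _ _
      _ ≤ (M * ‖a‖) * ‖coef a b (k + N)‖ := by
          gcongr
          exact hM _
  have h4 : Tendsto (fun _ : ℕ => coef a b (-1 - j) * a * coef a b k) atTop (𝓝 0) :=
    h2.congr fun N => (coef_a_coef_shift h j k N).symm
  exact tendsto_nhds_unique tendsto_const_nhds h4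

theorem coef_a_coef_shift' (h : IsPencil a b) (j k N : ℕ) :
    coef a b k * a * coef a b (-1 - j)
      = coef a b (k + N) * a * coef a b (-1 - j - N) := by
  induction N with
  | zero => simp
  | succ N ih =>
    rw [ih]
    have h1 := coef_right h (k + N + 1)
    rw [if_neg (by omega)] at h1
    have h2 := coef_left h (-1 - j - N)
    rw [if_neg (by omega)] at h2
    have e1 : (-1 - j - N - 1 : ℤ) = -1 - j - (N + 1 : ℕ) := by push_cast; ring
    have e2 : (k + N + 1 - 1 : ℤ) = k + N := by ring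
    have e3 : (k + N + 1 : ℤ) = k + (N + 1 : ℕ) := by push_cast; ring
    rw [e1] at h2
    rw [e2, e3] at h1
    have h1' : coef a b (k + N) * b = - (coef a b (k + (N + 1 : ℕ)) * a) :=
      eq_neg_of_add_eq_zero_right h1
    have h2' : a * coef a b (-1 - j - N) = - (b * coef a b (-1 - j - (N + 1 : ℕ))) :=
      eq_neg_of_add_eq_zero_left h2
    rw [mul_assoc, h2', mul_neg, ← mul_assoc, h1', neg_mul, neg_neg]

/-- `c_k a c_{-1-j} = 0`. -/
theorem coef_a_coef' (h : IsPencil a b) (j k : ℕ) :
    coef a b k * a * coef a b (-1 - j) = 0 := by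
  obtain ⟨M, hM0, hM⟩ := exists_bound h
  have h1 : Tendsto (fun N : ℕ => coef a b (k + N)) atTop (𝓝 0) := by
    have := (tendsto_coef h).comp (tendsto_add_atTop_nat k)
    refine this.congr fun n => ?_
    simp only [Function.comp]
    congr 1
    push_cast
    ring
  have h2 : Tendsto (fun N : ℕ => coef a b (k + N) * a * coef a b (-1 - j - N)) atTop (𝓝 0) := by
    rw [tendsto_zero_iff_norm_tendsto_zero] at h1 ⊢
    have h3 := h1.mul_const (‖a‖ * M)
    rw [zero_mul] at h3
    refine squeeze_zero (fun _ => norm_nonneg _) (fun N => ?_) h3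
    calc ‖coef a b (k + N) * a * coef a b (-1 - j - N)‖
        ≤ ‖coef a b (k + N) * a‖ * ‖coef a b (-1 - j - N)‖ := norm_mul_le _ _
      _ ≤ (‖coef a b (k + N)‖ * ‖a‖) * ‖coef a b (-1 - j - N)‖ := by
          gcongr
          exact norm_mul_le _ _
      _ ≤ (‖coef a b (k + N)‖ * ‖a‖) * M := by
          gcongr
          exact hM _
      _ = ‖coef a b (k + N)‖ * (‖a‖ * M) := by ring
  have h4 : Tendsto (fun _ : ℕ => coef a b k * a * coef a b (-1 - j)) atTop (𝓝 0) :=
    h2.congr fun N => (coef_a_coef_shift' h j k N).symm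
  exact tendsto_nhds_unique tendsto_const_nhds h4

/-- `c_{-1-j} b c_k = 0`. -/
theorem coef_b_coef (h : IsPencil a b) (j k : ℕ) :
    coef a b (-1 - j) * b * coef a b k = 0 := by
  have h2 := coef_left h (k + 1)
  rw [if_neg (by omega)] at h2
  have e2 : (k + 1 - 1 : ℤ) = k := by ring
  rw [e2] at h2
  have h2' : b * coef a b k = - (a * coef a b (k + 1)) := eq_neg_of_add_eq_zero_right h2
  rw [mul_assoc, h2', mul_neg, ← mul_assoc]
  have := coef_a_coef h j (k + 1)
  push_cast at this
  rw [this, neg_zero]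

/-- `c_k b c_{-1-j} = 0`. -/
theorem coef_b_coef' (h : IsPencil a b) (j k : ℕ) :
    coef a b k * b * coef a b (-1 - j) = 0 := by
  have h2 := coef_right h (k + 1)
  rw [if_neg (by omega)] at h2
  have e2 : (k + 1 - 1 : ℤ) = k := by ring
  rw [e2] at h2
  have h2' : coef a b k * b = - (coef a b (k + 1) * a) := eq_neg_of_add_eq_zero_right h2
  rw [h2', neg_mul]
  have := coef_a_coef' h j (k + 1)
  push_cast at this
  rw [this, neg_zero]

theorem one_sub_proj (h : IsPencil a b) : 1 - proj a b = coef a b 0 * a := by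
  have := coef_right h 0
  simp only [if_true, zero_sub] at this
  unfold proj
  rw [← this]
  abel

theorem one_sub_proj' (h : IsPencil a b) : 1 - proj' a b = a * coef a b 0 := by
  have := coef_left h 0
  simp only [if_true, zero_sub] at this
  unfold proj'
  rw [← this]
  abel

theorem proj_mul_proj (h : IsPencil a b) : proj a b * proj a b = proj a b := by
  have h1 : proj a b * (1 - proj a b) = 0 := by
    rw [one_sub_proj h]
    unfold proj
    have := coef_b_coef h 0 0
    simp only [Nat.cast_zero, sub_zero] at this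
    rw [← mul_assoc, this, zero_mul]
  rw [mul_sub, mul_one, sub_eq_zero] at h1
  exact h1.symm

theorem proj'_mul_proj' (h : IsPencil a b) : proj' a b * proj' a b = proj' a b := by
  have h1 : proj' a b * (1 - proj' a b) = 0 := by
    rw [one_sub_proj' h]
    unfold proj'
    have := coef_a_coef h 0 0
    simp only [Nat.cast_zero, sub_zero] at this
    rw [mul_assoc, ← mul_assoc (coef a b (-1)), this, mul_zero]
  rw [mul_sub, mul_one, sub_eq_zero] at h1
  exact h1.symm

theorem isIdempotentElem_proj (h : IsPencil a b) : IsIdempotentElem (proj a b) := proj_mul_proj h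

theorem isIdempotentElem_proj' (h : IsPencil a b) : IsIdempotentElem (proj' a b) :=
  proj'_mul_proj' h

theorem b_mul_proj : b * proj a b = proj' a b * b := by
  unfold proj proj'
  rw [mul_assoc]

theorem a_mul_proj (h : IsPencil a b) : a * proj a b = proj' a b * a := by
  have h1 := coef_left h (-1)
  have h2 := coef_right h (-1)
  rw [if_neg (by norm_num)] at h1 h2
  unfold proj proj'
  rw [← mul_assoc, eq_neg_of_add_eq_zero_left h1, mul_assoc, eq_neg_of_add_eq_zero_left h2]
  simp [mul_assoc]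

theorem proj_mul_coef_nonneg (h : IsPencil a b) (k : ℕ) : proj a b * coef a b k = 0 := by
  have := coef_b_coef h 0 k
  simp only [Nat.cast_zero, sub_zero] at this
  exact this

theorem proj_mul_coef_neg (h : IsPencil a b) (j : ℕ) :
    proj a b * coef a b (-1 - j) = coef a b (-1 - j) := by
  have h1 : (1 - proj a b) * coef a b (-1 - j) = 0 := by
    rw [one_sub_proj h]
    have := coef_a_coef' h j 0
    simpa using this
  rw [sub_mul, one_mul, sub_eq_zero] at h1
  exact h1.symm

theorem coef_nonneg_mul_proj' (h : IsPencil a b) (k : ℕ) : coef a b k * proj' a b = 0 := by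
  have := coef_b_coef' h 0 k
  simp only [Nat.cast_zero, sub_zero] at this
  unfold proj'
  rw [← mul_assoc]
  exact this

theorem coef_neg_mul_proj' (h : IsPencil a b) (j : ℕ) :
    coef a b (-1 - j) * proj' a b = coef a b (-1 - j) := by
  have h1 : coef a b (-1 - j) * (1 - proj' a b) = 0 := by
    rw [one_sub_proj' h]
    have := coef_a_coef h j 0
    rw [← mul_assoc]
    simpa using this
  rw [mul_sub, mul_one, sub_eq_zero] at h1
  exact h1.symm

/-! ### The homotopy -/

/-- The homotopy `q_t(z) = (t a + z b) P + (a + t z b) (1 - P)`. -/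
def hpencil (a b : A) (t z : ℂ) : A :=
  (t • a + z • b) * proj a b + (a + (t * z) • b) * (1 - proj a b)

theorem hpencil_one (z : ℂ) : hpencil a b 1 z = a + z • b := by
  unfold hpencil
  rw [one_smul, one_mul, ← mul_add]
  simp

theorem hpencil_left (h : IsPencil a b) (t z : ℂ) : hpencil a b t z =
    proj' a b * (t • a + z • b) + (1 - proj' a b) * (a + (t * z) • b) := by
  unfold hpencil
  have h1 := a_mul_proj h
  have h2 : b * proj a b = proj' a b * b := b_mul_proj
  simp only [add_mul, mul_add, mul_sub, sub_mul, mul_one, one_mul, smul_mul_assoc,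
    mul_smul_comm, smul_sub, h1, h2]
  abel

/-- negative part of the inverse -/
def Rneg (a b : A) (t z : ℂ) : A := ∑' j : ℕ, (t ^ j * (z⁻¹) ^ (j + 1)) • coef a b (-1 - j)

/-- nonnegative part of the inverse -/
def Spos (a b : A) (t z : ℂ) : A := ∑' k : ℕ, ((t * z) ^ k) • coef a b k

theorem summable_neg (h : IsPencil a b) {t z : ℂ} (ht : ‖t‖ < 1) (hz : ‖z‖ = 1) :
    Summable (fun j : ℕ => (t ^ j * (z⁻¹) ^ (j + 1)) • coef a b (-1 - j)) := by
  obtain ⟨M, hM0, hM⟩ := exists_bound h
  refine Summable.of_norm_bounded (g := fun j : ℕ => ‖t‖ ^ j * M)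
    ((summable_geometric_of_lt_one (norm_nonneg _) ht).mul_right M) (fun j => ?_)
  rw [norm_smul, norm_mul, norm_pow, norm_pow, norm_inv, hz, inv_one, one_pow, mul_one]
  gcongr
  exact hM _

theorem summable_pos (h : IsPencil a b) {t z : ℂ} (ht : ‖t‖ < 1) (hz : ‖z‖ = 1) :
    Summable (fun k : ℕ => ((t * z) ^ k) • coef a b k) := by
  obtain ⟨M, hM0, hM⟩ := exists_bound h
  refine Summable.of_norm_bounded (g := fun j : ℕ => ‖t‖ ^ j * M)
    ((summable_geometric_of_lt_one (norm_nonneg _) ht).mul_right M) (fun j => ?_)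
  rw [norm_smul, norm_pow, norm_mul, hz, mul_one]
  gcongr
  exact hM _

theorem hasSum_neg (h : IsPencil a b) {t z : ℂ} (ht : ‖t‖ < 1) (hz : ‖z‖ = 1) :
    HasSum (fun j : ℕ => (t ^ j * (z⁻¹) ^ (j + 1)) • coef a b (-1 - j)) (Rneg a b t z) :=
  (summable_neg h ht hz).hasSum

theorem hasSum_pos (h : IsPencil a b) {t z : ℂ} (ht : ‖t‖ < 1) (hz : ‖z‖ = 1) :
    HasSum (fun k : ℕ => ((t * z) ^ k) • coef a b k) (Spos a b t z) :=
  (summable_pos h ht hz).hasSum

theorem pencil_mul_Rneg (h : IsPencil a b) {t z : ℂ} (ht : ‖t‖ < 1) (hz : ‖z‖ = 1) :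
    (t • a + z • b) * Rneg a b t z = proj' a b := by
  have hz0 : z ≠ 0 := by
    intro h0
    rw [h0, norm_zero] at hz
    exact zero_ne_one hz
  have h1 := ((hasSum_neg h ht hz).mul_left (t • a))
  have h2 := ((hasSum_neg h ht hz).mul_left (z • b))
  -- shift the second sum
  have h2' : HasSum (fun j : ℕ => (z • b) * ((t ^ (j + 1) * (z⁻¹) ^ (j + 1 + 1)) •
      coef a b (-1 - (j + 1 : ℕ)))) ((z • b) * Rneg a b t z - proj' a b) := by
    have := (hasSum_nat_add_iff' (f := fun j : ℕ => (z • b) * ((t ^ j * (z⁻¹) ^ (j + 1)) •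
      coef a b (-1 - (j : ℕ)))) 1).mpr h2
    have e : ∑ i ∈ Finset.range 1, (z • b) * ((t ^ i * (z⁻¹) ^ (i + 1)) •
        coef a b (-1 - (i : ℕ))) = proj' a b := by
      simp only [Finset.sum_range_one, pow_zero, one_mul, zero_add, pow_one, Nat.cast_zero,
        sub_zero, smul_mul_assoc, mul_smul_comm, smul_smul]
      rw [inv_mul_cancel₀ hz0, one_smul]
      rfl
    rw [e] at this
    exact this
  have h3 := h1.add h2'
  have h4 : ∀ j : ℕ, (t • a) * ((t ^ j * (z⁻¹) ^ (j + 1)) • coef a b (-1 - (j : ℕ)))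
      + (z • b) * ((t ^ (j + 1) * (z⁻¹) ^ (j + 1 + 1)) • coef a b (-1 - (j + 1 : ℕ))) = 0 := by
    intro j
    have hl := coef_left h (-1 - j)
    rw [if_neg (by omega)] at hl
    have e1 : (-1 - j - 1 : ℤ) = -1 - (j + 1 : ℕ) := by push_cast; ring
    rw [e1] at hl
    simp only [smul_mul_assoc, mul_smul_comm, smul_smul]
    have e2 : t ^ (j + 1) * z⁻¹ ^ (j + 1 + 1) * z = t ^ j * z⁻¹ ^ (j + 1) * t := by
      rw [pow_succ t j, pow_succ z⁻¹ (j + 1)]
      have : z * z⁻¹ = 1 := mul_inv_cancel₀ hz0
      linear_combination (t ^ j * t * z⁻¹ ^ (j + 1)) * this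
    rw [e2, ← smul_add, hl, smul_zero]
  simp_rw [h4] at h3
  have h5 := h3.unique hasSum_zero
  rw [add_mul]
  have : (t • a) * Rneg a b t z + ((z • b) * Rneg a b t z - proj' a b)
      = ((t • a) * Rneg a b t z + (z • b) * Rneg a b t z) - proj' a b := by abel
  rw [this, sub_eq_zero] at h5
  exact h5

theorem Rneg_mul_pencil (h : IsPencil a b) {t z : ℂ} (ht : ‖t‖ < 1) (hz : ‖z‖ = 1) :
    Rneg a b t z * (t • a + z • b) = proj a b := by
  have hz0 : z ≠ 0 := by
    intro h0
    rw [h0, norm_zero] at hz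
    exact zero_ne_one hz
  have h1 := ((hasSum_neg h ht hz).mul_right (t • a))
  have h2 := ((hasSum_neg h ht hz).mul_right (z • b))
  have h2' : HasSum (fun j : ℕ => ((t ^ (j + 1) * (z⁻¹) ^ (j + 1 + 1)) •
      coef a b (-1 - (j + 1 : ℕ))) * (z • b)) (Rneg a b t z * (z • b) - proj a b) := by
    have := (hasSum_nat_add_iff' (f := fun j : ℕ => ((t ^ j * (z⁻¹) ^ (j + 1)) •
      coef a b (-1 - (j : ℕ))) * (z • b)) 1).mpr h2
    have e : ∑ i ∈ Finset.range 1, ((t ^ i * (z⁻¹) ^ (i + 1)) •
        coef a b (-1 - (i : ℕ))) * (z • b) = proj a b := by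
      simp only [Finset.sum_range_one, pow_zero, one_mul, zero_add, pow_one, Nat.cast_zero,
        sub_zero, smul_mul_assoc, mul_smul_comm, smul_smul]
      rw [mul_inv_cancel₀ hz0, one_smul]
      rfl
    rw [e] at this
    exact this
  have h3 := h1.add h2'
  have h4 : ∀ j : ℕ, ((t ^ j * (z⁻¹) ^ (j + 1)) • coef a b (-1 - (j : ℕ))) * (t • a)
      + ((t ^ (j + 1) * (z⁻¹) ^ (j + 1 + 1)) • coef a b (-1 - (j + 1 : ℕ))) * (z • b) = 0 := by
    intro j
    have hl := coef_right h (-1 - j)
    rw [if_neg (by omega)] at hl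
    have e1 : (-1 - j - 1 : ℤ) = -1 - (j + 1 : ℕ) := by push_cast; ring
    rw [e1] at hl
    simp only [smul_mul_assoc, mul_smul_comm, smul_smul]
    have e2 : z * (t ^ (j + 1) * z⁻¹ ^ (j + 1 + 1)) = t * (t ^ j * z⁻¹ ^ (j + 1)) := by
      rw [pow_succ t j, pow_succ z⁻¹ (j + 1)]
      have : z * z⁻¹ = 1 := mul_inv_cancel₀ hz0
      linear_combination (t ^ j * t * z⁻¹ ^ (j + 1)) * this
    rw [e2, ← smul_add, hl, smul_zero]
  simp_rw [h4] at h3
  have h5 := h3.unique hasSum_zero
  rw [mul_add]
  have : Rneg a b t z * (t • a) + (Rneg a b t z * (z • b) - proj a b)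
      = (Rneg a b t z * (t • a) + Rneg a b t z * (z • b)) - proj a b := by abel
  rw [this, sub_eq_zero] at h5
  exact h5

theorem pencil_mul_Spos (h : IsPencil a b) {t z : ℂ} (ht : ‖t‖ < 1) (hz : ‖z‖ = 1) :
    (a + (t * z) • b) * Spos a b t z = 1 - proj' a b := by
  have h1 := ((hasSum_pos h ht hz).mul_left a)
  have h2 := ((hasSum_pos h ht hz).mul_left ((t * z) • b))
  have h1' : HasSum (fun j : ℕ => a * (((t * z) ^ (j + 1)) •
      coef a b (j + 1 : ℕ))) (a * Spos a b t z - (1 - proj' a b)) := by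
    have := (hasSum_nat_add_iff' (f := fun j : ℕ => a * (((t * z) ^ j) •
      coef a b (j : ℕ))) 1).mpr h1
    have e : ∑ i ∈ Finset.range 1, a * (((t * z) ^ i) •
        coef a b (i : ℕ)) = 1 - proj' a b := by
      rw [one_sub_proj' h]
      simp
    rw [e] at this
    exact this
  have h3 := h1'.add h2
  have h4 : ∀ j : ℕ, a * (((t * z) ^ (j + 1)) • coef a b (j + 1 : ℕ))
      + ((t * z) • b) * (((t * z) ^ j) • coef a b (j : ℕ)) = 0 := by
    intro j
    have hl := coef_left h (j + 1)
    rw [if_neg (by omega)] at hl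
    have e1 : (j + 1 - 1 : ℤ) = j := by ring
    rw [e1] at hl
    simp only [smul_mul_assoc, mul_smul_comm, smul_smul]
    rw [← pow_succ, ← smul_add]
    push_cast
    rw [hl, smul_zero]
  simp_rw [h4] at h3
  have h5 := h3.unique hasSum_zero
  rw [add_mul]
  have : a * Spos a b t z - (1 - proj' a b) + ((t * z) • b) * Spos a b t z
      = (a * Spos a b t z + ((t * z) • b) * Spos a b t z) - (1 - proj' a b) := by abel
  rw [this, sub_eq_zero] at h5
  exact h5

theorem Spos_mul_pencil (h : IsPencil a b) {t z : ℂ} (ht : ‖t‖ < 1) (hz : ‖z‖ = 1) :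
    Spos a b t z * (a + (t * z) • b) = 1 - proj a b := by
  have h1 := ((hasSum_pos h ht hz).mul_right a)
  have h2 := ((hasSum_pos h ht hz).mul_right ((t * z) • b))
  have h1' : HasSum (fun j : ℕ => (((t * z) ^ (j + 1)) •
      coef a b (j + 1 : ℕ)) * a) (Spos a b t z * a - (1 - proj a b)) := by
    have := (hasSum_nat_add_iff' (f := fun j : ℕ => (((t * z) ^ j) •
      coef a b (j : ℕ)) * a) 1).mpr h1
    have e : ∑ i ∈ Finset.range 1, (((t * z) ^ i) •
        coef a b (i : ℕ)) * a = 1 - proj a b := by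
      rw [one_sub_proj h]
      simp
    rw [e] at this
    exact this
  have h3 := h1'.add h2
  have h4 : ∀ j : ℕ, (((t * z) ^ (j + 1)) • coef a b (j + 1 : ℕ)) * a
      + (((t * z) ^ j) • coef a b (j : ℕ)) * ((t * z) • b) = 0 := by
    intro j
    have hl := coef_right h (j + 1)
    rw [if_neg (by omega)] at hl
    have e1 : (j + 1 - 1 : ℤ) = j := by ring
    rw [e1] at hl
    simp only [smul_mul_assoc, mul_smul_comm, smul_smul]
    rw [← pow_succ', ← smul_add]
    push_cast
    rw [hl, smul_zero]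
  simp_rw [h4] at h3
  have h5 := h3.unique hasSum_zero
  rw [mul_add]
  have : Spos a b t z * a - (1 - proj a b) + Spos a b t z * ((t * z) • b)
      = (Spos a b t z * a + Spos a b t z * ((t * z) • b)) - (1 - proj a b) := by abel
  rw [this, sub_eq_zero] at h5
  exact h5

theorem proj_mul_Rneg (h : IsPencil a b) {t z : ℂ} (ht : ‖t‖ < 1) (hz : ‖z‖ = 1) :
    proj a b * Rneg a b t z = Rneg a b t z := by
  have h1 := ((hasSum_neg h ht hz).mul_left (proj a b))
  have : ∀ j : ℕ, proj a b * ((t ^ j * (z⁻¹) ^ (j + 1)) • coef a b (-1 - j))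
      = (t ^ j * (z⁻¹) ^ (j + 1)) • coef a b (-1 - j) := by
    intro j
    rw [mul_smul_comm, proj_mul_coef_neg h]
  simp_rw [this] at h1
  exact h1.unique (hasSum_neg h ht hz)

theorem Rneg_mul_proj' (h : IsPencil a b) {t z : ℂ} (ht : ‖t‖ < 1) (hz : ‖z‖ = 1) :
    Rneg a b t z * proj' a b = Rneg a b t z := by
  have h1 := ((hasSum_neg h ht hz).mul_right (proj' a b))
  have : ∀ j : ℕ, ((t ^ j * (z⁻¹) ^ (j + 1)) • coef a b (-1 - j)) * proj' a b
      = (t ^ j * (z⁻¹) ^ (j + 1)) • coef a b (-1 - j) := by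
    intro j
    rw [smul_mul_assoc, coef_neg_mul_proj' h]
  simp_rw [this] at h1
  exact h1.unique (hasSum_neg h ht hz)

theorem proj_mul_Spos (h : IsPencil a b) {t z : ℂ} (ht : ‖t‖ < 1) (hz : ‖z‖ = 1) :
    proj a b * Spos a b t z = 0 := by
  have h1 := ((hasSum_pos h ht hz).mul_left (proj a b))
  have : ∀ j : ℕ, proj a b * (((t * z) ^ j) • coef a b j) = 0 := by
    intro j
    rw [mul_smul_comm, proj_mul_coef_nonneg h, smul_zero]
  simp_rw [this] at h1
  exact h1.unique hasSum_zero

theorem Spos_mul_proj' (h : IsPencil a b) {t z : ℂ} (ht : ‖t‖ < 1) (hz : ‖z‖ = 1) :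
    Spos a b t z * proj' a b = 0 := by
  have h1 := ((hasSum_pos h ht hz).mul_right (proj' a b))
  have : ∀ j : ℕ, (((t * z) ^ j) • coef a b j) * proj' a b = 0 := by
    intro j
    rw [smul_mul_assoc, coef_nonneg_mul_proj' h, smul_zero]
  simp_rw [this] at h1
  exact h1.unique hasSum_zero

omit [NormedAlgebra ℂ A] [CompleteSpace A] in
theorem alg_aux1 (X Y P R S : A) : (X * P + Y * (1 - P)) * (R + S)
      = X * (P * R) + X * (P * S) + Y * (R - P * R) + Y * (S - P * S) := by noncomm_ring

omit [NormedAlgebra ℂ A] [CompleteSpace A] in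
theorem alg_aux2 (X Y P R S : A) : (R + S) * (P * X + (1 - P) * Y)
      = (R * P) * X + (S * P) * X + (R - R * P) * Y + (S - S * P) * Y := by noncomm_ring

theorem hpencil_mul_inv (h : IsPencil a b) {t z : ℂ} (ht : ‖t‖ < 1) (hz : ‖z‖ = 1) :
    hpencil a b t z * (Rneg a b t z + Spos a b t z) = 1 := by
  unfold hpencil
  rw [alg_aux1, proj_mul_Rneg h ht hz, proj_mul_Spos h ht hz, sub_self, sub_zero, mul_zero,
    mul_zero, pencil_mul_Rneg h ht hz, pencil_mul_Spos h ht hz]
  abel

theorem inv_mul_hpencil (h : IsPencil a b) {t z : ℂ} (ht : ‖t‖ < 1) (hz : ‖z‖ = 1) :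
    (Rneg a b t z + Spos a b t z) * hpencil a b t z = 1 := by
  rw [hpencil_left h, alg_aux2, Rneg_mul_proj' h ht hz, Spos_mul_proj' h ht hz, sub_self,
    sub_zero, zero_mul, zero_mul, Rneg_mul_pencil h ht hz, Spos_mul_pencil h ht hz]
  abel

/-- The homotopy is through invertible elements. -/
theorem isUnit_hpencil (h : IsPencil a b) {t z : ℂ} (ht : ‖t‖ < 1 ∨ t = 1) (hz : ‖z‖ = 1) :
    IsUnit (hpencil a b t z) := by
  rcases ht with ht | ht
  · exact ⟨⟨hpencil a b t z, Rneg a b t z + Spos a b t z, hpencil_mul_inv h ht hz,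
      inv_mul_hpencil h ht hz⟩, rfl⟩
  · rw [ht, hpencil_one]
    exact h z hz

/-- The unit `u = b P + a (1 - P)`. -/
def unitPart (a b : A) : A := b * proj a b + a * (1 - proj a b)

theorem hpencil_zero (h : IsPencil a b) (z : ℂ) :
    hpencil a b 0 z = unitPart a b * (z • proj a b + (1 - proj a b)) := by
  unfold hpencil unitPart
  have hp := proj_mul_proj h
  have e : ∀ P : A, P * P = P → (b * P + a * (1 - P)) * (z • P + (1 - P))
      = z • (b * P) + a * (1 - P) := by
    intro P hP
    have h1 : (b * P + a * (1 - P)) * P = b * P := by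
      rw [add_mul, mul_assoc, mul_assoc, sub_mul, hP]
      simp
    have h2 : (b * P + a * (1 - P)) * (1 - P) = a * (1 - P) := by
      rw [mul_sub, h1]
      simp
    rw [mul_add, mul_smul_comm, h1, h2]
  rw [e _ hp]
  simp

theorem isUnit_unitPart (h : IsPencil a b) : IsUnit (unitPart a b) := by
  have h1 : hpencil a b 0 1 = unitPart a b := by
    rw [hpencil_zero h]
    simp
  rw [← h1]
  exact isUnit_hpencil h (Or.inl (by simp)) (by simp)

/-! ### Uniqueness of the coefficients and its consequences -/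

/-- Riemann-Lebesgue for the coefficients, negative side. -/
theorem tendsto_coef_neg (a b : A) : Tendsto (fun n : ℕ => coef a b (-n)) atTop (𝓝 0) := by
  have key := Real.tendsto_integral_exp_smul_cocompact
    (f := Set.indicator (Ioc (0 : ℝ) 1) (resolv a b))
  have h2 : Tendsto (fun n : ℕ => -(n : ℝ)) atTop (cocompact ℝ) :=
    ((tendsto_neg_atTop_atBot).comp (tendsto_natCast_atTop_atTop (R := ℝ))).mono_right
      atBot_le_cocompact
  have h3 := key.comp h2
  refine h3.congr fun n => ?_
  simp only [Function.comp]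
  unfold coef
  rw [intervalIntegral.integral_of_le zero_le_one, ← integral_indicator measurableSet_Ioc]
  congr 1
  ext t
  by_cases ht : t ∈ Ioc (0 : ℝ) 1
  · simp only [Set.indicator_of_mem ht]
    rw [Circle.smul_def, Real.fourierChar_apply]
    congr 1
    unfold ek
    congr 1
    push_cast
    ring
  · simp only [Set.indicator_of_notMem ht, smul_zero]

theorem shift_aux (h : IsPencil a b) (d : ℤ → A)
    (hd : ∀ k, a * d k + b * d (k - 1) = 0) (l m : ℤ) :
    coef a b l * a * d (m - l)
      = coef a b (l + 1) * a * d (m - (l + 1)) - (if l + 1 = 0 then 1 else 0) * d (m - (l + 1)) := by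
  have h1 := coef_right h (l + 1)
  have e1 : l + 1 - 1 = l := by ring
  rw [e1] at h1
  have h2 := hd (m - l)
  have e2 : m - l - 1 = m - (l + 1) := by ring
  rw [e2] at h2
  rw [← h1, add_mul, mul_assoc, eq_neg_of_add_eq_zero_left h2]
  simp only [mul_neg, mul_assoc]
  abel

theorem tendsto_zero_of_bounded_mul {f g : ℕ → A} (hf : Tendsto f atTop (𝓝 0)) (x : A)
    {M : ℝ} (hg : ∀ n, ‖g n‖ ≤ M) : Tendsto (fun n => f n * x * g n) atTop (𝓝 0) := by
  have hM0 : 0 ≤ M := (norm_nonneg _).trans (hg 0)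
  rw [tendsto_zero_iff_norm_tendsto_zero] at hf ⊢
  have h3 := hf.mul_const (‖x‖ * M)
  rw [zero_mul] at h3
  refine squeeze_zero (fun _ => norm_nonneg _) (fun N => ?_) h3
  calc ‖f N * x * g N‖ ≤ ‖f N * x‖ * ‖g N‖ := norm_mul_le _ _
    _ ≤ (‖f N‖ * ‖x‖) * ‖g N‖ := by
        gcongr
        exact norm_mul_le _ _
    _ ≤ (‖f N‖ * ‖x‖) * M := by
        gcongr
        exact hg _
    _ = ‖f N‖ * (‖x‖ * M) := by ring

/-- Bounded solutions of the homogeneous recursion vanish. -/
theorem eq_zero_of_recursion (h : IsPencil a b) (d : ℤ → A)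
    (hd : ∀ k, a * d k + b * d (k - 1) = 0) {M : ℝ} (hM : ∀ k, ‖d k‖ ≤ M) (m : ℤ) : d m = 0 := by
  -- right half
  have r1 : ∀ N : ℕ, coef a b 0 * a * d m = coef a b N * a * d (m - N) := by
    intro N
    induction N with
    | zero => simp
    | succ N ih =>
      rw [ih, shift_aux h d hd N m, if_neg (by omega), zero_mul, sub_zero]
      push_cast
      rfl
  have r2 : coef a b 0 * a * d m = 0 := by
    have t1 := tendsto_zero_of_bounded_mul (tendsto_coef h) a (g := fun n : ℕ => d (m - n))
      (M := M) (fun n => hM _)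
    have t2 : Tendsto (fun _ : ℕ => coef a b 0 * a * d m) atTop (𝓝 0) :=
      t1.congr fun N => (r1 N).symm
    exact tendsto_nhds_unique tendsto_const_nhds t2
  have l1 : ∀ N : ℕ, coef a b (-1) * a * d (m + 1)
      = coef a b (-(N + 1 : ℕ)) * a * d (m + (N + 1 : ℕ)) := by
    intro N
    induction N with
    | zero => simp
    | succ N ih =>
      rw [ih]
      have := shift_aux h d hd (-(N + 1 + 1 : ℕ)) m
      have e1 : (-(N + 1 + 1 : ℕ) + 1 : ℤ) = -(N + 1 : ℕ) := by push_cast; ring
      rw [e1, if_neg (by omega), zero_mul, sub_zero, sub_neg_eq_add, sub_neg_eq_add] at this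
      exact this.symm
  have l2 : coef a b (-1) * a * d (m + 1) = 0 := by
    have t0 : Tendsto (fun n : ℕ => coef a b (-(n + 1 : ℕ))) atTop (𝓝 0) :=
      (tendsto_coef_neg a b).comp (tendsto_add_atTop_nat 1)
    have t1 := tendsto_zero_of_bounded_mul t0 a (g := fun n : ℕ => d (m + (n + 1 : ℕ)))
      (M := M) (fun n => hM _)
    have t2 : Tendsto (fun _ : ℕ => coef a b (-1) * a * d (m + 1)) atTop (𝓝 0) :=
      t1.congr fun N => (l1 N).symm
    exact tendsto_nhds_unique tendsto_const_nhds t2
  have := shift_aux h d hd (-1) m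
  simp only [neg_add_cancel, if_true, sub_neg_eq_add, sub_zero, one_mul] at this
  rw [l2, r2, zero_sub] at this
  exact neg_eq_zero.mp this.symm

/-- The Fourier coefficients are the unique bounded solution of the left recursion. -/
theorem coef_unique (h : IsPencil a b) (c : ℤ → A)
    (hc : ∀ k, a * c k + b * c (k - 1) = if k = 0 then 1 else 0) {M : ℝ} (hM : ∀ k, ‖c k‖ ≤ M)
    (k : ℤ) : c k = coef a b k := by
  obtain ⟨M', _, hM'⟩ := exists_bound h
  have := eq_zero_of_recursion h (fun k => c k - coef a b k) (by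
    intro k
    have h1 := hc k
    have h2 := coef_left h k
    have e : a * (c k - coef a b k) + b * (c (k - 1) - coef a b (k - 1))
      = (a * c k + b * c (k - 1)) - (a * coef a b k + b * coef a b (k - 1)) := by noncomm_ring
    simp only [e, h1, h2, sub_self]) (M := M + M') (by
    intro k
    exact (norm_sub_le _ _).trans (add_le_add (hM k) (hM' k))) k
  exact sub_eq_zero.mp this

/-- Two-sided multiplication of the pencil by units. -/
theorem isPencil_conj (h : IsPencil a b) (u v : Aˣ) :
    IsPencil ((u : A) * a * v) ((u : A) * b * v) := by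
  intro z hz
  obtain ⟨w, hw⟩ := h z hz
  refine ⟨u * w * v, ?_⟩
  simp only [Units.val_mul, hw, mul_add, add_mul, mul_smul_comm, smul_mul_assoc]

theorem coef_conj (h : IsPencil a b) (u v : Aˣ) (k : ℤ) :
    coef ((u : A) * a * v) ((u : A) * b * v) k
      = ((v⁻¹ : Aˣ) : A) * coef a b k * ((u⁻¹ : Aˣ) : A) := by
  obtain ⟨M, hM0, hM⟩ := exists_bound h
  refine (coef_unique (isPencil_conj h u v)
    (fun k => ((v⁻¹ : Aˣ) : A) * coef a b k * ((u⁻¹ : Aˣ) : A)) ?_
    (M := ‖((v⁻¹ : Aˣ) : A)‖ * M * ‖((u⁻¹ : Aˣ) : A)‖) ?_ k).symm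
  · intro k
    have e : (u : A) * a * v * (((v⁻¹ : Aˣ) : A) * coef a b k * ((u⁻¹ : Aˣ) : A)) +
        (u : A) * b * v * (((v⁻¹ : Aˣ) : A) * coef a b (k - 1) * ((u⁻¹ : Aˣ) : A))
        = (u : A) * (a * ((v : A) * ((v⁻¹ : Aˣ) : A)) * coef a b k
          + b * ((v : A) * ((v⁻¹ : Aˣ) : A)) * coef a b (k - 1)) * ((u⁻¹ : Aˣ) : A) := by
      noncomm_ring
    rw [e, Units.mul_inv, mul_one, mul_one, coef_left h]
    split_ifs <;> simp
  · intro k
    calc _ ≤ ‖((v⁻¹ : Aˣ) : A) * coef a b k‖ * ‖((u⁻¹ : Aˣ) : A)‖ := norm_mul_le _ _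
      _ ≤ (‖((v⁻¹ : Aˣ) : A)‖ * ‖coef a b k‖) * ‖((u⁻¹ : Aˣ) : A)‖ := by
        gcongr
        exact norm_mul_le _ _
      _ ≤ _ := by
        gcongr
        exact hM k

/-- The idempotent of `(u a v, u b v)` is `v⁻¹ P v`. -/
theorem proj_conj (h : IsPencil a b) (u v : Aˣ) :
    proj ((u : A) * a * v) ((u : A) * b * v) = ((v⁻¹ : Aˣ) : A) * proj a b * v := by
  unfold proj
  rw [coef_conj h]
  have e : ((v⁻¹ : Aˣ) : A) * coef a b (-1) * ((u⁻¹ : Aˣ) : A) * ((u : A) * b * v)
      = ((v⁻¹ : Aˣ) : A) * coef a b (-1) * (((u⁻¹ : Aˣ) : A) * (u : A)) * b * v := by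
    noncomm_ring
  rw [e, Units.inv_mul]
  noncomm_ring

/-- The pencil `(1 - e) + z e`. -/
theorem isPencil_idem {e : A} (he : IsIdempotentElem e) : IsPencil (1 - e) e := by
  intro z hz
  have hz0 : z ≠ 0 := by
    intro h0
    rw [h0, norm_zero] at hz
    exact zero_ne_one hz
  have key : ∀ x y : ℂ, ((1 - e) + x • e) * ((1 - e) + y • e) = (1 - e) + (x * y) • e := by
    intro x y
    have h1 : (1 - e) * (1 - e) = 1 - e := he.one_sub
    have h2 : (1 - e) * e = 0 := by rw [sub_mul, one_mul, he.eq, sub_self]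
    have h3 : e * (1 - e) = 0 := by rw [mul_sub, mul_one, he.eq, sub_self]
    rw [mul_add, add_mul, add_mul, h1, smul_mul_assoc, h3, smul_zero, add_zero, mul_smul_comm, h2,
      smul_zero, zero_add, smul_mul_assoc, mul_smul_comm, he.eq, smul_smul]
  refine ⟨⟨(1 - e) + z • e, (1 - e) + z⁻¹ • e, ?_, ?_⟩, rfl⟩
  · rw [key, mul_inv_cancel₀ hz0, one_smul]
    abel
  · rw [key, inv_mul_cancel₀ hz0, one_smul]
    abel

theorem proj_idem {e : A} (he : IsIdempotentElem e) : proj (1 - e) e = e := by
  have h := isPencil_idem he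
  have := coef_unique h (fun k : ℤ => if k = 0 then 1 - e else if k = -1 then e else 0) (by
    intro k
    have h1 : (1 - e) * (1 - e) = 1 - e := he.one_sub
    have h2 : (1 - e) * e = 0 := by rw [sub_mul, one_mul, he.eq, sub_self]
    have h3 : e * (1 - e) = 0 := by rw [mul_sub, mul_one, he.eq, sub_self]
    rcases eq_or_ne k 0 with hk | hk
    · subst hk
      simp [h1, he.eq]
    · rcases eq_or_ne k 1 with hk1 | hk1
      · subst hk1
        simp [h3]
      · rcases eq_or_ne k (-1) with hk2 | hk2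
        · subst hk2
          simp [h2]
        · have e1 : k - 1 ≠ 0 := by omega
          have e2 : k - 1 ≠ -1 := by omega
          simp [hk, hk2, e1, e2]) (M := max ‖1 - e‖ ‖e‖) (by
    intro k
    split_ifs
    · exact le_max_left _ _
    · exact le_max_right _ _
    · rw [norm_zero]
      exact le_max_of_le_left (norm_nonneg _)) (-1)
  unfold proj
  rw [← this]
  simp [he.eq]

theorem proj_zero_right : proj a 0 = 0 := by
  unfold proj
  rw [mul_zero]

theorem isPencil_zero_left (hb : IsUnit b) : IsPencil 0 b := by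
  intro z hz
  have hz0 : z ≠ 0 := by
    intro h0
    rw [h0, norm_zero] at hz
    exact zero_ne_one hz
  rw [zero_add]
  obtain ⟨u, rfl⟩ := hb
  exact ⟨⟨z • (u : A), z⁻¹ • ((u⁻¹ : Aˣ) : A), by simp [smul_smul, hz0], by simp [smul_smul, hz0]⟩,
    rfl⟩

theorem proj_zero_left (hb : IsUnit b) : proj 0 b = 1 := by
  have h := isPencil_zero_left hb
  have := coef_left h 0
  simp only [zero_mul, zero_add, zero_sub, if_true] at this
  have h2 := coef_right h 0
  simp only [mul_zero, zero_add, zero_sub, if_true] at h2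
  exact h2

end basic

section map

variable {B : Type*} [NormedRing B] [NormedAlgebra ℂ B] [CompleteSpace A] [CompleteSpace B]
  {a b : A}

omit [CompleteSpace A] [CompleteSpace B] in
theorem isPencil_map (h : IsPencil a b) (φ : A →ₐ[ℂ] B) : IsPencil (φ a) (φ b) := by
  intro z hz
  have := (h z hz).map φ
  simpa using this

/-- Naturality under bounded algebra homomorphisms. -/
theorem coef_map (h : IsPencil a b) (φ : A →ₐ[ℂ] B) (hφ : Continuous φ) (k : ℤ) :
    φ (coef a b k) = coef (φ a) (φ b) k := by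
  obtain ⟨M, hM0, hM⟩ := exists_bound h
  let ψ : A →L[ℂ] B := ⟨φ.toLinearMap, hφ⟩
  have hψ : ∀ x, ψ x = φ x := fun _ => rfl
  refine coef_unique (isPencil_map h φ) (fun k => φ (coef a b k)) ?_ (M := ‖ψ‖ * M) ?_ k
  · intro k
    rw [← map_mul, ← map_mul, ← map_add, coef_left h]
    split_ifs <;> simp
  · intro k
    have := ψ.le_opNorm (coef a b k)
    rw [hψ] at this
    exact this.trans (by gcongr; exact hM k)

theorem proj_map (h : IsPencil a b) (φ : A →ₐ[ℂ] B) (hφ : Continuous φ) :
    φ (proj a b) = proj (φ a) (φ b) := by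
  unfold proj
  rw [map_mul, coef_map h φ hφ]

end map

/-! ### (B0) close idempotents are conjugate -/

section B0

variable [CompleteSpace A]

omit [NormedAlgebra ℂ A] [CompleteSpace A] in
/-- If `w = f e + (1 - f) (1 - e)` then `f w = w e`. -/
theorem intertwine {e f : A} (he : IsIdempotentElem e) (hf : IsIdempotentElem f) :
    f * (f * e + (1 - f) * (1 - e)) = (f * e + (1 - f) * (1 - e)) * e := by
  have h1 : f * (1 - f) = 0 := by rw [mul_sub, mul_one, hf.eq, sub_self]
  have h2 : (1 - e) * e = 0 := by rw [sub_mul, one_mul, he.eq, sub_self]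
  rw [mul_add, ← mul_assoc, hf.eq, ← mul_assoc f, h1, zero_mul, add_zero, add_mul, mul_assoc f e e,
    he.eq, mul_assoc, h2, mul_zero, add_zero]

omit [NormedAlgebra ℂ A] in
/-- Close idempotents are conjugate by a unit: `f = w e w⁻¹`. -/
theorem exists_unit_conj_of_norm {e f : A} (he : IsIdempotentElem e) (hf : IsIdempotentElem f)
    (hn : ‖(f - e) * (2 * e - 1)‖ < 1) :
    ∃ w : Aˣ, (w : A) = f * e + (1 - f) * (1 - e) ∧ f = w * e * ((w⁻¹ : Aˣ) : A) := by
  have hw : f * e + (1 - f) * (1 - e) = 1 - (-((f - e) * (2 * e - 1))) := by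
    have h1 := he.eq
    have : (f - e) * (2 * e - 1) = 2 * (f * e) - f - 2 * (e * e) + e := by noncomm_ring
    rw [this, h1]
    noncomm_ring
  have hn' : ‖-((f - e) * (2 * e - 1))‖ < 1 := by rwa [norm_neg]
  refine ⟨Units.oneSub _ hn', ?_, ?_⟩
  · rw [Units.val_oneSub, hw]
  · have h2 := intertwine he hf
    have h3 : ((Units.oneSub _ hn' : Aˣ) : A) = f * e + (1 - f) * (1 - e) := by
      rw [Units.val_oneSub, hw]
    rw [Units.eq_mul_inv_iff_mul_eq, h3, h2]

end B0


end

end Crest.Agent.R204.BottPencil313
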