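import Crest.Agent.R204.BottDense_671

/-!
# Surjectivity half of Bott periodicity (statement (S))
-/

set_option autoImplicit false
set_option linter.unusedSectionVars false

open Filter Topology Polynomial Matrix

namespace Crest.Agent.R204.Bott671

section ball

variable {S : Type*} [NormedCommRing S] [NormedAlgebra ℂ S] [CompleteSpace S]
  {ι : Type} [Fintype ι] [DecidableEq ι]

theorem dist_fun_lt (f g : ι → ι → S) {δ : ℝ} (hδ : 0 < δ) (h : ∀ i j, ‖g i j - f i j‖ < δ) :
    dist f g < δ := by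
  rw [dist_comm, dist_pi_lt_iff hδ]
  intro i
  rw [dist_pi_lt_iff hδ]
  intro j
  rw [dist_eq_norm]
  exact h i j

theorem exists_ball {u : Matrix ι ι S} (hu : IsUnit u) :
    ∃ δ > 0, ∀ v : Matrix ι ι S, (∀ i j, ‖u i j - v i j‖ < δ) → IsUnit v := by
  have h1 : IsOpen (Set.range (Units.val : (Matrix ι ι S)ˣ → Matrix ι ι S)) :=
    (Crest.Agent.R204.Ex837.isOpenEmbedding_val_matrix ι S).isOpen_range
  have h2 : IsOpen (Set.range (Units.val : (Matrix ι ι S)ˣ → Matrix ι ι S) : Set (ι → ι → S)) := h1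
  obtain ⟨δ, hδ, hb⟩ := Metric.isOpen_iff.1 h2 u hu
  exact ⟨δ, hδ, fun v hv => hb (dist_fun_lt v u hδ hv)⟩

theorem isUnit_segment {δ : ℝ} {u v : Matrix ι ι S}
    (h : ∀ v : Matrix ι ι S, (∀ i j, ‖u i j - v i j‖ < δ) → IsUnit v)
    (hv : ∀ i j, ‖u i j - v i j‖ < δ) {t : ℝ} (ht : t ∈ Set.Icc (0:ℝ) 1) :
    IsUnit ((1 - (t : ℂ)) • u + (t : ℂ) • v) := by
  refine h _ fun i j => ?_
  have : u i j - ((1 - (t : ℂ)) • u + (t : ℂ) • v) i j = (t : ℂ) • (u i j - v i j) := by
    simp only [Matrix.add_apply, Matrix.smul_apply]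
    rw [sub_smul, one_smul, smul_sub]
    abel
  rw [this, norm_smul, Complex.norm_real, Real.norm_of_nonneg ht.1]
  calc t * ‖u i j - v i j‖ ≤ 1 * ‖u i j - v i j‖ := by
        gcongr
        exact ht.2
    _ < δ := by rw [one_mul]; exact hv i j

theorem conn_of_close {δ : ℝ} {u v : Matrix ι ι S}
    (h : ∀ v : Matrix ι ι S, (∀ i j, ‖u i j - v i j‖ < δ) → IsUnit v)
    (hv : ∀ i j, ‖u i j - v i j‖ < δ) : Conn u v := by
  have h0 : (1 - ((0 : ℝ) : ℂ)) • u + ((0 : ℝ) : ℂ) • v = u := by simp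
  have h1 : (1 - ((1 : ℝ) : ℂ)) • u + ((1 : ℝ) : ℂ) • v = v := by simp
  have := Conn.of_real (F := fun t : ℝ => (1 - (t : ℂ)) • u + (t : ℂ) • v) ?_
    (fun t ht => isUnit_segment h hv ht)
  · rwa [h0, h1] at this
  · exact ((continuous_const.sub Complex.continuous_ofReal).smul continuous_const).add
      (Complex.continuous_ofReal.smul continuous_const)

end ball

section

variable {R : Type*} [NormedCommRing R] [NormedAlgebra ℂ R] [CompleteSpace R]
  {ι κ : Type} [Fintype ι] [DecidableEq ι] [Fintype κ] [DecidableEq κ]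

/-- Matrix version of density, with a common power of `z`. -/
theorem exists_laurentM (F : Matrix ι κ C(Circle, R)) {ε : ℝ} (hε : 0 < ε) :
    ∃ (N : ℕ) (p : Matrix ι κ R[X]), ∀ i j, ‖F i j - zi ^ N * loop (p i j)‖ < ε := by
  choose N p hp using fun i j => exists_laurent (F i j) hε
  let M : ℕ := Finset.univ.sup fun i => Finset.univ.sup fun j => N i j
  have hM : ∀ i j, N i j ≤ M := fun i j =>
    (Finset.le_sup (f := fun j => N i j) (Finset.mem_univ j)).trans
      (Finset.le_sup (f := fun i => Finset.univ.sup fun j => N i j) (Finset.mem_univ i))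
  refine ⟨M, fun i j => X ^ (M - N i j) * p i j, fun i j => ?_⟩
  have h1 : (zi : C(Circle, R)) ^ M * loop (X ^ (M - N i j) * p i j) = zi ^ (N i j) * loop (p i j) := by
    have h2 : (zi : C(Circle, R)) ^ M = zi ^ (M - N i j) * zi ^ N i j := by
      rw [← pow_add, Nat.sub_add_cancel (hM i j)]
    rw [map_mul, map_pow, loop_X, h2]
    rw [show (zi : C(Circle, R)) ^ (M - N i j) * zi ^ N i j * (zc ^ (M - N i j) * loop (p i j))
      = (zi ^ (M - N i j) * zc ^ (M - N i j)) * (zi ^ N i j * loop (p i j)) by ring,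
      zi_pow_mul_zc_pow, one_mul]
  rw [h1]
  exact hp i j

/-- Evaluation of polynomials at a scalar loop. -/
noncomputable def loopAt (s : C(Circle, R)) : R[X] →+* C(Circle, R) :=
  Polynomial.eval₂RingHom (ContinuousMap.C (α := Circle)) s

theorem loopAt_zc : (loopAt (zc : C(Circle, R))) = loop := rfl

theorem loopAt_zero (p : R[X]) : loopAt (0 : C(Circle, R)) p = ContinuousMap.C (p.eval 0) := by
  simp [loopAt, Polynomial.eval₂_at_zero, Polynomial.coeff_zero_eq_eval_zero]

theorem continuous_loopAt (p : R[X]) : Continuous fun t : ℝ => loopAt ((t : ℂ) • (zc : C(Circle, R))) p := by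
  have h1 : Continuous fun t : ℝ => ((t : ℂ) • (zc : C(Circle, R))) :=
    Complex.continuous_ofReal.smul continuous_const
  exact (Polynomial.continuous_eval₂ p _).comp h1

/-- An invertible polynomial matrix equal to `1` at `0` is joined to `1`. -/
theorem conn_one_loopM {W : Matrix ι ι R[X]} (hW : IsUnit W) (h0 : W.map (fun q => q.eval 0) = 1) :
    Conn 1 (loopM W) := by
  have e0 : W.map (loopAt (((0 : ℝ) : ℂ) • (zc : C(Circle, R)))) = 1 := by
    ext i j : 2
    have := congrFun (congrFun h0 i) j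
    simp only [Matrix.map_apply] at this
    simp only [Complex.ofReal_zero, zero_smul, Matrix.map_apply, loopAt_zero, this]
    by_cases hij : i = j
    · subst hij; simp
    · simp [Matrix.one_apply_ne hij]
  have e1 : W.map (loopAt (((1 : ℝ) : ℂ) • (zc : C(Circle, R)))) = loopM W := by
    ext i j : 2
    simp [loopM, loopAt_zc]
  have := Conn.of_real (F := fun t : ℝ => W.map (loopAt ((t : ℂ) • (zc : C(Circle, R))))) ?_
    (fun t _ => hW.map (loopAt ((t : ℂ) • (zc : C(Circle, R)))).mapMatrix)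
  · rwa [e0, e1] at this
  · exact continuous_matrix fun i j => continuous_loopAt (W i j)

theorem Lam_conj (P u u' : Matrix ι ι R) (h : u' * u = 1) :
    cM u * Lam P = Lam (u * P * u') * cM u := by
  have h1 : cM u' * cM u = 1 := by rw [← cM_mul, h, cM_one]
  rw [Lam, Lam, mul_add, add_mul, mul_smul_comm, smul_mul_assoc, cM_mul, cM_mul, mul_assoc, mul_assoc,
    h1, mul_one, ← cM_mul, ← cM_mul, ← cM_mul]
  congr 2
  rw [mul_sub, mul_one, sub_mul, one_mul, mul_assoc (u * P), h, mul_one]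

theorem cM_eval_zero_mul {l : Type} [Fintype l] (p : Matrix ι κ R[X]) (q : Matrix κ l R[X]) :
    (p * q).map (fun r => r.eval 0) = p.map (fun r => r.eval 0) * q.map (fun r => r.eval 0) := by
  exact Matrix.map_mul (f := Polynomial.evalRingHom (0 : R))

theorem map_C_eval_zero (a : Matrix ι κ R) :
    (a.map (C : R →+* R[X])).map (fun r => r.eval 0) = a := by
  ext i j
  simp

/-- A polynomial loop is, stably, joined to `(zP + 1 - P) c`. -/
theorem conn_poly {q : Matrix ι ι R[X]} (hq : IsUnit (loopM q)) :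
    ∃ (α : Type) (_ : Fintype α) (_ : DecidableEq α) (P c : Matrix (ι ⊕ α) (ι ⊕ α) R),
      P * P = P ∧ IsUnit c ∧ Conn (fromBlocks (loopM q) 0 0 1) (Lam P * cM c) := by
  obtain ⟨κ, _, _, a, b, α, β, _, _, _, _, h⟩ := exists_pencil q
  -- move the pencil to the index type `ι ⊕ α`
  have hab : fromBlocks (ppl a b) 0 0 (1 : Matrix β β R[X])
      = ppl (fromBlocks a 0 0 1) (fromBlocks b 0 0 0) := by
    simp only [ppl, fromBlocks_map, fromBlocks_smul, fromBlocks_add]
    simp
  rw [gpl_eq_ppl, hab] at h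
  set a' := fromBlocks a 0 0 (1 : Matrix β β R)
  set b' := fromBlocks b 0 0 (0 : Matrix β β R)
  obtain ⟨E, F, E', F', h1, h2, h3, h4, h5⟩ := h
  let E0 := E.map (fun r => r.eval 0)
  let E0' := E'.map (fun r => r.eval 0)
  let F0 := F.map (fun r => r.eval 0)
  let F0' := F'.map (fun r => r.eval 0)
  have one_eval : ∀ {l : Type} [Fintype l] [DecidableEq l],
      (1 : Matrix l l R[X]).map (fun r => r.eval 0) = 1 := by
    intro l _ _
    ext i j
    by_cases hij : i = j
    · subst hij; simp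
    · simp [Matrix.one_apply_ne hij]
  have k1 : E0' * E0 = 1 := by
    simp only [E0, E0']; rw [← cM_eval_zero_mul, h1, one_eval]
  have k2 : E0 * E0' = 1 := by
    simp only [E0, E0']; rw [← cM_eval_zero_mul, h2, one_eval]
  have k3 : F0' * F0 = 1 := by
    simp only [F0, F0']; rw [← cM_eval_zero_mul, h3, one_eval]
  have k4 : F0 * F0' = 1 := by
    simp only [F0, F0']; rw [← cM_eval_zero_mul, h4, one_eval]
  let CC : ∀ {l m : Type}, Matrix l m R → Matrix l m R[X] := fun x => x.map (C : R →+* R[X])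
  have hCC : ∀ {l m n : Type} [Fintype m] (x : Matrix l m R) (y : Matrix m n R),
      CC (x * y) = CC x * CC y := by
    intro l m n _ x y
    exact Matrix.map_mul
  have hCC1 : ∀ {l : Type} [Fintype l] [DecidableEq l], CC (1 : Matrix l l R) = 1 := by
    intro l _ _
    simp [CC]
  let a2 := E0' * a' * F0
  let b2 := E0' * b' * F0
  have hppl : ppl a2 b2 = CC E0' * ppl a' b' * CC F0 := by
    simp only [ppl, a2, b2, Matrix.mul_add, Matrix.add_mul, Matrix.mul_smul, Matrix.smul_mul]
    have e1 : (E0' * a' * F0).map (C : R →+* R[X]) = CC E0' * a'.map (C : R →+* R[X]) * CC F0 := by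
      rw [Matrix.map_mul, Matrix.map_mul]
    have e2 : (E0' * b' * F0).map (C : R →+* R[X]) = CC E0' * b'.map (C : R →+* R[X]) * CC F0 := by
      rw [Matrix.map_mul, Matrix.map_mul]
    rw [e1, e2]
  -- the two polynomial factors
  let W1 := E' * CC E0
  let W2 := CC F0' * F
  have hW : W1 * ppl a2 b2 * W2 = fromBlocks q 0 0 (1 : Matrix α α R[X]) := by
    rw [hppl]
    calc E' * CC E0 * (CC E0' * ppl a' b' * CC F0) * (CC F0' * F)
        = E' * (CC E0 * CC E0') * ppl a' b' * (CC F0 * CC F0') * F := by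
          simp only [Matrix.mul_assoc]
      _ = E' * ppl a' b' * F := by
          rw [← hCC, ← hCC, k2, k4, hCC1, Matrix.mul_one, Matrix.mul_one]
      _ = E' * (ppl a' b' * F) := by rw [Matrix.mul_assoc]
      _ = (E' * E) * fromBlocks q 0 0 1 := by rw [← h5, Matrix.mul_assoc]
      _ = _ := by rw [h1, Matrix.one_mul]
  have hW1u : IsUnit W1 := by
    have e : W1 * (CC E0' * E) = 1 := by
      calc E' * CC E0 * (CC E0' * E) = E' * (CC E0 * CC E0') * E := by simp only [Matrix.mul_assoc]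
        _ = 1 := by rw [← hCC, k2, hCC1, Matrix.mul_one, h1]
    exact ⟨⟨W1, _, e, mul_eq_one_comm.1 e⟩, rfl⟩
  have hW2u : IsUnit W2 := by
    have e : W2 * (F' * CC F0) = 1 := by
      calc CC F0' * F * (F' * CC F0) = CC F0' * (F * F') * CC F0 := by simp only [Matrix.mul_assoc]
        _ = 1 := by rw [h4, Matrix.mul_one, ← hCC, k3, hCC1]
    exact ⟨⟨W2, _, e, mul_eq_one_comm.1 e⟩, rfl⟩
  have hW1z : W1.map (fun r => r.eval 0) = 1 := by
    simp only [W1]
    rw [cM_eval_zero_mul, map_C_eval_zero]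
    exact k1
  have hW2z : W2.map (fun r => r.eval 0) = 1 := by
    simp only [W2]
    rw [cM_eval_zero_mul, map_C_eval_zero]
    exact k3
  have hq1 : IsUnit (loopM (fromBlocks q 0 0 (1 : Matrix α α R[X]))) := by
    rw [loopM_blocks, loopM_zero, loopM_zero, loopM_one]
    exact isUnit_fromBlocks_diag hq isUnit_one
  have hpl : loopM W1 * pl a2 b2 * loopM W2 = fromBlocks (loopM q) 0 0 1 := by
    rw [← loopM_ppl, ← loopM_mul, ← loopM_mul, hW, loopM_blocks, loopM_zero, loopM_zero, loopM_one]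
  have hu1 : IsUnit (loopM W1) := (conn_one_loopM hW1u hW1z).right
  have hu2 : IsUnit (loopM W2) := (conn_one_loopM hW2u hW2z).right
  have hplu : IsUnit (pl a2 b2) := by
    have h6 : IsUnit (loopM W1 * pl a2 b2 * loopM W2) := by
      rw [hpl]
      exact isUnit_fromBlocks_diag hq isUnit_one
    rw [Matrix.isUnit_iff_isUnit_det] at h6 ⊢
    rw [Matrix.det_mul, Matrix.det_mul] at h6
    exact isUnit_of_mul_isUnit_right (isUnit_of_mul_isUnit_left h6)
  let p := Pen.ofUnit a2 b2 hplu
  have c1 : Conn (cM p.u * Lam p.P) (pl a2 b2) := p.conn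
  have c2 : Conn (pl a2 b2) (fromBlocks (loopM q) 0 0 1) := by
    have := ((conn_one_loopM hW1u hW1z).mul (Conn.refl hplu)).mul (conn_one_loopM hW2u hW2z)
    rwa [Matrix.one_mul, Matrix.mul_one, hpl] at this
  refine ⟨α, inferInstance, inferInstance, p.u * p.P * (p.c (-1) + p.c 0), p.u, ?_, p.isUnit_u, ?_⟩
  · calc p.u * p.P * (p.c (-1) + p.c 0) * (p.u * p.P * (p.c (-1) + p.c 0))
        = p.u * p.P * ((p.c (-1) + p.c 0) * p.u) * p.P * (p.c (-1) + p.c 0) := by
          simp only [Matrix.mul_assoc]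
      _ = p.u * (p.P * p.P) * (p.c (-1) + p.c 0) := by
          rw [p.mul_u, Matrix.mul_one, Matrix.mul_assoc p.u]
      _ = _ := by rw [p.P_mul_P]
  · rw [← Lam_conj _ _ _ p.mul_u]
    exact (c1.trans c2).symm

/-- **(S)** Every unit loop is, after multiplication by `z ^ N` and stabilisation, joined to
`(z P + 1 - P) c`. -/
theorem bott_surj {u : Matrix ι ι C(Circle, R)} (hu : IsUnit u) :
    ∃ (N : ℕ) (α : Type) (_ : Fintype α) (_ : DecidableEq α) (P c : Matrix (ι ⊕ α) (ι ⊕ α) R),
      P * P = P ∧ IsUnit c ∧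
      Conn (fromBlocks ((zc : C(Circle, R)) ^ N • u) 0 0 1) (Lam P * cM c) := by
  obtain ⟨δ, hδ, hball⟩ := exists_ball hu
  obtain ⟨N, q, hq⟩ := exists_laurentM u hδ
  have c1 : Conn u ((zi : C(Circle, R)) ^ N • loopM q) :=
    conn_of_close hball fun i j => by
      simpa [loopM] using hq i j
  have hz : IsUnit (((zc : C(Circle, R)) ^ N) • (1 : Matrix ι ι C(Circle, R))) := by
    rw [Matrix.isUnit_iff_isUnit_det, Matrix.det_smul, Matrix.det_one, mul_one]
    exact (isUnit_zc.pow _).pow _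
  have c2 := (Conn.refl hz).mul c1
  rw [smul_mul_assoc, one_mul, smul_mul_assoc, one_mul, smul_smul, mul_comm,
    zi_pow_mul_zc_pow, one_smul] at c2
  obtain ⟨α, i1, i2, P, c, hP, hc, h⟩ := conn_poly c2.right
  refine ⟨N, α, i1, i2, P, c, hP, hc, ?_⟩
  exact (c2.blocks (Conn.refl (isUnit_one (M := Matrix α α C(Circle, R))))).trans h

end

end Crest.Agent.R204.Bott671
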