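import Crest.Agent.R204.PFib_170
import Crest.Agent.R204.Coalg_847
import Crest.Agent.R204.SpecA_334

/-!
# Row 204, block B, leaf P2: homology of the Cech columns `E_p` (helper170)

`br p : (Fin p → H G) → H (E_p)`, recursively `br (p+1) a = alpha_* (a_0 × br p (tail a))`.
-/

set_option autoImplicit false

namespace Crest.Agent.R204.Bar170

open Crest.Agent.R204 Crest.Agent.R204.Bis343 Crest.Agent.R204.SingAct265 Crest.Agent.R204.Coalg847
open TensorProduct

/-! ## homotopies -/

theorem map_eq_of_htpy (hi : SpecA.HomotopyInv) {K L : SS} {f g : SS.Hom K L} (h : Htpy f g) :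
    H.map F2 f = H.map F2 g := by
  have h0 : SS.Hom.comp h.h (SpecA.endMap K 0) = f := SS.Hom.ext (funext fun n => funext fun x => h.zero n x)
  have h1 : SS.Hom.comp h.h (SpecA.endMap K 1) = g := SS.Hom.ext (funext fun n => funext fun x => h.one n x)
  have := hi F2 K L h.h
  rw [h0, h1] at this
  exact this

/-- pairing a homotopy with a fixed map -/
def htpyPair {J K L : SS} {f g : SS.Hom J K} (H : Htpy f g) (u : SS.Hom J L) :
    Htpy (SS.pair f u) (SS.pair g u) where
  h := SS.pair H.h (u.comp (SS.fst J (SS.std 1)))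
  zero n x := Prod.ext (H.zero n x) rfl
  one n x := Prod.ext (H.one n x) rfl

/-- homotopies over the base: precomposition -/
def HtpyOver.pre {J K L B : SS} {π : SS.Hom L B} {f g : SS.Hom K L} (H : HtpyOver π f g) (k : SS.Hom J K) :
    HtpyOver π (f.comp k) (g.comp k) where
  toHtpy := H.toHtpy.pre k
  ov n x t := H.ov n (k.app n x) t

/-- homotopy in the zeroth entry -/
def consHtpy {P B : SS} {π : SS.Hom P B} {J : SS} {p : ℕ} (u : SS.Hom J ((cech π).col p))
    {v w : SS.Hom J P} (H : HtpyOver π v w)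
    (hv : ∀ q x, π.app q (v.app q x) = π.app q ((u.app q x).1 0))
    (hw : ∀ q x, π.app q (w.app q x) = π.app q ((u.app q x).1 0)) :
    Htpy (consE π u v hv) (consE π u w hw) where
  h := consE π (u.comp (SS.fst J (SS.std 1))) H.h (fun q x => by
    have := H.ov q x.1 x.2
    rw [hv] at this
    exact this)
  zero n x := by
    refine E_ext fun i => ?_
    refine Fin.cases ?_ (fun i => ?_) i
    · exact H.zero n x
    · rfl
  one n x := by
    refine E_ext fun i => ?_
    refine Fin.cases ?_ (fun i => ?_) i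
    · exact H.one n x
    · rfl

theorem map_comp' {J K L : SS} (g : SS.Hom K L) (f : SS.Hom J K) (x : H F2 J) :
    H.map F2 g (H.map F2 f x) = H.map F2 (g.comp f) x := (hMap_comp g f x).symm

namespace PFib

variable (X : PFib) (hi : SpecA.HomotopyInv)

/-! ## `alpha` is an isomorphism in homology -/

theorem beta_alpha (p : ℕ) : (X.beta p).comp (X.alpha p) =
    SS.pair ((X.dif.comp (pairE (f := X.π) X.cat (SS.snd X.G X.P) (fun q x => X.π_cat q x.1 x.2))).comp
      (SS.prodMap (SS.Hom.id X.G) (evc X.π p 0))) (SS.snd X.G (X.E p)) := by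
  refine SS.Hom.ext (funext fun q => funext fun x => ?_)
  refine Prod.ext ?_ ?_
  · show X.dif.app q _ = X.dif.app q _
    congr 1
    refine E_ext fun i => ?_
    fin_cases i <;> rfl
  · exact X.face_zero_alpha p q x.1 x.2

theorem alpha_beta (p : ℕ) : (X.alpha p).comp (X.beta p) =
    consE X.π ((cech X.π).colMap (Op.face 0))
      ((X.cat.comp (SS.pair X.dif (evc X.π 1 1))).comp
        (⟨fun _ x => ⟨fun i => x.1 (Fin.castLE (by omega) i), fun _ _ => x.2 _ _⟩,
          fun _ _ => rfl⟩ : SS.Hom (X.E (p + 1)) (X.E 1)))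
      (fun q x => (X.π_cat q _ _).trans (x.2 _ _)) := by
  refine SS.Hom.ext (funext fun q => funext fun x => ?_)
  refine E_ext fun i => ?_
  refine Fin.cases ?_ (fun i => ?_) i
  · show X.cat.app q (_, x.1 (Op.face 0 0)) = X.cat.app q (_, x.1 (Fin.castLE _ 1))
    congr 2
  · rfl

theorem id_eq_consE (p : ℕ) : SS.Hom.id (X.E (p + 1)) =
    consE X.π ((cech X.π).colMap (Op.face 0))
      ((evc X.π 1 0).comp
        (⟨fun _ x => ⟨fun i => x.1 (Fin.castLE (by omega) i), fun _ _ => x.2 _ _⟩,
          fun _ _ => rfl⟩ : SS.Hom (X.E (p + 1)) (X.E 1)))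
      (fun q x => x.2 _ _) := by
  refine SS.Hom.ext (funext fun q => funext fun x => ?_)
  refine E_ext fun i => ?_
  refine Fin.cases ?_ (fun i => ?_) i
  · rfl
  · show x.1 i.succ = x.1 (Op.face 0 i)
    rw [Cech.face_zero_val]

include hi in
theorem map_beta_alpha (p : ℕ) (y : H F2 (X.G.prod (X.E p))) :
    H.map F2 (X.beta p) (H.map F2 (X.alpha p) y) = y := by
  rw [map_comp', X.beta_alpha p]
  have h := htpyPair (X.h2.pre (SS.prodMap (SS.Hom.id X.G) (evc X.π p 0))) (SS.snd X.G (X.E p))
  rw [map_eq_of_htpy hi h]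
  exact hMap_id y

include hi in
theorem map_alpha_beta (p : ℕ) (y : H F2 (X.E (p + 1))) :
    H.map F2 (X.alpha p) (H.map F2 (X.beta p) y) = y := by
  rw [map_comp', X.alpha_beta p]
  have h := consHtpy ((cech X.π).colMap (Op.face 0)) (X.h1.pre
    (⟨fun _ x => ⟨fun i => x.1 (Fin.castLE (by omega) i), fun _ _ => x.2 _ _⟩,
          fun _ _ => rfl⟩ : SS.Hom (X.E (p + 1)) (X.E 1)))
    (fun q x => (X.π_cat q _ _).trans (x.2 _ _)) (fun q x => x.2 _ _)
  rw [map_eq_of_htpy hi h, ← X.id_eq_consE p]
  exact hMap_id y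

/-- `alpha` in homology -/
noncomputable def alphaH (p : ℕ) : H F2 (X.G.prod (X.E p)) ≃ₗ[F2] H F2 (X.E (p + 1)) where
  toLinearMap := H.map F2 (X.alpha p)
  invFun := H.map F2 (X.beta p)
  left_inv y := X.map_beta_alpha hi p y
  right_inv y := X.map_alpha_beta hi p y

@[simp] theorem alphaH_apply (p : ℕ) (y) : X.alphaH hi p y = H.map F2 (X.alpha p) y := rfl

/-! ## brackets -/

variable (Z : EZData)

/-- brackets -/
noncomputable def br : (p : ℕ) → (Fin p → H F2 X.G) → H F2 (X.E p)
  | 0, _ => H.map F2 (toE0 X.π) (vtx X.p0)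
  | p + 1, a => H.map F2 (X.alpha p) (Z.cr X.G (X.E p) (a 0 ⊗ₜ br p (Fin.tail a)))

theorem br_zero (a : Fin 0 → H F2 X.G) : X.br Z 0 a = H.map F2 (toE0 X.π) (vtx X.p0) := rfl

theorem br_succ (p : ℕ) (a : Fin (p + 1) → H F2 X.G) :
    X.br Z (p + 1) a = H.map F2 (X.alpha p) (Z.cr X.G (X.E p) (a 0 ⊗ₜ X.br Z p (Fin.tail a))) := rfl

theorem br_cons (p : ℕ) (x : H F2 X.G) (a : Fin p → H F2 X.G) :
    X.br Z (p + 1) (Fin.cons x a) = H.map F2 (X.alpha p) (Z.cr X.G (X.E p) (x ⊗ₜ X.br Z p a)) := by
  rw [br_succ, Fin.cons_zero, Fin.tail_cons]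

/-- augmentation of a bracket -/
theorem eps_br (p : ℕ) (a : Fin p → H F2 X.G) : eps _ (X.br Z p a) = ∏ i, eps _ (a i) := by
  induction p with
  | zero =>
    rw [br_zero, eps_map]
    simp only [Finset.univ_eq_empty, Finset.prod_empty]
    exact nAug_sx_zero _
  | succ p ih =>
    rw [br_succ, eps_map, Z.eps_cr, ih, Fin.prod_univ_succ]
    rfl

/-- `E_0 = P` -/
def ofE0 : SS.Hom (X.E 0) X.P := evc X.π 0 0

theorem toE0_ofE0 : (toE0 X.π).comp X.ofE0 = SS.Hom.id (X.E 0) := by
  refine SS.Hom.ext (funext fun q => funext fun x => ?_)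
  refine E_ext fun i => ?_
  have : i = 0 := Fin.ext (by omega)
  subst this
  rfl

/-- `E_0` is acyclic -/
theorem E0_eq (y : H F2 (X.E 0)) (a : Fin 0 → H F2 X.G) : y = eps _ y • X.br Z 0 a := by
  obtain ⟨c, hc⟩ := X.acyc (H.map F2 X.ofE0 y)
  have h1 : y = H.map F2 (toE0 X.π) (H.map F2 X.ofE0 y) := by
    rw [map_comp', toE0_ofE0]; exact (hMap_id y).symm
  have h2 : y = c • X.br Z 0 a := by
    rw [h1, hc, map_smul, br_zero]; rfl
  have h3 : eps _ y = c := by
    rw [h2, map_smul, eps_br]; simp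
  rw [h3]; exact h2

/-! ## the basis of words -/

/-- basis of `H (E_0)` -/
noncomputable def basis0 : Module.Basis (Fin 0 → Empty) F2 (H F2 (X.E 0)) :=
  Module.Basis.ofRepr (LinearEquiv.symm
    { toFun := fun c => c default • X.br Z 0 Fin.elim0
      invFun := fun y => Finsupp.single default (eps _ y)
      map_add' := fun a b => by simp [add_smul]
      map_smul' := fun r a => by simp [mul_smul]
      left_inv := fun c => by
        refine Finsupp.ext fun i => ?_
        have : i = default := Subsingleton.elim _ _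
        subst this
        rw [Finsupp.single_eq_same, map_smul, eps_br]
        simp
      right_inv := fun y => by
        simp only [Finsupp.single_eq_same]
        exact (X.E0_eq Z y _).symm })

theorem basis0_apply (w) : X.basis0 Z w = X.br Z 0 Fin.elim0 := by
  have hw : w = default := Subsingleton.elim _ _
  subst hw
  rw [Module.Basis.apply_eq_iff]
  show Finsupp.single default (eps _ (X.br Z 0 Fin.elim0)) = _
  rw [eps_br]; simp

/-- **basis of words**: for every basis `b` of `H G`, the brackets of the words in `b` form a basis of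
`H (E_p)`. -/
noncomputable def brBasis {κ : Type} (b : Module.Basis κ F2 (H F2 X.G)) :
    (p : ℕ) → Module.Basis (Fin p → κ) F2 (H F2 (X.E p))
  | 0 => (X.basis0 Z).reindex (Equiv.ofUnique _ _)
  | p + 1 => ((b.tensorProduct (brBasis b p)).map ((Z.cr X.G (X.E p)).trans (X.alphaH hi p))).reindex
      (Fin.consEquiv (fun _ => κ))

theorem brBasis_apply {κ : Type} (b : Module.Basis κ F2 (H F2 X.G)) (p : ℕ) (w : Fin p → κ) :
    X.brBasis hi Z b p w = X.br Z p (fun i => b (w i)) := by
  induction p with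
  | zero =>
    rw [brBasis, Module.Basis.reindex_apply, basis0_apply]
    rfl
  | succ p ih =>
    rw [brBasis, Module.Basis.reindex_apply, Module.Basis.map_apply, Module.Basis.tensorProduct_apply',
      ih, br_succ]
    rfl

end PFib

end Crest.Agent.R204.Bar170
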