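import Crest.Agent.R204.SpecA_334

/-!
# Row 204, block A: the bridge with the mod 2 singular chains of `R224/T` (helper93)

`bridge : SpecA.Bridge`.
-/

set_option autoImplicit false

noncomputable section

open Function

namespace Crest.Agent.R204.BridgeA93

open SpecA

variable {Y : Type} [TopologicalSpace Y]

theorem neg_one_pow_F2 (k : ℕ) : (-1 : F2) ^ k = 1 := by
  have h : (-1 : F2) = 1 := by decide
  rw [h, one_pow]

@[simp] theorem emb_single (n : ℕ) (σ : C(R224.T.Dl n, Y)) (r : F2) :
    emb Y n (Finsupp.single σ r) = Finsupp.single (⟨n, σ⟩ : (SS.Sing Y).T) r := by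
  simp [emb, Finsupp.lmapDomain_apply, Finsupp.mapDomain_single]

theorem emb_injective (n : ℕ) : Injective (emb Y n) := by
  have h : Injective (fun σ : C(R224.T.Dl n, Y) => (⟨n, σ⟩ : (SS.Sing Y).T)) := by
    intro σ τ h
    exact eq_of_heq (Sigma.mk.inj h).2
  intro a b hab
  exact Finsupp.mapDomain_injective h hab

theorem bd_emb_succ (n : ℕ) (c : R224.T.Ch (n + 1) Y) :
    Ch.bd F2 (SS.Sing Y) (emb Y (n + 1) c) = emb Y n (R224.T.bd n c) := by
  induction c using Finsupp.induction_linear with
  | zero => simp
  | add f g hf hg => simp only [map_add, hf, hg]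
  | single σ r =>
    rw [emb_single]
    refine (Ch.bd_single_succ (K := SS.Sing Y) (R := F2) σ r).trans ?_
    rw [R224.T.bd, Finsupp.linearCombination_single, map_smul, map_sum, Finset.smul_sum]
    refine Finset.sum_congr rfl fun i _ => ?_
    rw [emb_single, Finsupp.smul_single, smul_eq_mul, neg_one_pow_F2]
    rfl

theorem bd_emb_zero (c : R224.T.Ch 0 Y) : Ch.bd F2 (SS.Sing Y) (emb Y 0 c) = 0 := by
  induction c using Finsupp.induction_linear with
  | zero => simp
  | add f g hf hg => simp only [map_add, hf, hg, add_zero]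
  | single σ r => rw [emb_single]; exact Ch.bd_single_zero _ _

theorem range_emb (n : ℕ) : LinearMap.range (emb Y n) = Ch.gr F2 (SS.Sing Y) n := by
  apply le_antisymm
  · rintro _ ⟨c, rfl⟩
    induction c using Finsupp.induction_linear with
    | zero => simp
    | add f g hf hg => rw [map_add]; exact Submodule.add_mem _ hf hg
    | single σ r =>
      rw [emb_single]
      have : (Finsupp.single (⟨n, σ⟩ : (SS.Sing Y).T) r : Ch F2 (SS.Sing Y)) =
          r • Finsupp.single ⟨n, σ⟩ 1 := by
        rw [Finsupp.smul_single, smul_eq_mul, mul_one]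
      rw [this]
      exact Submodule.smul_mem _ _ (Submodule.subset_span ⟨σ, rfl⟩)
  · rw [Ch.gr, Submodule.span_le]
    rintro _ ⟨x, rfl⟩
    exact ⟨Finsupp.single x 1, emb_single n x 1⟩

theorem map_emb {Z : Type} [TopologicalSpace Z] (f : C(Y, Z)) (n : ℕ) (c : R224.T.Ch n Y) :
    Ch.map F2 (SS.SingMap f) (emb Y n c) = emb Z n (R224.T.push f n c) := by
  induction c using Finsupp.induction_linear with
  | zero => simp
  | add f g hf hg => simp only [map_add, hf, hg]
  | single σ r =>
    rw [R224.T.push, Finsupp.lmapDomain_apply, Finsupp.mapDomain_single, emb_single, emb_single]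
    exact Ch.map_single (K := SS.Sing Y) (SS.SingMap f) n σ r

/-- A8.0 -/
theorem bridge : SpecA.Bridge := fun _ _ =>
  ⟨emb_injective, bd_emb_succ, bd_emb_zero, range_emb, fun _ _ f n c => map_emb f n c⟩

end Crest.Agent.R204.BridgeA93
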