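import Crest.Agent.R204.BridgeA_93

/-!
# Row 204, block A: homology level of the bridge with `R224/T` (helper93)

With the normalisation theorem `SpecA.DgAcyclic` as hypothesis: every homogeneous class of
`H F2 (Sing Y)` is the class `cls n c` of a `R224.T` cycle `c`, and `cls n c = 0` iff `c` bounds.
-/

set_option autoImplicit false

noncomputable section

open Function

namespace Crest.Agent.R204.BridgeA93

open SpecA

variable {Y : Type} [TopologicalSpace Y]

theorem sig_injective (n : ℕ) :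
    Injective (fun σ : C(R224.T.Dl n, Y) => (⟨n, σ⟩ : (SS.Sing Y).T)) := by
  intro σ τ h
  exact eq_of_heq (Sigma.mk.inj h).2

/-- the homogeneous component of degree `n` -/
def cmp (n : ℕ) : Ch F2 (SS.Sing Y) →ₗ[F2] R224.T.Ch n Y :=
  Finsupp.lcomapDomain (fun σ : C(R224.T.Dl n, Y) => (⟨n, σ⟩ : (SS.Sing Y).T)) (sig_injective n)

theorem cmp_apply (n : ℕ) (c : Ch F2 (SS.Sing Y)) (σ : C(R224.T.Dl n, Y)) :
    cmp n c σ = c ⟨n, σ⟩ := rfl

theorem cmp_single_same (n : ℕ) (σ : C(R224.T.Dl n, Y)) (r : F2) :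
    cmp n (Finsupp.single (⟨n, σ⟩ : (SS.Sing Y).T) r) = Finsupp.single σ r := by
  classical
  ext τ
  rw [cmp_apply, Finsupp.single_apply, Finsupp.single_apply]
  by_cases h : σ = τ
  · subst h; simp
  · rw [if_neg h, if_neg]
    intro h'
    exact h (sig_injective n h')

theorem cmp_single_ne {n m : ℕ} (h : m ≠ n) (x : (SS.Sing Y).S m) (r : F2) :
    cmp n (Finsupp.single (⟨m, x⟩ : (SS.Sing Y).T) r) = 0 := by
  classical
  ext τ
  rw [cmp_apply, Finsupp.single_apply, if_neg]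
  · rfl
  · intro h'
    exact h (congrArg Sigma.fst h')

@[simp] theorem cmp_emb (n : ℕ) (c : R224.T.Ch n Y) : cmp n (emb Y n c) = c := by
  induction c using Finsupp.induction_linear with
  | zero => simp
  | add f g hf hg => simp only [map_add, hf, hg]
  | single σ r => rw [emb_single, cmp_single_same]

theorem cmp_bd_single (m : ℕ) (x : C(R224.T.Dl (m + 1), Y)) (r : F2) :
    cmp m (Ch.bd F2 (SS.Sing Y) (Finsupp.single (⟨m + 1, x⟩ : (SS.Sing Y).T) r)) =
      R224.T.bd m (cmp (m + 1) (Finsupp.single (⟨m + 1, x⟩ : (SS.Sing Y).T) r)) := by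
  rw [cmp_single_same (m + 1) x r, ← emb_single, bd_emb_succ, cmp_emb]

theorem cmp_bd (n : ℕ) (c : Ch F2 (SS.Sing Y)) :
    cmp n (Ch.bd F2 (SS.Sing Y) c) = R224.T.bd n (cmp (n + 1) c) := by
  induction c using Finsupp.induction_linear with
  | zero => simp
  | add f g hf hg => simp only [map_add, hf, hg]
  | single t r =>
    obtain ⟨m, x⟩ := t
    rcases m with _ | m
    · rw [Ch.bd_single_zero, map_zero, cmp_single_ne (by omega), map_zero]
    · by_cases h : m = n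
      · subst h
        exact cmp_bd_single m x r
      · rw [Ch.bd_single_succ, map_sum, cmp_single_ne (by omega), map_zero]
        exact Finset.sum_eq_zero fun i _ => cmp_single_ne h _ _

theorem emb_cmp_mem_Dg (n : ℕ) {c : Ch F2 (SS.Sing Y)} (hc : c ∈ Ch.Dg F2 (SS.Sing Y)) :
    emb Y n (cmp n c) ∈ Ch.Dg F2 (SS.Sing Y) := by
  refine Submodule.span_induction
    (p := fun c _ => emb Y n (cmp n c) ∈ Ch.Dg F2 (SS.Sing Y)) ?_ ?_ ?_ ?_ hc
  · rintro _ ⟨⟨m, x⟩, hx, rfl⟩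
    by_cases h : m = n
    · subst h
      have h1 : emb Y m (cmp m (Finsupp.single (⟨m, x⟩ : (SS.Sing Y).T) 1)) =
          Finsupp.single (⟨m, x⟩ : (SS.Sing Y).T) 1 := by
        rw [show cmp m (Finsupp.single (⟨m, x⟩ : (SS.Sing Y).T) 1) = Finsupp.single x 1 from
          cmp_single_same m x 1]
        exact emb_single m x 1
      rw [h1]
      exact Submodule.subset_span ⟨_, hx, rfl⟩
    · rw [cmp_single_ne h, map_zero]
      exact Submodule.zero_mem _
  · simp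
  · intro a b _ _ ha hb; simp only [map_add]; exact Submodule.add_mem _ ha hb
  · intro r a _ ha; simp only [map_smul]; exact Submodule.smul_mem _ _ ha

theorem emb_cmp_of_mem_gr {n : ℕ} {c : Ch F2 (SS.Sing Y)} (hc : c ∈ Ch.gr F2 (SS.Sing Y) n) :
    emb Y n (cmp n c) = c := by
  rw [← range_emb] at hc
  obtain ⟨b, rfl⟩ := hc
  rw [cmp_emb]

/-- `c` is a cycle -/
def Cyc (n : ℕ) (c : R224.T.Ch n Y) : Prop := Ch.bd F2 (SS.Sing Y) (emb Y n c) = 0

theorem cyc_zero (c : R224.T.Ch 0 Y) : Cyc 0 c := bd_emb_zero c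

theorem cyc_succ {n : ℕ} {c : R224.T.Ch (n + 1) Y} : Cyc (n + 1) c ↔ R224.T.bd n c = 0 := by
  unfold Cyc
  rw [bd_emb_succ]
  constructor
  · intro h
    exact emb_injective n (h.trans (map_zero _).symm)
  · intro h
    rw [h, map_zero]

theorem Cyc.bd_mk {n : ℕ} {c : R224.T.Ch n Y} (h : Cyc n c) :
    N.bd F2 (SS.Sing Y) (Submodule.Quotient.mk (emb Y n c)) = 0 := by
  rw [N.bd_mk, h]; rfl

/-- the homology class of a cycle -/
def cls (n : ℕ) (c : R224.T.Ch n Y) (h : Cyc n c) : H F2 (SS.Sing Y) :=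
  Hd.mk (N.bd F2 (SS.Sing Y)) (Submodule.Quotient.mk (emb Y n c)) h.bd_mk

theorem cls_mem_gr (n : ℕ) (c : R224.T.Ch n Y) (h : Cyc n c) :
    cls n c h ∈ H.gr F2 (SS.Sing Y) n := by
  refine ⟨⟨Submodule.Quotient.mk (emb Y n c), h.bd_mk⟩, ?_, rfl⟩
  refine ⟨emb Y n c, ?_, rfl⟩
  have h2 : emb Y n c ∈ LinearMap.range (emb Y n) := ⟨c, rfl⟩
  rwa [range_emb] at h2

/-- normalised homogeneous cycles are represented by `R224.T` cycles -/
theorem exists_cycle (hD : DgAcyclic) {n : ℕ} {z : N F2 (SS.Sing Y)}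
    (hz : N.bd F2 (SS.Sing Y) z = 0) (hg : z ∈ N.gr F2 (SS.Sing Y) n) :
    ∃ c : R224.T.Ch n Y, Cyc n c ∧ Submodule.Quotient.mk (emb Y n c) = z := by
  obtain ⟨z', hz', rfl⟩ := hg
  rw [SetLike.mem_coe, ← range_emb] at hz'
  obtain ⟨c₀, rfl⟩ := hz'
  rcases n with _ | n
  · exact ⟨c₀, cyc_zero _, rfl⟩
  · have h1 : Ch.bd F2 (SS.Sing Y) (emb Y (n + 1) c₀) ∈ Ch.Dg F2 (SS.Sing Y) := by
      have h2 : N.bd F2 (SS.Sing Y) (Submodule.Quotient.mk (emb Y (n + 1) c₀)) = 0 := hz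
      rw [N.bd_mk, Submodule.Quotient.mk_eq_zero] at h2
      exact h2
    obtain ⟨w, hw, hw2⟩ := hD F2 (SS.Sing Y) _ h1 (Ch.bd_bd _)
    refine ⟨c₀ - cmp (n + 1) w, ?_, ?_⟩
    · rw [cyc_succ, map_sub, ← cmp_bd, hw2, bd_emb_succ, cmp_emb, sub_self]
    · rw [map_sub, Submodule.Quotient.mk_sub,
        (Submodule.Quotient.mk_eq_zero _).2 (emb_cmp_mem_Dg (n + 1) hw), sub_zero]
      rfl

theorem exists_cls (hD : DgAcyclic) {n : ℕ} {x : H F2 (SS.Sing Y)}
    (hx : x ∈ H.gr F2 (SS.Sing Y) n) : ∃ (c : R224.T.Ch n Y) (h : Cyc n c), x = cls n c h := by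
  obtain ⟨⟨z, hz⟩, hg, rfl⟩ := hx
  obtain ⟨c, hc, rfl⟩ := exists_cycle hD (LinearMap.mem_ker.1 hz) hg
  exact ⟨c, hc, rfl⟩

/-- the class of a cycle vanishes iff the cycle bounds -/
theorem cls_eq_zero_iff (hD : DgAcyclic) {n : ℕ} {c : R224.T.Ch n Y} (h : Cyc n c) :
    cls n c h = 0 ↔ ∃ b : R224.T.Ch (n + 1) Y, R224.T.bd n b = c := by
  unfold cls
  rw [Hd.mk_eq_zero]
  constructor
  · rintro ⟨w, hw⟩
    obtain ⟨b, rfl⟩ := Submodule.Quotient.mk_surjective _ w
    rw [N.bd_mk, Submodule.Quotient.eq] at hw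
    obtain ⟨v, hv, hv2⟩ := hD F2 (SS.Sing Y) _ hw (by
      rw [map_sub, Ch.bd_bd, show Ch.bd F2 (SS.Sing Y) (emb Y n c) = 0 from h, sub_zero])
    refine ⟨cmp (n + 1) (b - v), ?_⟩
    rw [← cmp_bd, map_sub, hv2, sub_sub_cancel, cmp_emb]
  · rintro ⟨b, rfl⟩
    exact ⟨Submodule.Quotient.mk (emb Y (n + 1) b), by rw [N.bd_mk, bd_emb_succ]⟩

theorem cls_congr {n : ℕ} {c c' : R224.T.Ch n Y} (h : Cyc n c) (e : c = c') :
    cls n c h = cls n c' (e ▸ h) := by subst e; rfl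

theorem Cyc.add {n : ℕ} {c c' : R224.T.Ch n Y} (h : Cyc n c) (h' : Cyc n c') : Cyc n (c + c') := by
  unfold Cyc at *
  rw [map_add, map_add, h, h', add_zero]

theorem cls_add {n : ℕ} {c c' : R224.T.Ch n Y} (h : Cyc n c) (h' : Cyc n c') :
    cls n (c + c') (h.add h') = cls n c h + cls n c' h' := by
  unfold cls
  have : (Submodule.Quotient.mk (emb Y n (c + c')) : N F2 (SS.Sing Y)) =
      Submodule.Quotient.mk (emb Y n c) + Submodule.Quotient.mk (emb Y n c') := by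
    rw [map_add]; rfl
  simp only [this]
  rfl

theorem Cyc.push {Z : Type} [TopologicalSpace Z] (f : C(Y, Z)) {n : ℕ} {c : R224.T.Ch n Y}
    (h : Cyc n c) : Cyc n (R224.T.push f n c) := by
  unfold Cyc at *
  rw [← map_emb, ← Ch.map_bd, h, map_zero]

/-- naturality -/
theorem map_cls {Z : Type} [TopologicalSpace Z] (f : C(Y, Z)) {n : ℕ} {c : R224.T.Ch n Y}
    (h : Cyc n c) : Hm f (cls n c h) = cls n (R224.T.push f n c) (h.push f) := by
  unfold cls
  have h1 : (Submodule.Quotient.mk (emb Z n (R224.T.push f n c)) : N F2 (SS.Sing Z)) =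
      N.map F2 (SS.SingMap f) (Submodule.Quotient.mk (emb Y n c)) := by
    rw [N.map_mk, map_emb]
  simp only [h1]
  rfl

/-- the class of one simplex -/
theorem cls_single {n : ℕ} (σ : C(R224.T.Dl n, Y)) (h : Cyc n (Finsupp.single σ (1 : ZMod 2)))
    (h' : N.bd F2 (SS.Sing Y) (N.sx (K := SS.Sing Y) (n := n) F2 σ) = 0) :
    cls n (Finsupp.single σ 1) h = Hd.mk (N.bd F2 (SS.Sing Y)) (N.sx (K := SS.Sing Y) (n := n) F2 σ) h' := by
  unfold cls N.sx
  have h1 := emb_single (Y := Y) n σ 1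
  simp only [h1]

/-- a homology class that vanishes in every degree-wise sense: two homogeneous classes are equal iff
the difference of the representing cycles bounds -/
theorem cls_eq_iff (hD : DgAcyclic) {n : ℕ} {c c' : R224.T.Ch n Y} (h : Cyc n c) (h' : Cyc n c') :
    cls n c h = cls n c' h' ↔ ∃ b : R224.T.Ch (n + 1) Y, R224.T.bd n b = c + c' := by
  have h2 : cls n c' h' + cls n c' h' = 0 := by
    rw [← two_smul F2 (cls n c' h'), show (2 : F2) = 0 by decide, zero_smul]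
  rw [← cls_eq_zero_iff hD (h.add h'), cls_add h h']
  constructor
  · intro h3; rw [h3, h2]
  · intro h3
    have h4 : cls n c h = cls n c h + (cls n c' h' + cls n c' h') := by rw [h2, add_zero]
    rw [h4, ← add_assoc, h3, zero_add]

end Crest.Agent.R204.BridgeA93
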