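import Mathlib

/-!
# Row 204: base definitions (FROZEN once landed; owner helper525)

Lightweight simplicial sets, chains, normalised chains, homology as plain internally graded modules.
No category theory, no dependent degrees in the homology: `H R K` is ONE module.
-/

set_option autoImplicit false

namespace Crest.Agent.R204

open Finsupp

abbrev F2 := ZMod 2

/-! ## homology of an endomorphism -/

/-- homology of a linear endomorphism `d` (used when `d ∘ d = 0`). -/
abbrev Hd {R M : Type*} [CommRing R] [AddCommGroup M] [Module R M] (d : M →ₗ[R] M) : Type _ :=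
  LinearMap.ker d ⧸ (LinearMap.range d).comap (LinearMap.ker d).subtype

namespace Hd

variable {R M M' M'' : Type*} [CommRing R] [AddCommGroup M] [Module R M]
  [AddCommGroup M'] [Module R M'] [AddCommGroup M''] [Module R M'']

/-- class of a cycle -/
def mk (d : M →ₗ[R] M) (z : M) (hz : d z = 0) : Hd d :=
  Submodule.Quotient.mk ⟨z, hz⟩

theorem mk_surj (d : M →ₗ[R] M) (x : Hd d) : ∃ z hz, x = mk d z hz := by
  obtain ⟨⟨z, hz⟩, rfl⟩ := Submodule.Quotient.mk_surjective _ x
  exact ⟨z, hz, rfl⟩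

theorem mk_eq_zero {d : M →ₗ[R] M} {z : M} {hz : d z = 0} : mk d z hz = 0 ↔ ∃ w, d w = z := by
  unfold mk
  rw [Submodule.Quotient.mk_eq_zero]
  simp

theorem mk_eq_mk {d : M →ₗ[R] M} {z z' : M} {hz : d z = 0} {hz' : d z' = 0} :
    mk d z hz = mk d z' hz' ↔ ∃ w, d w = z - z' := by
  unfold mk
  rw [Submodule.Quotient.eq]
  simp

/-- induced map -/
def map {d : M →ₗ[R] M} {d' : M' →ₗ[R] M'} (f : M →ₗ[R] M') (h : f ∘ₗ d = d' ∘ₗ f) :
    Hd d →ₗ[R] Hd d' :=
  Submodule.mapQ _ _
    (f.restrict (p := LinearMap.ker d) (q := LinearMap.ker d') (fun x hx => by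
      have := LinearMap.congr_fun h x
      simp only [LinearMap.comp_apply] at this
      rw [LinearMap.mem_ker] at hx ⊢
      rw [← this, hx, map_zero]))
    (by
      rintro ⟨x, hx⟩ hx'
      simp only [Submodule.mem_comap, Submodule.subtype_apply, LinearMap.mem_range] at hx' ⊢
      obtain ⟨y, hy⟩ := hx'
      refine ⟨f y, ?_⟩
      have := LinearMap.congr_fun h y
      simp only [LinearMap.comp_apply] at this
      rw [← this, hy]; rfl)

@[simp] theorem map_mk {d : M →ₗ[R] M} {d' : M' →ₗ[R] M'} (f : M →ₗ[R] M')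
    (h : f ∘ₗ d = d' ∘ₗ f) (z : M) (hz : d z = 0) :
    map f h (mk d z hz) = mk d' (f z) (by
      have := LinearMap.congr_fun h z
      simp only [LinearMap.comp_apply] at this
      rw [← this, hz, map_zero]) := rfl

theorem map_id {d : M →ₗ[R] M} (h : LinearMap.id ∘ₗ d = d ∘ₗ LinearMap.id) (x : Hd d) :
    map LinearMap.id h x = x := by
  obtain ⟨z, hz, rfl⟩ := mk_surj d x
  rfl

theorem map_comp {d : M →ₗ[R] M} {d' : M' →ₗ[R] M'} {d'' : M'' →ₗ[R] M''}
    (f : M →ₗ[R] M') (h : f ∘ₗ d = d' ∘ₗ f) (g : M' →ₗ[R] M'') (h' : g ∘ₗ d' = d'' ∘ₗ g)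
    (h'' : (g ∘ₗ f) ∘ₗ d = d'' ∘ₗ (g ∘ₗ f)) (x : Hd d) :
    map (g ∘ₗ f) h'' x = map g h' (map f h x) := by
  obtain ⟨z, hz, rfl⟩ := mk_surj d x
  rfl

end Hd

/-! ## simplicial sets -/

/-- monotone maps `[m] → [n]` -/
abbrev Op (m n : ℕ) : Type := Fin (m + 1) →o Fin (n + 1)

/-- `i`-th coface `[n] → [n+1]` (misses `i`) -/
def Op.face {n : ℕ} (i : Fin (n + 2)) : Op n (n + 1) := (Fin.succAboveOrderEmb i).toOrderHom

/-- `i`-th codegeneracy `[n+1] → [n]` (hits `i` twice) -/
def Op.dgn {n : ℕ} (i : Fin (n + 1)) : Op (n + 1) n := ⟨i.predAbove, Fin.predAbove_right_monotone i⟩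

/-- lightweight simplicial sets -/
structure SS where
  S : ℕ → Type
  act : ∀ {m n : ℕ}, Op m n → S n → S m
  act_id : ∀ {n : ℕ} (x : S n), act (OrderHom.id) x = x
  act_comp : ∀ {l m n : ℕ} (f : Op l m) (g : Op m n) (x : S n), act (g.comp f) x = act f (act g x)

namespace SS

/-- simplicial maps -/
@[ext] structure Hom (K L : SS) where
  app : ∀ n : ℕ, K.S n → L.S n
  nat : ∀ {m n : ℕ} (f : Op m n) (x : K.S n), app m (K.act f x) = L.act f (app n x)

/-- identity -/
def Hom.id (K : SS) : Hom K K := ⟨fun _ x => x, fun _ _ => rfl⟩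

/-- composition (`g` after `f`) -/
def Hom.comp {K L M : SS} (g : Hom L M) (f : Hom K L) : Hom K M :=
  ⟨fun n x => g.app n (f.app n x), fun a x => by rw [f.nat, g.nat]⟩

/-- product -/
def prod (K L : SS) : SS where
  S n := K.S n × L.S n
  act f x := (K.act f x.1, L.act f x.2)
  act_id x := by simp [K.act_id, L.act_id]
  act_comp f g x := by simp [K.act_comp, L.act_comp]

/-- first projection -/
def fst (K L : SS) : Hom (K.prod L) K := ⟨fun _ x => x.1, fun _ _ => rfl⟩
/-- second projection -/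
def snd (K L : SS) : Hom (K.prod L) L := ⟨fun _ x => x.2, fun _ _ => rfl⟩
/-- pairing -/
def pair {J K L : SS} (f : Hom J K) (g : Hom J L) : Hom J (K.prod L) :=
  ⟨fun n x => (f.app n x, g.app n x), fun a x => by simp [prod, f.nat, g.nat]⟩
/-- product of maps -/
def prodMap {K L K' L' : SS} (f : Hom K K') (g : Hom L L') : Hom (K.prod L) (K'.prod L') :=
  ⟨fun n x => (f.app n x.1, g.app n x.2), fun a x => by simp [prod, f.nat, g.nat]⟩
/-- diagonal -/
def diag (K : SS) : Hom K (K.prod K) := pair (Hom.id K) (Hom.id K)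
/-- swap -/
def swap (K L : SS) : Hom (K.prod L) (L.prod K) := pair (snd K L) (fst K L)

/-- the standard simplex `Δ^n` -/
def std (n : ℕ) : SS where
  S m := Op m n
  act f g := g.comp f
  act_id _ := rfl
  act_comp _ _ _ := rfl

/-- a simplex as a map from the standard simplex -/
def yo (K : SS) {n : ℕ} (x : K.S n) : Hom (std n) K :=
  ⟨fun _ g => K.act g x, fun f g => K.act_comp f g x⟩

/-- the one point simplicial set -/
def pt : SS where
  S _ := Unit
  act _ _ := ()
  act_id _ := rfl
  act_comp _ _ _ := rfl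

/-- the unique map to the point -/
def toPt (K : SS) : Hom K pt := ⟨fun _ _ => (), fun _ _ => rfl⟩

/-- constant simplicial map at a vertex -/
def constHom (J K : SS) (x : K.S 0) : Hom J K :=
  ⟨fun n _ => K.act (⟨fun _ => 0, fun _ _ _ => le_rfl⟩ : Op n 0) x, fun f _ => by
    rw [← K.act_comp]; rfl⟩

/-- singular simplicial set of a topological space (in `Type`) -/
noncomputable def Sing (Y : Type) [TopologicalSpace Y] : SS where
  S n := C(stdSimplex ℝ (Fin (n + 1)), Y)
  act f σ := σ.comp ⟨stdSimplex.map f, stdSimplex.continuous_map f⟩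
  act_id σ := by
    ext x
    simp
  act_comp f g σ := by
    ext x
    simp [stdSimplex.map_comp_apply]

/-- functoriality of `Sing` -/
noncomputable def SingMap {Y Z : Type} [TopologicalSpace Y] [TopologicalSpace Z] (f : C(Y, Z)) :
    Hom (Sing Y) (Sing Z) :=
  ⟨fun _ σ => f.comp σ, fun _ _ => rfl⟩

/-! ## chains -/

/-- all simplices -/
abbrev T (K : SS) : Type := Σ n : ℕ, K.S n

end SS

/-- unnormalised chains (total) -/
abbrev Ch (R : Type) [CommRing R] (K : SS) : Type := K.T →₀ R

namespace Ch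

variable (R : Type) [CommRing R] (K : SS)

/-- boundary of one simplex -/
noncomputable def bdT : K.T → Ch R K
  | ⟨0, _⟩ => 0
  | ⟨n + 1, x⟩ => ∑ i : Fin (n + 2), single ⟨n, K.act (Op.face i) x⟩ ((-1 : R) ^ (i : ℕ))

/-- boundary -/
noncomputable def bd : Ch R K →ₗ[R] Ch R K := Finsupp.linearCombination R (bdT R K)

/-- degenerate simplices -/
def IsDgn : K.T → Prop
  | ⟨0, _⟩ => False
  | ⟨n + 1, x⟩ => ∃ (j : Fin (n + 1)) (y : K.S n), x = K.act (Op.dgn j) y

theorem isDgn_act {n : ℕ} (j : Fin (n + 1)) (y : K.S n) : IsDgn K ⟨n + 1, K.act (Op.dgn j) y⟩ :=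
  ⟨j, y, rfl⟩

/-- degenerate chains -/
noncomputable def Dg : Submodule R (Ch R K) := Submodule.span R {c | ∃ t : K.T, IsDgn K t ∧ c = single t 1}

/-- `n`-dimensional chains -/
noncomputable def gr (n : ℕ) : Submodule R (Ch R K) := Submodule.span R {c | ∃ x : K.S n, c = single ⟨n, x⟩ 1}

variable {R K}

@[simp] theorem bd_single_zero (x : K.S 0) (r : R) : bd R K (single ⟨0, x⟩ r) = 0 := by
  simp [bd, bdT]

theorem bd_single_succ {n : ℕ} (x : K.S (n + 1)) (r : R) :
    bd R K (single ⟨n + 1, x⟩ r) =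
      ∑ i : Fin (n + 2), single ⟨n, K.act (Op.face i) x⟩ (r * (-1 : R) ^ (i : ℕ)) := by
  simp [bd, bdT, Finset.smul_sum]

theorem face_val {n : ℕ} (i : Fin (n + 2)) (a : Fin (n + 1)) :
    ((Op.face i a : Fin (n + 2)) : ℕ) = if (a : ℕ) < i then (a : ℕ) else a + 1 := by
  simp only [Op.face, OrderEmbedding.toOrderHom_coe, Fin.succAboveOrderEmb_apply, Fin.succAbove,
    Fin.lt_def, Fin.val_castSucc]
  split_ifs <;> simp

theorem dgn_val {n : ℕ} (j : Fin (n + 1)) (a : Fin (n + 2)) :
    ((Op.dgn j a : Fin (n + 1)) : ℕ) = if (a : ℕ) ≤ j then (a : ℕ) else a - 1 := by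
  simp only [Op.dgn, OrderHom.coe_mk, Fin.predAbove, Fin.lt_def, Fin.val_castSucc]
  split_ifs <;> simp <;> omega

theorem face_dgn_eq {n : ℕ} (i : Fin (n + 2)) (j : Fin (n + 1)) (h : i = j.castSucc ∨ i = j.succ) :
    (Op.dgn j).comp (Op.face i) = (OrderHom.id : Op n n) := by
  ext a
  simp only [OrderHom.comp_coe, Function.comp_apply, OrderHom.id_coe, id, dgn_val, face_val]
  rcases h with rfl | rfl <;> simp only [Fin.val_castSucc, Fin.val_succ] <;>
    split_ifs <;> omega

theorem face_dgn_ne {n : ℕ} (i : Fin (n + 3)) (j : Fin (n + 2)) (h1 : i ≠ j.castSucc)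
    (h2 : i ≠ j.succ) : ∃ (i' : Fin (n + 2)) (j' : Fin (n + 1)),
    (Op.dgn j).comp (Op.face i) = (Op.face i').comp (Op.dgn j') := by
  have h1' : (i : ℕ) ≠ j := fun h => h1 (Fin.ext h)
  have h2' : (i : ℕ) ≠ j + 1 := fun h => h2 (Fin.ext (by simpa using h))
  rcases lt_or_gt_of_ne h1' with h | h
  · refine ⟨⟨i, by omega⟩, ⟨(j : ℕ) - 1, by omega⟩, ?_⟩
    ext a
    simp only [OrderHom.comp_coe, Function.comp_apply, dgn_val, face_val]
    split_ifs <;> omega
  · refine ⟨⟨(i : ℕ) - 1, by omega⟩, ⟨j, by omega⟩, ?_⟩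
    ext a
    simp only [OrderHom.comp_coe, Function.comp_apply, dgn_val, face_val]
    split_ifs <;> omega

theorem face_face {n : ℕ} (i : Fin (n + 3)) (j : Fin (n + 2)) (i' : Fin (n + 3)) (j' : Fin (n + 2))
    (h : (j : ℕ) < i) (h1 : (i' : ℕ) = j) (h2 : (j' : ℕ) + 1 = i) :
    (Op.face i).comp (Op.face j) = (Op.face i').comp (Op.face j') := by
  ext a
  simp only [OrderHom.comp_coe, Function.comp_apply, face_val]
  split_ifs <;> omega

theorem bd_bd (c : Ch R K) : bd R K (bd R K c) = 0 := by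
  induction c using Finsupp.induction_linear with
  | zero => simp
  | add f g hf hg => rw [map_add, map_add, hf, hg, add_zero]
  | single t r =>
    obtain ⟨n, x⟩ := t
    rcases n with _ | _ | n
    · simp
    · rw [bd_single_succ, map_sum]
      exact Finset.sum_eq_zero fun i _ => bd_single_zero _ _
    · rw [bd_single_succ, map_sum]
      simp only [bd_single_succ]
      rw [← Finset.sum_product']
      refine Finset.sum_involution
        (fun (p : Fin (n + 3) × Fin (n + 2)) _ =>
          if h : (p.2 : ℕ) < p.1 then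
            ((⟨p.2, by omega⟩ : Fin (n + 3)), (⟨p.1 - 1, by omega⟩ : Fin (n + 2)))
          else ((⟨p.2 + 1, by omega⟩ : Fin (n + 3)), (⟨p.1, by omega⟩ : Fin (n + 2)))) ?_ ?_ ?_ ?_
      · rintro ⟨i, j⟩ -
        dsimp only
        by_cases h : (j : ℕ) < i
        · rw [dif_pos h]
          dsimp only
          rw [← K.act_comp, ← K.act_comp,
            face_face i j ⟨j, by omega⟩ ⟨i - 1, by omega⟩ h rfl (by simp; omega),
            ← Finsupp.single_add]
          have : (r * (-1 : R) ^ (i : ℕ) * (-1) ^ (j : ℕ) +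
              r * (-1) ^ (j : ℕ) * (-1) ^ ((i : ℕ) - 1)) = 0 := by
            obtain ⟨k, hk⟩ : ∃ k, (i : ℕ) = k + 1 := ⟨i - 1, by omega⟩
            rw [hk]; simp only [Nat.add_sub_cancel]; ring
          rw [this, Finsupp.single_zero]
        · rw [dif_neg h]
          dsimp only
          rw [← K.act_comp, ← K.act_comp,
            face_face ⟨j + 1, by omega⟩ ⟨i, by omega⟩ i j (by simp; omega) rfl (by simp),
            ← Finsupp.single_add]
          have : (r * (-1 : R) ^ (i : ℕ) * (-1) ^ (j : ℕ) +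
              r * (-1) ^ ((j : ℕ) + 1) * (-1) ^ (i : ℕ)) = 0 := by ring
          rw [this, Finsupp.single_zero]
      · rintro ⟨i, j⟩ - _
        dsimp only
        split_ifs with h
        · intro h'
          simp only [Prod.mk.injEq, Fin.ext_iff] at h'
          omega
        · intro h'
          simp only [Prod.mk.injEq, Fin.ext_iff] at h'
          omega
      · intros; exact Finset.mem_univ _
      · rintro ⟨i, j⟩ -
        dsimp only
        by_cases h : (j : ℕ) < i
        · have e1 : ¬ ((i : ℕ) - 1 < (j : ℕ)) := by omega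
          rw [dif_pos h]
          refine (dif_neg (c := (i : ℕ) - 1 < (j : ℕ)) e1).trans ?_
          refine Prod.ext (Fin.ext ?_) (Fin.ext ?_)
          · show (i : ℕ) - 1 + 1 = i
            omega
          · rfl
        · have e1 : (i : ℕ) < (j : ℕ) + 1 := by omega
          rw [dif_neg h]
          refine (dif_pos (c := (i : ℕ) < (j : ℕ) + 1) e1).trans ?_
          refine Prod.ext (Fin.ext ?_) (Fin.ext ?_)
          · rfl
          · show (j : ℕ) + 1 - 1 = j
            omega

theorem bd_mem_Dg {c : Ch R K} (hc : c ∈ Dg R K) : bd R K c ∈ Dg R K := by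
  refine Submodule.span_induction (p := fun c _ => bd R K c ∈ Dg R K) ?_ ?_ ?_ ?_ hc
  · rintro _ ⟨⟨n, x⟩, hx, rfl⟩
    rcases n with _ | n
    · exact hx.elim
    · obtain ⟨j, y, rfl⟩ := hx
      rw [bd_single_succ]
      rw [← Finset.sum_add_sum_compl ({j.castSucc, j.succ} : Finset (Fin (n + 2)))]
      refine Submodule.add_mem _ ?_ (Submodule.sum_mem _ ?_)
      · rw [Finset.sum_pair (by simp [Fin.ext_iff])]
        rw [← K.act_comp, ← K.act_comp, face_dgn_eq _ _ (Or.inl rfl), face_dgn_eq _ _ (Or.inr rfl),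
          ← Finsupp.single_add]
        have : ((1 : R) * (-1) ^ ((j.castSucc : Fin (n + 2)) : ℕ) +
            1 * (-1) ^ ((j.succ : Fin (n + 2)) : ℕ)) = 0 := by
          simp only [Fin.val_castSucc, Fin.val_succ]; ring
        rw [this, Finsupp.single_zero]
        exact Submodule.zero_mem _
      · intro i hi
        simp only [Finset.mem_compl, Finset.mem_insert, Finset.mem_singleton, not_or] at hi
        rcases n with _ | n
        · exfalso
          have h1 := hi.1; have h2 := hi.2
          simp only [Fin.ext_iff, Fin.val_castSucc, Fin.val_succ] at h1 h2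
          omega
        · obtain ⟨i', j', h⟩ := face_dgn_ne i j hi.1 hi.2
          rw [← K.act_comp, h, K.act_comp]
          have : (single (⟨n + 1, K.act (Op.dgn j') (K.act (Op.face i') y)⟩ : K.T)
              ((1 : R) * (-1) ^ (i : ℕ)) : Ch R K) = ((-1 : R) ^ (i : ℕ)) •
              single ⟨n + 1, K.act (Op.dgn j') (K.act (Op.face i') y)⟩ 1 := by simp
          rw [this]
          exact Submodule.smul_mem _ _ (Submodule.subset_span ⟨_, isDgn_act _ _ _, rfl⟩)
  · simp
  · intro a b _ _ ha hb; rw [map_add]; exact Submodule.add_mem _ ha hb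
  · intro r a _ ha; rw [map_smul]; exact Submodule.smul_mem _ _ ha

/-- induced map on unnormalised chains -/
noncomputable def map (R : Type) [CommRing R] {K L : SS} (f : SS.Hom K L) : Ch R K →ₗ[R] Ch R L :=
  Finsupp.lmapDomain R R (fun t : K.T => (⟨t.1, f.app t.1 t.2⟩ : L.T))

@[simp] theorem map_single {L : SS} (f : SS.Hom K L) (n : ℕ) (x : K.S n) (r : R) :
    map R f (single ⟨n, x⟩ r) = single ⟨n, f.app n x⟩ r := by
  simp [map, Finsupp.lmapDomain_apply, Finsupp.mapDomain_single]

theorem map_bd {L : SS} (f : SS.Hom K L) (c : Ch R K) : map R f (bd R K c) = bd R L (map R f c) := by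
  induction c using Finsupp.induction_linear with
  | zero => simp
  | add f g hf hg => simp only [map_add, hf, hg]
  | single t r =>
    obtain ⟨n, x⟩ := t
    rcases n with _ | n
    · simp
    · rw [bd_single_succ, map_sum, map_single, bd_single_succ]
      refine Finset.sum_congr rfl fun i _ => ?_
      rw [map_single, f.nat]

theorem map_mem_Dg {L : SS} (f : SS.Hom K L) {c : Ch R K} (hc : c ∈ Dg R K) :
    map R f c ∈ Dg R L := by
  refine Submodule.span_induction (p := fun c _ => map R f c ∈ Dg R L) ?_ ?_ ?_ ?_ hc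
  · rintro _ ⟨⟨n, x⟩, hx, rfl⟩
    rcases n with _ | n
    · exact hx.elim
    · obtain ⟨j, y, rfl⟩ := hx
      rw [map_single]
      rw [f.nat]
      exact Submodule.subset_span ⟨_, isDgn_act _ _ _, rfl⟩
  · simp
  · intro a b _ _ ha hb; rw [map_add]; exact Submodule.add_mem _ ha hb
  · intro r a _ ha; rw [map_smul]; exact Submodule.smul_mem _ _ ha

end Ch

/-! ## normalised chains and homology -/

/-- normalised chains (total) -/
abbrev N (R : Type) [CommRing R] (K : SS) : Type := Ch R K ⧸ Ch.Dg R K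

namespace N

variable (R : Type) [CommRing R] (K : SS)

/-- class of a simplex -/
noncomputable def sx {K : SS} {n : ℕ} (x : K.S n) : N R K := Submodule.Quotient.mk (single ⟨n, x⟩ 1)

/-- boundary on normalised chains -/
noncomputable def bd : N R K →ₗ[R] N R K :=
  Submodule.mapQ _ _ (Ch.bd R K) (fun _ hc => Ch.bd_mem_Dg hc)

/-- `n`-dimensional normalised chains -/
noncomputable def gr (n : ℕ) : Submodule R (N R K) := (Ch.gr R K n).map (Submodule.mkQ _)

variable {K}

/-- functoriality -/
noncomputable def map {L : SS} (f : SS.Hom K L) : N R K →ₗ[R] N R L :=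
  Submodule.mapQ _ _ (Ch.map R f) (fun _ hc => Ch.map_mem_Dg f hc)

variable {R}

theorem bd_mk (c : Ch R K) : bd R K (Submodule.Quotient.mk c) = Submodule.Quotient.mk (Ch.bd R K c) := rfl
theorem map_mk {L : SS} (f : SS.Hom K L) (c : Ch R K) :
    map R f (Submodule.Quotient.mk c) = Submodule.Quotient.mk (Ch.map R f c) := rfl

theorem bd_bd (c : N R K) : bd R K (bd R K c) = 0 := by
  obtain ⟨c, rfl⟩ := Submodule.Quotient.mk_surjective _ c
  rw [bd_mk, bd_mk, Ch.bd_bd]; rfl

theorem map_bd {L : SS} (f : SS.Hom K L) : map R f ∘ₗ bd R K = bd R L ∘ₗ map R f := by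
  ext c
  simp only [LinearMap.comp_apply, Submodule.mkQ_apply]
  rw [bd_mk, map_mk, map_mk, bd_mk, Ch.map_bd]

@[simp] theorem map_sx {L : SS} (f : SS.Hom K L) {n : ℕ} (x : K.S n) :
    map R f (sx R x) = sx R (f.app n x) := by
  rw [sx, map_mk, Ch.map_single]; rfl

theorem sx_dgn {n : ℕ} (j : Fin (n + 1)) (y : K.S n) : sx R (K.act (Op.dgn j) y) = 0 :=
  (Submodule.Quotient.mk_eq_zero _).2 (Submodule.subset_span ⟨_, Ch.isDgn_act _ _ _, rfl⟩)

end N

/-- homology of a simplicial set, all degrees together -/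
abbrev H (R : Type) [CommRing R] (K : SS) : Type := Hd (N.bd R K)

namespace H

variable (R : Type) [CommRing R] {K : SS}

/-- functoriality -/
noncomputable def map {L : SS} (f : SS.Hom K L) : H R K →ₗ[R] H R L := Hd.map (N.map R f) (N.map_bd f)

variable (K)
/-- degree `n` part -/
noncomputable def gr (n : ℕ) : Submodule R (H R K) :=
  ((N.gr R K n).comap (LinearMap.ker (N.bd R K)).subtype).map (Submodule.mkQ _)

end H

end Crest.Agent.R204
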