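import Crest.Agent.R204.Bridge_478
import Crest.Agent.R204.Defs

/-!
# Row 204, block I0a': Mathlib's mod 2 singular homology and `H F2 (Sing Y)` of `Defs.lean`

`sing_map_eq_zero`, `sing_map_eq`: vanishing / equality of the maps on Mathlib's singular homology
from vanishing / equality on `H.gr F2 (Sing X) (e+1)`.
-/

set_option autoImplicit false

open CategoryTheory Limits Simplicial AlgebraicTopology Opposite

namespace Crest.Agent.R204.BridgeSing478

open Crest.Agent.R204 Bridge478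

/-- the simplices of `Mathlib`'s singular simplicial set, as continuous maps -/
noncomputable def E (X : TopCat.{0}) (n : ℕ) :
    (TopCat.toSSet.obj X).obj (op ⦋n⦌) ≃ (SS.Sing X).S n :=
  TopCat.toSSetObjEquiv X (op ⦋n⦌)

lemma E_face (X : TopCat.{0}) (n : ℕ) (i : Fin (n + 2))
    (x : (TopCat.toSSet.obj X).obj (op ⦋n + 1⦌)) :
    E X n (face (TopCat.toSSet.obj X) i x) = (SS.Sing X).act (Op.face i) (E X (n + 1) x) := by
  apply ContinuousMap.ext
  intro p
  rfl

lemma E_map {X Y : TopCat.{0}} (f : X ⟶ Y) (n : ℕ)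
    (x : (TopCat.toSSet.obj X).obj (op ⦋n⦌)) :
    E Y n ((TopCat.toSSet.map f).app (op ⦋n⦌) x) = (SS.SingMap f.hom).app n (E X n x) := by
  apply ContinuousMap.ext
  intro p
  rfl

/-- the simplex of `Defs` attached to a simplex of Mathlib's singular set -/
noncomputable def tot (X : TopCat.{0}) (n : ℕ) (x : (TopCat.toSSet.obj X).obj (op ⦋n⦌)) :
    (SS.Sing X).T := ⟨n, E X n x⟩

lemma tot_injective (X : TopCat.{0}) (n : ℕ) : Function.Injective (tot X n) := by
  intro a b h
  simp only [tot, Sigma.mk.injEq, heq_eq_eq, true_and] at h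
  exact (E X n).injective h

/-- Mathlib's chains in degree `n` to the total chains of `Defs` -/
noncomputable def J (X : TopCat.{0}) (n : ℕ) :
    Bridge478.Ch (TopCat.toSSet.obj X) n →ₗ[F2] R204.Ch F2 (SS.Sing X) :=
  Finsupp.lmapDomain F2 F2 (tot X n)

/-- the degree `n` component -/
noncomputable def P (X : TopCat.{0}) (n : ℕ) :
    R204.Ch F2 (SS.Sing X) →ₗ[F2] Bridge478.Ch (TopCat.toSSet.obj X) n :=
  Finsupp.lcomapDomain (tot X n) (tot_injective X n)

lemma J_single (X : TopCat.{0}) (n : ℕ) (x : (TopCat.toSSet.obj X).obj (op ⦋n⦌)) (r : F2) :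
    J X n (Finsupp.single x r) = Finsupp.single ⟨n, E X n x⟩ r := by
  simp [J, tot, Finsupp.lmapDomain_apply, Finsupp.mapDomain_single]

lemma P_apply (X : TopCat.{0}) (n : ℕ) (c : R204.Ch F2 (SS.Sing X))
    (x : (TopCat.toSSet.obj X).obj (op ⦋n⦌)) : P X n c x = c ⟨n, E X n x⟩ := rfl

lemma P_single (X : TopCat.{0}) (n : ℕ) (σ : (SS.Sing X).S n) (r : F2) :
    P X n (Finsupp.single ⟨n, σ⟩ r) = Finsupp.single ((E X n).symm σ) r := by
  classical
  ext x
  rw [P_apply, Finsupp.single_apply, Finsupp.single_apply]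
  congr 1
  simp only [Sigma.mk.injEq, heq_eq_eq, true_and, eq_iff_iff]
  exact (Equiv.symm_apply_eq (E X n)).symm

lemma P_single_ne (X : TopCat.{0}) (n m : ℕ) (h : m ≠ n) (σ : (SS.Sing X).S m) (r : F2) :
    P X n (Finsupp.single ⟨m, σ⟩ r) = 0 := by
  classical
  ext x
  rw [P_apply, Finsupp.single_apply, if_neg]
  · rfl
  · intro h'
    exact h (congrArg Sigma.fst h')

lemma P_J (X : TopCat.{0}) (n : ℕ) (z : Bridge478.Ch (TopCat.toSSet.obj X) n) :
    P X n (J X n z) = z := by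
  induction z using Finsupp.induction_linear with
  | zero => simp
  | add a b ha hb => rw [map_add, map_add, ha, hb]
  | single x r => rw [J_single, P_single, Equiv.symm_apply_apply]

lemma neg_one_pow_F2 (i : ℕ) : (-1 : F2) ^ i = 1 := by
  have : (-1 : F2) = 1 := by decide
  rw [this, one_pow]

lemma bd_J (X : TopCat.{0}) (n : ℕ) (z : Bridge478.Ch (TopCat.toSSet.obj X) (n + 1)) :
    R204.Ch.bd F2 (SS.Sing X) (J X (n + 1) z) = J X n (Bridge478.bd _ n z) := by
  induction z using Finsupp.induction_linear with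
  | zero => simp
  | add a b ha hb => simp only [map_add, ha, hb]
  | single x r =>
    rw [J_single, R204.Ch.bd_single_succ, Bridge478.bd_single, map_sum]
    refine Finset.sum_congr rfl fun i _ => ?_
    rw [J_single, neg_one_pow_F2, mul_one, E_face]

lemma P_bd (X : TopCat.{0}) (n : ℕ) (c : R204.Ch F2 (SS.Sing X)) :
    P X n (R204.Ch.bd F2 (SS.Sing X) c) = Bridge478.bd _ n (P X (n + 1) c) := by
  induction c using Finsupp.induction_linear with
  | zero => simp
  | add a b ha hb => simp only [map_add, ha, hb]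
  | single t r =>
    obtain ⟨m, σ⟩ := t
    rcases m with _ | m
    · rw [R204.Ch.bd_single_zero, P_single_ne X (n + 1) 0 (by omega), map_zero, map_zero]
    · by_cases h : m = n
      · subst h
        rw [P_single, R204.Ch.bd_single_succ, Bridge478.bd_single, map_sum]
        refine Finset.sum_congr rfl fun i _ => ?_
        rw [P_single, neg_one_pow_F2, mul_one]
        have h1 : (E X m).symm ((SS.Sing X).act (Op.face i) σ)
            = face (TopCat.toSSet.obj X) i ((E X (m + 1)).symm σ) :=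
          (Equiv.symm_apply_eq (E X m)).2 (by rw [E_face, Equiv.apply_symm_apply])
        rw [h1]
      · rw [P_single_ne X (n + 1) (m + 1) (by omega), map_zero, R204.Ch.bd_single_succ, map_sum]
        exact Finset.sum_eq_zero fun i _ => P_single_ne X n m h _ _

lemma J_map {X Y : TopCat.{0}} (f : X ⟶ Y) (n : ℕ)
    (z : Bridge478.Ch (TopCat.toSSet.obj X) n) :
    R204.Ch.map F2 (SS.SingMap f.hom) (J X n z) = J Y n (mapC (TopCat.toSSet.map f) n z) := by
  induction z using Finsupp.induction_linear with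
  | zero => simp
  | add a b ha hb => simp only [map_add, ha, hb]
  | single x r =>
    rw [J_single, R204.Ch.map_single, mapC_single, J_single, E_map]

/-- the class in `Defs` homology of a Mathlib cycle -/
noncomputable def cl (X : TopCat.{0}) (e : ℕ) (z : Bridge478.Ch (TopCat.toSSet.obj X) (e + 1))
    (hz : Bridge478.bd _ e z = 0) : H F2 (SS.Sing X) :=
  Hd.mk (N.bd F2 (SS.Sing X)) (Submodule.Quotient.mk (J X (e + 1) z)) (by
    rw [N.bd_mk, bd_J, hz, map_zero]; rfl)

lemma J_mem_gr (X : TopCat.{0}) (n : ℕ) (z : Bridge478.Ch (TopCat.toSSet.obj X) n) :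
    J X n z ∈ R204.Ch.gr F2 (SS.Sing X) n := by
  induction z using Finsupp.induction_linear with
  | zero => simp
  | add a b ha hb => rw [map_add]; exact Submodule.add_mem _ ha hb
  | single x r =>
    rw [J_single]
    have : (Finsupp.single (⟨n, E X n x⟩ : (SS.Sing X).T) r) = r • Finsupp.single ⟨n, E X n x⟩ 1 := by
      simp
    rw [this]
    exact Submodule.smul_mem _ _ (Submodule.subset_span ⟨_, rfl⟩)

lemma cl_mem_gr (X : TopCat.{0}) (e : ℕ) (z : Bridge478.Ch (TopCat.toSSet.obj X) (e + 1))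
    (hz : Bridge478.bd _ e z = 0) : cl X e z hz ∈ H.gr F2 (SS.Sing X) (e + 1) := by
  refine Submodule.mem_map.2 ⟨⟨Submodule.Quotient.mk (J X (e + 1) z), ?_⟩, ?_, rfl⟩
  · rw [LinearMap.mem_ker, N.bd_mk, bd_J, hz, map_zero]; rfl
  · exact Submodule.mem_map.2 ⟨J X (e + 1) z, J_mem_gr X (e + 1) z, rfl⟩

/-- acyclicity of the degenerate chains (normalisation theorem), as a proposition -/
def DgAcyclic (K : SS) : Prop :=
  ∀ c ∈ R204.Ch.Dg F2 K, R204.Ch.bd F2 K c = 0 → ∃ w : R204.Ch F2 K, R204.Ch.bd F2 K w = c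

lemma chain_of_H {Y : TopCat.{0}} (hN : DgAcyclic (SS.Sing Y)) (e : ℕ)
    (c : Bridge478.Ch (TopCat.toSSet.obj Y) (e + 1)) (hc : Bridge478.bd _ e c = 0)
    (h : cl Y e c hc = 0) : ∃ w : Bridge478.Ch (TopCat.toSSet.obj Y) (e + 2),
      c = Bridge478.bd _ (e + 1) w := by
  obtain ⟨w, hw⟩ := Hd.mk_eq_zero.1 h
  obtain ⟨w, rfl⟩ := Submodule.Quotient.mk_surjective _ w
  rw [N.bd_mk] at hw
  have h1 : R204.Ch.bd F2 (SS.Sing Y) w - J Y (e + 1) c ∈ R204.Ch.Dg F2 (SS.Sing Y) :=
    (Submodule.Quotient.eq _).1 hw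
  obtain ⟨v, hv⟩ := hN _ h1 (by
    rw [map_sub, R204.Ch.bd_bd, bd_J, hc, map_zero, sub_zero])
  refine ⟨P Y (e + 2) (w - v), ?_⟩
  rw [← P_bd, map_sub, hv, sub_sub_cancel, P_J]

lemma mapC_cycle {X Y : TopCat.{0}} (f : X ⟶ Y) (e : ℕ)
    {z : Bridge478.Ch (TopCat.toSSet.obj X) (e + 1)} (hz : Bridge478.bd _ e z = 0) :
    Bridge478.bd _ e (mapC (TopCat.toSSet.map f) (e + 1) z) = 0 := by
  have h1 := congrArg (P Y e) (R204.Ch.map_bd (SS.SingMap f.hom) (J X (e + 1) z))
  rw [bd_J, hz, map_zero, map_zero, map_zero, J_map, bd_J, P_J] at h1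
  exact h1.symm

lemma map_cl {X Y : TopCat.{0}} (f : X ⟶ Y) (e : ℕ)
    {z : Bridge478.Ch (TopCat.toSSet.obj X) (e + 1)} (hz : Bridge478.bd _ e z = 0) :
    H.map F2 (SS.SingMap f.hom) (cl X e z hz)
      = cl Y e (mapC (TopCat.toSSet.map f) (e + 1) z) (mapC_cycle f e hz) := by
  have key : N.map F2 (SS.SingMap f.hom) (Submodule.Quotient.mk (J X (e + 1) z))
      = Submodule.Quotient.mk (J Y (e + 1) (mapC (TopCat.toSSet.map f) (e + 1) z)) := by
    rw [N.map_mk, J_map]
  refine Hd.mk_eq_mk.2 ⟨0, ?_⟩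
  rw [map_zero]
  exact (sub_eq_zero.2 key).symm

lemma cl_add (X : TopCat.{0}) (e : ℕ)
    {z z' : Bridge478.Ch (TopCat.toSSet.obj X) (e + 1)} (hz : Bridge478.bd _ e z = 0)
    (hz' : Bridge478.bd _ e z' = 0) (hzz : Bridge478.bd _ e (z + z') = 0) :
    cl X e (z + z') hzz = cl X e z hz + cl X e z' hz' := by
  have key : (Submodule.Quotient.mk (J X (e + 1) (z + z')) : N F2 (SS.Sing X))
      = Submodule.Quotient.mk (J X (e + 1) z) + Submodule.Quotient.mk (J X (e + 1) z') := by
    rw [map_add]; rfl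
  refine Hd.mk_eq_mk.2 ⟨0, ?_⟩
  rw [map_zero]
  exact (sub_eq_zero.2 key).symm

/-- **vanishing on Mathlib's singular homology from vanishing on `H.gr F2 (Sing X) (e+1)`.** -/
theorem sing_map_eq_zero {X Y : TopCat.{0}} (hN : DgAcyclic (SS.Sing Y)) (f : X ⟶ Y) (e : ℕ)
    (h : ∀ x ∈ H.gr F2 (SS.Sing X) (e + 1), H.map F2 (SS.SingMap f.hom) x = 0) :
    ((singularHomologyFunctor (ModuleCat.{0} (ZMod 2)) (e + 1)).obj
        (ModuleCat.of (ZMod 2) (ZMod 2))).map f = 0 := by
  apply singular_map_eq_zero_of_chains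
  intro z hz
  apply chain_of_H hN e _ (mapC_cycle f e hz)
  rw [← map_cl f e hz]
  exact h _ (cl_mem_gr X e z hz)

/-- **equality on Mathlib's singular homology from equality on `H.gr F2 (Sing X) (e+1)`.** -/
theorem sing_map_eq {X Y : TopCat.{0}} (hN : DgAcyclic (SS.Sing Y)) (f g : X ⟶ Y) (e : ℕ)
    (h : ∀ x ∈ H.gr F2 (SS.Sing X) (e + 1),
      H.map F2 (SS.SingMap f.hom) x = H.map F2 (SS.SingMap g.hom) x) :
    ((singularHomologyFunctor (ModuleCat.{0} (ZMod 2)) (e + 1)).obj
        (ModuleCat.of (ZMod 2) (ZMod 2))).map f =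
      ((singularHomologyFunctor (ModuleCat.{0} (ZMod 2)) (e + 1)).obj
        (ModuleCat.of (ZMod 2) (ZMod 2))).map g := by
  apply singular_map_eq_of_chains
  intro z hz
  have hc2 : Bridge478.bd _ e (mapC (TopCat.toSSet.map f) (e + 1) z +
      mapC (TopCat.toSSet.map g) (e + 1) z) = 0 := by
    rw [map_add, mapC_cycle f e hz, mapC_cycle g e hz, add_zero]
  apply chain_of_H hN e _ hc2
  rw [cl_add Y e (mapC_cycle f e hz) (mapC_cycle g e hz), ← map_cl f e hz, ← map_cl g e hz,
    h _ (cl_mem_gr X e z hz), ← two_smul F2, show (2 : F2) = 0 from rfl, zero_smul]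

end Crest.Agent.R204.BridgeSing478
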