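import Crest.Agent.R204.BottK3_369
import Crest.Agent.R204.BottConn_671

/-!
# Row 204, block H: the bridge between paths of loops `FConn` and `JoinedIn`, helper369
-/

set_option autoImplicit false
set_option linter.unusedSectionVars false
set_option linter.unusedSimpArgs false

open Matrix Topology
open scoped unitInterval
open Crest.Agent.R204.K357 Crest.Agent.R204.Clutch369 Crest.Agent.R204.BottLoop313

namespace Crest.Agent.R204.BottK369

noncomputable section

universe u

variable {A : Type u} [NormedCommRing A] [NormedAlgebra ℂ A] [CompleteSpace A]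
variable {n m k l : Type} [Fintype n] [DecidableEq n] [Fintype m] [DecidableEq m]
  [Fintype k] [DecidableEq k] [Fintype l] [DecidableEq l]

/-- the inverse of a continuous family of invertible matrices is continuous -/
theorem continuous_inv_matrix {X : Type*} [TopologicalSpace X] {a : X → Matrix n n A}
    (ha : Continuous a) (h : ∀ x, IsUnit (a x)) : Continuous fun x => (a x)⁻¹ := by
  have hd : Continuous fun x => (a x).det := ha.matrix_det
  have hadj : Continuous fun x => (a x).adjugate := ha.matrix_adjugate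
  have hi : Continuous fun x => Ring.inverse (a x).det := by
    rw [continuous_iff_continuousAt]
    intro x
    obtain ⟨u, hu⟩ := (Matrix.isUnit_iff_isUnit_det _).1 (h x)
    have h1 : ContinuousAt Ring.inverse (a x).det := by
      rw [← hu]
      exact NormedRing.inverse_continuousAt u
    exact ContinuousAt.comp (f := fun y => (a y).det) h1 hd.continuousAt
  have : (fun x => (a x)⁻¹) = fun x => Ring.inverse (a x).det • (a x).adjugate := by
    funext x
    exact Matrix.inv_def _
  rw [this]
  exact hi.smul hadj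

theorem ev_joint {Γ : I → Matrix n n (LoopAlg A)} (hΓ : Continuous Γ) :
    Continuous fun x : I × I => (Γ x.1).map (evL (A := A) x.2) := by
  refine continuous_matrix fun i j => ?_
  have h1 : Continuous fun x : I × I => ((Γ x.1 i j : LoopAlg A) : C(I, A)) := by
    have : Continuous fun r : I => ((Γ r i j : LoopAlg A) : C(I, A)) :=
      continuous_subtype_val.comp (hΓ.matrix_elem i j)
    exact this.comp continuous_fst
  exact h1.eval continuous_snd

/-- joined through units over `LoopAlg A` gives a two parameter family -/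
theorem fconn_of_joined {F G : Matrix n n (LoopAlg A)} (h : JoinedIn {M | IsUnit M} F G) :
    FConn (fun s => F.map (evL s)) (fun s => G.map (evL s)) := by
  obtain ⟨γ, hγ⟩ := h
  have ca : Continuous fun x : I × I => (γ x.1).map (evL x.2) := ev_joint γ.continuous
  have hu : ∀ x : I × I, IsUnit ((γ x.1).map (evL x.2)) := fun x =>
    (hγ x.1).map ((evL x.2 : LoopAlg A →ₐ[ℂ] A) : LoopAlg A →+* A).mapMatrix
  refine ⟨fun x => (γ x.1).map (evL x.2), fun x => ((γ x.1).map (evL x.2))⁻¹, ca,
    continuous_inv_matrix ca hu, fun x => ?_, fun x => ?_, fun r => ?_, fun s => ?_, fun s => ?_⟩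
  · exact Matrix.mul_nonsing_inv _ ((Matrix.isUnit_iff_isUnit_det _).1 (hu x))
  · exact Matrix.nonsing_inv_mul _ ((Matrix.isUnit_iff_isUnit_det _).1 (hu x))
  · ext i j
    exact (γ r i j).2
  · simp
  · simp

/-- a family of loops of matrices as a matrix of loops -/
def mkL (F : I → Matrix n m A) (hF : Continuous F) (h : F 0 = F 1) : Matrix n m (LoopAlg A) :=
  Matrix.of fun i j =>
    (⟨(⟨fun s => F s i j, hF.matrix_elem i j⟩ : C(I, A)), congrFun (congrFun h i) j⟩ : LoopAlg A)

theorem mkL_ev (F : I → Matrix n m A) (hF : Continuous F) (h : F 0 = F 1) (s : I) :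
    (mkL F hF h).map (evL s) = F s := rfl

theorem loop_ext {x y : Matrix n m (LoopAlg A)} (h : ∀ s, x.map (evL s) = y.map (evL s)) : x = y := by
  ext i j : 1
  refine Subtype.ext ?_
  refine ContinuousMap.ext (f := (x i j : C(I, A))) (g := (y i j : C(I, A))) fun s => ?_
  exact congrFun (congrFun (h s) i) j

/-- a two parameter family gives a path of units over `LoopAlg A` -/
theorem joined_of_fconn {F G : Matrix n n (LoopAlg A)}
    (h : FConn (fun s => F.map (evL s)) (fun s => G.map (evL s))) : JoinedIn {M | IsUnit M} F G := by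
  obtain ⟨a, b, ca, cb, ab, ba, a01, hF, hG⟩ := h
  have b01 : ∀ r, b (r, 0) = b (r, 1) := fun r => inv_eq_of (ba (r, 0)) (by rw [a01, ab])
  have hca : ∀ r, Continuous fun s => a (r, s) := fun r => ca.comp (Continuous.prodMk_right r)
  have hcb : ∀ r, Continuous fun s => b (r, s) := fun r => cb.comp (Continuous.prodMk_right r)
  have hΓ : Continuous fun r => mkL (fun s => a (r, s)) (hca r) (a01 r) := by
    refine continuous_matrix fun i j => ?_
    have hc : Continuous fun r : I => (ContinuousMap.curry ⟨fun x : I × I => a x i j, ca.matrix_elem i j⟩) r :=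
      ContinuousMap.continuous _
    exact Continuous.subtype_mk hc _
  have e0 : mkL (fun s => a (0, s)) (hca 0) (a01 0) = F := loop_ext fun s => by
    rw [mkL_ev]; exact hF s
  have e1 : mkL (fun s => a (1, s)) (hca 1) (a01 1) = G := loop_ext fun s => by
    rw [mkL_ev]; exact hG s
  refine ⟨⟨⟨fun r => mkL (fun s => a (r, s)) (hca r) (a01 r), hΓ⟩, e0, e1⟩, fun r => ?_⟩
  refine ⟨⟨mkL (fun s => a (r, s)) (hca r) (a01 r), mkL (fun s => b (r, s)) (hcb r) (b01 r), ?_, ?_⟩, rfl⟩
  · refine loop_ext fun s => ?_
    have : (mkL (fun s => a (r, s)) (hca r) (a01 r) * mkL (fun s => b (r, s)) (hcb r) (b01 r)).map (evL s)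
        = (mkL (fun s => a (r, s)) (hca r) (a01 r)).map (evL s) *
          (mkL (fun s => b (r, s)) (hcb r) (b01 r)).map (evL s) :=
      Matrix.map_mul (f := ((evL s : LoopAlg A →ₐ[ℂ] A) : LoopAlg A →+* A))
    rw [this, mkL_ev, mkL_ev, ab, Matrix.map_one _ (map_zero _) (map_one _)]
  · refine loop_ext fun s => ?_
    have : (mkL (fun s => b (r, s)) (hcb r) (b01 r) * mkL (fun s => a (r, s)) (hca r) (a01 r)).map (evL s)
        = (mkL (fun s => b (r, s)) (hcb r) (b01 r)).map (evL s) *
          (mkL (fun s => a (r, s)) (hca r) (a01 r)).map (evL s) :=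
      Matrix.map_mul (f := ((evL s : LoopAlg A →ₐ[ℂ] A) : LoopAlg A →+* A))
    rw [this, mkL_ev, mkL_ev, ba, Matrix.map_one _ (map_zero _) (map_one _)]

open Crest.Agent.R204.Bott671 (evM evM_apply Conn pl cM zc zc_apply evM_mul)

theorem evM_eq_ev (F : Matrix n m C(Circle, A)) (s : I) :
    (F.map (thetaR A)).map (evL s) = evM (circPt s) F := rfl

theorem fconn_of_conn {F G : Matrix n n C(Circle, A)} (h : Conn F G) :
    FConn (fun s => evM (circPt s) F) (fun s => evM (circPt s) G) := by
  have := fconn_of_joined (joinedIn_theta_iff.2 h)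
  simpa only [evM_eq_ev] using this

theorem conn_of_fconn {F G : Matrix n n C(Circle, A)}
    (h : FConn (fun s => evM (circPt s) F) (fun s => evM (circPt s) G)) : Conn F G :=
  joinedIn_theta_iff.1 (joined_of_fconn (by simpa only [evM_eq_ev] using h))

/-- loop theorem (S), in `C(Circle, A)` form -/
def LoopS (A : Type u) [NormedCommRing A] [NormedAlgebra ℂ A] : Prop :=
  ∀ (n : Type) [Fintype n] [DecidableEq n] (u : Matrix n n C(Circle, A)), IsUnit u →
    ∃ (N : ℕ) (k : Type) (_ : Fintype k) (_ : DecidableEq k) (p c : Matrix (n ⊕ k) (n ⊕ k) A),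
      p * p = p ∧ IsUnit c ∧ Conn (fromBlocks ((zc : C(Circle, A)) ^ N • u) 0 0 1)
        (pl (1 - p) p * cM c)

/-- loop theorem (I), in `C(Circle, A)` form -/
def LoopI (A : Type u) [NormedCommRing A] [NormedAlgebra ℂ A] : Prop :=
  ∀ (n : Type) [Fintype n] [DecidableEq n] (p q : Matrix n n A),
    p * p = p → q * q = q → Conn (pl (1 - p) p) (pl (1 - q) q) → K0.cls p = K0.cls q

theorem evM_pl (p : Matrix n n A) (s : I) : evM (circPt s) (pl (1 - p) p) = Lz (zz s) p := by
  ext i j
  by_cases h : i = j <;>
    simp [Lz, pl, cM, zz, h, Matrix.one_apply, ← Algebra.smul_def, add_comm]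

theorem evM_cM (c : Matrix n m A) (s : I) : evM (circPt s) (cM c) = c := rfl

theorem bottS_of_loopS (h : LoopS A) : BottS A := by
  intro n _ _ u v cu cv uv vu u01
  have v01 : v 0 = v 1 := inv_eq_of (vu 0) (by rw [u01, uv])
  have hu : IsUnit (mkL u cu u01) := by
    refine ⟨⟨mkL u cu u01, mkL v cv v01, ?_, ?_⟩, rfl⟩
    · refine loop_ext fun s => ?_
      have : (mkL u cu u01 * mkL v cv v01).map (evL s)
          = (mkL u cu u01).map (evL s) * (mkL v cv v01).map (evL s) :=
        Matrix.map_mul (f := ((evL s : LoopAlg A →ₐ[ℂ] A) : LoopAlg A →+* A))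
      rw [this, mkL_ev, mkL_ev, uv, Matrix.map_one _ (map_zero _) (map_one _)]
    · refine loop_ext fun s => ?_
      have : (mkL v cv v01 * mkL u cu u01).map (evL s)
          = (mkL v cv v01).map (evL s) * (mkL u cu u01).map (evL s) :=
        Matrix.map_mul (f := ((evL s : LoopAlg A →ₐ[ℂ] A) : LoopAlg A →+* A))
      rw [this, mkL_ev, mkL_ev, vu, Matrix.map_one _ (map_zero _) (map_one _)]
  have hu' : IsUnit ((mkL u cu u01).map (thetaS A)) := isUnit_map_thetaS.2 hu
  have hev : ∀ s, evM (circPt s) ((mkL u cu u01).map (thetaS A)) = u s := by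
    intro s
    rw [← evM_eq_ev, map_thetaR_thetaS, mkL_ev]
  obtain ⟨N, k, ik, dk, p, c, hp, hc, hj⟩ := h n _ hu'
  have hcd := (Matrix.isUnit_iff_isUnit_det _).1 hc
  refine ⟨N, k, ik, dk, p, c, c⁻¹, hp, Matrix.mul_nonsing_inv _ hcd, Matrix.nonsing_inv_mul _ hcd, ?_⟩
  have := fconn_of_conn hj
  have e1 : ∀ s, evM (circPt s) (fromBlocks ((zc : C(Circle, A)) ^ N • (mkL u cu u01).map (thetaS A))
      0 0 (1 : Matrix k k C(Circle, A))) = fromBlocks ((zz s) ^ N • u s) 0 0 1 := by
    intro s
    have h2 := hev s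
    ext i j
    rcases i with i | i <;> rcases j with j | j
    · have h3 : evM (circPt s) ((mkL u cu u01).map (thetaS A)) i j = u s i j := by rw [h2]
      simp only [evM_apply, fromBlocks_apply₁₁, Matrix.smul_apply, smul_eq_mul,
        ContinuousMap.mul_apply, ContinuousMap.pow_apply, zc_apply, ← map_pow, ← Algebra.smul_def] at h3 ⊢
      rw [h3]
      rfl
    · simp
    · simp
    · by_cases h : i = j <;> simp [h, Matrix.one_apply]
  have e2 : ∀ s, evM (circPt s) (pl (1 - p) p * cM c) = Lz (zz s) p * c := by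
    intro s
    rw [evM_mul, evM_pl, evM_cM]
  simpa only [e1, e2] using this

theorem bottI_of_loopI (h : LoopI A) : BottI A := by
  intro n _ _ p q hp hq hf
  refine h n p q hp hq (conn_of_fconn ?_)
  simpa only [evM_pl] using hf

end

end Crest.Agent.R204.BottK369
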