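import Mathlib

/-!
# Row 204, block I0a: bridge from Mathlib's singular homology (mod 2) to explicit chains

`Ch X d` = finitely supported functions on `X _⦋d⦌` with values in `ZMod 2`, `bd` = sum of faces.
Main results: `homologyMap_eq_of_chains`, `homologyMap_eq_zero_of_chains`,
`singular_map_eq_of_chains`, `singular_map_eq_zero_of_chains`.
-/

set_option autoImplicit false

open CategoryTheory Limits Simplicial AlgebraicTopology Opposite

namespace Crest.Agent.R204.Bridge478

/-- the coefficient module -/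
noncomputable abbrev R2 : ModuleCat.{0} (ZMod 2) := ModuleCat.of (ZMod 2) (ZMod 2)

/-- explicit mod 2 chains of a simplicial set -/
abbrev Ch (X : SSet.{0}) (d : ℕ) : Type := (X.obj (op ⦋d⦌)) →₀ ZMod 2

/-- the face operators -/
abbrev face (X : SSet.{0}) {d : ℕ} (i : Fin (d + 2)) (x : X.obj (op ⦋d + 1⦌)) : X.obj (op ⦋d⦌) :=
  X.map (SimplexCategory.δ i).op x

/-- the boundary: the sum of all faces -/
noncomputable def bd (X : SSet.{0}) (d : ℕ) : Ch X (d + 1) →ₗ[ZMod 2] Ch X d :=
  ∑ i : Fin (d + 2), Finsupp.lmapDomain (ZMod 2) (ZMod 2) (face X i)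

/-- the induced map on chains -/
noncomputable def mapC {X Y : SSet.{0}} (F : X ⟶ Y) (d : ℕ) : Ch X d →ₗ[ZMod 2] Ch Y d :=
  Finsupp.lmapDomain (ZMod 2) (ZMod 2) (F.app (op ⦋d⦌))

lemma comp_apply_hom {A B C : ModuleCat.{0} (ZMod 2)} {f : A ⟶ B} {g : B ⟶ C} {h : A ⟶ C}
    (e : f ≫ g = h) (x : A) : g.hom (f.hom x) = h.hom x := by rw [← e]; rfl

lemma comp_apply_zero {A B C : ModuleCat.{0} (ZMod 2)} {f : A ⟶ B} {g : B ⟶ C}
    (e : f ≫ g = 0) (x : A) : g.hom (f.hom x) = 0 := by rw [comp_apply_hom e]; rfl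

lemma comp_apply_hom₂ {A B B' C : ModuleCat.{0} (ZMod 2)} {f : A ⟶ B} {g : B ⟶ C}
    {f' : A ⟶ B'} {g' : B' ⟶ C} (e : f ≫ g = f' ≫ g') (x : A) :
    g.hom (f.hom x) = g'.hom (f'.hom x) := comp_apply_hom e x

lemma bd_single (X : SSet.{0}) (d : ℕ) (x : X.obj (op ⦋d + 1⦌)) (a : ZMod 2) :
    bd X d (Finsupp.single x a) = ∑ i : Fin (d + 2), Finsupp.single (face X i x) a := by
  simp [bd, LinearMap.sum_apply, Finsupp.lmapDomain_apply, Finsupp.mapDomain_single]

lemma mapC_single {X Y : SSet.{0}} (F : X ⟶ Y) (d : ℕ) (x : X.obj (op ⦋d⦌)) (a : ZMod 2) :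
    mapC F d (Finsupp.single x a) = Finsupp.single (F.app (op ⦋d⦌) x) a := by
  simp [mapC, Finsupp.lmapDomain_apply, Finsupp.mapDomain_single]

/-! ### the comparison of chain groups -/

/-- from explicit chains to Mathlib's chains -/
noncomputable def fromFin (X : SSet.{0}) (d : ℕ) :
    ModuleCat.of (ZMod 2) (Ch X d) ⟶ (X.chainComplex R2).X d :=
  ModuleCat.ofHom (Finsupp.lsum (ZMod 2) (fun x => (X.ιChainComplex (R := R2) x).hom))

/-- from Mathlib's chains to explicit chains -/
noncomputable def toFin (X : SSet.{0}) (d : ℕ) :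
    (X.chainComplex R2).X d ⟶ ModuleCat.of (ZMod 2) (Ch X d) :=
  Cofan.IsColimit.desc (X.isColimitChainComplexXCofan R2 d)
    (fun x => ModuleCat.ofHom (Finsupp.lsingle x))

lemma ι_toFin (X : SSet.{0}) (d : ℕ) (x : X.obj (op ⦋d⦌)) :
    X.ιChainComplex (R := R2) x ≫ toFin X d = ModuleCat.ofHom (Finsupp.lsingle x) :=
  Cofan.IsColimit.fac (X.isColimitChainComplexXCofan R2 d) _ x

lemma ofHom_lsingle_fromFin (X : SSet.{0}) (d : ℕ) (x : X.obj (op ⦋d⦌)) :
    ModuleCat.ofHom (Finsupp.lsingle x) ≫ fromFin X d = X.ιChainComplex (R := R2) x := by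
  apply ModuleCat.hom_ext
  apply LinearMap.ext
  intro a
  change (Finsupp.lsum (ZMod 2) (fun x => (X.ιChainComplex (R := R2) x).hom)) (Finsupp.single x a)
    = _
  rw [Finsupp.lsum_single]

lemma toFin_fromFin (X : SSet.{0}) (d : ℕ) : toFin X d ≫ fromFin X d = 𝟙 _ := by
  apply SSet.chainComplex_hom_ext
  intro x
  rw [← Category.assoc, ι_toFin, ofHom_lsingle_fromFin, Category.comp_id]

lemma fromFin_toFin (X : SSet.{0}) (d : ℕ) : fromFin X d ≫ toFin X d = 𝟙 _ := by
  apply ModuleCat.hom_ext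
  apply Finsupp.lhom_ext'
  intro x
  have h : ModuleCat.ofHom (Finsupp.lsingle x) ≫ (fromFin X d ≫ toFin X d)
      = ModuleCat.ofHom (Finsupp.lsingle x) ≫ 𝟙 (ModuleCat.of (ZMod 2) (Ch X d)) := by
    rw [← Category.assoc, ofHom_lsingle_fromFin, ι_toFin, Category.comp_id]
  exact congrArg ModuleCat.Hom.hom h

lemma fromFin_d (X : SSet.{0}) (d : ℕ) :
    fromFin X (d + 1) ≫ (X.chainComplex R2).d (d + 1) d
      = ModuleCat.ofHom (bd X d) ≫ fromFin X d := by
  apply ModuleCat.hom_ext
  apply Finsupp.lhom_ext'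
  intro x
  have h1 : ModuleCat.ofHom (Finsupp.lsingle x) ≫
      (fromFin X (d + 1) ≫ (X.chainComplex R2).d (d + 1) d)
      = ∑ i : Fin (d + 2), X.ιChainComplex (R := R2) (X.δ i x) := by
    rw [← Category.assoc, ofHom_lsingle_fromFin, SSet.ιChainComplex_d]
    refine Finset.sum_congr rfl fun i _ => ?_
    rcases neg_one_pow_eq_or ℤ i.val with h | h
    · rw [h]; simp
    · rw [h]
      apply ModuleCat.hom_ext
      apply LinearMap.ext
      intro y
      simp only [neg_smul, one_smul, ModuleCat.hom_neg, LinearMap.neg_apply]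
      exact ZModModule.neg_eq_self _
  have h2 : ModuleCat.ofHom (Finsupp.lsingle x) ≫ (ModuleCat.ofHom (bd X d) ≫ fromFin X d)
      = ∑ i : Fin (d + 2), X.ιChainComplex (R := R2) (X.δ i x) := by
    have h3 : ModuleCat.ofHom (Finsupp.lsingle x) ≫ ModuleCat.ofHom (bd X d)
        = ∑ i : Fin (d + 2), ModuleCat.ofHom (Finsupp.lsingle (R := ZMod 2) (M := ZMod 2)
            (X.δ i x)) := by
      apply ModuleCat.hom_ext
      apply LinearMap.ext
      intro a
      simp only [ModuleCat.hom_comp, ModuleCat.hom_ofHom, LinearMap.comp_apply,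
        ModuleCat.hom_sum, LinearMap.sum_apply]
      exact bd_single X d x a
    rw [← Category.assoc, h3, Preadditive.sum_comp]
    exact Finset.sum_congr rfl fun i _ => ofHom_lsingle_fromFin X d _
  exact congrArg ModuleCat.Hom.hom (h1.trans h2.symm)

lemma d_toFin (X : SSet.{0}) (d : ℕ) :
    (X.chainComplex R2).d (d + 1) d ≫ toFin X d = toFin X (d + 1) ≫ ModuleCat.ofHom (bd X d) := by
  have h := congrArg (fun q => toFin X (d + 1) ≫ q ≫ toFin X d) (fromFin_d X d)
  simp only [Category.assoc] at h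
  rw [fromFin_toFin, Category.comp_id] at h
  rw [← h, ← Category.assoc, toFin_fromFin, Category.id_comp]

lemma fromFin_map {X Y : SSet.{0}} (F : X ⟶ Y) (d : ℕ) :
    fromFin X d ≫ (SSet.chainComplexMap F R2).f d = ModuleCat.ofHom (mapC F d) ≫ fromFin Y d := by
  apply ModuleCat.hom_ext
  apply Finsupp.lhom_ext'
  intro x
  have h1 : ModuleCat.ofHom (Finsupp.lsingle x) ≫
      (fromFin X d ≫ (SSet.chainComplexMap F R2).f d)
      = Y.ιChainComplex (R := R2) (F.app _ x) := by
    rw [← Category.assoc, ofHom_lsingle_fromFin, SSet.ι_chainComplexMap_f]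
  have h2 : ModuleCat.ofHom (Finsupp.lsingle x) ≫ (ModuleCat.ofHom (mapC F d) ≫ fromFin Y d)
      = Y.ιChainComplex (R := R2) (F.app _ x) := by
    have h3 : ModuleCat.ofHom (Finsupp.lsingle x) ≫ ModuleCat.ofHom (mapC F d)
        = ModuleCat.ofHom (Finsupp.lsingle (R := ZMod 2) (M := ZMod 2) (F.app _ x)) := by
      apply ModuleCat.hom_ext
      apply LinearMap.ext
      intro a
      simp only [ModuleCat.hom_comp, ModuleCat.hom_ofHom, LinearMap.comp_apply]
      exact mapC_single F d x a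
    rw [← Category.assoc, h3, ofHom_lsingle_fromFin]
  exact congrArg ModuleCat.Hom.hom (h1.trans h2.symm)

/-! ### general lemma on chain complexes of modules -/

theorem homologyMap_eq_of_elements {K L : ChainComplex (ModuleCat.{0} (ZMod 2)) ℕ}
    (φ ψ : K ⟶ L) (d : ℕ)
    (h : ∀ z : K.X d, (∀ j, (K.d d j).hom z = 0) →
      ∃ w : L.X (d + 1), (φ.f d).hom z - (ψ.f d).hom z = (L.d (d + 1) d).hom w) :
    HomologicalComplex.homologyMap φ d = HomologicalComplex.homologyMap ψ d := by
  rw [← cancel_epi (K.homologyπ d), HomologicalComplex.homologyπ_naturality,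
    HomologicalComplex.homologyπ_naturality]
  apply ModuleCat.hom_ext
  apply LinearMap.ext
  intro c
  obtain ⟨w, hw⟩ := h ((K.iCycles d).hom c) (fun j => comp_apply_zero (K.iCycles_d d j) c)
  have e1 : (HomologicalComplex.cyclesMap φ d).hom c - (HomologicalComplex.cyclesMap ψ d).hom c
      = (L.toCycles (d + 1) d).hom w := by
    have hmono : Function.Injective (L.iCycles d).hom :=
      (ModuleCat.mono_iff_injective (L.iCycles d)).1 inferInstance
    apply hmono
    rw [map_sub, comp_apply_hom₂ (HomologicalComplex.cyclesMap_i φ d) c,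
      comp_apply_hom₂ (HomologicalComplex.cyclesMap_i ψ d) c,
      comp_apply_hom (L.toCycles_i (d + 1) d) w, hw]
  have e2 : (L.homologyπ d).hom ((L.toCycles (d + 1) d).hom w) = 0 :=
    comp_apply_zero (L.toCycles_comp_homologyπ (d + 1) d) w
  have e3 : (L.homologyπ d).hom ((HomologicalComplex.cyclesMap φ d).hom c)
      - (L.homologyπ d).hom ((HomologicalComplex.cyclesMap ψ d).hom c) = 0 := by
    rw [← map_sub, e1, e2]
  exact sub_eq_zero.1 e3

/-- equality of maps in simplicial homology from explicit chains -/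
theorem homologyMap_eq_of_chains {X Y : SSet.{0}} (F G : X ⟶ Y) (e : ℕ)
    (h : ∀ z : Ch X (e + 1), bd X e z = 0 →
      ∃ w : Ch Y (e + 2), mapC F (e + 1) z + mapC G (e + 1) z = bd Y (e + 1) w) :
    HomologicalComplex.homologyMap (SSet.chainComplexMap F R2) (e + 1) =
      HomologicalComplex.homologyMap (SSet.chainComplexMap G R2) (e + 1) := by
  apply homologyMap_eq_of_elements
  intro z hz
  obtain ⟨w, hw⟩ := h ((toFin X (e + 1)).hom z) (by
    have h1 := comp_apply_hom₂ (d_toFin X e) z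
    rw [hz e, map_zero] at h1
    exact h1.symm)
  have key : ∀ (H : X ⟶ Y), ((SSet.chainComplexMap H R2).f (e + 1)).hom z
      = (fromFin Y (e + 1)).hom (mapC H (e + 1) ((toFin X (e + 1)).hom z)) := by
    intro H
    have h2 := comp_apply_hom₂ (fromFin_map H (e + 1)) ((toFin X (e + 1)).hom z)
    rw [comp_apply_hom (toFin_fromFin X (e + 1)) z] at h2
    exact h2
  refine ⟨(fromFin Y (e + 2)).hom w, ?_⟩
  have h3 := comp_apply_hom₂ (fromFin_d Y (e + 1)) w
  rw [h3, key F, key G, ← map_sub]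
  congr 1
  rw [ModuleCat.hom_ofHom, ← hw]
  rw [sub_eq_add_neg, ZModModule.neg_eq_self]

/-- vanishing of a map in simplicial homology from explicit chains -/
theorem homologyMap_eq_zero_of_chains {X Y : SSet.{0}} (F : X ⟶ Y) (e : ℕ)
    (h : ∀ z : Ch X (e + 1), bd X e z = 0 →
      ∃ w : Ch Y (e + 2), mapC F (e + 1) z = bd Y (e + 1) w) :
    HomologicalComplex.homologyMap (SSet.chainComplexMap F R2) (e + 1) = 0 := by
  rw [← HomologicalComplex.homologyMap_zero (X.chainComplex R2) (Y.chainComplex R2) (e + 1)]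
  apply homologyMap_eq_of_elements
  intro z hz
  obtain ⟨w, hw⟩ := h ((toFin X (e + 1)).hom z) (by
    have h1 := comp_apply_hom₂ (d_toFin X e) z
    rw [hz e, map_zero] at h1
    exact h1.symm)
  have key : ∀ (H : X ⟶ Y), ((SSet.chainComplexMap H R2).f (e + 1)).hom z
      = (fromFin Y (e + 1)).hom (mapC H (e + 1) ((toFin X (e + 1)).hom z)) := by
    intro H
    have h2 := comp_apply_hom₂ (fromFin_map H (e + 1)) ((toFin X (e + 1)).hom z)
    rw [comp_apply_hom (toFin_fromFin X (e + 1)) z] at h2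
    exact h2
  refine ⟨(fromFin Y (e + 2)).hom w, ?_⟩
  have h3 := comp_apply_hom₂ (fromFin_d Y (e + 1)) w
  rw [h3, key F, ModuleCat.hom_ofHom, ← hw]
  simp

/-! ### singular homology -/

/-- **Bridge (equality).** Two continuous maps induce the same map on Mathlib's mod 2 singular
homology in degree `e + 1` as soon as they agree on explicit cycles modulo explicit boundaries. -/
theorem singular_map_eq_of_chains {X Y : TopCat.{0}} (f g : X ⟶ Y) (e : ℕ)
    (h : ∀ z : Ch (TopCat.toSSet.obj X) (e + 1), bd _ e z = 0 →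
      ∃ w : Ch (TopCat.toSSet.obj Y) (e + 2),
        mapC (TopCat.toSSet.map f) (e + 1) z + mapC (TopCat.toSSet.map g) (e + 1) z
          = bd _ (e + 1) w) :
    ((singularHomologyFunctor (ModuleCat.{0} (ZMod 2)) (e + 1)).obj
        (ModuleCat.of (ZMod 2) (ZMod 2))).map f =
      ((singularHomologyFunctor (ModuleCat.{0} (ZMod 2)) (e + 1)).obj
        (ModuleCat.of (ZMod 2) (ZMod 2))).map g :=
  homologyMap_eq_of_chains (TopCat.toSSet.map f) (TopCat.toSSet.map g) e h

/-- **Bridge (vanishing).** -/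
theorem singular_map_eq_zero_of_chains {X Y : TopCat.{0}} (f : X ⟶ Y) (e : ℕ)
    (h : ∀ z : Ch (TopCat.toSSet.obj X) (e + 1), bd _ e z = 0 →
      ∃ w : Ch (TopCat.toSSet.obj Y) (e + 2),
        mapC (TopCat.toSSet.map f) (e + 1) z = bd _ (e + 1) w) :
    ((singularHomologyFunctor (ModuleCat.{0} (ZMod 2)) (e + 1)).obj
        (ModuleCat.of (ZMod 2) (ZMod 2))).map f = 0 :=
  homologyMap_eq_zero_of_chains (TopCat.toSSet.map f) e h

end Crest.Agent.R204.Bridge478
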