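import Mathlib

/-!
Row 204, block C (helper735): little cube operations on iterated loop spaces.

`BoxConf F J` : families, indexed by the finite type `F`, of boxes in the unit cube of `ℝ^J` with
pairwise disjoint interiors.  `mu : BoxConf F J × (F → Ω^J Z) → Ω^J Z` is the little cube operation.
-/

set_option autoImplicit false

open scoped Topology unitInterval Topology.Homotopy
open Set

noncomputable section

namespace Crest.Agent.R204.Cubes735

/-! ### Gluing -/

/-- gluing of finitely many functions with disjoint open supports -/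
theorem continuous_glue {P Z F : Type*} [TopologicalSpace P] [TopologicalSpace Z] [Finite F]
    (z₀ : Z) (U : F → Set P) (hU : ∀ v, IsOpen (U v)) (Φ : F → P → Z)
    (hΦ : ∀ v, Continuous (Φ v)) (hoff : ∀ v p, p ∉ U v → Φ v p = z₀) (f : P → Z)
    (hon : ∀ v p, p ∈ U v → f p = Φ v p) (hz : ∀ p, (∀ v, p ∉ U v) → f p = z₀) :
    Continuous f := by
  rw [continuous_iff_continuousAt]
  intro p
  by_cases hp : ∃ v, p ∈ U v
  · obtain ⟨v, hv⟩ := hp
    have h1 : ContinuousAt (Φ v) p := (hΦ v).continuousAt
    refine h1.congr ?_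
    filter_upwards [(hU v).mem_nhds hv] with q hq
    exact (hon v q hq).symm
  · push Not at hp
    rw [ContinuousAt, hz p hp]
    intro W hW
    have h1 : ∀ v, ∀ᶠ q in 𝓝 p, Φ v q ∈ W := by
      intro v
      have h2 : Filter.Tendsto (Φ v) (𝓝 p) (𝓝 z₀) := by
        have := (hΦ v).continuousAt (x := p)
        rwa [ContinuousAt, hoff v p (hp v)] at this
      exact h2 hW
    have h3 : ∀ᶠ q in 𝓝 p, ∀ v, Φ v q ∈ W := Filter.eventually_all.2 h1
    refine Filter.mem_map.2 ?_
    filter_upwards [h3] with q hq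
    by_cases hq2 : ∃ v, q ∈ U v
    · obtain ⟨v, hv⟩ := hq2
      show f q ∈ W
      rw [hon v q hv]
      exact hq v
    · push Not at hq2
      show f q ∈ W
      rw [hz q hq2]
      exact mem_of_mem_nhds hW

/-! ### Extension of a loop to `ℝ^J` -/

variable {J Z : Type*} [TopologicalSpace Z] {z₀ : Z}

/-- the unit interval retraction -/
def clampI (t : ℝ) : I := projIcc (0 : ℝ) 1 zero_le_one t

lemma continuous_clampI : Continuous clampI := continuous_projIcc (h := zero_le_one)

lemma clampI_coe (t : I) : clampI (t : ℝ) = t := projIcc_val zero_le_one t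

lemma clampI_of_le {t : ℝ} (h : t ≤ 0) : clampI t = 0 := projIcc_of_le_left zero_le_one h

lemma clampI_of_ge {t : ℝ} (h : 1 ≤ t) : clampI t = 1 := projIcc_of_right_le zero_le_one h

lemma coe_clampI {t : ℝ} (h0 : 0 ≤ t) (h1 : t ≤ 1) : ((clampI t : I) : ℝ) = t := by
  simp [clampI, projIcc, h0, h1]

/-- extension of a generalised loop to `ℝ^J` by the base point -/
def ext0 (x : Ω^ J Z z₀) (s : J → ℝ) : Z := x (fun j => clampI (s j))

lemma ext0_off (x : Ω^ J Z z₀) {s : J → ℝ} (h : ¬ ∀ j, 0 < s j ∧ s j < 1) : ext0 x s = z₀ := by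
  push Not at h
  obtain ⟨j, hj⟩ := h
  refine x.2 _ ⟨j, ?_⟩
  by_cases h0 : 0 < s j
  · right; exact clampI_of_ge (hj h0)
  · left; exact clampI_of_le (not_lt.1 h0)

lemma ext0_coe (x : Ω^ J Z z₀) (t : J → I) : ext0 x (fun j => (t j : ℝ)) = x t := by
  simp only [ext0, clampI_coe]

lemma continuous_ext0 {P : Type*} [TopologicalSpace P] {x : P → Ω^ J Z z₀} {s : P → J → ℝ}
    (hx : Continuous x) (hs : Continuous s) : Continuous fun p => ext0 (x p) (s p) := by
  unfold ext0
  refine Continuous.eval hx ?_
  exact continuous_pi fun j => continuous_clampI.comp ((continuous_apply j).comp hs)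

/-! ### Box configurations -/

/-- Families of boxes `∏ⱼ [aᵥⱼ, aᵥⱼ + rᵥⱼ] ⊆ [0,1]^J` with pairwise disjoint interiors
(separated by a coordinate hyperplane). -/
def BoxConf (F J : Type*) : Type _ :=
  {c : (F → J → ℝ) × (F → J → ℝ) //
    (∀ v j, 0 ≤ c.1 v j ∧ 0 < c.2 v j ∧ c.1 v j + c.2 v j ≤ 1) ∧
    ∀ v w, v ≠ w → ∃ j, c.1 v j + c.2 v j ≤ c.1 w j ∨ c.1 w j + c.2 w j ≤ c.1 v j}

instance (F J : Type*) : TopologicalSpace (BoxConf F J) := by unfold BoxConf; infer_instance

namespace BoxConf

variable {F : Type*}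

/-- lower corner -/
def a (c : BoxConf F J) (v : F) (j : J) : ℝ := c.1.1 v j
/-- side lengths -/
def r (c : BoxConf F J) (v : F) (j : J) : ℝ := c.1.2 v j

lemma a_nonneg (c : BoxConf F J) (v : F) (j : J) : 0 ≤ c.a v j := (c.2.1 v j).1
lemma r_pos (c : BoxConf F J) (v : F) (j : J) : 0 < c.r v j := (c.2.1 v j).2.1
lemma add_le (c : BoxConf F J) (v : F) (j : J) : c.a v j + c.r v j ≤ 1 := (c.2.1 v j).2.2
lemma sep (c : BoxConf F J) {v w : F} (h : v ≠ w) :
    ∃ j, c.a v j + c.r v j ≤ c.a w j ∨ c.a w j + c.r w j ≤ c.a v j := c.2.2 v w h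

lemma continuous_a (v : F) (j : J) : Continuous fun c : BoxConf F J => c.a v j :=
  (continuous_apply j).comp ((continuous_apply v).comp (continuous_fst.comp continuous_subtype_val))
lemma continuous_r (v : F) (j : J) : Continuous fun c : BoxConf F J => c.r v j :=
  (continuous_apply j).comp ((continuous_apply v).comp (continuous_snd.comp continuous_subtype_val))

@[ext] lemma ext' {c d : BoxConf F J} (h1 : ∀ v j, c.a v j = d.a v j)
    (h2 : ∀ v j, c.r v j = d.r v j) : c = d := by
  apply Subtype.ext
  apply Prod.ext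
  · funext v j; exact h1 v j
  · funext v j; exact h2 v j

/-- constructor -/
def mk' (a r : F → J → ℝ) (h : ∀ v j, 0 ≤ a v j ∧ 0 < r v j ∧ a v j + r v j ≤ 1)
    (hs : ∀ v w, v ≠ w → ∃ j, a v j + r v j ≤ a w j ∨ a w j + r w j ≤ a v j) : BoxConf F J :=
  ⟨(a, r), h, hs⟩

@[simp] lemma mk'_a (a r : F → J → ℝ) (h hs) : (mk' a r h hs).a = a := rfl
@[simp] lemma mk'_r (a r : F → J → ℝ) (h hs) : (mk' a r h hs).r = r := rfl

lemma continuous_mk {P : Type*} [TopologicalSpace P] {c : P → BoxConf F J}
    (h1 : ∀ v j, Continuous fun p => (c p).a v j) (h2 : ∀ v j, Continuous fun p => (c p).r v j) :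
    Continuous c := by
  refine Continuous.subtype_mk (f := fun p => (c p).1) ?_ _
  refine Continuous.prodMk ?_ ?_
  · exact continuous_pi fun v => continuous_pi fun j => h1 v j
  · exact continuous_pi fun v => continuous_pi fun j => h2 v j

/-- the open box -/
def inside (c : BoxConf F J) (v : F) (t : J → ℝ) : Prop :=
  ∀ j, c.a v j < t j ∧ t j < c.a v j + c.r v j

lemma inside_unique (c : BoxConf F J) {v w : F} {t : J → ℝ} (hv : c.inside v t)
    (hw : c.inside w t) : v = w := by
  by_contra h
  obtain ⟨j, hj⟩ := c.sep h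
  have h1 := hv j
  have h2 := hw j
  rcases hj with hj | hj <;> linarith [h1.1, h1.2, h2.1, h2.2]

/-- rescaling of the box to the unit cube -/
def resc (c : BoxConf F J) (v : F) (t : J → ℝ) : J → ℝ := fun j => (t j - c.a v j) / c.r v j

lemma inside_iff (c : BoxConf F J) (v : F) (t : J → ℝ) :
    c.inside v t ↔ ∀ j, 0 < c.resc v t j ∧ c.resc v t j < 1 := by
  refine forall_congr' fun j => ?_
  have h := c.r_pos v j
  unfold resc
  rw [div_lt_one h, lt_div_iff₀ h, zero_mul]
  constructor <;> rintro ⟨h1, h2⟩ <;> constructor <;> linarith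

lemma continuous_resc {P : Type*} [TopologicalSpace P] {c : P → BoxConf F J} {t : P → J → ℝ}
    (hc : Continuous c) (ht : Continuous t) (v : F) : Continuous fun p => (c p).resc v (t p) := by
  refine continuous_pi fun j => ?_
  unfold resc
  refine Continuous.div ?_ ((continuous_r v j).comp hc) fun p => ((c p).r_pos v j).ne'
  exact ((continuous_apply j).comp ht).sub ((continuous_a v j).comp hc)

end BoxConf

/-! ### The operation -/

section mu

variable {F : Type*}

open Classical in
/-- values of the little cube operation on `ℝ^J` -/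
def muFun (c : BoxConf F J) (x : F → Ω^ J Z z₀) (t : J → ℝ) : Z :=
  if h : ∃ v, c.inside v t then ext0 (x h.choose) (c.resc h.choose t) else z₀

lemma muFun_of_inside (c : BoxConf F J) (x : F → Ω^ J Z z₀) {t : J → ℝ} {v : F}
    (h : c.inside v t) : muFun c x t = ext0 (x v) (c.resc v t) := by
  have hex : ∃ v, c.inside v t := ⟨v, h⟩
  unfold muFun
  rw [dif_pos hex]
  have : hex.choose = v := c.inside_unique hex.choose_spec h
  rw [this]

lemma muFun_of_not (c : BoxConf F J) (x : F → Ω^ J Z z₀) {t : J → ℝ}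
    (h : ∀ v, ¬ c.inside v t) : muFun c x t = z₀ := by
  unfold muFun
  rw [dif_neg]
  push Not
  exact h

/-- characterisation of `muFun` -/
lemma muFun_eq {c : BoxConf F J} {x : F → Ω^ J Z z₀} {t : J → ℝ} {z : Z}
    (h1 : ∀ v, c.inside v t → z = ext0 (x v) (c.resc v t))
    (h2 : (∀ v, ¬ c.inside v t) → z = z₀) : muFun c x t = z := by
  by_cases h : ∃ v, c.inside v t
  · obtain ⟨v, hv⟩ := h
    rw [muFun_of_inside c x hv, h1 v hv]
  · push Not at h
    rw [muFun_of_not c x h, h2 h]

lemma continuous_muFun {P : Type*} [TopologicalSpace P] [Finite F] [Finite J]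
    {c : P → BoxConf F J}
    {x : P → F → Ω^ J Z z₀} {t : P → J → ℝ} (hc : Continuous c) (hx : Continuous x)
    (ht : Continuous t) : Continuous fun p => muFun (c p) (x p) (t p) := by
  refine continuous_glue z₀ (fun v => {p | (c p).inside v (t p)}) (fun v => ?_)
    (fun v p => ext0 (x p v) ((c p).resc v (t p))) (fun v => ?_) (fun v p hp => ?_) _
    (fun v p hp => ?_) (fun p hp => ?_)
  · have : {p | (c p).inside v (t p)} =
      ⋂ j, {p | (c p).a v j < t p j ∧ t p j < (c p).a v j + (c p).r v j} := by
      ext p; simp [BoxConf.inside]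
    rw [this]
    refine isOpen_iInter_of_finite fun j => ?_
    have h1 := (BoxConf.continuous_a v j).comp hc
    have h2 := (BoxConf.continuous_r v j).comp hc
    have h3 := (continuous_apply j).comp ht
    exact (isOpen_lt h1 h3).inter (isOpen_lt h3 (h1.add h2))
  · exact continuous_ext0 ((continuous_apply v).comp hx) (BoxConf.continuous_resc hc ht v)
  · apply ext0_off
    rw [← BoxConf.inside_iff]
    exact hp
  · exact muFun_of_inside _ _ hp
  · exact muFun_of_not _ _ hp

lemma muFun_boundary (c : BoxConf F J) (x : F → Ω^ J Z z₀) {t : J → ℝ}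
    (h : ¬ ∀ j, 0 < t j ∧ t j < 1) : muFun c x t = z₀ := by
  apply muFun_of_not
  intro v hv
  apply h
  intro j
  have h1 := hv j
  have h2 := c.a_nonneg v j
  have h3 := c.add_le v j
  constructor <;> linarith [h1.1, h1.2]

variable [Finite F] [Finite J]

/-- the little cube operation -/
def mu (c : BoxConf F J) (x : F → Ω^ J Z z₀) : Ω^ J Z z₀ :=
  ⟨⟨fun t => muFun c x (fun j => (t j : ℝ)), by
      refine continuous_muFun continuous_const continuous_const ?_
      exact continuous_pi fun j => continuous_subtype_val.comp (continuous_apply j)⟩, by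
    rintro t ⟨j, hj⟩
    apply muFun_boundary
    push Not
    refine ⟨j, fun h0 => ?_⟩
    rcases hj with hj | hj
    · rw [hj] at h0; simp at h0
    · rw [hj]; simp⟩

lemma mu_apply (c : BoxConf F J) (x : F → Ω^ J Z z₀) (t : J → I) :
    mu c x t = muFun c x (fun j => (t j : ℝ)) := rfl

lemma ext0_mu (c : BoxConf F J) (x : F → Ω^ J Z z₀) (s : J → ℝ) :
    ext0 (mu c x) s = muFun c x s := by
  by_cases h : ∀ j, 0 < s j ∧ s j < 1
  · unfold ext0
    rw [mu_apply]
    congr 1
    funext j
    exact coe_clampI (h j).1.le (h j).2.le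
  · rw [ext0_off _ h, muFun_boundary c x h]

/-- continuity of a map into a generalised loop space -/
lemma continuous_genLoop_iff {P : Type*} [TopologicalSpace P] {f : P → Ω^ J Z z₀} :
    Continuous f ↔ Continuous fun p : P × (J → I) => f p.1 p.2 := by
  constructor
  · intro h
    exact (h.comp continuous_fst).eval continuous_snd
  · intro h
    refine Continuous.subtype_mk (f := fun p => (f p).1) ?_ _
    exact ContinuousMap.continuous_of_continuous_uncurry _ h

/-- joint continuity of the little cube operations -/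
theorem continuous_mu {P : Type*} [TopologicalSpace P] {c : P → BoxConf F J}
    {x : P → F → Ω^ J Z z₀} (hc : Continuous c) (hx : Continuous x) :
    Continuous fun p => mu (c p) (x p) := by
  rw [continuous_genLoop_iff]
  refine continuous_muFun (hc.comp continuous_fst) (hx.comp continuous_fst) ?_
  exact continuous_pi fun j => continuous_subtype_val.comp
    ((continuous_apply j).comp continuous_snd)

/-- base point law -/
@[simp] lemma mu_const (c : BoxConf F J) : mu c (fun _ => (GenLoop.const : Ω^ J Z z₀)) =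
    GenLoop.const := by
  ext t
  rw [mu_apply]
  exact muFun_eq (fun v _ => rfl) (fun _ => rfl)

/-- relabelling of boxes -/
def BoxConf.relabel {F' : Type*} (c : BoxConf F J) (e : F' ≃ F) : BoxConf F' J :=
  BoxConf.mk' (fun v => c.a (e v)) (fun v => c.r (e v))
    (fun v j => ⟨c.a_nonneg _ j, c.r_pos _ j, c.add_le _ j⟩)
    (fun _ _ h => c.sep (fun h' => h (e.injective h')))

lemma mu_relabel {F' : Type*} [Finite F'] (c : BoxConf F J) (e : F' ≃ F) (x : F → Ω^ J Z z₀) :
    mu (c.relabel e) (fun v => x (e v)) = mu c x := by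
  ext t
  rw [mu_apply, mu_apply]
  refine muFun_eq (fun v hv => ?_) (fun h => ?_)
  · exact muFun_of_inside c x (v := e v) hv
  · apply muFun_of_not
    intro v hv
    refine h (e.symm v) ?_
    intro j
    have := hv j
    simpa [BoxConf.relabel] using this

/-- sub-family of boxes along an injection -/
def BoxConf.restrict {F' : Type*} (c : BoxConf F J) (e : F' ↪ F) : BoxConf F' J :=
  BoxConf.mk' (fun v => c.a (e v)) (fun v => c.r (e v))
    (fun v j => ⟨c.a_nonneg _ j, c.r_pos _ j, c.add_le _ j⟩)
    (fun _ _ h => c.sep (fun h' => h (e.injective h')))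

/-- boxes labelled by the constant loop can be forgotten -/
lemma mu_restrict {F' : Type*} [Finite F'] (c : BoxConf F J) (e : F' ↪ F)
    (x : F → Ω^ J Z z₀) (hx : ∀ v, v ∉ Set.range e → x v = GenLoop.const) :
    mu (c.restrict e) (fun v => x (e v)) = mu c x := by
  ext t
  rw [mu_apply, mu_apply]
  refine muFun_eq (fun v hv => ?_) (fun h => ?_)
  · exact muFun_of_inside c x (v := e v) hv
  · refine muFun_eq (fun v hv => ?_) (fun _ => rfl)
    by_cases hvr : v ∈ Set.range e
    · obtain ⟨w, rfl⟩ := hvr
      exact absurd hv (h w)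
    · rw [hx v hvr]; rfl

/-- the whole cube as a configuration with one box -/
def BoxConf.one (F J : Type*) [Subsingleton F] : BoxConf F J :=
  BoxConf.mk' (fun _ _ => 0) (fun _ _ => 1) (fun _ _ => by norm_num)
    (fun v w h => absurd (Subsingleton.elim v w) h)

lemma mu_one [Unique F] (x : F → Ω^ J Z z₀) : mu (BoxConf.one F J) x = x default := by
  ext t
  rw [mu_apply]
  refine muFun_eq (fun v hv => ?_) (fun h => ?_)
  · rw [Subsingleton.elim v default, ← ext0_coe]
    congr 1
    funext j
    simp [BoxConf.resc, BoxConf.one]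
  · have h1 := h default
    rw [BoxConf.inside_iff] at h1
    rw [← ext0_coe]
    apply ext0_off
    intro h2
    apply h1
    intro j
    have := h2 j
    simpa [BoxConf.resc, BoxConf.one] using this

/-- composition of box configurations -/
def BoxConf.comp {G : F → Type*} (c : BoxConf F J) (d : ∀ v, BoxConf (G v) J) :
    BoxConf (Σ v, G v) J :=
  BoxConf.mk' (fun p j => c.a p.1 j + c.r p.1 j * (d p.1).a p.2 j)
    (fun p j => c.r p.1 j * (d p.1).r p.2 j)
    (fun p j => by
      have h1 := c.a_nonneg p.1 j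
      have h2 := c.r_pos p.1 j
      have h3 := c.add_le p.1 j
      have h4 := (d p.1).a_nonneg p.2 j
      have h5 := (d p.1).r_pos p.2 j
      have h6 := (d p.1).add_le p.2 j
      refine ⟨by positivity, by positivity, ?_⟩
      nlinarith)
    (fun p q hpq => by
      obtain ⟨v, x⟩ := p
      obtain ⟨w, y⟩ := q
      by_cases hvw : v = w
      · subst hvw
        have hxy : x ≠ y := fun h => hpq (by rw [h])
        obtain ⟨j, hj⟩ := (d v).sep hxy
        refine ⟨j, ?_⟩
        have h2 := c.r_pos v j
        rcases hj with hj | hj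
        · left; simp only; nlinarith
        · right; simp only; nlinarith
      · obtain ⟨j, hj⟩ := c.sep hvw
        refine ⟨j, ?_⟩
        have h2 := c.r_pos v j
        have h2' := c.r_pos w j
        have h4 := (d v).a_nonneg x j
        have h6 := (d v).add_le x j
        have h4' := (d w).a_nonneg y j
        have h6' := (d w).add_le y j
        rcases hj with hj | hj
        · left; simp only; nlinarith [mul_nonneg h2'.le h4']
        · right; simp only; nlinarith [mul_nonneg h2.le h4])

/-- operad law -/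
lemma mu_comp {G : F → Type*} [∀ v, Finite (G v)] (c : BoxConf F J)
    (d : ∀ v, BoxConf (G v) J) (x : ∀ v, G v → Ω^ J Z z₀) :
    mu (c.comp d) (fun p => x p.1 p.2) = mu c (fun v => mu (d v) (x v)) := by
  have key : ∀ (p : Σ v, G v) (t : J → ℝ),
      (c.comp d).resc p t = (d p.1).resc p.2 (c.resc p.1 t) := by
    intro p t
    funext j
    have h2 := (c.r_pos p.1 j).ne'
    have h5 := ((d p.1).r_pos p.2 j).ne'
    simp only [BoxConf.resc, BoxConf.comp, BoxConf.mk'_a, BoxConf.mk'_r]
    field_simp
    ring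
  have key2 : ∀ (p : Σ v, G v) (t : J → ℝ),
      (c.comp d).inside p t ↔ (d p.1).inside p.2 (c.resc p.1 t) := by
    intro p t
    rw [BoxConf.inside_iff, BoxConf.inside_iff, key]
  have key3 : ∀ (v : F) (y : G v) (t : J → ℝ), (d v).inside y (c.resc v t) → c.inside v t := by
    intro v y t h
    rw [BoxConf.inside_iff]
    intro j
    have h1 := h j
    have h4 := (d v).a_nonneg y j
    have h6 := (d v).add_le y j
    constructor <;> linarith [h1.1, h1.2]
  ext t
  rw [mu_apply, mu_apply]
  refine muFun_eq (fun p hp => ?_) (fun h => ?_)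
  · rw [key2] at hp
    rw [muFun_of_inside c _ (key3 _ _ _ hp), ext0_mu, muFun_of_inside _ _ hp, key]
  · refine muFun_eq (fun v hv => ?_) (fun _ => rfl)
    rw [ext0_mu, muFun_of_not]
    intro y hy
    exact h ⟨v, y⟩ ((key2 _ _).2 hy)

/-- naturality in `Z` -/
def GenLoop.map {Z' : Type*} [TopologicalSpace Z'] {z₀' : Z'} (g : C(Z, Z')) (hg : g z₀ = z₀')
    (x : Ω^ J Z z₀) : Ω^ J Z' z₀' :=
  ⟨g.comp x.1, fun t ht => by
    show g (x.1 t) = z₀'
    rw [x.2 t ht, hg]⟩

lemma mu_map {Z' : Type*} [TopologicalSpace Z'] {z₀' : Z'} (g : C(Z, Z')) (hg : g z₀ = z₀')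
    (c : BoxConf F J) (x : F → Ω^ J Z z₀) :
    mu c (fun v => GenLoop.map g hg (x v)) = GenLoop.map g hg (mu c x) := by
  ext t
  rw [mu_apply]
  refine muFun_eq (fun v hv => ?_) (fun h => ?_)
  · show g (mu c x t) = _
    rw [mu_apply, muFun_of_inside c x hv]
    rfl
  · show g (mu c x t) = _
    rw [mu_apply, muFun_of_not c x h, hg]

end mu

end Crest.Agent.R204.Cubes735
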