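import Crest.Agent.R204.EZCross_271

/-!
# Row 204, block C5 (helper265): swap and vertex formulas for the cross product
-/

set_option autoImplicit false

namespace Crest.Agent.R204.C5265

open SS EZ271

theorem swap_prodMap {K L K' L' : SS} (f : SS.Hom K K') (g : SS.Hom L L') :
    (SS.swap K' L').comp (SS.prodMap f g) = (SS.prodMap g f).comp (SS.swap K L) := rfl

theorem isConeMap_swap {K L : SS} (A : Cone K) (B : Cone L) :
    IsConeMap (A.prod B) (B.prod A) (SS.swap K L) where
  k _ := rfl

theorem neg_one_F2 : (-1 : F2) = 1 := by decide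

theorem map_swap_E : ∀ n p q : ℕ, p + q = n →
    N.map F2 (SS.swap (SS.std p) (SS.std q)) (E F2 p q) = E F2 q p := by
  intro n
  induction n with
  | zero =>
    intro p q h
    obtain rfl : p = 0 := by omega
    obtain rfl : q = 0 := by omega
    rw [E_zero_zero, N.map_sx]; rfl
  | succ n ih =>
    intro p q h
    rcases p with _ | p <;> rcases q with _ | q
    · omega
    · rw [E_zero_succ, E_succ_zero, (isConeMap_swap _ _).c, map_map, swap_prodMap, ← map_map,
        ih 0 q (by omega)]
    · rw [E_zero_succ, E_succ_zero, (isConeMap_swap _ _).c, map_map, swap_prodMap, ← map_map,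
        ih p 0 (by omega)]
    · rw [E_succ_succ, E_succ_succ, (isConeMap_swap _ _).c, map_add, map_smul, map_map, map_map,
        swap_prodMap, swap_prodMap, ← map_map, ← map_map, ih p (q + 1) (by omega),
        ih (p + 1) q (by omega), neg_one_F2, one_pow, one_pow, one_smul, one_smul]
      exact congrArg _ (add_comm _ _)

/-- swap symmetry of the cross product (mod 2) -/
theorem map_swap_cross {K L : SS} (a : N F2 K) (b : N F2 L) :
    N.map F2 (SS.swap K L) (cross F2 a b) = cross F2 b a := by
  have : (cross F2 (K := K) (L := L)).compr₂ (N.map F2 (SS.swap K L)) =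
      (cross F2 (K := L) (L := K)).flip := by
    refine bilin_ext F2 fun p x q y => ?_
    simp only [LinearMap.compr₂_apply, LinearMap.flip_apply]
    rw [cross_sx, cross_sx, map_map, swap_prodMap, ← map_map, map_swap_E _ p q rfl]
  exact LinearMap.congr_fun₂ this a b

/-- the constant operator -/
def c0 (q : ℕ) : Op q 0 := ⟨fun _ => 0, fun _ _ _ => le_rfl⟩

theorem op_zero_eq {q : ℕ} (f g : Op q 0) : f = g :=
  OrderHom.ext _ _ (funext fun a => Fin.ext (by omega))

theorem E_zero_left (R : Type) [CommRing R] (q : ℕ) :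
    E R 0 q = N.sx R (K := (SS.std 0).prod (SS.std q)) (n := q) (c0 q, (OrderHom.id : Op q q)) := by
  induction q with
  | zero =>
    rw [E_zero_zero]
    congr 1
    exact Prod.ext (op_zero_eq _ _) (op_zero_eq _ _)
  | succ q ih =>
    rw [E_zero_succ, ih, N.map_sx, Cone.c_sx]
    congr 1
    refine Prod.ext (op_zero_eq _ _) ?_
    show Op.cons ((Op.face 0).comp (OrderHom.id : Op q q)) = (OrderHom.id : Op (q + 1) (q + 1))
    refine OrderHom.ext _ _ (funext fun a => ?_)
    induction a using Fin.cases with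
    | zero => rfl
    | succ a => rfl

/-- cross product with a vertex -/
theorem cross_vertex (R : Type) [CommRing R] {K L : SS} (v : K.S 0) (b : N R L) :
    cross R (N.sx R v) b = N.map R (SS.pair (SS.constHom L K v) (SS.Hom.id L)) b := by
  have : cross R (K := K) (L := L) (N.sx R v) =
      N.map R (SS.pair (SS.constHom L K v) (SS.Hom.id L)) := by
    refine hom_ext fun q y => ?_
    rw [cross_sx, E_zero_left, N.map_sx, N.map_sx]
    congr 1
    exact Prod.ext rfl (L.act_id y)
  rw [this]

/-- cross product with a vertex on the right -/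
theorem cross_vertex_right {K L : SS} (a : N F2 K) (v : L.S 0) :
    cross F2 a (N.sx F2 v) = N.map F2 (SS.pair (SS.Hom.id K) (SS.constHom K L v)) a := by
  rw [← map_swap_cross, cross_vertex, map_map]
  rfl

theorem sg_F2 {K : SS} (c : N F2 K) : sg F2 c = c := by
  have : sg F2 (K := K) = LinearMap.id := by
    refine hom_ext fun n x => ?_
    rw [sg_sx, neg_one_F2, one_pow, one_smul]; rfl
  rw [this]; rfl

theorem bd_cross_F2 {K L : SS} (a : N F2 K) (b : N F2 L) :
    N.bd F2 _ (cross F2 a b) = cross F2 (N.bd F2 K a) b + cross F2 a (N.bd F2 L b) := by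
  rw [bd_cross, sg_F2]

/-! ## degrees -/

section gr

variable (R : Type) [CommRing R]

theorem sx_mem_gr {K : SS} {n : ℕ} (x : K.S n) : N.sx R x ∈ N.gr R K n :=
  Submodule.mem_map_of_mem (Submodule.subset_span ⟨x, rfl⟩)

theorem gr_eq_span (K : SS) (n : ℕ) :
    N.gr R K n = Submodule.span R (Set.range fun x : K.S n => N.sx R x) := by
  unfold N.gr Ch.gr
  rw [Submodule.map_span]
  congr 1
  ext c
  constructor
  · rintro ⟨_, ⟨x, rfl⟩, rfl⟩
    exact ⟨x, rfl⟩
  · rintro ⟨x, rfl⟩
    exact ⟨_, ⟨x, rfl⟩, rfl⟩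

theorem map_mem_gr {K L : SS} (f : SS.Hom K L) {n : ℕ} {c : N R K} (hc : c ∈ N.gr R K n) :
    N.map R f c ∈ N.gr R L n := by
  rw [gr_eq_span] at hc
  refine Submodule.span_induction (p := fun c _ => N.map R f c ∈ N.gr R L n) ?_ ?_ ?_ ?_ hc
  · rintro _ ⟨x, rfl⟩
    simp only [N.map_sx]
    exact sx_mem_gr R _
  · rw [map_zero]; exact Submodule.zero_mem _
  · intro a b _ _ ha hb; rw [map_add]; exact Submodule.add_mem _ ha hb
  · intro r a _ ha; rw [map_smul]; exact Submodule.smul_mem _ _ ha

theorem c_mem_gr {K : SS} (A : Cone K) {n : ℕ} {c : N R K} (hc : c ∈ N.gr R K n) :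
    A.c R c ∈ N.gr R K (n + 1) := by
  rw [gr_eq_span] at hc
  refine Submodule.span_induction (p := fun c _ => A.c R c ∈ N.gr R K (n + 1)) ?_ ?_ ?_ ?_ hc
  · rintro _ ⟨x, rfl⟩
    simp only [Cone.c_sx]
    exact sx_mem_gr R _
  · rw [map_zero]; exact Submodule.zero_mem _
  · intro a b _ _ ha hb; rw [map_add]; exact Submodule.add_mem _ ha hb
  · intro r a _ ha; rw [map_smul]; exact Submodule.smul_mem _ _ ha

theorem E_mem_gr : ∀ n p q : ℕ, p + q = n → E R p q ∈ N.gr R _ (p + q) := by
  intro n
  induction n with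
  | zero =>
    intro p q h
    obtain rfl : p = 0 := by omega
    obtain rfl : q = 0 := by omega
    rw [E_zero_zero]; exact sx_mem_gr R _
  | succ n ih =>
    intro p q h
    rcases p with _ | p <;> rcases q with _ | q
    · omega
    · rw [E_zero_succ]
      exact c_mem_gr R _ (map_mem_gr R _ (ih 0 q (by omega)))
    · rw [E_succ_zero]
      have := c_mem_gr R (Cpq (p + 1) 0) (map_mem_gr R (SS.prodMap (stdMap (Op.face 0)) (SS.Hom.id _))
        (ih p 0 (by omega)))
      exact this
    · rw [E_succ_succ]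
      have h1 := map_mem_gr R (SS.prodMap (stdMap (Op.face 0)) (SS.Hom.id _))
        (ih p (q + 1) (by omega)) (L := (SS.std (p + 1)).prod (SS.std (q + 1)))
      have h2 := map_mem_gr R (SS.prodMap (SS.Hom.id _) (stdMap (Op.face 0)))
        (ih (p + 1) q (by omega)) (L := (SS.std (p + 1)).prod (SS.std (q + 1)))
      have e : p + 1 + q = p + (q + 1) := by omega
      rw [e] at h2
      have := c_mem_gr R (Cpq (p + 1) (q + 1))
        (Submodule.add_mem _ h1 (Submodule.smul_mem _ ((-1 : R) ^ (p + 1)) h2))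
      have e' : p + 1 + (q + 1) = p + (q + 1) + 1 := by omega
      rw [e']
      exact this

theorem cross_mem_gr {K L : SS} {p q : ℕ} {a : N R K} {b : N R L} (ha : a ∈ N.gr R K p)
    (hb : b ∈ N.gr R L q) : cross R a b ∈ N.gr R (K.prod L) (p + q) := by
  rw [gr_eq_span] at ha hb
  refine Submodule.span_induction (p := fun a _ => cross R a b ∈ N.gr R (K.prod L) (p + q))
    ?_ ?_ ?_ ?_ ha
  · rintro _ ⟨x, rfl⟩
    refine Submodule.span_induction
      (p := fun b _ => cross R (N.sx R x) b ∈ N.gr R (K.prod L) (p + q)) ?_ ?_ ?_ ?_ hb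
    · rintro _ ⟨y, rfl⟩
      simp only
      rw [cross_sx]
      exact map_mem_gr R _ (E_mem_gr R _ p q rfl)
    · rw [map_zero]; exact Submodule.zero_mem _
    · intro a b _ _ ha hb; rw [map_add]; exact Submodule.add_mem _ ha hb
    · intro r a _ ha; rw [map_smul]; exact Submodule.smul_mem _ _ ha
  · rw [map_zero]; exact Submodule.zero_mem _
  · intro a b _ _ ha hb; rw [map_add]; exact Submodule.add_mem _ ha hb
  · intro r a _ ha; rw [map_smul]; exact Submodule.smul_mem _ _ ha

end gr

end Crest.Agent.R204.C5265
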