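import Crest.Agent.R204.Ops_265
import Crest.Agent.R204.EZInst_847
import Crest.Agent.R204.GL2A_735
import Crest.Agent.R204.BZ2_498

/-!
# Row 204, leaf C6 (helper898): coproduct and Steenrod operations on `T_i y`

* `cop_aZ`, `cop_aM` : `Δ a_i = ∑_{p+q=i} a_p ⊗ a_q` in `H(B Z/2)`, `H(BM M)`
* `cop_T` : `Δ (T_i y) = ∑_{p+q=i} (T_p ⊗ T_q) (Δ y)`
* `SqSys` : natural operations with the external Cartan formula; `Sq_T` : the Nishida type formula
  `Sq_a (T_i y) = ∑_{b ≤ a} C(i-b,b) T_{i-b} (Sq_{a-b} y)`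
-/

set_option autoImplicit false

noncomputable section

namespace Crest.Agent.R204.C6898

open SS TensorProduct Coalg847 EZ271 ThetaSS265 ThAlg265
open Finset.HasAntidiagonal (antidiagonal mem_antidiagonal)

/-- the Eilenberg-Zilber data of the team -/
abbrev Ez : EZData := EZ847.ezd

/-! ## coproduct of the classes `a_i` -/

/-- `a_n ∈ H_n(B Z/2)` -/
theorem aZ_eq (n : ℕ) : BZ498.aZ n = Hd.mk (N.bd F2 GL2735.BZ) (GL2735.aB n) (GL2735.bd_aB n) := rfl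

theorem hMap_diag_aZ (i : ℕ) : H.map F2 (SS.diag BZ498.BZ) (BZ498.aZ i) =
    ∑ p ∈ antidiagonal i, Ez.cr _ _ (BZ498.aZ p.1 ⊗ₜ BZ498.aZ p.2) := by
  obtain ⟨w, hw⟩ := GL2735.diag_aB i
  have hs : ∀ s : Finset (ℕ × ℕ), ∃ hc : N.bd F2 _ (∑ p ∈ s, cross F2 (GL2735.aB p.1) (GL2735.aB p.2)) = 0,
      ∑ p ∈ s, Ez.cr BZ498.BZ BZ498.BZ (BZ498.aZ p.1 ⊗ₜ BZ498.aZ p.2) =
        Hd.mk (N.bd F2 (GL2735.BZ.prod GL2735.BZ)) (∑ p ∈ s, cross F2 (GL2735.aB p.1) (GL2735.aB p.2)) hc := by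
    classical
    intro s
    induction s using Finset.induction_on with
    | empty => exact ⟨by simp, by simp only [Finset.sum_empty]; rfl⟩
    | insert p s hp ih =>
      obtain ⟨hc, e⟩ := ih
      refine ⟨?_, ?_⟩
      · rw [Finset.sum_insert hp, map_add, hc, add_zero, bd_cross, GL2735.bd_aB, GL2735.bd_aB]
        simp
      · rw [Finset.sum_insert hp, e, aZ_eq, aZ_eq, EZData.cr_mk]
        simp only [Finset.sum_insert hp]
        rfl
  obtain ⟨hc, e⟩ := hs (antidiagonal i)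
  rw [e, aZ_eq, hMap_mk, Hd.mk_eq_mk]
  refine ⟨w, ?_⟩
  rw [hw, sub_eq_add_neg, GL2735.neg_F2]

/-- `Δ a_i = ∑ a_p ⊗ a_q` in `B Z/2` -/
theorem cop_aZ (i : ℕ) : Ez.cop BZ498.BZ (BZ498.aZ i) =
    ∑ p ∈ antidiagonal i, BZ498.aZ p.1 ⊗ₜ BZ498.aZ p.2 := by
  apply (Ez.cr _ _).injective
  rw [EZData.cr_cop, hMap_diag_aZ, map_sum]

/-! ## the skeleton -/

/-- `a_n ∈ H_n(BM M)` -/
def aM (M n : ℕ) : H F2 (BM M) :=
  if h : n ≤ M then Hd.mk (N.bd F2 (BM M)) (C5T557.aCell M n h) (C5T557.bd_aCell M n h) else 0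

theorem aM_of_le {M n : ℕ} (h : n ≤ M) :
    aM M n = Hd.mk (N.bd F2 (BM M)) (C5T557.aCell M n h) (C5T557.bd_aCell M n h) := dif_pos h

theorem aM_eq498 {M n : ℕ} (h : n ≤ M) :
    aM M n = (BZ498.cells (DK742.AltSS.skel M)).a n (C5T557.skel_le h) := by
  have this : C5T557.aCell M n h =
      N.sx F2 ((BZ498.cells (DK742.AltSS.skel M)).aS n (C5T557.skel_le h)) := by
    show N.sx F2 ((DK742.proj (invEM M)).app n (C5T557.eM M n h 0)) =
      N.sx F2 ((DK742.proj (DK742.AltSS.skel M).g).app n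
        ((DK742.AltSS.skel M).e n (C5T557.skel_le h) 0))
    rw [C5T557.skel_e M n h 0]
    rfl
  have key : ∀ (u v : N F2 (BM M)) (huv : u = v) (hu : N.bd F2 (BM M) u = 0)
      (hv : N.bd F2 (BM M) v = 0), Hd.mk (N.bd F2 (BM M)) u hu = Hd.mk (N.bd F2 (BM M)) v hv := by
    rintro u _ rfl _ _; rfl
  rw [aM_of_le h]
  exact key _ _ this _ _

/-- inclusion `BM M → B Z/2` -/
abbrev inc (M : ℕ) : Hom (BM M) BZ498.BZ := BZ498.inclB M

theorem inc_aM {M n : ℕ} (h : n ≤ M) : H.map F2 (inc M) (aM M n) = BZ498.aZ n := by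
  rw [aM_eq498 h]
  exact BZ498.inclB_a M n (C5T557.skel_le h)

/-- a retraction on homology -/
def ret (M : ℕ) : H F2 BZ498.BZ →ₗ[F2] H F2 (BM M) :=
  BZ498.basisZ.constr F2 (fun n => aM M n)

theorem ret_aZ (M n : ℕ) : ret M (BZ498.aZ n) = aM M n := by
  rw [ret, ← BZ498.basisZ_apply, Module.Basis.constr_basis]

theorem homM_ext {M : ℕ} {V : Type*} [AddCommGroup V] [Module F2 V] {f g : H F2 (BM M) →ₗ[F2] V}
    (h : ∀ n ≤ M, f (aM M n) = g (aM M n)) : f = g := by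
  refine (BZ498.cells (DK742.AltSS.skel M)).homH_ext fun n hn => ?_
  have hn' : n ≤ M := by
    have : (n : ℕ∞) ≤ (M : ℕ∞) := hn
    exact_mod_cast this
  rw [← aM_eq498 hn']
  exact h n hn'

theorem ret_inc (M : ℕ) : ret M ∘ₗ H.map F2 (inc M) = LinearMap.id :=
  homM_ext fun n h => by
    rw [LinearMap.comp_apply, inc_aM h, ret_aZ, LinearMap.id_apply]

theorem inc_injective (M : ℕ) : Function.Injective (H.map F2 (inc M)) :=
  Function.HasLeftInverse.injective ⟨ret M, fun x => LinearMap.congr_fun (ret_inc M) x⟩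

theorem cop_aM (M i : ℕ) (h : i ≤ M) : Ez.cop (BM M) (aM M i) =
    ∑ p ∈ antidiagonal i, aM M p.1 ⊗ₜ aM M p.2 := by
  have e1 : ∀ t : H F2 (BM M) ⊗[F2] H F2 (BM M), TensorProduct.map (ret M) (ret M)
      (TensorProduct.map (H.map F2 (inc M)) (H.map F2 (inc M)) t) = t := by
    intro t
    rw [← LinearMap.comp_apply, ← TensorProduct.map_comp, ret_inc, TensorProduct.map_id]
    rfl
  rw [← e1 (Ez.cop (BM M) (aM M i)), ← EZData.cop_nat, inc_aM h, cop_aZ, map_sum]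
  refine Finset.sum_congr rfl fun p _ => ?_
  rw [TensorProduct.map_tmul, ret_aZ, ret_aZ]

/-! ## the operations `T_i` -/

section

variable {M : ℕ} {K : SS}

/-- `Ψ` of an algebra -/
abbrev Psi' (A : ThAlg M K) : Hom ((BM M).prod K) K := C5T557.PsiOf A.Th

/-- `T_i y = Ψ_*(a_i × y)` -/
theorem T_eq (A : ThAlg M K) (i : ℕ) (y : H F2 K) :
    Ops265.T A i y = H.map F2 (Psi' A) (Ez.cr (BM M) K (aM M i ⊗ₜ y)) := by
  by_cases h : i ≤ M
  · obtain ⟨z, hz, rfl⟩ := Hd.mk_surj _ y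
    rw [aM_of_le h, EZData.cr_mk, Ops265.T, C5T557.TT_of_le A.Th i h, C5T557.opT_mk, hMap_mk]
    rfl
  · rw [aM, dif_neg h, TensorProduct.zero_tmul, map_zero, map_zero, Ops265.T, C5T557.TT, dif_neg h]
    rfl

theorem cop_T_aux (A : ThAlg M K) (p q : ℕ) (t : H F2 K ⊗[F2] H F2 K) :
    TensorProduct.map (H.map F2 (Psi' A)) (H.map F2 (Psi' A))
      (TensorProduct.map (Ez.cr (BM M) K).toLinearMap (Ez.cr (BM M) K).toLinearMap
        (TensorProduct.tensorTensorTensorComm F2 _ _ _ _ ((aM M p ⊗ₜ aM M q) ⊗ₜ t))) =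
      TensorProduct.map (Ops265.T A p) (Ops265.T A q) t := by
  induction t with
  | zero => simp
  | add a b ha hb => simp only [map_add, TensorProduct.tmul_add, ha, hb]
  | tmul a b =>
    have e1 := T_eq A p a
    have e2 := T_eq A q b
    calc _ = H.map F2 (Psi' A) (Ez.cr (BM M) K (aM M p ⊗ₜ a)) ⊗ₜ[F2]
          H.map F2 (Psi' A) (Ez.cr (BM M) K (aM M q ⊗ₜ b)) := rfl
      _ = _ := by rw [← e1, ← e2]; rfl

/-- **`Δ (T_i y) = ∑_{p+q=i} (T_p ⊗ T_q) (Δ y)`** -/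
theorem cop_T (A : ThAlg M K) {i : ℕ} (h : i ≤ M) (y : H F2 K) :
    Ez.cop K (Ops265.T A i y) = ∑ p ∈ antidiagonal i,
      TensorProduct.map (Ops265.T A p.1) (Ops265.T A p.2) (Ez.cop K y) := by
  rw [T_eq, EZData.cop_nat, EZData.cop_cr, cop_aM M i h, TensorProduct.sum_tmul, map_sum, map_sum,
    map_sum]
  exact Finset.sum_congr rfl fun p _ => cop_T_aux A p.1 p.2 _

end

/-! ## Steenrod operations -/

/-- a natural family of operations with the external Cartan formula and the right values on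
`B Z/2` -/
structure SqSys where
  Sq : ∀ K : SS, ℕ → H F2 K →ₗ[F2] H F2 K
  nat : ∀ {K L : SS} (f : Hom K L) (a : ℕ) (x : H F2 K),
    H.map F2 f (Sq K a x) = Sq L a (H.map F2 f x)
  cartan : ∀ (K L : SS) (a : ℕ) (x : H F2 K) (y : H F2 L), Sq (K.prod L) a (Ez.cr K L (x ⊗ₜ y)) =
    ∑ p ∈ antidiagonal a, Ez.cr K L (Sq K p.1 x ⊗ₜ Sq L p.2 y)
  sqB : ∀ i b : ℕ, Sq BZ498.BZ b (BZ498.aZ i) =
    if 2 * b ≤ i then (Nat.choose (i - b) b : F2) • BZ498.aZ (i - b) else 0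

namespace SqSys

variable (S : SqSys) {M : ℕ} {K : SS}

theorem sqM (M i b : ℕ) (h : i ≤ M) : S.Sq (BM M) b (aM M i) =
    (if 2 * b ≤ i then (Nat.choose (i - b) b : F2) else 0) • aM M (i - b) := by
  apply inc_injective M
  rw [S.nat, inc_aM h, S.sqB, map_smul, inc_aM (by omega)]
  split_ifs <;> simp

/-- **`Sq_a (T_i y) = ∑_{b ≤ a} C(i-b,b) T_{i-b} (Sq_{a-b} y)`** -/
theorem Sq_T (A : ThAlg M K) {i : ℕ} (h : i ≤ M) (a : ℕ) (y : H F2 K) :
    S.Sq K a (Ops265.T A i y) = ∑ b ∈ Finset.range (a + 1),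
      (if 2 * b ≤ i then (Nat.choose (i - b) b : F2) else 0) •
        Ops265.T A (i - b) (S.Sq K (a - b) y) := by
  rw [T_eq, ← S.nat, S.cartan, map_sum, Finset.Nat.sum_antidiagonal_eq_sum_range_succ_mk]
  refine Finset.sum_congr rfl fun b _ => ?_
  simp only
  rw [S.sqM M i b h, ← TensorProduct.smul_tmul', map_smul, map_smul, T_eq]

end SqSys

end Crest.Agent.R204.C6898
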