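import Crest.Agent.R204.Defs

/-!
# Row 204, leaf B5 (g), part A: the degree one Hurewicz homomorphism on normalised chains, any
coefficient ring (helper808)

`ps p : (Sing B).S 1` for a path `p`; modulo boundaries `sx (ps ·)` is additive under
concatenation and invariant under homotopy rel endpoints; `hur : π₁(B,b) →* Multiplicative (N/bd N)`.
-/

set_option autoImplicit false

noncomputable section

namespace Crest.Agent.R204.Pi808

open Crest.Agent.R204 unitInterval

theorem bd_sx (R : Type) [CommRing R] {K : SS} {n : ℕ} (x : K.S (n + 1)) :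
    N.bd R K (N.sx R x) = ∑ i : Fin (n + 2), ((-1 : R) ^ (i : ℕ)) • N.sx R (K.act (Op.face i) x) := by
  rw [N.sx, N.bd_mk, Ch.bd_single_succ]
  rw [← Submodule.mkQ_apply, map_sum]
  refine Finset.sum_congr rfl fun i _ => ?_
  rw [N.sx, ← Submodule.mkQ_apply, ← map_smul, Finsupp.smul_single, smul_eq_mul, mul_one, one_mul]

variable {B : Type} [TopologicalSpace B]

/-! ## affine coordinates -/

/-- affine function on the simplex with prescribed values at the vertices -/
def crd {n : ℕ} (g : Fin (n + 1) → I) : C(stdSimplex ℝ (Fin (n + 1)), I) where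
  toFun t := ⟨∑ i, (g i : ℝ) * t i,
    Finset.sum_nonneg fun i _ => mul_nonneg (g i).2.1 (stdSimplex.zero_le t i), by
    calc ∑ i, (g i : ℝ) * t i ≤ ∑ i, t i :=
          Finset.sum_le_sum fun i _ => mul_le_of_le_one_left (stdSimplex.zero_le t i) (g i).2.2
      _ = 1 := stdSimplex.sum_eq_one t⟩
  continuous_toFun := by
    apply Continuous.subtype_mk
    refine continuous_finsetSum _ fun i _ => ?_
    exact continuous_const.mul ((continuous_apply i).comp continuous_subtype_val)

theorem crd_val {n : ℕ} (g : Fin (n + 1) → I) (t : stdSimplex ℝ (Fin (n + 1))) :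
    ((crd g t : I) : ℝ) = ∑ i, (g i : ℝ) * t i := rfl

theorem crd_comp {m n : ℕ} (f : Op m n) (g : Fin (n + 1) → I) :
    (crd g).comp ⟨stdSimplex.map f, stdSimplex.continuous_map f⟩ = crd (fun i => g (f i)) := by
  ext t
  simp only [ContinuousMap.comp_apply, ContinuousMap.coe_mk, crd_val]
  have : ∀ j, (stdSimplex.map f t : stdSimplex ℝ (Fin (n + 1))) j = ∑ i, if f i = j then t i else 0 := by
    intro j
    rw [stdSimplex.map_coe, FunOnFinite.linearMap_apply_apply, Finset.sum_filter]
  simp only [this, Finset.mul_sum]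
  rw [Finset.sum_comm]
  refine Finset.sum_congr rfl fun i _ => ?_
  rw [Finset.sum_eq_single (f i)]
  · simp
  · intro j _ hj; rw [if_neg (Ne.symm hj), mul_zero]
  · intro h; exact absurd (Finset.mem_univ _) h

theorem crd_const {n : ℕ} (c : I) (t : stdSimplex ℝ (Fin (n + 1))) : crd (fun _ => c) t = c := by
  apply Subtype.ext
  rw [crd_val, ← Finset.mul_sum, stdSimplex.sum_eq_one, mul_one]

/-- simplices in the square -/
def sqx (F : C(I × I, B)) {n : ℕ} (g g' : Fin (n + 1) → I) : (SS.Sing B).S n :=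
  F.comp ((crd g).prodMk (crd g'))

theorem sqx_act (F : C(I × I, B)) {m n : ℕ} (f : Op m n) (g g' : Fin (n + 1) → I) :
    (SS.Sing B).act f (sqx F g g') = sqx F (fun i => g (f i)) (fun i => g' (f i)) := by
  change (F.comp ((crd g).prodMk (crd g'))).comp _ = _
  rw [sqx, ← crd_comp, ← crd_comp]
  rfl

/-- simplices on a path -/
def pth (q : C(I, B)) {n : ℕ} (g : Fin (n + 1) → I) : (SS.Sing B).S n := q.comp (crd g)

theorem pth_act (q : C(I, B)) {m n : ℕ} (f : Op m n) (g : Fin (n + 1) → I) :
    (SS.Sing B).act f (pth q g) = pth q (fun i => g (f i)) := by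
  change (q.comp (crd g)).comp _ = _
  rw [pth, ← crd_comp]
  rfl

/-- the singular 1-simplex of a path -/
def ps {x y : B} (p : Path x y) : (SS.Sing B).S 1 := pth p.toContinuousMap ![0, 1]

/-- constant simplex -/
def cst (y : B) (n : ℕ) : (SS.Sing B).S n := ContinuousMap.const _ y

theorem sx_cst (R : Type) [CommRing R] (y : B) (n : ℕ) :
    N.sx R (K := SS.Sing B) (cst y (n + 1)) = 0 := by
  have : (cst y (n + 1) : (SS.Sing B).S (n + 1)) = (SS.Sing B).act (Op.dgn 0) (cst y n) := rfl
  rw [this, N.sx_dgn]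

theorem face0_1 : (fun i => (![(0 : I), 1] : Fin 2 → I) ((Op.face (0 : Fin 2)) i)) = fun _ => 1 := by
  funext i; fin_cases i; rfl

theorem face1_1 : (fun i => (![(0 : I), 1] : Fin 2 → I) ((Op.face (1 : Fin 2)) i)) = fun _ => 0 := by
  funext i; fin_cases i; rfl

section faces2
variable (a b c : I)

theorem face0_2 : (fun i => (![a, b, c] : Fin 3 → I) ((Op.face (0 : Fin 3)) i)) = ![b, c] := by
  funext i; fin_cases i <;> rfl

theorem face1_2 : (fun i => (![a, b, c] : Fin 3 → I) ((Op.face (1 : Fin 3)) i)) = ![a, c] := by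
  funext i; fin_cases i <;> rfl

theorem face2_2 : (fun i => (![a, b, c] : Fin 3 → I) ((Op.face (2 : Fin 3)) i)) = ![a, b] := by
  funext i; fin_cases i <;> rfl

end faces2

theorem bd_sx2 (R : Type) [CommRing R] {K : SS} (x : K.S 2) :
    N.bd R K (N.sx R x) = N.sx R (K.act (Op.face 0) x) - N.sx R (K.act (Op.face 1) x) +
      N.sx R (K.act (Op.face 2) x) := by
  rw [bd_sx, Fin.sum_univ_three]
  simp only [Fin.val_zero, pow_zero, one_smul, Fin.val_one, pow_one, neg_smul, Fin.val_two,
    even_two, Even.neg_pow, one_pow]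
  abel

theorem bd_pth (R : Type) [CommRing R] (q : C(I, B)) (a b c : I) :
    N.bd R (SS.Sing B) (N.sx R (K := SS.Sing B) (pth q ![a, b, c])) =
      N.sx R (K := SS.Sing B) (pth q ![b, c]) - N.sx R (K := SS.Sing B) (pth q ![a, c]) +
      N.sx R (K := SS.Sing B) (pth q ![a, b]) := by
  rw [bd_sx2, pth_act, pth_act, pth_act, face0_2, face1_2, face2_2]

theorem bd_sqx (R : Type) [CommRing R] (F : C(I × I, B)) (a b c a' b' c' : I) :
    N.bd R (SS.Sing B) (N.sx R (K := SS.Sing B) (sqx F ![a, b, c] ![a', b', c'])) =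
      N.sx R (K := SS.Sing B) (sqx F ![b, c] ![b', c']) -
      N.sx R (K := SS.Sing B) (sqx F ![a, c] ![a', c']) +
      N.sx R (K := SS.Sing B) (sqx F ![a, b] ![a', b']) := by
  rw [bd_sx2, sqx_act, sqx_act, sqx_act, face0_2, face1_2, face2_2, face0_2, face1_2, face2_2]

/-- one half -/
def hf : I := ⟨1 / 2, by norm_num, by norm_num⟩

theorem crd2_val (a b : I) (t : stdSimplex ℝ (Fin 2)) :
    ((crd ![a, b] t : I) : ℝ) = a * t 0 + b * t 1 := by
  rw [crd_val, Fin.sum_univ_two]; rfl

theorem sum2 (t : stdSimplex ℝ (Fin 2)) : t 0 + t 1 = 1 := by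
  have := stdSimplex.sum_eq_one t
  rwa [Fin.sum_univ_two] at this

theorem pth_trans0 {x y z : B} (p : Path x y) (q : Path y z) :
    pth (p.trans q).toContinuousMap ![hf, 1] = ps q := by
  apply ContinuousMap.ext
  intro t
  change (p.trans q) (crd ![hf, 1] t) = q (crd ![0, 1] t)
  have h1 : ((crd ![hf, 1] t : I) : ℝ) = (1 + t 1) / 2 := by
    rw [crd2_val]
    have := sum2 t
    have e : ((hf : I) : ℝ) = 1 / 2 := rfl
    rw [e, Set.Icc.coe_one]; linarith
  have h2 : ((crd ![0, 1] t : I) : ℝ) = t 1 := by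
    rw [crd2_val, Set.Icc.coe_one, Set.Icc.coe_zero]; ring
  have h3 := stdSimplex.zero_le t 1
  rw [Path.trans_apply]
  split_ifs with h
  · have h4 : t 1 = 0 := by rw [h1] at h; linarith
    have h5 : crd ![0, 1] t = (0 : I) := Subtype.ext (by rw [h2, h4]; rfl)
    rw [h5, q.source]
    have h6 : (⟨2 * ((crd ![hf, 1] t : I) : ℝ), (unitInterval.mul_pos_mem_iff zero_lt_two).2
        ⟨(crd ![hf, 1] t).2.1, h⟩⟩ : I) = 1 := Subtype.ext (by
          show 2 * ((crd ![hf, 1] t : I) : ℝ) = 1
          rw [h1, h4]; norm_num)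
    rw [h6, p.target]
  · congr 1
    apply Subtype.ext
    simp only
    rw [h1, h2]; ring

theorem pth_trans2 {x y z : B} (p : Path x y) (q : Path y z) :
    pth (p.trans q).toContinuousMap ![0, hf] = ps p := by
  apply ContinuousMap.ext
  intro t
  change (p.trans q) (crd ![0, hf] t) = p (crd ![0, 1] t)
  have h1 : ((crd ![0, hf] t : I) : ℝ) = t 1 / 2 := by
    rw [crd2_val]
    have e : ((hf : I) : ℝ) = 1 / 2 := rfl
    rw [e, Set.Icc.coe_zero]; ring
  have h2 : ((crd ![0, 1] t : I) : ℝ) = t 1 := by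
    rw [crd2_val, Set.Icc.coe_one, Set.Icc.coe_zero]; ring
  have h3 : t 1 ≤ 1 := by
    have := sum2 t
    have := stdSimplex.zero_le t 0
    linarith
  rw [Path.trans_apply]
  rw [dif_pos (by rw [h1]; linarith)]
  congr 1
  apply Subtype.ext
  simp only
  rw [h1, h2]; ring

variable (R : Type) [CommRing R]

/-- chains modulo boundaries -/
abbrev NB (B : Type) [TopologicalSpace B] : Type :=
  N R (SS.Sing B) ⧸ LinearMap.range (N.bd R (SS.Sing B))

/-- class of a path modulo boundaries -/
def hp {x y : B} (p : Path x y) : NB R B := Submodule.Quotient.mk (N.sx R (K := SS.Sing B) (ps p))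

theorem hp_trans {x y z : B} (p : Path x y) (q : Path y z) :
    hp R (p.trans q) = hp R p + hp R q := by
  rw [hp, hp, hp, ← Submodule.Quotient.mk_add, Submodule.Quotient.eq]
  refine ⟨-(N.sx R (K := SS.Sing B) (pth (p.trans q).toContinuousMap ![0, hf, 1])), ?_⟩
  rw [map_neg, bd_pth, pth_trans0, pth_trans2]
  have : pth (p.trans q).toContinuousMap ![0, 1] = ps (p.trans q) := rfl
  rw [this]
  abel

theorem hp_homotopic {x y : B} {p q : Path x y} (h : p.Homotopic q) : hp R p = hp R q := by
  obtain ⟨F⟩ := h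
  rw [hp, hp, Submodule.Quotient.eq]
  let G : C(I × I, B) := F.toContinuousMap
  refine ⟨N.sx R (K := SS.Sing B) (sqx G ![0, 0, 1] ![0, 1, 1]) -
    N.sx R (K := SS.Sing B) (sqx G ![0, 1, 1] ![0, 0, 1]), ?_⟩
  rw [map_sub, bd_sqx, bd_sqx]
  have c1 : (![1, 1] : Fin 2 → I) = fun _ => 1 := by funext i; fin_cases i <;> rfl
  have c0 : (![0, 0] : Fin 2 → I) = fun _ => 0 := by funext i; fin_cases i <;> rfl
  have e1 : sqx G ![0, 1] ![1, 1] = cst y 1 := by
    apply ContinuousMap.ext
    intro t
    change F (crd ![0, 1] t, crd ![1, 1] t) = y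
    rw [c1, crd_const, F.target]
  have e2 : sqx G ![0, 0] ![0, 1] = ps p := by
    apply ContinuousMap.ext
    intro t
    change F (crd ![0, 0] t, crd ![0, 1] t) = p (crd ![0, 1] t)
    rw [c0, crd_const]
    exact F.apply_zero _
  have e3 : sqx G ![1, 1] ![0, 1] = ps q := by
    apply ContinuousMap.ext
    intro t
    change F (crd ![1, 1] t, crd ![0, 1] t) = q (crd ![0, 1] t)
    rw [c1, crd_const]
    exact F.apply_one _
  have e4 : sqx G ![0, 1] ![0, 0] = cst x 1 := by
    apply ContinuousMap.ext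
    intro t
    change F (crd ![0, 1] t, crd ![0, 0] t) = x
    rw [c0, crd_const, F.source]
  rw [e1, e2, e3, e4, sx_cst, sx_cst]
  abel

/-- class of a homotopy class of paths -/
def hq {x y : B} (a : Path.Homotopic.Quotient x y) : NB R B :=
  Quotient.lift (fun p : Path x y => hp R p) (fun _ _ h => hp_homotopic R h) a

theorem hq_mk {x y : B} (p : Path x y) : hq R (Path.Homotopic.Quotient.mk p) = hp R p := rfl

theorem hq_trans {x y z : B} (a : Path.Homotopic.Quotient x y) (b : Path.Homotopic.Quotient y z) :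
    hq R (a.trans b) = hq R a + hq R b := by
  obtain ⟨p, rfl⟩ := Path.Homotopic.Quotient.mk_surjective a
  obtain ⟨q, rfl⟩ := Path.Homotopic.Quotient.mk_surjective b
  rw [← Path.Homotopic.Quotient.mk_trans, hq_mk, hq_mk, hq_mk, hp_trans]

theorem hq_refl (x : B) : hq R (Path.Homotopic.Quotient.refl x) = 0 := by
  have := hq_trans R (Path.Homotopic.Quotient.refl x) (Path.Homotopic.Quotient.refl x)
  have h2 : (Path.Homotopic.Quotient.refl x).trans (Path.Homotopic.Quotient.refl x) =
      Path.Homotopic.Quotient.refl x := by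
    rw [← Path.Homotopic.Quotient.mk_refl, ← Path.Homotopic.Quotient.mk_trans,
      Path.refl_trans_refl]
  rw [h2] at this
  exact left_eq_add.1 this

/-- the Hurewicz homomorphism in degree one -/
def hur (b : B) : FundamentalGroup B b →* Multiplicative (NB R B) where
  toFun a := Multiplicative.ofAdd (hq R a.toPath)
  map_one' := by
    rw [FundamentalGroup.one_def]
    exact congrArg _ (hq_refl R b)
  map_mul' a c := by
    rw [FundamentalGroup.mul_def]
    change Multiplicative.ofAdd (hq R (Path.Homotopic.Quotient.trans c a)) = _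
    rw [hq_trans, add_comm, ofAdd_add]

theorem hur_apply (b : B) (a : FundamentalGroup B b) :
    (hur R b a).toAdd = hq R a.toPath := rfl

theorem hq_zpow (b : B) (a : FundamentalGroup B b) (k : ℤ) :
    hq R (a ^ k).toPath = k • hq R a.toPath := by
  rw [← hur_apply, ← hur_apply, map_zpow, toAdd_zpow]

end Crest.Agent.R204.Pi808
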