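import Crest.Agent.R204.Wang_905

/-!
# Row 204, leaf B5: explicit form of the Wang sequence (helper905)

* canonical lifts `lift C n : K.S n → Kt.S n` (0-th vertex in a fixed section), heights `ht`
* integral cocycle `kap C : K.S 1 → ℤ`
* `capN C R : N R K →ₗ N R K`, `x ↦ kap (x|01) • d_0 x`
* `p_dlt_mk : p_* (dlt [z]) = -[capN z]`, `capH C : H F2 K →ₗ H F2 K`, `p_dlt`
* consequences of `g_* = 1`
-/

set_option autoImplicit false

noncomputable section

open Finsupp Function

namespace Crest.Agent.R204.Wang905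

open Cov892

/-- vertex operator -/
def vtx {n : ℕ} (i : Fin (n + 1)) : Op 0 n := ⟨fun _ => i, fun _ _ _ => le_rfl⟩

/-- front edge operator -/
def e01 {n : ℕ} : Op 1 (n + 1) := ⟨fun i => Fin.castLE (by omega) i, fun _ _ h => h⟩

theorem comp_vtx {m n : ℕ} (f : Op m n) (i : Fin (m + 1)) : f.comp (vtx i) = vtx (f i) := rfl

theorem vtx_id : (vtx 0 : Op 0 0) = OrderHom.id := by
  ext a
  simp [vtx]

@[simp] theorem e01_zero {n : ℕ} : (e01 : Op 1 (n + 1)) 0 = 0 := rfl
@[simp] theorem e01_one {n : ℕ} : (e01 : Op 1 (n + 1)) 1 = 1 := rfl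
theorem e01_val {n : ℕ} (a : Fin 2) : (((e01 : Op 1 (n + 1)) a : Fin (n + 2)) : ℕ) = a := rfl
theorem vtx_val {n : ℕ} (i : Fin (n + 1)) (a : Fin 1) : (((vtx i : Op 0 n) a : Fin (n + 1)) : ℕ) = i := rfl

section
variable {Kt K : SS} (C : ZCov Kt K)

theorem exists_ht (x : Kt.S 0) : ∃ k : ℤ, x = (C.gE 0 ^ k) (sec C 0 (C.p.app 0 x)) :=
  C.orb _ _ (p_sec C _ _)

/-- height of a vertex upstairs with respect to the section on vertices -/
def ht (x : Kt.S 0) : ℤ := (exists_ht C x).choose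

theorem ht_spec (x : Kt.S 0) : x = (C.gE 0 ^ ht C x) (sec C 0 (C.p.app 0 x)) :=
  (exists_ht C x).choose_spec

theorem ht_eq {x : Kt.S 0} {k : ℤ} (h : x = (C.gE 0 ^ k) (sec C 0 (C.p.app 0 x))) :
    ht C x = k := by
  apply C.zpow_inj (sec C 0 (C.p.app 0 x))
  rw [← ht_spec, ← h]

theorem ht_zpow (k : ℤ) (x : Kt.S 0) : ht C ((C.gE 0 ^ k) x) = k + ht C x := by
  apply ht_eq
  rw [C.p_zpow, zpow_add, Equiv.Perm.mul_apply, ← ht_spec]

/-- height of the 0-th vertex -/
def ht0 {n : ℕ} (x : Kt.S n) : ℤ := ht C (Kt.act (vtx 0) x)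

theorem ht0_zpow {n : ℕ} (k : ℤ) (x : Kt.S n) : ht0 C ((C.gE n ^ k) x) = k + ht0 C x := by
  unfold ht0
  rw [← C.zpow_nat, ht_zpow]

theorem ht0_act {m n : ℕ} (f : Op m n) (x : Kt.S n) :
    ht0 C (Kt.act f x) = ht C (Kt.act (vtx (f 0)) x) := by
  unfold ht0
  rw [← Kt.act_comp, comp_vtx]

/-- canonical lift -/
def lift (n : ℕ) (y : K.S n) : Kt.S n := (C.gE n ^ (-(ht0 C (sec C n y)))) (sec C n y)

theorem p_lift (n : ℕ) (y : K.S n) : C.p.app n (lift C n y) = y := by
  unfold lift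
  rw [C.p_zpow, p_sec]

theorem ht0_lift (n : ℕ) (y : K.S n) : ht0 C (lift C n y) = 0 := by
  unfold lift
  rw [ht0_zpow]
  omega

theorem eq_lift {n : ℕ} (x : Kt.S n) : x = (C.gE n ^ ht0 C x) (lift C n (C.p.app n x)) := by
  obtain ⟨k, hk⟩ := C.orb (lift C n (C.p.app n x)) x (p_lift C _ _)
  have : ht0 C x = k := by
    conv_lhs => rw [hk]
    rw [ht0_zpow, ht0_lift, add_zero]
  rw [this]
  exact hk

theorem act_lift {m n : ℕ} (f : Op m n) (y : K.S n) :
    Kt.act f (lift C n y) = (C.gE m ^ ht C (Kt.act (vtx (f 0)) (lift C n y))) (lift C m (K.act f y)) := by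
  have := eq_lift C (Kt.act f (lift C n y))
  rw [ht0_act, C.p.nat, p_lift] at this
  exact this

theorem ht_vtx_zero {n : ℕ} (y : K.S n) : ht C (Kt.act (vtx 0) (lift C n y)) = 0 := ht0_lift C n y

theorem act_lift_of_zero {m n : ℕ} (f : Op m n) (hf : f 0 = 0) (y : K.S n) :
    Kt.act f (lift C n y) = lift C m (K.act f y) := by
  rw [act_lift, hf, ht_vtx_zero, zpow_zero]
  rfl

/-- the integral cocycle on edges -/
def kap (e : K.S 1) : ℤ := ht C (Kt.act (vtx 1) (lift C 1 e))

theorem kap_act {n : ℕ} (f : Op 1 n) (hf : f 0 = 0) (y : K.S n) :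
    kap C (K.act f y) = ht C (Kt.act (vtx (f 1)) (lift C n y)) := by
  unfold kap
  rw [← act_lift_of_zero C f hf, ← Kt.act_comp, comp_vtx]

theorem act_face_zero_lift {n : ℕ} (y : K.S (n + 1)) :
    Kt.act (Op.face 0) (lift C (n + 1) y) =
      (C.gE n ^ kap C (K.act e01 y)) (lift C n (K.act (Op.face 0) y)) := by
  rw [act_lift, kap_act C (e01 : Op 1 (n + 1)) rfl y]
  rfl

theorem face_apply_zero {n : ℕ} {i : Fin (n + 2)} (hi : i ≠ 0) : (Op.face i : Op n (n + 1)) 0 = 0 := by
  apply Fin.ext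
  rw [Ch.face_val]
  have : 0 < (i : ℕ) := Nat.pos_of_ne_zero (fun h => hi (Fin.ext h))
  simp [this]

/-- cocycle property: `kap (d_1 x) = kap (d_2 x) + kap (d_0 x)` -/
theorem kap_cocycle (x : K.S 2) :
    kap C (K.act (Op.face 1) x) = kap C (K.act (Op.face 2) x) + kap C (K.act (Op.face 0) x) := by
  have f1 : (Op.face 1 : Op 1 2) 1 = 2 := by
    apply Fin.ext; rw [Ch.face_val]; rfl
  have f2 : (Op.face 2 : Op 1 2) 1 = 1 := by
    apply Fin.ext; rw [Ch.face_val]; rfl
  have f0 : (Op.face 0 : Op 1 2) 1 = 2 := by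
    apply Fin.ext; rw [Ch.face_val]; rfl
  have f00 : (Op.face 0 : Op 1 2) 0 = 1 := by
    apply Fin.ext; rw [Ch.face_val]; rfl
  rw [kap_act C (Op.face 1) (face_apply_zero (by decide)) x,
    kap_act C (Op.face 2) (face_apply_zero (by decide)) x, f1, f2]
  have h := act_lift C (Op.face 0 : Op 1 2) x
  have h2 : ht C (Kt.act (vtx 1) (Kt.act (Op.face 0) (lift C 2 x))) =
      ht C (Kt.act (vtx 1) (lift C 2 x)) + kap C (K.act (Op.face 0) x) := by
    rw [h, ← C.zpow_nat, ht_zpow, f00]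
    rfl
  rw [← Kt.act_comp, comp_vtx, f0] at h2
  exact h2

theorem kap_dgn (v : K.S 0) (f : Op 1 0) : kap C (K.act f v) = 0 := by
  have h0 : ∀ a : Fin 1, a = 0 := fun a => Fin.ext (by omega)
  rw [kap_act C f (h0 _), h0 (f 1), ht_vtx_zero]

section chains
variable (R : Type) [CommRing R]

/-- cap product with `kap` on a simplex -/
def capT : K.T → Ch R K
  | ⟨0, _⟩ => 0
  | ⟨n + 1, y⟩ => single ⟨n, K.act (Op.face 0) y⟩ (kap C (K.act e01 y) : R)

/-- cap product with `kap` on chains -/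
def capI : Ch R K →ₗ[R] Ch R K := Finsupp.linearCombination R (capT C R)

variable {R}

theorem capI_single_zero (y : K.S 0) (r : R) : capI C R (single ⟨0, y⟩ r) = 0 := by
  simp [capI, capT]

theorem capI_single_succ {n : ℕ} (y : K.S (n + 1)) (r : R) :
    capI C R (single ⟨n + 1, y⟩ r) =
      (kap C (K.act e01 y) : R) • single ⟨n, K.act (Op.face 0) y⟩ r := by
  simp [capI, capT, mul_comm]

theorem capI_mem_gr {n : ℕ} {c : Ch R K} (hc : c ∈ Ch.gr R K (n + 1)) :
    capI C R c ∈ Ch.gr R K n := by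
  refine Submodule.span_induction (p := fun c _ => capI C R c ∈ Ch.gr R K n) ?_ ?_ ?_ ?_ hc
  · rintro _ ⟨x, rfl⟩
    rw [capI_single_succ]
    exact Submodule.smul_mem _ _ (single_mem_gr _ _ _)
  · simp
  · intro a b _ _ ha hb; rw [map_add]; exact Submodule.add_mem _ ha hb
  · intro r a _ ha; rw [map_smul]; exact Submodule.smul_mem _ _ ha

theorem capI_mem_Dg {c : Ch R K} (hc : c ∈ Ch.Dg R K) : capI C R c ∈ Ch.Dg R K := by
  refine Submodule.span_induction (p := fun c _ => capI C R c ∈ Ch.Dg R K) ?_ ?_ ?_ ?_ hc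
  · rintro _ ⟨⟨n, x⟩, hx, rfl⟩
    rcases n with _ | n
    · exact hx.elim
    obtain ⟨j, y, rfl⟩ := hx
    rw [capI_single_succ]
    by_cases hj : j = 0
    · subst hj
      have e : (Op.dgn (0 : Fin (n + 1))).comp (e01 : Op 1 (n + 1)) =
          (vtx (0 : Fin (n + 1))).comp (⟨fun _ => 0, fun _ _ _ => le_rfl⟩ : Op 1 0) := by
        refine OrderHom.ext _ _ (funext fun a => Fin.ext ?_)
        simp only [OrderHom.comp_coe, Function.comp_apply, Ch.dgn_val, e01_val, vtx_val, Fin.val_zero]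
        have ha : (a : ℕ) = 0 ∨ (a : ℕ) = 1 := by omega
        rcases ha with ha | ha <;> simp [ha]
      have : kap C (K.act e01 (K.act (Op.dgn 0) y)) = 0 := by
        rw [← K.act_comp, e, K.act_comp, kap_dgn]
      rw [this]
      simp
    · refine Submodule.smul_mem _ _ ?_
      rcases n with _ | n
      · exact absurd (Fin.ext (by omega)) hj
      have h1 : (0 : Fin (n + 3)) ≠ j.castSucc := by
        intro h
        apply hj
        apply Fin.ext
        have := congrArg Fin.val h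
        simpa using this.symm
      obtain ⟨i', j', h⟩ := Ch.face_dgn_ne (0 : Fin (n + 3)) j h1 (Fin.succ_ne_zero j).symm
      rw [← K.act_comp, h, K.act_comp]
      exact Submodule.subset_span ⟨_, Ch.isDgn_act _ _ _, rfl⟩
  · simp
  · intro a b _ _ ha hb; rw [map_add]; exact Submodule.add_mem _ ha hb
  · intro r a _ ha; rw [map_smul]; exact Submodule.smul_mem _ _ ha

/-- boundary of the canonical lift -/
theorem bd_secL (c : Ch R K) : ∃ b : Ch R Kt,
    Ch.bd R Kt (secL R (lift C) c) = secL R (lift C) (Ch.bd R K c) + om C R b ∧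
      Ch.map R C.p b = -capI C R c := by
  induction c using Finsupp.induction_linear with
  | zero => exact ⟨0, by simp⟩
  | add c c' h h' =>
    obtain ⟨b, hb, e⟩ := h
    obtain ⟨b', hb', e'⟩ := h'
    refine ⟨b + b', ?_, ?_⟩
    · simp only [map_add, hb, hb']
      abel
    · simp only [map_add, e, e']
      abel
  | single t r =>
    obtain ⟨n, y⟩ := t
    rcases n with _ | n
    · refine ⟨0, ?_, ?_⟩
      · rw [secL_single, Ch.bd_single_zero, Ch.bd_single_zero]
        simp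
      · rw [capI_single_zero]
        simp
    · obtain ⟨b, -, e, e'⟩ := exists_tel C (kap C (K.act e01 y)) n (lift C n (K.act (Op.face 0) y)) r
      refine ⟨b, ?_, ?_⟩
      · have : ∀ i : Fin (n + 1), (single ⟨n, Kt.act (Op.face i.succ) (lift C (n + 1) y)⟩
            (r * (-1 : R) ^ ((i.succ : Fin (n + 2)) : ℕ)) : Ch R Kt) =
            secL R (lift C) (single ⟨n, K.act (Op.face i.succ) y⟩
              (r * (-1 : R) ^ ((i.succ : Fin (n + 2)) : ℕ))) := by
          intro i
          rw [secL_single, act_lift_of_zero C _ (face_apply_zero (Fin.succ_ne_zero i))]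
        have hL : (∑ i : Fin (n + 2), (single ⟨n, Kt.act (Op.face i) (lift C (n + 1) y)⟩
            (r * (-1 : R) ^ (i : ℕ)) : Ch R Kt)) = single ⟨n, (C.gE n ^ kap C (K.act e01 y))
              (lift C n (K.act (Op.face 0) y))⟩ r + ∑ i : Fin (n + 1),
            secL R (lift C) (single ⟨n, K.act (Op.face i.succ) y⟩
              (r * (-1 : R) ^ ((i.succ : Fin (n + 2)) : ℕ))) := by
          rw [Fin.sum_univ_succ, act_face_zero_lift, Finset.sum_congr rfl (fun i _ => this i),
            Fin.val_zero, pow_zero, mul_one]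
        have hR : secL R (lift C) (∑ i : Fin (n + 2), (single ⟨n, K.act (Op.face i) y⟩
            (r * (-1 : R) ^ (i : ℕ)) : Ch R K)) = single ⟨n, lift C n (K.act (Op.face 0) y)⟩ r +
            ∑ i : Fin (n + 1), secL R (lift C) (single ⟨n, K.act (Op.face i.succ) y⟩
              (r * (-1 : R) ^ ((i.succ : Fin (n + 2)) : ℕ))) := by
          rw [Fin.sum_univ_succ, map_add, map_sum, secL_single, Fin.val_zero, pow_zero, mul_one]
        rw [secL_single, Ch.bd_single_succ, Ch.bd_single_succ, hL, hR, ← e]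
        abel
      · rw [e', capI_single_succ, p_lift]

theorem bd_capI (c : Ch R K) : Ch.bd R K (capI C R c) = -capI C R (Ch.bd R K c) := by
  obtain ⟨b, hb, e⟩ := bd_secL C c
  obtain ⟨b', hb', e'⟩ := bd_secL C (Ch.bd R K c)
  have h1 : om C R (b' + Ch.bd R Kt b) = 0 := by
    have h2 := congrArg (Ch.bd R Kt) hb
    rw [Ch.bd_bd, map_add, hb', Ch.bd_bd, map_zero, zero_add] at h2
    have h3 : Ch.bd R Kt (om C R b) = om C R (Ch.bd R Kt b) := by
      rw [om_apply, om_apply, map_sub, Ch.map_bd]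
    rw [h3, ← map_add] at h2
    exact h2.symm
  have h4 : b' + Ch.bd R Kt b = 0 := om_injective C (by rw [h1, map_zero])
  have h5 := congrArg (Ch.map R C.p) h4
  rw [map_add, Ch.map_bd, e, e', map_neg, map_zero] at h5
  have h6 : Ch.bd R K (capI C R c) = -capI C R (Ch.bd R K c) -
    (-capI C R (Ch.bd R K c) + -Ch.bd R K (capI C R c)) := by abel
  rw [h6, h5, sub_zero]

variable (R) in
/-- cap product with `kap` on normalised chains -/
def capN : N R K →ₗ[R] N R K := Submodule.mapQ _ _ (capI C R) (fun _ hc => capI_mem_Dg C hc)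

theorem capN_mk (c : Ch R K) :
    capN C R (Submodule.Quotient.mk c) = Submodule.Quotient.mk (capI C R c) := rfl

theorem capN_sx_zero (y : K.S 0) : capN C R (N.sx R y) = 0 := by
  rw [N.sx, capN_mk, capI_single_zero]; rfl

theorem capN_sx_succ {n : ℕ} (y : K.S (n + 1)) :
    capN C R (N.sx R y) = (kap C (K.act e01 y) : R) • N.sx R (K.act (Op.face 0) y) := by
  rw [N.sx, capN_mk, capI_single_succ]; rfl

theorem bd_capN (c : N R K) : N.bd R K (capN C R c) = -capN C R (N.bd R K c) := by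
  obtain ⟨c, rfl⟩ := Submodule.Quotient.mk_surjective _ c
  rw [capN_mk, N.bd_mk, N.bd_mk, capN_mk, bd_capI]
  rfl

theorem capN_mem_gr {n : ℕ} {c : N R K} (hc : c ∈ N.gr R K (n + 1)) :
    capN C R c ∈ N.gr R K n := by
  obtain ⟨c, hc, rfl⟩ := hc
  exact ⟨_, capI_mem_gr C hc, rfl⟩

/-- representative of the connecting map -/
theorem exists_dlt_rep (z : N R K) (hz : N.bd R K z = 0) : ∃ (y : N R Kt) (hy : N.bd R Kt y = 0),
    dlt C R (Hd.mk _ z hz) = Hd.mk _ y hy ∧ N.map R C.p y = -capN C R z := by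
  obtain ⟨c, rfl⟩ := Submodule.Quotient.mk_surjective _ z
  obtain ⟨b, hb, e⟩ := bd_secL C c
  have hz' : Ch.bd R K c ∈ Ch.Dg R K := (Submodule.Quotient.mk_eq_zero _).1 hz
  have key : omN C R (Submodule.Quotient.mk b) =
      N.bd R Kt (Submodule.Quotient.mk (secL R (lift C) c)) := by
    rw [omN_mk, N.bd_mk, hb]
    rw [Submodule.Quotient.eq]
    have : om C R b - (secL R (lift C) (Ch.bd R K c) + om C R b) =
        -secL R (lift C) (Ch.bd R K c) := by abel
    rw [this]
    exact Submodule.neg_mem _ (secL_mem_Dg C _ (p_lift C) hz')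
  have hy : N.bd R Kt (Submodule.Quotient.mk b) = 0 := by
    apply omN_injective C
    have := LinearMap.congr_fun (omN_bd C (R := R)) (Submodule.Quotient.mk b)
    simp only [LinearMap.comp_apply] at this
    rw [this, key, N.bd_bd, map_zero]
  have hp : N.map R C.p (Submodule.Quotient.mk (secL R (lift C) c)) = Submodule.Quotient.mk c := by
    rw [N.map_mk, p_secL C _ (p_lift C)]
  refine ⟨Submodule.Quotient.mk b, hy, ?_, ?_⟩
  · have h := dlt_mk C (Submodule.Quotient.mk (secL R (lift C) c)) (Submodule.Quotient.mk b)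
      (by rw [hp]; exact hz) hy key
    rw [← h]
    congr 1
    rw [Hd.mk_eq_mk]
    exact ⟨0, by rw [map_zero, hp, sub_self]⟩
  · rw [N.map_mk, e]
    rfl

theorem p_dlt_mk (z : N R K) (hz : N.bd R K z = 0) (hz' : N.bd R K (capN C R z) = 0) :
    H.map R C.p (dlt C R (Hd.mk _ z hz)) = -Hd.mk _ (capN C R z) hz' := by
  obtain ⟨y, hy, e, e'⟩ := exists_dlt_rep C z hz
  rw [e]
  have hyp : N.bd R K (N.map R C.p y) = 0 := by rw [e', map_neg, hz', neg_zero]
  have h1 : H.map R C.p (Hd.mk _ y hy) = Hd.mk _ (N.map R C.p y) hyp := rfl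
  have h2 : -Hd.mk (N.bd R K) (capN C R z) hz' =
      Hd.mk (N.bd R K) (-capN C R z) (by rw [map_neg, hz', neg_zero]) := rfl
  rw [h1, h2, Hd.mk_eq_mk]
  exact ⟨0, by rw [map_zero, e', sub_self]⟩

end chains

/-! ## mod 2 -/

/-- cap product with the mod 2 class of `kap` on homology -/
def capH : H F2 K →ₗ[F2] H F2 K := Hd.map (capN C F2) (by
  ext c
  simp only [LinearMap.comp_apply, Submodule.mkQ_apply]
  rw [bd_capN]
  exact (ZModModule.neg_eq_self _).symm)

theorem capH_mk (z : N F2 K) (hz : N.bd F2 K z = 0) (hz' : N.bd F2 K (capN C F2 z) = 0) :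
    capH C (Hd.mk _ z hz) = Hd.mk _ (capN C F2 z) hz' := rfl

theorem p_dlt (x : H F2 K) : H.map F2 C.p (dlt C F2 x) = capH C x := by
  obtain ⟨z, hz, rfl⟩ := Hd.mk_surj _ x
  have hz' : N.bd F2 K (capN C F2 z) = 0 := by rw [bd_capN, hz, map_zero, neg_zero]
  rw [p_dlt_mk C z hz hz', capH_mk C z hz hz']
  exact ZModModule.neg_eq_self _

theorem capH_mem {n : ℕ} {x : H F2 K} (hx : x ∈ H.gr F2 K (n + 1)) : capH C x ∈ H.gr F2 K n := by
  obtain ⟨z, hz, hz', rfl⟩ := HA498.mem_grHd.1 hx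
  have h2 : N.bd F2 K (capN C F2 z) = 0 := by rw [bd_capN, hz', map_zero, neg_zero]
  rw [capH_mk C z hz' h2]
  exact HA498.mk_mem_grHd (capN_mem_gr C hz) h2

/-! ## the case `g_* = 1` -/

section triv
variable {R : Type} [CommRing R] (hg : ∀ x : H R Kt, H.map R C.g x = x)
include hg

theorem p_inj : Injective (H.map R C.p) := by
  rw [injective_iff_map_eq_zero]
  intro x hx
  obtain ⟨y, hy⟩ := (exact_om_p C x).1 hx
  rw [← hy]
  change y - H.map R C.g y = 0
  rw [hg, sub_self]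

theorem dlt_surj : Surjective (dlt C R) := by
  intro x
  refine (exact_dlt_om C x).1 ?_
  change x - H.map R C.g x = 0
  rw [hg, sub_self]

theorem mem_range_p_iff (y : H R K) : (∃ x, H.map R C.p x = y) ↔ H.map R C.p (dlt C R y) = 0 := by
  constructor
  · rintro ⟨x, rfl⟩
    rw [(exact_p_dlt C _).2 ⟨x, rfl⟩, map_zero]
  · intro h
    refine (exact_p_dlt C y).1 ?_
    exact p_inj C hg (by rw [h, map_zero])

theorem mem_range_p_iff' (y : H R K) :
    (∃ x, H.map R C.p x = y) ↔ ∃ w, H.map R C.p (dlt C R w) = y := by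
  constructor
  · rintro ⟨x, rfl⟩
    obtain ⟨w, rfl⟩ := dlt_surj C hg x
    exact ⟨w, rfl⟩
  · rintro ⟨w, rfl⟩
    exact ⟨_, rfl⟩

end triv

/-- mod 2 summary: `p_*` is injective and its image is both the kernel and the image of the cap product -/
theorem summary (hg : ∀ x : H F2 Kt, H.map F2 C.g x = x) :
    Injective (H.map F2 C.p) ∧ (∀ y, (∃ x, H.map F2 C.p x = y) ↔ capH C y = 0) ∧
      (∀ y, (∃ x, H.map F2 C.p x = y) ↔ ∃ w, capH C w = y) := by
  refine ⟨p_inj C hg, fun y => ?_, fun y => ?_⟩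
  · rw [mem_range_p_iff C hg, p_dlt]
  · rw [mem_range_p_iff' C hg]
    simp only [p_dlt]

end

end Crest.Agent.R204.Wang905
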