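import Crest.Agent.R204.Cov2_892
import Crest.Agent.R204.Wang2_905
import Crest.Agent.R204.PiA_808
import Crest.Agent.R204.AdjC_330
import Crest.Agent.R204.HInv_328

/-!
# Row 204, leaf B5: the class `x_1`, the suspension lifts to the covering (owner helper892)

* `kap_ps` : the cocycle of the covering takes the value `-1` on the generating loop, `capH_ps`.
* `evT`, `sigt`, `sigmaT` : for a loop structure `Λ : LoopStr P B g0 b` (330) and a space `G` of null-homotopic
  loops, the suspension `H(G) → H(B)` factors through `H(Bt b)`.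
-/

set_option autoImplicit false

noncomputable section

open Set unitInterval Topology

namespace Crest.Agent.R204.Cov892

open Crest.Agent.R204 Crest.Agent.R204.SS Crest.Agent.R204.Wang905 Crest.Agent.R204.Pi808
  Crest.Agent.R204.Sus330

/-! ## the cocycle on the generating loop -/

theorem kap_p {Kt K : SS} (C : ZCov Kt K) (x : Kt.S 1) :
    kap C (C.p.app 1 x) = ht C (Kt.act (vtx 1) x) - ht C (Kt.act (vtx 0) x) := by
  have h := eq_lift C x
  have h1 : ht C (Kt.act (vtx 1) x) = ht0 C x + kap C (C.p.app 1 x) := by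
    conv_lhs => rw [h, ← C.zpow_nat, ht_zpow]
    rfl
  rw [h1, ht0]; ring

variable {B : Type} [TopologicalSpace B] {b : B}

/-- initial segments of a loop -/
def seg (p : Path b b) : C(I, PB b) where
  toFun u := ⟨⟨fun s => p (u * s), by fun_prop⟩, by simp⟩
  continuous_toFun := by
    refine Continuous.subtype_mk ?_ _
    exact ContinuousMap.continuous_of_continuous_uncurry _ (by
      show Continuous fun z : I × I => p (z.1 * z.2)
      fun_prop)

theorem seg_apply (p : Path b b) (u s : I) : (seg p u).1 s = p (u * s) := rfl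

/-- the lift of the loop `p` -/
def segS (p : Path b b) : (Sing (PB b)).S 1 := (seg p).comp (crd ![0, 1])

theorem prj_segS (p : Path b b) : (prj b).app 1 ((quo b).app 1 (segS p)) = ps p := by
  refine ContinuousMap.ext fun t => ?_
  show p (crd ![0, 1] t * 1) = p (crd ![0, 1] t)
  rw [mul_one]

theorem act_segS (p : Path b b) (i : Fin 2) :
    (Sing (PB b)).act (vtx i) (segS p) = (seg p).comp (crd (fun _ => ![(0 : I), 1] i)) := by
  show ((seg p).comp (crd ![0, 1])).comp _ = _
  rw [ContinuousMap.comp_assoc]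
  exact congrArg _ (crd_comp (vtx i) ![0, 1])

theorem vtx_one_segS (p : Path b b) : (Bt b).act (vtx 1) ((quo b).app 1 (segS p)) =
    (deck p).app 0 ((Bt b).act (vtx 0) ((quo b).app 1 (segS p))) := by
  rw [← (quo b).nat, ← (quo b).nat, act_segS, act_segS]
  refine (quo_eq_iff b _ _).2 fun t => ?_
  show PEq (seg p (crd (fun _ => ![(0 : I), 1] 1) t)) (pre p (seg p (crd (fun _ => ![(0 : I), 1] 0) t)))
  rw [crd_const, crd_const]
  have h0 : (seg p (![(0 : I), 1] 0)).1 1 = b := by
    show p (0 * 1) = b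
    simp
  rw [pre_apply p _ b h0]
  have e1 : seg p (![(0 : I), 1] 1) = ofPath p := by
    apply Subtype.ext
    ext s
    show p (1 * s) = p s
    rw [one_mul]
  have e2 : pa (seg p (![(0 : I), 1] 0)) b h0 = Path.refl b := by
    ext s
    show p (0 * s) = b
    simp
  rw [e1, e2]
  exact PEq.of_path (Path.Homotopic.trans_refl p).symm

variable [PathConnectedSpace B]

/-- the cocycle on the generating loop -/
theorem kap_ps (p : Path b b) (hgen : ∀ a : FundamentalGroup B b, ∃ k : ℤ, a = lc p ^ k)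
    (hinf : ∀ k : ℤ, (lc p) ^ k = 1 → k = 0) : kap (zcov (lc p) hgen hinf) (ps p) = -1 := by
  rw [← prj_segS p]
  refine (kap_p (zcov (lc p) hgen hinf) ((quo b).app 1 (segS p))).trans ?_
  rw [vtx_one_segS]
  have h : (deck p).app 0 ((Bt b).act (vtx 0) ((quo b).app 1 (segS p))) =
      ((zcov (lc p) hgen hinf).gE 0 ^ (-1 : ℤ)) ((Bt b).act (vtx 0) ((quo b).app 1 (segS p))) := by
    show _ = ((rho b 0 (lc p)) ^ (-1 : ℤ)) _
    rw [← map_zpow, rho_apply, zpow_neg_one, inv_inv, deckQ_lc]
  rw [h, ht_zpow]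
  ring

theorem capN_ps (p : Path b b) (hgen : ∀ a : FundamentalGroup B b, ∃ k : ℤ, a = lc p ^ k)
    (hinf : ∀ k : ℤ, (lc p) ^ k = 1 → k = 0) :
    capN (zcov (lc p) hgen hinf) F2 (N.sx F2 (ps p)) = N.sx F2 (K := Sing B) (LoopStr.cY b 0) := by
  rw [capN_sx_succ]
  have h1 : (Sing B).act (e01 : Op 1 1) (ps p) = ps p := by
    have : (e01 : Op 1 1) = OrderHom.id := by
      apply OrderHom.ext
      funext i
      rfl
    rw [this, (Sing B).act_id]
  have h2 : (Sing B).act (Op.face 0) (ps p) = LoopStr.cY b 0 := by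
    rw [ps, pth_act, face0_1]
    refine ContinuousMap.ext fun t => ?_
    show p (crd (fun _ => 1) t) = b
    rw [crd_const]
    exact p.target
  rw [h1, h2, kap_ps]
  have : (((-1 : ℤ)) : F2) = 1 := by decide
  rw [this, one_smul]

theorem capH_ps (p : Path b b) (hgen : ∀ a : FundamentalGroup B b, ∃ k : ℤ, a = lc p ^ k)
    (hinf : ∀ k : ℤ, (lc p) ^ k = 1 → k = 0) (hb : N.bd F2 (Sing B) (N.sx F2 (ps p)) = 0)
    (hb' : N.bd F2 (Sing B) (N.sx F2 (K := Sing B) (LoopStr.cY b 0)) = 0) :
    capH (zcov (lc p) hgen hinf) (Hd.mk _ (N.sx F2 (ps p)) hb) =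
      Hd.mk _ (N.sx F2 (K := Sing B) (LoopStr.cY b 0)) hb' := by
  rw [capH_mk _ _ hb (by rw [capN_ps]; exact hb')]
  congr 1
  exact capN_ps p hgen hinf

/-! ## the suspension lifts to the covering -/

section lift

omit [PathConnectedSpace B]

variable {P G : Type} [TopologicalSpace P] [TopologicalSpace G] {g0 : P} (Λ : LoopStr P B g0 b)

/-- the family of initial segments of loops -/
def evTF : C(Dl 1 × P, PB b) where
  toFun z := ⟨⟨fun r => Λ.ev (lam1 z.1 * r, z.2), by fun_prop⟩, by
    show Λ.ev (lam1 z.1 * 0, z.2) = b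
    rw [mul_zero]; exact Λ.ev_zero _⟩
  continuous_toFun := by
    refine Continuous.subtype_mk ?_ _
    exact ContinuousMap.continuous_of_continuous_uncurry _ (by
      show Continuous fun z : (Dl 1 × P) × I => Λ.ev (lam1 z.1.1 * z.2, z.1.2)
      fun_prop)

theorem evTF_apply (u : Dl 1) (g : P) (r : I) : (evTF Λ (u, g)).1 r = Λ.ev (lam1 u * r, g) := rfl

/-- a loop as a based path -/
def toPB : C(P, PB b) where
  toFun g := ⟨⟨fun r => Λ.ev (r, g), by fun_prop⟩, Λ.ev_zero _⟩
  continuous_toFun := by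
    refine Continuous.subtype_mk ?_ _
    exact ContinuousMap.continuous_of_continuous_uncurry _ (by
      show Continuous fun z : P × I => Λ.ev (z.2, z.1)
      fun_prop)

theorem toPB_apply (g : P) (r : I) : (toPB Λ g).1 r = Λ.ev (r, g) := rfl

/-- the constant path -/
def cP (b : B) : PB b := ⟨ContinuousMap.const _ b, rfl⟩

/-- simplicial version -/
def evT : SS.Hom ((SS.std 1).prod (SS.Sing P)) (SS.Sing (PB b)) := fam (evTF Λ)

theorem ev_evT {q : ℕ} (x : ((SS.std 1).prod (SS.Sing P)).S q) :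
    (SingMap (ev1 (b := b))).app q ((evT Λ).app q x) = Λ.evH.app q x := by
  refine ContinuousMap.ext fun u => ?_
  show Λ.ev (lam1 (stdSimplex.map (so x.1) u) * 1, sg x.2 u) = Λ.ev (lam1 (stdSimplex.map (so x.1) u), sg x.2 u)
  rw [mul_one]

variable (j : C(G, P))

/-- suspension with values in the covering -/
def sigt (R : Type) [CommRing R] : N R (SS.Sing G) →ₗ[R] N R (Bt b) :=
  N.map R (((quo b).comp (evT Λ)).comp (SS.prodMap (SS.Hom.id _) (SingMap j))) ∘ₗ
    EZ271.cross R (N.sx R io)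

variable (R : Type) [CommRing R]

theorem sigt_apply (c : N R (SS.Sing G)) : sigt Λ j R c =
    N.map R (((quo b).comp (evT Λ)).comp (SS.prodMap (SS.Hom.id _) (SingMap j)))
      (EZ271.cross R (N.sx R io) c) := rfl

theorem prj_sigt (c : N R (SS.Sing G)) :
    N.map R (prj b) (sigt Λ j R c) = Λ.sig R (N.map R (SingMap j) c) := by
  rw [sigt_apply, LoopStr.sig_apply, EZ271.map_map]
  have h1 : N.map R (SS.prodMap (SS.Hom.id (SS.std 1)) (SingMap j)) (EZ271.cross R (N.sx R io) c) =
      EZ271.cross R (N.sx R io) (N.map R (SingMap j) c) := by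
    rw [EZ271.map_cross, EZ271.map_idHom]
  rw [← h1, EZ271.map_map]
  congr 2
  refine SS.Hom.ext (funext fun n => funext fun x => ?_)
  exact ev_evT Λ _

theorem sigt_mem_gr {n : ℕ} {c : N R (SS.Sing G)} (hc : c ∈ N.gr R _ n) :
    sigt Λ j R c ∈ N.gr R _ (n + 1) := by
  rw [sigt_apply, add_comm n 1]
  exact Sus330.map_mem_gr R _ (cross_mem_gr R (mem_gr_sx R _) hc)

variable (hj : ∀ g : G, PEq (toPB Λ (j g)) (cP b))

/-- base vertex of the covering -/
def qb (b : B) : (Bt b).S 0 := (quo b).app 0 (LoopStr.cY (cP b) 0)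

include hj in
theorem map_vertex (i : Fin 2) (c : N R (SS.Sing G)) :
    N.map R (((quo b).comp (evT Λ)).comp (SS.prodMap (SS.Hom.id _) (SingMap j)))
      (EZ271.cross R (N.sx R (ve i)) c) = EZ271.aug R c • N.sx R (qb b) := by
  rw [Sus330.cross_vertex, EZ271.map_map]
  refine map_constHom R _ _ (fun n x => ?_) c
  have hb : Cone330.base (Bt b) (qb b) n = (quo b).app n (LoopStr.cY (cP b) n) := rfl
  rw [hb]
  refine (quo_eq_iff b _ _).2 fun t => ?_
  show PEq (evTF Λ (stdSimplex.map (so (Cone330.base (SS.std 1) (ve i) n)) t, j (sg x t))) (cP b)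
  have h1 : (lam1 (stdSimplex.map (so (Cone330.base (SS.std 1) (ve i) n)) t) : ℝ) = (![(0 : ℝ), 1] i) := by
    rw [LoopStr.map_one_val]
    have h2 : ∀ a, so (Cone330.base (SS.std 1) (ve i) n) a = i := fun a => rfl
    simp only [h2]
    fin_cases i
    · simp
    · simp [stdSimplex.sum_eq_one t]
  fin_cases i
  · have h2 : lam1 (stdSimplex.map (so (Cone330.base (SS.std 1) (ve 0) n)) t) = 0 := Subtype.ext h1
    have h3 : evTF Λ (stdSimplex.map (so (Cone330.base (SS.std 1) (ve 0) n)) t, j (sg x t)) = cP b := by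
      apply Subtype.ext
      ext r
      show Λ.ev (lam1 _ * r, _) = b
      rw [h2, zero_mul, Λ.ev_zero]
    exact h3 ▸ PEq.refl _
  · have h2 : lam1 (stdSimplex.map (so (Cone330.base (SS.std 1) (ve 1) n)) t) = 1 := Subtype.ext h1
    have h3 : evTF Λ (stdSimplex.map (so (Cone330.base (SS.std 1) (ve 1) n)) t, j (sg x t)) =
        toPB Λ (j (sg x t)) := by
      apply Subtype.ext
      ext r
      show Λ.ev (lam1 _ * r, _) = Λ.ev (r, _)
      rw [h2, one_mul]
    exact h3 ▸ hj _

include hj in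
theorem bd_sigt (c : N R (SS.Sing G)) : N.bd R _ (sigt Λ j R c) = - sigt Λ j R (N.bd R _ c) := by
  rw [sigt_apply, ← EZ271.map_bd', EZ271.bd_cross, map_add, bd_io, map_sub, LinearMap.sub_apply, map_sub,
    map_vertex Λ j R hj, map_vertex Λ j R hj, sub_self, zero_add, EZ271.sg_sx, map_smul,
    LinearMap.smul_apply, map_smul, pow_one, neg_smul, one_smul, sigt_apply]

/-- **the suspension with values in the homology of the covering** -/
def sigmaT (hj : ∀ g : G, PEq (toPB Λ (j g)) (cP b)) : H F2 (SS.Sing G) →ₗ[F2] H F2 (Bt b) :=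
  Hd.map (sigt Λ j F2) (by
    refine LinearMap.ext fun c => ?_
    rw [LinearMap.comp_apply, LinearMap.comp_apply, bd_sigt Λ j F2 hj, neg_eq_self_F2])

theorem prj_sigmaT (y : H F2 (SS.Sing G)) :
    H.map F2 (prj b) (sigmaT Λ j hj y) = Λ.sigma (H.map F2 (SingMap j) y) := by
  obtain ⟨z, hz, rfl⟩ := Hd.mk_surj _ y
  have h1 : N.bd F2 _ (N.map F2 (SingMap j) z) = 0 := by
    rw [← EZ271.map_bd', hz, map_zero]
  show Hd.mk _ (N.map F2 (prj b) (sigt Λ j F2 z)) _ = Hd.mk _ (Λ.sig F2 (N.map F2 (SingMap j) z)) _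
  congr 1
  exact prj_sigt Λ j F2 z

theorem sigmaT_mem_gr {n : ℕ} {y : H F2 (SS.Sing G)} (hy : y ∈ H.gr F2 _ n) :
    sigmaT Λ j hj y ∈ H.gr F2 _ (n + 1) := by
  obtain ⟨z, hz, hz', rfl⟩ := HA498.mem_grHd.1 hy
  exact HA498.mk_mem_grHd (sigt_mem_gr Λ j F2 hz) _

end lift

/-! ## consequences for the cap product -/

section cap

variable {mu : C(B × B, B)} (h : HSp b mu) (w : FundamentalGroup B b)
  (hgen : ∀ a : FundamentalGroup B b, ∃ k : ℤ, a = w ^ k) (hinf : ∀ k : ℤ, w ^ k = 1 → k = 0)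

include h hgen hinf

theorem prj_injective : Function.Injective (H.map F2 (prj b)) :=
  (summary (zcov w hgen hinf) (fun x => LinearMap.congr_fun
    (zcov_g_homology HInv328.homotopyInv h F2 w hgen hinf) x)).1

theorem range_prj_iff (y : H F2 (Sing B)) :
    (∃ x, H.map F2 (prj b) x = y) ↔ capH (zcov w hgen hinf) y = 0 :=
  (summary (zcov w hgen hinf) (fun x => LinearMap.congr_fun
    (zcov_g_homology HInv328.homotopyInv h F2 w hgen hinf) x)).2.1 y

/-- suspensions of null-homotopic loops are killed by the cap product -/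
theorem capH_sigma {P G : Type} [TopologicalSpace P] [TopologicalSpace G] {g0 : P}
    (Λ : LoopStr P B g0 b) (j : C(G, P)) (hj : ∀ g : G, PEq (toPB Λ (j g)) (cP b))
    (y : H F2 (Sing G)) :
    capH (zcov w hgen hinf) (Λ.sigma (H.map F2 (SingMap j) y)) = 0 :=
  (range_prj_iff h w hgen hinf _).1 ⟨sigmaT Λ j hj y, prj_sigmaT Λ j hj y⟩

end cap

end Crest.Agent.R204.Cov892
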