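import Crest.Agent.R204.PiD_808
import Crest.Agent.R204.AdjC_330

/-!
# Row 204, B5 (helper808): the suspension of a vertex is the class of a loop; `hinf` for `X_1`
-/

set_option autoImplicit false
set_option linter.unusedVariables false

noncomputable section

namespace Crest.Agent.R204.Pi808

open scoped Topology unitInterval TensorProduct
open Crest.Agent.R204.Sus330 Coalg847

variable {P Y : Type} [TopologicalSpace P] [TopologicalSpace Y] {g0 : P} {y0 : Y}

/-- the path of a point of a loop space -/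
def lpath (Λ : LoopStr P Y g0 y0) (g : P) : Path y0 y0 where
  toFun s := Λ.ev (s, g)
  continuous_toFun := Λ.ev.continuous.comp (by fun_prop)
  source' := Λ.ev_zero g
  target' := Λ.ev_one g

@[simp] theorem lpath_apply (Λ : LoopStr P Y g0 y0) (g : P) (s : I) : lpath Λ g s = Λ.ev (s, g) := rfl

theorem sig_vtx (R : Type) [CommRing R] (Λ : LoopStr P Y g0 y0) (a : (SS.Sing P).S 0) (g : P)
    (ha : ∀ u, sg a u = g) :
    Λ.sig R (N.sx R a) = N.sx R (K := SS.Sing Y) (ps (lpath Λ g)) := by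
  refine Λ.sig_adj R a _ fun s u => ?_
  rw [ha]
  show Λ.ev (s, g) = Λ.ev (crd ![0, 1] (qP (s, u)), g)
  congr 2
  apply Subtype.ext
  rw [crd2_val]
  have h1 : (qP (s, u) : Dl 1) 1 = (s : ℝ) := by
    have h := qP_succ (s, u) (0 : Fin 1)
    have e : (0 : Fin 1).succ = (1 : Fin 2) := rfl
    rw [e] at h
    rw [h]
    have t0 : tl u ((0 : Fin 1) : ℕ) = 1 := tl_zero u
    have t1 : tl u (((0 : Fin 1) : ℕ) + 1) = 0 := tl_big u (by decide)
    rw [t0, t1, min_eq_left s.2.2, min_eq_right s.2.1, sub_zero]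
  rw [h1]
  simp

/-- **the loop suspension of a vertex class** -/
theorem sigma_vtx (Λ : LoopStr P Y g0 y0) (a : (SS.Sing P).S 0) (g : P) (ha : ∀ u, sg a u = g) :
    Λ.sigma (vtx a) = hcl (lpath Λ g) := by
  rw [vtx, LoopStr.sigma_mk, hcl]
  congr 1
  exact sig_vtx F2 Λ a g ha

open Crest.Agent.R204.Inst194 Crest.Agent.R204.Hsp696
open scoped Topology.Homotopy

theorem lpath_loopC {Z : Type} [TopologicalSpace Z] {z₀ : Z} {a b : ℕ} (h : a = b + 1)
    (g : Ω^ (Fin a) Z z₀) : lpath (loopC h) g = toPath (castL h g) := by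
  subst h; rfl

theorem lpath_loopX {J0 K : ℕ} (h : 0 < K) (g : XT J0 K 0) :
    lpath (loopX J0 h) g = toPath (castL (cd_succ h) g) := lpath_loopC _ _

/-- `x_1 = σ x_0` is the class of the loop `iotaP` -/
theorem sigma_iota {J0 K : ℕ} (h : 0 < K) (v : (XS J0 K 0).S 0)
    (hv : ∀ u, sg v u = iotaL (J0 + K)) :
    (loopX J0 h).sigma (vtx v) = hcl (iotaP J0 K h) := by
  rw [sigma_vtx (loopX J0 h) v _ hv, lpath_loopX]
  rfl

/-- **`π_1(X_1)` is infinite cyclic**: the class of `iotaP` has infinite order -/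
theorem hinf_XT {J0 K : ℕ} (h : 0 < K) (x1 : H F2 (XS J0 K 1)) (hx1 : x1 = hcl (iotaP J0 K h))
    (hne : x1 ≠ 0) (mu : SS.Hom ((XS J0 K 1).prod (XS J0 K 1)) (XS J0 K 1))
    (h2 : ∀ z ∈ H.gr F2 (XS J0 K 1) 2,
      ∃ e : F2, z = e • H.map F2 mu (EZ847.ezd.cr _ _ (x1 ⊗ₜ x1)))
    (k : ℤ) (hk : Cov892.lc (iotaP J0 K h) ^ k = 1) : k = 0 := by
  subst hx1
  exact free_of_sq (iotaP J0 K h) hne mu h2 k hk

/-- **the universal cover of `X_1` as a `ℤ`-cover** -/
def zcovXT {J0 K : ℕ} (h : 0 < K)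
    (hinf : ∀ k : ℤ, Cov892.lc (iotaP J0 K h) ^ k = 1 → k = 0) :
    haveI := pathConnected_XT (J0 := J0) h le_rfl
    Cov892.ZCov (Cov892.Bt (GenLoop.const : XT J0 K 1)) (XS J0 K 1) :=
  haveI := pathConnected_XT (J0 := J0) h le_rfl
  Cov892.zcov (Cov892.lc (iotaP J0 K h)) (hgen_XT h) hinf

end Crest.Agent.R204.Pi808
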