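import Crest.Agent.R204.Spec_114

/-!
# Row 204, B5 (helper808): `H_2(X_1)` is spanned by `x_1^2` and `x_k ≠ 0`, from `FactPoly`
-/

set_option autoImplicit false
set_option linter.unusedVariables false

namespace Crest.Agent.R204.Pi808

open Crest.Agent.R204.Spec114 Crest.Agent.R204.Spec114.Tower MvPolynomial

/-- the empty word -/
def w0 : Wd := ⟨[], by simp⟩

theorem wdeg_ge (k : ℕ) (I : List ℕ) : k ≤ wdeg k I := by
  induction I with
  | nil => exact le_rfl
  | cons i L ih =>
    show k ≤ 2 * wdeg k L + i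
    omega

theorem wdeg_one_of_ne (I : Wd) (h : I ≠ w0) : 3 ≤ wdeg 1 I.1 := by
  obtain ⟨L, hL⟩ := I
  rcases L with _ | ⟨i, L⟩
  · exact absurd rfl h
  · show 3 ≤ 2 * wdeg 1 L + i
    have h1 := wdeg_ge 1 L
    have h2 := hL.2 i (by simp)
    omega

theorem gr_one_two {X : Tower} {D : ℕ} (hP : X.FactPoly D) (z : X.H 1) (hz : z ∈ X.gr 1 2) :
    ∃ e : F2, z = e • (X.x 1 * X.x 1) := by
  classical
  obtain ⟨p, hp, rfl⟩ := (hP 1 le_rfl (by omega)).2 2 (by omega) hz
  have hp' : IsWeightedHomogeneous (fun I : Wd => wdeg 1 I.1) p 2 := hp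
  have key : ∀ m : Wd →₀ ℕ, coeff m p ≠ 0 → m = Finsupp.single w0 2 := by
    intro m hm
    have h1 : Finsupp.weight (fun I : Wd => wdeg 1 I.1) m = 2 := hp' hm
    rw [Finsupp.weight_apply, Finsupp.sum] at h1
    have h2 : ∀ I : Wd, I ≠ w0 → m I = 0 := by
      intro I hI
      by_contra h3
      have h4 : m I • wdeg 1 I.1 ≤ 2 := by
        rw [← h1]
        exact Finset.single_le_sum (f := fun I : Wd => m I • wdeg 1 I.1) (fun _ _ => Nat.zero_le _)
          (Finsupp.mem_support_iff.2 h3)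
      have h5 := wdeg_one_of_ne I hI
      have h6 : 1 ≤ m I := Nat.one_le_iff_ne_zero.2 h3
      rw [smul_eq_mul] at h4
      nlinarith
    have h7 : m = Finsupp.single w0 (m w0) := by
      ext I
      by_cases hI : I = w0
      · subst hI; simp
      · rw [h2 I hI, Finsupp.single_eq_of_ne hI]
    have h8 : m w0 = 2 := by
      have h9 : ∑ I ∈ m.support, m I • wdeg 1 I.1 = m w0 • wdeg 1 (w0 : Wd).1 := by
        refine Finset.sum_eq_single w0 (fun I _ hI => by rw [h2 I hI, zero_smul]) (fun h => ?_)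
        rw [Finsupp.notMem_support_iff.1 h, zero_smul]
      rw [h9] at h1
      have h10 : wdeg 1 (w0 : Wd).1 = 1 := rfl
      rw [h10] at h1
      simpa using h1
    rw [h7, h8]
  have hpe : p = monomial (Finsupp.single w0 2) (coeff (Finsupp.single w0 2) p) := by
    ext m
    rw [coeff_monomial]
    split_ifs with h
    · rw [h]
    · by_contra h3
      exact h (key m h3).symm
  refine ⟨coeff (Finsupp.single w0 2) p, ?_⟩
  rw [hpe]
  show aeval (fun I : Wd => X.word 1 I.1) (monomial (Finsupp.single w0 2) _) = _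
  have h12 : (Finsupp.single w0 2 : Wd →₀ ℕ).prod (fun (I : Wd) k => X.word 1 I.1 ^ k) =
      X.word 1 (w0 : Wd).1 ^ 2 := Finsupp.prod_single_index (pow_zero _)
  have h11 : X.word 1 (w0 : Wd).1 = X.x 1 := rfl
  rw [aeval_monomial, coeff_monomial, if_pos rfl, Algebra.smul_def]
  erw [h12]
  rw [h11, pow_two]

theorem x_ne_zero {X : Tower} {D : ℕ} (hP : X.FactPoly D) {k : ℕ} (hk : 1 ≤ k) (hk' : k ≤ D + 2) :
    X.x k ≠ 0 := by
  intro h0
  have h1 := (hP k hk hk').1 k (by omega) (MvPolynomial.X w0) (by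
    show IsWeightedHomogeneous _ _ _
    exact isWeightedHomogeneous_X F2 _ w0) (by
    rw [aeval_X]; exact h0)
  exact MvPolynomial.X_ne_zero w0 h1

end Crest.Agent.R204.Pi808
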