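import Crest.Agent.R204.Defs

/-!
# Row 204, leaf B5 (f): algebra of the k = 0 step, range version (helper808)

* products of distinct elements of the simple system `y^(2^b)` = monomials (binary digits):
  `prodS`, `unbits`, `bits`, `prodS_eq`, `wtS_eq`, `indep`, `span_prodS`;
* a derivation `D` with `D x_1 = 1`, `D y = 0` on the other generators: in the range its kernel is
  spanned by the products of distinct elements of the simple system without `x_1` itself: `ker_span`.
-/

set_option autoImplicit false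

namespace Crest.Agent.R204.CovAlg808

open MvPolynomial Finsupp

section Bits

variable {κ : Type*}

/-- exponent vector of a set of pairs `(j,b)` = factors `X_j^(2^b)` -/
noncomputable def unbits (S : Finset (κ × ℕ)) : κ →₀ ℕ := ∑ s ∈ S, single s.1 (2 ^ s.2)

open scoped Classical in
/-- binary digits of an exponent vector -/
noncomputable def bits (m : κ →₀ ℕ) : Finset (κ × ℕ) :=
  m.support.biUnion fun j => (m j).bitIndices.toFinset.image fun b => (j, b)

theorem mem_bits (m : κ →₀ ℕ) (j : κ) (b : ℕ) : (j, b) ∈ bits m ↔ b ∈ (m j).bitIndices := by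
  classical
  simp only [bits, Finset.mem_biUnion, Finset.mem_image, List.mem_toFinset, Prod.mk.injEq]
  constructor
  · rintro ⟨i, _, c, hc, rfl, rfl⟩; exact hc
  · intro h
    refine ⟨j, ?_, b, h, rfl, rfl⟩
    rw [Finsupp.mem_support_iff]
    intro h0
    rw [h0] at h
    simp at h

open scoped Classical in
theorem unbits_apply (S : Finset (κ × ℕ)) (j : κ) :
    unbits S j = ∑ b ∈ (S.filter fun s => s.1 = j).image Prod.snd, 2 ^ b := by
  rw [unbits, Finsupp.finsetSum_apply, Finset.sum_image]
  · rw [Finset.sum_filter]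
    refine Finset.sum_congr rfl fun s _ => ?_
    rw [Finsupp.single_apply]
  · rintro ⟨a, b⟩ h1 ⟨a', b'⟩ h2 h3
    simp only [Finset.coe_filter, Set.mem_ofPred_eq] at h1 h2
    simp only at h3
    rw [h1.2, h2.2, h3]

theorem bits_unbits (S : Finset (κ × ℕ)) : bits (unbits S) = S := by
  classical
  ext ⟨j, b⟩
  rw [mem_bits, ← List.mem_toFinset, unbits_apply, Finset.toFinset_bitIndices_sum_two_pow]
  simp

theorem unbits_bits (m : κ →₀ ℕ) : unbits (bits m) = m := by
  classical
  ext j
  rw [unbits_apply]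
  have : ((bits m).filter fun s => s.1 = j).image Prod.snd = (m j).bitIndices.toFinset := by
    ext b
    rw [List.mem_toFinset, ← mem_bits m j b, Finset.mem_image]
    constructor
    · rintro ⟨⟨a, b'⟩, h1, rfl⟩
      rw [Finset.mem_filter] at h1
      obtain ⟨h1, h2⟩ := h1
      simp only at h2
      rw [← h2]; exact h1
    · intro h; exact ⟨(j, b), Finset.mem_filter.2 ⟨h, rfl⟩, rfl⟩
  rw [this, Finset.sum_toFinset_bitIndices_two_pow]

theorem unbits_injective : Function.Injective (unbits (κ := κ)) := fun S S' h => by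
  rw [← bits_unbits S, h, bits_unbits]

theorem even_iff (m : κ →₀ ℕ) (j : κ) : Even (m j) ↔ (j, 0) ∉ bits m := by
  rw [mem_bits, Nat.mem_bitIndices, Nat.testBit_zero]
  simp [Nat.even_iff]

/-- weight of a set -/
def wtS (w : κ → ℕ) (S : Finset (κ × ℕ)) : ℕ := ∑ s ∈ S, 2 ^ s.2 * w s.1

theorem wtS_eq (w : κ → ℕ) (S : Finset (κ × ℕ)) : Finsupp.weight w (unbits S) = wtS w S := by
  rw [unbits, map_sum, wtS]
  refine Finset.sum_congr rfl fun s _ => ?_
  rw [Finsupp.weight_single, smul_eq_mul]

end Bits

section Alg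

variable {κ A : Type*} [CommRing A] [Algebra F2 A]

/-- product of distinct elements of the simple system -/
noncomputable def prodS (val : κ → A) (S : Finset (κ × ℕ)) : A := ∏ s ∈ S, val s.1 ^ 2 ^ s.2

theorem prodS_eq (val : κ → A) (S : Finset (κ × ℕ)) :
    prodS val S = aeval val (monomial (unbits S) (1 : F2)) := by
  rw [unbits, monomial_sum_one, map_prod, prodS]
  refine Finset.prod_congr rfl fun s _ => ?_
  rw [aeval_monomial, map_one, one_mul, Finsupp.prod_single_index]
  simp

theorem prodS_bits (val : κ → A) (m : κ →₀ ℕ) :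
    prodS val (bits m) = aeval val (monomial m (1 : F2)) := by
  rw [prodS_eq, unbits_bits]

theorem exists_c {val : κ → A} {P : Finset (κ × ℕ) → Prop} {a : A}
    (h : a ∈ Submodule.span F2 (prodS val '' {S | P S})) :
    ∃ c : Finset (κ × ℕ) →₀ F2, (∀ S ∈ c.support, P S) ∧ a = c.sum fun S r => r • prodS val S := by
  rw [Finsupp.mem_span_image_iff_linearCombination] at h
  obtain ⟨c, hc, rfl⟩ := h
  exact ⟨c, hc, rfl⟩

theorem smul_eq_zero_or (r : F2) : r = 0 ∨ r = 1 := by
  revert r; decide

/-- independence of the products from the independence of the monomials -/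
theorem indep {w : κ → ℕ} {val : κ → A} {t : ℕ}
    (hind : ∀ p ∈ weightedHomogeneousSubmodule F2 w t, aeval val p = 0 → p = 0)
    (c : Finset (κ × ℕ) →₀ F2) (hc : ∀ S ∈ c.support, wtS w S = t)
    (h : (c.sum fun S r => r • prodS val S) = 0) : c = 0 := by
  classical
  set p : MvPolynomial κ F2 := c.sum fun S r => monomial (unbits S) r with hp
  have hcoeff : ∀ S, coeff (unbits S) p = c S := by
    intro S
    rw [hp, Finsupp.sum, coeff_sum]
    simp only [coeff_monomial]
    rw [Finset.sum_eq_single S]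
    · simp
    · intro S' _ h1
      rw [if_neg fun h2 => h1 (unbits_injective h2)]
    · intro h1
      rw [if_pos rfl]
      exact Finsupp.notMem_support_iff.1 h1
  have h1 : p ∈ weightedHomogeneousSubmodule F2 w t := by
    rw [hp, Finsupp.sum]
    refine Submodule.sum_mem _ fun S hS => ?_
    rw [mem_weightedHomogeneousSubmodule]
    exact isWeightedHomogeneous_monomial _ _ _ (by rw [wtS_eq, hc S hS])
  have h2 : aeval val p = 0 := by
    rw [← h, hp, Finsupp.sum, Finsupp.sum, map_sum]
    refine Finset.sum_congr rfl fun S _ => ?_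
    rw [prodS_eq, ← map_smul, smul_monomial, smul_eq_mul, mul_one]
  have h3 := hind p h1 h2
  ext S
  rw [← hcoeff S, h3]; simp

/-- a polynomial with even exponents at `i0` (or any condition on the digits of the monomials) -/
theorem span_prodS {w : κ → ℕ} (val : κ → A) {t : ℕ} (p : MvPolynomial κ F2)
    (hp : p ∈ weightedHomogeneousSubmodule F2 w t) (Q : Finset (κ × ℕ) → Prop)
    (hQ : ∀ m ∈ p.support, Q (bits m)) :
    aeval val p ∈ Submodule.span F2 (prodS val '' {S | wtS w S = t ∧ Q S}) := by
  rw [p.as_sum, map_sum]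
  refine Submodule.sum_mem _ fun m hm => ?_
  have : (monomial m (coeff m p) : MvPolynomial κ F2) = coeff m p • monomial m 1 := by
    rw [smul_monomial, smul_eq_mul, mul_one]
  rw [this, map_smul, ← prodS_bits]
  refine Submodule.smul_mem _ _ (Submodule.subset_span ⟨bits m, ⟨?_, hQ m hm⟩, rfl⟩)
  rw [← wtS_eq, unbits_bits]
  exact hp (MvPolynomial.mem_support_iff.1 hm)

/-! ## the derivation -/

theorem D_aeval (val : κ → A) (D : A →ₗ[F2] A) (leib : ∀ a b, D (a * b) = D a * b + a * D b) (i0 : κ)
    (h0 : D (val i0) = 1) (h1 : ∀ i, i ≠ i0 → D (val i) = 0) (p : MvPolynomial κ F2) :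
    D (aeval val p) = aeval val (pderiv i0 p) := by
  have hD1 : D 1 = 0 := by
    have := leib 1 1
    rw [mul_one, one_mul, mul_one] at this
    exact left_eq_add.1 this
  induction p using MvPolynomial.induction_on with
  | C r =>
    rw [pderiv_C, map_zero, aeval_C, Algebra.algebraMap_eq_smul_one, map_smul, hD1, smul_zero]
  | add p q hp hq => simp only [map_add, hp, hq]
  | mul_X p i hp =>
    rw [map_mul, leib, hp, pderiv_mul, map_add, map_mul, map_mul, aeval_X]
    by_cases h : i = i0
    · subst h; rw [h0, pderiv_X_self, map_one]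
    · rw [h1 i h, pderiv_X_of_ne h, map_zero]

theorem even_of_pderiv (p : MvPolynomial κ F2) (i0 : κ) (h : pderiv i0 p = 0) :
    ∀ m ∈ p.support, Even (m i0) := by
  intro m hm
  by_contra hodd
  rw [Nat.not_even_iff_odd] at hodd
  obtain ⟨k, hk⟩ := hodd
  have h1 := coeff_pderiv (i := i0) p (m - single i0 1)
  rw [h, coeff_zero] at h1
  have h2 : m - single i0 1 + single i0 1 = m := by
    ext j
    by_cases hj : j = i0
    · subst hj; simp; omega
    · simp [Ne.symm hj]
  rw [h2] at h1
  have h3 : (((m - single i0 1 : κ →₀ ℕ) i0 : ℕ) : F2) + 1 = 1 := by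
    have : (m - single i0 1 : κ →₀ ℕ) i0 = 2 * k := by simp; omega
    rw [this]
    push_cast
    have : (2 : F2) = 0 := by decide
    rw [this, zero_mul, zero_add]
  rw [h3, mul_one] at h1
  exact (MvPolynomial.mem_support_iff.1 hm) h1.symm

/-- kernel of the derivation in the range -/
theorem ker_poly {w : κ → ℕ} {val : κ → A} {gr : ℕ → Submodule F2 A} {N : ℕ}
    (hind : ∀ t ≤ N, ∀ p ∈ weightedHomogeneousSubmodule F2 w t, aeval val p = 0 → p = 0)
    (hspan : ∀ t ≤ N + 1, gr t ≤ (weightedHomogeneousSubmodule F2 w t).map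
      (aeval val : MvPolynomial κ F2 →ₐ[F2] A).toLinearMap)
    (D : A →ₗ[F2] A) (leib : ∀ a b, D (a * b) = D a * b + a * D b) (i0 : κ) (hw : w i0 = 1)
    (h0 : D (val i0) = 1) (h1 : ∀ i, i ≠ i0 → D (val i) = 0)
    {t : ℕ} (ht : t ≤ N + 1) {a : A} (ha : a ∈ gr t) (hDa : D a = 0) :
    ∃ p ∈ weightedHomogeneousSubmodule F2 w t, (∀ m ∈ p.support, Even (m i0)) ∧ aeval val p = a := by
  obtain ⟨p, hp, rfl⟩ := hspan t ht ha
  refine ⟨p, hp, ?_, rfl⟩
  rw [SetLike.mem_coe, mem_weightedHomogeneousSubmodule] at hp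
  rcases t with _ | t
  · intro m hm
    have h2 : Finsupp.weight w m = 0 := hp (MvPolynomial.mem_support_iff.1 hm)
    have h3 : m i0 = 0 := by
      by_contra h4
      have := Finsupp.le_weight w (s := i0) (by omega) m
      omega
    rw [h3]; exact ⟨0, rfl⟩
  · apply even_of_pderiv
    apply hind t (by omega)
    · rw [mem_weightedHomogeneousSubmodule]
      exact hp.pderiv (by rw [hw])
    · rw [← D_aeval val D leib i0 h0 h1]
      exact hDa

/-- **(f)**, span: in degrees `≤ N + 1` the kernel of `D` is spanned by the products of distinct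
elements of the simple system without `(i0, 0)`. -/
theorem ker_span {w : κ → ℕ} {val : κ → A} {gr : ℕ → Submodule F2 A} {N : ℕ}
    (hind : ∀ t ≤ N, ∀ p ∈ weightedHomogeneousSubmodule F2 w t, aeval val p = 0 → p = 0)
    (hspan : ∀ t ≤ N + 1, gr t ≤ (weightedHomogeneousSubmodule F2 w t).map
      (aeval val : MvPolynomial κ F2 →ₐ[F2] A).toLinearMap)
    (D : A →ₗ[F2] A) (leib : ∀ a b, D (a * b) = D a * b + a * D b) (i0 : κ) (hw : w i0 = 1)
    (h0 : D (val i0) = 1) (h1 : ∀ i, i ≠ i0 → D (val i) = 0)
    {t : ℕ} (ht : t ≤ N + 1) {a : A} (ha : a ∈ gr t) (hDa : D a = 0) :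
    a ∈ Submodule.span F2 (prodS val '' {S | wtS w S = t ∧ (i0, 0) ∉ S}) := by
  obtain ⟨p, hp, he, rfl⟩ := ker_poly hind hspan D leib i0 hw h0 h1 ht ha hDa
  exact span_prodS val p hp (fun S => (i0, 0) ∉ S) fun m hm => (even_iff m i0).1 (he m hm)

/-- **(f)** without derivation, `k ≥ 1`: everything is spanned by the products. -/
theorem all_span {w : κ → ℕ} {val : κ → A} {gr : ℕ → Submodule F2 A} {t : ℕ}
    (hspan : gr t ≤ (weightedHomogeneousSubmodule F2 w t).map
      (aeval val : MvPolynomial κ F2 →ₐ[F2] A).toLinearMap) {a : A} (ha : a ∈ gr t) :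
    a ∈ Submodule.span F2 (prodS val '' {S | wtS w S = t}) := by
  obtain ⟨p, hp, rfl⟩ := hspan ha
  have := span_prodS val p hp (fun _ => True) fun _ _ => trivial
  simpa using this

/-- products with all factors killed by `D` are killed by `D` -/
theorem D_prodS (val : κ → A) (D : A →ₗ[F2] A) (leib : ∀ a b, D (a * b) = D a * b + a * D b) (i0 : κ)
    (h1 : ∀ i, i ≠ i0 → D (val i) = 0) (S : Finset (κ × ℕ)) (hS : (i0, 0) ∉ S) :
    D (prodS val S) = 0 := by
  classical
  have h2A : (2 : A) = 0 := by
    have : (2 : A) = algebraMap F2 A 2 := (map_ofNat (algebraMap F2 A) 2).symm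
    rw [this, show (2 : F2) = 0 from by decide, map_zero]
  have hD1 : D 1 = 0 := by
    have := leib 1 1
    rw [mul_one, one_mul, mul_one] at this
    exact left_eq_add.1 this
  have hsq : ∀ a : A, D (a * a) = 0 := fun a => by
    rw [leib, mul_comm a, ← two_mul, h2A, zero_mul]
  have hfac : ∀ s : κ × ℕ, s ≠ (i0, 0) → D (val s.1 ^ 2 ^ s.2) = 0 := by
    rintro ⟨j, b⟩ hs
    rcases b with _ | b
    · rw [pow_zero, pow_one]
      exact h1 j fun h => hs (by rw [h])
    · rw [pow_succ, pow_mul, sq]; exact hsq _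
  rw [prodS]
  induction S using Finset.induction_on with
  | empty => simpa using hD1
  | insert s S hs ih =>
    rw [Finset.mem_insert, not_or] at hS
    rw [Finset.prod_insert hs, leib, hfac s (Ne.symm hS.1), ih hS.2, zero_mul, mul_zero, add_zero]

end Alg

end Crest.Agent.R204.CovAlg808
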