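import Crest.Agent.R204.Ind3_979
import Crest.Agent.R204.CovAlg_808

/-!
# Row 204, leaf B5: `Cover0` from the cap derivation (owner helper892)

`CapData X` : the operator `cap = u ∩ ·` on `H(X_1)` (905), a derivation killing primitives of degree `> 1`
and the suspensions of the base component, with `cap x_1 = 1`.
`cover0` : everything in 979's `Cover0` except the loop statement, which is a hypothesis.
-/

set_option autoImplicit false

noncomputable section

namespace Crest.Agent.R204.Cov892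

open Crest.Agent.R204.Spec114 Crest.Agent.R204.Spec114.Tower Crest.Agent.R204.Ind979 MvPolynomial

/-- the cap product with the generator of `H¹(X_1)` -/
structure CapData (X : Tower) where
  cap : X.H 1 →ₗ[F2] X.H 1
  leib : ∀ a b, cap (a * b) = cap a * b + a * cap b
  prim : ∀ t, 2 ≤ t → ∀ y ∈ X.gr 1 t, y ∈ X.prim 1 → cap y = 0
  x1 : cap (X.x 1) = 1
  sig : ∀ y ∈ X.base, cap (X.σ 0 y) = 0

namespace CapData

variable {X : Tower} (c : CapData X)

theorem cap_one : c.cap 1 = 0 := by
  have := c.leib 1 1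
  rw [mul_one, one_mul, mul_one] at this
  exact left_eq_add.1 this

/-- the kernel of the derivation = the homology of the covering -/
def C : Subalgebra F2 (X.H 1) where
  carrier := {a | c.cap a = 0}
  mul_mem' {a b} ha hb := by
    simp only [Set.mem_ofPred_eq] at ha hb ⊢
    rw [c.leib, ha, hb, zero_mul, mul_zero, add_zero]
  add_mem' {a b} ha hb := by
    simp only [Set.mem_ofPred_eq] at ha hb ⊢
    rw [map_add, ha, hb, add_zero]
  algebraMap_mem' r := by
    simp only [Set.mem_ofPred_eq]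
    rw [Algebra.algebraMap_eq_smul_one, map_smul, c.cap_one, smul_zero]

theorem mem_C {a : X.H 1} : a ∈ c.C ↔ c.cap a = 0 := Iff.rfl

/-- grading of the kernel -/
def grC (t : ℕ) : Submodule F2 c.C := (X.gr 1 t).comap c.C.val.toLinearMap

theorem mem_grC {t : ℕ} {a : c.C} : a ∈ c.grC t ↔ (a : X.H 1) ∈ X.gr 1 t := Iff.rfl

/-- suspension on the base component -/
def s0 : Subalgebra.toSubmodule X.base →ₗ[F2] c.C :=
  LinearMap.codRestrict (Subalgebra.toSubmodule c.C)
    ((X.σ 0).domRestrict (Subalgebra.toSubmodule X.base)) (fun y => c.sig _ y.2)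

theorem exists_s : ∃ s : X.H 0 →ₗ[F2] c.C, ∀ y ∈ X.base, (s y : X.H 1) = X.σ 0 y := by
  obtain ⟨g, hg⟩ := LinearMap.exists_extend c.s0
  refine ⟨g, fun y hy => ?_⟩
  have := LinearMap.congr_fun hg ⟨y, hy⟩
  exact congrArg Subtype.val this

/-- an extension of the suspension to all of `H(X_0)` -/
def s : X.H 0 →ₗ[F2] c.C := Classical.choose c.exists_s

theorem s_spec (y : X.H 0) (hy : y ∈ X.base) : (c.s y : X.H 1) = X.σ 0 y :=
  Classical.choose_spec c.exists_s y hy

/-- the words of positive length are killed by the derivation -/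
theorem cap_word {D : ℕ} (hQ : X.FactQ D) (hσ : X.FactSigma D) (hx : X.FactX D) (I : Wd)
    (hI : I.1 ≠ []) (hd : wdeg 1 I.1 ≤ D + 2) : c.cap (X.word 1 I.1) = 0 := by
  have h1 := wdeg_up 0 (I, 0)
  rw [pow_zero, one_mul] at h1
  have hent : ∀ i ∈ (up (I, 0)).1, i ≤ D + 1 := fun i hi => by
    have := entry_le_wdeg 0 _ i hi
    change wdeg 0 (up (I, 0)).1 + 1 = wdeg 1 I.1 at h1
    omega
  have h2 : X.σ 0 (X.word 0 (up (I, 0)).1) = X.word 1 I.1 := by
    rw [sigma_word_up hQ hσ (by omega : 0 ≤ D + 1) (I, 0) hent]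
    show X.word (0 + 1) I.1 ^ 2 ^ 0 = _
    rw [pow_zero, pow_one]
  have h3 : 2 ≤ wdeg 1 I.1 := by
    rcases hL : I.1 with _ | ⟨i, L⟩
    · exact absurd hL hI
    · rw [wdeg_cons]
      have := le_wdeg 1 L
      omega
  have hentI : ∀ i ∈ I.1, i ≤ D + 1 := fun i hi => by
    have := entry_le_wdeg 1 _ i hi
    omega
  refine c.prim _ h3 _ (word_mem hQ hx (by omega) I.1 hentI) ?_
  rw [← h2]
  exact (hσ 0 (by omega)).2.1 _

end CapData

/-- value of a monomial pushed forward along the inclusion of a subset of the generators -/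
theorem mval_mapDomain {H : Type*} [CommRing H] {ι : Type*} {p : ι → Prop} (y : ι → H)
    (m : {i // p i} →₀ ℕ) : mval y (m.mapDomain Subtype.val) = mval (fun i : {i // p i} => y i) m := by
  unfold mval
  rw [Finsupp.prod_mapDomain_index_inj Subtype.val_injective]

theorem mdeg_mapDomain {ι : Type*} {p : ι → Prop} (d : ι → ℕ)
    (m : {i // p i} →₀ ℕ) : mdeg d (m.mapDomain Subtype.val) = mdeg (fun i : {i // p i} => d i) m := by
  unfold mdeg
  rw [Finsupp.sum_mapDomain_index_inj Subtype.val_injective]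

/-- **the kernel of the derivation is spanned by the monomials with even exponent of `x_1`** -/
theorem CapData.even {X : Tower} (c : CapData X) {D : ℕ} (hQ : X.FactQ D) (hσ : X.FactSigma D)
    (hx : X.FactX D) (hP : X.FactPoly D) (t : ℕ) (ht : t ≤ D + 2) (a : X.H 1) (ha : a ∈ X.gr 1 t)
    (hca : c.cap a = 0) : a ∈ Submodule.span F2
      (mval (fun I : Wd => X.word 1 I.1) '' {m | mdeg (fun I : Wd => wdeg 1 I.1) m = t ∧
        Even (m ⟨[], by simp⟩)}) := by
  classical
  have hP1 := (factPoly_iff D).1 hP 1 le_rfl (by omega)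
  have hP2 : PolyR (X.gr 1) (fun i : {I : Wd // wdeg 1 I.1 ≤ D + 2} => X.word 1 i.1.1)
      (fun i => wdeg 1 i.1.1) (1 + D) :=
    (PolyR.subtype_iff (fun I : Wd => wdeg 1 I.1 ≤ D + 2) (fun I hI => by omega)).2 hP1
  rw [polyR_iff] at hP2
  let i0 : {I : Wd // wdeg 1 I.1 ≤ D + 2} := ⟨⟨[], by simp⟩, by
    show wdeg 1 [] ≤ D + 2
    rw [wdeg_nil]; omega⟩
  obtain ⟨p, hp, hev, rfl⟩ := CovAlg808.ker_poly hP2.1 hP2.2 c.cap c.leib i0
    (show wdeg 1 [] = 1 from rfl) c.x1 (fun i hi => c.cap_word hQ hσ hx i.1 (fun h => hi (by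
      apply Subtype.ext; apply Subtype.ext; exact h)) i.2) (by omega) ha hca
  have key : ∀ m ∈ p.support, mval (fun i : {I : Wd // wdeg 1 I.1 ≤ D + 2} => X.word 1 i.1.1) m ∈
      Submodule.span F2 (mval (fun I : Wd => X.word 1 I.1) '' {m | mdeg (fun I : Wd => wdeg 1 I.1) m = t ∧
        Even (m ⟨[], by simp⟩)}) := by
    intro m hm
    refine Submodule.subset_span ⟨m.mapDomain Subtype.val, ⟨?_, ?_⟩, mval_mapDomain _ m⟩
    · rw [mdeg_mapDomain (p := fun I : Wd => wdeg 1 I.1 ≤ D + 2) (fun I : Wd => wdeg 1 I.1) m,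
        mdeg_eq_weight]
      exact hp (MvPolynomial.mem_support_iff.1 hm)
    · have h1 := hev m hm
      have h2 : (m.mapDomain Subtype.val : Wd →₀ ℕ) i0.1 = m i0 :=
        Finsupp.mapDomain_apply Subtype.val_injective m i0
      show Even ((m.mapDomain Subtype.val : Wd →₀ ℕ) i0.1)
      rw [h2]; exact h1
  rw [aeval_eq]
  exact Submodule.sum_mem _ fun m hm => Submodule.smul_mem _ _ (key m hm)

/-- **everything in `Cover0` except the range loop statement** -/
def cover0 {X : Tower} (c : CapData X) {D : ℕ} (hGr : X.FactGr D) (hQ : X.FactQ D) (hσ : X.FactSigma D)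
    (hx : X.FactX D) (hP : X.FactPoly D)
    (loop : ∀ (J : Type) (v : J → X.H 0) (e : J → ℕ), (∀ j, 1 ≤ e j) →
      (∀ j, v j ∈ X.gr 0 (e j) ⊓ Subalgebra.toSubmodule X.base) →
      SimR c.grC (fun j => c.s (v j)) (fun j => e j + 1) (D + 1) →
      PolyR (fun t => X.gr 0 t ⊓ Subalgebra.toSubmodule X.base) v e D) : Cover0 X D where
  C := c.C
  grC := c.grC
  π := c.C.val
  s := c.s
  one_mem := (hGr 1 (by omega)).2.1
  mul_mem s t a b ha hb := (hGr 1 (by omega)).2.2 s t _ _ ha hb
  π_inj t _ a _ ha := Subtype.ext ha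
  π_even t ht a ha := c.even hQ hσ hx hP t ht a ha a.2
  s_mem t y hy := by
    rw [CapData.mem_grC, c.s_spec y hy.2]
    exact (hσ 0 (by omega)).1 t y hy.1
  π_s y hy := c.s_spec y hy
  loop := loop

end Crest.Agent.R204.Cov892
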