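import Crest.Agent.R204.Wang3_905
import Crest.Agent.R204.EZInst_847
import Crest.Agent.R204.Hopf4_450
import Crest.Agent.R204.Cov3_892

/-!
# Row 204, leaf B5: `CapData` (helper905)

* `capH_mul`, `capH_prim_M` : the cap product on the Pontryagin ring `M.ring ezd` of 450
* `capData_of` : 892's `CapData X` from an operator on `X.H 1`
-/

set_option autoImplicit false
set_option linter.style.haveILetI false

noncomputable section

namespace Crest.Agent.R204.Wang905

open Cov892 TensorProduct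

section hmon

variable {Kt K : SS} (M : Hopf450.HMon K) (C : ZCov Kt K)

theorem capH_mulL (hconn : ∀ x ∈ H.gr F2 K 0, x = Coalg847.eps K x • Coalg847.vtx M.e)
    (x y : H F2 K) : capH C (M.mulL EZ847.ezd x y) =
      M.mulL EZ847.ezd (capH C x) y + M.mulL EZ847.ezd x (capH C y) :=
  capH_pmul C EZ847.ezd (fun _ _ _ _ => rfl) M.mu hconn (M.mulL_vtx EZ847.ezd)
    (M.vtx_mulL EZ847.ezd) x y

/-- Leibniz rule in the Pontryagin ring -/
theorem capH_mul (hconn : ∀ x ∈ H.gr F2 K 0, x = Coalg847.eps K x • Coalg847.vtx M.e)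
    (x y : H F2 K) : letI := M.ring EZ847.ezd
    capH C (x * y) = capH C x * y + x * capH C y := capH_mulL M C hconn x y

/-- the cap product kills primitives of degree `≠ 1` -/
theorem capH_prim_M {x : H F2 K} (hx : letI := M.ring EZ847.ezd; letI := M.alg EZ847.ezd
      M.copA EZ847.ezd x = x ⊗ₜ[F2] 1 + 1 ⊗ₜ[F2] x) {n : ℕ} (hn : n ≠ 1)
    (hg : x ∈ H.gr F2 K n) : capH C x = 0 :=
  capH_prim C EZ847.ezd (fun _ _ _ _ => rfl) (v := M.e) hx hn hg

/-- the cap product of the generator -/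
theorem capH_one (hg : ∀ x : H F2 Kt, H.map F2 C.g x = x) {x₁ : H F2 K}
    (hx : ∀ x ∈ H.gr F2 K 1, ∃ r : F2, x = r • x₁) :
    letI := M.ring EZ847.ezd
    capH C x₁ = 1 := capH_x1 C hg M.e hx

end hmon

open Crest.Agent.R204.Spec114 Crest.Agent.R204.Spec114.Tower

/-- `σ 1 = 0` -/
theorem sigma_one {X : Tower} {D : ℕ} (hσ : X.FactSigma D) {k : ℕ} (hk : k ≤ D + 1) :
    X.σ k 1 = 0 := by
  have h := (hσ k hk).2.2.1 1 1
  rw [mul_one, map_one (X.ε k), one_smul] at h
  exact left_eq_add.1 h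

/-- **`CapData` from the operator** -/
def capData_of {X : Tower} {D : ℕ} (hσ : X.FactSigma D) (cap : X.H 1 →ₗ[F2] X.H 1)
    (leib : ∀ a b, cap (a * b) = cap a * b + a * cap b)
    (prim : ∀ t, t ≠ 1 → ∀ y ∈ X.gr 1 t, y ∈ X.prim 1 → cap y = 0)
    (x1 : cap (X.x 1) = 1)
    (hbase : ∀ y ∈ X.base, y ∈ ⨆ t, (X.gr 0 t ⊓ Subalgebra.toSubmodule X.base))
    (hbase0 : ∀ y ∈ X.gr 0 0 ⊓ Subalgebra.toSubmodule X.base, ∃ r : F2, y = r • (1 : X.H 0)) :
    CapData X where
  cap := cap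
  leib := leib
  prim t ht y hy hp := prim t (by omega) y hy hp
  x1 := x1
  sig y hy := by
    refine Submodule.iSup_induction _ (motive := fun y => cap (X.σ 0 y) = 0) (hbase y hy) ?_ ?_ ?_
    · rintro (_ | t) y hy
      · obtain ⟨r, rfl⟩ := hbase0 y hy
        rw [map_smul, sigma_one hσ (Nat.zero_le _), smul_zero, map_zero]
      · exact prim (t + 1 + 1) (by omega) _ ((hσ 0 (Nat.zero_le _)).1 _ y hy.1)
          ((hσ 0 (Nat.zero_le _)).2.1 y)
    · rw [map_zero, map_zero]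
    · intro a b ha hb
      rw [map_add, map_add, ha, hb, add_zero]

end Crest.Agent.R204.Wang905
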