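import Crest.Agent.R204.CompOm_696
import Crest.Agent.R204.Prd_328
import Crest.Agent.R204.HZ_76
import Crest.Agent.R204.C5Aux_265

/-!
# Row 204, block G: the base component `X₀` of `Ω^J Z` as simplicial set (helper947)

`X0 J Z z₀ = fib (cOm J Z z₀) 1`, inclusion `inX0`, product `mu0 c`, base vertex `e0`;
unit laws, injectivity of the inclusion, `H_0`.
-/

set_option autoImplicit false
set_option linter.unusedSectionVars false

open scoped Topology unitInterval Topology.Homotopy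

noncomputable section

namespace Crest.Agent.R204.X0947

open Crest.Agent.R204 SS Comp696 SingAct265 Cubes735 Prd328
open Crest.Agent.R204.HspSS696 hiding Om
open Crest.Agent.R204.HspSS696 (Om)

/-- homotopic maps agree in homology -/
theorem map_eq_of_htpy {K L : SS} {f g : SS.Hom K L} (h : Nonempty (SingAct265.Htpy f g))
    (R : Type) [CommRing R] : H.map R f = H.map R g := by
  obtain ⟨h, h0, h1⟩ := h
  have key := HtpInv334.homotopyInv R K L h
  have e0 : SS.Hom.comp h (SpecA.endMap K 0) = f := SS.Hom.ext (funext fun n => funext fun x => h0 n x)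
  have e1 : SS.Hom.comp h (SpecA.endMap K 1) = g := SS.Hom.ext (funext fun n => funext fun x => h1 n x)
  rw [e0, e1] at key
  exact key

theorem crossH_vt_left (R : Type) [CommRing R] {K L : SS} (v : K.S 0) (x : H R L) :
    crossH R (vt R v) x = H.map R (SS.pair (SS.constHom L K v) (SS.Hom.id L)) x := by
  obtain ⟨a, ha, rfl⟩ := Hd.mk_surj _ x
  rw [vt, crossH_mk, H.map, Hd.map_mk, Hd.mk_eq_mk]
  exact ⟨0, by rw [map_zero, C5265.cross_vertex, sub_self]⟩

variable {J : Type} [Finite J] [DecidableEq J] [Nontrivial J] {Z : Type} [TopologicalSpace Z] {z₀ : Z}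

/-- the base component -/
abbrev X0 (J : Type) [Finite J] [DecidableEq J] [Nontrivial J] (Z : Type) [TopologicalSpace Z]
    (z₀ : Z) : SS := fib (cOm J Z z₀) 1

/-- the inclusion -/
abbrev inX0 : SS.Hom (X0 J Z z₀) (Sing (Om J Z z₀)) := fibIncl (cOm J Z z₀) 1

/-- the product of the base component -/
def mu0 (c : BoxConf (Fin 2) J) : SS.Hom ((X0 J Z z₀).prod (X0 J Z z₀)) (X0 J Z z₀) :=
  fibLift (cOm J Z z₀) 1 ((mulS c).comp (SS.prodMap inX0 inX0)) (fun n x => by
    show (cOm J Z z₀).app n ((mulS c).app n (inX0.app n x.1, inX0.app n x.2)) = 1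
    rw [cOm_mulS, fib_prop, fib_prop, mul_one])

theorem in_mu0 (c : BoxConf (Fin 2) J) : (inX0 (J := J) (Z := Z) (z₀ := z₀)).comp (mu0 c) =
    (mulS c).comp (SS.prodMap inX0 inX0) := rfl

/-- the base vertex -/
def e0 : (X0 J Z z₀).S 0 := fmk (cOm J Z z₀) 1 eS rfl

@[simp] theorem in_e0 : (inX0 (J := J) (Z := Z) (z₀ := z₀)).app 0 e0 = eS := rfl

variable (R : Type) [CommRing R]

theorem in_injective : Function.Injective (H.map R (inX0 (J := J) (Z := Z) (z₀ := z₀))) :=
  incl_injective R _ _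

theorem map_mu0 (c : BoxConf (Fin 2) J) (x y : H R (X0 J Z z₀)) :
    H.map R inX0 (H.map R (mu0 c) (crossH R x y)) =
      H.map R (mulS c) (crossH R (H.map R inX0 x) (H.map R inX0 y)) := by
  rw [map_comp, in_mu0, ← map_comp, map_crossH]

theorem mulS_unitR (c : BoxConf (Fin 2) J) (x : H R (Sing (Om J Z z₀))) :
    H.map R (mulS c) (crossH R x (vt R eS)) = x := by
  rw [crossH_vt, map_comp]
  exact (LinearMap.congr_fun (map_eq_of_htpy (mulS_unit_right c) R) x).trans (map_idH R x)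

theorem mulS_unitL (c : BoxConf (Fin 2) J) (x : H R (Sing (Om J Z z₀))) :
    H.map R (mulS c) (crossH R (vt R eS) x) = x := by
  rw [crossH_vt_left, map_comp]
  exact (LinearMap.congr_fun (map_eq_of_htpy (mulS_unit_left c) R) x).trans (map_idH R x)

/-- right unit law -/
theorem mu0_unitR (c : BoxConf (Fin 2) J) (x : H R (X0 J Z z₀)) :
    H.map R (mu0 c) (crossH R x (vt R e0)) = x := by
  apply in_injective R
  rw [map_mu0, map_vt, in_e0, mulS_unitR]

/-- left unit law -/
theorem mu0_unitL (c : BoxConf (Fin 2) J) (x : H R (X0 J Z z₀)) :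
    H.map R (mu0 c) (crossH R (vt R e0) x) = x := by
  apply in_injective R
  rw [map_mu0, map_vt, in_e0, mulS_unitL]

/-- all vertices are homologous to the base vertex -/
theorem vt_eq (v : (X0 J Z z₀).S 0) : vt R v = vt R e0 := by
  apply in_injective R
  rw [map_vt, map_vt, in_e0]
  have h1 : cls (SingAct265.ev (inX0.app 0 v) (stdSimplex.vertex 0)) =
      cls (GenLoop.const : Ω^ J Z z₀) := v.2
  obtain ⟨γ⟩ := cls_eq_iff.1 h1
  have h2 := HZ76.bd_pathS R γ
  have h3 : HZ76.vtx (SingAct265.ev (inX0.app 0 v) (stdSimplex.vertex 0)) = inX0.app 0 v :=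
    HZ76.vtx_ev _
  rw [h3] at h2
  exact (Hd.mk_eq_mk.2 ⟨_, h2⟩).symm

/-- `H_0` of the base component -/
theorem gr_zero (x : H R (X0 J Z z₀)) (hx : x ∈ H.gr R (X0 J Z z₀) 0) : ∃ r : R, x = r • vt R e0 := by
  obtain ⟨z, hz, hz', rfl⟩ := Gr334.mem_H_gr.1 hx
  have key : ∀ z ∈ N.gr R (X0 J Z z₀) 0, ∀ hz' : N.bd R _ z = 0,
      ∃ r : R, Hd.mk (N.bd R _) z hz' = r • vt R e0 := by
    intro z hz
    rw [Ngr_eq] at hz
    refine Submodule.span_induction (p := fun z _ => ∀ hz' : N.bd R _ z = 0,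
      ∃ r : R, Hd.mk (N.bd R (X0 J Z z₀)) z hz' = r • vt R e0) ?_ ?_ ?_ ?_ hz
    · rintro _ ⟨v, rfl⟩ hz'
      exact ⟨1, by rw [one_smul]; exact vt_eq R v⟩
    · intro hz'
      exact ⟨0, by rw [zero_smul]; exact Hd.mk_eq_zero.2 ⟨0, map_zero _⟩⟩
    · intro a b ha hb iha ihb hz'
      rw [← Ngr_eq] at ha hb
      have h0 : ∀ a ∈ N.gr R (X0 J Z z₀) 0, N.bd R _ a = 0 := fun a ha => by
        rw [Ngr_eq] at ha
        refine Submodule.span_induction (p := fun z _ => N.bd R (X0 J Z z₀) z = 0) ?_ ?_ ?_ ?_ ha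
        · rintro _ ⟨v, rfl⟩; exact EZ271.bd_sx_zero R v
        · exact map_zero _
        · intro a b _ _ ha hb; rw [map_add, ha, hb, add_zero]
        · intro r a _ ha; rw [map_smul, ha, smul_zero]
      obtain ⟨r, hr⟩ := iha (h0 a ha)
      obtain ⟨s, hs⟩ := ihb (h0 b hb)
      exact ⟨r + s, by rw [add_smul, ← hr, ← hs]; rfl⟩
    · intro r a ha iha hz'
      rw [← Ngr_eq] at ha
      have h0 : N.bd R _ a = 0 := by
        rw [Ngr_eq] at ha
        refine Submodule.span_induction (p := fun z _ => N.bd R (X0 J Z z₀) z = 0) ?_ ?_ ?_ ?_ ha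
        · rintro _ ⟨v, rfl⟩; exact EZ271.bd_sx_zero R v
        · exact map_zero _
        · intro a b _ _ ha hb; rw [map_add, ha, hb, add_zero]
        · intro r a _ ha; rw [map_smul, ha, smul_zero]
      obtain ⟨s, hs⟩ := iha h0
      exact ⟨r * s, by rw [← smul_smul, ← hs]; rfl⟩
  exact key z hz hz'

theorem mem_gr_iff {n : ℕ} (x : H R (X0 J Z z₀)) :
    H.map R inX0 x ∈ H.gr R (Sing (Om J Z z₀)) n ↔ x ∈ H.gr R (X0 J Z z₀) n := by
  constructor
  · intro h
    have := hret_mem_gr R (cOm J Z z₀) 1 h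
    rwa [hret_incl] at this
  · exact hmap_mem_gr R _

end Crest.Agent.R204.X0947
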