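import Crest.Agent.R204.PolyV_979
import Crest.Agent.R204.Wang4_905
import Crest.Agent.R204.Wang2_905
import Crest.Agent.R204.Cov4_892
import Crest.Agent.R204.PiE_808
import Crest.Agent.R204.PiF_808
import Crest.Agent.R204.X0_947
import Crest.Agent.R204.LoopId2_872

/-!
# Row 204, block B, `k = 0`: the cap derivation on the concrete tower (`CapData p.tower`)
-/

set_option autoImplicit false
set_option linter.style.haveILetI false

noncomputable section

namespace Crest.Agent.R204.PolyZ979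

open Crest.Agent.R204 Spec114 Inst194 Pi808 Cov892 Wang905
open scoped TensorProduct Topology.Homotopy

variable (p : Par) {D : ℕ}

/-- `x_1` is the class of the loop `iotaP` -/
theorem x_one (h : 0 < p.K) : p.tower.x 1 = hcl (iotaP p.J0 p.K h) := by
  show p.sig 0 (p.x 0) = _
  rw [Par.sig_of_lt p h]
  exact sigma_iota h _ (fun u => rfl)

theorem x_one_ne (h : 0 < p.K) : p.tower.x 1 ≠ 0 :=
  BaseR170.tower_x_ne p (show 1 ≤ p.J0 + p.K by omega) h

/-- `π_1` is infinite cyclic -/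
theorem hinf (h : 0 < p.K) (hP : p.tower.FactPoly D) (k : ℤ)
    (hk : Cov892.lc (iotaP p.J0 p.K h) ^ k = 1) : k = 0 :=
  hinf_XT h (p.tower.x 1) (x_one p h) (x_one_ne p h) (p.N 1).mu
    (fun z hz => gr_one_two hP z hz) k hk

/-- the covering -/
def cov (h : 0 < p.K) (hP : p.tower.FactPoly D) :
    ZCov (Bt (GenLoop.const : XT p.J0 p.K 1)) (p.S 1) :=
  zcovXT h (hinf p h hP)

theorem conn_one (h : 0 < p.K) (x : H F2 (p.S 1)) (hx : x ∈ H.gr F2 (p.S 1) 0) :
    x = Coalg847.eps (p.S 1) x • Coalg847.vtx (p.N 1).e := by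
  have := pathConnected_XT (J0 := p.J0) (K := p.K) (k := 1) h le_rfl
  exact Geo979.gr_zero_eq (p.N 1).e hx

theorem cov_g (h : 0 < p.K) (hP : p.tower.FactPoly D) (x : H F2 (Bt (GenLoop.const : XT p.J0 p.K 1))) :
    H.map F2 (cov p h hP).g x = x := by
  haveI := pathConnected_XT (J0 := p.J0) (K := p.K) (k := 1) h le_rfl
  haveI : Nontrivial (Fin (cd p.J0 p.K 1)) := Fin.nontrivial_iff_two_le.2 (two_le p.hM (p.hc 1))
  exact LinearMap.congr_fun (zcov_g_homology HInv328.homotopyInv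
    (PF872.hsp (n := cd p.J0 p.K 1) (Hsp696.halves (i0 (p.hc 1)))) F2 _ (hgen_XT h) (hinf p h hP)) x

section base0

theorem Hc_supr {K : SS} {π : Type} (c : Comp696.Cm K π) (g : π) (y : H F2 K)
    (hy : y ∈ Comp696.Hc F2 c g) : y ∈ ⨆ t, (H.gr F2 K t ⊓ Comp696.Hc F2 c g) := by
  obtain ⟨x, rfl⟩ := hy
  have hx : x ∈ ⨆ t, H.gr F2 (Comp696.fib c g) t := by
    rw [(Gr334.isInternal_H F2 _).submodule_iSup_eq_top]
    trivial
  refine Submodule.iSup_induction _ (motive := fun x => H.map F2 (Comp696.fibIncl c g) x ∈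
    ⨆ t, (H.gr F2 K t ⊓ Comp696.Hc F2 c g)) hx ?_ ?_ ?_
  · intro t x hx
    exact Submodule.mem_iSup_of_mem t ⟨Comp696.hmap_mem_gr F2 _ hx, ⟨x, rfl⟩⟩
  · rw [map_zero]; exact Submodule.zero_mem _
  · intro a b ha hb
    rw [map_add]; exact Submodule.add_mem _ ha hb

theorem Hc_zero {J : Type} [Finite J] [DecidableEq J] [Nontrivial J] {Z : Type} [TopologicalSpace Z]
    {z₀ : Z} (y : H F2 (SS.Sing (HspSS696.Om J Z z₀))) (h1 : y ∈ H.gr F2 _ 0)
    (h2 : y ∈ Comp696.Hc F2 (Comp696.cOm J Z z₀) 1) :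
    ∃ r : F2, y = r • Coalg847.vtx HspSS696.eS := by
  obtain ⟨x, rfl⟩ := h2
  have hx := (X0947.mem_gr_iff F2 x).1 h1
  obtain ⟨r, hr⟩ := X0947.gr_zero F2 x hx
  refine ⟨r, ?_⟩
  rw [hr, map_smul]
  congr 1
  exact Prd328.map_vt F2 _ _

theorem base_supr (y : p.tower.H 0) (hy : y ∈ p.tower.base) :
    y ∈ ⨆ t, (p.tower.gr 0 t ⊓ Subalgebra.toSubmodule p.tower.base) := by
  haveI : Nontrivial (Fin (cd p.J0 p.K 0)) := Fin.nontrivial_iff_two_le.2 (two_le p.hM (p.hc 0))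
  exact Hc_supr (Comp696.cOm (Fin (cd p.J0 p.K 0)) (Freu297.Sph (p.J0 + p.K))
    (Freu297.pt (p.J0 + p.K))) 1 y hy

theorem base_zero (y : p.tower.H 0)
    (hy : y ∈ p.tower.gr 0 0 ⊓ Subalgebra.toSubmodule p.tower.base) :
    ∃ r : F2, y = r • (1 : p.tower.H 0) := by
  haveI : Nontrivial (Fin (cd p.J0 p.K 0)) := Fin.nontrivial_iff_two_le.2 (two_le p.hM (p.hc 0))
  exact Hc_zero y hy.1 hy.2

end base0

/-- **the cap derivation on the concrete tower** -/
def capData (hM : D + 2 ≤ p.M) (hK : D + 2 ≤ p.K) (hP : p.tower.FactPoly D) : CapData p.tower :=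
  have h : 0 < p.K := by omega
  capData_of (p.factSigma hM hK) (capH (cov p h hP))
    (capH_mul (p.N 1) (cov p h hP) (conn_one p h))
    (fun t ht y hy hp => capH_prim_M (p.N 1) (cov p h hP) hp ht hy)
    (capH_one (p.N 1) (cov p h hP) (cov_g p h hP) (fun x hx => by
      obtain ⟨r, hr⟩ := Submodule.mem_span_singleton.1 (BaseR170.tower_span p le_rfl h
        ((p.factX hM hK).1 1 (by omega)).1 (x_one_ne p h) hx)
      exact ⟨r, hr.symm⟩))
    (base_supr p) (base_zero p)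

end Crest.Agent.R204.PolyZ979
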