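import Crest.Agent.R204.Ops_265
import Crest.Agent.R204.EZSym_888
import Crest.Agent.R204.Rel_683

/-!
# Row 204, block G (helper103): the Cartan formula for the operations `Q_i`

For an abstract `Θ`-algebra with the Cartan law:
`Q_i (x y) = ∑_{a + b = i} Q_a x * Q_b y` for all classes `x y`, `i < M`.
-/

set_option autoImplicit false

noncomputable section

namespace Crest.Agent.R204.CartanQ103

open SS EZ271 ThetaSS265 C5265 ThAlg265 Ops265 Finset
open DK742 (proj Invo orb AltSS)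

/-! ## chains on the full `E Z/2` -/

/-- translation by `a` -/
def tauA (a : ℕ) : Hom EZ2 EZ2 := SS.EGmap (fun g => g + (a : ZMod 2))

theorem tauA_zero : tauA 0 = SS.Hom.id _ := by
  refine Hom.ext (funext fun n => funext fun x => funext fun i => ?_)
  show x i + ((0 : ℕ) : ZMod 2) = x i
  simp

theorem tauA_succ (a : ℕ) : tauA (a + 1) = (tauA a).comp tau := by
  refine Hom.ext (funext fun n => funext fun x => funext fun i => ?_)
  show x i + ((a + 1 : ℕ) : ZMod 2) = x i + 1 + (a : ZMod 2)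
  push_cast
  ring

theorem tauA_succ' (a : ℕ) : tauA (a + 1) = tau.comp (tauA a) := by
  refine Hom.ext (funext fun n => funext fun x => funext fun i => ?_)
  show x i + ((a + 1 : ℕ) : ZMod 2) = x i + (a : ZMod 2) + 1
  push_cast
  ring

theorem tauA_two (a : ℕ) : tauA a = SS.Hom.id _ ∨ tauA a = tau := by
  have h : ((a : ℕ) : ZMod 2) = 0 ∨ ((a : ℕ) : ZMod 2) = 1 := by
    generalize ((a : ℕ) : ZMod 2) = b
    revert b; decide
  rcases h with h | h
  · left
    refine Hom.ext (funext fun n => funext fun x => funext fun i => ?_)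
    show x i + (a : ZMod 2) = x i
    rw [h, add_zero]
  · right
    refine Hom.ext (funext fun n => funext fun x => funext fun i => ?_)
    show x i + (a : ZMod 2) = x i + 1
    rw [h]

/-- the alternating chain of the full `E Z/2` -/
def eF (i : ℕ) : N F2 EZ2 := N.sx F2 (K := EZ2) (DK742.alt i 0)

theorem eF_gr (i : ℕ) : eF i ∈ N.gr F2 EZ2 i := sx_mem_gr F2 _

theorem bd_eF_zero : N.bd F2 _ (eF 0) = 0 := EZ271.bd_sx_zero F2 _

theorem full_e (i : ℕ) (h : (i : ℕ∞) ≤ AltSS.full.M) (b : ZMod 2) :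
    AltSS.full.e i h b = DK742.alt i b := AltSS.full.j_e i h b

theorem bd_eF_succ (i : ℕ) : N.bd F2 _ (eF (i + 1)) = N.map F2 tau (eF i) + eF i := by
  have h := AltSS.full.bd_e_succ i le_top 0
  rw [full_e, full_e, full_e] at h
  have h2 : N.map F2 tau (eF i) = N.sx F2 (K := EZ2) (DK742.alt i (0 + 1)) := by
    rw [eF, N.map_sx]
    congr 1
    exact DK742.alt_g i 0
  rw [h2]
  exact h

theorem map_skIncl_ee {M i : ℕ} (h : i ≤ M) : N.map F2 (skIncl M EZ2) (ee M i) = eF i := by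
  rw [ee_of_le h, N.map_sx, eF]
  congr 1
  exact (AltSS.skel M).j_e i (le_cast h) 0

/-! ## the two diagonals -/

theorem add_self {V : Type*} [AddCommGroup V] [Module F2 V] (x : V) : x + x = 0 := add_self_F2 x

section two

variable {A : SS} (t : ℕ → Hom A A) (e : ℕ → N F2 A)

/-- `∑ e_a × T^a e_b` -/
def dg (i : ℕ) : N F2 (A.prod A) :=
  ∑ p ∈ antidiagonal i, cross F2 (e p.1) (N.map F2 (t p.1) (e p.2))

/-- the diagonal image of `e_i` -/
def dd (i : ℕ) : N F2 (A.prod A) := N.map F2 (SS.diag A) (e i)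

theorem bd_dd_zero (h0 : N.bd F2 _ (e 0) = 0) : N.bd F2 _ (dd e 0) = 0 := by
  rw [dd, ← EZ271.map_bd', h0, map_zero]

theorem bd_dd_succ {s : Hom A A} {i : ℕ}
    (hs : N.bd F2 _ (e (i + 1)) = N.map F2 s (e i) + e i) :
    N.bd F2 _ (dd e (i + 1)) = N.map F2 (prodMap s s) (dd e i) + dd e i := by
  rw [dd, ← EZ271.map_bd', hs, map_add, EZ271.map_map, dd, EZ271.map_map]
  rfl

theorem bd_dg_zero (h0 : N.bd F2 _ (e 0) = 0) : N.bd F2 _ (dg t e 0) = 0 := by
  rw [dg, Finset.Nat.antidiagonal_zero, Finset.sum_singleton, bd_cross_F2, h0, ← EZ271.map_bd', h0]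
  simp

theorem bd_dg_succ {s : Hom A A} (i : ℕ)
    (ht : ∀ a, a ≤ i → t (a + 1) = (t a).comp s) (ht' : ∀ a, a ≤ i → t (a + 1) = s.comp (t a))
    (h0 : N.bd F2 _ (e 0) = 0)
    (hs : ∀ j, j ≤ i → N.bd F2 _ (e (j + 1)) = N.map F2 s (e j) + e j) :
    N.bd F2 _ (dg t e (i + 1)) = N.map F2 (prodMap s s) (dg t e i) + dg t e i := by
  have e1 : N.bd F2 _ (dg t e (i + 1)) =
      ∑ p ∈ antidiagonal (i + 1), cross F2 (N.bd F2 _ (e p.1)) (N.map F2 (t p.1) (e p.2)) +
      ∑ p ∈ antidiagonal (i + 1), cross F2 (e p.1) (N.map F2 (t p.1) (N.bd F2 _ (e p.2))) := by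
    rw [dg, map_sum, ← Finset.sum_add_distrib]
    refine Finset.sum_congr rfl fun p _ => ?_
    rw [bd_cross_F2, ← EZ271.map_bd']
  have e2 : ∑ p ∈ antidiagonal (i + 1), cross F2 (N.bd F2 _ (e p.1)) (N.map F2 (t p.1) (e p.2)) =
      ∑ p ∈ antidiagonal i, (cross F2 (N.map F2 s (e p.1)) (N.map F2 s (N.map F2 (t p.1) (e p.2))) +
        cross F2 (e p.1) (N.map F2 (t (p.1 + 1)) (e p.2))) := by
    rw [Finset.Nat.antidiagonal_succ, Finset.sum_cons, Finset.sum_map, h0, map_zero,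
      LinearMap.zero_apply, zero_add]
    refine Finset.sum_congr rfl fun p hp => ?_
    have hp' : p.1 ≤ i := by
      have := HasAntidiagonal.mem_antidiagonal.1 hp
      omega
    show cross F2 (N.bd F2 _ (e (p.1 + 1))) (N.map F2 (t (p.1 + 1)) (e p.2)) = _
    rw [hs _ hp', map_add, LinearMap.add_apply, EZ271.map_map, ht' _ hp']
  have e3 : ∑ p ∈ antidiagonal (i + 1), cross F2 (e p.1) (N.map F2 (t p.1) (N.bd F2 _ (e p.2))) =
      ∑ p ∈ antidiagonal i, (cross F2 (e p.1) (N.map F2 (t (p.1 + 1)) (e p.2)) +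
        cross F2 (e p.1) (N.map F2 (t p.1) (e p.2))) := by
    rw [Finset.Nat.antidiagonal_succ', Finset.sum_cons, Finset.sum_map, h0, map_zero, map_zero,
      zero_add]
    refine Finset.sum_congr rfl fun p hp => ?_
    have hp' : p.2 ≤ i := by
      have := HasAntidiagonal.mem_antidiagonal.1 hp
      omega
    have hp'' : p.1 ≤ i := by
      have := HasAntidiagonal.mem_antidiagonal.1 hp
      omega
    show cross F2 (e p.1) (N.map F2 (t p.1) (N.bd F2 _ (e (p.2 + 1)))) = _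
    rw [hs _ hp', map_add, map_add, EZ271.map_map, ht _ hp'']
  rw [e1, e2, e3, ← Finset.sum_add_distrib, dg, map_sum, ← Finset.sum_add_distrib]
  refine Finset.sum_congr rfl fun p _ => ?_
  rw [map_cross]
  have h1 := add_self (cross F2 (e p.1) (N.map F2 (t (p.1 + 1)) (e p.2)))
  calc _ = cross F2 (N.map F2 s (e p.1)) (N.map F2 s (N.map F2 (t p.1) (e p.2))) +
        cross F2 (e p.1) (N.map F2 (t p.1) (e p.2)) +
        (cross F2 (e p.1) (N.map F2 (t (p.1 + 1)) (e p.2)) +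
          cross F2 (e p.1) (N.map F2 (t (p.1 + 1)) (e p.2))) := by abel
    _ = _ := by rw [h1, add_zero]

end two

/-! ## comparison of the two diagonals on the full `E Z/2` -/

/-- the cone structure of `E Z/2` -/
def coneE : Cone EZ2 where
  bot := fun _ => 0
  k x := Fin.cons 0 x
  h_cons α x := by
    funext i
    induction i using Fin.cases with
    | zero => rfl
    | succ i => rfl
  h_star α x := by
    funext i
    induction i using Fin.cases with
    | zero => rfl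
    | succ i => rfl
  h_face x := by
    funext i
    rfl
  h_vert α x h := by
    funext i
    have : i = 0 := Fin.ext (by omega)
    subst this
    show (Fin.cons 0 x : Fin _ → ZMod 2) (α 0) = 0
    rw [h]
    rfl
  h_bot := by
    funext i
    induction i using Fin.cases with
    | zero => rfl
    | succ i => rfl

/-- the cone structure of `E × E` -/
abbrev coneEE : Cone (EZ2.prod EZ2) := Cone.prod coneE coneE

/-- the comparison chains -/
def hh : ℕ → N F2 (EZ2.prod EZ2)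
  | 0 => coneEE.c F2 (dd eF 0 + dg tauA eF 0)
  | i + 1 => coneEE.c F2 (dd eF (i + 1) + dg tauA eF (i + 1) + N.map F2 (prodMap tau tau) (hh i) + hh i)

theorem dd_gr (i : ℕ) : dd eF i ∈ N.gr F2 (EZ2.prod EZ2) i := map_mem_gr F2 _ (eF_gr i)

theorem dg_gr (i : ℕ) : dg tauA eF i ∈ N.gr F2 (EZ2.prod EZ2) i := by
  refine Submodule.sum_mem _ fun p hp => ?_
  have := C5265.cross_mem_gr F2 (eF_gr p.1) (map_mem_gr F2 (tauA p.1) (eF_gr p.2))
  rwa [HasAntidiagonal.mem_antidiagonal.1 hp] at this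

theorem hh_gr : ∀ i, hh i ∈ N.gr F2 (EZ2.prod EZ2) (i + 1)
  | 0 => c_mem_gr F2 coneEE (Submodule.add_mem _ (dd_gr 0) (dg_gr 0))
  | i + 1 => c_mem_gr F2 coneEE (Submodule.add_mem _ (Submodule.add_mem _
      (Submodule.add_mem _ (dd_gr (i + 1)) (dg_gr (i + 1))) (map_mem_gr F2 _ (hh_gr i))) (hh_gr i))

theorem aug_gr {K : SS} {n : ℕ} {c : N F2 K} (hc : c ∈ N.gr F2 K (n + 1)) : aug F2 c = 0 := by
  rw [gr_eq_span] at hc
  refine Submodule.span_induction (p := fun c _ => aug F2 c = 0) ?_ ?_ ?_ ?_ hc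
  · rintro _ ⟨x, rfl⟩; simp
  · simp
  · intro a b _ _ ha hb; rw [map_add, ha, hb, add_zero]
  · intro r a _ ha; rw [map_smul, ha, smul_zero]

theorem aug_zero : aug F2 (dd eF 0 + dg tauA eF 0) = 0 := by
  rw [map_add, dd, aug_map, dg, Finset.Nat.antidiagonal_zero, Finset.sum_singleton]
  have h1 : aug F2 (eF 0) = 1 := aug_sx_zero F2 _
  have h2 : aug F2 (cross F2 (eF 0) (N.map F2 (tauA 0) (eF 0))) = 1 := by
    have h3 := C5265.cross_vertex F2 (K := EZ2) (L := EZ2) (DK742.alt 0 0) (N.map F2 (tauA 0) (eF 0))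
    have h4 : cross F2 (eF 0) (N.map F2 (tauA 0) (eF 0)) = cross F2 (N.sx F2 (K := EZ2)
      (DK742.alt 0 0)) (N.map F2 (tauA 0) (eF 0)) := rfl
    rw [h4, h3, aug_map, aug_map, h1]
  rw [h1, h2]
  decide

theorem tau2_sq (c : N F2 (EZ2.prod EZ2)) :
    N.map F2 (prodMap tau tau) (N.map F2 (prodMap tau tau) c) = c := by
  rw [EZ271.map_map]
  have : (prodMap tau tau).comp (prodMap tau tau) = SS.Hom.id (EZ2.prod EZ2) := by
    refine Hom.ext (funext fun n => funext fun x => ?_)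
    exact Prod.ext (tau_tau n x.1) (tau_tau n x.2)
  rw [this, map_idHom]

theorem bd_hh_zero : N.bd F2 _ (hh 0) = dd eF 0 + dg tauA eF 0 := by
  have h0 : N.bd F2 _ (dd eF 0 + dg tauA eF 0) = 0 := by
    rw [map_add, bd_dd_zero _ bd_eF_zero, bd_dg_zero _ _ bd_eF_zero, add_zero]
  rw [hh, coneEE.bd_c F2, h0, aug_zero, map_zero, zero_smul, sub_zero, sub_zero]

theorem bd_hh_step (i : ℕ) (hp : N.map F2 (prodMap tau tau) (N.bd F2 _ (hh i)) + N.bd F2 _ (hh i) =
    N.map F2 (prodMap tau tau) (dd eF i + dg tauA eF i) + (dd eF i + dg tauA eF i)) :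
    N.bd F2 _ (hh (i + 1)) =
    dd eF (i + 1) + dg tauA eF (i + 1) + N.map F2 (prodMap tau tau) (hh i) + hh i := by
  set x := dd eF (i + 1) + dg tauA eF (i + 1) + N.map F2 (prodMap tau tau) (hh i) + hh i with hx
  have ha : aug F2 x = 0 := by
    rw [hx, map_add, map_add, map_add, aug_gr (dd_gr (i + 1)), aug_gr (dg_gr (i + 1)), aug_map,
      aug_gr (hh_gr i)]
    simp
  have h1 : N.bd F2 _ (dd eF (i + 1)) = N.map F2 (prodMap tau tau) (dd eF i) + dd eF i :=
    bd_dd_succ eF (bd_eF_succ i)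
  have h2 : N.bd F2 _ (dg tauA eF (i + 1)) = N.map F2 (prodMap tau tau) (dg tauA eF i) +
      dg tauA eF i :=
    bd_dg_succ tauA eF i (fun a _ => tauA_succ a) (fun a _ => tauA_succ' a) bd_eF_zero
      (fun j _ => bd_eF_succ j)
  have hb : N.bd F2 _ x = 0 := by
    rw [hx, map_add, map_add, map_add, h1, h2, ← EZ271.map_bd', add_assoc _ (N.map F2 _ _), hp,
      map_add]
    have a1 := add_self (N.map F2 (prodMap tau tau) (dd eF i))
    have a2 := add_self (dd eF i)
    have a3 := add_self (N.map F2 (prodMap tau tau) (dg tauA eF i))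
    have a4 := add_self (dg tauA eF i)
    calc _ = (N.map F2 (prodMap tau tau) (dd eF i) + N.map F2 (prodMap tau tau) (dd eF i)) +
          (dd eF i + dd eF i) +
          (N.map F2 (prodMap tau tau) (dg tauA eF i) + N.map F2 (prodMap tau tau) (dg tauA eF i)) +
          (dg tauA eF i + dg tauA eF i) := by abel
      _ = 0 := by rw [a1, a2, a3, a4]; simp
  rw [hh, ← hx, coneEE.bd_c F2, hb, ha, map_zero, zero_smul, sub_zero, sub_zero]

theorem bd_hh_succ (i : ℕ) : N.bd F2 _ (hh (i + 1)) =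
    dd eF (i + 1) + dg tauA eF (i + 1) + N.map F2 (prodMap tau tau) (hh i) + hh i := by
  induction i with
  | zero =>
    apply bd_hh_step
    rw [bd_hh_zero]
  | succ i ih =>
    apply bd_hh_step
    rw [ih]
    simp only [map_add, tau2_sq]
    have a5 := add_self (N.map F2 (prodMap tau tau) (hh i))
    have a6 := add_self (hh i)
    calc _ = N.map F2 (prodMap tau tau) (dd eF (i + 1)) + N.map F2 (prodMap tau tau)
          (dg tauA eF (i + 1)) + (dd eF (i + 1) + dg tauA eF (i + 1)) +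
          ((N.map F2 (prodMap tau tau) (hh i) + N.map F2 (prodMap tau tau) (hh i)) +
          (hh i + hh i)) := by abel
      _ = _ := by rw [a5, a6, add_zero, add_zero]

/-! ## descent to the skeleton -/

section sk

variable (M : ℕ)

/-- inclusion of the product of the skeleta -/
def inc2 : Hom ((EM M).prod (EM M)) (EZ2.prod EZ2) := prodMap (skIncl M EZ2) (skIncl M EZ2)

theorem inc2_inj : Function.Injective (N.map F2 (inc2 M)) :=
  HA683.N_map_injective F2 fun n x y h => by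
    have h1 := congrArg Prod.fst h
    have h2 := congrArg Prod.snd h
    exact Prod.ext (Subtype.ext h1) (Subtype.ext h2)

theorem inc2_surj {n : ℕ} (hn : n ≤ M) {c : N F2 (EZ2.prod EZ2)}
    (hc : c ∈ N.gr F2 (EZ2.prod EZ2) n) : ∃ c', N.map F2 (inc2 M) c' = c := by
  rw [gr_eq_span] at hc
  refine Submodule.span_induction (p := fun c _ => ∃ c', N.map F2 (inc2 M) c' = c) ?_ ?_ ?_ ?_ hc
  · rintro _ ⟨x, rfl⟩
    refine ⟨N.sx F2 (K := (EM M).prod (EM M)) (⟨x.1, isSk_of_le hn _⟩, ⟨x.2, isSk_of_le hn _⟩), ?_⟩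
    rw [N.map_sx]
    rfl
  · exact ⟨0, map_zero _⟩
  · rintro a b _ _ ⟨a', ha⟩ ⟨b', hb⟩; exact ⟨a' + b', by rw [map_add, ha, hb]⟩
  · rintro r a _ ⟨a', ha⟩; exact ⟨r • a', by rw [map_smul, ha]⟩

/-- the involution on `E_M × E_M` -/
abbrev tt2 : Hom ((EM M).prod (EM M)) ((EM M).prod (EM M)) := prodMap (invEM M).g (invEM M).g

theorem map_inc2_dd {i : ℕ} (h : i ≤ M) : N.map F2 (inc2 M) (dd (ee M) i) = dd eF i := by
  rw [dd, dd, ← map_skIncl_ee h, EZ271.map_map, EZ271.map_map]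
  rfl

theorem map_inc2_dg {i : ℕ} (h : i ≤ M) :
    N.map F2 (inc2 M) (dg (fun a => skMap M (tauA a)) (ee M) i) = dg tauA eF i := by
  rw [dg, dg, map_sum]
  refine Finset.sum_congr rfl fun p hp => ?_
  have hp' := HasAntidiagonal.mem_antidiagonal.1 hp
  rw [inc2, map_cross, map_skIncl_ee (by omega), EZ271.map_map]
  congr 1
  rw [← map_skIncl_ee (show p.2 ≤ M by omega), EZ271.map_map]
  rfl

theorem map_inc2_tt (c : N F2 ((EM M).prod (EM M))) :
    N.map F2 (inc2 M) (N.map F2 (tt2 M) c) = N.map F2 (prodMap tau tau) (N.map F2 (inc2 M) c) := by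
  rw [EZ271.map_map, EZ271.map_map]
  rfl

/-- the two diagonals are equivariantly homologous in the skeleton -/
theorem exists_h {i : ℕ} (h : i + 1 ≤ M) : ∃ u v : N F2 ((EM M).prod (EM M)),
    dd (ee M) i + dg (fun a => skMap M (tauA a)) (ee M) i =
      N.bd F2 _ u + N.map F2 (tt2 M) v + v := by
  rcases i with _ | i
  · obtain ⟨u, hu⟩ := inc2_surj M h (hh_gr 0)
    refine ⟨u, 0, inc2_inj M ?_⟩
    rw [map_zero, add_zero, add_zero, map_add, map_inc2_dd M (by omega), map_inc2_dg M (by omega),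
      EZ271.map_bd', hu, bd_hh_zero]
  · obtain ⟨u, hu⟩ := inc2_surj M h (hh_gr (i + 1))
    obtain ⟨v, hv⟩ := inc2_surj M (by omega : i + 1 ≤ M) (hh_gr i)
    refine ⟨u, v, inc2_inj M ?_⟩
    rw [map_add, map_inc2_dd M (by omega), map_inc2_dg M (by omega), map_add, map_add,
      EZ271.map_bd', hu, map_inc2_tt, hv, bd_hh_succ]
    have a5 := add_self (N.map F2 (prodMap tau tau) (hh i))
    have a6 := add_self (hh i)
    calc _ = dd eF (i + 1) + dg tauA eF (i + 1) + (0 + 0) := by rw [add_zero, add_zero]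
      _ = dd eF (i + 1) + dg tauA eF (i + 1) +
          ((N.map F2 (prodMap tau tau) (hh i) + N.map F2 (prodMap tau tau) (hh i)) +
            (hh i + hh i)) := by rw [a5, a6]
      _ = _ := by abel

end sk

/-! ## the external Cartan formula -/

section ext

variable {M : ℕ} {K L : SS}

/-- `(g, g', k, l) ↦ ([g, k], [g', l])` -/
def Gm (M : ℕ) (K L : SS) : Hom (((EM M).prod (EM M)).prod ((K.prod K).prod (L.prod L)))
    ((DM M K).prod (DM M L)) :=
  (prodMap (proj (invD M K)) (proj (invD M L))).comp (midHom (EM M) (EM M) (K.prod K) (L.prod L))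

/-- `D_M (K × L) → D_M K × D_M L` -/
def Dpr (M : ℕ) (K L : SS) : Hom (DM M (K.prod L)) ((DM M K).prod (DM M L)) :=
  pair (DMmap M (fst K L)) (DMmap M (snd K L))

theorem Dpr_proj : (Dpr M K L).comp (proj (invD M (K.prod L))) =
    (Gm M K L).comp (prodMap (SS.diag (EM M)) (midHom K L K L)) := rfl

variable {z : N F2 K} {w : N F2 L} (hz : N.bd F2 K z = 0) (hw : N.bd F2 L w = 0)

/-- the chain map `F` -/
def Fm (M : ℕ) (z : N F2 K) (w : N F2 L) (u : N F2 ((EM M).prod (EM M))) :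
    N F2 ((DM M K).prod (DM M L)) :=
  N.map F2 (Gm M K L) (cross F2 u (cross F2 (cross F2 z z) (cross F2 w w)))

theorem Fm_add (u v : N F2 ((EM M).prod (EM M))) : Fm M z w (u + v) = Fm M z w u + Fm M z w v := by
  rw [Fm, map_add, LinearMap.add_apply, map_add]; rfl

include hz hw in
theorem Fm_bd (u : N F2 ((EM M).prod (EM M))) :
    Fm M z w (N.bd F2 _ u) = N.bd F2 _ (Fm M z w u) := by
  rw [Fm, Fm, ← EZ271.map_bd', bd_cross_F2]
  have : N.bd F2 _ (cross F2 (cross F2 z z) (cross F2 w w)) = 0 := by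
    rw [bd_cross_F2, bd_cross_F2, bd_cross_F2, hz, hw]; simp
  rw [this, map_zero, add_zero]

theorem Fm_tt (u : N F2 ((EM M).prod (EM M))) : Fm M z w (N.map F2 (tt2 M) u) = Fm M z w u := by
  have h1 : cross F2 (N.map F2 (tt2 M) u) (cross F2 (cross F2 z z) (cross F2 w w)) =
      N.map F2 (prodMap (tt2 M) (prodMap (SS.swap K K) (SS.swap L L)))
        (cross F2 u (cross F2 (cross F2 z z) (cross F2 w w))) := by
    rw [map_cross, map_cross, map_swap_cross, map_swap_cross]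
  have h2 : (Gm M K L).comp (prodMap (tt2 M) (prodMap (SS.swap K K) (SS.swap L L))) = Gm M K L := by
    refine Hom.ext (funext fun n => funext fun x => ?_)
    exact Prod.ext (DK742.proj_g (invD M K) n (x.1.1, x.2.1)) (DK742.proj_g (invD M L) n (x.1.2, x.2.2))
  rw [Fm, h1, EZ271.map_map, h2, Fm]

theorem Fm_dd (i : ℕ) : Fm M z w (dd (ee M) i) =
    N.map F2 (Dpr M K L) (PhiC M (K.prod L) i (cross F2 (cross F2 z w) (cross F2 z w))) := by
  rw [PhiC_apply, EZ271.map_map, Dpr_proj, ← EZ271.map_map, map_cross, mid_cross, Fm, dd]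

theorem Fm_cross (a b i : ℕ) : Fm M z w (cross F2 (ee M a) (N.map F2 (skMap M (tauA i)) (ee M b))) =
    cross F2 (PhiC M K a (cross F2 z z)) (PhiC M L b (cross F2 w w)) := by
  rw [Fm, Gm, ← EZ271.map_map, mid_cross, map_cross, ← PhiC_apply]
  congr 1
  rcases tauA_two i with h | h
  · rw [h]
    have : skMap M (SS.Hom.id EZ2) = SS.Hom.id (EM M) := rfl
    rw [this, map_idHom, PhiC_apply]
  · rw [h]
    have := proj_cross_inv (M := M) (ee M b) (cross F2 w w)
    rw [map_swap_cross] at this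
    exact this

include hz hw in
/-- external Cartan formula on chains -/
theorem ext_chain {i : ℕ} (h : i + 1 ≤ M) : ∃ v, N.bd F2 _ v =
    N.map F2 (Dpr M K L) (PhiC M (K.prod L) i (cross F2 (cross F2 z w) (cross F2 z w))) -
    ∑ p ∈ antidiagonal i, cross F2 (PhiC M K p.1 (cross F2 z z)) (PhiC M L p.2 (cross F2 w w)) := by
  obtain ⟨u, v, huv⟩ := exists_h M h
  refine ⟨Fm M z w u, ?_⟩
  have h1 := congrArg (Fm M z w) huv
  have h2 : ∀ (s : Finset (ℕ × ℕ)), Fm M z w (∑ p ∈ s, cross F2 (ee M p.1)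
      (N.map F2 (skMap M (tauA p.1)) (ee M p.2))) = ∑ p ∈ s,
      cross F2 (PhiC M K p.1 (cross F2 z z)) (PhiC M L p.2 (cross F2 w w)) := by
    intro s
    have : Fm M z w = ⇑(N.map F2 (Gm M K L) ∘ₗ (cross F2).flip
      (cross F2 (cross F2 z z) (cross F2 w w)) : N F2 ((EM M).prod (EM M)) →ₗ[F2] _) := rfl
    rw [this, map_sum]
    refine Finset.sum_congr rfl fun p _ => ?_
    rw [← this, Fm_cross]
  rw [Fm_add, Fm_add, Fm_add, Fm_dd, Fm_tt, Fm_bd hz hw, dg, h2, add_assoc, add_self, add_zero] at h1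
  rw [← h1]
  rw [sub_eq_add_neg]
  congr 1
  exact (neg_eq_of_add_eq_zero_left (add_self _)).symm

end ext

/-- the external product in homology -/
abbrev crH {K L : SS} : H F2 K →ₗ[F2] H F2 L →ₗ[F2] H F2 (K.prod L) :=
  DK742.Hd2 (cross F2) (fun a b => bd_cross_F2 a b)

theorem mk_congr {V : Type*} [AddCommGroup V] [Module F2 V] {d : V →ₗ[F2] V} {a b : V}
    (hab : a = b) (ha : d a = 0) (hb : d b = 0) : Hd.mk d a ha = Hd.mk d b hb := by
  subst hab; rfl

theorem mk_sum {V : Type*} [AddCommGroup V] [Module F2 V] (d : V →ₗ[F2] V) {ι : Type*}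
    (s : Finset ι) (f : ι → V) (hf : ∀ i, d (f i) = 0) :
    Hd.mk d (∑ i ∈ s, f i) (by rw [map_sum]; exact Finset.sum_eq_zero fun i _ => hf i) =
      ∑ i ∈ s, Hd.mk d (f i) (hf i) := by
  classical
  have key : ∀ s : Finset ι, ∃ h : d (∑ i ∈ s, f i) = 0,
      Hd.mk d (∑ i ∈ s, f i) h = ∑ i ∈ s, Hd.mk d (f i) (hf i) := by
    intro s
    induction s using Finset.induction_on with
    | empty => exact ⟨by simp, rfl⟩
    | insert a s ha ih =>
      obtain ⟨h1, h2⟩ := ih
      refine ⟨by rw [map_sum]; exact Finset.sum_eq_zero fun i _ => hf i, ?_⟩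
      have e : ∑ i ∈ insert a s, Hd.mk d (f i) (hf i) = Hd.mk d (f a) (hf a) +
          Hd.mk d (∑ i ∈ s, f i) h1 := by rw [Finset.sum_insert ha, ← h2]
      have : Hd.mk d (f a) (hf a) + Hd.mk d (∑ i ∈ s, f i) h1 =
          Hd.mk d (f a + ∑ i ∈ s, f i) (by rw [map_add, hf, h1, add_zero]) := rfl
      rw [e, this]
      exact mk_congr (Finset.sum_insert ha) _ _
  exact (key s).2

/-- EXTERNAL CARTAN FORMULA: `D(K × L) → D K × D L` sends `e_i ⊗ (x × y)²` to
`∑ (e_a ⊗ x²) × (e_b ⊗ y²)`. -/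
theorem external {M : ℕ} {K L : SS} {i : ℕ} (h : i + 1 ≤ M) (x : H F2 K) (y : H F2 L) :
    H.map F2 (Dpr M K L) (pw M (K.prod L) i (crH x y)) =
      ∑ p ∈ antidiagonal i, crH (pw M K p.1 x) (pw M L p.2 y) := by
  obtain ⟨z, hz, rfl⟩ := Hd.mk_surj _ x
  obtain ⟨w, hw, rfl⟩ := Hd.mk_surj _ y
  have hzw : N.bd F2 (K.prod L) (cross F2 z w) = 0 := by rw [bd_cross_F2, hz, hw]; simp
  have e0 : crH (Hd.mk (N.bd F2 K) z hz) (Hd.mk (N.bd F2 L) w hw) = Hd.mk _ (cross F2 z w) hzw := rfl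
  rw [e0, pw_mk (by omega), Hmap_mk]
  have hb : ∀ p : ℕ × ℕ, p.1 + p.2 = i → N.bd F2 _ (cross F2 (PhiC M K p.1 (cross F2 z z))
      (PhiC M L p.2 (cross F2 w w))) = 0 := by
    intro p hp
    rw [bd_cross_F2, bd_PhiC_sq (by omega) hz, bd_PhiC_sq (by omega) hw]; simp
  have e1 : ∀ p ∈ antidiagonal i, crH (pw M K p.1 (Hd.mk _ z hz)) (pw M L p.2 (Hd.mk _ w hw)) =
      (if hp : p.1 + p.2 = i then Hd.mk (N.bd F2 ((DM M K).prod (DM M L)))
        (cross F2 (PhiC M K p.1 (cross F2 z z)) (PhiC M L p.2 (cross F2 w w))) (hb p hp) else 0) := by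
    intro p hp
    have hp' := HasAntidiagonal.mem_antidiagonal.1 hp
    rw [dif_pos hp', pw_mk (by omega), pw_mk (by omega)]
    rfl
  rw [Finset.sum_congr rfl e1]
  have e2 : ∑ p ∈ antidiagonal i, (if hp : p.1 + p.2 = i then
      Hd.mk (N.bd F2 ((DM M K).prod (DM M L)))
        (cross F2 (PhiC M K p.1 (cross F2 z z)) (PhiC M L p.2 (cross F2 w w))) (hb p hp) else 0) =
      Hd.mk (N.bd F2 ((DM M K).prod (DM M L))) (∑ p ∈ antidiagonal i,
        cross F2 (PhiC M K p.1 (cross F2 z z)) (PhiC M L p.2 (cross F2 w w)))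
        (by rw [map_sum]; exact Finset.sum_eq_zero fun p hp => hb p (HasAntidiagonal.mem_antidiagonal.1 hp)) := by
    have hf : ∀ p : ℕ × ℕ, N.bd F2 _ (if p.1 + p.2 = i then
        cross F2 (PhiC M K p.1 (cross F2 z z)) (PhiC M L p.2 (cross F2 w w)) else 0) = 0 := by
      intro p
      split_ifs with hp
      · exact hb p hp
      · rw [map_zero]
    have h3 := mk_sum (N.bd F2 ((DM M K).prod (DM M L))) (antidiagonal i) (fun p : ℕ × ℕ =>
      if p.1 + p.2 = i then cross F2 (PhiC M K p.1 (cross F2 z z)) (PhiC M L p.2 (cross F2 w w))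
      else 0) hf
    have h4 : ∀ p ∈ antidiagonal i, Hd.mk (N.bd F2 ((DM M K).prod (DM M L))) (if p.1 + p.2 = i then
        cross F2 (PhiC M K p.1 (cross F2 z z)) (PhiC M L p.2 (cross F2 w w)) else 0) (hf p) =
        (if hp : p.1 + p.2 = i then Hd.mk (N.bd F2 ((DM M K).prod (DM M L)))
        (cross F2 (PhiC M K p.1 (cross F2 z z)) (PhiC M L p.2 (cross F2 w w))) (hb p hp) else 0) := by
      intro p hp
      have hp' := HasAntidiagonal.mem_antidiagonal.1 hp
      rw [dif_pos hp']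
      congr 1
      rw [if_pos hp']
    rw [← Finset.sum_congr rfl h4, ← h3]
    congr 1
    refine Finset.sum_congr rfl fun p hp => ?_
    rw [if_pos (HasAntidiagonal.mem_antidiagonal.1 hp)]
  rw [e2, Hd.mk_eq_mk]
  exact ext_chain hz hw h

/-- CARTAN FORMULA for the operations of a `Θ`-algebra. -/
theorem cartan {M : ℕ} {K : SS} (A : ThAlg M K) (hC : A.Cartan) {i : ℕ} (h : i + 1 ≤ M)
    (x y : H F2 K) : Q A i (mulH A.mu x y) =
      ∑ p ∈ antidiagonal i, mulH A.mu (Q A p.1 x) (Q A p.2 y) := by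
  have hm : ∀ x y : H F2 K, mulH A.mu x y = H.map F2 A.mu (crH x y) := fun x y => rfl
  have h1 := LinearMap.congr_fun (hC.map_eq HtpInv334.homotopyInv F2)
    (pw M (K.prod K) i (crH x y))
  have e1 : A.mu.comp ((prodMap A.Th A.Th).comp (ThAlg.Dprod M K K)) =
      (A.mu.comp (prodMap A.Th A.Th)).comp (Dpr M K K) := rfl
  rw [Hmap_comp, pw_map A.mu (by omega), e1, Hmap_comp, external h] at h1
  rw [hm, Q, h1, map_sum]
  refine Finset.sum_congr rfl fun p hp => ?_
  have hp' := HasAntidiagonal.mem_antidiagonal.1 hp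
  rw [hm, Hmap_comp]
  congr 1
  -- naturality of the external product
  have nat : ∀ {K K' L L' : SS} (f : Hom K K') (g : Hom L L') (a : H F2 K) (b : H F2 L),
      H.map F2 (prodMap f g) (crH a b) = crH (H.map F2 f a) (H.map F2 g b) := by
    intro K K' L L' f g a b
    obtain ⟨a, ha, rfl⟩ := Hd.mk_surj _ a
    obtain ⟨b, hb, rfl⟩ := Hd.mk_surj _ b
    have hab : N.bd F2 (K.prod L) (cross F2 a b) = 0 := by rw [bd_cross_F2, ha, hb]; simp
    have e0 : crH (Hd.mk (N.bd F2 K) a ha) (Hd.mk (N.bd F2 L) b hb) =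
      Hd.mk _ (cross F2 a b) hab := rfl
    rw [e0, Hmap_mk, Hmap_mk, Hmap_mk]
    have e5 : crH (Hd.mk (N.bd F2 K') (N.map F2 f a) (by rw [← EZ271.map_bd', ha, map_zero]))
        (Hd.mk (N.bd F2 L') (N.map F2 g b) (by rw [← EZ271.map_bd', hb, map_zero])) =
        Hd.mk _ (cross F2 (N.map F2 f a) (N.map F2 g b))
          (by rw [bd_cross_F2, ← EZ271.map_bd', ← EZ271.map_bd', ha, hb]; simp) := rfl
    rw [e5]
    congr 1
    exact map_cross F2 _ _ _ _
  exact nat A.Th A.Th _ _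

end Crest.Agent.R204.CartanQ103
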