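import Crest.Agent.R204.Sq_888

/-!
# Row 204, block A5.3: the external Cartan formula in the algebraic quadratic construction (helper888)
-/

set_option autoImplicit false

noncomputable section

namespace Crest.Agent.R204.Q888

open Finsupp TensorProduct

section hd2

variable {A B C : Type} [AddCommGroup A] [Module F2 A] [AddCommGroup B] [Module F2 B]
  [AddCommGroup C] [Module F2 C] {dA : A →ₗ[F2] A} {dB : B →ₗ[F2] B} {dC : C →ₗ[F2] C}

theorem cyc2 {cr : A →ₗ[F2] B →ₗ[F2] C} (leib : ∀ x y, dC (cr x y) = cr (dA x) y + cr x (dB y))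
    {x : A} {y : B} (hx : dA x = 0) (hy : dB y = 0) : dC (cr x y) = 0 := by
  rw [leib, hx, hy]; simp

/-- bilinear map on homology induced by a bilinear map satisfying the Leibniz rule -/
def hd2 (cr : A →ₗ[F2] B →ₗ[F2] C) (leib : ∀ x y, dC (cr x y) = cr (dA x) y + cr x (dB y)) :
    Hd dA →ₗ[F2] Hd dB →ₗ[F2] Hd dC :=
  Submodule.liftQ _
    ({ toFun := fun x => Hd.map (cr x.1) (by
        have hx : dA x.1 = 0 := x.2
        ext y : 1
        simp only [LinearMap.comp_apply]
        rw [leib, hx]; simp)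
       map_add' := by
        rintro ⟨x, hx⟩ ⟨x', hx'⟩
        refine LinearMap.ext fun y => ?_
        obtain ⟨z, hz, rfl⟩ := Hd.mk_surj dB y
        simp only [LinearMap.add_apply, Hd.map_mk]
        show Hd.mk _ _ _ = Hd.mk _ (_ + _) _
        congr 1
        simp
       map_smul' := by
        rintro r ⟨x, hx⟩
        refine LinearMap.ext fun y => ?_
        obtain ⟨z, hz, rfl⟩ := Hd.mk_surj dB y
        simp only [LinearMap.smul_apply, Hd.map_mk, RingHom.id_apply]
        show Hd.mk _ _ _ = Hd.mk _ (_ • _) _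
        congr 1
        simp } : LinearMap.ker dA →ₗ[F2] (Hd dB →ₗ[F2] Hd dC))
    (by
      rintro ⟨z, hz⟩ hz'
      simp only [Submodule.mem_comap, Submodule.subtype_apply, LinearMap.mem_range] at hz'
      obtain ⟨v, rfl⟩ := hz'
      rw [LinearMap.mem_ker]
      refine LinearMap.ext fun x => ?_
      obtain ⟨w, hw, rfl⟩ := Hd.mk_surj dB x
      refine Hd.mk_eq_zero.2 ⟨cr v w, ?_⟩
      rw [leib, hw]; simp)

theorem hd2_mk (cr : A →ₗ[F2] B →ₗ[F2] C) (leib : ∀ x y, dC (cr x y) = cr (dA x) y + cr x (dB y))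
    {x : A} {y : B} (hx : dA x = 0) (hy : dB y = 0) :
    hd2 cr leib (Hd.mk dA x hx) (Hd.mk dB y hy) = Hd.mk dC (cr x y) (cyc2 leib hx hy) := rfl

end hd2

variable {X Y X' Y' X'' Y'' : Type}
  [AddCommGroup X] [Module F2 X] [AddCommGroup Y] [Module F2 Y]
  [AddCommGroup X'] [Module F2 X'] [AddCommGroup Y'] [Module F2 Y']
  [AddCommGroup X''] [Module F2 X''] [AddCommGroup Y''] [Module F2 Y'']
  {dX : X →ₗ[F2] X} {dY τ : Y →ₗ[F2] Y} {nab : X →ₗ[F2] X →ₗ[F2] Y} {dg : X →ₗ[F2] Y}
  {dX' : X' →ₗ[F2] X'} {dY' τ' : Y' →ₗ[F2] Y'} {nab' : X' →ₗ[F2] X' →ₗ[F2] Y'} {dg' : X' →ₗ[F2] Y'}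
  {dX'' : X'' →ₗ[F2] X''} {dY'' τ'' : Y'' →ₗ[F2] Y''} {nab'' : X'' →ₗ[F2] X'' →ₗ[F2] Y''}
  {dg'' : X'' →ₗ[F2] Y''}

/-- cross products between quadratic data -/
structure IsCross (h : IsSq dX dY τ nab dg) (h' : IsSq dX' dY' τ' nab' dg')
    (h'' : IsSq dX'' dY'' τ'' nab'' dg'') (cr : X →ₗ[F2] X' →ₗ[F2] X'')
    (cr2 : Y →ₗ[F2] Y' →ₗ[F2] Y'') : Prop where
  leib : ∀ x y, dX'' (cr x y) = cr (dX x) y + cr x (dX' y)
  leib2 : ∀ a b, dY'' (cr2 a b) = cr2 (dY a) b + cr2 a (dY' b)
  eqv : ∀ a b, τ'' (cr2 a b) = cr2 (τ a) (τ' b)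
  nab_nab : ∀ u u' v v', cr2 (nab u u') (nab' v v') = nab'' (cr u v) (cr u' v')
  dg_dg : ∀ x y, cr2 (dg x) (dg' y) = dg'' (cr x y)
  /-- Künneth: surjectivity of the cross product -/
  kun : ∀ w : Hd dX'', w ∈ Submodule.span F2
    (Set.range fun p : Hd dX × Hd dX' => hd2 cr leib p.1 p.2)
  /-- the equivariant Eilenberg–Zilber map is injective on the homology of `Q` -/
  inj2 : ∀ w : ℕ →₀ (Y ⊗[F2] Y'), QD (dT dY dY') (TensorProduct.map τ τ') w = 0 →
    (∃ v, QD dY'' τ'' v = Qmap (TensorProduct.lift cr2) w) →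
    ∃ v, QD (dT dY dY') (TensorProduct.map τ τ') v = w

namespace IsCross

variable {h : IsSq dX dY τ nab dg} {h' : IsSq dX' dY' τ' nab' dg'}
    {h'' : IsSq dX'' dY'' τ'' nab'' dg''} {cr : X →ₗ[F2] X' →ₗ[F2] X''}
    {cr2 : Y →ₗ[F2] Y' →ₗ[F2] Y''}

/-- induction on the homology of the product -/
theorem ind (H : IsCross h h' h'' cr cr2) {P : Hd dX'' → Prop} (h0 : P 0)
    (hadd : ∀ x y, P x → P y → P (x + y)) (hc : ∀ u v, P (hd2 cr H.leib u v)) (w : Hd dX'') : P w := by
  have hsm : ∀ (r : F2) x, P x → P (r • x) := by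
    intro r x hx
    have : r = 0 ∨ r = 1 := by
      revert r; decide
    rcases this with rfl | rfl
    · rwa [zero_smul]
    · rwa [one_smul]
  let S : Submodule F2 (Hd dX'') :=
    { carrier := {x | P x}
      add_mem' := fun {a b} ha hb => hadd a b ha hb
      zero_mem' := h0
      smul_mem' := fun r x hx => hsm r x hx }
  have hle : Submodule.span F2 (Set.range fun p : Hd dX × Hd dX' => hd2 cr H.leib p.1 p.2) ≤ S := by
    refine Submodule.span_le.2 ?_
    rintro _ ⟨p, rfl⟩
    exact hc p.1 p.2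
  exact hle (H.kun w)

/-- the equivariant cross product is a chain map -/
theorem lift_QD (H : IsCross h h' h'' cr cr2) (w : ℕ →₀ (Y ⊗[F2] Y')) :
    Qmap (TensorProduct.lift cr2) (QD (dT dY dY') (TensorProduct.map τ τ') w) =
      QD dY'' τ'' (Qmap (TensorProduct.lift cr2) w) := by
  refine LinearMap.congr_fun (Qmap_QD (TensorProduct.lift cr2) _ _ dY'' τ'' ?_ ?_) w
  · intro a
    induction a using TensorProduct.induction_on with
    | zero => simp
    | add x y hx hy => simp only [map_add, hx, hy]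
    | tmul a b => simp [H.leib2]
  · intro a
    induction a using TensorProduct.induction_on with
    | zero => simp
    | add x y hx hy => simp only [map_add, hx, hy]
    | tmul a b => simp [H.eqv]

/-- **External Cartan formula**. -/
theorem cartan (H : IsCross h h' h'' cr cr2) {c : ℕ → Hd (QD dY τ) →ₗ[F2] Hd dX}
    {c' : ℕ → Hd (QD dY' τ') →ₗ[F2] Hd dX'} {c'' : ℕ → Hd (QD dY'' τ'') →ₗ[F2] Hd dX''}
    (hc : IsCoef h c) (hc' : IsCoef h' c') (hc'' : IsCoef h'' c'') (J J' : ℕ) (hJ : 1 ≤ J)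
    (hJ' : 1 ≤ J') (i : ℕ) (x : Hd dX) (y : Hd dX') :
    c'' (J + J') (h''.s i (hd2 cr H.leib x y)) =
      ∑ j ∈ Finset.range (i + 1), hd2 cr H.leib (c J (h.s j x)) (c' J' (h'.s (i - j) y)) := by
  obtain ⟨l, hl0, hl⟩ := hc.exists_lift J
  obtain ⟨l', hl0', hl'⟩ := hc'.exists_lift J'
  set B : (ℕ →₀ Y) →ₗ[F2] (ℕ →₀ Y') →ₗ[F2] Hd dX'' := (hd2 cr H.leib).compl₁₂ l l' with hB
  set kap : (ℕ →₀ (Y ⊗[F2] Y')) →ₗ[F2] Hd dX'' := (TensorProduct.lift B) ∘ₗ psi τ' with hkap
  have kap0 : ∀ w, kap (QD (dT dY dY') (TensorProduct.map τ τ') w) = 0 := by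
    intro w
    have e := LinearMap.congr_fun (psi_chain dY τ dY' τ' h'.dt) w
    simp only [LinearMap.comp_apply] at e
    rw [hkap, LinearMap.comp_apply, e]
    generalize psi τ' w = u
    induction u using TensorProduct.induction_on with
    | zero => simp
    | add a b ha hb => rw [map_add, map_add, ha, hb, add_zero]
    | tmul a b =>
      rw [dT_tmul, map_add, TensorProduct.lift.tmul, TensorProduct.lift.tmul, hB,
        LinearMap.compl₁₂_apply, LinearMap.compl₁₂_apply, hl0, hl0']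
      simp
  have kap_inv : ∀ (m : ℕ) (a : Y) (b : Y'), τ' b = b → kap (single m (a ⊗ₜ[F2] b)) =
      ∑ j ∈ Finset.range (m + 1), hd2 cr H.leib (l (single j a)) (l' (single (m - j) b)) := by
    intro m a b hb
    have hp : ∀ j, (τ' ^ j) b = b := by
      intro j
      induction j with
      | zero => rfl
      | succ j ih => rw [← tau_pow_succ', ih, hb]
    rw [hkap, LinearMap.comp_apply, psi_single, map_sum]
    refine Finset.sum_congr rfl fun j _ => ?_
    rw [TensorProduct.lift.tmul, hp, hB, LinearMap.compl₁₂_apply]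
  -- every class comes from the tensor product and the functional is computed there
  have main : ∀ ζ : Hd (QD dY'' τ''), ∃ w : ℕ →₀ (Y ⊗[F2] Y'),
      ∃ hw : QD (dT dY dY') (TensorProduct.map τ τ') w = 0,
      ζ = Hd.mk _ (Qmap (TensorProduct.lift cr2) w) (by rw [← H.lift_QD, hw, map_zero]) ∧
      c'' (J + J') ζ = kap w := by
    intro ζ
    refine hc''.ind (P := fun ζ => ∃ w : ℕ →₀ (Y ⊗[F2] Y'),
      ∃ hw : QD (dT dY dY') (TensorProduct.map τ τ') w = 0,
      ζ = Hd.mk _ (Qmap (TensorProduct.lift cr2) w) (by rw [← H.lift_QD, hw, map_zero]) ∧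
      c'' (J + J') ζ = kap w) ?_ ?_ ?_ ?_ ζ
    · refine ⟨0, by simp, ?_, by simp⟩
      symm
      exact Hd.mk_eq_zero.2 ⟨0, by simp⟩
    · rintro _ _ ⟨w, hw, rfl, e⟩ ⟨w', hw', rfl, e'⟩
      refine ⟨w + w', by rw [map_add, hw, hw', add_zero], ?_, ?_⟩
      · show Hd.mk _ (_ + _) _ = _
        congr 1
        rw [map_add]
      · rw [map_add, map_add, e, e']
    · intro m x
      refine H.ind (P := fun x => ∃ w : ℕ →₀ (Y ⊗[F2] Y'),
        ∃ hw : QD (dT dY dY') (TensorProduct.map τ τ') w = 0,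
        h''.G m x = Hd.mk _ (Qmap (TensorProduct.lift cr2) w) (by rw [← H.lift_QD, hw, map_zero]) ∧
        c'' (J + J') (h''.G m x) = kap w) ?_ ?_ ?_ x
      · refine ⟨0, by simp, ?_, by simp⟩
        rw [map_zero]
        symm
        exact Hd.mk_eq_zero.2 ⟨0, by simp⟩
      · rintro a b ⟨w, hw, ha, e⟩ ⟨w', hw', hb, e'⟩
        refine ⟨w + w', by rw [map_add, hw, hw', add_zero], ?_, ?_⟩
        · rw [map_add, ha, hb]
          show Hd.mk _ (_ + _) _ = _
          congr 1
          rw [map_add]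
        · rw [map_add, map_add, map_add, e, e']
      · intro u v
        obtain ⟨u, hu, rfl⟩ := Hd.mk_surj dX u
        obtain ⟨v, hv, rfl⟩ := Hd.mk_surj dX' v
        have hnn : (dT dY dY') ((nab u u) ⊗ₜ[F2] (nab' v v)) = 0 := by
          rw [dT_tmul, h.leib, h'.leib, hu, hv]; simp
        refine ⟨single m ((nab u u) ⊗ₜ (nab' v v)), ?_, ?_, ?_⟩
        · rcases m with _ | m
          · rw [QD_zero, hnn, single_zero]
          · rw [QD_succ, hnn, TensorProduct.map_tmul, h.symm, h'.symm, add_self2]; simp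
        · rw [hd2_mk, h''.G_mk]
          congr 1
          rw [Qmap_single, TensorProduct.lift.tmul, H.nab_nab]
        · rw [kap_inv m _ _ (h'.symm v v), hc''.c_G _ (by omega)]
          have e1 : ∀ j, l (single j (nab u u)) = if j = J then Hd.mk dX u hu else 0 := by
            intro j
            rw [hl _ (h.cyc_nab j u hu), ← h.G_mk, hc.c_G _ hJ]
          have e2 : ∀ j, l' (single j (nab' v v)) = if j = J' then Hd.mk dX' v hv else 0 := by
            intro j
            rw [hl' _ (h'.cyc_nab j v hv), ← h'.G_mk, hc'.c_G _ hJ']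
          simp only [e1, e2]
          by_cases hm : m = J + J'
          · rw [if_pos hm, Finset.sum_eq_single J]
            · rw [if_pos rfl, if_pos (by omega)]
            · intro j _ hj
              rw [if_neg hj]; simp
            · intro hJm
              exact absurd (Finset.mem_range.2 (by omega)) hJm
          · rw [if_neg hm]
            symm
            refine Finset.sum_eq_zero fun j hj => ?_
            have := Finset.mem_range.1 hj
            by_cases hj1 : j = J
            · rw [if_neg (show ¬ (m - j = J') by omega)]; simp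
            · rw [if_neg hj1]; simp
    · intro x y
      refine H.ind (P := fun x => ∃ w : ℕ →₀ (Y ⊗[F2] Y'),
        ∃ hw : QD (dT dY dY') (TensorProduct.map τ τ') w = 0,
        h''.T0 x y = Hd.mk _ (Qmap (TensorProduct.lift cr2) w) (by rw [← H.lift_QD, hw, map_zero]) ∧
        c'' (J + J') (h''.T0 x y) = kap w) ?_ ?_ ?_ x
      · refine ⟨0, by simp, ?_, by simp⟩
        rw [map_zero, LinearMap.zero_apply]
        symm
        exact Hd.mk_eq_zero.2 ⟨0, by simp⟩
      · rintro a b ⟨w, hw, ha, e⟩ ⟨w', hw', hb, e'⟩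
        refine ⟨w + w', by rw [map_add, hw, hw', add_zero], ?_, ?_⟩
        · rw [map_add, LinearMap.add_apply, ha, hb]
          show Hd.mk _ (_ + _) _ = _
          congr 1
          rw [map_add]
        · rw [map_add, LinearMap.add_apply, map_add, map_add, e, e']
      · intro u v
        refine H.ind (P := fun y => ∃ w : ℕ →₀ (Y ⊗[F2] Y'),
          ∃ hw : QD (dT dY dY') (TensorProduct.map τ τ') w = 0,
          h''.T0 (hd2 cr H.leib u v) y = Hd.mk _ (Qmap (TensorProduct.lift cr2) w)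
            (by rw [← H.lift_QD, hw, map_zero]) ∧
          c'' (J + J') (h''.T0 (hd2 cr H.leib u v) y) = kap w) ?_ ?_ ?_ y
        · refine ⟨0, by simp, ?_, by simp⟩
          rw [map_zero]
          symm
          exact Hd.mk_eq_zero.2 ⟨0, by simp⟩
        · rintro a b ⟨w, hw, ha, e⟩ ⟨w', hw', hb, e'⟩
          refine ⟨w + w', by rw [map_add, hw, hw', add_zero], ?_, ?_⟩
          · rw [map_add, ha, hb]
            show Hd.mk _ (_ + _) _ = _
            congr 1
            rw [map_add]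
          · rw [map_add, map_add, map_add, e, e']
        · intro u' v'
          obtain ⟨u, hu, rfl⟩ := Hd.mk_surj dX u
          obtain ⟨v, hv, rfl⟩ := Hd.mk_surj dX' v
          obtain ⟨u', hu', rfl⟩ := Hd.mk_surj dX u'
          obtain ⟨v', hv', rfl⟩ := Hd.mk_surj dX' v'
          have hnn : (dT dY dY') ((nab u u') ⊗ₜ[F2] (nab' v v')) = 0 := by
            rw [dT_tmul, h.leib, h'.leib, hu, hv, hu', hv']; simp
          refine ⟨single 0 ((nab u u') ⊗ₜ (nab' v v')), ?_, ?_, ?_⟩
          · rw [QD_zero, hnn, single_zero]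
          · rw [hd2_mk, hd2_mk, h''.T0_mk]
            congr 1
            rw [Qmap_single, TensorProduct.lift.tmul, H.nab_nab]
          · rw [hc''.c_T0 _ (by omega), hkap, LinearMap.comp_apply, psi_single]
            simp only [zero_add, Finset.range_one, Finset.sum_singleton, Nat.sub_self, pow_zero,
              Module.End.one_apply]
            rw [TensorProduct.lift.tmul, hB, LinearMap.compl₁₂_apply, hl _ (h.cyc_zero u u' hu hu'),
              ← h.T0_mk u u' hu hu', hc.c_T0 _ hJ]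
            simp
  obtain ⟨x, hx, rfl⟩ := Hd.mk_surj dX x
  obtain ⟨y, hy, rfl⟩ := Hd.mk_surj dX' y
  obtain ⟨w, hw, e1, e2⟩ := main (h''.s i (hd2 cr H.leib (Hd.mk dX x hx) (Hd.mk dX' y hy)))
  rw [e2]
  have hdd : (dT dY dY') ((dg x) ⊗ₜ[F2] (dg' y)) = 0 := by
    rw [dT_tmul, h.dg_d, h'.dg_d, hx, hy]; simp
  have hw0 : QD (dT dY dY') (TensorProduct.map τ τ') (single i ((dg x) ⊗ₜ (dg' y))) = 0 := by
    rcases i with _ | i
    · rw [QD_zero, hdd, single_zero]
    · rw [QD_succ, hdd, TensorProduct.map_tmul, h.dg_t, h'.dg_t, add_self2]; simp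
  have e3 : Hd.mk _ (Qmap (TensorProduct.lift cr2) w) (by rw [← H.lift_QD, hw, map_zero]) =
      Hd.mk (QD dY'' τ'') (Qmap (TensorProduct.lift cr2) (single i ((dg x) ⊗ₜ (dg' y))))
        (by rw [← H.lift_QD, hw0, map_zero]) := by
    rw [← e1, hd2_mk, h''.s_mk]
    congr 1
    rw [Qmap_single, TensorProduct.lift.tmul, H.dg_dg]
  rw [Hd.mk_eq_mk, ← map_sub] at e3
  obtain ⟨v, hv⟩ := H.inj2 (w - single i ((dg x) ⊗ₜ (dg' y))) (by rw [map_sub, hw, hw0, sub_zero]) e3
  have e4 : kap w = kap (single i ((dg x) ⊗ₜ (dg' y))) := by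
    have := kap0 v
    rw [hv, map_sub, sub_eq_zero] at this
    exact this
  rw [e4, kap_inv i _ _ (h'.dg_t y)]
  refine Finset.sum_congr rfl fun j _ => ?_
  rw [hl _ (h.cyc_dg j x hx), hl' _ (h'.cyc_dg (i - j) y hy), ← h.s_mk, ← h'.s_mk]

end IsCross

end Crest.Agent.R204.Q888
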