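import Crest.Agent.R204.Clutch_369

/-!
# Row 204, block H: clutching (T1), second part, helper369
-/

set_option autoImplicit false
set_option linter.unusedSectionVars false
set_option linter.unusedSimpArgs false

open Matrix Topology
open scoped unitInterval
open Crest.Agent.R204.K357

namespace Crest.Agent.R204.Clutch369

noncomputable section

/-- idempotent complex matrices split -/
theorem exists_split {κ : Type*} [Fintype κ] [DecidableEq κ] (c : Matrix κ κ ℂ) (hc : c * c = c) :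
    ∃ (r : ℕ) (a : Matrix κ (Fin r) ℂ) (b : Matrix (Fin r) κ ℂ), a * b = c ∧ b * a = 1 := by
  classical
  let f : (κ → ℂ) →ₗ[ℂ] (κ → ℂ) := Matrix.toLin' c
  have hf : f ∘ₗ f = f := by
    rw [← Matrix.toLin'_mul, hc]
  let V : Submodule ℂ (κ → ℂ) := LinearMap.range f
  let B := Module.finBasis ℂ V
  let i : V →ₗ[ℂ] (κ → ℂ) := V.subtype
  let p : (κ → ℂ) →ₗ[ℂ] V := f.rangeRestrict
  have h1 : i ∘ₗ p = f := by
    ext x; rfl
  have h2 : p ∘ₗ i = LinearMap.id := by
    ext ⟨x, hx⟩ j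
    obtain ⟨y, rfl⟩ := hx
    have := LinearMap.congr_fun hf y
    exact congrFun this j
  refine ⟨_, LinearMap.toMatrix B (Pi.basisFun ℂ κ) i, LinearMap.toMatrix (Pi.basisFun ℂ κ) B p, ?_, ?_⟩
  · rw [← LinearMap.toMatrix_comp, h1]
    exact LinearMap.toMatrix'_toLin' c
  · rw [← LinearMap.toMatrix_comp, h2, LinearMap.toMatrix_id]

variable {A : Type*} [NormedRing A] [NormedAlgebra ℂ A]
variable {ε : A →ₐ[ℂ] ℂ}
variable {n m k l : Type*} [Fintype n] [DecidableEq n] [Fintype m] [DecidableEq m]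
  [Fintype k] [DecidableEq k] [Fintype l] [DecidableEq l]

variable (A) in
/-- scalar matrices -/
abbrev io (c : Matrix k l ℂ) : Matrix k l A := c.map (algebraMap ℂ A)

theorem io_mul {p : Type*} (c : Matrix k l ℂ) (d : Matrix l p ℂ) : io A (c * d) = io A c * io A d :=
  Matrix.map_mul

theorem io_one : io A (1 : Matrix k k ℂ) = 1 := by
  simp [io]

theorem io_map (c : Matrix k l ℂ) : (io A c).map ε = c := by
  ext i j
  simp [io]

/-- Murray-von Neumann equivalence over `Sig ε` from paths. -/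
theorem mvn_of_paths {e : Matrix k k (SigA ε)} {f : Matrix l l (SigA ε)} (x : I → Matrix k l A)
    (y : I → Matrix l k A) (hx : Continuous x) (hy : Continuous y) (cx : Matrix k l ℂ)
    (cy : Matrix l k ℂ) (x0 : x 0 = io A cx) (x1 : x 1 = io A cx) (y0 : y 0 = io A cy)
    (y1 : y 1 = io A cy) (ex : ∀ t, (x t).map ε = cx) (ey : ∀ t, (y t).map ε = cy)
    (xy : ∀ t, x t * y t = e.map (Sig.ev ε t)) (yx : ∀ t, y t * x t = f.map (Sig.ev ε t)) :
    MvN e f := by
  refine ⟨mkM x hx cx x0 x1 ex, mkM y hy cy y0 y1 ey, mat_ext fun t => ?_, mat_ext fun t => ?_⟩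
  · rw [← xy t]
    exact Matrix.map_mul (f := (Sig.ev ε t : SigA ε →+* A))
  · rw [← yx t]
    exact Matrix.map_mul (f := (Sig.ev ε t : SigA ε →+* A))

variable (n) in
/-- inclusion of the first summand -/
def J1 (R : Type*) [Zero R] [One R] : Matrix (n ⊕ n) n R := fromRows 1 0

variable (n) in
/-- projection to the first summand -/
def J1' (R : Type*) [Zero R] [One R] : Matrix n (n ⊕ n) R := fromCols 1 0

theorem io_J1 : io A (J1 n ℂ) = J1 n A := by
  ext (i | i) j <;> simp [J1, io, Matrix.one_apply, apply_ite (algebraMap ℂ A)]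

theorem io_J1' : io A (J1' n ℂ) = J1' n A := by
  ext i (j | j) <;> simp [J1', io, Matrix.one_apply, apply_ite (algebraMap ℂ A)]

theorem J1_mul (R : Type*) [Ring R] : J1 n R * J1' n R = fromBlocks 1 0 0 0 := by
  unfold J1 J1'
  rw [fromRows_mul_fromCols]
  simp

theorem J1'_mul (R : Type*) [Ring R] : J1' n R * J1 n R = 1 := by
  simp [J1, J1', fromCols_mul_fromRows]

theorem J1_map {R S : Type*} [Ring R] [Ring S] (f : R →+* S) : (J1 n R).map f = J1 n S := by
  ext (i | i) j <;> simp [J1, Matrix.one_apply, apply_ite f]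

theorem J1'_map {R S : Type*} [Ring R] [Ring S] (f : R →+* S) : (J1' n R).map f = J1' n S := by
  ext i (j | j) <;> simp [J1', Matrix.one_apply, apply_ite f]

theorem io_fromBlocks_one : io A (fromBlocks 1 0 0 0 : Matrix (n ⊕ n) (n ⊕ n) ℂ) = fromBlocks 1 0 0 0 := by
  rw [← J1_mul, ← J1_mul, io_mul, io_J1, io_J1']

/-- the clutching idempotent -/
def E (g : RU ε n) : Matrix (n ⊕ n) (n ⊕ n) (SigA ε) :=
  mkM (fun s => W g.u g.v s * fromBlocks 1 0 0 0 * W' g.u g.v s)
    (((continuous_W _ _).matrix_mul continuous_const).matrix_mul (continuous_W' _ _))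
    (fromBlocks 1 0 0 0)
    (by simp only [W_zero _ _ g.uv, W'_zero _ _ g.uv, Matrix.one_mul, Matrix.mul_one]
        exact io_fromBlocks_one.symm)
    (by simp only [W_one, W'_one, fromBlocks_multiply]
        refine Eq.trans ?_ io_fromBlocks_one.symm
        simp [g.uv])
    (by intro t
        rw [Matrix.map_mul, Matrix.map_mul, W_map g.eu g.ev, W'_map g.eu g.ev, Matrix.one_mul,
          Matrix.mul_one, fromBlocks_map]
        simp)

theorem E_ev (g : RU ε n) (s : I) :
    (E g).map (Sig.ev ε s) = W g.u g.v s * fromBlocks 1 0 0 0 * W' g.u g.v s := rfl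

theorem E_idem (g : RU ε n) : E g * E g = E g := by
  refine mat_ext fun t => ?_
  have : (E g * E g).map (Sig.ev ε t) = (E g).map (Sig.ev ε t) * (E g).map (Sig.ev ε t) :=
    Matrix.map_mul (f := (Sig.ev ε t : SigA ε →+* A))
  rw [this, E_ev]
  calc W g.u g.v t * fromBlocks 1 0 0 0 * W' g.u g.v t * (W g.u g.v t * fromBlocks 1 0 0 0 * W' g.u g.v t)
      = W g.u g.v t * fromBlocks 1 0 0 0 * (W' g.u g.v t * W g.u g.v t) *
        (fromBlocks 1 0 0 0 * W' g.u g.v t) := by simp only [Matrix.mul_assoc]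
    _ = W g.u g.v t * (fromBlocks 1 0 0 0 * fromBlocks 1 0 0 0) * W' g.u g.v t := by
        rw [W'_mul _ _ g.uv g.vu, Matrix.mul_one]; simp only [Matrix.mul_assoc]
    _ = _ := by simp [fromBlocks_multiply]

theorem W_J1 (g : RU ε n) : W g.u g.v 1 * J1 n A = J1 n A * g.u := by
  rw [W_one]
  simp [J1, fromBlocks_mul_fromRows, fromRows_mul]

theorem J1'_W (g : RU ε n) : J1' n A * W' g.u g.v 1 = g.v * J1' n A := by
  rw [W'_one]
  simp [J1', fromCols_mul_fromBlocks, mul_fromCols]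

theorem J1'_W1 (g : RU ε n) : J1' n A * W g.u g.v 1 = g.u * J1' n A := by
  rw [W_one]
  simp [J1', fromCols_mul_fromBlocks, mul_fromCols]

theorem W'_J1 (g : RU ε n) : W' g.u g.v 1 * J1 n A = J1 n A * g.v := by
  rw [W'_one]
  simp [J1, fromBlocks_mul_fromRows, fromRows_mul]

/-- **uniqueness of clutching**: an idempotent given by a path `V` from `1` whose end point restricts
to `g` on the corner is equivalent to `E g`. -/
theorem mvn_clutch {e : Matrix k k (SigA ε)} (V V' : I → Matrix k k A) (hV : Continuous V)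
    (hV' : Continuous V') (hVV' : ∀ t, V t * V' t = 1) (hV'V : ∀ t, V' t * V t = 1)
    (V0 : V 0 = 1) (eV : ∀ t, (V t).map ε = 1) (J : Matrix k n ℂ) (J' : Matrix n k ℂ)
    (hJ : J' * J = 1) (he : ∀ s, e.map (Sig.ev ε s) = V s * (io A J * io A J') * V' s)
    (g : RU ε n) (h1 : V 1 * io A J = io A J * g.u) (h2 : io A J' * V' 1 = g.v * io A J') :
    MvN e (E g) := by
  have hJA : io A J' * io A J = 1 := by rw [← io_mul, hJ, io_one]
  have V'0 : V' 0 = 1 := by have := hVV' 0; rwa [V0, Matrix.one_mul] at this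
  have eV' : ∀ t, (V' t).map ε = 1 := fun t => by
    have h : (V' t * V t).map ε = (V' t).map ε * (V t).map ε := Matrix.map_mul (f := (ε : A →+* ℂ))
    rw [hV'V, eV, Matrix.mul_one] at h
    rw [← h]; simp
  refine mvn_of_paths (fun s => V s * io A J * (J1' n A * W' g.u g.v s))
    (fun s => W g.u g.v s * J1 n A * (io A J' * V' s))
    ((hV.matrix_mul continuous_const).matrix_mul (continuous_const.matrix_mul (continuous_W' _ _)))
    (((continuous_W _ _).matrix_mul continuous_const).matrix_mul (continuous_const.matrix_mul hV'))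
    (J * J1' n ℂ) (J1 n ℂ * J') ?_ ?_ ?_ ?_ ?_ ?_ ?_ ?_
  · simp only [V0, W'_zero _ _ g.uv, Matrix.one_mul, Matrix.mul_one]
    rw [io_mul, io_J1']
  · simp only [h1, J1'_W]
    rw [io_mul, io_J1', Matrix.mul_assoc, ← Matrix.mul_assoc g.u, g.uv, Matrix.one_mul]
  · simp only [V'0, W_zero _ _ g.uv, Matrix.one_mul, Matrix.mul_one]
    rw [io_mul, io_J1]
  · simp only [h2, W_J1]
    rw [io_mul, io_J1, Matrix.mul_assoc, ← Matrix.mul_assoc g.u, g.uv, Matrix.one_mul]
  · intro t
    have : (V t * io A J * (J1' n A * W' g.u g.v t)).map ε =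
        (V t).map ε * (io A J).map ε * ((J1' n A).map ε * (W' g.u g.v t).map ε) := by
      rw [Matrix.map_mul, Matrix.map_mul, Matrix.map_mul]
    rw [this, eV, io_map, W'_map g.eu g.ev, Matrix.one_mul, Matrix.mul_one]
    congr 1
    exact J1'_map (ε : A →+* ℂ)
  · intro t
    have : (W g.u g.v t * J1 n A * (io A J' * V' t)).map ε =
        (W g.u g.v t).map ε * (J1 n A).map ε * ((io A J').map ε * (V' t).map ε) := by
      rw [Matrix.map_mul, Matrix.map_mul, Matrix.map_mul]
    rw [this, eV', io_map, W_map g.eu g.ev, Matrix.one_mul, Matrix.mul_one]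
    congr 1
    exact J1_map (ε : A →+* ℂ)
  · intro t
    rw [he t]
    calc V t * io A J * (J1' n A * W' g.u g.v t) * (W g.u g.v t * J1 n A * (io A J' * V' t))
        = V t * io A J * (J1' n A * (W' g.u g.v t * W g.u g.v t) * J1 n A) * (io A J' * V' t) := by
          simp only [Matrix.mul_assoc]
      _ = V t * (io A J * io A J') * V' t := by
          rw [W'_mul _ _ g.uv g.vu, Matrix.mul_one, J1'_mul, Matrix.mul_one]
          simp only [Matrix.mul_assoc]
  · intro t
    rw [E_ev, ← J1_mul]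
    calc W g.u g.v t * J1 n A * (io A J' * V' t) * (V t * io A J * (J1' n A * W' g.u g.v t))
        = W g.u g.v t * J1 n A * (io A J' * (V' t * V t) * io A J) * (J1' n A * W' g.u g.v t) := by
          simp only [Matrix.mul_assoc]
      _ = W g.u g.v t * (J1 n A * J1' n A) * W' g.u g.v t := by
          rw [hV'V, Matrix.mul_one, hJA, Matrix.mul_one]
          simp only [Matrix.mul_assoc]

/-- the clutching class -/
def d (g : RU ε n) : K0 (SigA ε) := K0.cls (E g) - K0.cls (1 : Matrix n n (SigA ε))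

theorem one_idem {R : Type*} [Ring R] : (1 : Matrix n n R) * 1 = 1 := by simp

theorem Jn.mvn {g h : RU ε n} (H : Jn ε g h) : MvN (E g) (E h) := by
  obtain ⟨a, b, ca, cb, ab, ba, a0, a1, ea⟩ := H
  have b0 : b 0 = g.v := inv_eq_of (by rw [ba]) (by rw [a0, g.uv])
  have b1 : b 1 = h.v := inv_eq_of (by rw [ba]) (by rw [a1, h.uv])
  have eb : ∀ t, (b t).map ε = 1 := fun t => by
    have h : (b t * a t).map ε = (b t).map ε * (a t).map ε := Matrix.map_mul (f := (ε : A →+* ℂ))
    rw [ba, ea, Matrix.mul_one] at h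
    rw [← h]; simp
  refine mvn_of_paths (fun s => W g.u g.v s * (J1 n A * (g.v * a s) * J1' n A) * W' h.u h.v s)
    (fun s => W h.u h.v s * (J1 n A * (b s * g.u) * J1' n A) * W' g.u g.v s)
    (((continuous_W _ _).matrix_mul ((continuous_const.matrix_mul
      (continuous_const.matrix_mul ca)).matrix_mul continuous_const)).matrix_mul (continuous_W' _ _))
    (((continuous_W _ _).matrix_mul ((continuous_const.matrix_mul
      (cb.matrix_mul continuous_const)).matrix_mul continuous_const)).matrix_mul (continuous_W' _ _))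
    (J1 n ℂ * J1' n ℂ) (J1 n ℂ * J1' n ℂ) ?_ ?_ ?_ ?_ ?_ ?_ ?_ ?_
  · simp only [W_zero _ _ g.uv, W'_zero _ _ h.uv, Matrix.one_mul, Matrix.mul_one, a0, g.vu]
    rw [io_mul, io_J1, io_J1']
  · calc W g.u g.v 1 * (J1 n A * (g.v * a 1) * J1' n A) * W' h.u h.v 1
        = (W g.u g.v 1 * J1 n A) * (g.v * a 1) * (J1' n A * W' h.u h.v 1) := by
          simp only [Matrix.mul_assoc]
      _ = J1 n A * (g.u * g.v) * (h.u * h.v) * J1' n A := by
          rw [W_J1, J1'_W, a1]; simp only [Matrix.mul_assoc]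
      _ = _ := by rw [g.uv, h.uv, Matrix.mul_one, Matrix.mul_one, io_mul, io_J1, io_J1']
  · simp only [W_zero _ _ h.uv, W'_zero _ _ g.uv, Matrix.one_mul, Matrix.mul_one, b0, g.vu]
    rw [io_mul, io_J1, io_J1']
  · calc W h.u h.v 1 * (J1 n A * (b 1 * g.u) * J1' n A) * W' g.u g.v 1
        = (W h.u h.v 1 * J1 n A) * (b 1 * g.u) * (J1' n A * W' g.u g.v 1) := by
          simp only [Matrix.mul_assoc]
      _ = J1 n A * (h.u * h.v) * (g.u * g.v) * J1' n A := by
          rw [W_J1, J1'_W, b1]; simp only [Matrix.mul_assoc]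
      _ = _ := by rw [g.uv, h.uv, Matrix.mul_one, Matrix.mul_one, io_mul, io_J1, io_J1']
  · intro t
    have : (W g.u g.v t * (J1 n A * (g.v * a t) * J1' n A) * W' h.u h.v t).map ε =
        (W g.u g.v t).map ε * ((J1 n A).map ε * (g.v.map ε * (a t).map ε) * (J1' n A).map ε) *
          (W' h.u h.v t).map ε := by
      simp only [Matrix.map_mul]
    rw [this, W_map g.eu g.ev, W'_map h.eu h.ev, g.ev, ea, Matrix.one_mul, Matrix.one_mul,
      Matrix.mul_one, Matrix.mul_one]
    congr 1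
    · exact J1_map (ε : A →+* ℂ)
    · exact J1'_map (ε : A →+* ℂ)
  · intro t
    have : (W h.u h.v t * (J1 n A * (b t * g.u) * J1' n A) * W' g.u g.v t).map ε =
        (W h.u h.v t).map ε * ((J1 n A).map ε * ((b t).map ε * g.u.map ε) * (J1' n A).map ε) *
          (W' g.u g.v t).map ε := by
      simp only [Matrix.map_mul]
    rw [this, W_map h.eu h.ev, W'_map g.eu g.ev, g.eu, eb, Matrix.one_mul, Matrix.one_mul,
      Matrix.mul_one, Matrix.mul_one]
    congr 1
    · exact J1_map (ε : A →+* ℂ)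
    · exact J1'_map (ε : A →+* ℂ)
  · intro t
    rw [E_ev, ← J1_mul]
    calc W g.u g.v t * (J1 n A * (g.v * a t) * J1' n A) * W' h.u h.v t *
          (W h.u h.v t * (J1 n A * (b t * g.u) * J1' n A) * W' g.u g.v t)
        = W g.u g.v t * (J1 n A * (g.v * (a t * (J1' n A * (W' h.u h.v t * W h.u h.v t) * J1 n A) *
          b t) * g.u) * J1' n A) * W' g.u g.v t := by simp only [Matrix.mul_assoc]
      _ = _ := by
          rw [W'_mul _ _ h.uv h.vu, Matrix.mul_one, J1'_mul, Matrix.mul_one, ab, Matrix.mul_one, g.vu,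
            Matrix.mul_one]
  · intro t
    rw [E_ev, ← J1_mul]
    calc W h.u h.v t * (J1 n A * (b t * g.u) * J1' n A) * W' g.u g.v t *
          (W g.u g.v t * (J1 n A * (g.v * a t) * J1' n A) * W' h.u h.v t)
        = W h.u h.v t * (J1 n A * (b t * (g.u * (J1' n A * (W' g.u g.v t * W g.u g.v t) * J1 n A) *
          g.v) * a t) * J1' n A) * W' h.u h.v t := by simp only [Matrix.mul_assoc]
      _ = _ := by
          rw [W'_mul _ _ g.uv g.vu, Matrix.mul_one, J1'_mul, Matrix.mul_one, g.uv, Matrix.mul_one, ba,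
            Matrix.mul_one]

theorem ev_fb (t : I) (a : Matrix n m (SigA ε)) (b : Matrix k l (SigA ε)) :
    (fromBlocks a 0 0 b).map (Sig.ev ε t) =
      fromBlocks (a.map (Sig.ev ε t)) 0 0 (b.map (Sig.ev ε t)) := by
  rw [fromBlocks_map]
  congr 1 <;> ext <;> simp

theorem eps_fb (a : Matrix n m A) (b : Matrix k l A) :
    (fromBlocks a 0 0 b).map ε = fromBlocks (a.map ε) 0 0 (b.map ε) := by
  rw [fromBlocks_map]
  congr 1 <;> ext <;> simp

theorem io_fb (a : Matrix n m ℂ) (b : Matrix k l ℂ) :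
    io A (fromBlocks a 0 0 b) = fromBlocks (io A a) 0 0 (io A b) := by
  unfold io
  rw [fromBlocks_map]
  congr 1 <;> ext <;> simp

/-- homotopy invariance of `d` -/
theorem Jn.d_eq {g h : RU ε n} (H : Jn ε g h) : d g = d h := by
  unfold d
  rw [K0.cls_eq (E_idem g) (E_idem h) H.mvn]

theorem mvn_sum (g : RU ε n) (h : RU ε m) : MvN (fromBlocks (E g) 0 0 (E h)) (E (g.sum h)) := by
  refine mvn_clutch (fun s => fromBlocks (W g.u g.v s) 0 0 (W h.u h.v s))
    (fun s => fromBlocks (W' g.u g.v s) 0 0 (W' h.u h.v s))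
    (Continuous.matrix_fromBlocks (continuous_W _ _) continuous_const continuous_const (continuous_W _ _))
    (Continuous.matrix_fromBlocks (continuous_W' _ _) continuous_const continuous_const (continuous_W' _ _))
    ?_ ?_ ?_ ?_ (fromBlocks (J1 n ℂ) 0 0 (J1 m ℂ)) (fromBlocks (J1' n ℂ) 0 0 (J1' m ℂ)) ?_ ?_ _ ?_ ?_
  · intro t
    simp [fromBlocks_multiply, W_mul _ _ g.uv g.vu, W_mul _ _ h.uv h.vu]
  · intro t
    simp [fromBlocks_multiply, W'_mul _ _ g.uv g.vu, W'_mul _ _ h.uv h.vu]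
  · simp [W_zero _ _ g.uv, W_zero _ _ h.uv]
  · intro t
    rw [eps_fb, W_map g.eu g.ev, W_map h.eu h.ev, fromBlocks_one]
  · simp [fromBlocks_multiply, J1'_mul]
  · intro t
    rw [io_fb, io_fb, io_J1, io_J1, io_J1', io_J1', ev_fb, E_ev, E_ev]
    simp only [fromBlocks_multiply, Matrix.zero_mul, Matrix.mul_zero, add_zero, zero_add, J1_mul]
  · rw [io_fb, io_J1, io_J1]
    simp only [fromBlocks_multiply, Matrix.zero_mul, Matrix.mul_zero, add_zero, zero_add, W_J1, RU.sum]
  · rw [io_fb, io_J1', io_J1']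
    simp only [fromBlocks_multiply, Matrix.zero_mul, Matrix.mul_zero, add_zero, zero_add, J1'_W, RU.sum]

theorem d_sum (g : RU ε n) (h : RU ε m) : d (g.sum h) = d g + d h := by
  unfold d
  have e1 : K0.cls (E (g.sum h)) = K0.cls (E g) + K0.cls (E h) := by
    rw [← K0.cls_sum (E_idem g) (E_idem h)]
    exact (K0.cls_eq (idem_sum (E_idem g) (E_idem h)) (E_idem _) (mvn_sum g h)).symm
  have e2 : K0.cls (1 : Matrix (n ⊕ m) (n ⊕ m) (SigA ε)) =
      K0.cls (1 : Matrix n n (SigA ε)) + K0.cls (1 : Matrix m m (SigA ε)) := by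
    rw [← K0.cls_sum one_idem one_idem, fromBlocks_one]
  rw [e1, e2]
  abel

theorem d_one : d (RU.one : RU ε n) = 0 := by
  have : MvN (1 : Matrix n n (SigA ε)) (E (RU.one : RU ε n)) := by
    refine mvn_clutch (fun _ => 1) (fun _ => 1) continuous_const continuous_const (by simp) (by simp)
      rfl (by simp) 1 1 (by simp) ?_ _ ?_ ?_
    · intro s
      rw [Matrix.map_one _ (map_zero _) (map_one _)]
      simp [io]
    · simp [RU.one]
    · simp [RU.one]
  unfold d
  rw [K0.cls_eq one_idem (E_idem _) this, sub_self]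

/-- `g ⊕ g⁻¹` is joined to `1` -/
theorem jn_sum_inv (g : RU ε n) : Jn ε (RU.one : RU ε (n ⊕ n)) (g.sum g.inv) :=
  ⟨W g.u g.v, W' g.u g.v, continuous_W _ _, continuous_W' _ _, W_mul _ _ g.uv g.vu,
    W'_mul _ _ g.uv g.vu, W_zero _ _ g.uv, W_one _ _, W_map g.eu g.ev⟩

theorem d_inv (g : RU ε n) : d g.inv = - d g := by
  have h1 := (jn_sum_inv g).d_eq
  rw [d_one, d_sum] at h1
  exact (neg_eq_of_add_eq_zero_right h1.symm).symm

theorem aug_E (g : RU ε n) : (E g).map (Sig.aug ε) = J1 n ℂ * J1' n ℂ := by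
  rw [J1_mul, ← mat_aug (E g) 0, E_ev, W_zero _ _ g.uv, W'_zero _ _ g.uv, Matrix.one_mul,
    Matrix.mul_one, fromBlocks_map]
  simp

/-- `d g` has augmentation `0` -/
theorem aug_d (g : RU ε n) : K0.map ((Sig.aug ε : SigA ε →ₐ[ℂ] ℂ) : SigA ε →+* ℂ) (d g) = 0 := by
  have h1 : K0.map ((Sig.aug ε : SigA ε →ₐ[ℂ] ℂ) : SigA ε →+* ℂ) (K0.cls (E g)) =
      K0.cls (1 : Matrix n n ℂ) := by
    rw [K0.map_cls _ (E_idem g)]
    have : (E g).map ((Sig.aug ε : SigA ε →ₐ[ℂ] ℂ) : SigA ε →+* ℂ) = J1 n ℂ * J1' n ℂ := aug_E g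
    rw [this]
    refine K0.cls_eq ?_ one_idem ⟨J1 n ℂ, J1' n ℂ, rfl, J1'_mul ℂ⟩
    rw [Matrix.mul_assoc, ← Matrix.mul_assoc (J1' n ℂ), J1'_mul, Matrix.one_mul]
  have h2 : K0.map ((Sig.aug ε : SigA ε →ₐ[ℂ] ℂ) : SigA ε →+* ℂ) (K0.cls (1 : Matrix n n (SigA ε))) =
      K0.cls (1 : Matrix n n ℂ) := by
    rw [K0.map_cls _ one_idem, Matrix.map_one _ (map_zero _) (map_one _)]
  unfold d
  rw [map_sub, h1, h2, sub_self]

end

end Crest.Agent.R204.Clutch369
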