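import Crest.Agent.R204.Clutch2_369

/-!
# Row 204, block H: clutching (T1), third part, helper369

* `exists_d`  : every element of `K0 (SigA ε)` of augmentation zero is `d g`.
* `jn_of_d`   : `d g = 0` implies that `g ⊕ 1_M` is joined to `1`.
-/

set_option autoImplicit false
set_option linter.unusedSectionVars false
set_option linter.unusedSimpArgs false

open Matrix Topology
open scoped unitInterval
open Crest.Agent.R204.K357

namespace Crest.Agent.R204.Clutch369

noncomputable section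

universe u

variable {A : Type u} [NormedRing A] [NormedAlgebra ℂ A] [CompleteSpace A]
variable {ε : A →ₐ[ℂ] ℂ}
variable {n m k l : Type} [Fintype n] [DecidableEq n] [Fintype m] [DecidableEq m]
  [Fintype k] [DecidableEq k] [Fintype l] [DecidableEq l]

theorem ev_mul {p : Type*} (t : I) (x : Matrix k l (SigA ε)) (y : Matrix l p (SigA ε)) :
    (x * y).map (Sig.ev ε t) = x.map (Sig.ev ε t) * y.map (Sig.ev ε t) :=
  Matrix.map_mul (f := (Sig.ev ε t : SigA ε →+* A))

theorem aug_mul {p : Type*} (x : Matrix k l (SigA ε)) (y : Matrix l p (SigA ε)) :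
    (x * y).map (Sig.aug ε) = x.map (Sig.aug ε) * y.map (Sig.aug ε) :=
  Matrix.map_mul (f := (Sig.aug ε : SigA ε →+* ℂ))

theorem eps_mul {p : Type*} (x : Matrix k l A) (y : Matrix l p A) :
    (x * y).map ε = x.map ε * y.map ε :=
  Matrix.map_mul (f := (ε : A →+* ℂ))

theorem io_inj {x y : Matrix k l ℂ} (h : io A x = io A y) (ε : A →ₐ[ℂ] ℂ) : x = y := by
  rw [← io_map (ε := ε) x, h, io_map]

/-- every idempotent over `SigA ε` is the clutching of a reduced unit -/
theorem exists_E (e : Matrix k k (SigA ε)) (he : e * e = e) :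
    ∃ (r : ℕ) (g : RU ε (Fin r)), MvN e (E g) ∧
      MvN (e.map (Sig.aug ε)) (1 : Matrix (Fin r) (Fin r) ℂ) := by
  set c : Matrix k k ℂ := e.map (Sig.aug ε) with hc
  have hcc : c * c = c := by rw [hc, ← aug_mul, he]
  obtain ⟨r, a, b, hab, hba⟩ := exists_split c hcc
  obtain ⟨g, g', cg, cg', gg', g'g, g0, g'0, hg, hρ⟩ :=
    Banach313.exists_path_conj_matrix.{0} (fun t => e.map (Sig.ev ε t)) (mat_continuous e)
      (fun t => by rw [← ev_mul, he])
  have hρ' := hρ ((ε : A →+* ℂ).mapMatrix) (fun t => by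
    change (e.map (Sig.ev ε t)).map ε = (e.map (Sig.ev ε 0)).map ε
    rw [mat_aug, mat_aug])
  have eg : ∀ t, (g t).map ε = 1 := fun t => (hρ' t).1
  have eg' : ∀ t, (g' t).map ε = 1 := fun t => (hρ' t).2
  have e0 : e.map (Sig.ev ε 0) = io A c := mat_zero e
  have e1 : e.map (Sig.ev ε 1) = io A c := mat_one e
  have hcom : io A c * g 1 = g 1 * io A c := by
    have h := hg 1
    simp only [e0, e1] at h
    calc io A c * g 1 = g 1 * io A c * g' 1 * g 1 := by rw [← h]
      _ = _ := by rw [Matrix.mul_assoc, g'g, Matrix.mul_one]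
  have hcom' : io A c * g' 1 = g' 1 * io A c := by
    calc io A c * g' 1 = (g' 1 * g 1) * io A c * g' 1 := by rw [g'g, Matrix.one_mul]
      _ = g' 1 * (io A c * g 1) * g' 1 := by rw [hcom]; simp only [Matrix.mul_assoc]
      _ = g' 1 * io A c * (g 1 * g' 1) := by simp only [Matrix.mul_assoc]
      _ = _ := by rw [gg', Matrix.mul_one]
  have hAB : io A a * io A b = io A c := by rw [← io_mul, hab]
  have hBA : io A b * io A a = 1 := by rw [← io_mul, hba, io_one]
  have hcA : io A c * io A a = io A a := by rw [← hAB, Matrix.mul_assoc, hBA, Matrix.mul_one]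
  have hBc : io A b * io A c = io A b := by rw [← hAB, ← Matrix.mul_assoc, hBA, Matrix.one_mul]
  let h : RU ε (Fin r) :=
    { u := io A b * g 1 * io A a
      v := io A b * g' 1 * io A a
      uv := by
        calc io A b * g 1 * io A a * (io A b * g' 1 * io A a)
            = io A b * g 1 * ((io A a * io A b) * g' 1) * io A a := by simp only [Matrix.mul_assoc]
          _ = io A b * (g 1 * g' 1) * (io A c * io A a) := by
              rw [hAB, hcom']; simp only [Matrix.mul_assoc]
          _ = 1 := by rw [gg', Matrix.mul_one, hcA, hBA]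
      vu := by
        calc io A b * g' 1 * io A a * (io A b * g 1 * io A a)
            = io A b * g' 1 * ((io A a * io A b) * g 1) * io A a := by simp only [Matrix.mul_assoc]
          _ = io A b * (g' 1 * g 1) * (io A c * io A a) := by
              rw [hAB, hcom]; simp only [Matrix.mul_assoc]
          _ = 1 := by rw [g'g, Matrix.mul_one, hcA, hBA]
      eu := by
        rw [eps_mul, eps_mul, eg, io_map, io_map, Matrix.mul_one, hba] }
  refine ⟨r, h, ?_, ⟨a, b, hab, hba⟩⟩
  refine mvn_clutch g g' cg cg' gg' g'g g0 eg a b hba ?_ h ?_ ?_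
  · intro s
    rw [hg s, e0, hAB]
  · change g 1 * io A a = io A a * (io A b * g 1 * io A a)
    rw [← Matrix.mul_assoc, ← Matrix.mul_assoc, hAB, hcom, Matrix.mul_assoc, hcA]
  · change io A b * g' 1 = io A b * g' 1 * io A a * io A b
    rw [Matrix.mul_assoc _ (io A a), hAB, Matrix.mul_assoc _ (g' 1), ← hcom', ← Matrix.mul_assoc, hBc]

theorem map_one_cls {R S : Type*} [Ring R] [Ring S] (f : R →+* S) :
    K0.map f (K0.cls (1 : Matrix k k R)) = K0.cls (1 : Matrix k k S) := by
  rw [K0.map_cls _ one_idem, Matrix.map_one _ (map_zero _) (map_one _)]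

/-- **T1, surjectivity** -/
theorem exists_d (x : K0 (SigA ε)) (hx : K0.map ((Sig.aug ε : SigA ε →ₐ[ℂ] ℂ) : SigA ε →+* ℂ) x = 0) :
    ∃ (r : ℕ) (g : RU ε (Fin r)), x = d g := by
  obtain ⟨n, m, e, he, rfl⟩ := K0.exists_rep_one x
  obtain ⟨r, g, h1, h2⟩ := exists_E e he
  refine ⟨r, g, ?_⟩
  have h3 : K0.map ((Sig.aug ε : SigA ε →ₐ[ℂ] ℂ) : SigA ε →+* ℂ) (K0.cls e) =
      K0.cls (1 : Matrix (Fin r) (Fin r) ℂ) := by
    rw [K0.map_cls _ he]
    refine K0.cls_eq (idem_map _ he) one_idem h2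
  rw [map_sub, h3, map_one_cls, sub_eq_zero] at hx
  have h4 := congrArg (K0.map (algebraMap ℂ (SigA ε))) hx
  rw [map_one_cls, map_one_cls] at h4
  unfold d
  rw [K0.cls_eq he (E_idem g) h1, h4]

/-- **T1, injectivity** -/
theorem jn_of_d (g : RU ε n) (hg : d g = 0) :
    ∃ M : ℕ, Jn ε (RU.one : RU ε (n ⊕ Fin M)) (g.sum (RU.one : RU ε (Fin M))) := by
  have h1 : K0.cls (E g) = K0.cls (1 : Matrix n n (SigA ε)) := sub_eq_zero.1 hg
  obtain ⟨M, x, y, hxy, hyx⟩ := (K0.cls_eq_iff (E_idem g) one_idem).1 h1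
  refine ⟨M, ?_⟩
  rw [fromBlocks_one] at hyx
  let J : Matrix ((n ⊕ n) ⊕ Fin M) (n ⊕ Fin M) A := fromBlocks (J1 n A) 0 0 1
  let J' : Matrix (n ⊕ Fin M) ((n ⊕ n) ⊕ Fin M) A := fromBlocks (J1' n A) 0 0 1
  let V : I → Matrix ((n ⊕ n) ⊕ Fin M) ((n ⊕ n) ⊕ Fin M) A := fun s => fromBlocks (W g.u g.v s) 0 0 1
  let V' : I → Matrix ((n ⊕ n) ⊕ Fin M) ((n ⊕ n) ⊕ Fin M) A := fun s => fromBlocks (W' g.u g.v s) 0 0 1
  have cV : Continuous V := Continuous.matrix_fromBlocks (continuous_W _ _) continuous_const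
    continuous_const continuous_const
  have cV' : Continuous V' := Continuous.matrix_fromBlocks (continuous_W' _ _) continuous_const
    continuous_const continuous_const
  have hJ'J : J' * J = 1 := by simp [J, J', fromBlocks_multiply, J1'_mul]
  have hJJ' : J * J' = fromBlocks (fromBlocks 1 0 0 0) 0 0 1 := by
    simp [J, J', fromBlocks_multiply, J1_mul]
  have hVV' : ∀ s, V s * V' s = 1 := fun s => by
    simp [V, V', fromBlocks_multiply, W_mul _ _ g.uv g.vu]
  have hV'V : ∀ s, V' s * V s = 1 := fun s => by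
    simp [V, V', fromBlocks_multiply, W'_mul _ _ g.uv g.vu]
  have V0 : V 0 = 1 := by simp [V, W_zero _ _ g.uv]
  have V'0 : V' 0 = 1 := by simp [V', W'_zero _ _ g.uv]
  let G : Matrix (n ⊕ Fin M) (n ⊕ Fin M) A := fromBlocks g.u 0 0 1
  let G' : Matrix (n ⊕ Fin M) (n ⊕ Fin M) A := fromBlocks g.v 0 0 1
  have hGG' : G * G' = 1 := by simp [G, G', fromBlocks_multiply, g.uv]
  have hG'G : G' * G = 1 := by simp [G, G', fromBlocks_multiply, g.vu]
  have hJ'V' : J' * V' 1 = G' * J' := by
    simp [J', V', G', fromBlocks_multiply, J1'_W]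
  have hVJ : V 1 * J = J * G := by
    simp [J, V, G, fromBlocks_multiply, W_J1]
  -- evaluate
  have hE : ∀ s, (fromBlocks (E g) 0 0 (1 : Matrix (Fin M) (Fin M) (SigA ε))).map (Sig.ev ε s) =
      V s * (J * J') * V' s := by
    intro s
    rw [ev_fb, E_ev, Matrix.map_one _ (map_zero _) (map_one _), hJJ']
    simp only [V, V', fromBlocks_multiply, Matrix.zero_mul, Matrix.mul_zero, add_zero, zero_add,
      Matrix.mul_one]
  have hx : ∀ s, x.map (Sig.ev ε s) * y.map (Sig.ev ε s) = V s * (J * J') * V' s := fun s => by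
    rw [← hE, ← hxy, ev_mul]
  have hy : ∀ s, y.map (Sig.ev ε s) * x.map (Sig.ev ε s) = 1 := fun s => by
    rw [← ev_mul, hyx, Matrix.map_one _ (map_zero _) (map_one _)]
  let c : I → Matrix (n ⊕ Fin M) (n ⊕ Fin M) A := fun s => J' * V' s * x.map (Sig.ev ε s)
  let c' : I → Matrix (n ⊕ Fin M) (n ⊕ Fin M) A := fun s => y.map (Sig.ev ε s) * (V s * J)
  have cc : Continuous c := (continuous_const.matrix_mul cV').matrix_mul (mat_continuous x)
  have cc' : Continuous c' := (mat_continuous y).matrix_mul (cV.matrix_mul continuous_const)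
  have hcc' : ∀ s, c s * c' s = 1 := fun s => by
    calc J' * V' s * x.map (Sig.ev ε s) * (y.map (Sig.ev ε s) * (V s * J))
        = J' * V' s * (x.map (Sig.ev ε s) * y.map (Sig.ev ε s)) * (V s * J) := by
          simp only [Matrix.mul_assoc]
      _ = J' * (V' s * V s) * (J * J') * (V' s * V s) * J := by
          rw [hx]; simp only [Matrix.mul_assoc]
      _ = (J' * J) * (J' * J) := by rw [hV'V]; simp only [Matrix.mul_assoc, Matrix.one_mul]
      _ = 1 := by rw [hJ'J, Matrix.one_mul]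
  have hc'c : ∀ s, c' s * c s = 1 := fun s => by
    calc y.map (Sig.ev ε s) * (V s * J) * (J' * V' s * x.map (Sig.ev ε s))
        = y.map (Sig.ev ε s) * (V s * (J * J') * V' s) * x.map (Sig.ev ε s) := by
          simp only [Matrix.mul_assoc]
      _ = (y.map (Sig.ev ε s) * x.map (Sig.ev ε s)) * (y.map (Sig.ev ε s) * x.map (Sig.ev ε s)) := by
          rw [← hx]; simp only [Matrix.mul_assoc]
      _ = 1 := by rw [hy, Matrix.one_mul]
  have hx01 : x.map (Sig.ev ε 1) = x.map (Sig.ev ε 0) := by rw [mat_one, mat_zero]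
  have c1 : c 1 = G' * c 0 := by
    change J' * V' 1 * x.map (Sig.ev ε 1) = G' * (J' * V' 0 * x.map (Sig.ev ε 0))
    rw [hJ'V', hx01, V'0, Matrix.mul_one]
    simp only [Matrix.mul_assoc]
  have c'1 : c' 1 = c' 0 * G := by
    have h : c' 1 * (G' * c 0) = 1 := by rw [← c1, hc'c]
    calc c' 1 = c' 1 * (G' * (c 0 * c' 0) * G) := by
          rw [hcc', Matrix.mul_one, hG'G, Matrix.mul_one]
      _ = c' 1 * (G' * c 0) * (c' 0 * G) := by simp only [Matrix.mul_assoc]
      _ = _ := by rw [h, Matrix.one_mul]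
  have ec : ∀ s, (c s).map ε = (c 0).map ε := by
    intro s
    have key : ∀ s, (c s).map ε = J'.map ε * x.map (Sig.aug ε) := by
      intro s
      change (J' * V' s * x.map (Sig.ev ε s)).map ε = _
      rw [eps_mul, eps_mul, mat_aug]
      congr 1
      have h5 : (V' s).map ε = 1 := by
        change (fromBlocks (W' g.u g.v s) 0 0 1).map ε = 1
        rw [eps_fb, W'_map g.eu g.ev, Matrix.map_one _ (map_zero _) (map_one _), fromBlocks_one]
      rw [h5, Matrix.mul_one]
    rw [key, key]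
  refine ⟨fun s => c 0 * c' s, fun s => c s * c' 0, continuous_const.matrix_mul cc',
    cc.matrix_mul continuous_const, fun s => ?_, fun s => ?_, ?_, ?_, fun s => ?_⟩
  · calc c 0 * c' s * (c s * c' 0) = c 0 * (c' s * c s) * c' 0 := by simp only [Matrix.mul_assoc]
      _ = 1 := by rw [hc'c, Matrix.mul_one, hcc']
  · calc c s * c' 0 * (c 0 * c' s) = c s * (c' 0 * c 0) * c' s := by simp only [Matrix.mul_assoc]
      _ = 1 := by rw [hc'c, Matrix.mul_one, hcc']
  · exact hcc' 0
  · change c 0 * c' 1 = fromBlocks g.u 0 0 1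
    rw [c'1, ← Matrix.mul_assoc, hcc', Matrix.one_mul]
  · change (c 0 * c' s).map ε = 1
    rw [eps_mul, ← ec s, ← eps_mul, hcc', Matrix.map_one _ (map_zero _) (map_one _)]

end

end Crest.Agent.R204.Clutch369
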