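import Crest.Agent.R204.Cmp_747

/-!
# Row 204, leaf B-CMP: columns `E¹_p = H̄^{⊗p}` and the comparison theorem (R4) (seat 747)

The model of `H̄^{⊗ (P+1)}` is arbitrary: a module `E P` with a map `br P : (Fin (P+1) → A) → E P`
(“bracket” of `P + 1` classes).  Only spanning by homogeneous brackets and functoriality are used.
-/

set_option autoImplicit false

namespace Crest.Agent.R204.Cmp747

section Tensor

variable {k A A' : Type*} [Field k] [AddCommGroup A] [Module k A] [AddCommGroup A'] [Module k A']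

/-- a graded partial inverse of a graded map which is injective in degrees `< m` (and `0`) and
surjective in degrees `≤ m` -/
theorem exists_sigma (g : ℕ → Submodule k A) (g' : ℕ → Submodule k A')
    (hint : DirectSum.IsInternal g')
    (φ : A →ₗ[k] A') (hφ : ∀ i x, x ∈ g i → φ x ∈ g' i) (m : ℕ)
    (hinj : ∀ i, (i = 0 ∨ i < m) → ∀ x ∈ g i, φ x = 0 → x = 0)
    (hsur : ∀ i ≤ m, ∀ y ∈ g' i, ∃ x ∈ g i, φ x = y) :
    ∃ σ : A' →ₗ[k] A, (∀ i, ∀ y ∈ g' i, σ y ∈ g i) ∧ (∀ i ≤ m, ∀ y ∈ g' i, φ (σ y) = y) ∧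
      (∀ i, (i = 0 ∨ i < m) → ∀ x ∈ g i, σ (φ x) = x) := by
  classical
  -- sections in each degree
  have hs : ∀ i, ∃ s : g' i →ₗ[k] g i, i ≤ m → ∀ y, (φ (s y) : A') = y := by
    intro i
    by_cases hi : i ≤ m
    · let φi : g i →ₗ[k] g' i := φ.restrict (hφ i)
      have hsurj : Function.Surjective φi := by
        rintro ⟨y, hy⟩
        obtain ⟨x, hx, rfl⟩ := hsur i hi y hy
        exact ⟨⟨x, hx⟩, rfl⟩
      obtain ⟨s, hs⟩ := φi.exists_rightInverse_of_surjective (LinearMap.range_eq_top.2 hsurj)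
      refine ⟨s, fun _ y => ?_⟩
      have := LinearMap.congr_fun hs y
      exact congrArg Subtype.val this
    · exact ⟨0, fun h => absurd h hi⟩
  choose s hs using hs
  let e := LinearEquiv.ofBijective (DirectSum.coeLinearMap g') hint
  let σ : A' →ₗ[k] A := DirectSum.toModule k ℕ A (fun i => (g i).subtype ∘ₗ s i) ∘ₗ
    (e.symm : A' →ₗ[k] _)
  have hσ : ∀ i (y : A') (hy : y ∈ g' i), σ y = s i ⟨y, hy⟩ := by
    intro i y hy
    have : e.symm y = DirectSum.lof k ℕ (fun i => g' i) i ⟨y, hy⟩ := by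
      rw [LinearEquiv.symm_apply_eq]
      change y = DirectSum.coeLinearMap g' _
      rw [DirectSum.coeLinearMap_lof]
    change DirectSum.toModule k ℕ A (fun i => (g i).subtype ∘ₗ s i) (e.symm y) = _
    rw [this, DirectSum.toModule_lof]
    rfl
  refine ⟨σ, ?_, ?_, ?_⟩
  · intro i y hy
    rw [hσ i y hy]; exact (s i ⟨y, hy⟩).2
  · intro i hi y hy
    rw [hσ i y hy]; exact hs i hi _
  · intro i hi x hx
    have him : i ≤ m := by omega
    have h1 : φ (σ (φ x) - x) = 0 := by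
      rw [map_sub, hσ i _ (hφ i x hx), hs i him, sub_self]
    have h2 : σ (φ x) - x ∈ g i := by
      refine Submodule.sub_mem _ ?_ hx
      rw [hσ i _ (hφ i x hx)]; exact (s i _).2
    exact sub_eq_zero.1 (hinj i hi _ h2 h1)

variable {E E' : Type*} [AddCommGroup E] [Module k E] [AddCommGroup E'] [Module k E']

/-- the total degree `n` part of `H̄^{⊗ P}` placed in column `P`: spanned by brackets of `P`
homogeneous classes of positive degrees `e i` with `∑ (e i + 1) = n`. -/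
def Eg (g : ℕ → Submodule k A) {P : ℕ} (br : (Fin P → A) → E) (n : ℕ) : Submodule k E :=
  Submodule.span k {x | ∃ (a : Fin P → A) (e : Fin P → ℕ), (∀ i, a i ∈ g (e i)) ∧
    (∀ i, 1 ≤ e i) ∧ ∑ i, (e i + 1) = n ∧ x = br a}

theorem le_of_sum {P : ℕ} (e : Fin P → ℕ) (he : ∀ i, 1 ≤ e i) {n : ℕ}
    (hn : ∑ i, (e i + 1) = n) (i : Fin P) : e i + 2 * P ≤ n + 1 := by
  classical
  have h1 : ∑ j, (e j + 1) = (e i + 1) + ∑ j ∈ Finset.univ.erase i, (e j + 1) := by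
    exact (Finset.add_sum_erase Finset.univ (fun j => e j + 1) (Finset.mem_univ i)).symm
  have h2 : (P - 1) * 2 ≤ ∑ j ∈ Finset.univ.erase i, (e j + 1) := by
    have h3 : ∑ j ∈ Finset.univ.erase i, 2 ≤ ∑ j ∈ Finset.univ.erase i, (e j + 1) :=
      Finset.sum_le_sum (fun j _ => by have := he j; omega)
    rw [Finset.sum_const, Finset.card_erase_of_mem (Finset.mem_univ i), Finset.card_univ,
      Fintype.card_fin, smul_eq_mul] at h3
    exact h3
  have hP : 0 < P := i.pos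
  omega

/-- the model of tensor powers is functorial for graded maps compatible with `φ` in degree `0` -/
def Fun (g : ℕ → Submodule k A) (g' : ℕ → Submodule k A') (φ : A →ₗ[k] A') {P : ℕ}
    (br : (Fin P → A) → E) (br' : (Fin P → A') → E') : Prop :=
  ∀ σ : A' →ₗ[k] A, (∀ i, ∀ y ∈ g' i, σ y ∈ g i) → (∀ x ∈ g 0, σ (φ x) = x) →
    ∃ τ : E' →ₗ[k] E, ∀ a', τ (br' a') = br (fun i => σ (a' i))

variable {g : ℕ → Submodule k A} {g' : ℕ → Submodule k A'} {φ : A →ₗ[k] A'} {P : ℕ}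
  {br : (Fin P → A) → E} {br' : (Fin P → A') → E'} {ψ : E →ₗ[k] E'}

theorem tensor_inj (hint : DirectSum.IsInternal g') (hφ : ∀ i x, x ∈ g i → φ x ∈ g' i) {m : ℕ}
    (hinj : ∀ i, (i = 0 ∨ i < m) → ∀ x ∈ g i, φ x = 0 → x = 0)
    (hsur : ∀ i ≤ m, ∀ y ∈ g' i, ∃ x ∈ g i, φ x = y)
    (hfun : Fun g g' φ br br') (hψ : ∀ a, ψ (br a) = br' (fun i => φ (a i)))
    {n : ℕ} (hn : n + 1 < m + 2 * P) (x : E) (hx : x ∈ Eg g br n) (h0 : ψ x = 0) : x = 0 := by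
  obtain ⟨σ, h1, h2, h3⟩ := exists_sigma g g' hint φ hφ m hinj hsur
  obtain ⟨τ, hτ⟩ := hfun σ h1 (h3 0 (Or.inl rfl))
  have key : ∀ y ∈ Eg g br n, τ (ψ y) = y := by
    intro y hy
    refine Submodule.span_induction ?_ (by simp) ?_ ?_ hy
    · rintro _ ⟨a, e, ha, he, hsum, rfl⟩
      rw [hψ, hτ]
      congr 1
      funext i
      have := le_of_sum e he hsum i
      exact h3 (e i) (Or.inr (by omega)) _ (ha i)
    · intro u v _ _ hu hv; rw [map_add, map_add, hu, hv]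
    · intro c u _ hu; rw [map_smul, map_smul, hu]
  rw [← key x hx, h0, map_zero]

theorem tensor_sur (hint : DirectSum.IsInternal g') (hφ : ∀ i x, x ∈ g i → φ x ∈ g' i) {m : ℕ}
    (hinj : ∀ i, (i = 0 ∨ i < m) → ∀ x ∈ g i, φ x = 0 → x = 0)
    (hsur : ∀ i ≤ m, ∀ y ∈ g' i, ∃ x ∈ g i, φ x = y)
    (hψ : ∀ a, ψ (br a) = br' (fun i => φ (a i)))
    {n : ℕ} (hn : n + 1 ≤ m + 2 * P) (y : E') (hy : y ∈ Eg g' br' n) :
    ∃ x ∈ Eg g br n, ψ x = y := by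
  obtain ⟨σ, h1, h2, h3⟩ := exists_sigma g g' hint φ hφ m hinj hsur
  refine Submodule.span_induction ?_ ?_ ?_ ?_ hy
  · rintro _ ⟨a, e, ha, he, hsum, rfl⟩
    refine ⟨br (fun i => σ (a i)), Submodule.subset_span ⟨_, e, fun i => h1 _ _ (ha i), he, hsum, rfl⟩,
      ?_⟩
    rw [hψ]
    congr 1
    funext i
    have := le_of_sum e he hsum i
    exact h2 (e i) (by omega) _ (ha i)
  · exact ⟨0, Submodule.zero_mem _, map_zero _⟩
  · rintro u v _ _ ⟨x, hx, rfl⟩ ⟨y, hy, rfl⟩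
    exact ⟨x + y, Submodule.add_mem _ hx hy, map_add _ _ _⟩
  · rintro c u _ ⟨x, hx, rfl⟩
    exact ⟨c • x, Submodule.smul_mem _ _ hx, map_smul _ _ _⟩

end Tensor

section Column

variable {k V V' : Type*} [CommRing k] [AddCommGroup V] [Module k V] [AddCommGroup V'] [Module k V']

/-- `E⁰`-cycles of column `P + 1` in total degree `n` -/
def ZZ (d : V →ₗ[k] V) (gr F : ℕ → Submodule k V) (P n : ℕ) : Submodule k V :=
  F (P + 1) ⊓ gr n ⊓ (F P).comap d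

/-- `lead` identifies the homology of column `P + 1` in total degree `n` with `G n ≤ E` -/
structure ColIso (d : V →ₗ[k] V) (gr F : ℕ → Submodule k V) (P : ℕ) {E : Type*} [AddCommGroup E]
    [Module k E] (G : ℕ → Submodule k E) (lead : ∀ n, ZZ d gr F P n →ₗ[k] E) : Prop where
  mem : ∀ n z, lead n z ∈ G n
  surj : ∀ n, ∀ y ∈ G n, ∃ z, lead n z = y
  ker : ∀ n z, lead n z = 0 ↔ ∃ w ∈ F (P + 1), w ∈ gr (n + 1) ∧ (z : V) - d w ∈ F P

variable {d : V →ₗ[k] V} {gr F : ℕ → Submodule k V} {d' : V' →ₗ[k] V'}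
  {gr' F' : ℕ → Submodule k V'} {f : V →ₗ[k] V'}

theorem Filt.map_ZZ (hf : Filt d gr F d' gr' F' f) {P n : ℕ} {z : V} (hz : z ∈ ZZ d gr F P n) :
    f z ∈ ZZ d' gr' F' P n := by
  obtain ⟨⟨h1, h2⟩, h3⟩ := hz
  refine ⟨⟨hf.f_F _ _ h1, hf.f_gr _ _ h2⟩, ?_⟩
  simp only [Submodule.comap_coe, Set.mem_preimage, SetLike.mem_coe] at h3 ⊢
  rw [← hf.fd]; exact hf.f_F _ _ h3

variable {P : ℕ} {E E' : Type*} [AddCommGroup E] [Module k E] [AddCommGroup E'] [Module k E']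
  {G : ℕ → Submodule k E} {G' : ℕ → Submodule k E'} {lead : ∀ n, ZZ d gr F P n →ₗ[k] E}
  {lead' : ∀ n, ZZ d' gr' F' P n →ₗ[k] E'} {ψ : E →ₗ[k] E'}

theorem injG_of_col (hf : Filt d gr F d' gr' F' f) (hc : ColIso d gr F P G lead)
    (hc' : ColIso d' gr' F' P G' lead')
    (hnat : ∀ n (z : ZZ d gr F P n), lead' n ⟨f z, hf.map_ZZ z.2⟩ = ψ (lead n z))
    {n : ℕ} (h : ∀ x ∈ G n, ψ x = 0 → x = 0) : InjG d gr F d' gr' F' f P n := by
  intro u hu hug hdu w' hw' hw'g hfu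
  let z : ZZ d gr F P n := ⟨u, ⟨hu, hug⟩, hdu⟩
  have h1 : lead' n ⟨f z, hf.map_ZZ z.2⟩ = 0 := (hc'.ker n _).2 ⟨w', hw', hw'g, hfu⟩
  rw [hnat] at h1
  exact (hc.ker n z).1 (h _ (hc.mem n z) h1)

theorem surG_of_col (hf : Filt d gr F d' gr' F' f) (hc : ColIso d gr F P G lead)
    (hc' : ColIso d' gr' F' P G' lead')
    (hnat : ∀ n (z : ZZ d gr F P n), lead' n ⟨f z, hf.map_ZZ z.2⟩ = ψ (lead n z))
    {n : ℕ} (h : ∀ y ∈ G' n, ∃ x ∈ G n, ψ x = y) : SurG d gr F d' gr' F' f P n := by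
  intro z' hz' hz'g hdz'
  let z : ZZ d' gr' F' P n := ⟨z', ⟨hz', hz'g⟩, hdz'⟩
  obtain ⟨x, hx, hxy⟩ := h _ (hc'.mem n z)
  obtain ⟨u, rfl⟩ := hc.surj n x hx
  have h1 : lead' n (z - ⟨f u, hf.map_ZZ u.2⟩) = 0 := by
    rw [map_sub, hnat, hxy, sub_self]
  obtain ⟨w', hw', hw'g, h2⟩ := (hc'.ker n _).1 h1
  obtain ⟨⟨hu1, hu2⟩, hu3⟩ := u.2
  exact ⟨u, hu1, hu2, hu3, w', hw', hw'g, h2⟩

/-- from `InjG` back to `ψ` -/
theorem inj_of_injG (hf : Filt d gr F d' gr' F' f) (hc : ColIso d gr F P G lead)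
    (hc' : ColIso d' gr' F' P G' lead')
    (hnat : ∀ n (z : ZZ d gr F P n), lead' n ⟨f z, hf.map_ZZ z.2⟩ = ψ (lead n z))
    {n : ℕ} (h : InjG d gr F d' gr' F' f P n) : ∀ x ∈ G n, ψ x = 0 → x = 0 := by
  intro x hx hx0
  obtain ⟨u, rfl⟩ := hc.surj n x hx
  rw [← hnat] at hx0
  obtain ⟨w', hw', hw'g, h2⟩ := (hc'.ker n _).1 hx0
  obtain ⟨⟨hu1, hu2⟩, hu3⟩ := u.2
  exact (hc.ker n u).2 (h u hu1 hu2 hu3 w' hw' hw'g h2)

theorem sur_of_surG (hf : Filt d gr F d' gr' F' f) (hc : ColIso d gr F P G lead)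
    (hc' : ColIso d' gr' F' P G' lead')
    (hnat : ∀ n (z : ZZ d gr F P n), lead' n ⟨f z, hf.map_ZZ z.2⟩ = ψ (lead n z))
    {n : ℕ} (h : SurG d gr F d' gr' F' f P n) : ∀ y ∈ G' n, ∃ x ∈ G n, ψ x = y := by
  intro y hy
  obtain ⟨z', rfl⟩ := hc'.surj n y hy
  obtain ⟨⟨hz1, hz2⟩, hz3⟩ := z'.2
  obtain ⟨u, hu, hug, hdu, w', hw', hw'g, h2⟩ := h z' hz1 hz2 hz3
  let z : ZZ d gr F P n := ⟨u, ⟨hu, hug⟩, hdu⟩
  refine ⟨lead n z, hc.mem n z, ?_⟩
  rw [← hnat]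
  have h1 : lead' n (z' - ⟨f z, hf.map_ZZ z.2⟩) = 0 := (hc'.ker n _).2 ⟨w', hw', hw'g, h2⟩
  rw [map_sub, sub_eq_zero] at h1
  exact h1.symm

end Column

section Main

variable {k V V' A A' : Type*} [Field k] [AddCommGroup V] [Module k V] [AddCommGroup V']
  [Module k V'] [AddCommGroup A] [Module k A] [AddCommGroup A'] [Module k A']
  {d : V →ₗ[k] V} {gr F : ℕ → Submodule k V} {d' : V' →ₗ[k] V'} {gr' F' : ℕ → Submodule k V'}
  {f : V →ₗ[k] V'} {g : ℕ → Submodule k A} {g' : ℕ → Submodule k A'} {φ : A →ₗ[k] A'}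
  {E E' : ℕ → Type*} [∀ P, AddCommGroup (E P)] [∀ P, Module k (E P)] [∀ P, AddCommGroup (E' P)]
  [∀ P, Module k (E' P)] {br : ∀ P, (Fin (P + 1) → A) → E P} {br' : ∀ P, (Fin (P + 1) → A') → E' P}
  {lead : ∀ P n, ZZ d gr F P n →ₗ[k] E P} {lead' : ∀ P n, ZZ d' gr' F' P n →ₗ[k] E' P}
  {ψ : ∀ P, E P →ₗ[k] E' P}

theorem Eg_one {A E : Type*} [AddCommGroup A] [Module k A] [AddCommGroup E] [Module k E]
    {g : ℕ → Submodule k A} {br : (Fin (0 + 1) → A) → E} (L : A →ₗ[k] E)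
    (hL : ∀ a, br a = L (a 0)) (n : ℕ) (x : E) :
    x ∈ Eg g br n ↔ ∃ i, 1 ≤ i ∧ i + 1 = n ∧ x ∈ (g i).map L ∨ x = 0 := by
  constructor
  · intro hx
    refine Submodule.span_induction ?_ ?_ ?_ ?_ hx
    · rintro _ ⟨a, e, ha, he, hs, rfl⟩
      refine ⟨e 0, Or.inl ⟨he 0, ?_, a 0, ha 0, (hL a).symm⟩⟩
      simpa using hs
    · exact ⟨0, Or.inr rfl⟩
    · rintro u v _ _ ⟨i, hu⟩ ⟨j, hv⟩
      rcases hu with ⟨hi, hin, hu⟩ | rfl
      · rcases hv with ⟨hj, hjn, hv⟩ | rfl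
        · obtain rfl : i = j := by omega
          exact ⟨i, Or.inl ⟨hi, hin, Submodule.add_mem _ hu hv⟩⟩
        · exact ⟨i, Or.inl ⟨hi, hin, by simpa using hu⟩⟩
      · rw [zero_add]; exact ⟨j, hv⟩
    · rintro c u _ ⟨i, hu⟩
      rcases hu with ⟨hi, hin, hu⟩ | rfl
      · exact ⟨i, Or.inl ⟨hi, hin, Submodule.smul_mem _ _ hu⟩⟩
      · exact ⟨0, Or.inr (smul_zero _)⟩
  · rintro ⟨i, ⟨hi, hin, a, ha, rfl⟩ | rfl⟩
    · refine Submodule.subset_span ⟨fun _ => a, fun _ => i, fun _ => ha, fun _ => hi, ?_, ?_⟩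
      · simpa using hin
      · rw [hL]
    · exact Submodule.zero_mem _

/-- **Comparison theorem (R4)**: iso on total homology in degrees `≤ N`, epi in degree `N + 1`,
implies `φ : A → A'` (map of homologies of the loop spaces) injective in degrees `1 ≤ i < N` and
surjective in degrees `1 ≤ i ≤ N`. -/
theorem comparison (hf : Filt d gr F d' gr' F' f) {N : ℕ}
    (hTi : ∀ i ≤ N, InjR d gr ⊤ ⊥ d' gr' ⊤ ⊥ f i) (hTs : ∀ i ≤ N + 1, SurR d gr ⊤ ⊥ d' gr' ⊤ ⊥ f i)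
    (h0i : ∀ i ≤ N, InjR d gr (F 0) ⊥ d' gr' (F' 0) ⊥ f i)
    (h0s : ∀ i ≤ N, SurR d gr (F 0) ⊥ d' gr' (F' 0) ⊥ f i)
    (hint : DirectSum.IsInternal g') (hφ : ∀ i x, x ∈ g i → φ x ∈ g' i)
    (hinj0 : ∀ x ∈ g 0, φ x = 0 → x = 0) (hsur0 : ∀ y ∈ g' 0, ∃ x ∈ g 0, φ x = y)
    (hc : ∀ P, ColIso d gr F P (Eg g (br P)) (lead P))
    (hc' : ∀ P, ColIso d' gr' F' P (Eg g' (br' P)) (lead' P))
    (hnat : ∀ P n (z : ZZ d gr F P n), lead' P n ⟨f z, hf.map_ZZ z.2⟩ = ψ P (lead P n z))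
    (hfun : ∀ P, 1 ≤ P → Fun g g' φ (br P) (br' P))
    (hψ : ∀ P a, ψ P (br P a) = br' P (fun i => φ (a i)))
    {L : A →ₗ[k] E 0} (hL : ∀ a, br 0 a = L (a 0)) (hLi : ∀ i, 1 ≤ i → ∀ x ∈ g i, L x = 0 → x = 0)
    {L' : A' →ₗ[k] E' 0} (hL' : ∀ a, br' 0 a = L' (a 0))
    (hLi' : ∀ i, 1 ≤ i → ∀ x ∈ g' i, L' x = 0 → x = 0) :
    (∀ i, i < N → ∀ x ∈ g i, φ x = 0 → x = 0) ∧ (∀ i ≤ N, ∀ y ∈ g' i, ∃ x ∈ g i, φ x = y) := by
  have hψL : ∀ x, ψ 0 (L x) = L' (φ x) := by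
    intro x
    have := hψ 0 (fun _ => x)
    rw [hL, hL'] at this
    exact this
  -- consequences of `Conn`
  have hA : ∀ m, Conn d gr F d' gr' F' f m →
      (∀ i, (i = 0 ∨ i < m) → ∀ x ∈ g i, φ x = 0 → x = 0) ∧
      (∀ i ≤ m, ∀ y ∈ g' i, ∃ x ∈ g i, φ x = y) := by
    intro m hm
    constructor
    · intro i hi x hx hx0
      rcases Nat.eq_zero_or_pos i with rfl | hi0
      · exact hinj0 x hx hx0
      · have h1 := inj_of_injG hf (hc 0) (hc' 0) (hnat 0) (hm.1 (i + 1) (by omega)) (L x)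
          ((Eg_one L hL _ _).2 ⟨i, Or.inl ⟨hi0, rfl, x, hx, rfl⟩⟩) (by rw [hψL, hx0, map_zero])
        exact hLi i hi0 x hx h1
    · intro i hi y hy
      rcases Nat.eq_zero_or_pos i with rfl | hi0
      · exact hsur0 y hy
      · obtain ⟨x, hx, hxy⟩ := sur_of_surG hf (hc 0) (hc' 0) (hnat 0) (hm.2 (i + 1) (by omega)) (L' y)
          ((Eg_one L' hL' _ _).2 ⟨i, Or.inl ⟨hi0, rfl, y, hy, rfl⟩⟩)
        rcases (Eg_one L hL _ _).1 hx with ⟨j, ⟨hj, hji, a, ha, rfl⟩ | rfl⟩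
        · obtain rfl : j = i := by omega
          refine ⟨a, ha, ?_⟩
          rw [hψL] at hxy
          exact sub_eq_zero.1 (hLi' j hj _ (Submodule.sub_mem _ (hφ _ _ ha) hy)
            (by rw [map_sub, hxy, sub_self]))
        · rw [map_zero] at hxy
          have hy0 := hLi' i hi0 y hy hxy.symm
          subst hy0
          exact ⟨0, Submodule.zero_mem _, map_zero _⟩
  have hsmall : ∀ n ≤ 1, Eg g (br 0) n = ⊥ ∧ Eg g' (br' 0) n = ⊥ := by
    intro n hn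
    constructor
    · rw [eq_bot_iff]
      intro x hx
      obtain ⟨i, ⟨h1, h2, -⟩ | rfl⟩ := (Eg_one L hL _ _).1 hx
      · omega
      · exact Submodule.zero_mem _
    · rw [eq_bot_iff]
      intro x hx
      obtain ⟨i, ⟨h1, h2, -⟩ | rfl⟩ := (Eg_one L' hL' _ _).1 hx
      · omega
      · exact Submodule.zero_mem _
  have hbase : Conn d gr F d' gr' F' f 0 := by
    constructor
    · intro i hi
      refine injG_of_col hf (hc 0) (hc' 0) (hnat 0) ?_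
      intro x hx _
      rw [(hsmall i (by omega)).1] at hx
      simpa using hx
    · intro i hi
      refine surG_of_col hf (hc 0) (hc' 0) (hnat 0) ?_
      intro y hy
      rw [(hsmall i (by omega)).2] at hy
      refine ⟨0, Submodule.zero_mem _, ?_⟩
      rw [map_zero]; exact (by simpa using hy : y = 0).symm
  have hconn := conn_of_total hf hTi hTs h0i h0s hbase (by
    intro m hm hcm p
    obtain ⟨h1, h2⟩ := hA m hcm
    constructor
    · intro i hi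
      exact injG_of_col hf (hc (p + 1)) (hc' (p + 1)) (hnat (p + 1))
        (tensor_inj hint hφ h1 h2 (hfun (p + 1) (by omega)) (hψ (p + 1)) (by omega))
    · intro i hi
      exact surG_of_col hf (hc (p + 1)) (hc' (p + 1)) (hnat (p + 1))
        (tensor_sur hint hφ h1 h2 (hψ (p + 1)) (by omega)))
  obtain ⟨h1, h2⟩ := hA N hconn
  exact ⟨fun i hi => h1 i (Or.inr hi), h2⟩

/-- (R1): columns `p ≥ 2` vanish in total degrees `n < 2 c + 2` when `g i = 0` for `0 < i < c`. -/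
theorem col_van (hc : ∀ P, ColIso d gr F P (Eg g (br P)) (lead P)) {c : ℕ}
    (hg : ∀ i, 0 < i → i < c → g i = ⊥) (hbr0 : ∀ P a, (∃ i, a i = 0) → br P a = 0)
    (P n : ℕ) (hn : n < 2 * c + 2) : Van d gr (F (P + 2)) (F (P + 1)) n := by
  intro z hz hzn hdz
  have hc1 := hc (P + 1)
  have hbot : Eg g (br (P + 1)) n = ⊥ := by
    rw [eq_bot_iff]
    refine Submodule.span_le.2 ?_
    rintro _ ⟨a, e, ha, he, hs, rfl⟩
    simp only [Submodule.bot_coe, Set.mem_singleton_iff]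
    apply hbr0
    by_contra hne
    push Not at hne
    have hec : ∀ i, c ≤ e i := by
      intro i
      by_contra hlt
      have := ha i
      rw [hg (e i) (he i) (by omega)] at this
      exact hne i (by simpa using this)
    have h3 : ∑ _i : Fin (P + 1 + 1), (c + 1) ≤ ∑ i, (e i + 1) :=
      Finset.sum_le_sum (fun j _ => by have := hec j; omega)
    rw [Finset.sum_const, Finset.card_univ, Fintype.card_fin, smul_eq_mul] at h3
    nlinarith
  have h1 : lead (P + 1) n ⟨z, ⟨hz, hzn⟩, hdz⟩ = 0 := by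
    have := hc1.mem n ⟨z, ⟨hz, hzn⟩, hdz⟩
    rw [hbot] at this
    simpa using this
  exact (hc1.ker n _).1 h1

end Main

end Crest.Agent.R204.Cmp747
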