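import Crest.Agent.R204.Defs

/-!
# Row 204, leaf B-CMP, abstract part: range arguments for filtered complexes (seat 747)

Everything is elementwise: `d : V →ₗ V` a differential, `gr : ℕ → Submodule` the total degree,
`F : ℕ → Submodule` an exhausting filtration.  For submodules `B ≤ A`:

* `Van d gr A B j` : `H_j (A / B) = 0`;
* `InjR … i`, `SurR … i` : the map `H_i (A/B) → H_i (A'/B')` is injective / surjective.

Main results: `exists_F1`, `van_F1`, `van_gr1` (filtration arguments), `conn_of_total`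
(comparison theorem (R4) of section 02b, everything except the computation of `E¹`).
-/

set_option autoImplicit false

namespace Crest.Agent.R204.Cmp747

section Van

variable {R V : Type*} [CommRing R] [AddCommGroup V] [Module R V]

/-- `H_j (A / B) = 0` (elementwise) -/
def Van (d : V →ₗ[R] V) (gr : ℕ → Submodule R V) (A B : Submodule R V) (j : ℕ) : Prop :=
  ∀ z ∈ A, z ∈ gr j → d z ∈ B → ∃ w ∈ A, w ∈ gr (j + 1) ∧ z - d w ∈ B

variable {d : V →ₗ[R] V} {gr : ℕ → Submodule R V} {F : ℕ → Submodule R V}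

/-- descend from filtration `P` to filtration `1`. -/
theorem exists_F1_aux (hF : Monotone F) (hd : ∀ j x, x ∈ gr (j + 1) → d x ∈ gr j)
    (hdd : ∀ x, d (d x) = 0)
    {j : ℕ} (hQ : ∀ p, Van d gr (F (p + 2)) (F (p + 1)) j) :
    ∀ P z, z ∈ F (P + 1) → z ∈ gr j → d z ∈ F 1 → ∃ w ∈ F (P + 1), w ∈ gr (j + 1) ∧ z - d w ∈ F 1 := by
  intro P
  induction P with
  | zero => intro z hz _ _; exact ⟨0, Submodule.zero_mem _, Submodule.zero_mem _, by simpa using hz⟩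
  | succ P ih =>
    intro z hz hzj hdz
    obtain ⟨w, hw, hwj, hzw⟩ := hQ P z hz hzj (hF (by omega) hdz)
    obtain ⟨w', hw', hwj', hzw'⟩ := ih (z - d w) hzw (Submodule.sub_mem _ hzj (hd j w hwj))
      (by rw [map_sub, hdd, sub_zero]; exact hdz)
    refine ⟨w + w', Submodule.add_mem _ hw (hF (by omega) hw'), Submodule.add_mem _ hwj hwj', ?_⟩
    rw [map_add, ← sub_sub]; exact hzw'

/-- If `H_j (F_p / F_{p-1}) = 0` for all `p ≥ 2`, then `H_j (T / F_1) = 0`. -/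
theorem exists_F1 (hF : Monotone F) (hex : ∀ x, ∃ p, x ∈ F p)
    (hd : ∀ j x, x ∈ gr (j + 1) → d x ∈ gr j) (hdd : ∀ x, d (d x) = 0)
    {j : ℕ} (hQ : ∀ p, Van d gr (F (p + 2)) (F (p + 1)) j)
    (z : V) (hzj : z ∈ gr j) (hdz : d z ∈ F 1) : ∃ w ∈ gr (j + 1), z - d w ∈ F 1 := by
  obtain ⟨P, hP⟩ := hex z
  obtain ⟨w, _, hw, h⟩ := exists_F1_aux hF hd hdd hQ P z (hF (by omega) hP) hzj hdz
  exact ⟨w, hw, h⟩

/-- `H_j (T) = 0` and `H_{j+1} (F_p / F_{p-1}) = 0` for `p ≥ 2` imply `H_j (F_1) = 0`. -/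
theorem van_F1 (hF : Monotone F) (hex : ∀ x, ∃ p, x ∈ F p)
    (hd : ∀ j x, x ∈ gr (j + 1) → d x ∈ gr j) (hdd : ∀ x, d (d x) = 0)
    {j : ℕ} (hQ : ∀ p, Van d gr (F (p + 2)) (F (p + 1)) (j + 1)) (hT : Van d gr ⊤ ⊥ j) :
    Van d gr (F 1) ⊥ j := by
  intro z hz hzj hdz
  obtain ⟨w, -, hwj, hw⟩ := hT z trivial hzj hdz
  rw [Submodule.mem_bot, sub_eq_zero] at hw
  obtain ⟨v, hv, hwv⟩ := exists_F1 hF hex hd hdd hQ w hwj (hw ▸ hz)
  refine ⟨w - d v, hwv, Submodule.sub_mem _ hwj (hd _ _ hv), ?_⟩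
  rw [map_sub, hdd, sub_zero, hw, sub_self]; exact Submodule.zero_mem _

/-- `H_j (F_1) = 0` and `H_{j-1} (F_0) = 0` imply `H_j (F_1 / F_0) = 0`. -/
theorem van_gr1 (hF : Monotone F) (hd : ∀ j x, x ∈ gr (j + 1) → d x ∈ gr j)
    (hd0 : ∀ x ∈ gr 0, d x = 0) (hdd : ∀ x, d (d x) = 0)
    {j : ℕ} (h1 : Van d gr (F 1) ⊥ j) (h0 : ∀ i, j = i + 1 → Van d gr (F 0) ⊥ i) :
    Van d gr (F 1) (F 0) j := by
  intro z hz hzj hdz
  rcases j with _ | i
  · obtain ⟨w, hw, hwj, h⟩ := h1 z hz hzj (by rw [hd0 z hzj]; exact Submodule.zero_mem _)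
    exact ⟨w, hw, hwj, (bot_le : (⊥ : Submodule R V) ≤ F 0) h⟩
  · obtain ⟨u, hu, huj, h⟩ := h0 i rfl (d z) hdz (hd i z hzj)
      (by rw [hdd]; exact Submodule.zero_mem _)
    rw [Submodule.mem_bot, sub_eq_zero] at h
    obtain ⟨w, hw, hwj, h'⟩ := h1 (z - u) (Submodule.sub_mem _ hz (hF (by omega) hu))
      (Submodule.sub_mem _ hzj huj) (by rw [map_sub, h, sub_self]; exact Submodule.zero_mem _)
    refine ⟨w, hw, hwj, ?_⟩
    rw [Submodule.mem_bot, sub_eq_zero] at h'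
    have : z - d w = u := by rw [← h']; abel
    rw [this]; exact hu

end Van

section Rel

variable {R V V' : Type*} [CommRing R] [AddCommGroup V] [Module R V] [AddCommGroup V'] [Module R V']

/-- `H_i (A/B) → H_i (A'/B')` is injective (elementwise) -/
def InjR (d : V →ₗ[R] V) (gr : ℕ → Submodule R V) (A B : Submodule R V)
    (d' : V' →ₗ[R] V') (gr' : ℕ → Submodule R V') (A' B' : Submodule R V') (f : V →ₗ[R] V')
    (i : ℕ) : Prop :=
  ∀ u ∈ A, u ∈ gr i → d u ∈ B → ∀ w' ∈ A', w' ∈ gr' (i + 1) → f u - d' w' ∈ B' →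
    ∃ v ∈ A, v ∈ gr (i + 1) ∧ u - d v ∈ B

/-- `H_i (A/B) → H_i (A'/B')` is surjective (elementwise) -/
def SurR (d : V →ₗ[R] V) (gr : ℕ → Submodule R V) (A B : Submodule R V)
    (d' : V' →ₗ[R] V') (gr' : ℕ → Submodule R V') (A' B' : Submodule R V') (f : V →ₗ[R] V')
    (i : ℕ) : Prop :=
  ∀ z' ∈ A', z' ∈ gr' i → d' z' ∈ B' → ∃ u ∈ A, u ∈ gr i ∧ d u ∈ B ∧
    ∃ w' ∈ A', w' ∈ gr' (i + 1) ∧ z' - f u - d' w' ∈ B'

/-- differential of the mapping cone -/
def dC (d : V →ₗ[R] V) (d' : V' →ₗ[R] V') (f : V →ₗ[R] V') : (V' × V) →ₗ[R] (V' × V) :=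
  LinearMap.prod (d' ∘ₗ LinearMap.fst R V' V + f ∘ₗ LinearMap.snd R V' V)
    (-(d ∘ₗ LinearMap.snd R V' V))

@[simp] theorem dC_apply (d : V →ₗ[R] V) (d' : V' →ₗ[R] V') (f : V →ₗ[R] V') (z : V' × V) :
    dC d d' f z = (d' z.1 + f z.2, -(d z.2)) := rfl

/-- grading of the mapping cone -/
def grC (gr : ℕ → Submodule R V) (gr' : ℕ → Submodule R V') : ℕ → Submodule R (V' × V)
  | 0 => (gr' 0).prod ⊥
  | j + 1 => (gr' (j + 1)).prod (gr j)

variable {d : V →ₗ[R] V} {gr : ℕ → Submodule R V} {A B : Submodule R V}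
  {d' : V' →ₗ[R] V'} {gr' : ℕ → Submodule R V'} {A' B' : Submodule R V'} {f : V →ₗ[R] V'}

theorem dC_dC (hdd : ∀ x, d (d x) = 0) (hdd' : ∀ x, d' (d' x) = 0) (hf : ∀ x, f (d x) = d' (f x))
    (z : V' × V) : dC d d' f (dC d d' f z) = 0 := by
  simp [hdd, hdd', hf]

theorem dC_gr (hd : ∀ j x, x ∈ gr (j + 1) → d x ∈ gr j) (hd0 : ∀ x ∈ gr 0, d x = 0)
    (hd' : ∀ j x, x ∈ gr' (j + 1) → d' x ∈ gr' j) (hf : ∀ j x, x ∈ gr j → f x ∈ gr' j)
    (j : ℕ) (z : V' × V) (hz : z ∈ grC gr gr' (j + 1)) : dC d d' f z ∈ grC gr gr' j := by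
  obtain ⟨h1, h2⟩ := hz
  rcases j with _ | j
  · refine ⟨Submodule.add_mem _ (hd' _ _ h1) (hf _ _ h2), ?_⟩
    simp [hd0 _ h2]
  · exact ⟨Submodule.add_mem _ (hd' _ _ h1) (hf _ _ h2), Submodule.neg_mem _ (hd _ _ h2)⟩

theorem dC_gr0 (hd0' : ∀ x ∈ gr' 0, d' x = 0) (z : V' × V) (hz : z ∈ grC gr gr' 0) :
    dC d d' f z = 0 := by
  obtain ⟨h1, h2⟩ := hz
  have h2' : z.2 = 0 := by simpa using h2
  simp [hd0' _ h1, h2']

/-- relative vanishing from injectivity and surjectivity -/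
theorem van_of_injR_surR (hfB : ∀ x ∈ B, f x ∈ B') (hfA : ∀ x ∈ A, f x ∈ A')
    (hfd : ∀ x, f (d x) = d' (f x)) (hfg : ∀ j x, x ∈ gr j → f x ∈ gr' j)
    {j : ℕ} (hi : ∀ i, j = i + 1 → InjR d gr A B d' gr' A' B' f i)
    (hs : SurR d gr A B d' gr' A' B' f j) :
    Van (dC d d' f) (grC gr gr') (A'.prod A) (B'.prod B) j := by
  rintro ⟨z', u⟩ ⟨hz', hu⟩ hg hD
  rcases j with _ | i
  · obtain ⟨hg1, hg2⟩ := hg
    have hu0 : u = 0 := by simpa using hg2
    subst hu0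
    obtain ⟨hD1, -⟩ := hD
    simp only [dC_apply, map_zero, add_zero] at hD1
    obtain ⟨v, hv, hvg, hdv, w', hw', hw'g, h⟩ := hs z' hz' hg1 hD1
    refine ⟨(w', v), ⟨hw', hv⟩, ⟨hw'g, hvg⟩, ?_, ?_⟩
    · simp only [dC_apply, Prod.fst_sub]
      have : z' - (d' w' + f v) = z' - f v - d' w' := by abel
      rw [this]; exact h
    · simp only [dC_apply, Prod.snd_sub, zero_sub, neg_neg]; exact hdv
  · obtain ⟨hg1, hg2⟩ := hg
    obtain ⟨hD1, hD2⟩ := hD
    simp only [dC_apply] at hD1 hD2 hg1 hg2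
    replace hD2 : d u ∈ B := by simpa using hD2
    obtain ⟨v0, hv0, hv0g, huv⟩ := hi i rfl u hu hg2 hD2 (-z') (Submodule.neg_mem _ hz')
      (Submodule.neg_mem _ hg1) (by rw [map_neg, sub_neg_eq_add, add_comm]; exact hD1)
    obtain ⟨u1, hu1, hu1g, hdu1, w', hw', hw'g, h⟩ := hs (z' + f v0)
      (Submodule.add_mem _ hz' (hfA _ hv0)) (Submodule.add_mem _ hg1 (hfg _ _ hv0g)) (by
        have e : d' (z' + f v0) = (d' z' + f u) - f (u - d v0) := by
          rw [map_add, map_sub, hfd]; abel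
        rw [e]; exact Submodule.sub_mem _ hD1 (hfB _ huv))
    refine ⟨(w', u1 - v0), ⟨hw', Submodule.sub_mem _ hu1 hv0⟩,
      ⟨hw'g, Submodule.sub_mem _ hu1g hv0g⟩, ?_, ?_⟩
    · simp only [dC_apply, Prod.fst_sub]
      have : z' - (d' w' + f (u1 - v0)) = z' + f v0 - f u1 - d' w' := by rw [map_sub]; abel
      rw [this]; exact h
    · simp only [dC_apply, Prod.snd_sub, sub_neg_eq_add]
      have : u + d (u1 - v0) = d u1 + (u - d v0) := by rw [map_sub]; abel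
      rw [this]; exact Submodule.add_mem _ hdu1 huv

theorem injR_of_van {i : ℕ}
    (h : Van (dC d d' f) (grC gr gr') (A'.prod A) (B'.prod B) (i + 1)) :
    InjR d gr A B d' gr' A' B' f i := by
  intro u hu hug hdu w' hw' hw'g hfu
  obtain ⟨⟨w, v⟩, ⟨-, hv⟩, ⟨-, hvg⟩, -, h2⟩ := h (-w', u) ⟨Submodule.neg_mem _ hw', hu⟩
    ⟨Submodule.neg_mem _ hw'g, hug⟩ (by
      refine ⟨?_, Submodule.neg_mem _ hdu⟩
      simp only [dC_apply, map_neg]
      rw [neg_add_eq_sub]; exact hfu)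
  simp only [dC_apply, Prod.snd_sub, sub_neg_eq_add] at h2
  refine ⟨-v, Submodule.neg_mem _ hv, Submodule.neg_mem _ hvg, ?_⟩
  rw [map_neg, sub_neg_eq_add]; exact h2

theorem surR_of_van {j : ℕ}
    (h : Van (dC d d' f) (grC gr gr') (A'.prod A) (B'.prod B) j) :
    SurR d gr A B d' gr' A' B' f j := by
  intro z' hz' hz'g hdz'
  obtain ⟨⟨w', v⟩, ⟨hw', hv⟩, ⟨hw'g, hvg⟩, h1, h2⟩ := h (z', 0) ⟨hz', Submodule.zero_mem _⟩ (by
      rcases j with _ | j
      · exact ⟨hz'g, Submodule.zero_mem _⟩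
      · exact ⟨hz'g, Submodule.zero_mem _⟩) (by
      refine ⟨?_, ?_⟩
      · simpa using hdz'
      · simp)
  simp only [dC_apply, Prod.snd_sub, zero_sub, neg_neg, Prod.fst_sub] at h1 h2
  refine ⟨v, hv, ?_, h2, w', hw', ?_, ?_⟩
  · rcases j with _ | j
    · exact hvg
    · exact hvg
  · rcases j with _ | j
    · exact hw'g
    · exact hw'g
  · have : z' - f v - d' w' = z' - (d' w' + f v) := by abel
    rw [this]; exact h1

end Rel

section Comparison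

variable {R V V' : Type*} [CommRing R] [AddCommGroup V] [Module R V] [AddCommGroup V'] [Module R V']
  (d : V →ₗ[R] V) (gr F : ℕ → Submodule R V) (d' : V' →ₗ[R] V') (gr' F' : ℕ → Submodule R V')
  (f : V →ₗ[R] V')

/-- `H_i (F_p / F_{p-1}) → H_i (F'_p / F'_{p-1})` injective, `p ≥ 1` is written `p + 1`. -/
abbrev InjG (p i : ℕ) : Prop := InjR d gr (F (p + 1)) (F p) d' gr' (F' (p + 1)) (F' p) f i
/-- `H_i (F_p / F_{p-1}) → H_i (F'_p / F'_{p-1})` surjective, `p ≥ 1` is written `p + 1`. -/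
abbrev SurG (p i : ℕ) : Prop := SurR d gr (F (p + 1)) (F p) d' gr' (F' (p + 1)) (F' p) f i

/-- the map of `E¹_1`-columns is iso in total degrees `≤ m` and epi in total degree `m + 1`. -/
def Conn (m : ℕ) : Prop :=
  (∀ i ≤ m, InjG d gr F d' gr' F' f 0 i) ∧ ∀ i ≤ m + 1, SurG d gr F d' gr' F' f 0 i

/-- a filtered map of filtered graded complexes -/
structure Filt : Prop where
  monoF : Monotone F
  monoF' : Monotone F'
  exF : ∀ x, ∃ p, x ∈ F p
  exF' : ∀ x, ∃ p, x ∈ F' p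
  d_gr : ∀ j x, x ∈ gr (j + 1) → d x ∈ gr j
  d_gr0 : ∀ x ∈ gr 0, d x = 0
  dd : ∀ x, d (d x) = 0
  d'_gr : ∀ j x, x ∈ gr' (j + 1) → d' x ∈ gr' j
  d'_gr0 : ∀ x ∈ gr' 0, d' x = 0
  dd' : ∀ x, d' (d' x) = 0
  fd : ∀ x, f (d x) = d' (f x)
  f_gr : ∀ j x, x ∈ gr j → f x ∈ gr' j
  f_F : ∀ p x, x ∈ F p → f x ∈ F' p

variable {d gr F d' gr' F' f}

/-- **Comparison theorem (R4)**, abstract form.  If `f` is iso on `H_j (T)` for `j ≤ N`, epi for
`j = N + 1`, iso on `H (F_0)`, and connectivity `m < N` of the first column propagates to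
connectivity `m + 2` (iso `≤ m + 2`, epi `m + 3`) of all columns `p ≥ 2`, then the first column is
iso in total degrees `≤ N` and epi in total degree `N + 1`. -/
theorem conn_of_total (hf : Filt d gr F d' gr' F' f) {N : ℕ}
    (hTi : ∀ i ≤ N, InjR d gr ⊤ ⊥ d' gr' ⊤ ⊥ f i) (hTs : ∀ i ≤ N + 1, SurR d gr ⊤ ⊥ d' gr' ⊤ ⊥ f i)
    (h0i : ∀ i ≤ N, InjR d gr (F 0) ⊥ d' gr' (F' 0) ⊥ f i)
    (h0s : ∀ i ≤ N, SurR d gr (F 0) ⊥ d' gr' (F' 0) ⊥ f i)
    (hbase : Conn d gr F d' gr' F' f 0)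
    (hstep : ∀ m < N, Conn d gr F d' gr' F' f m → ∀ p : ℕ,
      (∀ i ≤ m + 2, InjG d gr F d' gr' F' f (p + 1) i) ∧
      (∀ i ≤ m + 3, SurG d gr F d' gr' F' f (p + 1) i)) :
    Conn d gr F d' gr' F' f N := by
  -- the filtered cone
  let D := dC d d' f
  let G := grC gr gr'
  let FC : ℕ → Submodule R (V' × V) := fun p => (F' p).prod (F p)
  have hmono : Monotone FC := fun p q h => Submodule.prod_mono (hf.monoF' h) (hf.monoF h)
  have hex : ∀ x, ∃ p, x ∈ FC p := by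
    rintro ⟨x', x⟩
    obtain ⟨p, hp⟩ := hf.exF x
    obtain ⟨q, hq⟩ := hf.exF' x'
    exact ⟨max p q, hf.monoF' (le_max_right _ _) hq, hf.monoF (le_max_left _ _) hp⟩
  have hDG := dC_gr (d := d) (d' := d') (f := f) (gr := gr) (gr' := gr')
    hf.d_gr hf.d_gr0 hf.d'_gr hf.f_gr
  have hDG0 := dC_gr0 (d := d) (d' := d') (f := f) (gr := gr) (gr' := gr') hf.d'_gr0
  have hDD := dC_dC (d := d) (d' := d') (f := f) hf.dd hf.dd' hf.fd
  have key : ∀ m ≤ N, Conn d gr F d' gr' F' f m := by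
    intro m
    induction m with
    | zero => intro _; exact hbase
    | succ m ih =>
      intro hm
      have hc := ih (by omega)
      have hst := hstep m (by omega) hc
      -- columns p ≥ 2 of the cone
      have hQ : ∀ j ≤ m + 3, ∀ p, Van D G (FC (p + 2)) (FC (p + 1)) j := by
        intro j hj p
        refine van_of_injR_surR (hf.f_F _) (hf.f_F _) hf.fd hf.f_gr ?_ ?_
        · intro i hi; exact (hst p).1 i (by omega)
        · exact (hst p).2 j hj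
      have h1 : ∀ j ≤ m + 2, Van D G (FC 1) ⊥ j := by
        intro j hj
        refine van_F1 hmono hex hDG hDD (hQ (j + 1) (by omega)) ?_
        have := van_of_injR_surR (d := d) (gr := gr) (A := ⊤) (B := ⊥) (d' := d') (gr' := gr')
          (A' := ⊤) (B' := ⊥) (f := f) (j := j) (by simp) (by simp) hf.fd hf.f_gr
          (fun i hi => hTi i (by omega)) (hTs j (by omega))
        have e1 : ((⊤ : Submodule R V').prod (⊤ : Submodule R V)) = ⊤ := Submodule.prod_top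
        have e2 : ((⊥ : Submodule R V').prod (⊥ : Submodule R V)) = ⊥ := Submodule.prod_bot
        rw [e1, e2] at this
        exact this
      have h0 : ∀ j ≤ N, Van D G (FC 0) ⊥ j := by
        intro j hj
        have := van_of_injR_surR (d := d) (gr := gr) (A := F 0) (B := ⊥) (d' := d') (gr' := gr')
          (A' := F' 0) (B' := ⊥) (f := f) (j := j) (by simp) (hf.f_F 0) hf.fd hf.f_gr
          (fun i hi => h0i i (by omega)) (h0s j (by omega))
        have e2 : ((⊥ : Submodule R V').prod (⊥ : Submodule R V)) = ⊥ := Submodule.prod_bot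
        rw [e2] at this
        exact this
      have hg1 : ∀ j ≤ m + 2, Van D G (FC 1) (FC 0) j := by
        intro j hj
        exact van_gr1 hmono hDG hDG0 hDD (h1 j hj) (fun i hi => h0 i (by omega))
      exact ⟨fun i hi => injR_of_van (hg1 (i + 1) (by omega)),
        fun i hi => surR_of_van (hg1 i (by omega))⟩
  exact key N le_rfl

end Comparison

section R1

variable {R V : Type*} [CommRing R] [AddCommGroup V] [Module R V]
  {d : V →ₗ[R] V} {gr : ℕ → Submodule R V} {F : ℕ → Submodule R V}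

/-- (R1), surjectivity: every total cycle of degree `j` is homologous to a cycle in `F_1`. -/
theorem F1_surj (hF : Monotone F) (hex : ∀ x, ∃ p, x ∈ F p)
    (hd : ∀ j x, x ∈ gr (j + 1) → d x ∈ gr j) (hdd : ∀ x, d (d x) = 0)
    {j : ℕ} (hQ : ∀ p, Van d gr (F (p + 2)) (F (p + 1)) j)
    (z : V) (hzj : z ∈ gr j) (hdz : d z = 0) :
    ∃ u ∈ F 1, u ∈ gr j ∧ d u = 0 ∧ ∃ w ∈ gr (j + 1), z - u = d w := by
  obtain ⟨w, hw, h⟩ := exists_F1 hF hex hd hdd hQ z hzj (by rw [hdz]; exact Submodule.zero_mem _)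
  exact ⟨z - d w, h, Submodule.sub_mem _ hzj (hd _ _ hw), by rw [map_sub, hdd, hdz, sub_zero],
    w, hw, by abel⟩

/-- (R1), injectivity: a cycle in `F_1` of degree `j` bounding in `T` bounds in `F_1`. -/
theorem F1_inj (hF : Monotone F) (hex : ∀ x, ∃ p, x ∈ F p)
    (hd : ∀ j x, x ∈ gr (j + 1) → d x ∈ gr j) (hdd : ∀ x, d (d x) = 0)
    {j : ℕ} (hQ : ∀ p, Van d gr (F (p + 2)) (F (p + 1)) (j + 1))
    (w : V) (hwj : w ∈ gr (j + 1)) (hdz : d w ∈ F 1) :
    ∃ v ∈ F 1, v ∈ gr (j + 1) ∧ d v = d w := by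
  obtain ⟨x, hx, h⟩ := exists_F1 hF hex hd hdd hQ w hwj hdz
  exact ⟨w - d x, h, Submodule.sub_mem _ hwj (hd _ _ hx), by rw [map_sub, hdd, sub_zero]⟩

end R1

end Crest.Agent.R204.Cmp747
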