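import Mathlib
import Crest.Agent.R204.Defs

/-!
# Row 204: THE SPINE (helper693)

`structure Tower` = the list of all outputs of the topological blocks (fixed stem `d`), and the theorems
`Tower.core14` (S0314) and `Tower.core15` (S0315) deduced from it together with the algebraic theorem 06
(`Thm06`) and lemma 6.1 (`Lem61`).  Sections 05 (dual form), 07, 09 of the blueprint.

Conventions.  `P k` = primitives `PH_*(X_k; F2)` (positive degrees), true degrees.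
`D (r+1) = F2[Q_0..Q_r]` Dickson algebra of rank `r+1` with `|Q_j| = 2^(r+1) - 2^j`,
`M r k = Q_0^k D (r+1)`; internal degree = true degree minus `k`.
Everything is only required for `k ≤ d+1` and true degrees `≤ 2d+2`.
-/

set_option autoImplicit false

noncomputable section

namespace Crest.Agent.R204.Spine693

open MvPolynomial Crest.Agent.R204

/-- abstract Dickson algebra of rank `r` in the variables `Q_0, …, Q_{r-1}` -/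
abbrev D (r : ℕ) : Type := MvPolynomial (Fin r) F2

/-- degree of `Q_j` in rank `r+1` -/
def wt (r : ℕ) (j : Fin (r + 1)) : ℕ := 2 ^ (r + 1) - 2 ^ (j : ℕ)

/-- `Q_0^k D_{r+1}` -/
def M (r k : ℕ) : Submodule F2 (D (r + 1)) where
  carrier := {f | ∀ s, f.coeff s ≠ 0 → k ≤ s 0}
  zero_mem' := by intro s hs; simp at hs
  add_mem' := by
    intro f g hf hg s hs
    by_cases h : f.coeff s = 0
    · exact hg s (fun h' => hs (by rw [coeff_add, h, h', add_zero]))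
    · exact hf s h
  smul_mem' := by
    intro c f hf s hs
    exact hf s (fun h => hs (by rw [coeff_smul, h, smul_zero]))

theorem M_anti (r : ℕ) {k l : ℕ} (h : k ≤ l) : M r l ≤ M r k :=
  fun _ hf s hs => h.trans (hf s hs)

/-- inclusion `M_{k+1} → M_k` -/
def inc (r k : ℕ) : M r (k + 1) →ₗ[F2] M r k := Submodule.inclusion (M_anti r (Nat.le_succ k))

/-- binomial coefficient `C(a, i - a)`, zero for `i < a`, mod 2 -/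
def bmc (a i : ℕ) : F2 := if a ≤ i then (Nat.choose a (i - a) : F2) else 0

/-- Bullett–Macdonald identity (cohomology form, left action) -/
def BM {E : Type} [AddCommGroup E] [Module F2 E] (S : ℕ → (E →ₗ[F2] E)) : Prop :=
  ∀ n i : ℕ, i ≤ 2 * n →
    ∑ a ∈ Finset.range (n + 1), bmc a i • (S a ∘ₗ S (n - a)) =
    ∑ a ∈ Finset.range (n + 1), bmc a (2 * n - i) • (S a ∘ₗ S (n - a))

/-- Bullett–Macdonald identity (homology form: `S a = Sq^a_*`, composition reversed) -/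
def CoBM {E : Type} [AddCommGroup E] [Module F2 E] (S : ℕ → (E →ₗ[F2] E)) : Prop :=
  ∀ n i : ℕ, i ≤ 2 * n →
    ∑ a ∈ Finset.range (n + 1), bmc a i • (S (n - a) ∘ₗ S a) =
    ∑ a ∈ Finset.range (n + 1), bmc a (2 * n - i) • (S (n - a) ∘ₗ S a)

/-- Steenrod operations on the Dickson algebras -/
structure Dick where
  Sq : ∀ r : ℕ, ℕ → (D (r + 1) →ₗ[F2] D (r + 1))
  mem : ∀ r k a, ∀ g ∈ M r k, Sq r a g ∈ M r k
  zero : ∀ r, Sq r 0 = LinearMap.id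
  bm : ∀ r, BM (Sq r)

/-- restriction to `M_k` -/
def Dick.SqM (S : Dick) (r k a : ℕ) : M r k →ₗ[F2] M r k := (S.Sq r a).restrict (S.mem r k a)

/-- the extension `M_e ⊕ F2 t` : `Sq^0 = id`, `Sq^a (g + c t) = Sq^a g + φ_a(g) t` for `a ≥ 1` -/
def extSq (S : Dick) (r e : ℕ) (φ : ℕ → (M r e →ₗ[F2] F2)) (a : ℕ) :
    (M r e × F2) →ₗ[F2] (M r e × F2) :=
  if a = 0 then LinearMap.id
  else (LinearMap.inl F2 _ _ ∘ₗ S.SqM r e a ∘ₗ LinearMap.fst F2 _ _) +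
    (LinearMap.inr F2 _ _ ∘ₗ φ a ∘ₗ LinearMap.fst F2 _ _)

/-- a functional on `M_k` is concentrated in internal degree `j` -/
def Conc {r k : ℕ} (f : M r k →ₗ[F2] F2) (j : ℕ) : Prop :=
  ∀ (g : M r k) (i : ℕ), IsWeightedHomogeneous (wt r) (g : D (r + 1)) i → i ≠ j → f g = 0

/-- 06: THE ALGEBRAIC THEOREM (block F) -/
def Thm06 (S : Dick) : Prop :=
  ∀ (r k m : ℕ), Odd m → ∀ (ξ : M r k →ₗ[F2] F2) (φ : ℕ → (M r (k + 1) →ₗ[F2] F2)),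
    ξ ≠ 0 → k ≤ m → Conc ξ (m - k) →
    (∀ a, 1 ≤ a → ξ ∘ₗ S.SqM r k a = 0) →
    (∀ a, 1 ≤ a → ∀ (g : M r (k + 1)) (i : ℕ),
      IsWeightedHomogeneous (wt r) (g : D (r + 1)) i → i + a + k + 1 ≠ 2 * m + 2 → φ a g = 0) →
    BM (extSq S r (k + 1) φ) →
    (∀ g : M r (k + 1), φ (m + 1) g = ξ (inc r k g)) →
    r = 0 ∧ k = 0 ∧ ∃ l, m + 1 = 2 ^ l

/-- type A exponents -/
def TypeA {r : ℕ} (s : Fin (r + 1) →₀ ℕ) : Prop :=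
  (∀ j : Fin (r + 1), j ≠ 0 → Odd (s j)) ∧ Odd (∑ j, s j)

/-- 6.1: an `A`-annihilated functional on `M_k` vanishes on monomials with `a_0 ≥ k+1` not of type A (block F) -/
def Lem61 (S : Dick) : Prop :=
  ∀ (r k : ℕ) (f : M r k →ₗ[F2] F2), (∀ a, 1 ≤ a → f ∘ₗ S.SqM r k a = 0) →
    ∀ (s : Fin (r + 1) →₀ ℕ), k + 1 ≤ s 0 → ¬ TypeA s →
      ∀ g : M r k, (g : D (r + 1)) = monomial s 1 → f g = 0

/-- the case `m` even, `ξ` not a square (block F; two lines: `n = m+1` odd, `Sq^n = Sq^1 Sq^{n-1}`;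
`e ≥ 2`: `Sq^{n-1} g = 0` by degree; `e = 1`: `Sq^{n-1} g = g^2 ∈ Sq^1 (M_1)` for monomials `g ∈ M_1`). -/
def LemEven (S : Dick) : Prop :=
  ∀ (r e n : ℕ), 1 ≤ e → e ≤ n → Odd n → 3 ≤ n → ∀ (f φ1 : M r e →ₗ[F2] F2), Conc f (n - e) →
    φ1 ∘ₗ S.SqM r e 1 = 0 → f = φ1 ∘ₗ S.SqM r e (n - 1) → f = 0

/-- THE OUTPUTS OF ALL TOPOLOGICAL BLOCKS in stem `d`. -/
structure Tower (S : Dick) (d : ℕ) where
  P : ℕ → Type
  [acg : ∀ k, AddCommGroup (P k)]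
  [mod : ∀ k, Module F2 (P k)]
  /-- homogeneous primitives of true degree `i` -/
  deg : ∀ k : ℕ, ℕ → Submodule F2 (P k)
  /-- dual Steenrod squares -/
  Sq : ∀ k : ℕ, ℕ → (P k →ₗ[F2] P k)
  /-- loop suspension -/
  sig : ∀ k : ℕ, P k →ₗ[F2] P (k + 1)
  /-- `x ↦ x^2` -/
  frob : ∀ k : ℕ, P k →ₗ[F2] P k
  /-- coefficient of the fundamental class `x_k` (length `0` component) -/
  c0 : ∀ k : ℕ, P k →ₗ[F2] F2
  /-- length `r+1` component, as functional on `M_k` (only meaningful for `1 ≤ k`) -/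
  comp : ∀ k r : ℕ, P k →ₗ[F2] (M r k →ₗ[F2] F2)
  /-- weight-2 component on `X_0` (rank one) -/
  c1 : P 0 →ₗ[F2] (M 0 0 →ₗ[F2] F2)
  /-- families of Hurewicz images `(h^k)_k` of elements of `π_d` -/
  Sph : Set (∀ k, P k)
  -- (T1) degrees
  frob_deg : ∀ k, k ≤ d + 1 → ∀ i x, x ∈ deg k i → frob k x ∈ deg k (2 * i)
  sig_deg : ∀ k, k ≤ d → ∀ i x, x ∈ deg k i → sig k x ∈ deg (k + 1) (i + 1)
  Sq_deg : ∀ k, k ≤ d + 1 → ∀ i x, x ∈ deg k i → ∀ a, Sq k a x ∈ deg k (i - a)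
  -- (T2) Frobenius
  frob_inj : ∀ k, k ≤ d + 1 → ∀ i, 2 * i ≤ 2 * d + 2 → ∀ x ∈ deg k i, frob k x = 0 → x = 0
  frob_Sq : ∀ k, k ≤ d + 1 → ∀ a x, Sq k (2 * a) (frob k x) = frob k (Sq k a x)
  /-- (4.3): the kernel of the suspension on primitives consists of squares of primitives -/
  ker_sig : ∀ k, k ≤ d → ∀ i, 1 ≤ i → i ≤ 2 * d + 2 → ∀ x ∈ deg k i, x ≠ 0 → sig k x = 0 →
    ∃ j, 2 * j = i ∧ ∃ y ∈ deg k j, x = frob k y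
  -- (T3) Theorem 3, for `1 ≤ k ≤ d+1`
  comp_Sq : ∀ k, 1 ≤ k → k ≤ d + 1 → ∀ i, i ≤ 2 * d + 2 → ∀ x ∈ deg k i, ∀ r a,
    comp k r (Sq k a x) = comp k r x ∘ₗ S.SqM r k a
  comp_deg : ∀ k, 1 ≤ k → k ≤ d + 1 → ∀ i, i ≤ 2 * d + 2 → ∀ x ∈ deg k i, ∀ r (g : M r k) (j : ℕ),
    IsWeightedHomogeneous (wt r) (g : D (r + 1)) j → j + k ≠ i → comp k r x g = 0
  c0_deg : ∀ k, 1 ≤ k → k ≤ d + 1 → ∀ i, i ≤ 2 * d + 2 → ∀ x ∈ deg k i, i ≠ k → c0 k x = 0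
  c0_Sq : ∀ k, 1 ≤ k → k ≤ d + 1 → ∀ i, i ≤ 2 * d + 2 → ∀ x ∈ deg k i, ∀ a, 1 ≤ a →
    c0 k (Sq k a x) = 0
  comp_inj : ∀ k, 1 ≤ k → k ≤ d + 1 → ∀ i, i ≤ 2 * d + 2 → ∀ x ∈ deg k i,
    c0 k x = 0 → (∀ r, comp k r x = 0) → x = 0
  comp_sig : ∀ k, 1 ≤ k → k ≤ d → ∀ i, i ≤ 2 * d + 1 → ∀ x ∈ deg k i, ∀ r,
    comp (k + 1) r (sig k x) = comp k r x ∘ₗ inc r k
  -- (T4) lowest weight component for `k = 0`, (4.2)
  lowest : ∀ i, 1 ≤ i → i ≤ 2 * d + 2 → ∀ x ∈ deg 0 i, x ≠ 0 →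
    (c1 x ≠ 0 ∧ Conc (c1 x) i ∧
      ((∀ a, 1 ≤ a → Sq 0 a x = 0) → ∀ a, 1 ≤ a → c1 x ∘ₗ S.SqM 0 0 a = 0) ∧
      comp 1 0 (sig 0 x) = c1 x ∘ₗ inc 0 0) ∨
    (c1 x = 0 ∧ ∃ (r : ℕ) (f : M r 0 →ₗ[F2] F2), 1 ≤ r ∧ f ≠ 0 ∧ Conc f i ∧
      ((∀ a, 1 ≤ a → Sq 0 a x = 0) → ∀ a, 1 ≤ a → f ∘ₗ S.SqM r 0 a = 0) ∧
      comp 1 r (sig 0 x) = f ∘ₗ inc r 0)
  -- (T5) spherical families
  sph_deg : ∀ h ∈ Sph, ∀ k, k ≤ d + 1 → h k ∈ deg k (d + k)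
  sph_sig : ∀ h ∈ Sph, ∀ k, k ≤ d → sig k (h k) = h (k + 1)
  sph_Sq : ∀ h ∈ Sph, ∀ k, k ≤ d + 1 → ∀ a, 1 ≤ a → Sq k a (h k) = 0
  sph_add : ∀ h ∈ Sph, ∀ h' ∈ Sph, h + h' ∈ Sph
  /-- (T6) the coproduct lemma + Steenrod operations on the cofibre: `E = H_*(C)` -/
  cofib : ∀ h ∈ Sph, ∀ k, k ≤ d → ∀ m, 1 ≤ m → 2 * m = d + k → ∀ ξ ∈ deg k m,
    (∀ a, 1 ≤ a → Sq k a ξ = 0) → frob k ξ = h k → h (k + 1) = 0 →
    ∃ (E : Type) (_ : AddCommGroup E) (_ : Module F2 E) (SE : ℕ → (E →ₗ[F2] E))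
      (ι : P (k + 1) →ₗ[F2] E) (τ : E) (T : ℕ → P (k + 1)),
      CoBM SE ∧ SE 0 = LinearMap.id ∧ Function.Injective ι ∧
      (∀ a x, SE a (ι x) = ι (Sq (k + 1) a x)) ∧
      (∀ a, 1 ≤ a → SE a τ = ι (T a)) ∧
      (∀ a, 1 ≤ a → a ≤ 2 * m + 1 → T a ∈ deg (k + 1) (2 * m + 2 - a)) ∧
      (∀ a, 2 * m + 1 < a → T a = 0) ∧
      T (m + 1) = sig k ξ
  /-- (T7) section 08, only for `h^0 = ζ^4` -/
  sec08 : ∀ h ∈ Sph, ∀ j, 1 ≤ j → 4 * j = d → ∀ ζ ∈ deg 0 j, (∀ a, 1 ≤ a → Sq 0 a ζ = 0) →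
    frob 0 (frob 0 ζ) = h 0 → h 0 = 0
  /-- (T8) Hopf invariant one (only for S0314) -/
  hopf : ∀ h ∈ Sph, Odd d → ∀ ξ ∈ deg d d, frob d ξ = h d → c0 d ξ ≠ 0 → (∀ r, comp d r ξ = 0) →
    h (d + 1) = 0 → d + 1 = 2 ∨ d + 1 = 4 ∨ d + 1 = 8

attribute [instance] Tower.acg Tower.mod

end Crest.Agent.R204.Spine693
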