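import Crest.Agent.R204.Fam4_596
import Crest.Agent.R204.BM_596
import Crest.Agent.R204.Sq2_252
import Crest.Agent.R204.EZInst_847
import Crest.Agent.R204.BZ2_498
import Crest.Agent.R204.Spine_693

set_option autoImplicit false

/-!
# Row 204, leaf S3 / P6: the dual Bullett--Macdonald identity for `Sq252.Sq K` on `H F2 K`

Input: external Cartan formula for `BZ × K` and `Sq_b a_i = C(i-b,b) a_{i-b}`.
-/

noncomputable section

namespace Crest.Agent.R204.Adem596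

open Finsupp TensorProduct
open Crest.Agent.R204.AM596
open Crest.Agent.R204.DK742 (gE alt AltSS Invo proj orb proj_surj orbDesc orbDesc_proj)
open Crest.Agent.R204.SS (EG EGmap)
open Crest.Agent.R204.Sq252 (uH uH_mk Hd_ext uu Rk uH_Rk Sq)

/-! ## the instance of `PhiData` -/

theorem aug_eq (K : SS) : Phi252.aug K = EZ271.aug F2 := by
  refine EZ271.hom_ext fun n x => ?_
  rcases n with _ | n
  · rw [Phi252.aug_zero, EZ271.aug_sx_zero]
  · rw [Phi252.aug_succ, EZ271.aug_sx_succ]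

theorem augT_eq_uu {M : Type*} [AddCommGroup M] [Module F2 M] (u : M →ₗ[F2] F2) (z : M ⊗[F2] M) :
    CT.augT u u z = uu u z :=
  CT.tens_ext (f := CT.augT u u) (g := uu u) (fun a b => by simp) z

theorem aa_eq (K : SS) (z : N F2 K ⊗[F2] N F2 K) :
    CT.augT (EZ271.aug F2) (EZ271.aug F2) z = Phi252.aa K z :=
  CT.tens_ext (f := CT.augT (EZ271.aug F2) (EZ271.aug F2)) (g := Phi252.aa K) (fun a b => by
    rw [CT.augT_tmul, Phi252.aa_tmul, aug_eq]) z

/-- helper252's equivariant diagonal -/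
def DD : PhiData where
  Phi := Phi252.Phi
  nat f i x := Phi252.nm_Phi f i x
  d_zero K x := Phi252.dd_Phi_zero x
  d_succ K i x := Phi252.dd_Phi_succ i x
  aug_zero K x := by rw [aa_eq, Phi252.aa_Phi_zero, aug_eq]
  aug_succ K i x := by rw [aa_eq, Phi252.aa_Phi_succ]

variable {K : SS}

/-! ## the invariant cocycle on `E × K` and its descent to `BZ × K` -/

/-- `w = (u ⊗ u) θ` -/
def ww (u : N F2 K →ₗ[F2] F2) : N F2 ((EG (ZMod 2)).prod K) →ₗ[F2] F2 :=
  CT.augT u u ∘ₗ th DD K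

theorem augT_dT {A : Type*} [AddCommGroup A] [Module F2 A] (u : A →ₗ[F2] F2) (d : A →ₗ[F2] A)
    (h : ∀ x, u (d x) = 0) (z : A ⊗[F2] A) : CT.augT u u (CT.dT d d z) = 0 :=
  CT.tens_ext (f := CT.augT u u ∘ₗ CT.dT d d) (g := 0) (fun a b => by simp [h]) z

theorem ww_bd (u : N F2 K →ₗ[F2] F2) (hu : ∀ x, u (N.bd F2 K x) = 0)
    (z : N F2 ((EG (ZMod 2)).prod K)) : ww u (N.bd F2 _ z) = 0 := by
  rw [ww, LinearMap.comp_apply, ← th_bd, augT_dT u _ hu]

theorem ww_g (u : N F2 K →ₗ[F2] F2) (z : N F2 ((EG (ZMod 2)).prod K)) :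
    ww u (N.map F2 (gK K) z) = ww u z := by
  rw [ww, LinearMap.comp_apply, LinearMap.comp_apply, th_g, augT_comm]

theorem ww_cross (u : N F2 K →ₗ[F2] F2) (b : ℕ) (x : N F2 K) :
    ww u (EZ271.cross F2 (ee b 0) x) = uu u (Phi252.Phi K b x) := by
  rw [ww, LinearMap.comp_apply, th_cross, kap_ee, augT_tw, augT_eq_uu]; rfl

/-- the involution of `E × K` -/
def tauK (K : SS) : Invo ((EG (ZMod 2)).prod K) := gE.prod (Invo.triv K)

/-- `BZ × K → (E × K)/τ` -/
def qK (K : SS) : SS.Hom (BZ498.BZ.prod K) (orb ((EG (ZMod 2)).prod K) (tauK K)) :=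
  ⟨fun n y => Quotient.lift (s := gE.rel n) (fun e => (proj (tauK K)).app n (e, y.2)) (by
      rintro x y' (rfl | rfl)
      · rfl
      · exact (DK742.proj_g (tauK K) n (x, y.2)).symm) y.1,
   fun {m n} f y => by
    obtain ⟨y, k⟩ := y
    obtain ⟨e, rfl⟩ := proj_surj gE n y
    exact (proj (tauK K)).nat f (e, k)⟩

/-- `E × K → BZ × K` -/
def pK (K : SS) : SS.Hom ((EG (ZMod 2)).prod K) (BZ498.BZ.prod K) :=
  SS.prodMap (proj gE) (SS.Hom.id K)

theorem qK_pK (K : SS) : (qK K).comp (pK K) = proj (tauK K) := rfl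

theorem pK_surj (K : SS) : Function.Surjective (N.map F2 (pK K)) := by
  rw [← LinearMap.range_eq_top, eq_top_iff, ← DK742.N_sx_span, Submodule.span_le]
  rintro _ ⟨⟨n, y, k⟩, rfl⟩
  obtain ⟨e, rfl⟩ := proj_surj gE n y
  exact ⟨N.sx F2 (K := (EG (ZMod 2)).prod K) (e, k), N.map_sx _ _⟩

/-- the cocycle on `BZ × K` -/
def wb (u : N F2 K →ₗ[F2] F2) : N F2 (BZ498.BZ.prod K) →ₗ[F2] F2 :=
  orbDesc F2 (tauK K) (ww u) (ww_g u) ∘ₗ N.map F2 (qK K)

theorem wb_pK (u : N F2 K →ₗ[F2] F2) (z : N F2 ((EG (ZMod 2)).prod K)) :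
    wb u (N.map F2 (pK K) z) = ww u z := by
  rw [wb, LinearMap.comp_apply, EZ271.map_map, qK_pK, orbDesc_proj]

theorem wb_bd (u : N F2 K →ₗ[F2] F2) (hu : ∀ x, u (N.bd F2 K x) = 0)
    (y : N F2 (BZ498.BZ.prod K)) : wb u (N.bd F2 _ y) = 0 := by
  obtain ⟨z, rfl⟩ := pK_surj K y
  rw [← EZ271.map_bd', wb_pK, ww_bd u hu]

theorem pK_cross (b : ℕ) (x : N F2 K) : N.map F2 (pK K) (EZ271.cross F2 (ee b 0) x) =
    EZ271.cross F2 (N.sx F2 (BZ498.c b)) x := by
  rw [pK, EZ271.map_cross, EZ271.map_idHom, ee, N.map_sx]; rfl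

theorem wb_cross (u : N F2 K →ₗ[F2] F2) (b : ℕ) (x : N F2 K) :
    wb u (EZ271.cross F2 (N.sx F2 (BZ498.c b)) x) = uu u (Phi252.Phi K b x) := by
  rw [← pK_cross, wb_pK, ww_cross]

/-! ## evaluation -/

theorem aug4_psi_eval (u : N F2 K →ₗ[F2] F2) (i j : ℕ) (x : N F2 K) :
    aug4 u (psi DD K i j x) =
      uu (wb u) (Phi252.Phi (BZ498.BZ.prod K) i (EZ271.cross F2 (N.sx F2 (BZ498.c j)) x)) := by
  have e1 : aug4 u (psi DD K i j x) = CT.augT (ww u) (ww u)
      (DD.Phi ((EG (ZMod 2)).prod K) i (EZ271.cross F2 (ee j 0) x)) := by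
    rw [psi_apply]
    refine CT.tens_ext (f := aug4 u ∘ₗ TensorProduct.map (th DD K) (th DD K))
      (g := CT.augT (ww u) (ww u)) (fun a b => ?_) _
    simp only [LinearMap.comp_apply, TensorProduct.map_tmul, aug4, CT.augT_tmul, ww]
  rw [e1, ← pK_cross]
  have e2 : Phi252.Phi (BZ498.BZ.prod K) i (N.map F2 (pK K) (EZ271.cross F2 (ee j 0) x)) =
      TensorProduct.map (N.map F2 (pK K)) (N.map F2 (pK K))
        (DD.Phi ((EG (ZMod 2)).prod K) i (EZ271.cross F2 (ee j 0) x)) :=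
    (DD.nat (pK K) i _).symm
  rw [e2]
  refine CT.tens_ext (f := CT.augT (ww u) (ww u))
    (g := uu (wb u) ∘ₗ TensorProduct.map (N.map F2 (pK K)) (N.map F2 (pK K))) (fun a b => ?_) _
  rw [CT.augT_tmul, LinearMap.comp_apply, TensorProduct.map_tmul, Sq252.uu_tmul, wb_pK, wb_pK]

/-- Eilenberg-Zilber data of the team -/
abbrev Ez : Coalg847.EZData := EZ847.ezd

/-- `<w, a_b × y> = <u, R_b y>` -/
theorem uH_wb_cr (u : N F2 K →ₗ[F2] F2) (hu : ∀ x, u (N.bd F2 K x) = 0) (b : ℕ) (y : H F2 K) :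
    uH _ (wb u) (wb_bd u hu) (Ez.cr _ _ (BZ498.aZ b ⊗ₜ y)) = uH _ u hu (Rk K b y) := by
  obtain ⟨z, hz, rfl⟩ := Hd.mk_surj _ y
  rw [BZ498.aZ, Coalg847.EZData.cr_mk, uH_mk, uH_Rk]
  exact wb_cross u b z

/-- `F(i,j) = <w, R_i (a_j × x)>` -/
theorem aug4_psi_Rk (u : N F2 K →ₗ[F2] F2) (hu : ∀ x, u (N.bd F2 K x) = 0) (i j : ℕ) (z : N F2 K)
    (hz : N.bd F2 K z = 0) : aug4 u (psi DD K i j z) =
      uH _ (wb u) (wb_bd u hu) (Rk _ i (Ez.cr _ _ (BZ498.aZ j ⊗ₜ Hd.mk _ z hz))) := by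
  rw [BZ498.aZ, Coalg847.EZData.cr_mk, uH_Rk, aug4_psi_eval]
  rfl

/-- the symmetric identity before the Cartan formula -/
theorem Rk_symm (u : N F2 K →ₗ[F2] F2) (hu : ∀ x, u (N.bd F2 K x) = 0) (i j : ℕ) (x : H F2 K) :
    uH _ (wb u) (wb_bd u hu) (Rk _ i (Ez.cr _ _ (BZ498.aZ j ⊗ₜ x))) =
      uH _ (wb u) (wb_bd u hu) (Rk _ j (Ez.cr _ _ (BZ498.aZ i ⊗ₜ x))) := by
  obtain ⟨z, hz, rfl⟩ := Hd.mk_surj _ x
  exact ((aug4_psi_Rk u hu i j z hz).symm.trans (aug4_psi_symm DD u hu i j z hz)).trans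
    (aug4_psi_Rk u hu j i z hz)

/-! ## the Cartan formula and the combinatorics -/

/-- external Cartan formula with left factor `BZ` -/
def Cartan (K : SS) : Prop := ∀ (a : ℕ) (x : H F2 BZ498.BZ) (y : H F2 K),
  Sq (BZ498.BZ.prod K) a (Ez.cr BZ498.BZ K (x ⊗ₜ y)) =
    ∑ p ∈ Finset.HasAntidiagonal.antidiagonal a, Ez.cr BZ498.BZ K (Sq BZ498.BZ p.1 x ⊗ₜ Sq K p.2 y)

/-- squares in `H(B Z/2)` -/
def SqB : Prop := ∀ i b : ℕ, Sq BZ498.BZ b (BZ498.aZ i) =
    if 2 * b ≤ i then (Nat.choose (i - b) b : F2) • BZ498.aZ (i - b) else 0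

theorem uH_sum {M : Type*} [AddCommGroup M] [Module F2 M] {d : M →ₗ[F2] M} (u : M →ₗ[F2] F2)
    (hu : ∀ x, u (d x) = 0) {ι : Type*} (s : Finset ι) (f : ι → Hd d) :
    uH d u hu (∑ i ∈ s, f i) = ∑ i ∈ s, uH d u hu (f i) := map_sum _ _ _

theorem eval_Sq (hC : Cartan K) (hB : SqB) (u : N F2 K →ₗ[F2] F2)
    (hu : ∀ x, u (N.bd F2 K x) = 0) {k l q N : ℕ} (h : k + l + N = 3 * q) {x : H F2 K}
    (hx : x ∈ H.gr F2 K (N + q)) :
    uH _ (wb u) (wb_bd u hu) (Rk _ l (Ez.cr _ _ (BZ498.aZ k ⊗ₜ x))) =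
      ∑ a ∈ Finset.range (q + 1), (if q ≤ k + a ∧ a ≤ N then
        (((q - a).choose (k + a - q) : ℕ) : F2) • uH _ u hu (Sq K a (Sq K (N - a) x)) else 0) := by
  have hg : Ez.cr _ _ (BZ498.aZ k ⊗ₜ x) ∈ H.gr F2 (BZ498.BZ.prod K) (k + (N + q)) :=
    Coalg847.EZData.cr_mem_gr Ez (BZ498.aZ_mem_gr k) hx
  by_cases hD : k + (N + q) < l
  · rw [Sq252.Rk_eq_zero_of_lt hD hg, map_zero]
    symm
    refine Finset.sum_eq_zero fun a _ => ?_
    rw [if_neg (by omega)]
  · obtain ⟨m, hm⟩ : ∃ m, N + k = q + m := ⟨N + k - q, by omega⟩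
    rw [Sq252.Rk_eq_Sq (l := m) hg (by omega), hC, uH_sum,
      Finset.Nat.sum_antidiagonal_eq_sum_range_succ_mk]
    have e1 : ∀ s ∈ Finset.range m.succ, uH _ (wb u) (wb_bd u hu)
        (Ez.cr BZ498.BZ K (Sq BZ498.BZ (s, m - s).1 (BZ498.aZ k) ⊗ₜ Sq K (s, m - s).2 x)) =
        (((k - s).choose s : ℕ) : F2) • uH _ u hu (Rk K (k - s) (Sq K (m - s) x)) := by
      intro s _
      rw [hB]
      by_cases h2 : 2 * s ≤ k
      · rw [if_pos h2, ← TensorProduct.smul_tmul', map_smul, map_smul, uH_wb_cr]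
      · rw [if_neg h2, TensorProduct.zero_tmul, map_zero, map_zero,
          Nat.choose_eq_zero_of_lt (by omega)]
        simp
    rw [Finset.sum_congr rfl e1]
    have e2 : ∑ s ∈ Finset.range m.succ,
        (((k - s).choose s : ℕ) : F2) • uH _ u hu (Rk K (k - s) (Sq K (m - s) x)) =
        ∑ s ∈ (Finset.range m.succ).filter (fun s => k ≤ q + s ∧ s ≤ k),
        (((k - s).choose s : ℕ) : F2) • uH _ u hu (Rk K (k - s) (Sq K (m - s) x)) := by
      symm
      refine Finset.sum_filter_of_ne fun s hs hne => ?_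
      rw [Finset.mem_range] at hs
      by_contra hcon
      apply hne
      by_cases h3 : s ≤ k
      · have h4 : q + s < k := by omega
        have h5 : Rk K (k - s) (Sq K (m - s) x) = 0 := by
          by_cases h6 : N + q < 2 * (m - s)
          · rw [Sq252.Sq_unst hx h6, map_zero]
          · refine Sq252.Rk_eq_zero_of_lt ?_ (Sq252.Sq_mem_gr hx)
            omega
        rw [h5, map_zero, smul_zero]
      · rw [Nat.choose_eq_zero_of_lt (by omega)]
        simp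
    rw [e2, ← Finset.sum_filter]
    refine Finset.sum_nbij' (fun s => s + q - k) (fun a => a + k - q) ?_ ?_ ?_ ?_ ?_
    · intro s hs
      simp only [Finset.mem_filter, Finset.mem_range] at hs ⊢
      omega
    · intro a ha
      simp only [Finset.mem_filter, Finset.mem_range] at ha ⊢
      omega
    · intro s hs
      simp only [Finset.mem_filter, Finset.mem_range] at hs
      omega
    · intro a ha
      simp only [Finset.mem_filter, Finset.mem_range] at ha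
      omega
    · intro s hs
      simp only [Finset.mem_filter, Finset.mem_range] at hs
      have h1 : q - (s + q - k) = k - s := by omega
      have h2 : k + (s + q - k) - q = s := by omega
      have h3 : N - (s + q - k) = m - s := by omega
      rw [h1, h2, h3]
      congr 2
      by_cases h6 : N + q < 2 * (m - s)
      · rw [Sq252.Sq_unst hx h6, map_zero, map_zero]
      · exact Sq252.Rk_eq_Sq (Sq252.Sq_mem_gr hx) (by omega)

/-- the symmetric identity in `H F2 K` -/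
theorem geom (hC : Cartan K) (hB : SqB) {k l q N : ℕ} (h : k + l + N = 3 * q) {x : H F2 K}
    (hx : x ∈ H.gr F2 K (N + q)) :
      ∑ a ∈ Finset.range (q + 1), (if q ≤ k + a ∧ a ≤ N then
        (((q - a).choose (k + a - q) : ℕ) : F2) • Sq K a (Sq K (N - a) x) else 0) =
      ∑ a ∈ Finset.range (q + 1), (if q ≤ l + a ∧ a ≤ N then
        (((q - a).choose (l + a - q) : ℕ) : F2) • Sq K a (Sq K (N - a) x) else 0) := by
  refine Hd_ext (Sq252.bdd K) fun u hu => ?_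
  rw [uH_sum, uH_sum]
  have e : ∀ (j : ℕ) (a : ℕ), uH _ u hu (if q ≤ j + a ∧ a ≤ N then
        (((q - a).choose (j + a - q) : ℕ) : F2) • Sq K a (Sq K (N - a) x) else 0) =
      if q ≤ j + a ∧ a ≤ N then
        (((q - a).choose (j + a - q) : ℕ) : F2) • uH _ u hu (Sq K a (Sq K (N - a) x)) else 0 := by
    intro j a
    split_ifs
    · rw [map_smul]
    · rw [map_zero]
  rw [Finset.sum_congr rfl fun a _ => e k a, Finset.sum_congr rfl fun a _ => e l a,
    ← eval_Sq hC hB u hu h hx, ← eval_Sq hC hB u hu (k := l) (l := k) (by omega) hx]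
  exact Rk_symm u hu l k x

theorem Sq_Sq_eq_zero {a b n : ℕ} {x : H F2 K} (hx : x ∈ H.gr F2 K n) (h : ¬ (2 * b ≤ n ∧ 2 * a + b ≤ n)) :
    Sq K a (Sq K b x) = 0 := by
  by_cases h1 : n < 2 * b
  · rw [Sq252.Sq_unst hx h1, map_zero]
  · exact Sq252.Sq_unst (Sq252.Sq_mem_gr hx) (by omega)

/-- THE DUAL BULLETT--MACDONALD IDENTITY -/
theorem coBM (hC : Cartan K) (hB : SqB) : Spine693.CoBM (fun a => Sq K a) := by
  intro N i hi
  refine LinearMap.ext fun x => ?_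
  refine Gr334.H_induction (p := fun x =>
    (∑ a ∈ Finset.range (N + 1), Spine693.bmc a i • (Sq K (N - a) ∘ₗ Sq K a)) x =
    (∑ a ∈ Finset.range (N + 1), Spine693.bmc a (2 * N - i) • (Sq K (N - a) ∘ₗ Sq K a)) x) x
    (by rw [map_zero, map_zero]) (fun a b ha hb => by rw [map_add, map_add, ha, hb]) fun n x hx => ?_
  have e : ∀ j : ℕ, (∑ a ∈ Finset.range (N + 1), Spine693.bmc a j • (Sq K (N - a) ∘ₗ Sq K a)) x =
      BM596.phi (fun a b => Sq K b (Sq K a x)) N j := by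
    intro j
    rw [LinearMap.sum_apply, BM596.phi]
    refine Finset.sum_congr rfl fun a _ => ?_
    rw [LinearMap.smul_apply, LinearMap.comp_apply, Spine693.bmc]
    split_ifs
    · rfl
    · rw [zero_smul]
  rw [e, e]
  by_cases hN : N ≤ n
  · obtain ⟨q, rfl⟩ : ∃ q, n = N + q := ⟨n - N, by omega⟩
    refine BM596.phi_symm_of_geom _ q N ?_ (fun k l hkl => geom hC hB hkl hx) hi
    intro i j hij hne
    by_contra hcon
    exact hne (Sq_Sq_eq_zero hx (by omega))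
  · have z : ∀ j : ℕ, BM596.phi (fun a b => Sq K b (Sq K a x)) N j = 0 := by
      intro j
      rw [BM596.phi]
      refine Finset.sum_eq_zero fun a ha => ?_
      rw [Finset.mem_range] at ha
      rw [Sq_Sq_eq_zero hx (by omega)]
      simp
    rw [z, z]

end Crest.Agent.R204.Adem596
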