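import Crest.Agent.R204.Defs

/-!
# Row 204, A4 (helper847): Kuenneth for `Hd` over `F2`

`M, M'` any `F2`-modules with differentials `d, d'` (`d ∘ d = 0`).  `tD d d' = d ⊗ 1 + 1 ⊗ d'`.
`kun : Hd d ⊗ Hd d' ≃ Hd (tD d d')`, `kun ([z] ⊗ [z']) = [z ⊗ z']`, natural, symmetric.
-/

set_option autoImplicit false

namespace Crest.Agent.R204.Coalg847

open TensorProduct

/-! ## strong deformation data over a field -/

section sdr

variable {k M : Type*} [Field k] [AddCommGroup M] [Module k M]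

/-- splitting data of a differential over a field -/
structure SDR (d : M →ₗ[k] M) where
  i : Hd d →ₗ[k] M
  p : M →ₗ[k] Hd d
  h : M →ₗ[k] M
  di : ∀ x, d (i x) = 0
  pd : ∀ x, p (d x) = 0
  pz : ∀ z (hz : d z = 0), p z = Hd.mk d z hz
  mki : ∀ x, Hd.mk d (i x) (di x) = x
  hom : ∀ x, d (h x) + h (d x) = x - i (p x)

theorem SDR.pi {d : M →ₗ[k] M} (s : SDR d) (x : Hd d) : s.p (s.i x) = x := by
  rw [s.pz _ (s.di x), s.mki]

theorem exists_sdr (d : M →ₗ[k] M) (dd : ∀ x, d (d x) = 0) : Nonempty (SDR d) := by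
  -- section of the cycles onto homology
  obtain ⟨s, hs⟩ := LinearMap.exists_rightInverse_of_surjective
    (Submodule.mkQ ((LinearMap.range d).comap (LinearMap.ker d).subtype))
    (Submodule.range_mkQ _)
  -- extension of the projection to M
  obtain ⟨p, hp⟩ := LinearMap.exists_extend
    (Submodule.mkQ ((LinearMap.range d).comap (LinearMap.ker d).subtype))
  -- partial inverse of d
  obtain ⟨t, ht⟩ := LinearMap.exists_rightInverse_of_surjective d.rangeRestrict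
    (LinearMap.range_rangeRestrict d)
  obtain ⟨g, hg⟩ := LinearMap.exists_extend t
  set i : Hd d →ₗ[k] M := (LinearMap.ker d).subtype ∘ₗ s with hi
  have di : ∀ x, d (i x) = 0 := fun x => (s x).2
  have mki : ∀ x, Hd.mk d (i x) (di x) = x := fun x => by
    have := LinearMap.congr_fun hs x
    exact this
  have pz : ∀ z (hz : d z = 0), p z = Hd.mk d z hz := fun z hz => by
    have := LinearMap.congr_fun hp ⟨z, hz⟩
    exact this
  have pd : ∀ x, p (d x) = 0 := fun x => by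
    rw [pz _ (dd x), Hd.mk_eq_zero]
    exact ⟨x, rfl⟩
  have pi : ∀ x, p (i x) = x := fun x => by rw [pz _ (di x), mki]
  have dgd : ∀ x, d (g (d x)) = d x := fun x => by
    have h1 := LinearMap.congr_fun hg ⟨d x, x, rfl⟩
    have h2 := LinearMap.congr_fun ht ⟨d x, x, rfl⟩
    simp only [LinearMap.comp_apply, Submodule.subtype_apply] at h1
    rw [h1]
    simpa using congrArg Subtype.val h2
  set g' : M →ₗ[k] M := g - i ∘ₗ p ∘ₗ g with hg'
  have dg'd : ∀ x, d (g' (d x)) = d x := fun x => by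
    simp [hg', di, dgd]
  have pg' : ∀ x, p (g' x) = 0 := fun x => by simp [hg', pi]
  set q : M →ₗ[k] M := LinearMap.id - i ∘ₗ p - g' ∘ₗ d with hq
  have dq : ∀ x, d (q x) = 0 := fun x => by simp [hq, di, dg'd]
  have pq : ∀ x, p (q x) = 0 := fun x => by simp [hq, pi, pg']
  have qr : ∀ x, ∃ y, d y = q x := fun x => by
    have := pq x
    rw [pz _ (dq x), Hd.mk_eq_zero] at this
    exact this
  refine ⟨⟨i, p, g' ∘ₗ q, di, pd, pz, mki, fun x => ?_⟩⟩
  have h1 : d (g' (q x)) = q x := by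
    obtain ⟨y, hy⟩ := qr x
    rw [← hy, dg'd]
  have h2 : q (d x) = d x := by simp [hq, pd, dd]
  simp only [LinearMap.comp_apply, h1, h2]
  simp [hq]

end sdr

/-! ## Kuenneth -/

section kun

variable {M M' M'' L L' : Type*} [AddCommGroup M] [Module F2 M] [AddCommGroup M'] [Module F2 M']
  [AddCommGroup M''] [Module F2 M'']
  [AddCommGroup L] [Module F2 L] [AddCommGroup L'] [Module F2 L']

theorem add_self_F2 (x : M) : x + x = 0 := by
  rw [← two_smul F2 x]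
  have : (2 : F2) = 0 := rfl
  rw [this, zero_smul]

theorem neg_F2 (x : M) : -x = x := neg_eq_of_add_eq_zero_left (add_self_F2 x)

theorem sub_F2 (x y : M) : x - y = x + y := by rw [sub_eq_add_neg, neg_F2]

/-- tensor differential (characteristic 2, no signs) -/
noncomputable def tD (d : M →ₗ[F2] M) (d' : M' →ₗ[F2] M') : M ⊗[F2] M' →ₗ[F2] M ⊗[F2] M' :=
  TensorProduct.map d LinearMap.id + TensorProduct.map LinearMap.id d'

@[simp] theorem tD_tmul (d : M →ₗ[F2] M) (d' : M' →ₗ[F2] M') (x : M) (y : M') :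
    tD d d' (x ⊗ₜ y) = d x ⊗ₜ y + x ⊗ₜ d' y := by
  simp [tD]

theorem tD_tD (d : M →ₗ[F2] M) (d' : M' →ₗ[F2] M') (dd : ∀ x, d (d x) = 0)
    (dd' : ∀ x, d' (d' x) = 0) (x : M ⊗[F2] M') : tD d d' (tD d d' x) = 0 := by
  induction x with
  | zero => simp
  | add a b ha hb => rw [map_add, map_add, ha, hb, add_zero]
  | tmul a b =>
    simp only [tD_tmul, map_add, dd, dd', TensorProduct.zero_tmul, TensorProduct.tmul_zero]
    rw [zero_add, add_zero]
    exact add_self_F2 _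

/-- the Kuenneth map built from splitting data -/
noncomputable def kunOf {d : M →ₗ[F2] M} {d' : M' →ₗ[F2] M'} (s : SDR d) (s' : SDR d') :
    Hd d ⊗[F2] Hd d' →ₗ[F2] Hd (tD d d') :=
  (Submodule.mkQ _) ∘ₗ LinearMap.codRestrict (LinearMap.ker (tD d d'))
    (TensorProduct.map s.i s'.i) (fun x => by
      rw [LinearMap.mem_ker]
      induction x with
      | zero => simp
      | add a b ha hb => rw [map_add, map_add, ha, hb, add_zero]
      | tmul a b => simp [s.di, s'.di])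

theorem tD_mk {d : M →ₗ[F2] M} {d' : M' →ₗ[F2] M'} {z : M} {z' : M'} (hz : d z = 0)
    (hz' : d' z' = 0) : tD d d' (z ⊗ₜ z') = 0 := by simp [hz, hz']

theorem kunOf_mk {d : M →ₗ[F2] M} {d' : M' →ₗ[F2] M'} (s : SDR d) (s' : SDR d')
    (z : M) (hz : d z = 0) (z' : M') (hz' : d' z' = 0) :
    kunOf s s' (Hd.mk d z hz ⊗ₜ Hd.mk d' z' hz') = Hd.mk (tD d d') (z ⊗ₜ z') (tD_mk hz hz') := by
  have h1 : ∃ y, d y = s.i (Hd.mk d z hz) - z := by
    rw [← Hd.mk_eq_mk (hz := s.di _) (hz' := hz), s.mki]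
  have h2 : ∃ y, d' y = s'.i (Hd.mk d' z' hz') - z' := by
    rw [← Hd.mk_eq_mk (hz := s'.di _) (hz' := hz'), s'.mki]
  obtain ⟨y, hy⟩ := h1
  obtain ⟨y', hy'⟩ := h2
  have : kunOf s s' (Hd.mk d z hz ⊗ₜ Hd.mk d' z' hz') =
      Hd.mk (tD d d') (s.i (Hd.mk d z hz) ⊗ₜ s'.i (Hd.mk d' z' hz')) (tD_mk (s.di _) (s'.di _)) :=
    rfl
  rw [this, Hd.mk_eq_mk]
  refine ⟨y ⊗ₜ s'.i (Hd.mk d' z' hz') + z ⊗ₜ y', ?_⟩
  rw [map_add, tD_tmul, tD_tmul, hy, hy', s'.di, hz, TensorProduct.tmul_zero,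
    TensorProduct.zero_tmul, TensorProduct.sub_tmul, TensorProduct.tmul_sub]
  abel

theorem map_pp_tD {d : M →ₗ[F2] M} {d' : M' →ₗ[F2] M'} (s : SDR d) (s' : SDR d')
    (y : M ⊗[F2] M') : TensorProduct.map s.p s'.p (tD d d' y) = 0 := by
  induction y with
  | zero => simp
  | add a b ha hb => rw [map_add, map_add, ha, hb, add_zero]
  | tmul a b => simp [s.pd, s'.pd]

/-- the inverse built from splitting data -/
noncomputable def nukOf {d : M →ₗ[F2] M} {d' : M' →ₗ[F2] M'} (s : SDR d) (s' : SDR d') :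
    Hd (tD d d') →ₗ[F2] Hd d ⊗[F2] Hd d' :=
  Submodule.liftQ _ ((TensorProduct.map s.p s'.p) ∘ₗ (LinearMap.ker (tD d d')).subtype) (by
    rintro ⟨x, hx⟩ hx'
    simp only [Submodule.mem_comap, Submodule.subtype_apply, LinearMap.mem_range] at hx'
    obtain ⟨y, rfl⟩ := hx'
    rw [LinearMap.mem_ker]
    exact map_pp_tD s s' y)

theorem nukOf_mk {d : M →ₗ[F2] M} {d' : M' →ₗ[F2] M'} (s : SDR d) (s' : SDR d')
    (w : M ⊗[F2] M') (hw : tD d d' w = 0) :
    nukOf s s' (Hd.mk _ w hw) = TensorProduct.map s.p s'.p w := rfl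

/-- chain homotopy -/
noncomputable def hoOf {d : M →ₗ[F2] M} {d' : M' →ₗ[F2] M'} (s : SDR d) (s' : SDR d') :
    M ⊗[F2] M' →ₗ[F2] M ⊗[F2] M' :=
  TensorProduct.map s.h LinearMap.id + TensorProduct.map (s.i ∘ₗ s.p) s'.h

theorem hoOf_spec {d : M →ₗ[F2] M} {d' : M' →ₗ[F2] M'} (s : SDR d) (s' : SDR d')
    (w : M ⊗[F2] M') : tD d d' (hoOf s s' w) + hoOf s s' (tD d d' w) =
      w - TensorProduct.map s.i s'.i (TensorProduct.map s.p s'.p w) := by
  induction w with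
  | zero => simp
  | add a b ha hb =>
    simp only [map_add]
    rw [add_add_add_comm, ha, hb]
    abel
  | tmul a b =>
    simp only [hoOf, LinearMap.add_apply, TensorProduct.map_tmul, LinearMap.id_apply,
      LinearMap.comp_apply, map_add, tD_tmul, s.di, s.pd, map_zero, TensorProduct.zero_tmul,
      zero_add]
    have e1 : s.h (d a) ⊗ₜ[F2] b = (a - s.i (s.p a) - d (s.h a)) ⊗ₜ[F2] b := by
      rw [← s.hom a]; congr 1; abel
    have e2 : (s.i (s.p a)) ⊗ₜ[F2] s'.h (d' b) =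
        (s.i (s.p a)) ⊗ₜ[F2] (b - s'.i (s'.p b) - d' (s'.h b)) := by
      rw [← s'.hom b]; congr 1; abel
    rw [e1, e2]
    simp only [TensorProduct.sub_tmul, TensorProduct.tmul_sub]
    have e3 := add_self_F2 (s.h a ⊗ₜ[F2] d' b)
    have e4 : s.h a ⊗ₜ[F2] d' b = - (s.h a ⊗ₜ[F2] d' b) := (neg_F2 _).symm
    rw [e4]
    abel_nf
    simp [e3, neg_F2, two_smul]

theorem nuk_kun {d : M →ₗ[F2] M} {d' : M' →ₗ[F2] M'} (s : SDR d) (s' : SDR d')
    (x : Hd d ⊗[F2] Hd d') : nukOf s s' (kunOf s s' x) = x := by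
  induction x with
  | zero => simp
  | add a b ha hb => rw [map_add, map_add, ha, hb]
  | tmul a b =>
    obtain ⟨z, hz, rfl⟩ := Hd.mk_surj d a
    obtain ⟨z', hz', rfl⟩ := Hd.mk_surj d' b
    rw [kunOf_mk, nukOf_mk, TensorProduct.map_tmul, s.pz _ hz, s'.pz _ hz']

theorem kun_nuk {d : M →ₗ[F2] M} {d' : M' →ₗ[F2] M'} (s : SDR d) (s' : SDR d')
    (x : Hd (tD d d')) : kunOf s s' (nukOf s s' x) = x := by
  obtain ⟨w, hw, rfl⟩ := Hd.mk_surj _ x
  rw [nukOf_mk]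
  have hc : ∀ x, tD d d' (TensorProduct.map s.i s'.i x) = 0 := fun x => by
    induction x with
    | zero => simp
    | add a b ha hb => rw [map_add, map_add, ha, hb, add_zero]
    | tmul a b => simp [s.di, s'.di]
  have : kunOf s s' (TensorProduct.map s.p s'.p w) =
      Hd.mk _ (TensorProduct.map s.i s'.i (TensorProduct.map s.p s'.p w)) (hc _) := rfl
  rw [this, Hd.mk_eq_mk]
  refine ⟨hoOf s s' w, ?_⟩
  have h1 := hoOf_spec s s' w
  rw [hw, map_zero, add_zero] at h1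
  rw [h1, sub_F2, sub_F2, add_comm]

/-- **Kuenneth isomorphism** over `F2`. -/
noncomputable def kun (d : M →ₗ[F2] M) (d' : M' →ₗ[F2] M') (dd : ∀ x, d (d x) = 0)
    (dd' : ∀ x, d' (d' x) = 0) : (Hd d ⊗[F2] Hd d') ≃ₗ[F2] Hd (tD d d') :=
  LinearEquiv.ofLinearMap (kunOf (exists_sdr d dd).some (exists_sdr d' dd').some)
    (nukOf (exists_sdr d dd).some (exists_sdr d' dd').some)
    (LinearMap.ext fun x => kun_nuk _ _ x) (LinearMap.ext fun x => nuk_kun _ _ x)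

@[simp] theorem kun_mk (d : M →ₗ[F2] M) (d' : M' →ₗ[F2] M') (dd : ∀ x, d (d x) = 0)
    (dd' : ∀ x, d' (d' x) = 0) (z : M) (hz : d z = 0) (z' : M') (hz' : d' z' = 0) :
    kun d d' dd dd' (Hd.mk d z hz ⊗ₜ Hd.mk d' z' hz') = Hd.mk (tD d d') (z ⊗ₜ z') (tD_mk hz hz') :=
  kunOf_mk _ _ z hz z' hz'

theorem map_tD {d : M →ₗ[F2] M} {d' : M' →ₗ[F2] M'} {e : L →ₗ[F2] L} {e' : L' →ₗ[F2] L'}
    (f : M →ₗ[F2] L) (h : f ∘ₗ d = e ∘ₗ f) (f' : M' →ₗ[F2] L') (h' : f' ∘ₗ d' = e' ∘ₗ f') :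
    TensorProduct.map f f' ∘ₗ tD d d' = tD e e' ∘ₗ TensorProduct.map f f' := by
  refine TensorProduct.ext' fun x y => ?_
  have h1 := LinearMap.congr_fun h x
  have h2 := LinearMap.congr_fun h' y
  simp only [LinearMap.comp_apply] at h1 h2
  simp [h1, h2]

/-- naturality of the Kuenneth isomorphism -/
theorem kun_nat {d : M →ₗ[F2] M} {d' : M' →ₗ[F2] M'} {e : L →ₗ[F2] L} {e' : L' →ₗ[F2] L'}
    (dd : ∀ x, d (d x) = 0) (dd' : ∀ x, d' (d' x) = 0)
    (ee : ∀ x, e (e x) = 0) (ee' : ∀ x, e' (e' x) = 0)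
    (f : M →ₗ[F2] L) (h : f ∘ₗ d = e ∘ₗ f) (f' : M' →ₗ[F2] L') (h' : f' ∘ₗ d' = e' ∘ₗ f')
    (x : Hd d ⊗[F2] Hd d') :
    Hd.map (TensorProduct.map f f') (map_tD f h f' h') (kun d d' dd dd' x) =
      kun e e' ee ee' (TensorProduct.map (Hd.map f h) (Hd.map f' h') x) := by
  induction x with
  | zero => simp
  | add a b ha hb => simp only [map_add, ha, hb]
  | tmul a b =>
    obtain ⟨z, hz, rfl⟩ := Hd.mk_surj d a
    obtain ⟨z', hz', rfl⟩ := Hd.mk_surj d' b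
    simp only [kun_mk, Hd.map_mk, TensorProduct.map_tmul]

/-- a linear map out of `Hd d ⊗ Hd d'` is determined on classes -/
theorem hd_tensor_ext {P : Type*} [AddCommGroup P] [Module F2 P] {d : M →ₗ[F2] M}
    {d' : M' →ₗ[F2] M'} {f g : Hd d ⊗[F2] Hd d' →ₗ[F2] P}
    (h : ∀ z hz z' hz', f (Hd.mk d z hz ⊗ₜ Hd.mk d' z' hz') = g (Hd.mk d z hz ⊗ₜ Hd.mk d' z' hz')) :
    f = g := by
  refine TensorProduct.ext' fun x y => ?_
  obtain ⟨z, hz, rfl⟩ := Hd.mk_surj d x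
  obtain ⟨z', hz', rfl⟩ := Hd.mk_surj d' y
  exact h z hz z' hz'

end kun

end Crest.Agent.R204.Coalg847
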