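import Crest.Agent.R204.Cartan_888
import Crest.Agent.R204.QCb_134

/-!
# Row 204, block A5: coefficient functionals and cross data from quasi-isomorphisms (helper888)
-/

set_option autoImplicit false

noncomputable section

namespace Crest.Agent.R204.Q888

open Finsupp TensorProduct QC134

variable {X Y : Type} [AddCommGroup X] [Module F2 X] [AddCommGroup Y] [Module F2 Y]

theorem QD_eq (d τ : X →ₗ[F2] X) : QC134.QD d τ = QD d τ := by
  ext i c : 2
  rcases i with _ | i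
  · simp
  · simp

theorem Qmap_eq (f : X →ₗ[F2] Y) : QC134.Qmap f = Qmap f := rfl

theorem dT_eq (d : X →ₗ[F2] X) (d' : Y →ₗ[F2] Y) : QC134.dT d d' = dT d d' := rfl

namespace IsSq

variable {dX : X →ₗ[F2] X} {dY τ : Y →ₗ[F2] Y} {nab : X →ₗ[F2] X →ₗ[F2] Y} {dg : X →ₗ[F2] Y}

theorem qiQ (h : IsSq dX dY τ nab dg) (hq : QI (QC134.dT dX dX) dY (TensorProduct.lift nab)) :
    QI (dQ dX) (QD dY τ) (Qmap (TensorProduct.lift nab)) := by
  have := hq.Q (τ := tau X) (τ' := τ) (QC134.dT_dT h.dd h.dd) h.ddY tau_tau h.tt (tau_dT dX)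
    (fun x => (h.dt x).symm) (by
      intro x
      induction x using TensorProduct.induction_on with
      | zero => simp
      | add x y hx hy => simp only [map_add, hx, hy]
      | tmul x y => simp [h.symm])
  rw [QD_eq dY τ] at this
  exact this

/-- `H(W ⊗_{Z/2} X ⊗ X) ≃ H(Q(Y))` -/
def eqQ (h : IsSq dX dY τ nab dg) (hq : QI (QC134.dT dX dX) dY (TensorProduct.lift nab)) :
    Hd (dQ dX) ≃ₗ[F2] Hd (QD dY τ) :=
  LinearEquiv.ofBijective (Hd.map (Qmap (TensorProduct.lift nab))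
    (LinearMap.ext fun x => (h.qiQ hq).comm x)) ((h.qiQ hq).bijective _)

theorem eqQ_Eop (h : IsSq dX dY τ nab dg) (hq : QI (QC134.dT dX dX) dY (TensorProduct.lift nab))
    (m : ℕ) (x : Hd dX) : h.eqQ hq (Eop dX h.dd m x) = h.G m x := by
  obtain ⟨z, hz, rfl⟩ := Hd.mk_surj dX x
  rw [Eop_mk, G_mk]
  show Hd.mk _ _ _ = _
  congr 1
  simp

theorem eqQ_Bop (h : IsSq dX dY τ nab dg) (hq : QI (QC134.dT dX dX) dY (TensorProduct.lift nab))
    (x y : Hd dX) : h.eqQ hq (Bop dX x y) = h.T0 x y := by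
  obtain ⟨z, hz, rfl⟩ := Hd.mk_surj dX x
  obtain ⟨w, hw, rfl⟩ := Hd.mk_surj dX y
  rw [Bop_mk, T0_mk]
  show Hd.mk _ _ _ = _
  congr 1
  simp

theorem exists_coef (h : IsSq dX dY τ nab dg)
    (hq : QI (QC134.dT dX dX) dY (TensorProduct.lift nab)) : ∃ c, IsCoef h c := by
  classical
  obtain ⟨J, b, hb⟩ := exists_HBasis dX
  let _ : LinearOrder J := linearOrderOfSTO (WellOrderingRel (α := J))
  set B := (hb.quad h.dd).toBasis with hB
  let f : ℕ → QIdx J → Hd dX := fun k p => match p with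
    | Sum.inl (i, j) => if i = k then hb.toBasis j else 0
    | Sum.inr _ => 0
  refine ⟨fun k => (B.constr F2 (f k)) ∘ₗ (h.eqQ hq).symm.toLinearMap, ?_, ?_, ?_⟩
  · intro k _ m x
    rw [LinearMap.comp_apply, LinearEquiv.coe_coe, ← h.eqQ_Eop hq, LinearEquiv.symm_apply_apply]
    have key : (B.constr F2 (f k)) ∘ₗ (Eop dX h.dd m) = if m = k then LinearMap.id else 0 := by
      refine hb.toBasis.ext fun j => ?_
      rw [LinearMap.comp_apply, ← quadBasis_inl, ← hB, Module.Basis.constr_basis]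
      show (if m = k then hb.toBasis j else 0) = _
      split_ifs <;> simp
    have := LinearMap.congr_fun key x
    rw [LinearMap.comp_apply] at this
    rw [this]
    split_ifs <;> simp
  · intro k hk x y
    rw [LinearMap.comp_apply, LinearEquiv.coe_coe, ← h.eqQ_Bop hq, LinearEquiv.symm_apply_apply]
    have key : (Bop dX).compr₂ (B.constr F2 (f k)) = 0 := by
      refine hb.toBasis.ext fun j => hb.toBasis.ext fun j' => ?_
      rw [LinearMap.compr₂_apply, LinearMap.zero_apply, LinearMap.zero_apply]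
      rcases lt_trichotomy j j' with hlt | rfl | hlt
      · rw [← quadBasis_inr h.dd hb ⟨(j, j'), hlt⟩, ← hB, Module.Basis.constr_basis]
      · rw [Bop_self dX h.dd, ← quadBasis_inl, ← hB, Module.Basis.constr_basis]
        show (if 0 = k then hb.toBasis j else 0) = _
        rw [if_neg (by omega)]
      · rw [Bop_comm, ← quadBasis_inr h.dd hb ⟨(j', j), hlt⟩, ← hB, Module.Basis.constr_basis]
    exact LinearMap.congr_fun (LinearMap.congr_fun key x) y
  · intro ζ
    obtain ⟨ξ, rfl⟩ := (h.eqQ hq).surjective ζ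
    have hmem : ξ ∈ Submodule.span F2 ({y | ∃ i x, y = Eop dX h.dd i x} ∪ {z | ∃ x y, z = Bop dX x y}) := by
      rw [quad_span]; trivial
    refine Submodule.span_induction (p := fun ξ _ => h.eqQ hq ξ ∈ (⨆ m, LinearMap.range (h.G m)) ⊔
      Submodule.span F2 (Set.range fun p : Hd dX × Hd dX => h.T0 p.1 p.2)) ?_ ?_ ?_ ?_ hmem
    · rintro _ (⟨i, x, rfl⟩ | ⟨x, y, rfl⟩)
      · rw [h.eqQ_Eop hq]
        exact Submodule.mem_sup_left (Submodule.mem_iSup_of_mem i ⟨x, rfl⟩)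
      · rw [h.eqQ_Bop hq]
        exact Submodule.mem_sup_right (Submodule.subset_span ⟨(x, y), rfl⟩)
    · rw [map_zero]; exact Submodule.zero_mem _
    · intro x y _ _ hx hy
      rw [map_add]; exact Submodule.add_mem _ hx hy
    · intro r x _ hx
      rw [map_smul]; exact Submodule.smul_mem _ r hx

/-- the coefficient functionals -/
def coef (h : IsSq dX dY τ nab dg) (hq : QI (QC134.dT dX dX) dY (TensorProduct.lift nab)) :
    ℕ → Hd (QD dY τ) →ₗ[F2] Hd dX := Classical.choose (h.exists_coef hq)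

theorem isCoef (h : IsSq dX dY τ nab dg) (hq : QI (QC134.dT dX dX) dY (TensorProduct.lift nab)) :
    IsCoef h (h.coef hq) := Classical.choose_spec (h.exists_coef hq)

end IsSq

/-- the functionals `c J`, `J ≥ 1`, are unique -/
theorem IsCoef.unique {dX : X →ₗ[F2] X} {dY τ : Y →ₗ[F2] Y} {nab : X →ₗ[F2] X →ₗ[F2] Y}
    {dg : X →ₗ[F2] Y} {h : IsSq dX dY τ nab dg} {c c' : ℕ → Hd (QD dY τ) →ₗ[F2] Hd dX}
    (hc : IsCoef h c) (hc' : IsCoef h c') (J : ℕ) (hJ : 1 ≤ J) : c J = c' J := by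
  refine LinearMap.ext fun ζ => hc.ind (P := fun ζ => c J ζ = c' J ζ) (by simp) ?_ ?_ ?_ ζ
  · intro x y hx hy; rw [map_add, map_add, hx, hy]
  · intro m x; rw [hc.c_G _ hJ, hc'.c_G _ hJ]
  · intro x y; rw [hc.c_T0 _ hJ, hc'.c_T0 _ hJ]

/-! ## Künneth -/

variable {X' Y' X'' Y'' : Type}
  [AddCommGroup X'] [Module F2 X'] [AddCommGroup Y'] [Module F2 Y']
  [AddCommGroup X''] [Module F2 X''] [AddCommGroup Y''] [Module F2 Y'']

theorem span_hd2 {dX : X →ₗ[F2] X} {dX' : X' →ₗ[F2] X'} {dX'' : X'' →ₗ[F2] X''}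
    (hdd : ∀ x, dX (dX x) = 0) (hdd' : ∀ x, dX' (dX' x) = 0) (cr : X →ₗ[F2] X' →ₗ[F2] X'')
    (leib : ∀ x y, dX'' (cr x y) = cr (dX x) y + cr x (dX' y))
    (hq : QI (QC134.dT dX dX') dX'' (TensorProduct.lift cr)) (w : Hd dX'') :
    w ∈ Submodule.span F2 (Set.range fun p : Hd dX × Hd dX' => hd2 cr leib p.1 p.2) := by
  obtain ⟨J, b, hb⟩ := exists_HBasis dX
  obtain ⟨J', b', hb'⟩ := exists_HBasis dX'
  have hB := (hb.tensor hdd hdd' hb').map hq
  rw [← hB.toBasis.linearCombination_repr w, Finsupp.linearCombination_apply, Finsupp.sum]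
  refine Submodule.sum_mem _ fun p _ => Submodule.smul_mem _ _ (Submodule.subset_span ?_)
  refine ⟨(Hd.mk dX (b p.1) (hb.cyc p.1), Hd.mk dX' (b' p.2) (hb'.cyc p.2)), ?_⟩
  rw [HBasis.toBasis_apply]
  rfl

theorem IsCross.of_qi {dX : X →ₗ[F2] X} {dY τ : Y →ₗ[F2] Y} {nab : X →ₗ[F2] X →ₗ[F2] Y}
    {dg : X →ₗ[F2] Y} {dX' : X' →ₗ[F2] X'} {dY' τ' : Y' →ₗ[F2] Y'}
    {nab' : X' →ₗ[F2] X' →ₗ[F2] Y'} {dg' : X' →ₗ[F2] Y'}
    {dX'' : X'' →ₗ[F2] X''} {dY'' τ'' : Y'' →ₗ[F2] Y''} {nab'' : X'' →ₗ[F2] X'' →ₗ[F2] Y''}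
    {dg'' : X'' →ₗ[F2] Y''}
    {h : IsSq dX dY τ nab dg} {h' : IsSq dX' dY' τ' nab' dg'}
    {h'' : IsSq dX'' dY'' τ'' nab'' dg''} {cr : X →ₗ[F2] X' →ₗ[F2] X''}
    {cr2 : Y →ₗ[F2] Y' →ₗ[F2] Y''}
    (leib : ∀ x y, dX'' (cr x y) = cr (dX x) y + cr x (dX' y))
    (leib2 : ∀ a b, dY'' (cr2 a b) = cr2 (dY a) b + cr2 a (dY' b))
    (eqv : ∀ a b, τ'' (cr2 a b) = cr2 (τ a) (τ' b))
    (nab_nab : ∀ u u' v v', cr2 (nab u u') (nab' v v') = nab'' (cr u v) (cr u' v'))
    (dg_dg : ∀ x y, cr2 (dg x) (dg' y) = dg'' (cr x y))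
    (hqX : QI (QC134.dT dX dX') dX'' (TensorProduct.lift cr))
    (hqY : QI (QC134.dT dY dY') dY'' (TensorProduct.lift cr2)) : IsCross h h' h'' cr cr2 where
  leib := leib
  leib2 := leib2
  eqv := eqv
  nab_nab := nab_nab
  dg_dg := dg_dg
  kun := span_hd2 h.dd h'.dd cr leib hqX
  inj2 := by
    intro w hw hv
    have htt : ∀ x : Y ⊗[F2] Y', TensorProduct.map τ τ' (TensorProduct.map τ τ' x) = x := by
      intro x
      induction x using TensorProduct.induction_on with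
      | zero => simp
      | add x y hx hy => simp only [map_add, hx, hy]
      | tmul x y => simp [h.tt, h'.tt]
    have hc : ∀ x : Y ⊗[F2] Y', TensorProduct.map τ τ' (QC134.dT dY dY' x) =
        QC134.dT dY dY' (TensorProduct.map τ τ' x) := by
      intro x
      induction x using TensorProduct.induction_on with
      | zero => simp
      | add x y hx hy => simp only [map_add, hx, hy]
      | tmul x y => simp [h.dt, h'.dt]
    have he : ∀ x : Y ⊗[F2] Y', TensorProduct.lift cr2 (TensorProduct.map τ τ' x) =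
        τ'' (TensorProduct.lift cr2 x) := by
      intro x
      induction x using TensorProduct.induction_on with
      | zero => simp
      | add x y hx hy => simp only [map_add, hx, hy]
      | tmul x y => simp [eqv]
    have hQ := hqY.Q (QC134.dT_dT h.ddY h'.ddY) h''.ddY htt h''.tt hc (fun x => (h''.dt x).symm) he
    rw [QD_eq, QD_eq] at hQ
    exact hQ.inj w hw hv

end Crest.Agent.R204.Q888
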