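import Crest.Agent.R204.ConeH_670

/-!
# Row 204, block E5 (algebraic part): the cofibre of a spherical class as an extension of modules over
the (lower) Steenrod squares.

Everything is stated for plain modules over `F2` with operators `Sq a` lowering the degree and a linear
coproduct; nothing else is assumed about the coproduct.
-/

set_option autoImplicit false

open scoped TensorProduct

namespace Crest.Agent.R204.CofAlg670

open Crest.Agent.R204 Finset

/-- `u ⊗ u` followed by multiplication. -/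
noncomputable def sqPair {E : Type*} [AddCommGroup E] [Module F2 E] (u : E →ₗ[F2] F2) :
    E ⊗[F2] E →ₗ[F2] F2 :=
  LinearMap.mul' F2 F2 ∘ₗ TensorProduct.map u u

@[simp] theorem sqPair_tmul {E : Type*} [AddCommGroup E] [Module F2 E] (u : E →ₗ[F2] F2) (x y : E) :
    sqPair u (x ⊗ₜ[F2] y) = u x * u y := by
  simp [sqPair]

theorem F2_mul_self (a : F2) : a * a = a := by
  revert a; decide

theorem F2_add_self {E : Type*} [AddCommGroup E] [Module F2 E] (x : E) : x + x = 0 := by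
  rw [← two_smul F2 x]
  have : (2 : F2) = 0 := by decide
  rw [this, zero_smul]

/-- linear functionals separate points over `F2`. -/
theorem ext_functional {E : Type*} [AddCommGroup E] [Module F2 E] {x y : E}
    (h : ∀ u : E →ₗ[F2] F2, u x = u y) : x = y := by
  rw [← sub_eq_zero]
  exact (Module.forall_dual_apply_eq_zero_iff F2 (x - y)).1 fun u => by rw [map_sub, h u, sub_self]

section

variable {C E : Type*} [AddCommGroup C] [Module F2 C] [AddCommGroup E] [Module F2 E]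

/-- `Δ (Sq^a τ)` is primitive for `a ≥ 1` if the reduced coproduct of `τ` is `η ⊗ η` with `η`
annihilated by all `Sq^a`, `a ≥ 1`. -/
theorem coprod_sq_top (Δ : E →ₗ[F2] E ⊗[F2] E) (Sq : ℕ → E →ₗ[F2] E)
    (h0 : ∀ x, Sq 0 x = x)
    (cartan : ∀ a y, Δ (Sq a y) = ∑ p ∈ antidiagonal a, TensorProduct.map (Sq p.1) (Sq p.2) (Δ y))
    {b η τ : E} (hb : ∀ a, 1 ≤ a → Sq a b = 0) (hη : ∀ a, 1 ≤ a → Sq a η = 0)
    (hτ : Δ τ = b ⊗ₜ[F2] τ + τ ⊗ₜ[F2] b + η ⊗ₜ[F2] η) {a : ℕ} (ha : 1 ≤ a) :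
    Δ (Sq a τ) = b ⊗ₜ[F2] Sq a τ + Sq a τ ⊗ₜ[F2] b := by
  rw [cartan, hτ]
  simp only [map_add, TensorProduct.map_tmul, Finset.sum_add_distrib]
  have e1 : ∑ p ∈ antidiagonal a, (Sq p.1 b) ⊗ₜ[F2] (Sq p.2 τ) = b ⊗ₜ[F2] Sq a τ := by
    rw [Finset.sum_eq_single (0, a)]
    · simp [h0]
    · rintro ⟨i, j⟩ hij hne
      have : 1 ≤ i := by
        rw [Finset.HasAntidiagonal.mem_antidiagonal] at hij
        rcases Nat.eq_zero_or_pos i with rfl | h
        · simp only [zero_add] at hij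
          subst hij
          exact absurd rfl hne
        · exact h
      simp [hb i this]
    · intro h
      exact absurd (by simp) h
  have e2 : ∑ p ∈ antidiagonal a, (Sq p.1 τ) ⊗ₜ[F2] (Sq p.2 b) = Sq a τ ⊗ₜ[F2] b := by
    rw [Finset.sum_eq_single (a, 0)]
    · simp [h0]
    · rintro ⟨i, j⟩ hij hne
      have : 1 ≤ j := by
        rw [Finset.HasAntidiagonal.mem_antidiagonal] at hij
        rcases Nat.eq_zero_or_pos j with rfl | h
        · simp only [add_zero] at hij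
          subst hij
          exact absurd rfl hne
        · exact h
      simp [hb j this]
    · intro h
      exact absurd (by simp) h
  have e3 : ∑ p ∈ antidiagonal a, (Sq p.1 η) ⊗ₜ[F2] (Sq p.2 η) = 0 := by
    apply Finset.sum_eq_zero
    rintro ⟨i, j⟩ hij
    rw [Finset.HasAntidiagonal.mem_antidiagonal] at hij
    simp only at hij
    rcases Nat.eq_zero_or_pos i with rfl | h
    · rw [hη j (by omega), TensorProduct.tmul_zero]
    · rw [hη i h, TensorProduct.zero_tmul]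
  rw [e1, e2, e3, add_zero]

/-- top square: `Sq^{m+1} τ = η`. -/
theorem sq_top_eq (Δ : E →ₗ[F2] E ⊗[F2] E) (S : E →ₗ[F2] E) {b η τ : E}
    (hS : ∀ u : E →ₗ[F2] F2, u (S τ) = sqPair u (Δ τ))
    (hτ : Δ τ = b ⊗ₜ[F2] τ + τ ⊗ₜ[F2] b + η ⊗ₜ[F2] η) : S τ = η := by
  apply ext_functional
  intro u
  rw [hS, hτ]
  simp only [map_add, sqPair_tmul]
  rw [mul_comm (u b), F2_add_self, zero_add, F2_mul_self]

/-- primitivity descends along an injective map of "coalgebras". -/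
theorem primitive_descend (ι : C →ₗ[F2] E) (hι : Function.Injective ι)
    (ΔC : C →ₗ[F2] C ⊗[F2] C) (ΔE : E →ₗ[F2] E ⊗[F2] E)
    (hΔ : ∀ c, ΔE (ι c) = TensorProduct.map ι ι (ΔC c)) {bC c : C}
    (h : ΔE (ι c) = ι bC ⊗ₜ[F2] ι c + ι c ⊗ₜ[F2] ι bC) :
    ΔC c = bC ⊗ₜ[F2] c + c ⊗ₜ[F2] bC := by
  have hinj : Function.Injective (TensorProduct.map ι ι) := by
    have h1 : Function.Injective (LinearMap.lTensor E ι) := Module.Flat.lTensor_preserves_injective_linearMap ι hι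
    have h2 : Function.Injective (LinearMap.rTensor C ι) := Module.Flat.rTensor_preserves_injective_linearMap ι hι
    have h3 : TensorProduct.map ι ι = (LinearMap.lTensor E ι) ∘ₗ (LinearMap.rTensor C ι) := by
      rw [LinearMap.lTensor, LinearMap.rTensor, ← TensorProduct.map_comp]
      rfl
    rw [h3]
    exact h1.comp h2
  apply hinj
  rw [← hΔ, h]
  simp

/-- **The abstract cofibre theorem** (section 05 of the paper, output `COF`).

`C = H(Y)`, `E = H(Y ∪ e^{2m+2})`, `ι` the inclusion, `top` the coefficient of the top cell. -/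
theorem cofibre (ι : C →ₗ[F2] E) (hι : Function.Injective ι) (top : E →ₗ[F2] F2)
    (htop : ∀ y, top y = 0 → ∃ c, ι c = y)
    (grC : ℕ → Submodule F2 C) (grE : ℕ → Submodule F2 E)
    (hgr : ∀ n c, ι c ∈ grE n → c ∈ grC n)
    (ΔC : C →ₗ[F2] C ⊗[F2] C) (ΔE : E →ₗ[F2] E ⊗[F2] E)
    (hΔ : ∀ c, ΔE (ι c) = TensorProduct.map ι ι (ΔC c))
    (SqC : ℕ → C →ₗ[F2] C) (SqE : ℕ → E →ₗ[F2] E)
    (hSq : ∀ a c, SqE a (ι c) = ι (SqC a c))
    (h0 : ∀ x, SqE 0 x = x)
    (hdeg : ∀ n a y, y ∈ grE (n + a) → SqE a y ∈ grE n)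
    (hbig : ∀ n a y, y ∈ grE n → n < a → SqE a y = 0)
    (cartan : ∀ a y, ΔE (SqE a y) = ∑ p ∈ antidiagonal a, TensorProduct.map (SqE p.1) (SqE p.2) (ΔE y))
    (m : ℕ)
    (htopgr : ∀ n y, n ≠ 2 * m + 2 → y ∈ grE n → top y = 0)
    {bC η : C} {τ : E} (hb : ∀ a, 1 ≤ a → SqC a bC = 0) (hη : ∀ a, 1 ≤ a → SqC a η = 0)
    (hτgr : τ ∈ grE (2 * m + 2))
    (hτ : ΔE τ = ι bC ⊗ₜ[F2] τ + τ ⊗ₜ[F2] ι bC + ι η ⊗ₜ[F2] ι η)
    (hsq : ∀ u : E →ₗ[F2] F2, u (SqE (m + 1) τ) = sqPair u (ΔE τ)) :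
    (∀ a, 1 ≤ a → ∃ c, SqE a τ = ι c ∧ ΔC c = bC ⊗ₜ[F2] c + c ⊗ₜ[F2] bC ∧
        (∀ n, n + a = 2 * m + 2 → c ∈ grC n)) ∧
      SqE (m + 1) τ = ι η := by
  refine ⟨fun a ha => ?_, sq_top_eq ΔE (SqE (m + 1)) hsq hτ⟩
  have hb' : ∀ a, 1 ≤ a → SqE a (ι bC) = 0 := fun a ha => by rw [hSq, hb a ha, map_zero]
  have hη' : ∀ a, 1 ≤ a → SqE a (ι η) = 0 := fun a ha => by rw [hSq, hη a ha, map_zero]
  have hp := coprod_sq_top ΔE SqE h0 cartan hb' hη' hτ ha
  have hz : top (SqE a τ) = 0 := by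
    rcases Nat.lt_or_ge (2 * m + 2) a with hlt | hge
    · rw [hbig _ _ _ hτgr hlt, map_zero]
    · obtain ⟨n, hn⟩ := Nat.exists_eq_add_of_le' hge
      exact htopgr n _ (by omega) (hdeg n a τ (by rw [← hn]; exact hτgr))
  obtain ⟨c, hc⟩ := htop _ hz
  refine ⟨c, hc.symm, ?_, ?_⟩
  · apply primitive_descend ι hι ΔC ΔE hΔ
    rw [hc]; exact hp
  · intro n hn
    apply hgr
    rw [hc]
    exact hdeg n a τ (by rw [hn]; exact hτgr)

end

end Crest.Agent.R204.CofAlg670
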