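import Crest.Agent.R204.CofAlg_670
import Crest.Agent.R204.Cone_330

/-!
# Row 204, block E: the extension `0 → PH(K) → E → F2 τ → 0` for the simplicial cone `Cone K b x`,
from a package `StPkg` of coproduct + dual Steenrod squares on `H F2 K`.
-/

set_option autoImplicit false

open scoped TensorProduct

namespace Crest.Agent.R204.Cofib670

open Crest.Agent.R204 Finset ConeH670 CofAlg670 Cone330

/-! ## the simplicial cone as an algebraic cone -/

section Cone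

variable {K : SS} {b : K.S 0} {M : ℕ} {x : K.S M} (hx : IsSph b x)

/-- 330's cone is an instance of `ConeData` -/
theorem coneData (R : Type) [CommRing R] (hM : 0 < M) :
    ConeData (N.bd R K) (N.bd R (Cone K b x hx)) (N.map R (incl hx)) (N.sx R (top hx)) (N.sx R x)
      (coef hx R) where
  inj := map_incl_injective hx
  comm m := (LinearMap.congr_fun (N.map_bd (incl hx)) m).symm
  de := bd_top hx R hM
  pi := coef_incl hx
  pe := coef_top hx R
  decomp y := ⟨_, decomp hx y⟩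

theorem inc_eq (R : Type) [CommRing R] (hM : 0 < M) (c : H R K) :
    (coneData hx R hM).inc c = H.map R (incl hx) c := rfl

/-- induction on homogeneous chains -/
theorem gr_induction {R : Type} [CommRing R] {L : SS} {n : ℕ} {p : N R L → Prop} {c : N R L}
    (hc : c ∈ N.gr R L n) (h0 : p 0) (hadd : ∀ a b, p a → p b → p (a + b))
    (hs : ∀ (r : R) (y : L.S n), p (r • N.sx R y)) : p c := by
  obtain ⟨c, hc', rfl⟩ := hc
  have : ∀ c ∈ Ch.gr R L n, p (Submodule.mkQ _ c) := by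
    intro c hc
    refine Submodule.span_induction (p := fun c _ => ∀ r : R, p (Submodule.mkQ _ (r • c)))
      ?_ ?_ ?_ ?_ hc 1 |> fun h => by simpa using h
    · rintro _ ⟨y, rfl⟩ r
      rw [map_smul]
      exact hs r y
    · intro r
      rw [smul_zero, map_zero]; exact h0
    · intro a b _ _ ha hb r
      rw [smul_add, map_add]; exact hadd _ _ (ha r) (hb r)
    · intro s a _ ha r
      rw [smul_smul]; exact ha _
  exact this c hc'

theorem sx_mem_gr {R : Type} [CommRing R] {L : SS} {n : ℕ} (y : L.S n) : N.sx R y ∈ N.gr R L n :=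
  ⟨_, Submodule.subset_span ⟨y, rfl⟩, rfl⟩

theorem map_mem_gr {R : Type} [CommRing R] {K L : SS} (f : SS.Hom K L) {n : ℕ} {c : N R K}
    (hc : c ∈ N.gr R K n) : N.map R f c ∈ N.gr R L n := by
  refine gr_induction (p := fun c => N.map R f c ∈ N.gr R L n) hc ?_ ?_ ?_
  · rw [map_zero]; exact zero_mem _
  · intro a b ha hb; rw [map_add]; exact add_mem ha hb
  · intro r y; rw [map_smul, N.map_sx]; exact Submodule.smul_mem _ _ (sx_mem_gr _)

theorem coef_gr {R : Type} [CommRing R] {n : ℕ} (hn : n ≠ M + 1) {c : N R (Cone K b x hx)}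
    (hc : c ∈ N.gr R (Cone K b x hx) n) : coef hx R c = 0 := by
  refine gr_induction (p := fun c => coef hx R c = 0) hc ?_ ?_ ?_
  · rw [map_zero]
  · intro a b ha hb; rw [map_add, ha, hb, add_zero]
  · intro r y
    rw [map_smul]
    rcases y with y | θ
    · change r • coef hx R (N.sx R ((incl hx).app n y)) = 0
      rw [coef_inl, smul_zero]
    · change r • coefCh hx R (Finsupp.single ⟨n, Sum.inr θ⟩ 1) = 0
      rw [coefCh_inr, if_neg hn, smul_zero]

theorem proj_gr {R : Type} [CommRing R] {n : ℕ} {c : N R (Cone K b x hx)}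
    (hc : c ∈ N.gr R (Cone K b x hx) n) : proj hx R c ∈ N.gr R K n := by
  refine gr_induction (p := fun c => proj hx R c ∈ N.gr R K n) hc ?_ ?_ ?_
  · rw [map_zero]; exact zero_mem _
  · intro a b ha hb; rw [map_add]; exact add_mem ha hb
  · intro r y
    rw [map_smul]
    refine Submodule.smul_mem _ _ ?_
    rcases y with y | θ
    · change proj hx R (N.sx R ((incl hx).app n y)) ∈ _
      rw [proj_inl]; exact sx_mem_gr _
    · change (Submodule.Quotient.mk (projCh hx R (Finsupp.single ⟨n, Sum.inr θ⟩ 1)) : N R K) ∈ _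
      rw [projCh_inr]; exact zero_mem _

theorem mem_H_gr {R : Type} [CommRing R] {L : SS} {n : ℕ} {y : H R L} :
    y ∈ H.gr R L n ↔ ∃ z, ∃ hz : N.bd R L z = 0, z ∈ N.gr R L n ∧ Hd.mk _ z hz = y := by
  constructor
  · rintro ⟨⟨z, hz⟩, hzn, rfl⟩
    exact ⟨z, hz, hzn, rfl⟩
  · rintro ⟨z, hz, hzn, rfl⟩
    exact ⟨⟨z, hz⟩, hzn, rfl⟩

theorem H_map_mem_gr {R : Type} [CommRing R] {K L : SS} (f : SS.Hom K L) {n : ℕ} {c : H R K}
    (hc : c ∈ H.gr R K n) : H.map R f c ∈ H.gr R L n := by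
  obtain ⟨z, hz, hzn, rfl⟩ := mem_H_gr.1 hc
  exact mem_H_gr.2 ⟨N.map R f z, _, map_mem_gr f hzn, rfl⟩

/-- homogeneous classes of the cone coming from `K` come from homogeneous classes -/
theorem mem_gr_of_inc {R : Type} [CommRing R] (hM : 0 < M)
    (hinj : Function.Injective (coneData hx R hM).inc) {n : ℕ} {c : H R K}
    (hc : (coneData hx R hM).inc c ∈ H.gr R _ n) : c ∈ H.gr R K n := by
  obtain ⟨z, hz, hzn, he⟩ := mem_H_gr.1 hc
  have h1 : coef hx R z = 0 := by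
    have := congrArg (coneData hx R hM).top he
    rwa [ConeData.top_inc, ConeData.top_mk] at this
  have h2 : z = N.map R (incl hx) (proj hx R z) := by
    conv_lhs => rw [decomp hx z, h1, zero_smul, add_zero]
  have h3 : N.bd R K (proj hx R z) = 0 := by
    have := (bd_eq_zero_iff hx hM z).1 hz
    rwa [h1, zero_smul, add_zero] at this
  have h4 : c = Hd.mk _ (proj hx R z) h3 := by
    apply hinj
    rw [ConeData.inc_mk, ← he, Hd.mk_eq_mk]
    exact ⟨0, by rw [← h2, sub_self, map_zero]⟩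
  rw [h4]
  exact mem_H_gr.2 ⟨_, h3, proj_gr hx hzn, rfl⟩

end Cone

/-! ## coproduct + Steenrod package -/

/-- coproduct and dual Steenrod squares on `H F2 K`, with the properties used for the cofibre. -/
structure StPkg where
  cop : ∀ K : SS, H F2 K →ₗ[F2] H F2 K ⊗[F2] H F2 K
  cop_nat : ∀ {K L : SS} (f : SS.Hom K L) (y : H F2 K),
    cop L (H.map F2 f y) = TensorProduct.map (H.map F2 f) (H.map F2 f) (cop K y)
  Sq : ∀ K : SS, ℕ → (H F2 K →ₗ[F2] H F2 K)
  Sq_nat : ∀ {K L : SS} (f : SS.Hom K L) (a : ℕ) (y : H F2 K),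
    Sq L a (H.map F2 f y) = H.map F2 f (Sq K a y)
  Sq_zero : ∀ (K : SS) (y : H F2 K), Sq K 0 y = y
  Sq_deg : ∀ (K : SS) (n a : ℕ) (y : H F2 K), y ∈ H.gr F2 K (n + a) → Sq K a y ∈ H.gr F2 K n
  Sq_unst : ∀ (K : SS) (n a : ℕ) (y : H F2 K), y ∈ H.gr F2 K n → n < 2 * a → Sq K a y = 0
  cartan : ∀ (K : SS) (a : ℕ) (y : H F2 K), cop K (Sq K a y) =
    ∑ p ∈ antidiagonal a, TensorProduct.map (Sq K p.1) (Sq K p.2) (cop K y)
  topSq : ∀ (K : SS) (n : ℕ) (y : H F2 K), y ∈ H.gr F2 K (2 * n) →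
    ∀ u : H F2 K →ₗ[F2] F2, u (Sq K n y) = sqPair u (cop K y)

/-- class of a vertex -/
noncomputable def vtx {K : SS} (b : K.S 0) : H F2 K :=
  Hd.mk _ (N.sx F2 b) (by
    rw [N.sx, N.bd_mk, Ch.bd_single_zero]; rfl)

theorem vtx_mem {K : SS} (b : K.S 0) : vtx b ∈ H.gr F2 K 0 := mem_H_gr.2 ⟨_, _, sx_mem_gr b, rfl⟩

/-- **output of block E** (`COF`) -/
theorem cofib (S : StPkg) {K : SS} {b : K.S 0} (m : ℕ) {x : K.S (2 * m + 1)} (hx : IsSph b x)
    {v : N F2 K} (hv : N.bd F2 K v = N.sx F2 x) {η : H F2 K}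
    (hη : ∀ a, 1 ≤ a → S.Sq K a η = 0)
    {T : N F2 (Cone K b x hx)} (hT : N.bd F2 _ T = 0) (hTgr : T ∈ N.gr F2 _ (2 * m + 2))
    (_hT1 : coef hx F2 T = 1)
    (hcop : S.cop _ (Hd.mk _ T hT) =
      H.map F2 (incl hx) (vtx b) ⊗ₜ[F2] Hd.mk _ T hT + Hd.mk _ T hT ⊗ₜ[F2] H.map F2 (incl hx) (vtx b)
        + H.map F2 (incl hx) η ⊗ₜ[F2] H.map F2 (incl hx) η) :
    Function.Injective (H.map F2 (incl hx)) ∧
    ∃ c : ℕ → H F2 K,
      (∀ a, 1 ≤ a → S.Sq _ a (Hd.mk _ T hT) = H.map F2 (incl hx) (c a)) ∧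
      (∀ a, 1 ≤ a → S.cop K (c a) = vtx b ⊗ₜ[F2] c a + c a ⊗ₜ[F2] vtx b) ∧
      (∀ a, 1 ≤ a → a ≤ 2 * m + 1 → c a ∈ H.gr F2 K (2 * m + 2 - a)) ∧
      (∀ a, 2 * m + 1 < a → c a = 0) ∧
      c (m + 1) = η := by
  have hM : 0 < 2 * m + 1 := Nat.succ_pos _
  have hinj : Function.Injective (coneData hx F2 hM).inc :=
    (coneData hx F2 hM).inc_injective hv N.bd_bd
  have hinj' : Function.Injective (H.map F2 (incl hx)) := hinj
  have hTcl : Hd.mk _ T hT ∈ H.gr F2 (Cone K b x hx) (2 * m + 2) := mem_H_gr.2 ⟨T, hT, hTgr, rfl⟩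
  have hb : ∀ a, 1 ≤ a → S.Sq K a (vtx b) = 0 := fun a ha =>
    S.Sq_unst K 0 a _ (vtx_mem b) (by omega)
  have hbig : ∀ n a (y : H F2 (Cone K b x hx)), y ∈ H.gr F2 _ n → n < a → S.Sq _ a y = 0 :=
    fun n a y hy hna => S.Sq_unst _ n a y hy (by omega)
  obtain ⟨h1, h2⟩ := cofibre (C := H F2 K) (E := H F2 (Cone K b x hx)) (H.map F2 (incl hx)) hinj'
    (coneData hx F2 hM).top (fun y hy => (coneData hx F2 hM).exists_inc hy)
    (H.gr F2 K) (H.gr F2 _) (fun n c hc => mem_gr_of_inc hx hM hinj hc)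
    (S.cop K) (S.cop _) (S.cop_nat _) (S.Sq K) (S.Sq _) (S.Sq_nat _) (S.Sq_zero _)
    (fun n a y hy => S.Sq_deg _ n a y hy) hbig (S.cartan _) m
    (fun n y hn hy => by
      obtain ⟨z, hz, hzn, rfl⟩ := mem_H_gr.1 hy
      rw [ConeData.top_mk]
      exact coef_gr hx hn hzn)
    hb hη hTcl hcop (S.topSq _ (m + 1) _ hTcl)
  refine ⟨hinj', ?_⟩
  classical
  have hex : ∀ a, ∃ c : H F2 K, 1 ≤ a → (S.Sq _ a (Hd.mk _ T hT) = H.map F2 (incl hx) c ∧
      S.cop K c = vtx b ⊗ₜ[F2] c + c ⊗ₜ[F2] vtx b ∧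
      (∀ n, n + a = 2 * m + 2 → c ∈ H.gr F2 K n)) := by
    intro a
    by_cases ha : 1 ≤ a
    · obtain ⟨c, hc⟩ := h1 a ha
      exact ⟨c, fun _ => hc⟩
    · exact ⟨0, fun h => absurd h ha⟩
  choose c hc using hex
  refine ⟨c, fun a ha => (hc a ha).1, fun a ha => (hc a ha).2.1,
    fun a ha ha' => (hc a ha).2.2 _ (by omega), fun a ha => ?_, ?_⟩
  · apply hinj'
    rw [← (hc a (by omega)).1, map_zero]
    exact S.Sq_unst _ _ a _ hTcl (by omega)
  · apply hinj'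
    rw [← (hc (m + 1) (by omega)).1, h2]

end Crest.Agent.R204.Cofib670
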