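import Crest.Agent.R204.CrossInst_477

/-!
# Row 204, leaf H10 (helper477): the cube chain and the simplex collapse

* `E_one` : `E p 1 = main + (simplices avoiding the vertex (p, 0))`
* `zc_main` : `zc n = [main simplex] + (simplices inside some `x i ≤ x (i+1)`)`
* `rho n : C(Fin n → I, Δ^n)`, `pf_rho : pf (a ∘ rho) (zc n) = sx a` for simplices `a` with constant boundary
-/

set_option autoImplicit false

namespace Crest.Agent.R204.HopfF2477

open SS Finsupp EZ271

/-! ## the universal chain `E p 1` -/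

/-- `i ↦ 1` iff `i = p + 1` -/
def blast (p : ℕ) : Op (p + 1) 1 :=
  ⟨fun i => if (i : ℕ) = p + 1 then 1 else 0, by
    intro i j hij
    dsimp only
    have h1 := i.2; have h2 := j.2
    have h3 : (i : ℕ) ≤ j := hij
    split_ifs with h h'
    · exact le_rfl
    · omega
    · exact Fin.zero_le _
    · exact le_rfl⟩

/-- pairs of monotone maps as simplices -/
def mkE {m p q : ℕ} (α : Op m p) (β : Op m q) : ((SS.std p).prod (SS.std q)).S m := (α, β)

/-- the main simplex of `Δ^p × Δ^1` -/
def mainE (p : ℕ) : ((SS.std p).prod (SS.std 1)).S (p + 1) := mkE (Op.dgn (Fin.last p)) (blast p)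

theorem c_map {m p q p' q' : ℕ} (f : Hom (SS.std p) (SS.std p')) (g : Hom (SS.std q) (SS.std q'))
    (x : ((SS.std p).prod (SS.std q)).S m) :
    (Cpq p' q').c F2 (N.map F2 (SS.prodMap f g) (N.sx F2 x)) =
      N.sx F2 ((Cpq p' q').k ((SS.prodMap f g).app m x)) := by
  rw [N.map_sx, Cone.c_sx]

/-- simplices avoiding the vertex `(p, 0)` -/
noncomputable def avoidE (p : ℕ) : Submodule F2 (N F2 ((SS.std p).prod (SS.std 1))) :=
  Submodule.span F2 {c | ∃ (α : Op (p + 1) p) (β : Op (p + 1) 1),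
    (∀ i : Fin (p + 2), ¬ ((α i : ℕ) = p ∧ (β i : ℕ) = 0)) ∧
      c = N.sx F2 (mkE α β)}

theorem E_one (p : ℕ) : ∃ w ∈ avoidE p, E F2 p 1 = N.sx F2 (mainE p) + w ∧ (p = 0 → w = 0) := by
  induction p with
  | zero =>
    refine ⟨0, Submodule.zero_mem _, ?_, fun _ => rfl⟩
    rw [add_zero, HtpInv334.E_zero_left]
    congr 1
    refine Prod.ext (HtpInv334.op_zero_ext _ _) (OrderHom.ext _ _ (funext fun i => ?_))
    fin_cases i <;> rfl
  | succ p ih =>
    obtain ⟨w, hw, hE, -⟩ := ih
    have h1 : ((-1 : F2)) ^ (p + 1) = 1 := by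
      have : (-1 : F2) = 1 := by decide
      rw [this, one_pow]
    refine ⟨(Cpq (p + 1) 1).c F2 (N.map F2 (SS.prodMap (stdMap (Op.face 0)) (SS.Hom.id _)) w) +
      (Cpq (p + 1) 1).c F2 (N.map F2 (SS.prodMap (SS.Hom.id _) (stdMap (Op.face 0)))
        (E F2 (p + 1) 0)), ?_, ?_, fun h => absurd h (by omega)⟩
    · refine Submodule.add_mem _ ?_ ?_
      · refine Submodule.span_induction (p := fun w _ => (Cpq (p + 1) 1).c F2 (N.map F2
          (SS.prodMap (stdMap (Op.face 0)) (SS.Hom.id _)) w) ∈ avoidE (p + 1)) ?_ ?_ ?_ ?_ hw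
        · rintro _ ⟨α, β, hx, rfl⟩
          have e : (Cpq (p + 1) 1).c F2 (N.map F2
              (SS.prodMap (stdMap (Op.face 0)) (SS.Hom.id _)) (N.sx F2 (mkE α β))) =
              N.sx F2 (mkE (Op.star α) (Op.cons β)) := c_map _ _ _
          rw [e]
          refine Submodule.subset_span ⟨_, _, fun i => ?_, rfl⟩
          induction i using Fin.cases with
          | zero =>
            rintro ⟨h, -⟩
            rw [Op.star_zero] at h
            simp at h
          | succ i =>
            rintro ⟨h, h'⟩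
            refine hx i ⟨?_, h'⟩
            rw [Op.star_succ, Fin.val_succ] at h
            omega
        · rw [map_zero, map_zero]; exact Submodule.zero_mem _
        · intro a b _ _ ha hb; rw [map_add, map_add]; exact Submodule.add_mem _ ha hb
        · intro r a _ ha; rw [map_smul, map_smul]; exact Submodule.smul_mem _ _ ha
      · have e : (Cpq (p + 1) 1).c F2 (N.map F2 (SS.prodMap (SS.Hom.id _) (stdMap (Op.face 0)))
              (E F2 (p + 1) 0)) =
              N.sx F2 (mkE (Op.cons (OrderHom.id : Op (p + 1) (p + 1)))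
                  (Op.cons ((Op.face 0).comp (HtpInv334.toZero (p + 1))))) := by
          rw [HtpInv334.E_zero_right]
          exact c_map (m := p + 1) (SS.Hom.id (SS.std (p + 1))) (stdMap (Op.face 0))
            (mkE (OrderHom.id : Op (p + 1) (p + 1)) (HtpInv334.toZero (p + 1)))
        rw [e]
        refine Submodule.subset_span ⟨_, _, fun i => ?_, rfl⟩
        induction i using Fin.cases with
        | zero =>
          rintro ⟨h, -⟩
          rw [Op.cons_zero] at h
          simp at h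
        | succ i =>
          rintro ⟨-, h'⟩
          rw [Op.cons_succ] at h'
          exact absurd h' (by
            show ((Op.face 0 : Op 0 1) (HtpInv334.toZero (p + 1) i) : ℕ) ≠ 0
            rw [face_zero_apply]; simp)
    · have e : (Cpq (p + 1) 1).c F2 (N.map F2
              (SS.prodMap (stdMap (Op.face 0)) (SS.Hom.id _)) (N.sx F2 (mainE p))) =
              N.sx F2 (mkE (Op.star (Op.dgn (Fin.last p))) (Op.cons (blast p))) := c_map _ _ _
      have e2 : mkE (Op.star (Op.dgn (Fin.last p))) (Op.cons (blast p)) = mainE (p + 1) := by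
        refine Prod.ext ?_ ?_
        · have := Op.star_dgn (Fin.last p)
          rw [Fin.succ_last] at this
          exact this
        · show Op.cons (blast p) = blast (p + 1)
          refine OrderHom.ext _ _ (funext fun i => ?_)
          induction i using Fin.cases with
          | zero =>
            rw [Op.cons_zero]
            show (0 : Fin 2) = if ((0 : Fin (p + 3)) : ℕ) = p + 1 + 1 then 1 else 0
            rw [if_neg (by simp)]
          | succ i =>
            rw [Op.cons_succ]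
            show (if (i : ℕ) = p + 1 then (1 : Fin 2) else 0) =
              if ((i.succ : Fin (p + 3)) : ℕ) = p + 1 + 1 then 1 else 0
            rw [Fin.val_succ]
            congr 1
            exact propext ⟨fun h => by omega, fun h => by omega⟩
      rw [E_succ_succ, h1, one_smul, hE, map_add, map_add, map_add, e, e2, add_assoc]

/-! ## affine simplices in cubes -/

/-- affine simplices in the cube -/
noncomputable def affn {n m : ℕ} (v : Fin (m + 1) → (Fin n → I)) :
    C(stdSimplex ℝ (Fin (m + 1)), Fin n → I) :=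
  ContinuousMap.pi fun i => aff fun j => v j i

theorem affn_act {n l m : ℕ} (f : Op l m) (v : Fin (m + 1) → (Fin n → I)) :
    (Sing (Fin n → I)).act f (affn v) = affn (fun j => v (f j)) := by
  refine ContinuousMap.ext fun t => funext fun i => ?_
  exact congrArg (fun g : C(_, I) => g t) (aff_act f fun j => v j i)

/-- vertices of the main simplex -/
def vt (n : ℕ) (j : Fin (n + 1)) : Fin n → I := fun i => if (i : ℕ) < j then 1 else 0

/-- the main simplex of the cube -/
noncomputable def M (n : ℕ) : C(stdSimplex ℝ (Fin (n + 1)), Fin n → I) := affn (vt n)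

/-- `Δ^n × Δ^1 → Sing I^{n+1}` -/
noncomputable def GG {n : ℕ} (σ : C(stdSimplex ℝ (Fin (n + 1)), Fin n → I)) :
    Hom ((SS.std n).prod (SS.std 1)) (Sing (Fin (n + 1) → I)) :=
  (SingMap (snocM n)).comp ((spr _ _).comp (prodMap ((Sing (Fin n → I)).yo (n := n) σ)
    ((Sing I).yo (n := 1) (aff ![0, 1]))))

theorem pf_GG {n : ℕ} (σ : C(stdSimplex ℝ (Fin (n + 1)), Fin n → I)) :
    pf (snocM n) (theCross.cr (N.sx F2 (K := Sing (Fin n → I)) (n := n) σ) iota) =
      N.map F2 (GG σ) (E F2 n 1) := by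
  show pf (snocM n) (crs _ _) = _
  rw [crs_apply]
  unfold HopfF2477.iota A1 pf
  rw [cross_sx F2 (K := Sing (Fin n → I)) (L := Sing I) (p := n) (q := 1) σ (aff ![0, 1]),
    ← Nmap_comp, ← Nmap_comp]; rfl

theorem GG_main (n : ℕ) : (GG (M n)).app (n + 1) (mainE n) = M (n + 1) := by
  have h1 : (GG (M n)).app (n + 1) (mainE n) = (snocM n).comp
      (((Sing (Fin n → I)).act (Op.dgn (Fin.last n)) (M n) : C(_, Fin n → I)).prodMk
        ((Sing I).act (blast n) (aff ![0, 1]) : C(_, I))) := rfl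
  rw [h1, M, affn_act, aff_act]
  refine ContinuousMap.ext fun t => funext fun i => ?_
  refine Fin.lastCases ?_ (fun i => ?_) i
  · show Fin.snoc (α := fun _ => I) _ (aff (fun i => ![0, 1] (blast n i)) t) (Fin.last n) =
      aff (fun j => vt (n + 1) j (Fin.last n)) t
    rw [Fin.snoc_last]
    congr 2
    funext j
    show (![0, 1] : Fin 2 → I) (if (j : ℕ) = n + 1 then 1 else 0) = if ((Fin.last n : Fin (n + 1)) : ℕ) < j then 1 else 0
    have := j.2
    rw [Fin.val_last]
    by_cases h : (j : ℕ) = n + 1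
    · rw [if_pos h, if_pos (by omega)]; rfl
    · rw [if_neg h, if_neg (by omega)]; rfl
  · show Fin.snoc (α := fun _ => I) (affn (fun j => vt n ((Op.dgn (Fin.last n)) j)) t) _ i.castSucc =
      aff (fun j => vt (n + 1) j i.castSucc) t
    rw [Fin.snoc_castSucc]
    show aff (fun j => vt n ((Op.dgn (Fin.last n)) j) i) t = _
    congr 2
    funext j
    show (if (i : ℕ) < ((Op.dgn (Fin.last n) j : Fin (n + 1)) : ℕ) then (1 : I) else 0) =
      if ((i.castSucc : Fin (n + 1)) : ℕ) < j then 1 else 0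
    rw [Ch.dgn_val, Fin.val_castSucc, Fin.val_last]
    have := i.2; have := j.2
    congr 1
    refine propext ?_
    split_ifs <;> omega

/-- simplices lying in some `x i ≤ x (i + 1)` -/
noncomputable def UU (n : ℕ) : Submodule F2 (N F2 (Sing (Fin n → I))) :=
  Submodule.span F2 {c | ∃ (σ : C(stdSimplex ℝ (Fin (n + 1)), Fin n → I)) (i : ℕ) (hi : i + 1 < n),
    (∀ t, σ t ⟨i, by omega⟩ ≤ σ t ⟨i + 1, hi⟩) ∧ c = N.sx F2 (K := Sing (Fin n → I)) (n := n) σ}

/-- the map of simplices induced by a monotone map -/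
noncomputable def amap {m n : ℕ} (α : Op m n) :
    C(stdSimplex ℝ (Fin (m + 1)), stdSimplex ℝ (Fin (n + 1))) :=
  ⟨stdSimplex.map α, stdSimplex.continuous_map α⟩

theorem GG_app {n m : ℕ} (σ : C(stdSimplex ℝ (Fin (n + 1)), Fin n → I)) (α : Op m n) (β : Op m 1) :
    (GG σ).app m (mkE α β) = ((snocM n).comp ((σ.comp (amap α)).prodMk
      (aff fun j => (![0, 1] : Fin 2 → I) (β j))) :
        C(stdSimplex ℝ (Fin (m + 1)), Fin (n + 1) → I)) := by
  have h1 : (GG σ).app m (mkE α β) = ((snocM n).comp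
      ((σ.comp (amap α)).prodMk
        ((Sing I).act β (aff ![0, 1]) : C(_, I))) : C(stdSimplex ℝ (Fin (m + 1)), Fin (n + 1) → I)) := rfl
  rw [h1, aff_act]

theorem GG_UU {n : ℕ} (σ : C(stdSimplex ℝ (Fin (n + 1)), Fin n → I)) (i : ℕ) (hi : i + 1 < n)
    (h : ∀ t, σ t ⟨i, by omega⟩ ≤ σ t ⟨i + 1, hi⟩) {c : N F2 ((SS.std n).prod (SS.std 1))}
    (hc : c ∈ N.gr F2 _ (n + 1)) : N.map F2 (GG σ) c ∈ UU (n + 1) := by
  refine N_gr_ind (p := fun c => N.map F2 (GG σ) c ∈ UU (n + 1)) c hc ?_ ?_ ?_
  · rw [map_zero]; exact Submodule.zero_mem _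
  · intro a b ha hb; rw [map_add]; exact Submodule.add_mem _ ha hb
  · intro x
    rw [N.map_sx]
    have key : ∀ (α : Op (n + 1) n) (β : Op (n + 1) 1) (t : stdSimplex ℝ (Fin (n + 1 + 1))),
        ((snocM n).comp ((σ.comp (amap α)).prodMk (aff fun j => (![0, 1] : Fin 2 → I) (β j)))) t
          ⟨i, by omega⟩ ≤
        ((snocM n).comp ((σ.comp (amap α)).prodMk (aff fun j => (![0, 1] : Fin 2 → I) (β j)))) t
          ⟨i + 1, by omega⟩ := by
      intro α β t
      have k1 : ∀ j : Fin n, Fin.snoc (α := fun _ => I) (σ (amap α t))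
          (aff (fun j => (![0, 1] : Fin 2 → I) (β j)) t) (Fin.castSucc j) = σ (amap α t) j :=
        fun j => Fin.snoc_castSucc (α := fun _ => I) _ _ _
      refine (le_of_eq (k1 ⟨i, by omega⟩)).trans (le_trans ?_ (le_of_eq (k1 ⟨i + 1, hi⟩).symm))
      exact h _
    refine Submodule.subset_span ⟨(GG σ).app (n + 1) x, i, by omega, fun t => ?_, rfl⟩
    have e : (GG σ).app (n + 1) x = _ := GG_app σ x.1 x.2
    rw [e]
    exact key x.1 x.2 t

theorem M_amap {n m : ℕ} (α : Op m n) : (M n).comp (amap α) = affn (fun j => vt n (α j)) :=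
  affn_act α (vt n)

theorem GG_avoid {n : ℕ} (hn : n ≠ 0) {w : N F2 ((SS.std n).prod (SS.std 1))} (hw : w ∈ avoidE n) :
    N.map F2 (GG (M n)) w ∈ UU (n + 1) := by
  refine Submodule.span_induction (p := fun w _ => N.map F2 (GG (M n)) w ∈ UU (n + 1)) ?_ ?_ ?_ ?_ hw
  · rintro _ ⟨α, β, hab, rfl⟩
    rw [N.map_sx]
    refine Submodule.subset_span ⟨(GG (M n)).app (n + 1) (mkE α β), n - 1, by omega, fun t => ?_, rfl⟩
    rw [GG_app, M_amap]
    have k1 : (snocM n) (affn (fun j => vt n (α j)) t, aff (fun j => (![0, 1] : Fin 2 → I) (β j)) t)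
        (⟨n - 1, by omega⟩ : Fin (n + 1)) = aff (fun j => vt n (α j) ⟨n - 1, by omega⟩) t := by
      have : (⟨n - 1, by omega⟩ : Fin (n + 1)) = Fin.castSucc ⟨n - 1, by omega⟩ := rfl
      rw [this]
      exact Fin.snoc_castSucc (α := fun _ => I) _ _ _
    have k2 : (snocM n) (affn (fun j => vt n (α j)) t, aff (fun j => (![0, 1] : Fin 2 → I) (β j)) t)
        (⟨n - 1 + 1, by omega⟩ : Fin (n + 1)) = aff (fun j => (![0, 1] : Fin 2 → I) (β j)) t := by
      have : (⟨n - 1 + 1, by omega⟩ : Fin (n + 1)) = Fin.last n := Fin.ext (by simp; omega)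
      rw [this]
      exact Fin.snoc_last (α := fun _ => I) _ _
    refine (le_of_eq k1).trans (le_trans ?_ (le_of_eq k2.symm))
    show ((aff (fun j => vt n (α j) ⟨n - 1, by omega⟩) t : I) : ℝ) ≤
      ((aff (fun j => (![0, 1] : Fin 2 → I) (β j)) t : I) : ℝ)
    rw [aff_coe, aff_coe]
    refine Finset.sum_le_sum fun j _ => mul_le_mul_of_nonneg_left ?_ (t.2.1 j)
    show ((vt n (α j) ⟨n - 1, by omega⟩ : I) : ℝ) ≤ (((![0, 1] : Fin 2 → I) (β j) : I) : ℝ)
    unfold vt
    by_cases h : n - 1 < (α j : ℕ)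
    · have h1 : (α j : ℕ) = n := by have := (α j).2; omega
      have h2 : (β j : ℕ) ≠ 0 := fun h' => hab j ⟨h1, h'⟩
      have h3 : β j = 1 := by
        have := (β j).2
        exact Fin.ext (by show (β j : ℕ) = 1; omega)
      rw [if_pos h, h3]; exact le_rfl
    · rw [if_neg h]; exact (((![0, 1] : Fin 2 → I) (β j)).2.1)
  · rw [map_zero]; exact Submodule.zero_mem _
  · intro a b _ _ ha hb; rw [map_add]; exact Submodule.add_mem _ ha hb
  · intro r a _ ha; rw [map_smul]; exact Submodule.smul_mem _ _ ha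

/-- the cube chain is the main simplex plus simplices with `x i ≤ x (i + 1)` -/
theorem zc_main (n : ℕ) : ∃ w ∈ UU n,
    theCross.zc n = N.sx F2 (K := Sing (Fin n → I)) (n := n) (M n) + w := by
  induction n with
  | zero =>
    refine ⟨0, Submodule.zero_mem _, ?_⟩
    rw [add_zero, Cross.zc_zero]
    refine congrArg (N.sx F2 (K := Sing (Fin 0 → I)) (n := 0)) ?_
    exact ContinuousMap.ext fun t => funext fun i => i.elim0
  | succ n ih =>
    obtain ⟨w, hw, hz⟩ := ih
    obtain ⟨w', hw', hE, h0⟩ := E_one n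
    refine ⟨N.map F2 (GG (M n)) w' + pf (snocM n) (theCross.cr w iota), ?_, ?_⟩
    · refine Submodule.add_mem _ ?_ ?_
      · by_cases hn : n = 0
        · rw [h0 hn, map_zero]; exact Submodule.zero_mem _
        · exact GG_avoid hn hw'
      · refine Submodule.span_induction (p := fun w _ => pf (snocM n) (theCross.cr w iota) ∈
          UU (n + 1)) ?_ ?_ ?_ ?_ hw
        · rintro _ ⟨σ, i, hi, hσ, rfl⟩
          rw [pf_GG]
          exact GG_UU σ i hi hσ (C5265.E_mem_gr F2 _ n 1 rfl)
        · rw [map_zero, LinearMap.zero_apply, map_zero]; exact Submodule.zero_mem _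
        · intro a b _ _ ha hb
          rw [map_add, LinearMap.add_apply, map_add]; exact Submodule.add_mem _ ha hb
        · intro r a _ ha
          rw [map_smul, LinearMap.smul_apply, map_smul]; exact Submodule.smul_mem _ _ ha
    · rw [Cross.zc_succ, hz, map_add theCross.cr, LinearMap.add_apply, map_add, pf_GG, hE, map_add,
        N.map_sx, GG_main, add_assoc]

/-- maps which are constant on the complement of the main simplex -/
theorem pf_main {X : Type} [TopologicalSpace X] (n : ℕ) (F : C(Fin (n + 1) → I, X)) (x0 : X)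
    (hF : ∀ (x : Fin (n + 1) → I) (i : ℕ) (hi : i + 1 < n + 1),
      x ⟨i, by omega⟩ ≤ x ⟨i + 1, hi⟩ → F x = x0) :
    pf F (theCross.zc (n + 1)) = N.sx F2 (K := Sing X) (n := n + 1) (F.comp (M (n + 1))) := by
  obtain ⟨w, hw, hz⟩ := zc_main (n + 1)
  have h0 : pf F w = 0 := by
    refine Submodule.span_induction (p := fun w _ => pf F w = 0) ?_ ?_ ?_ ?_ hw
    · rintro _ ⟨σ, i, hi, hσ, rfl⟩
      refine (pf_sx F (n := n + 1) σ).trans ?_
      have : F.comp σ = ContinuousMap.const _ x0 := ContinuousMap.ext fun t => hF _ i hi (hσ t)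
      rw [this]
      exact sx_const x0 n
    · rw [map_zero]
    · intro a b _ _ ha hb; rw [map_add, ha, hb, add_zero]
    · intro r a _ ha; rw [map_smul, ha, smul_zero]
  rw [hz, map_add, h0, add_zero]
  exact pf_sx F (n := n + 1) (M (n + 1))

/-! ## the retraction `rho` of the cube onto the simplex -/

/-- real coordinates -/
noncomputable def rx {n : ℕ} (x : Fin n → I) : Fin n → ℝ := fun i => (x i : ℝ)

/-- the barycentric coordinates (possibly negative) -/
noncomputable def tau {n : ℕ} (x : Fin n → I) (j : Fin (n + 1)) : ℝ :=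
  (Fin.cons 1 (rx x) : Fin (n + 1) → ℝ) j - (Fin.snoc (rx x) 0 : Fin (n + 1) → ℝ) j

theorem sum_tau {n : ℕ} (x : Fin n → I) : ∑ j, tau x j = 1 := by
  unfold tau
  rw [Finset.sum_sub_distrib, Fin.sum_cons, Fin.sum_snoc]
  ring

/-- positive parts -/
noncomputable def tp {n : ℕ} (x : Fin n → I) (j : Fin (n + 1)) : ℝ := max 0 (tau x j)

theorem tp_nonneg {n : ℕ} (x : Fin n → I) (j : Fin (n + 1)) : 0 ≤ tp x j := le_max_left _ _

theorem sum_tp {n : ℕ} (x : Fin n → I) : 1 ≤ ∑ j, tp x j := by
  rw [← sum_tau x]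
  exact Finset.sum_le_sum fun j _ => le_max_right _ _

theorem sum_tp_pos {n : ℕ} (x : Fin n → I) : 0 < ∑ j, tp x j := lt_of_lt_of_le one_pos (sum_tp x)

theorem continuous_tau {n : ℕ} (j : Fin (n + 1)) : Continuous fun x : Fin n → I => tau x j := by
  unfold tau
  refine Continuous.sub ?_ ?_
  · refine Fin.cases ?_ (fun i => ?_) j
    · simp only [Fin.cons_zero]; exact continuous_const
    · simp only [Fin.cons_succ, rx]
      exact continuous_subtype_val.comp (continuous_apply i)
  · refine Fin.lastCases ?_ (fun i => ?_) j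
    · simp only [Fin.snoc_last]; exact continuous_const
    · simp only [Fin.snoc_castSucc, rx]
      exact continuous_subtype_val.comp (continuous_apply i)

theorem continuous_tp {n : ℕ} (j : Fin (n + 1)) : Continuous fun x : Fin n → I => tp x j :=
  continuous_const.max (continuous_tau j)

/-- the retraction of the cube onto the simplex -/
noncomputable def rho (n : ℕ) : C(Fin n → I, stdSimplex ℝ (Fin (n + 1))) where
  toFun x := ⟨fun j => tp x j / ∑ k, tp x k, fun j => div_nonneg (tp_nonneg x j) (sum_tp_pos x).le, by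
    rw [← Finset.sum_div, div_self (sum_tp_pos x).ne']⟩
  continuous_toFun := by
    refine Continuous.subtype_mk (continuous_pi fun j => ?_) _
    exact (continuous_tp j).div (continuous_finsetSum _ fun k _ => continuous_tp k)
      (fun x => (sum_tp_pos x).ne')

theorem rho_apply {n : ℕ} (x : Fin n → I) (j : Fin (n + 1)) : rho n x j = tp x j / ∑ k, tp x k := rfl

theorem rho_eq_zero {n : ℕ} (x : Fin n → I) (j : Fin (n + 1)) (h : tau x j ≤ 0) : rho n x j = 0 := by
  rw [rho_apply, tp, max_eq_left h, zero_div]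

theorem cons_le {n : ℕ} (x : Fin n → I) (j : Fin (n + 1)) :
    (Fin.cons 1 (rx x) : Fin (n + 1) → ℝ) j ≤ 1 := by
  refine Fin.cases ?_ (fun i => ?_) j
  · rw [Fin.cons_zero]
  · rw [Fin.cons_succ]; exact (x i).2.2

theorem snoc_nonneg {n : ℕ} (x : Fin n → I) (j : Fin (n + 1)) :
    0 ≤ (Fin.snoc (rx x) 0 : Fin (n + 1) → ℝ) j := by
  refine Fin.lastCases ?_ (fun i => ?_) j
  · rw [Fin.snoc_last]
  · rw [Fin.snoc_castSucc]; exact (x i).2.1

theorem rho_castSucc {n : ℕ} (x : Fin n → I) (i : Fin n) (h : x i = 1) : rho n x i.castSucc = 0 := by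
  refine rho_eq_zero x _ ?_
  unfold tau
  rw [Fin.snoc_castSucc]
  have h1 := cons_le x i.castSucc
  have h2 : rx x i = 1 := by unfold rx; rw [h]; rfl
  linarith

theorem rho_succ {n : ℕ} (x : Fin n → I) (i : Fin n) (h : x i = 0) : rho n x i.succ = 0 := by
  refine rho_eq_zero x _ ?_
  unfold tau
  rw [Fin.cons_succ]
  have h1 := snoc_nonneg x i.succ
  have h2 : rx x i = 0 := by unfold rx; rw [h]; rfl
  linarith

/-- the boundary of the cube goes to the boundary of the simplex -/
theorem rho_boundary {n : ℕ} (x : Fin n → I) (h : x ∈ Cube.boundary (Fin n)) :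
    ∃ k, rho n x k = 0 := by
  obtain ⟨i, h | h⟩ := h
  · exact ⟨_, rho_succ x i h⟩
  · exact ⟨_, rho_castSucc x i h⟩

theorem rho_le {n : ℕ} (x : Fin n → I) (i : ℕ) (hi : i + 1 < n)
    (h : x ⟨i, by omega⟩ ≤ x ⟨i + 1, hi⟩) : rho n x ⟨i + 1, by omega⟩ = 0 := by
  refine rho_eq_zero x _ ?_
  unfold tau
  have e1 : (⟨i + 1, by omega⟩ : Fin (n + 1)) = Fin.succ ⟨i, by omega⟩ := rfl
  have e2 : (⟨i + 1, by omega⟩ : Fin (n + 1)) = Fin.castSucc ⟨i + 1, hi⟩ := rfl
  have k1 : (Fin.cons 1 (rx x) : Fin (n + 1) → ℝ) ⟨i + 1, by omega⟩ = rx x ⟨i, by omega⟩ := by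
    rw [e1, Fin.cons_succ]
  have k2 : (Fin.snoc (rx x) 0 : Fin (n + 1) → ℝ) ⟨i + 1, by omega⟩ = rx x ⟨i + 1, hi⟩ := by
    rw [e2, Fin.snoc_castSucc]
  rw [k1, k2]
  have : rx x ⟨i, by omega⟩ ≤ rx x ⟨i + 1, hi⟩ := h
  linarith

theorem M_coe {n : ℕ} (t : stdSimplex ℝ (Fin (n + 1))) (i : Fin n) :
    rx (M n t) i = ∑ j, t j * (if (i : ℕ) < j then 1 else 0) := by
  show ((aff (fun j => vt n j i) t : I) : ℝ) = _
  rw [aff_coe]
  refine Finset.sum_congr rfl fun j _ => ?_
  unfold vt
  by_cases h : (i : ℕ) < j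
  · rw [if_pos h, if_pos h]; rfl
  · rw [if_neg h, if_neg h]; rfl

theorem tau_M {n : ℕ} (t : stdSimplex ℝ (Fin (n + 1))) (j : Fin (n + 1)) : tau (M n t) j = t j := by
  have k1 : (Fin.cons 1 (rx (M n t)) : Fin (n + 1) → ℝ) j =
      ∑ k, t k * (if (j : ℕ) ≤ k then 1 else 0) := by
    refine Fin.cases ?_ (fun i => ?_) j
    · rw [Fin.cons_zero]
      simp
    · rw [Fin.cons_succ, M_coe]
      refine Finset.sum_congr rfl fun k _ => ?_
      rw [Fin.val_succ]; rfl
  have k2 : (Fin.snoc (rx (M n t)) 0 : Fin (n + 1) → ℝ) j =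
      ∑ k, t k * (if (j : ℕ) < k then 1 else 0) := by
    refine Fin.lastCases ?_ (fun i => ?_) j
    · rw [Fin.snoc_last]
      symm
      refine Finset.sum_eq_zero fun k _ => ?_
      rw [if_neg (by have := k.2; rw [Fin.val_last]; omega), mul_zero]
    · rw [Fin.snoc_castSucc, M_coe, Fin.val_castSucc]
  unfold tau
  rw [k1, k2, ← Finset.sum_sub_distrib]
  have : ∀ k : Fin (n + 1), t k * (if (j : ℕ) ≤ k then 1 else 0) -
      t k * (if (j : ℕ) < k then 1 else 0) = if k = j then t k else 0 := by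
    intro k
    by_cases h : k = j
    · subst h; simp
    · rw [if_neg h]
      have h' : (k : ℕ) ≠ j := fun h' => h (Fin.ext h')
      by_cases h2 : (j : ℕ) < k
      · rw [if_pos h2, if_pos (by omega), sub_self]
      · rw [if_neg h2, if_neg (by omega), sub_self]
  simp only [this]
  rw [Finset.sum_ite_eq' Finset.univ j (fun k => t k)]
  simp

theorem rho_M {n : ℕ} (t : stdSimplex ℝ (Fin (n + 1))) : rho n (M n t) = t := by
  have h1 : ∀ j, tp (M n t) j = t j := by
    intro j
    unfold tp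
    rw [tau_M]
    exact max_eq_right (t.2.1 j)
  refine stdSimplex.ext (funext fun j => ?_)
  show tp (M n t) j / ∑ k, tp (M n t) k = t j
  simp only [h1]
  rw [stdSimplex.sum_eq_one t, div_one]

/-- **simplex classes are cube classes** -/
theorem pf_rho {X : Type} [TopologicalSpace X] (n : ℕ)
    (a : C(stdSimplex ℝ (Fin (n + 1 + 1)), X)) (x0 : X) (ha : ∀ s, (∃ k, s k = 0) → a s = x0) :
    pf (a.comp (rho (n + 1))) (theCross.zc (n + 1)) = N.sx F2 (K := Sing X) (n := n + 1) a := by
  rw [pf_main n (a.comp (rho (n + 1))) x0 (fun x i hi h => ha _ ⟨_, rho_le x i hi h⟩)]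
  refine congrArg (N.sx F2 (K := Sing X) (n := n + 1)) (ContinuousMap.ext fun t => ?_)
  show a (rho (n + 1) (M (n + 1) t)) = a t
  rw [rho_M]

/-- faces constant ⟹ constant on the boundary of the simplex -/
theorem boundary_of_faces {X : Type} [TopologicalSpace X] {n : ℕ}
    (a : C(stdSimplex ℝ (Fin (n + 1 + 1)), X)) (x0 : X)
    (ha : ∀ i : Fin (n + 2), (Sing X).act (Op.face i) a = SpecA.cst x0 n)
    (s : stdSimplex ℝ (Fin (n + 1 + 1))) (hs : ∃ k, s k = 0) : a s = x0 := by
  obtain ⟨k, hk⟩ := hs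
  have hsum : ∑ j : Fin (n + 1), s (k.succAbove j) = 1 := by
    have h := stdSimplex.sum_eq_one s
    rw [Fin.sum_univ_succAbove _ k, hk, zero_add] at h
    exact h
  let s' : stdSimplex ℝ (Fin (n + 1)) := ⟨fun j => s (k.succAbove j), fun j => s.2.1 _, hsum⟩
  have h1 : stdSimplex.map (Op.face k) s' = s := by
    refine stdSimplex.ext (funext fun j => ?_)
    rw [stdSimplex.map_coe, FunOnFinite.linearMap_apply_apply]
    by_cases hj : j = k
    · subst hj
      rw [hk]
      refine Finset.sum_eq_zero fun i hi => ?_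
      exact absurd (Finset.mem_filter.1 hi).2 (Fin.succAbove_ne _ _)
    · obtain ⟨i, rfl⟩ := Fin.exists_succAbove_eq hj
      rw [Finset.sum_eq_single i]
      · rfl
      · intro b hb hne
        exact absurd ((Fin.succAbove_right_injective (p := k)) (Finset.mem_filter.1 hb).2) hne
      · intro hi
        refine absurd ?_ hi
        rw [Finset.mem_filter]
        exact ⟨Finset.mem_univ i, rfl⟩
  have h2 := congrArg (fun g : C(stdSimplex ℝ (Fin (n + 1)), X) => g s') (ha k)
  have h3 : a (stdSimplex.map (Op.face k) s') = x0 := h2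
  rwa [h1] at h3

end Crest.Agent.R204.HopfF2477
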