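import Crest.Agent.R204.Defs

/-!
# Row 204: MASTER INTERFACE (keeper helper114)

`Tower`  = pure data (no propositions): what the topology provides.
`Tower.Fact...` = one `Prop` per topological output (range parameter `D`: everything is
only claimed for stages `k ≤ D + 2`, operation indices `i ≤ D + 1`, degrees `≤ k + D`).
`Sph`    = the spherical classes `h^k(α)`.
Everything between these facts and S0314 / S0315 is algebra.
-/

set_option autoImplicit false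

namespace Crest.Agent.R204.Spec114

open scoped TensorProduct

/-- The data. `H k` = total mod 2 homology of `X_k = Ω^(n-k) S^n` (all degrees together; for
`k = 0` of the FULL loop space, all components). -/
structure Tower where
  /-- total homology of `X_k` -/
  H : ℕ → Type
  [ring : ∀ k, CommRing (H k)]
  [alg : ∀ k, Algebra F2 (H k)]
  /-- degree `t` part -/
  gr : ∀ k, ℕ → Submodule F2 (H k)
  /-- coproduct -/
  Δ : ∀ k, H k →ₐ[F2] (H k ⊗[F2] H k)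
  /-- augmentation -/
  ε : ∀ k, H k →ₐ[F2] F2
  /-- dual Steenrod square `Sq^a_*`, lowers the degree by `a` -/
  Sq : ∀ k, ℕ → (H k →ₗ[F2] H k)
  /-- `T_i x = ψ_*(a_i ⊗ x)` -/
  T : ∀ k, ℕ → (H k →ₗ[F2] H k)
  /-- Araki-Kudo operation `Q_i` (lower notation, `Q_0 x = x^2`) -/
  Q : ∀ k, ℕ → H k → H k
  /-- loop suspension -/
  σ : ∀ k, H k →ₗ[F2] H (k + 1)
  /-- fundamental class `x_k` for `k ≥ 1`; `x 0 = [1]` -/
  x : ∀ k, H k
  /-- `[-1]` -/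
  xinv : H 0
  /-- homology of the base component of `X_0` (a subalgebra of `H 0`) -/
  base : Subalgebra F2 (H 0)

attribute [instance] Tower.ring Tower.alg

namespace Tower

variable (X : Tower)

/-- primitive elements -/
def IsPrim (k : ℕ) (y : X.H k) : Prop := X.Δ k y = y ⊗ₜ[F2] 1 + 1 ⊗ₜ[F2] y

/-- primitive elements as a submodule -/
def prim (k : ℕ) : Submodule F2 (X.H k) where
  carrier := {y | X.IsPrim k y}
  add_mem' {a b} ha hb := by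
    simp only [IsPrim, Set.mem_setOf_eq] at ha hb ⊢
    rw [map_add, ha, hb, TensorProduct.add_tmul, TensorProduct.tmul_add]; abel
  zero_mem' := by simp [IsPrim]
  smul_mem' c a ha := by
    simp only [IsPrim, Set.mem_setOf_eq] at ha ⊢
    rw [map_smul, ha, smul_add, TensorProduct.smul_tmul', TensorProduct.tmul_smul]

theorem mem_prim {k : ℕ} {y : X.H k} :
    y ∈ X.prim k ↔ X.Δ k y = y ⊗ₜ[F2] 1 + 1 ⊗ₜ[F2] y := Iff.rfl

/-- all `Sq^a_*`, `a ≥ 1`, vanish on `y` -/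
def SqKills (k : ℕ) (y : X.H k) : Prop := ∀ a : ℕ, 1 ≤ a → X.Sq k a y = 0

/-- `Q^s y` for `y` of degree `u` (upper notation) -/
def Qup (k s u : ℕ) (y : X.H k) : X.H k := if u ≤ s then X.Q k (s - u) y else 0

/-! ## generators -/

/-- index set of generators: `0 < i_1 ≤ i_2 ≤ … ≤ i_r` (the list `[i_1,…,i_r]`) -/
def Wd : Type := {I : List ℕ // I.Pairwise (· ≤ ·) ∧ ∀ i ∈ I, 1 ≤ i}

/-- degree of `Q_I x_k` -/
def wdeg (k : ℕ) (I : List ℕ) : ℕ := I.foldr (fun i t => 2 * t + i) k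

/-- `Q_{i_1} (Q_{i_2} (… (Q_{i_r} x_k)))` -/
def word (k : ℕ) (I : List ℕ) : X.H k := I.foldr (fun i y => X.Q k i y) (X.x k)

/-- `T_{i_1} (T_{i_2} (… (T_{i_r} x_k)))` -/
def tword (k : ℕ) (I : List ℕ) : X.H k := I.foldr (fun i y => X.T k i y) (X.x k)

/-- generators at `k = 0`: `Q_I[1] * [-2^r]` -/
def word0 (I : List ℕ) : X.H 0 := X.word 0 I * X.xinv ^ (2 ^ I.length)

/-- `T_I[1] * [-2^r]` -/
def tword0 (I : List ℕ) : X.H 0 := X.tword 0 I * X.xinv ^ (2 ^ I.length)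

/-! ## facts -/

/-- internal grading, unit, products -/
def FactGr (D : ℕ) : Prop := ∀ k ≤ D + 2,
  DirectSum.IsInternal (X.gr k) ∧ (1 : X.H k) ∈ X.gr k 0 ∧
  ∀ (s t : ℕ) (a b : X.H k), a ∈ X.gr k s → b ∈ X.gr k t → a * b ∈ X.gr k (s + t)

/-- augmentation is zero in positive degrees -/
def FactEps (D : ℕ) : Prop := ∀ k ≤ D + 2, ∀ t, 1 ≤ t → ∀ y ∈ X.gr k t, X.ε k y = 0

/-- counit and degree of the coproduct -/
def FactDelta (D : ℕ) : Prop := ∀ k ≤ D + 2,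
  (∀ y : X.H k, TensorProduct.lid F2 (X.H k) (TensorProduct.map (X.ε k).toLinearMap LinearMap.id
      (X.Δ k y)) = y) ∧
  (∀ y : X.H k, TensorProduct.rid F2 (X.H k) (TensorProduct.map LinearMap.id (X.ε k).toLinearMap
      (X.Δ k y)) = y) ∧
  ∀ t, ∀ y ∈ X.gr k t, X.Δ k y ∈ ⨆ p ∈ Finset.HasAntidiagonal.antidiagonal t,
    LinearMap.range (TensorProduct.map (X.gr k p.1).subtype (X.gr k p.2).subtype)

/-- Steenrod operations: `Sq_0 = id`, degree, instability, Cartan formulas for products and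
coproducts -/
def FactSq (D : ℕ) : Prop := ∀ k ≤ D + 2,
  (∀ y : X.H k, X.Sq k 0 y = y) ∧
  (∀ (a t : ℕ), ∀ y ∈ X.gr k t, X.Sq k a y ∈ X.gr k (t - a)) ∧
  (∀ (a t : ℕ), ∀ y ∈ X.gr k t, t < 2 * a → X.Sq k a y = 0) ∧
  (∀ (a : ℕ) (y z : X.H k), X.Sq k a (y * z) =
    ∑ p ∈ Finset.HasAntidiagonal.antidiagonal a, X.Sq k p.1 y * X.Sq k p.2 z) ∧
  (∀ (a : ℕ) (y : X.H k), X.Δ k (X.Sq k a y) =
    ∑ p ∈ Finset.HasAntidiagonal.antidiagonal a, TensorProduct.map (X.Sq k p.1) (X.Sq k p.2) (X.Δ k y))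

/-- DUAL BULLETT–MACDONALD relations for a right action `S` (`S a = Sq^a_*`):
`∑_a C(a, i-a) S (n-a) ∘ S a` is symmetric under `i ↔ 2n - i`. -/
def DualBM {E : Type} [AddCommGroup E] [Module F2 E] (S : ℕ → (E →ₗ[F2] E)) : Prop :=
  ∀ (n i : ℕ), i ≤ 2 * n → ∀ y : E,
    ∑ a ∈ Finset.range (n + 1), (if a ≤ i then (Nat.choose a (i - a) : F2) else 0) • S (n - a) (S a y) =
    ∑ a ∈ Finset.range (n + 1),
      (if a ≤ 2 * n - i then (Nat.choose a (2 * n - i - a) : F2) else 0) • S (n - a) (S a y)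

/-- Adem relations in dual Bullett–Macdonald form -/
def FactBM (D : ℕ) : Prop := ∀ k ≤ D + 2, DualBM (X.Sq k)

/-- degrees of `T_i`, `T_i 1 = δ_{i0}`, coalgebra map, Nishida/Cartan relation with `Sq_*` -/
def FactT (D : ℕ) : Prop := ∀ k ≤ D + 2, ∀ i ≤ D + 1,
  (∀ t, ∀ y ∈ X.gr k t, X.T k i y ∈ X.gr k (t + i)) ∧
  (X.T k i 1 = if i = 0 then 1 else 0) ∧
  (∀ y : X.H k, X.Δ k (X.T k i y) =
    ∑ p ∈ Finset.HasAntidiagonal.antidiagonal i, TensorProduct.map (X.T k p.1) (X.T k p.2) (X.Δ k y)) ∧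
  (∀ (a : ℕ) (y : X.H k), X.Sq k a (X.T k i y) =
    ∑ b ∈ Finset.range (a + 1), (if 2 * b ≤ i then (Nat.choose (i - b) b : F2) else 0) •
      X.T k (i - b) (X.Sq k (a - b) y))

/-- `T_0 y` = product of the coproduct -/
def FactT0 (D : ℕ) : Prop := ∀ k ≤ D + 2, ∀ y : X.H k,
  X.T k 0 y = LinearMap.mul' F2 (X.H k) (X.Δ k y)

/-- (1.5) `GL_2(F_2)`-invariance -/
def FactGL2 (D : ℕ) : Prop := ∀ k ≤ D + 2, ∀ i j, i + j ≤ D + 1 → ∀ y : X.H k,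
  X.T k i (X.T k j y) = X.T k j (X.T k i y) ∧
  X.T k i (X.T k j y) = ∑ l ∈ Finset.range (i + 1),
    (Nat.choose (l + j) j : F2) • X.T k (i - l) (X.T k (j + l) y)

/-- `Q_0 y = y^2`, `Q_i` additive (`1 ≤ i ≤ D+1`), degrees -/
def FactQ (D : ℕ) : Prop := ∀ k ≤ D + 2,
  (∀ y : X.H k, X.Q k 0 y = y * y) ∧
  (∀ i, 1 ≤ i → i ≤ D + 1 → ∀ y z : X.H k, X.Q k i (y + z) = X.Q k i y + X.Q k i z) ∧
  (∀ i ≤ D + 1, ∀ t, ∀ y ∈ X.gr k t, X.Q k i y ∈ X.gr k (2 * t + i))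

/-- (1.3) for ALL homogeneous `y` (primitive or not), `1 ≤ i ≤ D+1`:
`T_i y = ∑_{2l ≤ |y|} Q^{i+l} (Sq^l_* y)` (only `Q` of index `i + 2l - |y| ≤ i` occur) -/
def Fact13 (D : ℕ) : Prop := ∀ k ≤ D + 2, ∀ i, 1 ≤ i → i ≤ D + 1 → ∀ t, ∀ y ∈ X.gr k t,
  X.T k i y = ∑ l ∈ Finset.range (t / 2 + 1), X.Qup k (i + l) (t - l) (X.Sq k l y)

/-- loop suspension -/
def FactSigma (D : ℕ) : Prop := ∀ k ≤ D + 1,
  (∀ t, ∀ y ∈ X.gr k t, X.σ k y ∈ X.gr (k + 1) (t + 1)) ∧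
  (∀ y : X.H k, X.σ k y ∈ X.prim (k + 1)) ∧
  (∀ y z : X.H k, X.σ k (y * z) = X.ε k y • X.σ k z + X.ε k z • X.σ k y) ∧
  (∀ (a : ℕ) (y : X.H k), X.σ k (X.Sq k a y) = X.Sq (k + 1) a (X.σ k y)) ∧
  (∀ i ≤ D + 1, ∀ y : X.H k, X.σ k (X.T k i y) = X.T (k + 1) i (X.σ k y)) ∧
  (∀ i, i + 1 ≤ D + 1 → ∀ y : X.H k, X.σ k (X.Q k (i + 1) y) = X.Q (k + 1) i (X.σ k y)) ∧
  X.σ k (X.x k) = X.x (k + 1)

/-- the fundamental classes -/
def FactX (D : ℕ) : Prop :=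
  (∀ k ≤ D + 2, X.x k ∈ X.gr k k ∧ X.SqKills k (X.x k)) ∧
  (∀ k, 1 ≤ k → k ≤ D + 2 → X.x k ∈ X.prim k) ∧
  X.Δ 0 (X.x 0) = X.x 0 ⊗ₜ[F2] X.x 0 ∧ X.xinv ∈ X.gr 0 0 ∧
  X.Δ 0 X.xinv = X.xinv ⊗ₜ[F2] X.xinv ∧ X.x 0 * X.xinv = 1

/-- the base component: `Q_I[1] * [-2^r]` lies in it; it is stable under `Sq_*` -/
def FactBase (D : ℕ) : Prop :=
  (∀ I : List ℕ, (∀ i ∈ I, i ≤ D + 1) → X.word0 I ∈ X.base) ∧
  (∀ (a : ℕ), ∀ y ∈ X.base, X.Sq 0 a y ∈ X.base)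

/-- LOOP SPACE THEOREM, `1 ≤ k ≤ D + 2`: monomials in the words form a basis in degrees `≤ k+D`
and span in degree `k+D+1`. -/
def FactPoly (D : ℕ) : Prop := ∀ k, 1 ≤ k → k ≤ D + 2 →
  (∀ t ≤ k + D, ∀ p ∈ MvPolynomial.weightedHomogeneousSubmodule F2 (fun I : Wd => wdeg k I.1) t,
    MvPolynomial.aeval (fun I : Wd => X.word k I.1) p = 0 → p = 0) ∧
  (∀ t ≤ k + D + 1, X.gr k t ≤
    (MvPolynomial.weightedHomogeneousSubmodule F2 (fun I : Wd => wdeg k I.1) t).map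
      (MvPolynomial.aeval (fun I : Wd => X.word k I.1) :
        MvPolynomial Wd F2 →ₐ[F2] X.H k).toLinearMap)

/-- index set of generators at `k = 0` -/
def Wd0 : Type := {I : Wd // I.1 ≠ []}

/-- LOOP SPACE THEOREM, `k = 0`: base component, generators `x_I = Q_I[1]*[-2^r]`, `r ≥ 1`. -/
def FactPoly0 (D : ℕ) : Prop :=
  (∀ t ≤ D, ∀ p ∈ MvPolynomial.weightedHomogeneousSubmodule F2 (fun I : Wd0 => wdeg 0 I.1.1) t,
    MvPolynomial.aeval (fun I : Wd0 => X.word0 I.1.1) p = 0 → p = 0) ∧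
  (∀ t ≤ D, X.gr 0 t ⊓ Subalgebra.toSubmodule X.base ≤
    (MvPolynomial.weightedHomogeneousSubmodule F2 (fun I : Wd0 => wdeg 0 I.1.1) t).map
      (MvPolynomial.aeval (fun I : Wd0 => X.word0 I.1.1) :
        MvPolynomial Wd0 F2 →ₐ[F2] X.H 0).toLinearMap)

end Tower

/-! ## spherical classes -/

/-- elements of `π_d(X_0)` and their iterated adjoints' Hurewicz images -/
structure Sph (X : Tower) where
  /-- index set (elements of `π_d`) -/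
  A : Type
  /-- `h k α ∈ H_{d+k}(X_k)` -/
  h : ∀ k, A → X.H k
  /-- difference of two elements -/
  sub : A → A → A

namespace Sph

variable {X : Tower} (S : Sph X)

/-- basic facts on spherical classes of stem `d` -/
def FactSph (D d : ℕ) : Prop :=
  (∀ k ≤ D + 2, ∀ α, S.h k α ∈ X.gr k (d + k) ∧ S.h k α ∈ X.prim k ∧ X.SqKills k (S.h k α) ∧
    ∀ β, S.h k (S.sub α β) = S.h k α + S.h k β) ∧
  (∀ k ≤ D + 1, ∀ α, X.σ k (S.h k α) = S.h (k + 1) α) ∧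
  (∀ α, S.h 0 α ∈ X.base)

/-- BLOCK E (coproduct lemma in the mapping cone), stages `k ≤ d + 1`.
`E` = homology of the cone, `ι` = inclusion of `H_*(X_{k+1})`. -/
def FactCone (D d : ℕ) : Prop := ∀ k, k + 1 ≤ D + 2 → k ≤ d → ∀ (α : S.A) (m : ℕ) (ξ : X.H k),
  1 ≤ m → 2 * m = d + k → ξ ∈ X.gr k m → ξ ∈ X.prim k → X.SqKills k ξ →
  S.h k α = ξ * ξ → S.h (k + 1) α = 0 →
  ∃ (E : Type) (_ : AddCommGroup E) (_ : Module F2 E) (SE : ℕ → (E →ₗ[F2] E))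
    (ι : X.H (k + 1) →ₗ[F2] E) (τ : E),
    Tower.DualBM SE ∧ (∀ y : E, SE 0 y = y) ∧ Function.Injective ι ∧
    (∀ (a : ℕ) (y : X.H (k + 1)), SE a (ι y) = ι (X.Sq (k + 1) a y)) ∧
    (∀ a, 1 ≤ a → ∃ s ∈ X.prim (k + 1) ⊓ X.gr (k + 1) (2 * m + 2 - a), SE a τ = ι s) ∧
    SE (m + 1) τ = ι (X.σ k ξ)

/-- BLOCK G (section 08, only needed for fourth powers): `h^0(α) = ζ^4` is impossible. -/
def FactFour (d : ℕ) : Prop := ∀ (α : S.A) (l : ℕ) (ζ : X.H 0),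
  1 ≤ l → 4 * l = d → ζ ∈ X.gr 0 l → ζ ∈ X.base → ζ ∈ X.prim 0 → X.SqKills 0 ζ →
  S.h 0 α = ζ ^ 4 → ζ = 0

/-- BLOCK H (Hopf invariant one): `h^d(α) = x_d^2` only for `d = 1, 3, 7`. -/
def FactHopf (d : ℕ) : Prop := ∀ α : S.A, Odd d → S.h d α = X.x d * X.x d → d = 1 ∨ d = 3 ∨ d = 7

end Sph

/-- all the facts together -/
structure Facts (X : Tower) (S : Sph X) (D d : ℕ) : Prop where
  d_pos : 1 ≤ d
  dD : 2 * d + 4 ≤ D
  gr : X.FactGr D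
  eps : X.FactEps D
  delta : X.FactDelta D
  sq : X.FactSq D
  bm : X.FactBM D
  t : X.FactT D
  t0 : X.FactT0 D
  gl2 : X.FactGL2 D
  q : X.FactQ D
  f13 : X.Fact13 D
  sigma : X.FactSigma D
  x : X.FactX D
  base : X.FactBase D
  poly : X.FactPoly D
  poly0 : X.FactPoly0 D
  sph : S.FactSph D d
  cone : S.FactCone D d
  four : S.FactFour d

/-- the abstract theorem, part 1 -/
def Core314 : Prop := ∀ (X : Tower) (S : Sph X) (D d : ℕ), Facts X S D d → S.FactHopf d →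
  d ≠ 1 → d ≠ 3 → d ≠ 7 → (∀ j : ℕ, d + 2 ≠ 2 ^ j) → ∀ α : S.A, S.h 0 α = 0

/-- the abstract theorem, part 2 (no Hopf invariant one needed) -/
def Core315 : Prop := ∀ (X : Tower) (S : Sph X) (D d : ℕ), Facts X S D d →
  ∀ α β : S.A, S.h 0 α = 0 ∨ S.h 0 β = 0 ∨ S.h 0 α = S.h 0 β

end Crest.Agent.R204.Spec114
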