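import Crest.Agent.R204.CompOm_696
import Crest.Agent.R204.ThAlg_265
import Crest.Agent.R204.C5_265
import Crest.Agent.R204.Coalg_847
import Crest.Agent.R204.Spec_114

/-!
# Row 204, block C, leaf C9 part 3 (helper696)

* `fib (cmOf φ hφ) g ≅ Sing {x // φ x = g}`, so `Hc R (cmOf φ hφ) g` = image of the homology of the subspace;
* `ThCm A π`: component structure of an abstract `Θ`-algebra; `mul_mem`, `Th_mem`, `Psi_mem`, `one_mem`;
* instance `omCm` for `Sing (Ω^J Z)`;
* `baseOf`: the subalgebra of the base component; `factBase_of` : `FactBase` of `Spec_114`.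
-/

set_option autoImplicit false
set_option linter.unusedSectionVars false

open scoped Topology unitInterval Topology.Homotopy

noncomputable section

namespace Crest.Agent.R204.Comp696

open SS SingAct265 Cubes735 Hsp696 DK742 ThetaSS265 ThAlg265
open Crest.Agent.R204.HspSS696 hiding Om

/-! ## components as spaces -/

section spaces

variable {X : Type} [TopologicalSpace X] {π : Type} (φ : X → π) (hφ : ∀ x y, Joined x y → φ x = φ y)

/-- inclusion of the subspace -/
def valC (g : π) : C({x : X // φ x = g}, X) := ⟨Subtype.val, continuous_subtype_val⟩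

/-- `fib → Sing` -/
def fibToSing (g : π) : Hom (fib (cmOf φ hφ) g) (Sing {x : X // φ x = g}) where
  app n w := mkS (fun t => ⟨SingAct265.ev ((fibIncl (cmOf φ hφ) g).app n w) t,
      (cmOf_app φ hφ _ t).symm.trans (fib_prop (cmOf φ hφ) g w)⟩)
    (Continuous.subtype_mk (SingAct265.continuous_ev ((fibIncl (cmOf φ hφ) g).app n w)) _)
  nat _ _ := rfl

/-- `Sing → fib` -/
def singToFib (g : π) : Hom (Sing {x : X // φ x = g}) (fib (cmOf φ hφ) g) :=
  fibLift (cmOf φ hφ) g (SingMap (valC φ g)) (fun _ w => (SingAct265.ev w (stdSimplex.vertex 0)).2)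

theorem singToFib_fibToSing (g : π) :
    (singToFib φ hφ g).comp (fibToSing φ hφ g) = Hom.id _ := by
  apply HspSS696.Hom.ext'; intro n w; rfl

theorem fibToSing_singToFib (g : π) :
    (fibToSing φ hφ g).comp (singToFib φ hφ g) = Hom.id _ := by
  apply HspSS696.Hom.ext'; intro n w; rfl

theorem incl_singToFib (g : π) :
    (fibIncl (cmOf φ hφ) g).comp (singToFib φ hφ g) = SingMap (valC φ g) := rfl

variable (R : Type) [CommRing R]

theorem range_map_valC (g : π) :
    LinearMap.range (H.map R (SingMap (valC φ g))) = Hc R (cmOf φ hφ) g := by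
  apply le_antisymm
  · rintro _ ⟨y, rfl⟩
    rw [← incl_singToFib φ hφ g, H_map_comp]
    exact ⟨_, rfl⟩
  · rintro _ ⟨y, rfl⟩
    refine ⟨H.map R (fibToSing φ hφ g) y, ?_⟩
    rw [← H_map_comp, ← incl_singToFib φ hφ g]
    have : ((fibIncl (cmOf φ hφ) g).comp (singToFib φ hφ g)).comp (fibToSing φ hφ g) =
        fibIncl (cmOf φ hφ) g := rfl
    rw [this]

include hφ in
/-- the homology of a union of path components injects -/
theorem map_valC_injective (g : π) : Function.Injective (H.map R (SingMap (valC φ g))) := by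
  intro x y h
  have h1 : ∀ z, H.map R (fibToSing φ hφ g) (hret R (cmOf φ hφ) g (H.map R (SingMap (valC φ g)) z)) =
      z := by
    intro z
    rw [← incl_singToFib φ hφ g, H_map_comp, hret_incl, ← H_map_comp, fibToSing_singToFib, H_map_id]
  rw [← h1 x, ← h1 y, h]

end spaces

/-! ## component structure of an abstract `Θ`-algebra -/

/-- component structure -/
structure ThCm {M : ℕ} {K : SS} (A : ThAlg M K) (π : Type) [CommMonoid π] where
  c : Cm K π
  mu : ∀ (n : ℕ) (x y : K.S n), c.app n (A.mu.app n (x, y)) = c.app n x * c.app n y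
  th : ∀ (n : ℕ) (e : (EM M).S n) (x y : K.S n),
    c.app n (A.Th.app n ((proj ((invEM M).prod (Invo.swap K))).app n (e, (x, y)))) =
      c.app n x * c.app n y
  one : c.app 0 A.one = 1

namespace ThCm

open scoped TensorProduct

variable {M : ℕ} {K : SS} {A : ThAlg M K} {π : Type} [CommMonoid π] (T : ThCm A π)

/-- the classes carried by the component `g` -/
def HH (R : Type) [CommRing R] (g : π) : Submodule R (H R K) := Hc R T.c g

theorem one_mem : Coalg847.vtx A.one ∈ T.HH F2 1 :=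
  mk_sx_mem F2 T.c 1 A.one T.one _

theorem vtx_mem (v : K.S 0) : Coalg847.vtx v ∈ T.HH F2 (T.c.app 0 v) :=
  mk_sx_mem F2 T.c _ v rfl _

/-- the product sends `H_g ⊗ H_h` to `H_{gh}` -/
theorem mul_mem (E : Coalg847.EZData) {g h : π} {x y : H F2 K} (hx : x ∈ T.HH F2 g)
    (hy : y ∈ T.HH F2 h) : H.map F2 A.mu (E.cr K K (x ⊗ₜ y)) ∈ T.HH F2 (g * h) :=
  cross_mem F2 (fun A B x y => E.cr A B (x ⊗ₜ y))
    (fun _ _ _ _ f f' x y => (E.cr_nat f f' x y).symm) T.c g T.c h T.c (g * h) A.mu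
    (fun n x y hx hy => by rw [T.mu, hx, hy]) hx hy

/-- `Θ` on the part of `DM M K` lying over `(g, g)` -/
theorem c_Th_DMmap (g : π) {n : ℕ} (p : (DM M (fib T.c g)).S n) :
    T.c.app n (A.Th.app n ((DMmap M (fibIncl T.c g)).app n p)) = g * g := by
  obtain ⟨⟨e, x, y⟩, rfl⟩ := proj_surj ((invEM M).prod (Invo.swap (fib T.c g))) n p
  show T.c.app n (A.Th.app n ((proj ((invEM M).prod (Invo.swap K))).app n
    (e, ((fibIncl T.c g).app n x, (fibIncl T.c g).app n y)))) = _
  rw [T.th, fib_prop, fib_prop]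

/-- natural operations `H K → H (DM M K)` followed by `Θ` send `H_g` to `H_{g²}` -/
theorem Th_mem (R : Type) [CommRing R] (pw : ∀ B : SS, H R B → H R (DM M B))
    (nat : ∀ (B B' : SS) (f : Hom B B') (x : H R B),
      pw B' (H.map R f x) = H.map R (DMmap M f) (pw B x))
    {g : π} {x : H R K} (hx : x ∈ T.HH R g) : H.map R A.Th (pw K x) ∈ T.HH R (g * g) := by
  obtain ⟨x, rfl⟩ := hx
  rw [nat, ← H_map_comp]
  exact map_mem_Hc R _ _ _ (fun n p => T.c_Th_DMmap g p) _

/-- `Q_i : H_g → H_{g²}` (265's `pw`) -/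
theorem Q_mem {i : ℕ} (hi : i ≤ M) {g : π} {x : H F2 K} (hx : x ∈ T.HH F2 g) :
    H.map F2 A.Th (C5265.pw M K i x) ∈ T.HH F2 (g * g) :=
  T.Th_mem F2 (fun B => C5265.pw M B i) (fun _ _ f x => (C5265.pw_map f hi x).symm) hx

/-- `Ψ` on the component `g` -/
theorem c_Psi (g : π) {n : ℕ} (b : (BM M).S n) (x : (fib T.c g).S n) :
    T.c.app n (A.Psi.app n (b, (fibIncl T.c g).app n x)) = g * g := by
  obtain ⟨e, rfl⟩ := proj_surj (invEM M) n b
  show T.c.app n (A.Th.app n ((proj ((invEM M).prod (Invo.swap K))).app n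
    (e, ((fibIncl T.c g).app n x, (fibIncl T.c g).app n x)))) = _
  rw [T.th, fib_prop]

/-- cross product with a fixed cycle is natural -/
theorem crossL_nat {B K L : SS} (a : N F2 B) (ha : N.bd F2 B a = 0) (f : Hom K L) (x : H F2 K) :
    C5265.crossL a ha (H.map F2 f x) =
      H.map F2 (prodMap (Hom.id B) f) (C5265.crossL a ha x) := by
  obtain ⟨z, hz, rfl⟩ := Hd.mk_surj _ x
  simp only [H.map, Hd.map_mk, C5265.crossL_mk]
  congr 1
  rw [EZ271.map_cross, EZ271.map_idHom]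

/-- `T_i : H_g → H_{g²}` (265's `crossL`) -/
theorem T_mem (a : N F2 (BM M)) (ha : N.bd F2 (BM M) a = 0) {g : π} {x : H F2 K}
    (hx : x ∈ T.HH F2 g) : H.map F2 A.Psi (C5265.crossL a ha x) ∈ T.HH F2 (g * g) := by
  obtain ⟨x, rfl⟩ := hx
  rw [crossL_nat, ← H_map_comp]
  exact map_mem_Hc F2 T.c (g * g) (A.Psi.comp (prodMap (Hom.id (BM M)) (fibIncl T.c g)))
    (fun n p => T.c_Psi g p.1 p.2) _

/-- natural endo-operations preserve `H_g` -/
theorem nat_mem (R : Type) [CommRing R] (Φ : ∀ B : SS, H R B → H R B)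
    (nat : ∀ (B B' : SS) (f : Hom B B') (x : H R B), Φ B' (H.map R f x) = H.map R f (Φ B x))
    {g : π} {x : H R K} (hx : x ∈ T.HH R g) : Φ K x ∈ T.HH R g :=
  nat_mem_id R Φ nat T.c g hx

end ThCm

/-! ## the instance `Sing (Ω^J Z)` -/

section om

variable {J : Type} [Finite J] {Z : Type} [TopologicalSpace Z] {z₀ : Z} [DecidableEq J] [Nontrivial J]
  {M : ℕ}

/-- the component structure of `Ω^J Z` -/
def omCm (k : Fin (M + 1) ↪ J) (c : BoxConf (Fin 2) J) :
    ThCm (omAlg (Z := Z) (z₀ := z₀) k (mulS c)) (HomotopyGroup J Z z₀) where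
  c := cOm J Z z₀
  mu _ x y := cOm_mulS c x y
  th _ e x y := cOm_thetaSS k e x y
  one := rfl

end om

/-! ## spherical simplices lie in the component of their vertices -/

theorem act_const_mem {K : SS} {π : Type} (c : Cm K π) {m n : ℕ} (f : Op m n) (x : K.S n) (g : π)
    (h : c.app m (K.act f x) = g) : c.app n x = g := (c.nat f x).symm.trans h

/-- a singular simplex of `Ω^J Z` with one value null homotopic lies in the base component -/
theorem cOm_of_ev {J : Type} [Finite J] {Z : Type} [TopologicalSpace Z] {z₀ : Z} {n : ℕ}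
    (w : (Sing (Om J Z z₀)).S n) (t : stdSimplex ℝ (Fin (n + 1))) (y : Ω^ J Z z₀)
    (h : SingAct265.ev w t = y) : (cOm J Z z₀).app n w = cls y := by
  rw [cOm_app w t, h]

/-- the class of a spherical simplex (all faces constant at the base point) of positive dimension lies
in the base component -/
theorem sph_mem {J : Type} [Finite J] [DecidableEq J] [Nonempty J] {Z : Type} [TopologicalSpace Z]
    {z₀ : Z} (R : Type) [CommRing R] {n : ℕ} (w : (Sing (Om J Z z₀)).S (n + 1))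
    (hw : ∀ i, (Sing (Om J Z z₀)).act (Op.face i) w = mkS (fun _ => GenLoop.const) continuous_const)
    (hz : N.bd R (Sing (Om J Z z₀)) (N.sx R w) = 0) :
    Hd.mk _ (N.sx R w) hz ∈ Hc R (cOm J Z z₀) 1 := by
  refine mk_sx_mem R _ _ w ?_ hz
  refine act_const_mem (cOm J Z z₀) (Op.face 0) w 1 ?_
  rw [hw 0]
  rfl

/-! ## the base subalgebra -/

section base

variable {A : Type} [CommRing A] [Algebra F2 A] {π : Type}

/-- the base component as a subalgebra, from a multiplicative grading by a monoid -/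
def baseOf [Monoid π] (Hg : π → Submodule F2 A) (h1 : (1 : A) ∈ Hg 1)
    (hmul : ∀ (g h : π) (x y : A), x ∈ Hg g → y ∈ Hg h → x * y ∈ Hg (g * h)) : Subalgebra F2 A where
  carrier := Hg 1
  mul_mem' {a b} ha hb := by
    have := hmul 1 1 a b ha hb
    rwa [one_mul] at this
  one_mem' := h1
  add_mem' ha hb := (Hg 1).add_mem ha hb
  zero_mem' := (Hg 1).zero_mem
  algebraMap_mem' r := by
    show algebraMap F2 A r ∈ Hg 1
    rw [Algebra.algebraMap_eq_smul_one]
    exact (Hg 1).smul_mem r h1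

theorem mem_baseOf [Monoid π] (Hg : π → Submodule F2 A) (h1 : (1 : A) ∈ Hg 1)
    (hmul : ∀ (g h : π) (x y : A), x ∈ Hg g → y ∈ Hg h → x * y ∈ Hg (g * h)) (x : A) :
    x ∈ baseOf Hg h1 hmul ↔ x ∈ Hg 1 := Iff.rfl

theorem pow_mem_of [Monoid π] (Hg : π → Submodule F2 A) (h1 : (1 : A) ∈ Hg 1)
    (hmul : ∀ (g h : π) (x y : A), x ∈ Hg g → y ∈ Hg h → x * y ∈ Hg (g * h)) {g : π} {x : A}
    (hx : x ∈ Hg g) (n : ℕ) : x ^ n ∈ Hg (g ^ n) := by
  induction n with
  | zero => rw [pow_zero, pow_zero]; exact h1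
  | succ n ih => rw [pow_succ, pow_succ]; exact hmul _ _ _ _ ih hx

end base

/-! ## `FactBase` -/

section tower

open Spec114

/-- words have weight `2^r` -/
theorem word_mem (X : Tower) {π : Type} [CommGroup π] (D : ℕ) (Hg : π → Submodule F2 (X.H 0))
    (hQ : ∀ i ≤ D + 1, ∀ (g : π) (x : X.H 0), x ∈ Hg g → X.Q 0 i x ∈ Hg (g * g))
    {ι : π} (hx : X.x 0 ∈ Hg ι) (L : List ℕ) (hL : ∀ i ∈ L, i ≤ D + 1) :
    X.word 0 L ∈ Hg (ι ^ (2 ^ L.length)) := by
  induction L with
  | nil => simpa [Tower.word] using hx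
  | cons i L ih =>
    have h := hQ i (hL i (by simp)) _ _ (ih (fun j hj => hL j (by simp [hj])))
    have e : ι ^ (2 ^ (i :: L).length) = ι ^ (2 ^ L.length) * ι ^ (2 ^ L.length) := by
      rw [← pow_add, List.length_cons, pow_succ]; congr 1; ring
    rw [e]
    exact h

theorem word0_mem (X : Tower) {π : Type} [CommGroup π] (D : ℕ) (Hg : π → Submodule F2 (X.H 0))
    (h1 : (1 : X.H 0) ∈ Hg 1)
    (hmul : ∀ (g h : π) (x y : X.H 0), x ∈ Hg g → y ∈ Hg h → x * y ∈ Hg (g * h))
    (hQ : ∀ i ≤ D + 1, ∀ (g : π) (x : X.H 0), x ∈ Hg g → X.Q 0 i x ∈ Hg (g * g))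
    {ι : π} (hx : X.x 0 ∈ Hg ι) (hinv : X.xinv ∈ Hg ι⁻¹) (L : List ℕ) (hL : ∀ i ∈ L, i ≤ D + 1) :
    X.word0 L ∈ Hg 1 := by
  have h := hmul _ _ _ _ (word_mem X D Hg hQ hx L hL) (pow_mem_of Hg h1 hmul hinv (2 ^ L.length))
  rw [inv_pow, mul_inv_cancel] at h
  exact h

/-- **`FactBase`** from a component grading of `H 0` -/
theorem factBase_of (X : Tower) {π : Type} [CommGroup π] (D : ℕ) (Hg : π → Submodule F2 (X.H 0))
    (h1 : (1 : X.H 0) ∈ Hg 1)
    (hmul : ∀ (g h : π) (x y : X.H 0), x ∈ Hg g → y ∈ Hg h → x * y ∈ Hg (g * h))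
    (hQ : ∀ i ≤ D + 1, ∀ (g : π) (x : X.H 0), x ∈ Hg g → X.Q 0 i x ∈ Hg (g * g))
    (hSq : ∀ (a : ℕ) (g : π) (x : X.H 0), x ∈ Hg g → X.Sq 0 a x ∈ Hg g)
    {ι : π} (hx : X.x 0 ∈ Hg ι) (hinv : X.xinv ∈ Hg ι⁻¹)
    (hbase : X.base = baseOf Hg h1 hmul) : X.FactBase D := by
  refine ⟨fun L hL => ?_, fun a y hy => ?_⟩
  · rw [hbase]
    exact word0_mem X D Hg h1 hmul hQ hx hinv L hL
  · rw [hbase] at hy ⊢
    exact hSq a 1 y hy

end tower

end Crest.Agent.R204.Comp696
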