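import Crest.Agent.R204.Comp_696
import Crest.Agent.R204.HspSS_696
import Crest.Agent.R204.ThetaSS_265

/-!
# Row 204, block C, leaf C9 part 2 (helper696): components of `Sing (Ω^J Z)`

`cls x : HomotopyGroup J Z z₀` = class of the loop `x` (Mathlib's group); `cls_eq_iff : cls x = cls y ↔
Joined x y`; `cls_mu : cls (mu c ![x, y]) = cls x * cls y` (`J` nontrivial, any configuration), `cls_theta`,
`cls_psi`, `cls_symmAt`; `cOm : Cm (Sing (Ω^J Z)) (HomotopyGroup J Z z₀)` component map;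
`cOm_mulS`, `cOm_thetaSS`, `cOm_Theta`, `cOm_Psi`.
-/

set_option autoImplicit false
set_option linter.unusedSectionVars false

open scoped Topology unitInterval Topology.Homotopy

noncomputable section

namespace Crest.Agent.R204.Comp696

open SS SingAct265 Cubes735 Hsp696 DK742 ThetaSS265
open Crest.Agent.R204.HspSS696 hiding Om

/-! ## components of a general space -/

section general

variable {X Y : Type} [TopologicalSpace X] [TopologicalSpace Y]

theorem joined_ev {n : ℕ} (w : (Sing X).S n) (s t : stdSimplex ℝ (Fin (n + 1))) :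
    Joined (SingAct265.ev w s) (SingAct265.ev w t) := by
  obtain ⟨γ⟩ := PathConnectedSpace.joined s t
  exact ⟨γ.map (SingAct265.continuous_ev w)⟩

/-- a function on a space, constant on path components, gives a component map -/
def cmOf {π : Type} (φ : X → π) (hφ : ∀ x y, Joined x y → φ x = φ y) : Cm (Sing X) π where
  app _ w := φ (SingAct265.ev w (stdSimplex.vertex 0))
  nat f w := hφ _ _ (joined_ev w (stdSimplex.map f (stdSimplex.vertex 0)) (stdSimplex.vertex 0))

theorem cmOf_app {π : Type} (φ : X → π) (hφ : ∀ x y, Joined x y → φ x = φ y) {n : ℕ}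
    (w : (Sing X).S n) (t : stdSimplex ℝ (Fin (n + 1))) : (cmOf φ hφ).app n w = φ (SingAct265.ev w t) :=
  hφ _ _ (joined_ev w _ t)

end general

/-! ## classes of loops -/

variable {F J : Type} [Finite F] [Finite J] {Z : Type} [TopologicalSpace Z] {z₀ : Z}

theorem homotopic_of_joined {x y : Ω^ J Z z₀} (h : Joined x y) : GenLoop.Homotopic x y := by
  obtain ⟨γ⟩ := h
  refine ⟨⟨⟨⟨fun p => γ p.1 p.2, ?_⟩, ?_, ?_⟩, ?_⟩⟩
  · have h1 : Continuous fun p : I × (J → I) => ((γ p.1 : Ω^ J Z z₀).1, p.2) :=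
      (continuous_subtype_val.comp (γ.continuous.comp continuous_fst)).prodMk continuous_snd
    exact continuous_eval.comp h1
  · intro t
    show (γ 0 : Ω^ J Z z₀) t = x t
    rw [γ.source]
  · intro t
    show (γ 1 : Ω^ J Z z₀) t = y t
    rw [γ.target]
  · intro s t ht
    show (γ s : Ω^ J Z z₀) t = x t
    rw [GenLoop.boundary _ t ht, GenLoop.boundary _ t ht]

theorem joined_of_homotopic {x y : Ω^ J Z z₀} (h : GenLoop.Homotopic x y) : Joined x y := by
  obtain ⟨H⟩ := h
  have hb : ∀ s : I, (H.curry s) ∈ GenLoop J Z z₀ := by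
    intro s t ht
    have := H.prop s t ht
    exact this.trans (x.2 t ht)
  refine ⟨⟨⟨fun s => ⟨H.curry s, hb s⟩, ?_⟩, ?_, ?_⟩⟩
  · exact Continuous.subtype_mk (ContinuousMap.continuous _) _
  · apply Subtype.ext
    ext t
    exact H.apply_zero t
  · apply Subtype.ext
    ext t
    exact H.apply_one t

/-- class of a loop -/
def cls (x : Ω^ J Z z₀) : HomotopyGroup J Z z₀ := Quotient.mk (GenLoop.Homotopic.setoid J z₀) x

theorem cls_eq_iff {x y : Ω^ J Z z₀} : cls x = cls y ↔ Joined x y :=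
  ⟨fun h => joined_of_homotopic (Quotient.exact h),
    fun h => Quotient.sound (s := GenLoop.Homotopic.setoid J z₀) (homotopic_of_joined h)⟩

theorem cls_surj (g : HomotopyGroup J Z z₀) : ∃ x : Ω^ J Z z₀, cls x = g := Quotient.exists_rep g

theorem joined_mu {c d : BoxConf F J} (h : Joined c d) (x : F → Ω^ J Z z₀) :
    Joined (mu c x) (mu d x) := by
  obtain ⟨γ⟩ := h
  refine ⟨⟨⟨fun s => mu (γ s) x, continuous_mu γ.continuous continuous_const⟩, ?_, ?_⟩⟩
  · simp
  · simp

section group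

variable [DecidableEq J]

theorem cls_const [Nonempty J] : cls (GenLoop.const : Ω^ J Z z₀) = 1 := rfl

theorem cls_transAt [Nonempty J] (i : J) (x y : Ω^ J Z z₀) :
    cls (GenLoop.transAt i x y) = cls y * cls x :=
  (HomotopyGroup.mul_spec (i := i) (p := y) (q := x)).symm

theorem cls_symmAt [Nonempty J] (i : J) (x : Ω^ J Z z₀) :
    cls (GenLoop.symmAt i x) = (cls x)⁻¹ :=
  (HomotopyGroup.inv_spec (i := i) (p := x)).symm

variable [Nontrivial J]

/-- **the class of a little cube product** -/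
theorem cls_mu (c : BoxConf (Fin 2) J) (x y : Ω^ J Z z₀) :
    cls (mu c ![x, y]) = cls x * cls y := by
  obtain ⟨i⟩ : Nonempty J := inferInstance
  rw [cls_eq_iff.2 (joined_mu (joined c (halves i)) ![x, y]), mu_halves, cls_transAt, mul_comm]

theorem cls_mu_bool (c : BoxConf Bool J) (x : Bool → Ω^ J Z z₀) :
    cls (mu c x) = cls (x true) * cls (x false) := by
  rw [← mu_relabel c finTwoEquiv x]
  have : (fun v => x (finTwoEquiv v)) = ![x false, x true] := by
    funext v; fin_cases v <;> rfl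
  rw [this, cls_mu, mul_comm]

theorem cls_theta {J' : Type} [Fintype J'] (k : J' ↪ J) (e : NZ J') (x y : Ω^ J Z z₀) :
    cls (theta k e x y) = cls x * cls y := cls_mu_bool _ _

theorem cls_psi {J' : Type} [Fintype J'] (k : J' ↪ J) (e : NZ J') (x : Ω^ J Z z₀) :
    cls (psi k e x) = cls x * cls x := by rw [psi_eq_theta, cls_theta]

end group

/-! ## the component map of `Sing (Ω^J Z)` -/

/-- component map with values in the homotopy group -/
def cOm (J Z : Type) [Finite J] [TopologicalSpace Z] (z₀ : Z) :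
    Cm (Sing (Om J Z z₀)) (HomotopyGroup J Z z₀) :=
  cmOf (fun x => cls x) (fun _ _ h => cls_eq_iff.2 h)

theorem cOm_app {n : ℕ} (w : (Sing (Om J Z z₀)).S n) (t : stdSimplex ℝ (Fin (n + 1))) :
    (cOm J Z z₀).app n w = cls (SingAct265.ev w t) :=
  cmOf_app _ _ w t

theorem cOm_ptS (x : Om J Z z₀) : (cOm J Z z₀).app 0 (ptS x) = cls x := rfl

section group

variable [DecidableEq J] [Nontrivial J]

theorem cOm_mulS (c : BoxConf (Fin 2) J) {n : ℕ} (x y : (Sing (Om J Z z₀)).S n) :
    (cOm J Z z₀).app n ((mulS c).app n (x, y)) = (cOm J Z z₀).app n x * (cOm J Z z₀).app n y := by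
  rw [cOm_app _ (stdSimplex.vertex 0), cOm_app x (stdSimplex.vertex 0),
    cOm_app y (stdSimplex.vertex 0), ev_mulS, cls_mu]

theorem cOm_opS_bool (c : BoxConf Bool J) {n : ℕ} (x : (pow Bool (Sing (Om J Z z₀))).S n) :
    (cOm J Z z₀).app n ((opS c).app n x) =
      (cOm J Z z₀).app n (x true) * (cOm J Z z₀).app n (x false) := by
  rw [cOm_app _ (stdSimplex.vertex 0), cOm_app (x true) (stdSimplex.vertex 0),
    cOm_app (x false) (stdSimplex.vertex 0), ev_opS, cls_mu_bool]

theorem cOm_invS (i : J) {n : ℕ} (x : (Sing (Om J Z z₀)).S n) :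
    (cOm J Z z₀).app n ((invS i).app n x) = ((cOm J Z z₀).app n x)⁻¹ := by
  rw [cOm_app _ (stdSimplex.vertex 0), cOm_app x (stdSimplex.vertex 0)]
  exact cls_symmAt i _

variable {M : ℕ}

theorem cOm_thetaSS (k : Fin (M + 1) ↪ J) {n : ℕ} (g : (EM M).S n) (x y : (Sing (Om J Z z₀)).S n) :
    (cOm J Z z₀).app n ((thetaSS k).app n (g, (x, y))) =
      (cOm J Z z₀).app n x * (cOm J Z z₀).app n y := by
  rw [cOm_app _ (stdSimplex.vertex 0), cOm_app x (stdSimplex.vertex 0),
    cOm_app y (stdSimplex.vertex 0), ev_thetaSS, cls_theta]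

theorem cOm_psiSS (k : Fin (M + 1) ↪ J) {n : ℕ} (g : (EM M).S n) (x : (Sing (Om J Z z₀)).S n) :
    (cOm J Z z₀).app n ((psiSS k).app n (g, x)) =
      (cOm J Z z₀).app n x * (cOm J Z z₀).app n x := by
  rw [psiSS_eq, cOm_thetaSS]

theorem cOm_Psi (k : Fin (M + 1) ↪ J) {n : ℕ} (b : (BM M).S n) (x : (Sing (Om J Z z₀)).S n) :
    (cOm J Z z₀).app n ((Psi k).app n (b, x)) =
      (cOm J Z z₀).app n x * (cOm J Z z₀).app n x := by
  obtain ⟨g, rfl⟩ := proj_surj (invEM M) n b
  rw [Psi_proj, cOm_psiSS]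

/-- `Theta` sends the part of `DM M K` lying over `(g, g)` to `g * g` -/
theorem cOm_Theta_DMmap (k : Fin (M + 1) ↪ J) (g : HomotopyGroup J Z z₀) {n : ℕ}
    (p : (DM M (fib (cOm J Z z₀) g)).S n) :
    (cOm J Z z₀).app n ((Theta k).app n ((DMmap M (fibIncl (cOm J Z z₀) g)).app n p)) = g * g := by
  obtain ⟨⟨e, x, y⟩, rfl⟩ := proj_surj ((invEM M).prod (Invo.swap (fib (cOm J Z z₀) g))) n p
  show (cOm J Z z₀).app n ((thetaSS k).app n (e, ((fibIncl (cOm J Z z₀) g).app n x,
    (fibIncl (cOm J Z z₀) g).app n y))) = _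
  rw [cOm_thetaSS, fib_prop, fib_prop]

end group

/-! ## consequences in homology -/

section homology

variable (R : Type) [CommRing R]

/-- the part of the homology of `Ω^J Z` carried by the component `g` -/
abbrev HOm (J Z : Type) [Finite J] [TopologicalSpace Z] (z₀ : Z) (g : HomotopyGroup J Z z₀) :
    Submodule R (H R (Sing (Om J Z z₀))) := Hc R (cOm J Z z₀) g

variable [DecidableEq J] [Nontrivial J]

/-- products: `H_g · H_h ⊆ H_{gh}`, for any natural external product -/
theorem mulS_mem (cr : ∀ A B : SS, H R A → H R B → H R (A.prod B))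
    (nat : ∀ (A B A' B' : SS) (f : Hom A A') (f' : Hom B B') (x : H R A) (y : H R B),
      cr A' B' (H.map R f x) (H.map R f' y) = H.map R (prodMap f f') (cr A B x y))
    (c : BoxConf (Fin 2) J) {g h : HomotopyGroup J Z z₀} {x y : H R (Sing (Om J Z z₀))}
    (hx : x ∈ HOm R J Z z₀ g) (hy : y ∈ HOm R J Z z₀ h) :
    H.map R (mulS c) (cr _ _ x y) ∈ HOm R J Z z₀ (g * h) :=
  cross_mem R cr nat (cOm J Z z₀) g (cOm J Z z₀) h (cOm J Z z₀) (g * h) (mulS c)
    (fun n x y hx hy => by rw [cOm_mulS, hx, hy]) hx hy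

variable {M : ℕ}

/-- `T_i`-type operations: `H_g → H_{g²}` -/
theorem Psi_mem (cr : ∀ A B : SS, H R A → H R B → H R (A.prod B))
    (nat : ∀ (A B A' B' : SS) (f : Hom A A') (f' : Hom B B') (x : H R A) (y : H R B),
      cr A' B' (H.map R f x) (H.map R f' y) = H.map R (prodMap f f') (cr A B x y))
    (k : Fin (M + 1) ↪ J) {g : HomotopyGroup J Z z₀} {x : H R (Sing (Om J Z z₀))}
    (hx : x ∈ HOm R J Z z₀ g) (a : H R (BM M)) :
    H.map R (Psi k) (cr _ _ a x) ∈ HOm R J Z z₀ (g * g) := by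
  obtain ⟨x, rfl⟩ := hx
  have h := nat _ _ _ _ (Hom.id (BM M)) (fibIncl (cOm J Z z₀) g) a x
  rw [H_map_id] at h
  rw [h, ← H_map_comp]
  refine map_mem_Hc R _ _ _ (fun n p => ?_) _
  show (cOm J Z z₀).app n ((Psi k).app n (p.1, (fibIncl (cOm J Z z₀) g).app n p.2)) = g * g
  rw [cOm_Psi, fib_prop]

/-- `Q_i`-type operations: `H_g → H_{g²}`; `pw : H K → H (DM M K)` natural -/
theorem Theta_mem (pw : ∀ A : SS, H R A → H R (DM M A))
    (nat : ∀ (A B : SS) (f : Hom A B) (x : H R A), pw B (H.map R f x) = H.map R (DMmap M f) (pw A x))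
    (k : Fin (M + 1) ↪ J) {g : HomotopyGroup J Z z₀} {x : H R (Sing (Om J Z z₀))}
    (hx : x ∈ HOm R J Z z₀ g) : H.map R (Theta k) (pw _ x) ∈ HOm R J Z z₀ (g * g) := by
  obtain ⟨x, rfl⟩ := hx
  rw [nat, ← H_map_comp]
  exact map_mem_Hc R _ _ _ (fun n p => cOm_Theta_DMmap k g p) _

end homology

end Crest.Agent.R204.Comp696
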