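import Crest.Agent.R204.Defs

/-!
# Row 204, block E4: homology of an algebraic cone (attaching one cell)

`ConeData d d' i e x₀ p`: `M' = i(M) ⊕ R e`, `d' e = i x₀`, `p` = coefficient of `e`.
-/

set_option autoImplicit false

namespace Crest.Agent.R204.ConeH670

open Crest.Agent.R204

variable {R M M' : Type*} [CommRing R] [AddCommGroup M] [Module R M] [AddCommGroup M'] [Module R M']

/-- `(M', d')` is `(M, d)` with one extra generator `e`, `d' e = i x₀`. -/
structure ConeData (d : M →ₗ[R] M) (d' : M' →ₗ[R] M') (i : M →ₗ[R] M') (e : M') (x₀ : M)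
    (p : M' →ₗ[R] R) : Prop where
  inj : Function.Injective i
  comm : ∀ m, d' (i m) = i (d m)
  de : d' e = i x₀
  pi : ∀ m, p (i m) = 0
  pe : p e = 1
  decomp : ∀ y, ∃ m, y = i m + p y • e

namespace ConeData

variable {d : M →ₗ[R] M} {d' : M' →ₗ[R] M'} {i : M →ₗ[R] M'} {e : M'} {x₀ : M} {p : M' →ₗ[R] R}

theorem comm' (h : ConeData d d' i e x₀ p) : i ∘ₗ d = d' ∘ₗ i := by
  ext m; exact (h.comm m).symm

/-- `p` kills boundaries -/
theorem p_d (h : ConeData d d' i e x₀ p) (y : M') : p (d' y) = 0 := by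
  obtain ⟨m, hm⟩ := h.decomp y
  rw [hm, map_add, map_smul, h.comm, h.de, ← map_smul, ← map_add, h.pi]

theorem d_decomp (h : ConeData d d' i e x₀ p) {y : M'} {m : M} (hm : y = i m + p y • e) :
    d' y = i (d m + p y • x₀) := by
  conv_lhs => rw [hm]
  rw [map_add, map_smul, h.comm, h.de, ← map_smul, ← map_add]

theorem of_p_eq_zero (h : ConeData d d' i e x₀ p) {y : M'} (hy : p y = 0) : ∃ m, y = i m := by
  obtain ⟨m, hm⟩ := h.decomp y
  refine ⟨m, ?_⟩
  rw [hm, hy, zero_smul, add_zero]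

/-- the attaching cycle is a cycle as soon as `d' ∘ d' = 0` -/
theorem d_x₀ (h : ConeData d d' i e x₀ p) (hdd : ∀ y, d' (d' y) = 0) : d x₀ = 0 := by
  apply h.inj
  rw [← h.comm, ← h.de, hdd, map_zero]

/-- inclusion on homology -/
def inc (h : ConeData d d' i e x₀ p) : Hd d →ₗ[R] Hd d' := Hd.map i h.comm'

@[simp] theorem inc_mk (h : ConeData d d' i e x₀ p) (z : M) (hz : d z = 0) :
    h.inc (Hd.mk d z hz) = Hd.mk d' (i z) (by rw [h.comm, hz, map_zero]) := rfl

/-- coefficient of the top cell on homology -/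
def top (h : ConeData d d' i e x₀ p) : Hd d' →ₗ[R] R :=
  Submodule.liftQ _ (p ∘ₗ (LinearMap.ker d').subtype) (by
    rintro ⟨x, hx⟩ hx'
    simp only [Submodule.mem_comap, Submodule.subtype_apply, LinearMap.mem_range] at hx'
    obtain ⟨y, rfl⟩ := hx'
    simp [h.p_d])

@[simp] theorem top_mk (h : ConeData d d' i e x₀ p) (z : M') (hz : d' z = 0) :
    h.top (Hd.mk d' z hz) = p z := rfl

@[simp] theorem top_inc (h : ConeData d d' i e x₀ p) (x : Hd d) : h.top (h.inc x) = 0 := by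
  obtain ⟨z, hz, rfl⟩ := Hd.mk_surj d x
  simp [h.pi]

/-- the image of `H(M)` is the kernel of `top` -/
theorem exists_inc (h : ConeData d d' i e x₀ p) {y : Hd d'} (hy : h.top y = 0) :
    ∃ x, h.inc x = y := by
  obtain ⟨z, hz, rfl⟩ := Hd.mk_surj d' y
  rw [top_mk] at hy
  obtain ⟨m, rfl⟩ := h.of_p_eq_zero hy
  have hm : d m = 0 := by
    apply h.inj; rw [← h.comm, hz, map_zero]
  exact ⟨Hd.mk d m hm, rfl⟩

theorem range_inc (h : ConeData d d' i e x₀ p) : LinearMap.range h.inc = LinearMap.ker h.top := by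
  ext y
  constructor
  · rintro ⟨x, rfl⟩; exact h.top_inc x
  · intro hy; exact h.exists_inc hy

/-- the class of `x₀` dies in the cone -/
theorem inc_x₀ (h : ConeData d d' i e x₀ p) (hx : d x₀ = 0) : h.inc (Hd.mk d x₀ hx) = 0 := by
  rw [inc_mk, Hd.mk_eq_zero]
  exact ⟨e, h.de⟩

/-- kernel of the inclusion: multiples of `[x₀]` -/
theorem inc_eq_zero (h : ConeData d d' i e x₀ p) (hx : d x₀ = 0) {x : Hd d} (h0 : h.inc x = 0) :
    ∃ r : R, x = r • Hd.mk d x₀ hx := by
  obtain ⟨z, hz, rfl⟩ := Hd.mk_surj d x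
  rw [inc_mk, Hd.mk_eq_zero] at h0
  obtain ⟨y, hy⟩ := h0
  obtain ⟨m, hm⟩ := h.decomp y
  have h1 := h.d_decomp hm
  rw [hy] at h1
  have h2 : z = d m + p y • x₀ := h.inj h1
  refine ⟨p y, ?_⟩
  have h3 : p y • Hd.mk d x₀ hx = Hd.mk d (p y • x₀) (by rw [map_smul, hx, smul_zero]) := rfl
  rw [h3, Hd.mk_eq_mk]
  exact ⟨m, by rw [h2]; abel⟩

/-- if `[x₀] = 0` then `H(M) → H(M')` is injective -/
theorem inc_injective (h : ConeData d d' i e x₀ p) {w : M} (hw : d w = x₀) (hdd : ∀ m, d (d m) = 0) :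
    Function.Injective h.inc := by
  have hx : d x₀ = 0 := by rw [← hw]; exact hdd w
  rw [injective_iff_map_eq_zero]
  intro x hx'
  obtain ⟨r, rfl⟩ := h.inc_eq_zero hx hx'
  have : Hd.mk d x₀ hx = 0 := Hd.mk_eq_zero.2 ⟨w, hw⟩
  rw [this, smul_zero]

/-- decomposition of a homology class of the cone, given a top class `τ` with coefficient one -/
theorem exists_decomp (h : ConeData d d' i e x₀ p) {τ : Hd d'} (hτ : h.top τ = 1) (y : Hd d') :
    ∃ x, y = h.inc x + h.top y • τ := by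
  obtain ⟨x, hx⟩ := h.exists_inc (y := y - h.top y • τ) (by simp [hτ])
  exact ⟨x, by rw [hx]; abel⟩

/-- `H(M') = H(M) ⊕ R τ` -/
noncomputable def equiv (h : ConeData d d' i e x₀ p) (hinj : Function.Injective h.inc) {τ : Hd d'}
    (hτ : h.top τ = 1) : (Hd d × R) ≃ₗ[R] Hd d' :=
  LinearEquiv.ofBijective (LinearMap.coprod h.inc (LinearMap.toSpanSingleton R (Hd d') τ)) (by
    constructor
    · rw [injective_iff_map_eq_zero]
      rintro ⟨x, r⟩ hxr
      simp only [LinearMap.coprod_apply, LinearMap.toSpanSingleton_apply] at hxr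
      have h1 := congrArg h.top hxr
      simp only [map_add, top_inc, map_smul, hτ, smul_eq_mul, mul_one, zero_add, map_zero] at h1
      rw [h1, zero_smul, add_zero] at hxr
      rw [Prod.mk_eq_zero]
      exact ⟨hinj (by rw [hxr, map_zero]), h1⟩
    · intro y
      obtain ⟨x, hx⟩ := h.exists_decomp hτ y
      exact ⟨(x, h.top y), by simpa using hx.symm⟩)

@[simp] theorem equiv_apply (h : ConeData d d' i e x₀ p) (hinj : Function.Injective h.inc) {τ : Hd d'}
    (hτ : h.top τ = 1) (x : Hd d) (r : R) : h.equiv hinj hτ (x, r) = h.inc x + r • τ := by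
  change LinearMap.coprod h.inc (LinearMap.toSpanSingleton R (Hd d') τ) (x, r) = _
  rw [LinearMap.coprod_apply, LinearMap.toSpanSingleton_apply]

/-! ### gradings -/

/-- homogeneous classes: a class of the cone represented by a homogeneous cycle of degree `n`, with zero
top coefficient, comes from a homogeneous cycle of `M`. -/
theorem exists_inc_gr (h : ConeData d d' i e x₀ p) {g : Submodule R M} {g' : Submodule R M'}
    (hg : ∀ m, i m ∈ g' → m ∈ g) {z : M'} (hz : d' z = 0) (hzg : z ∈ g') (hp : p z = 0) :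
    ∃ (m : M) (hm : d m = 0), m ∈ g ∧ h.inc (Hd.mk d m hm) = Hd.mk d' z hz := by
  obtain ⟨m, rfl⟩ := h.of_p_eq_zero hp
  have hm : d m = 0 := by
    apply h.inj; rw [← h.comm, hz, map_zero]
  exact ⟨m, hm, hg m hzg, rfl⟩

end ConeData

end Crest.Agent.R204.ConeH670
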