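import Crest.Agent.R204.Defs

/-!
# Row 204: geometry of the simplex for the compression argument (seat 747)

* `retr`: a continuous retraction of `ℝ^(n+1)` onto the standard simplex;
* `nu x = 1 - (n+1) min x_i` (gauge with respect to the barycentre), `dil r x = c + r (x - c)`.
-/

set_option autoImplicit false

open Set
open scoped unitInterval Topology

noncomputable section

namespace Crest.Agent.R204.Conn747

/-- the standard simplex -/
abbrev Dl (n : ℕ) : Type := stdSimplex ℝ (Fin (n + 1))

variable {n : ℕ}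

/-- sum of the positive parts -/
def psum (v : Fin (n + 1) → ℝ) : ℝ := ∑ i, max 0 (v i)

theorem psum_nonneg (v : Fin (n + 1) → ℝ) : 0 ≤ psum v :=
  Finset.sum_nonneg fun _ _ => le_max_left _ _

/-- retraction onto the simplex, as a function -/
def retrF (v : Fin (n + 1) → ℝ) : Fin (n + 1) → ℝ := fun i =>
  (max 0 (v i) + max 0 (1 - psum v) * ((n : ℝ) + 1)⁻¹) / max 1 (psum v)

theorem retrF_mem (v : Fin (n + 1) → ℝ) : retrF v ∈ stdSimplex ℝ (Fin (n + 1)) := by
  have hpos : (0 : ℝ) < max 1 (psum v) := lt_max_of_lt_left one_pos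
  constructor
  · intro i
    unfold retrF
    positivity
  · unfold retrF
    rw [← Finset.sum_div, Finset.sum_add_distrib, Finset.sum_const, Finset.card_univ,
      Fintype.card_fin, nsmul_eq_mul]
    have h1 : ((n + 1 : ℕ) : ℝ) * (max 0 (1 - psum v) * ((n : ℝ) + 1)⁻¹) = max 0 (1 - psum v) := by
      push_cast
      field_simp
    rw [h1, div_eq_one_iff_eq hpos.ne']
    show psum v + max 0 (1 - psum v) = max 1 (psum v)
    rcases le_total 1 (psum v) with h | h
    · rw [max_eq_left (by linarith), max_eq_right h, add_zero]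
    · rw [max_eq_right (by linarith), max_eq_left h]; ring

/-- retraction onto the simplex -/
def retr (v : Fin (n + 1) → ℝ) : Dl n := ⟨retrF v, retrF_mem v⟩

theorem continuous_retr : Continuous (retr : (Fin (n + 1) → ℝ) → Dl n) := by
  refine Continuous.subtype_mk (continuous_pi fun i => ?_) _
  have h1 : Continuous (psum : (Fin (n + 1) → ℝ) → ℝ) :=
    continuous_finsetSum _ fun j _ => continuous_const.max (continuous_apply j)
  refine Continuous.div ?_ (continuous_const.max h1) fun v =>
    (lt_max_of_lt_left one_pos : (0 : ℝ) < max 1 (psum v)).ne'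
  exact (continuous_const.max (continuous_apply i)).add
    ((continuous_const.max (continuous_const.sub h1)).mul continuous_const)

theorem retr_of_mem {v : Fin (n + 1) → ℝ} (hv : v ∈ stdSimplex ℝ (Fin (n + 1))) :
    retr v = ⟨v, hv⟩ := by
  apply Subtype.ext
  funext i
  have h1 : psum v = 1 := by
    unfold psum
    rw [← hv.2]
    exact Finset.sum_congr rfl fun j _ => max_eq_right (hv.1 j)
  show retrF v i = v i
  unfold retrF
  rw [h1, max_eq_right (hv.1 i)]
  simp

theorem retr_coe (x : Dl n) : retr (fun i => x i) = x := retr_of_mem x.2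

/-- smallest coordinate -/
def mn (x : Dl n) : ℝ := Finset.univ.inf' Finset.univ_nonempty (fun i => x i)

theorem continuous_mn : Continuous (mn : Dl n → ℝ) := by
  unfold mn
  exact Continuous.finset_inf'_apply _ fun i _ => (continuous_apply i).comp continuous_subtype_val

theorem mn_le (x : Dl n) (i : Fin (n + 1)) : mn x ≤ x i := Finset.inf'_le _ (Finset.mem_univ i)

theorem exists_mn (x : Dl n) : ∃ i, mn x = x i := by
  obtain ⟨i, -, hi⟩ := Finset.exists_mem_eq_inf' Finset.univ_nonempty (fun i => x i)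
  exact ⟨i, hi⟩

theorem le_mn {x : Dl n} {a : ℝ} (h : ∀ i, a ≤ x i) : a ≤ mn x := by
  obtain ⟨i, hi⟩ := exists_mn x
  rw [hi]; exact h i

theorem mn_nonneg (x : Dl n) : 0 ≤ mn x := le_mn fun i => x.2.1 i

/-- the gauge of the simplex -/
def nu (x : Dl n) : ℝ := 1 - ((n : ℝ) + 1) * mn x

theorem continuous_nu : Continuous (nu : Dl n → ℝ) :=
  continuous_const.sub (continuous_const.mul continuous_mn)

theorem nu_le_one (x : Dl n) : nu x ≤ 1 := by
  have := mn_nonneg x
  unfold nu
  have : 0 ≤ ((n : ℝ) + 1) * mn x := by positivity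
  linarith

theorem nu_nonneg (x : Dl n) : 0 ≤ nu x := by
  have h1 : ∑ _i : Fin (n + 1), mn x ≤ ∑ i, x i := Finset.sum_le_sum fun i _ => mn_le x i
  have h2 : ∑ i, x i = 1 := x.2.2
  rw [h2, Finset.sum_const, Finset.card_univ, Fintype.card_fin, nsmul_eq_mul] at h1
  unfold nu
  push_cast at h1
  linarith

theorem nu_eq_one {x : Dl n} : nu x = 1 ↔ ∃ i, x i = 0 := by
  constructor
  · intro h
    obtain ⟨i, hi⟩ := exists_mn x
    refine ⟨i, ?_⟩
    rw [← hi]
    have h1 : ((n : ℝ) + 1) * mn x = 0 := by unfold nu at h; linarith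
    have h2 : ((n : ℝ) + 1) ≠ 0 := by positivity
    exact (mul_eq_zero.1 h1).resolve_left h2
  · rintro ⟨i, hi⟩
    have h1 : mn x = 0 := le_antisymm (hi ▸ mn_le x i) (mn_nonneg x)
    unfold nu
    rw [h1]; ring

/-- barycentric coordinate -/
def bc (n : ℕ) : ℝ := ((n : ℝ) + 1)⁻¹

theorem bc_mul (n : ℕ) : ((n : ℝ) + 1) * bc n = 1 := by
  unfold bc; field_simp

/-- dilation with centre the barycentre -/
def dil (r : ℝ) (x : Dl n) : Dl n := retr fun i => bc n + r * (x i - bc n)

theorem continuous_dil : Continuous (fun p : ℝ × Dl n => dil p.1 p.2) := by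
  refine continuous_retr.comp (continuous_pi fun i => ?_)
  have h1 : Continuous (fun p : ℝ × Dl n => p.2 i) :=
    (continuous_apply i).comp (continuous_subtype_val.comp continuous_snd)
  exact continuous_const.add (continuous_fst.mul (h1.sub continuous_const))

theorem dil_mem {r : ℝ} {x : Dl n} (h0 : 0 ≤ r) (h1 : r * nu x ≤ 1) :
    (fun i => bc n + r * (x i - bc n)) ∈ stdSimplex ℝ (Fin (n + 1)) := by
  constructor
  · intro i
    have h2 : (n + 1 : ℝ) * (bc n + r * (x i - bc n)) = 1 - r + r * ((n + 1) * x i) := by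
      have := bc_mul n
      linear_combination (1 - r) * this
    have h3 : (n + 1 : ℝ) * mn x ≤ (n + 1) * x i :=
      mul_le_mul_of_nonneg_left (mn_le x i) (by positivity)
    have h4 : 0 ≤ (n + 1 : ℝ) * (bc n + r * (x i - bc n)) := by
      rw [h2]
      have h5 : r * ((n + 1 : ℝ) * mn x) ≤ r * ((n + 1) * x i) := mul_le_mul_of_nonneg_left h3 h0
      have h6 : r * nu x = r - r * ((n + 1 : ℝ) * mn x) := by unfold nu; ring
      linarith
    exact nonneg_of_mul_nonneg_right h4 (by positivity)
  · rw [Finset.sum_add_distrib, Finset.sum_const, Finset.card_univ, Fintype.card_fin,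
      nsmul_eq_mul, ← Finset.mul_sum, Finset.sum_sub_distrib, Finset.sum_const, Finset.card_univ,
      Fintype.card_fin, nsmul_eq_mul]
    have h2 : ∑ i, x i = 1 := x.2.2
    rw [h2]
    push_cast
    rw [bc_mul]; ring

theorem dil_apply {r : ℝ} {x : Dl n} (h0 : 0 ≤ r) (h1 : r * nu x ≤ 1) (i : Fin (n + 1)) :
    dil r x i = bc n + r * (x i - bc n) := by
  unfold dil
  rw [retr_of_mem (dil_mem h0 h1)]
  rfl

theorem mn_dil {r : ℝ} {x : Dl n} (h0 : 0 ≤ r) (h1 : r * nu x ≤ 1) :
    mn (dil r x) = bc n + r * (mn x - bc n) := by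
  apply le_antisymm
  · obtain ⟨i, hi⟩ := exists_mn x
    rw [hi, ← dil_apply h0 h1 i]
    exact mn_le _ _
  · refine le_mn fun i => ?_
    rw [dil_apply h0 h1 i]
    have := mul_le_mul_of_nonneg_left (mn_le x i) h0
    nlinarith

theorem nu_dil {r : ℝ} {x : Dl n} (h0 : 0 ≤ r) (h1 : r * nu x ≤ 1) : nu (dil r x) = r * nu x := by
  unfold nu
  rw [mn_dil h0 h1]
  have := bc_mul n
  linear_combination (r - 1) * this

theorem dil_one (x : Dl n) : dil 1 x = x := by
  apply Subtype.ext
  funext i
  have := dil_apply (r := 1) (x := x) zero_le_one (by rw [one_mul]; exact nu_le_one x) i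
  show dil 1 x i = x i
  rw [this]; ring

theorem dil_dil {r s : ℝ} {x : Dl n} (h0 : 0 ≤ r) (h1 : r * nu x ≤ 1) (h2 : 0 ≤ s)
    (h3 : s * r * nu x ≤ 1) : dil s (dil r x) = dil (s * r) x := by
  apply Subtype.ext
  funext i
  have e1 := dil_apply (r := s) (x := dil r x) h2 (by rw [nu_dil h0 h1, ← mul_assoc]; exact h3) i
  have e2 := dil_apply (r := s * r) (x := x) (mul_nonneg h2 h0) h3 i
  show dil s (dil r x) i = dil (s * r) x i
  rw [e1, e2, dil_apply h0 h1]; ring

/-- boundary of the simplex -/
def bdry (n : ℕ) : Set (Dl n) := {x | ∃ i, x.1 i = 0}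

theorem mem_bdry {x : Dl n} : x ∈ bdry n ↔ nu x = 1 := nu_eq_one.symm

theorem isClosed_bdry : IsClosed (bdry n) := by
  have : bdry n = {x | nu x = 1} := by ext x; exact mem_bdry
  rw [this]
  exact isClosed_eq continuous_nu continuous_const

end Crest.Agent.R204.Conn747
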