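import Crest.Agent.R204.ConnA_747

/-!
# Row 204: compression ⇒ strict lifting for the mapping path space (seat 747)

`PE s = {(γ, a) | γ 1 = s a}`; if maps `(Δ^q, ∂Δ^q) → (Z, s(A))` can be compressed into `A` rel
boundary, then `PE s → Z`, `(γ, a) ↦ γ 0`, has the strict lifting property for `∂Δ^q ⊆ Δ^q`.
-/

set_option autoImplicit false

open Set
open scoped unitInterval Topology

noncomputable section

namespace Crest.Agent.R204.Conn747

variable {A Z : Type} [TopologicalSpace A] [TopologicalSpace Z]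

/-- the mapping path space of `s` -/
abbrev PE (s : C(A, Z)) : Type := {p : C(I, Z) × A // p.1 1 = s p.2}

/-- every map of pairs `(Δ^q, ∂Δ^q) → (Z, s A)` is homotopic rel boundary to a map into `A` -/
def Compr (s : C(A, Z)) (q : ℕ) : Prop :=
  ∀ a : C(Dl q, Z), (∀ x ∈ bdry q, a x ∈ Set.range s) →
    ∃ b : C(Dl q, A), a.HomotopicRel (s.comp b) (bdry q)

theorem lift_of_compr {s : C(A, Z)} (hs : Function.Injective s) {q : ℕ} (hcomp : Compr s q)
    (sg : C(Dl q, Z)) (e : Dl q → PE s) (he : ContinuousOn e (bdry q))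
    (hsg : ∀ x ∈ bdry q, (e x).1.1 0 = sg x) :
    ∃ E : C(Dl q, PE s), (∀ x, (E x).1.1 0 = sg x) ∧ ∀ x ∈ bdry q, E x = e x := by
  classical
  -- the radial projection
  let ri : Dl q → ℝ := fun x => (max (1 / 2) (nu x))⁻¹
  have hmpos : ∀ x : Dl q, (0 : ℝ) < max (1 / 2) (nu x) := fun x => lt_max_of_lt_left (by norm_num)
  have hri : Continuous ri := (continuous_const.max continuous_nu).inv₀ fun x => (hmpos x).ne'
  have hri0 : ∀ x, 0 ≤ ri x := fun x => inv_nonneg.2 (hmpos x).le
  have hri1 : ∀ x, ri x * nu x ≤ 1 := by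
    intro x
    simp only [ri]
    rw [inv_mul_le_iff₀ (hmpos x), mul_one]
    exact le_max_right _ _
  have hri2 : ∀ x, 1 / 2 ≤ nu x → ri x * nu x = 1 := by
    intro x hx
    simp only [ri]
    rw [max_eq_right hx]
    exact inv_mul_cancel₀ (by linarith)
  let pj : Dl q → Dl q := fun x => dil (ri x) x
  have hpj : Continuous pj := continuous_dil.comp (hri.prodMk continuous_id)
  have hpjb : ∀ x, 1 / 2 ≤ nu x → pj x ∈ bdry q := by
    intro x hx
    rw [mem_bdry]
    simp only [pj]
    rw [nu_dil (hri0 x) (hri1 x), hri2 x hx]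
  -- the folded map
  let f1 : Dl q → Z := fun x => sg (dil 2 x)
  let f2 : Dl q → Z := fun x => (e (pj x)).1.1 (projIcc 0 1 zero_le_one (2 * nu x - 1))
  have hf1 : Continuous f1 :=
    sg.continuous.comp (continuous_dil.comp (continuous_const.prodMk continuous_id))
  have hf2 : ContinuousOn f2 {x | 1 / 2 ≤ nu x} := by
    have h1 : ContinuousOn (fun x => e (pj x)) {x | 1 / 2 ≤ nu x} :=
      he.comp hpj.continuousOn hpjb
    have h2 : ContinuousOn (fun x => (e (pj x)).1.1) {x | 1 / 2 ≤ nu x} :=
      (continuous_fst.comp continuous_subtype_val).comp_continuousOn h1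
    have h3 : Continuous (fun x : Dl q => (projIcc (0 : ℝ) 1 zero_le_one (2 * nu x - 1) : I)) :=
      continuous_projIcc.comp ((continuous_const.mul continuous_nu).sub continuous_const)
    have h4 : Continuous (fun p : C(I, Z) × I => p.1 p.2) := continuous_eval
    exact h4.comp_continuousOn (h2.prodMk h3.continuousOn)
  let f' : Dl q → Z := fun x => if nu x ≤ 1 / 2 then f1 x else f2 x
  have hf' : Continuous f' := by
    refine continuous_if_le continuous_nu continuous_const hf1.continuousOn hf2 ?_
    intro x hx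
    have hb := hpjb x hx.ge
    have h1 : ri x = 2 := by simp only [ri]; rw [hx, max_self]; norm_num
    simp only [f1, f2]
    rw [hx]
    norm_num
    have h2 := hsg (pj x) hb
    have h3 : pj x = dil 2 x := by simp only [pj, h1]
    rw [h3] at h2 ⊢
    exact h2.symm
  have hf'b : ∀ x ∈ bdry q, f' x = s (e x).1.2 := by
    intro x hx
    have h1 := mem_bdry.1 hx
    have h2 : ri x = 1 := by
      simp only [ri]; rw [h1, max_eq_right (by norm_num)]; norm_num
    simp only [f', f2, pj]
    rw [if_neg (by rw [h1]; norm_num), h1, h2, dil_one]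
    norm_num
    exact (e x).2
  obtain ⟨b, ⟨K⟩⟩ := hcomp ⟨f', hf'⟩ (fun x hx => ⟨(e x).1.2, (hf'b x hx).symm⟩)
  have hK0 : ∀ x, K (0, x) = f' x := fun x => K.apply_zero x
  have hK1 : ∀ x, K (1, x) = s (b x) := fun x => K.apply_one x
  have hKb : ∀ t, ∀ x ∈ bdry q, K (t, x) = f' x := fun t x hx => K.eq_fst t hx
  have hKb' : ∀ t, ∀ x ∈ bdry q, K (t, x) = s (b x) := fun t x hx => by
    rw [hKb t x hx, ← hKb 1 x hx, hK1]
  -- the final homotopy
  let rr : Dl q × I → ℝ := fun p => (1 - (p.2 : ℝ)) / 2 + (p.2 : ℝ) * ri p.1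
  have hrr : Continuous rr := by
    have h1 : Continuous (fun p : Dl q × I => (p.2 : ℝ)) := by fun_prop
    exact ((continuous_const.sub h1).div_const 2).add (h1.mul (hri.comp continuous_fst))
  have hrr0 : ∀ p, 0 ≤ rr p := by
    rintro ⟨x, t⟩
    have h1 := t.2.1
    have h2 := t.2.2
    have h3 := hri0 x
    have h4 : 0 ≤ (t : ℝ) * ri x := mul_nonneg h1 h3
    simp only [rr]; linarith
  have hrr1 : ∀ p : Dl q × I, rr p * nu p.1 ≤ 1 := by
    rintro ⟨x, t⟩
    have h1 := t.2.1
    have h2 := t.2.2
    have h3 := mul_le_mul_of_nonneg_left (hri1 x) h1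
    have h5 := nu_le_one x
    have h6 := nu_nonneg x
    simp only [rr]
    have h7 : (1 - (t : ℝ)) / 2 * nu x ≤ (1 - t) / 2 * 1 :=
      mul_le_mul_of_nonneg_left h5 (by linarith)
    nlinarith
  let hh : Dl q × I → I := fun p =>
    projIcc 0 1 zero_le_one ((p.2 : ℝ) * min 1 (2 * (1 - nu p.1)))
  have hhh : Continuous hh := by
    have h1 : Continuous (fun p : Dl q × I => (p.2 : ℝ)) := by fun_prop
    have h2 : Continuous (fun p : Dl q × I => nu p.1) := continuous_nu.comp continuous_fst
    exact continuous_projIcc.comp (h1.mul (continuous_const.min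
      (continuous_const.mul (continuous_const.sub h2))))
  have hdl : Continuous (fun p : Dl q × I => dil (rr p) p.1) :=
    continuous_dil.comp (hrr.prodMk continuous_fst)
  let Γ0 : C(Dl q × I, Z) := ⟨fun p => K (hh p, dil (rr p) p.1), K.continuous.comp (hhh.prodMk hdl)⟩
  let B : C(Dl q, A) := ⟨fun x => b (dil (rr (x, 1)) x), b.continuous.comp
    (hdl.comp (continuous_id.prodMk continuous_const))⟩
  have hΓ0 : ∀ p, Γ0 p = K (hh p, dil (rr p) p.1) := fun _ => rfl
  have hend : ∀ x, Γ0.curry x 1 = s (B x) := by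
    intro x
    show K (hh (x, 1), dil (rr (x, 1)) x) = s (b (dil (rr (x, 1)) x))
    rcases le_total (nu x) (1 / 2) with h | h
    · have h1 : hh (x, 1) = 1 := by
        simp only [hh]
        rw [min_eq_left (by linarith)]
        simp only [Icc.coe_one, mul_one]
        exact projIcc_right _
      rw [h1, hK1]
    · apply hKb'
      rw [mem_bdry, nu_dil (hrr0 _) (hrr1 (x, 1))]
      have h1 : rr (x, 1) = ri x := by simp [rr]
      rw [h1]; exact hri2 x h
  have hstart : ∀ x, Γ0.curry x 0 = sg x := by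
    intro x
    show K (hh (x, 0), dil (rr (x, 0)) x) = sg x
    have h1 : hh (x, 0) = 0 := by
      simp only [hh]
      simp only [Icc.coe_zero, zero_mul]
      exact projIcc_left _
    have h2 : rr (x, 0) = 1 / 2 := by simp [rr]
    have h5 := nu_le_one x
    rw [h1, hK0, h2]
    simp only [f']
    rw [if_pos (by rw [nu_dil (by norm_num) (by linarith)]; linarith)]
    simp only [f1]
    rw [dil_dil (by norm_num) (by linarith) (by norm_num) (by linarith)]
    norm_num
    rw [dil_one]
  let E : C(Dl q, PE s) := ⟨fun x => ⟨(Γ0.curry x, B x), hend x⟩,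
    Continuous.subtype_mk (Γ0.curry.continuous.prodMk B.continuous) _⟩
  refine ⟨E, hstart, ?_⟩
  intro x hx
  have hν := mem_bdry.1 hx
  have hrix : ri x = 1 := by
    simp only [ri]; rw [hν, max_eq_right (by norm_num)]; norm_num
  apply Subtype.ext
  refine Prod.ext ?_ ?_
  · apply ContinuousMap.ext
    intro t
    show K (hh (x, t), dil (rr (x, t)) x) = (e x).1.1 t
    have h1 : hh (x, t) = 0 := by
      simp only [hh]
      rw [hν]
      norm_num
    have h2 : rr (x, t) = (1 + t) / 2 := by simp only [rr]; rw [hrix]; ring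
    have ht0 := t.2.1
    have ht1 := t.2.2
    have h3 : nu (dil ((1 + (t : ℝ)) / 2) x) = (1 + t) / 2 := by
      rw [nu_dil (by linarith) (by rw [hν]; linarith), hν, mul_one]
    rw [h1, hK0, h2]
    simp only [f']
    split_ifs with h4
    · have h5 : (t : ℝ) = 0 := by rw [h3] at h4; linarith
      have h6 : t = 0 := Subtype.ext h5
      subst h6
      simp only [f1]
      rw [hsg x hx, dil_dil (by norm_num) (by rw [hν]; norm_num) (by norm_num)
        (by rw [hν]; norm_num)]
      norm_num
      rw [dil_one]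
    · have h5 : pj (dil ((1 + (t : ℝ)) / 2) x) = x := by
        simp only [pj, ri]
        rw [h3, max_eq_right (by rw [h3] at h4; linarith [not_le.1 h4])]
        have h6 : ((1 + (t : ℝ)) / 2)⁻¹ * ((1 + (t : ℝ)) / 2) = 1 := inv_mul_cancel₀ (by positivity)
        rw [dil_dil (by linarith) (by rw [hν]; linarith) (by positivity)
          (by rw [h6, hν]; norm_num), h6, dil_one]
      simp only [f2]
      rw [h5, h3]
      congr 1
      have h6 : 2 * ((1 + (t : ℝ)) / 2) - 1 = t := by ring
      rw [h6, projIcc_val]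
  · show b (dil (rr (x, 1)) x) = (e x).1.2
    apply hs
    have h1 : rr (x, 1) = 1 := by simp only [rr]; rw [hrix]; norm_num
    rw [h1, dil_one, ← hK1, hKb 1 x hx]
    exact hf'b x hx

end Crest.Agent.R204.Conn747
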