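import Crest.Agent.R204.ConnB_747

/-!
# Row 204: gluing along the boundary of the simplex, section of `Sing (PE s) → Sing Z` (seat 747)
-/

set_option autoImplicit false

open Set
open scoped unitInterval Topology

noncomputable section

namespace Crest.Agent.R204.Conn747

section Glue

theorem map_face_apply {m : ℕ} (i : Fin (m + 2)) (y : Dl m) (a : Fin (m + 1)) :
    stdSimplex.map (Op.face i) y (Op.face i a) = y a := by
  classical
  show (stdSimplex.map (Op.face i) y : Fin (m + 2) → ℝ) (Op.face i a) = y a
  rw [stdSimplex.map_coe, FunOnFinite.linearMap_apply_apply]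
  have : Finset.univ.filter (fun b => Op.face i b = Op.face i a) = {a} := by
    ext b
    simp only [Finset.mem_filter, Finset.mem_univ, true_and, Finset.mem_singleton]
    constructor
    · intro h
      exact (Fin.succAboveOrderEmb i).injective h
    · rintro rfl; rfl
  simp_all

theorem map_face_self {m : ℕ} (i : Fin (m + 2)) (y : Dl m) :
    stdSimplex.map (Op.face i) y i = 0 := by
  classical
  show (stdSimplex.map (Op.face i) y : Fin (m + 2) → ℝ) i = 0
  rw [stdSimplex.map_coe, FunOnFinite.linearMap_apply_apply]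
  have : Finset.univ.filter (fun b => Op.face i b = i) = ∅ := by
    ext b
    simp only [Finset.mem_filter, Finset.mem_univ, true_and, Finset.notMem_empty, iff_false]
    exact Fin.succAbove_ne i b
  simp_all

theorem exists_face {m : ℕ} {i b : Fin (m + 2)} (h : b ≠ i) : ∃ a, Op.face i a = b :=
  Fin.exists_succAbove_eq h

/-- delete the `i`-th coordinate (totalised) -/
def restr {m : ℕ} (i : Fin (m + 2)) (y : Dl (m + 1)) : Dl m := retr fun a => y (Op.face i a)

theorem continuous_restr {m : ℕ} (i : Fin (m + 2)) : Continuous (restr i : Dl (m + 1) → Dl m) :=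
  continuous_retr.comp (continuous_pi fun a =>
    (continuous_apply (Op.face i a)).comp continuous_subtype_val)

theorem restr_apply {m : ℕ} {i : Fin (m + 2)} {y : Dl (m + 1)} (h : y i = 0) (a : Fin (m + 1)) :
    restr i y a = y (Op.face i a) := by
  unfold restr
  rw [retr_of_mem (v := fun a => y (Op.face i a))]
  · rfl
  · refine ⟨fun a => y.2.1 _, ?_⟩
    have h1 : ∑ b, y b = 1 := y.2.2
    rw [Fin.sum_univ_succAbove _ i, h, zero_add] at h1
    exact h1

theorem restr_map {m : ℕ} (i : Fin (m + 2)) (y : Dl m) :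
    restr i (stdSimplex.map (Op.face i) y) = y := by
  apply Subtype.ext
  funext a
  show restr i (stdSimplex.map (Op.face i) y) a = y a
  rw [restr_apply (map_face_self i y), map_face_apply]

theorem map_restr {m : ℕ} {i : Fin (m + 2)} {y : Dl (m + 1)} (h : y i = 0) :
    stdSimplex.map (Op.face i) (restr i y) = y := by
  apply Subtype.ext
  funext b
  show stdSimplex.map (Op.face i) (restr i y) b = y b
  by_cases hb : b = i
  · subst hb
    rw [map_face_self, h]
  · obtain ⟨a, rfl⟩ := exists_face hb
    rw [map_face_apply, restr_apply h]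

variable {W : Type} [TopologicalSpace W]

/-- a singular simplex as a continuous map -/
def toC {m : ℕ} (x : (SS.Sing W).S m) : C(Dl m, W) := x

/-- compatible families of faces -/
def Cpt : (m : ℕ) → (Fin (m + 2) → (SS.Sing W).S m) → Prop
  | 0, _ => True
  | k + 1, x => ∀ (i : Fin (k + 3)) (j : Fin (k + 2)) (i' : Fin (k + 3)) (j' : Fin (k + 2)),
      (j : ℕ) < i → (i' : ℕ) = j → (j' : ℕ) + 1 = i →
        (SS.Sing W).act (Op.face j) (x i) = (SS.Sing W).act (Op.face j') (x i')

theorem act_apply {m n : ℕ} (f : Op m n) (x : (SS.Sing W).S n) (y : Dl m) :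
    toC ((SS.Sing W).act f x) y = toC x (stdSimplex.map f y) := rfl

theorem glue_wd_lt {m : ℕ} (x : Fin (m + 2) → (SS.Sing W).S m) (hx : Cpt m x)
    {i i' : Fin (m + 2)} {y : Dl (m + 1)} (hi : y i = 0) (hi' : y i' = 0) (hlt : i' < i) :
    toC (x i) (restr i y) = toC (x i') (restr i' y) := by
  rcases m with _ | k
  · exfalso
    have h1 : ∑ b, y b = 1 := y.2.2
    have hlt' : (i' : ℕ) < i := hlt
    have hi2 := i.2
    have h0 : i' = 0 := by ext; show (i' : ℕ) = 0; omega
    have h2 : i = 1 := by ext; show (i : ℕ) = 1; omega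
    subst h0; subst h2
    rw [Fin.sum_univ_two, hi, hi'] at h1
    norm_num at h1
  · have hlt' : (i' : ℕ) < i := hlt
    have hi2 := i.2
    let j : Fin (k + 2) := ⟨i', by omega⟩
    let j' : Fin (k + 2) := ⟨i - 1, by omega⟩
    have hj : (j : ℕ) = i' := rfl
    have hj' : (j' : ℕ) = i - 1 := rfl
    have hc := hx i j i' j' (by omega) (by omega) (by omega)
    have hff := Ch.face_face i j i' j' (by omega) (by omega) (by omega)
    have e1 : Op.face i j = i' := by
      ext; rw [Ch.face_val]; rw [if_pos (by omega)]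
    have e2 : Op.face i' j' = i := by
      ext; rw [Ch.face_val]; rw [if_neg (by omega)]; omega
    have z1 : restr i y j = 0 := by rw [restr_apply hi, e1, hi']
    have z2 : restr i' y j' = 0 := by rw [restr_apply hi', e2, hi]
    have hz : restr j (restr i y) = restr j' (restr i' y) := by
      apply Subtype.ext
      funext a
      show restr j (restr i y) a = restr j' (restr i' y) a
      rw [restr_apply z1, restr_apply z2, restr_apply hi, restr_apply hi']
      have := DFunLike.congr_fun hff a
      simp only [OrderHom.comp_coe, Function.comp_apply] at this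
      rw [this]
    calc toC (x i) (restr i y)
        = toC (x i) (stdSimplex.map (Op.face j) (restr j (restr i y))) := by
          rw [map_restr z1]
      _ = toC ((SS.Sing W).act (Op.face j) (x i)) (restr j (restr i y)) := rfl
      _ = toC ((SS.Sing W).act (Op.face j') (x i')) (restr j' (restr i' y)) := by
          rw [hc, hz]
      _ = toC (x i') (stdSimplex.map (Op.face j') (restr j' (restr i' y))) := rfl
      _ = toC (x i') (restr i' y) := by rw [map_restr z2]

theorem glue_wd {m : ℕ} (x : Fin (m + 2) → (SS.Sing W).S m) (hx : Cpt m x)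
    {i i' : Fin (m + 2)} {y : Dl (m + 1)} (hi : y i = 0) (hi' : y i' = 0) :
    toC (x i) (restr i y) = toC (x i') (restr i' y) := by
  rcases lt_trichotomy i i' with h | h | h
  · exact (glue_wd_lt x hx hi' hi h).symm
  · subst h; rfl
  · exact glue_wd_lt x hx hi hi' h

/-- gluing a compatible family of faces -/
theorem glue {m : ℕ} (x : Fin (m + 2) → (SS.Sing W).S m) (hx : Cpt m x) :
    ∃ e : Dl (m + 1) → W, ContinuousOn e (bdry (m + 1)) ∧
      ∀ (i : Fin (m + 2)) (y : Dl m), e (stdSimplex.map (Op.face i) y) = toC (x i) y := by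
  classical
  let e : Dl (m + 1) → W := fun y =>
    if h : ∃ i, y i = 0 then toC (x h.choose) (restr h.choose y)
    else toC (x 0) (restr 0 y)
  have he : ∀ (i : Fin (m + 2)) (y : Dl (m + 1)), y i = 0 →
      e y = toC (x i) (restr i y) := by
    intro i y hy
    have h : ∃ i, y i = 0 := ⟨i, hy⟩
    show (if h : ∃ i, y i = 0 then toC (x h.choose) (restr h.choose y)
      else toC (x 0) (restr 0 y)) = _
    rw [dif_pos h]
    exact glue_wd x hx h.choose_spec hy
  refine ⟨e, ?_, ?_⟩
  · have hU : bdry (m + 1) = ⋃ i : Fin (m + 2), {y : Dl (m + 1) | y i = 0} := by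
      ext y; simp only [bdry, Set.mem_ofPred_eq, Set.mem_iUnion]; rfl
    rw [hU]
    refine (locallyFinite_of_finite _).continuousOn_iUnion (fun i => ?_) (fun i => ?_)
    · exact isClosed_eq ((continuous_apply i).comp continuous_subtype_val) continuous_const
    · have hc : ContinuousOn (fun y => toC (x i) (restr i y)) {y : Dl (m + 1) | y i = 0} :=
        ((toC (x i)).continuous.comp (continuous_restr i)).continuousOn
      exact hc.congr fun y hy => he i y hy
  · intro i y
    rw [he i _ (map_face_self i y), restr_map]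

end Glue

variable {A Z : Type} [TopologicalSpace A] [TopologicalSpace Z]

/-- start of the path -/
def pr0 (s : C(A, Z)) : C(PE s, Z) :=
  ⟨fun p => p.1.1 0, (ContinuousEvalConst.continuous_eval_const (0 : I)).comp
    (continuous_fst.comp continuous_subtype_val)⟩

/-- the end point in `A` -/
def prA (s : C(A, Z)) : C(PE s, A) := ⟨fun p => p.1.2, continuous_snd.comp continuous_subtype_val⟩

/-- constant paths -/
def cstP (s : C(A, Z)) : C(A, PE s) :=
  ⟨fun a => ⟨(ContinuousMap.const I (s a), a), rfl⟩,
    Continuous.subtype_mk ((ContinuousMap.continuous_const'.comp s.continuous).prodMk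
      continuous_id) _⟩

theorem pr0_cstP (s : C(A, Z)) (a : A) : pr0 s (cstP s a) = s a := rfl
theorem prA_cstP (s : C(A, Z)) (a : A) : prA s (cstP s a) = a := rfl

theorem lift_faces {s : C(A, Z)} (hs : Function.Injective s) {m : ℕ} (hcomp : Compr s (m + 1))
    (x : Fin (m + 2) → (SS.Sing (PE s)).S m) (hx : Cpt m x) (sg : (SS.Sing Z).S (m + 1))
    (hsg : ∀ i, (SS.SingMap (pr0 s)).app m (x i) = (SS.Sing Z).act (Op.face i) sg) :
    ∃ e : (SS.Sing (PE s)).S (m + 1), (∀ i, (SS.Sing (PE s)).act (Op.face i) e = x i) ∧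
      (SS.SingMap (pr0 s)).app (m + 1) e = sg := by
  obtain ⟨e, he, hex⟩ := glue x hx
  obtain ⟨E, hE, hEb⟩ := lift_of_compr hs hcomp (toC sg) e he (by
    rintro y ⟨i, hi⟩
    have h1 := hex i (restr i y)
    rw [map_restr hi] at h1
    rw [h1]
    have h2 := ContinuousMap.congr_fun (hsg i) (restr i y)
    have h3 : toC ((SS.Sing Z).act (Op.face i) sg) (restr i y) =
        toC sg (stdSimplex.map (Op.face i) (restr i y)) := rfl
    rw [map_restr hi] at h3
    exact h2.trans h3)
  refine ⟨E, fun i => ?_, ?_⟩
  · apply ContinuousMap.ext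
    intro y
    show E (stdSimplex.map (Op.face i) y) = _
    rw [hEb _ ⟨i, map_face_self i y⟩]
    exact hex i y
  · exact ContinuousMap.ext hE

theorem lift_zero {s : C(A, Z)} (hcomp : Compr s 0)
    (sg : (SS.Sing Z).S 0) : ∃ e : (SS.Sing (PE s)).S 0, (SS.SingMap (pr0 s)).app 0 e = sg := by
  have hb : bdry 0 = (∅ : Set (Dl 0)) := by
    rw [Set.eq_empty_iff_forall_notMem]
    rintro y ⟨i, hi⟩
    have h1 : ∑ b, y b = 1 := y.2.2
    rw [Fin.sum_univ_one] at h1
    have : i = 0 := Fin.ext (by have := i.2; simp only [Fin.val_zero]; omega)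
    subst this
    have h2 : y 0 = 0 := hi
    rw [h2] at h1
    norm_num at h1
  -- a lift of the point exists
  obtain ⟨b, ⟨K⟩⟩ := hcomp (toC sg) (by rw [hb]; simp)
  let E : C(Dl 0, PE s) := ⟨fun y => ⟨((K.toContinuousMap.comp ContinuousMap.prodSwap).curry y, b y),
    K.apply_one y⟩, Continuous.subtype_mk
      ((K.toContinuousMap.comp ContinuousMap.prodSwap).curry.continuous.prodMk b.continuous) _⟩
  refine ⟨E, ?_⟩
  apply ContinuousMap.ext
  intro y
  exact K.apply_zero y

end Crest.Agent.R204.Conn747
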