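import Crest.Agent.R204.SpecA_334

/-!
# Row 204, A0': the complex of degenerate chains is acyclic (helper76)
-/

set_option autoImplicit false

noncomputable section

open Finsupp

namespace Crest.Agent.R204.Norm76

variable {R : Type} [CommRing R] {K : SS}

/-! ## relations between cofaces and codegeneracies with explicit indices -/

theorem dgn_face_lt {n : ℕ} (j : Fin (n + 2)) (i : Fin (n + 3)) (j' : Fin (n + 1)) (i' : Fin (n + 2))
    (h : (i : ℕ) < j) (hj : (j' : ℕ) + 1 = j) (hi : (i' : ℕ) = i) :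
    (Op.dgn j).comp (Op.face i) = (Op.face i').comp (Op.dgn j') := by
  ext a
  simp only [OrderHom.comp_coe, Function.comp_apply, Ch.dgn_val, Ch.face_val]
  split_ifs <;> omega

theorem dgn_face_gt {n : ℕ} (j : Fin (n + 2)) (i : Fin (n + 3)) (j' : Fin (n + 1)) (i' : Fin (n + 2))
    (h : (j : ℕ) + 1 < i) (hj : (j' : ℕ) = j) (hi : (i' : ℕ) + 1 = i) :
    (Op.dgn j).comp (Op.face i) = (Op.face i').comp (Op.dgn j') := by
  ext a
  simp only [OrderHom.comp_coe, Function.comp_apply, Ch.dgn_val, Ch.face_val]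
  split_ifs <;> omega

theorem dgn_dgn {n : ℕ} (j : Fin (n + 1)) (p : Fin (n + 2)) (q : Fin (n + 1)) (j' : Fin (n + 2))
    (h : (j : ℕ) < p) (hq : (q : ℕ) + 1 = p) (hj : (j' : ℕ) = j) :
    (Op.dgn j).comp (Op.dgn p) = (Op.dgn q).comp (Op.dgn j') := by
  ext a
  simp only [OrderHom.comp_coe, Function.comp_apply, Ch.dgn_val]
  split_ifs <;> omega

theorem act_face_dgn_eq {n : ℕ} (i : Fin (n + 2)) (j : Fin (n + 1)) (y : K.S n)
    (h : i = j.castSucc ∨ i = j.succ) : K.act (Op.face i) (K.act (Op.dgn j) y) = y := by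
  rw [← K.act_comp, Ch.face_dgn_eq i j h, K.act_id]

theorem act_face_dgn_lt {n : ℕ} (j : Fin (n + 2)) (i : Fin (n + 3)) (j' : Fin (n + 1))
    (i' : Fin (n + 2)) (y : K.S (n + 1)) (h : (i : ℕ) < j) (hj : (j' : ℕ) + 1 = j)
    (hi : (i' : ℕ) = i) :
    K.act (Op.face i) (K.act (Op.dgn j) y) = K.act (Op.dgn j') (K.act (Op.face i') y) := by
  rw [← K.act_comp, dgn_face_lt j i j' i' h hj hi, K.act_comp]

theorem act_face_dgn_gt {n : ℕ} (j : Fin (n + 2)) (i : Fin (n + 3)) (j' : Fin (n + 1))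
    (i' : Fin (n + 2)) (y : K.S (n + 1)) (h : (j : ℕ) + 1 < i) (hj : (j' : ℕ) = j)
    (hi : (i' : ℕ) + 1 = i) :
    K.act (Op.face i) (K.act (Op.dgn j) y) = K.act (Op.dgn j') (K.act (Op.face i') y) := by
  rw [← K.act_comp, dgn_face_gt j i j' i' h hj hi, K.act_comp]

theorem act_dgn_dgn {n : ℕ} (j : Fin (n + 1)) (p : Fin (n + 2)) (q : Fin (n + 1))
    (j' : Fin (n + 2)) (y : K.S n) (h : (j : ℕ) < p) (hq : (q : ℕ) + 1 = p) (hj : (j' : ℕ) = j) :
    K.act (Op.dgn p) (K.act (Op.dgn j) y) = K.act (Op.dgn j') (K.act (Op.dgn q) y) := by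
  rw [← K.act_comp, dgn_dgn j p q j' h hq hj, K.act_comp]

variable (R K)

/-- chains degenerate along `s_j`, `j < p` -/
def D (p : ℕ) : Submodule R (Ch R K) :=
  Submodule.span R {c | ∃ (n : ℕ) (j : Fin (n + 1)) (y : K.S n), (j : ℕ) < p ∧
    c = single ⟨n + 1, K.act (Op.dgn j) y⟩ 1}

/-- the operator `s_p` on chains (zero in degrees `< p`) -/
def Sop (p : ℕ) : Ch R K →ₗ[R] Ch R K :=
  Finsupp.linearCombination R (fun t : K.T =>
    if h : p < t.1 + 1 then single ⟨t.1 + 1, K.act (Op.dgn ⟨p, h⟩) t.2⟩ (1 : R) else 0)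

variable {R K}

theorem Sop_single {p n : ℕ} (h : p < n + 1) (x : K.S n) (r : R) :
    Sop R K p (single ⟨n, x⟩ r) = single ⟨n + 1, K.act (Op.dgn ⟨p, h⟩) x⟩ r := by
  rw [Sop, Finsupp.linearCombination_single, dif_pos h, Finsupp.smul_single, smul_eq_mul, mul_one]

theorem Sop_single_of_le {p n : ℕ} (h : n < p) (x : K.S n) (r : R) :
    Sop R K p (single ⟨n, x⟩ r) = 0 := by
  rw [Sop, Finsupp.linearCombination_single, dif_neg (show ¬ p < n + 1 by omega), smul_zero]

theorem single_mem_D {p n : ℕ} (j : Fin (n + 1)) (y : K.S n) (h : (j : ℕ) < p) (r : R) :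
    (single ⟨n + 1, K.act (Op.dgn j) y⟩ r : Ch R K) ∈ D R K p := by
  have : (single ⟨n + 1, K.act (Op.dgn j) y⟩ r : Ch R K) =
      r • single ⟨n + 1, K.act (Op.dgn j) y⟩ 1 := by simp
  rw [this]
  exact Submodule.smul_mem _ _ (Submodule.subset_span ⟨n, j, y, h, rfl⟩)

theorem D_zero : D R K 0 = ⊥ := by
  rw [D, Submodule.span_eq_bot]
  rintro c ⟨n, j, y, h, rfl⟩
  exact absurd h (by omega)

theorem D_mono {p q : ℕ} (h : p ≤ q) : D R K p ≤ D R K q := by
  refine Submodule.span_mono ?_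
  rintro c ⟨n, j, y, hj, rfl⟩
  exact ⟨n, j, y, by omega, rfl⟩

theorem D_le_Dg (p : ℕ) : D R K p ≤ Ch.Dg R K := by
  refine Submodule.span_mono ?_
  rintro c ⟨n, j, y, hj, rfl⟩
  exact ⟨_, Ch.isDgn_act K j y, rfl⟩

theorem exists_mem_D {c : Ch R K} (hc : c ∈ Ch.Dg R K) : ∃ p, c ∈ D R K p := by
  refine Submodule.span_induction (p := fun c _ => ∃ p, c ∈ D R K p) ?_ ?_ ?_ ?_ hc
  · rintro _ ⟨⟨n, x⟩, hx, rfl⟩
    rcases n with _ | n
    · exact hx.elim
    · obtain ⟨j, y, rfl⟩ := hx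
      exact ⟨n + 1, single_mem_D j y (by omega) 1⟩
  · exact ⟨0, Submodule.zero_mem _⟩
  · rintro x y _ _ ⟨p, hp⟩ ⟨q, hq⟩
    exact ⟨max p q, Submodule.add_mem _ (D_mono (le_max_left _ _) hp)
      (D_mono (le_max_right _ _) hq)⟩
  · rintro r x _ ⟨p, hp⟩
    exact ⟨p, Submodule.smul_mem _ _ hp⟩

/-- `s_p` preserves `D p` -/
theorem Sop_mem_D {p : ℕ} {c : Ch R K} (hc : c ∈ D R K p) : Sop R K p c ∈ D R K p := by
  refine Submodule.span_induction (p := fun c _ => Sop R K p c ∈ D R K p) ?_ ?_ ?_ ?_ hc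
  · rintro _ ⟨n, j, y, hj, rfl⟩
    by_cases h : p < n + 1 + 1
    · rw [Sop_single h]
      rw [act_dgn_dgn j ⟨p, h⟩ ⟨p - 1, by omega⟩ ⟨j, by omega⟩ y hj
        (show p - 1 + 1 = p by omega) rfl]
      exact single_mem_D (R := R) (⟨j, by omega⟩ : Fin (n + 1 + 1)) _ hj _
    · rw [Sop_single_of_le (by omega)]
      exact Submodule.zero_mem _
  · simp
  · intro a b _ _ ha hb; rw [map_add]; exact Submodule.add_mem _ ha hb
  · intro r a _ ha; rw [map_smul]; exact Submodule.smul_mem _ _ ha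

theorem bd_mem_D {p : ℕ} {c : Ch R K} (hc : c ∈ D R K p) : Ch.bd R K c ∈ D R K p := by
  refine Submodule.span_induction (p := fun c _ => Ch.bd R K c ∈ D R K p) ?_ ?_ ?_ ?_ hc
  · rintro _ ⟨n, j, y, hj, rfl⟩
    rw [Ch.bd_single_succ]
    rw [← Finset.sum_add_sum_compl ({j.castSucc, j.succ} : Finset (Fin (n + 2)))]
    refine Submodule.add_mem _ ?_ (Submodule.sum_mem _ ?_)
    · rw [Finset.sum_pair (by simp [Fin.ext_iff])]
      rw [act_face_dgn_eq _ _ _ (Or.inl rfl), act_face_dgn_eq _ _ _ (Or.inr rfl),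
        ← Finsupp.single_add]
      have : ((1 : R) * (-1) ^ ((j.castSucc : Fin (n + 2)) : ℕ) +
          1 * (-1) ^ ((j.succ : Fin (n + 2)) : ℕ)) = 0 := by
        simp only [Fin.val_castSucc, Fin.val_succ]; ring
      rw [this, Finsupp.single_zero]
      exact Submodule.zero_mem _
    · intro i hi
      simp only [Finset.mem_compl, Finset.mem_insert, Finset.mem_singleton, not_or] at hi
      have h1 := hi.1; have h2 := hi.2
      simp only [Fin.ext_iff, Fin.val_castSucc, Fin.val_succ] at h1 h2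
      rcases n with _ | n
      · exfalso; omega
      · rcases lt_or_gt_of_ne h1 with h | h
        · rw [act_face_dgn_lt j i ⟨(j : ℕ) - 1, by omega⟩ ⟨i, by omega⟩ y h (by simp; omega) rfl]
          exact single_mem_D _ _ (by simp; omega) _
        · rw [act_face_dgn_gt j i ⟨j, by omega⟩ ⟨(i : ℕ) - 1, by omega⟩ y (by omega) rfl
            (by simp; omega)]
          exact single_mem_D _ _ (by simpa using hj) _
  · simp
  · intro a b _ _ ha hb; rw [map_add]; exact Submodule.add_mem _ ha hb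
  · intro r a _ ha; rw [map_smul]; exact Submodule.smul_mem _ _ ha

/-- the homotopy formula on a generator of `D (p+1)` which is not in `D p` -/
theorem homotopy_gen {p n : ℕ} (hp : p < n + 1) (y : K.S n) (r : R) :
    Ch.bd R K (Sop R K p (single ⟨n + 1, K.act (Op.dgn ⟨p, hp⟩) y⟩ r)) +
      Sop R K p (Ch.bd R K (single ⟨n + 1, K.act (Op.dgn ⟨p, hp⟩) y⟩ r)) -
      (-1 : R) ^ p • single ⟨n + 1, K.act (Op.dgn ⟨p, hp⟩) y⟩ r ∈ D R K p := by
  set x := K.act (Op.dgn ⟨p, hp⟩) y with hx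
  rw [Sop_single (show p < n + 1 + 1 by omega), Ch.bd_single_succ, Ch.bd_single_succ, map_sum]
  rw [Fin.sum_univ_succAbove _ (⟨p + 1, by omega⟩ : Fin (n + 1 + 2)), add_assoc,
    ← Finset.sum_add_distrib]
  rw [← Finset.add_sum_erase Finset.univ _ (Finset.mem_univ (⟨p, by omega⟩ : Fin (n + 2)))]
  have hd1 : K.act (Op.face (⟨p + 1, by omega⟩ : Fin (n + 1 + 2)))
      (K.act (Op.dgn ⟨p, by omega⟩) x) = x :=
    act_face_dgn_eq _ _ _ (Or.inr rfl)
  have hsA : (⟨p + 1, by omega⟩ : Fin (n + 1 + 2)).succAbove ⟨p, by omega⟩ = ⟨p, by omega⟩ := by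
    simp [Fin.succAbove, Fin.lt_def]
  have hd2 : K.act (Op.face (⟨p, by omega⟩ : Fin (n + 1 + 2)))
      (K.act (Op.dgn ⟨p, by omega⟩) x) = x :=
    act_face_dgn_eq _ _ _ (Or.inl rfl)
  have hd3 : K.act (Op.face (⟨p, by omega⟩ : Fin (n + 2))) x = y :=
    act_face_dgn_eq _ _ _ (Or.inl rfl)
  rw [hd1, hsA, hd2, hd3, Sop_single hp]
  have key : ∀ (A B C S : Ch R K), A + (B + C + S) - (-1 : R) ^ p • single ⟨n + 1, x⟩ r =
    (A + B + C - (-1 : R) ^ p • single ⟨n + 1, x⟩ r) + S := by intros; abel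
  rw [key]
  refine Submodule.add_mem _ ?_ (Submodule.sum_mem _ ?_)
  · rw [← hx, Finsupp.smul_single, ← Finsupp.single_add, ← Finsupp.single_add,
      ← Finsupp.single_sub]
    have : (r * (-1 : R) ^ (((⟨p + 1, by omega⟩ : Fin (n + 1 + 2))) : ℕ) +
      r * (-1) ^ ((⟨p, by omega⟩ : Fin (n + 1 + 2)) : ℕ) +
      r * (-1) ^ ((⟨p, by omega⟩ : Fin (n + 2)) : ℕ) - (-1 : R) ^ p • r) = 0 := by
      simp only [smul_eq_mul]; ring
    rw [this, Finsupp.single_zero]
    exact Submodule.zero_mem _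
  · intro i hi
    have hi' : (i : ℕ) ≠ p := fun h => (Finset.mem_erase.1 hi).1 (Fin.ext h)
    rcases lt_or_gt_of_ne hi' with h | h
    · -- both terms in `D p`
      have e1 : (⟨p + 1, by omega⟩ : Fin (n + 1 + 2)).succAbove i = ⟨i, by omega⟩ := by
        have : (i : ℕ) < p + 1 := by omega
        simp [Fin.ext_iff, Fin.succAbove, Fin.lt_def, this]
      rw [e1]
      obtain ⟨q, rfl⟩ : ∃ q, p = q + 1 := ⟨p - 1, by omega⟩
      obtain ⟨m, rfl⟩ : ∃ m, n = m + 1 := ⟨n - 1, by omega⟩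
      refine Submodule.add_mem _ ?_ ?_
      · rw [act_face_dgn_lt (⟨q + 1, by omega⟩ : Fin (m + 1 + 2)) ⟨i, by omega⟩ ⟨q, by omega⟩
          ⟨i, by omega⟩ x h rfl rfl]
        exact single_mem_D _ _ (by simp) _
      · rw [Sop_single (by omega), hx,
          act_face_dgn_lt (⟨q + 1, by omega⟩ : Fin (m + 2)) i ⟨q, by omega⟩ ⟨i, by omega⟩ y h rfl rfl,
          act_dgn_dgn (⟨q, by omega⟩ : Fin (m + 1)) ⟨q + 1, by omega⟩ ⟨q, by omega⟩ ⟨q, by omega⟩ _
            (by simp) rfl rfl]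
        exact single_mem_D _ _ (by simp) _
    · -- cancellation
      have e1 : (⟨p + 1, by omega⟩ : Fin (n + 1 + 2)).succAbove i = ⟨i + 1, by omega⟩ := by
        have : ¬ (i : ℕ) < p + 1 := by omega
        simp [Fin.ext_iff, Fin.succAbove, Fin.lt_def, this]
      rw [e1]
      rw [act_face_dgn_gt (⟨p, by omega⟩ : Fin (n + 2)) ⟨i + 1, by omega⟩ ⟨p, by omega⟩ i x
        (show p + 1 < (i : ℕ) + 1 by omega) rfl rfl, Sop_single (by omega), ← Finsupp.single_add]
      have : (r * (-1 : R) ^ (((⟨i + 1, by omega⟩ : Fin (n + 1 + 2))) : ℕ) +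
        r * (-1) ^ (i : ℕ)) = 0 := by
        simp only; ring
      rw [this, Finsupp.single_zero]
      exact Submodule.zero_mem _

theorem homotopy {p : ℕ} {c : Ch R K} (hc : c ∈ D R K (p + 1)) :
    Ch.bd R K (Sop R K p c) + Sop R K p (Ch.bd R K c) - (-1 : R) ^ p • c ∈ D R K p := by
  refine Submodule.span_induction (p := fun c _ =>
    Ch.bd R K (Sop R K p c) + Sop R K p (Ch.bd R K c) - (-1 : R) ^ p • c ∈ D R K p) ?_ ?_ ?_ ?_ hc
  · rintro _ ⟨n, j, y, hj, rfl⟩
    rcases Nat.lt_succ_iff_lt_or_eq.1 hj with h | h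
    · have hm : (single ⟨n + 1, K.act (Op.dgn j) y⟩ 1 : Ch R K) ∈ D R K p := single_mem_D j y h 1
      exact Submodule.sub_mem _ (Submodule.add_mem _ (bd_mem_D (Sop_mem_D hm))
        (Sop_mem_D (bd_mem_D hm))) (Submodule.smul_mem _ _ hm)
    · subst h
      exact homotopy_gen j.2 y 1
  · simp
  · intro a b _ _ ha hb
    simp only [map_add, smul_add]
    have : ∀ (A B C D E F : Ch R K), A + B + (C + D) - (E + F) = (A + C - E) + (B + D - F) := by
      intros; abel
    rw [this]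
    exact Submodule.add_mem _ ha hb
  · intro r a _ ha
    simp only [map_smul]
    have : r • Ch.bd R K (Sop R K p a) + r • Sop R K p (Ch.bd R K a) - (-1 : R) ^ p • r • a =
        r • (Ch.bd R K (Sop R K p a) + Sop R K p (Ch.bd R K a) - (-1 : R) ^ p • a) := by
      rw [smul_sub, smul_add, smul_comm r ((-1 : R) ^ p) a]
    rw [this]
    exact Submodule.smul_mem _ _ ha

theorem acyclic_D (p : ℕ) : ∀ (c : Ch R K), c ∈ D R K p → Ch.bd R K c = 0 →
    ∃ w ∈ D R K p, Ch.bd R K w = c := by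
  induction p with
  | zero =>
    intro c hc _
    rw [D_zero, Submodule.mem_bot] at hc
    exact ⟨0, Submodule.zero_mem _, by simp [hc]⟩
  | succ p ih =>
    intro c hc hb
    have h1 := homotopy hc
    rw [hb, map_zero, add_zero] at h1
    -- `e = c - (-1)^p bd S c ∈ D p` is a cycle
    have h2 : c - (-1 : R) ^ p • Ch.bd R K (Sop R K p c) ∈ D R K p := by
      have : c - (-1 : R) ^ p • Ch.bd R K (Sop R K p c) =
          -((-1 : R) ^ p • (Ch.bd R K (Sop R K p c) - (-1 : R) ^ p • c)) := by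
        rw [smul_sub, smul_smul, ← mul_pow]
        simp
      rw [this]
      exact Submodule.neg_mem _ (Submodule.smul_mem _ _ h1)
    obtain ⟨w, hw, hw'⟩ := ih _ h2 (by rw [map_sub, map_smul, Ch.bd_bd, hb]; simp)
    refine ⟨w + (-1 : R) ^ p • Sop R K p c, Submodule.add_mem _ (D_mono (Nat.le_succ p) hw)
      (Submodule.smul_mem _ _ ?_), ?_⟩
    · -- `s_p c ∈ D (p+1)` for every chain `c`
      clear h1 h2 hw hw' hb hc
      induction c using Finsupp.induction_linear with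
      | zero => simp
      | add f g hf hg => rw [map_add]; exact Submodule.add_mem _ hf hg
      | single t r =>
        obtain ⟨n, x⟩ := t
        by_cases h : p < n + 1
        · rw [Sop_single h]
          exact single_mem_D _ _ (by simp) _
        · rw [Sop_single_of_le (by omega)]
          exact Submodule.zero_mem _
    · rw [map_add, map_smul, hw']
      abel

end Crest.Agent.R204.Norm76

namespace Crest.Agent.R204

/-- A0': the complex of degenerate chains is acyclic. -/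
theorem dgAcyclic : SpecA.DgAcyclic := by
  intro R _ K c hc hb
  obtain ⟨p, hp⟩ := Norm76.exists_mem_D hc
  obtain ⟨w, hw, hw'⟩ := Norm76.acyclic_D p c hp hb
  exact ⟨w, Norm76.D_le_Dg p hw, hw'⟩

end Crest.Agent.R204
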