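import Crest.Agent.R204.ConnC_747
import Crest.Agent.R204.Norm_76
import Crest.Agent.R204.HZ_76
import Crest.Agent.R204.Gr_334

/-!
# Row 204: compression in dimensions `≤ m` ⇒ `H_i(A) → H_i(Z)` injective for `i < m`,
surjective for `i ≤ m` (seat 747)
-/

set_option autoImplicit false

open Set Finsupp
open scoped unitInterval Topology

noncomputable section

namespace Crest.Agent.R204.Conn747

variable {A Z : Type} [TopologicalSpace A] [TopologicalSpace Z]

/-! ## the section -/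

/-- a good lift of the simplex `x`, given the lifts `r` of its faces -/
def Good (s : C(A, Z)) (k : ℕ) (r : (SS.Sing Z).S k → (SS.Sing (PE s)).S k)
    (x : (SS.Sing Z).S (k + 1)) (e : (SS.Sing (PE s)).S (k + 1)) : Prop :=
  (∀ i : Fin (k + 2), (SS.Sing (PE s)).act (Op.face i) e = r ((SS.Sing Z).act (Op.face i) x)) ∧
    (SS.SingMap (pr0 s)).app (k + 1) e = x ∧
    ∀ y : (SS.Sing A).S (k + 1), x = (SS.SingMap s).app (k + 1) y →
      e = (SS.SingMap (cstP s)).app (k + 1) y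

/-- a good lift of a vertex -/
def Good0 (s : C(A, Z)) (x : (SS.Sing Z).S 0) (e : (SS.Sing (PE s)).S 0) : Prop :=
  (SS.SingMap (pr0 s)).app 0 e = x ∧
    ∀ y : (SS.Sing A).S 0, x = (SS.SingMap s).app 0 y → e = (SS.SingMap (cstP s)).app 0 y

theorem singMap_injective {s : C(A, Z)} (hs : Function.Injective s) (k : ℕ) :
    Function.Injective ((SS.SingMap s).app k) := by
  intro y y' h
  apply ContinuousMap.ext
  intro p
  exact hs (ContinuousMap.congr_fun h p)

theorem exists_good0 {s : C(A, Z)} (hs : Function.Injective s) (h0 : Compr s 0)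
    (x : (SS.Sing Z).S 0) : ∃ e, Good0 s x e := by
  by_cases h : ∃ y, x = (SS.SingMap s).app 0 y
  · obtain ⟨y, rfl⟩ := h
    refine ⟨(SS.SingMap (cstP s)).app 0 y, rfl, fun y' h' => ?_⟩
    rw [singMap_injective hs 0 h']
  · obtain ⟨e, he⟩ := lift_zero h0 x
    exact ⟨e, he, fun y hy => absurd ⟨y, hy⟩ h⟩

open Classical in
/-- the lifts -/
def rho (s : C(A, Z)) (h0 : ∀ x : (SS.Sing Z).S 0, ∃ e, Good0 s x e) :
    ∀ k, (SS.Sing Z).S k → (SS.Sing (PE s)).S k
  | 0, x => (h0 x).choose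
  | k + 1, x => if h : ∃ e, Good s k (rho s h0 k) x e then h.choose
      else (SS.Sing (PE s)).act (Op.dgn 0) (rho s h0 k ((SS.Sing Z).act (Op.face 0) x))

theorem rho_good {s : C(A, Z)} (hs : Function.Injective s)
    (h0 : ∀ x : (SS.Sing Z).S 0, ∃ e, Good0 s x e) {m : ℕ} (hc : ∀ q ≤ m, Compr s q) :
    ∀ k, k + 1 ≤ m → ∀ x : (SS.Sing Z).S (k + 1), Good s k (rho s h0 k) x (rho s h0 (k + 1) x) := by
  intro k
  induction k with
  | zero =>
    intro hk x
    have h : ∃ e, Good s 0 (rho s h0 0) x e := by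
      by_cases hy : ∃ y, x = (SS.SingMap s).app 1 y
      · obtain ⟨y, rfl⟩ := hy
        refine ⟨(SS.SingMap (cstP s)).app 1 y, ?_, rfl, fun y' h' => ?_⟩
        · intro i
          exact ((h0 ((SS.Sing Z).act (Op.face i) ((SS.SingMap s).app 1 y))).choose_spec.2
            ((SS.Sing A).act (Op.face i) y) rfl).symm
        · rw [singMap_injective hs 1 h']
      · obtain ⟨e, he1, he2⟩ := lift_faces hs (hc 1 hk)
          (fun i => rho s h0 0 ((SS.Sing Z).act (Op.face i) x)) trivial x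
          (fun i => (h0 ((SS.Sing Z).act (Op.face i) x)).choose_spec.1)
        exact ⟨e, he1, he2, fun y hy' => absurd ⟨y, hy'⟩ hy⟩
    have : rho s h0 1 x = h.choose := dif_pos h
    rw [this]
    exact h.choose_spec
  | succ k ih =>
    intro hk x
    have ih' := ih (by omega)
    have h : ∃ e, Good s (k + 1) (rho s h0 (k + 1)) x e := by
      by_cases hy : ∃ y, x = (SS.SingMap s).app (k + 2) y
      · obtain ⟨y, rfl⟩ := hy
        refine ⟨(SS.SingMap (cstP s)).app (k + 2) y, ?_, rfl, fun y' h' => ?_⟩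
        · intro i
          exact ((ih' ((SS.Sing Z).act (Op.face i) ((SS.SingMap s).app (k + 2) y))).2.2
            ((SS.Sing A).act (Op.face i) y) rfl).symm
        · rw [singMap_injective hs (k + 2) h']
      · obtain ⟨e, he1, he2⟩ := lift_faces hs (hc (k + 2) hk)
          (fun i => rho s h0 (k + 1) ((SS.Sing Z).act (Op.face i) x)) (by
            intro i j i' j' h1 h2 h3
            show (SS.Sing (PE s)).act (Op.face j) (rho s h0 (k + 1) ((SS.Sing Z).act (Op.face i) x)) =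
              (SS.Sing (PE s)).act (Op.face j') (rho s h0 (k + 1) ((SS.Sing Z).act (Op.face i') x))
            rw [(ih' _).1 j, (ih' _).1 j', ← (SS.Sing Z).act_comp, ← (SS.Sing Z).act_comp,
              Ch.face_face i j i' j' h1 h2 h3]) x
          (fun i => (ih' ((SS.Sing Z).act (Op.face i) x)).2.1)
        exact ⟨e, he1, he2, fun y hy' => absurd ⟨y, hy'⟩ hy⟩
    have : rho s h0 (k + 2) x = h.choose := dif_pos h
    rw [this]
    exact h.choose_spec

theorem exists_section {s : C(A, Z)} (hs : Function.Injective s) {m : ℕ}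
    (hc : ∀ q ≤ m, Compr s q) :
    ∃ ρ : ∀ k, (SS.Sing Z).S k → (SS.Sing (PE s)).S k,
      (∀ k ≤ m, ∀ x, (SS.SingMap (pr0 s)).app k (ρ k x) = x) ∧
      (∀ k < m, ∀ (x : (SS.Sing Z).S (k + 1)) (i : Fin (k + 2)),
        (SS.Sing (PE s)).act (Op.face i) (ρ (k + 1) x) = ρ k ((SS.Sing Z).act (Op.face i) x)) ∧
      (∀ k ≤ m, ∀ y : (SS.Sing A).S k,
        ρ k ((SS.SingMap s).app k y) = (SS.SingMap (cstP s)).app k y) := by
  have h0 := exists_good0 hs (hc 0 (by omega))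
  have hg := rho_good hs h0 hc
  refine ⟨rho s h0, ?_, ?_, ?_⟩
  · intro k hk x
    rcases k with _ | k
    · exact (h0 x).choose_spec.1
    · exact (hg k hk x).2.1
  · intro k hk x i
    exact (hg k hk x).1 i
  · intro k hk y
    rcases k with _ | k
    · exact (h0 _).choose_spec.2 y rfl
    · exact (hg k hk _).2.2 y rfl

/-! ## chains -/

variable (R : Type) [CommRing R]

/-- the induced map on chains of a family of functions -/
def chF {K L : SS} (ρ : ∀ k, K.S k → L.S k) : Ch R K →ₗ[R] Ch R L :=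
  Finsupp.lmapDomain R R (fun t : K.T => (⟨t.1, ρ t.1 t.2⟩ : L.T))

theorem chF_single {K L : SS} (ρ : ∀ k, K.S k → L.S k) (n : ℕ) (x : K.S n) (r : R) :
    chF R ρ (single ⟨n, x⟩ r) = single ⟨n, ρ n x⟩ r := by
  simp [chF, Finsupp.mapDomain_single]

variable {R}

theorem gr_ext {K : SS} {n : ℕ} {M : Type*} [AddCommGroup M] [Module R M] (f g : Ch R K →ₗ[R] M)
    (h : ∀ (x : K.S n) (r : R), f (single ⟨n, x⟩ r) = g (single ⟨n, x⟩ r)) {c : Ch R K}
    (hc : c ∈ Ch.gr R K n) : f c = g c := by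
  have hle : Ch.gr R K n ≤ LinearMap.eqLocus f g := by
    refine Submodule.span_le.2 ?_
    rintro _ ⟨x, rfl⟩
    exact h x 1
  exact hle hc

theorem chF_gr {K L : SS} (ρ : ∀ k, K.S k → L.S k) {n : ℕ} {c : Ch R K} (hc : c ∈ Ch.gr R K n) :
    chF R ρ c ∈ Ch.gr R L n := by
  have hle : Ch.gr R K n ≤ (Ch.gr R L n).comap (chF R ρ) := by
    refine Submodule.span_le.2 ?_
    rintro _ ⟨x, rfl⟩
    show chF R ρ (single ⟨n, x⟩ 1) ∈ Ch.gr R L n
    rw [chF_single]
    exact Submodule.subset_span ⟨_, rfl⟩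
  exact hle hc

theorem bd_chF {K L : SS} (ρ : ∀ k, K.S k → L.S k) {m : ℕ}
    (hρ : ∀ k < m, ∀ (x : K.S (k + 1)) (i : Fin (k + 2)),
      L.act (Op.face i) (ρ (k + 1) x) = ρ k (K.act (Op.face i) x)) {n : ℕ} (hn : n ≤ m)
    {c : Ch R K} (hc : c ∈ Ch.gr R K n) : Ch.bd R L (chF R ρ c) = chF R ρ (Ch.bd R K c) := by
  refine gr_ext (Ch.bd R L ∘ₗ chF R ρ) (chF R ρ ∘ₗ Ch.bd R K) ?_ hc
  intro x r
  show Ch.bd R L (chF R ρ _) = chF R ρ (Ch.bd R K _)
  rcases n with _ | k
  · rw [chF_single, Ch.bd_single_zero, Ch.bd_single_zero, map_zero]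
  · rw [chF_single, Ch.bd_single_succ, Ch.bd_single_succ, map_sum]
    refine Finset.sum_congr rfl fun i _ => ?_
    rw [chF_single, hρ k (by omega)]

theorem prC_gr {K : SS} {n : ℕ} {c : Ch R K} (hc : c ∈ Ch.gr R K n) : Gr334.prC R K n c = c :=
  gr_ext (Gr334.prC R K n) LinearMap.id (fun x r => Gr334.prC_single_self _ _ x r) hc

theorem prC_mem_gr {K : SS} (n : ℕ) (c : Ch R K) : Gr334.prC R K n c ∈ Ch.gr R K n := by
  induction c using Finsupp.induction_linear with
  | zero => simp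
  | add f g hf hg => rw [map_add]; exact Submodule.add_mem _ hf hg
  | single t r =>
    obtain ⟨k, x⟩ := t
    by_cases h : k = n
    · subst h
      rw [Gr334.prC_single_self]
      have : single (⟨k, x⟩ : K.T) r = r • single (⟨k, x⟩ : K.T) (1 : R) := by
        rw [Finsupp.smul_single, smul_eq_mul, mul_one]
      rw [this]
      exact Submodule.smul_mem _ _ (Submodule.subset_span ⟨_, rfl⟩)
    · rw [Gr334.prC_single_ne _ _ h]; exact Submodule.zero_mem _

theorem prC_bd {K : SS} (n : ℕ) (c : Ch R K) :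
    Gr334.prC R K n (Ch.bd R K c) = Ch.bd R K (Gr334.prC R K (n + 1) c) := by
  induction c using Finsupp.induction_linear with
  | zero => simp
  | add f g hf hg => simp only [map_add, hf, hg]
  | single t r =>
    obtain ⟨k, x⟩ := t
    rcases k with _ | k
    · rw [Ch.bd_single_zero, map_zero, Gr334.prC_single_ne _ _ (by omega), map_zero]
    · by_cases h : k = n
      · subst h
        rw [Gr334.prC_single_self, Ch.bd_single_succ, map_sum]
        exact Finset.sum_congr rfl fun i _ => Gr334.prC_single_self _ _ _ _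
      · rw [Gr334.prC_single_ne _ _ (by omega), map_zero, Ch.bd_single_succ, map_sum]
        exact Finset.sum_eq_zero fun i _ => Gr334.prC_single_ne _ _ h _ _

theorem bd_gr_zero' {K : SS} {c : Ch R K} (hc : c ∈ Ch.gr R K 0) : Ch.bd R K c = 0 :=
  gr_ext (Ch.bd R K) 0 (fun x r => Ch.bd_single_zero x r) hc

/-- every homogeneous class is represented by a homogeneous cycle of unnormalised chains -/
theorem exists_rep {K : SS} {n : ℕ} {x : H R K} (hx : x ∈ H.gr R K n) :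
    ∃ c ∈ Ch.gr R K n, ∃ _ : Ch.bd R K c = 0, ∃ hz : N.bd R K (Submodule.Quotient.mk c) = 0,
      x = Hd.mk (N.bd R K) (Submodule.Quotient.mk c) hz := by
  obtain ⟨z, hz, hbz, rfl⟩ := Gr334.mem_H_gr.1 hx
  obtain ⟨c₀, hc₀, rfl⟩ := hz
  have h1 : Ch.bd R K c₀ ∈ Ch.Dg R K := by
    have h2 : (Submodule.Quotient.mk (Ch.bd R K c₀) : N R K) = 0 := hbz
    exact (Submodule.Quotient.mk_eq_zero _).1 h2
  obtain ⟨w, hw, hbw⟩ := dgAcyclic R K _ h1 (Ch.bd_bd c₀)
  have hw' : Gr334.prC R K n w ∈ Ch.Dg R K := Gr334.prC_mem_Dg R K n hw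
  have hb : Ch.bd R K (c₀ - Gr334.prC R K n w) = 0 := by
    rcases n with _ | n
    · rw [bd_gr_zero' (Submodule.sub_mem _ hc₀ (prC_mem_gr 0 w))]
    · rw [map_sub, ← prC_bd, hbw, prC_bd, prC_gr hc₀, sub_self]
  have hq : (Submodule.Quotient.mk (c₀ - Gr334.prC R K n w) : N R K) = Submodule.Quotient.mk c₀ := by
    rw [Submodule.Quotient.eq]
    have : c₀ - Gr334.prC R K n w - c₀ = -Gr334.prC R K n w := by abel
    rw [this]; exact Submodule.neg_mem _ hw'
  refine ⟨c₀ - Gr334.prC R K n w, Submodule.sub_mem _ hc₀ (prC_mem_gr n w), hb, ?_, ?_⟩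
  · rw [N.bd_mk, hb]; rfl
  · exact Hd.mk_eq_mk.2 ⟨0, by
      rw [map_zero, hq]
      exact (sub_self _).symm⟩

/-- a homogeneous cycle whose class vanishes is a boundary of unnormalised chains -/
theorem exists_bd {K : SS} {n : ℕ} {c : Ch R K} (hc : c ∈ Ch.gr R K n) (hb : Ch.bd R K c = 0)
    {hz : N.bd R K (Submodule.Quotient.mk c) = 0}
    (h : Hd.mk (N.bd R K) (Submodule.Quotient.mk c) hz = 0) :
    ∃ w ∈ Ch.gr R K (n + 1), Ch.bd R K w = c := by
  obtain ⟨z, hz'⟩ := Hd.mk_eq_zero.1 h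
  obtain ⟨w₀, rfl⟩ := Submodule.Quotient.mk_surjective _ z
  have h1 : c - Ch.bd R K w₀ ∈ Ch.Dg R K := by
    rw [← Submodule.Quotient.mk_eq_zero, Submodule.Quotient.mk_sub, sub_eq_zero]
    exact hz'.symm
  obtain ⟨w₁, -, hw₁⟩ := dgAcyclic R K _ h1 (by rw [map_sub, hb, Ch.bd_bd, sub_zero])
  refine ⟨Gr334.prC R K (n + 1) (w₀ + w₁), prC_mem_gr _ _, ?_⟩
  rw [← prC_bd, map_add, hw₁]
  have : Ch.bd R K w₀ + (c - Ch.bd R K w₀) = c := by abel
  rw [this, prC_gr hc]

theorem chmap_gr {K L : SS} (f : SS.Hom K L) {n : ℕ} {c : Ch R K} (hc : c ∈ Ch.gr R K n) :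
    Ch.map R f c ∈ Ch.gr R L n := chF_gr f.app hc

theorem map_cls {K L : SS} (f : SS.Hom K L) {c : Ch R K}
    {hz : N.bd R K (Submodule.Quotient.mk c) = 0}
    {hz' : N.bd R L (Submodule.Quotient.mk (Ch.map R f c)) = 0} :
    H.map R f (Hd.mk (N.bd R K) (Submodule.Quotient.mk c) hz) =
      Hd.mk (N.bd R L) (Submodule.Quotient.mk (Ch.map R f c)) hz' := rfl

theorem bd_mk_zero {K : SS} {c : Ch R K} (h : Ch.bd R K c = 0) :
    N.bd R K (Submodule.Quotient.mk c) = 0 := by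
  rw [N.bd_mk, h]; rfl

/-- homotopy between the two projections -/
theorem pr0_homotopic (s : C(A, Z)) : (pr0 s).Homotopic (s.comp (prA s)) :=
  ⟨{ toFun := fun p => p.2.1.1 p.1
     continuous_toFun := by
       have h4 : Continuous (fun p : C(I, Z) × I => p.1 p.2) := continuous_eval
       exact h4.comp ((continuous_fst.comp (continuous_subtype_val.comp continuous_snd)).prodMk
         continuous_fst)
     map_zero_left := fun _ => rfl
     map_one_left := fun p => p.2 }⟩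

/-- **injectivity** -/
theorem homology_inj {s : C(A, Z)} (hs : Function.Injective s) {m : ℕ}
    (hc : ∀ q ≤ m, Compr s q) {i : ℕ} (hi : i < m) {u : H R (SS.Sing A)}
    (hu : u ∈ H.gr R (SS.Sing A) i) (h : H.map R (SS.SingMap s) u = 0) : u = 0 := by
  obtain ⟨ρ, h1, h2, h3⟩ := exists_section hs hc
  obtain ⟨c, hcg, hcb, hz, rfl⟩ := exists_rep hu
  have hb' : Ch.bd R (SS.Sing Z) (Ch.map R (SS.SingMap s) c) = 0 := by
    rw [← Ch.map_bd, hcb, map_zero]
  rw [map_cls (hz' := bd_mk_zero hb')] at h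
  obtain ⟨w, hw, hbw⟩ := exists_bd (chmap_gr _ hcg) hb' h
  have e1 : Ch.bd R (SS.Sing (PE s)) (chF R ρ w) = chF R ρ (Ch.map R (SS.SingMap s) c) := by
    rw [bd_chF ρ h2 (by omega) hw, hbw]
  have e2 : chF R ρ (Ch.map R (SS.SingMap s) c) = Ch.map R (SS.SingMap (cstP s)) c := by
    refine gr_ext (chF R ρ ∘ₗ Ch.map R (SS.SingMap s)) (Ch.map R (SS.SingMap (cstP s))) ?_ hcg
    intro x r
    show chF R ρ (Ch.map R (SS.SingMap s) _) = _
    rw [Ch.map_single, Ch.map_single, chF_single, h3 i (by omega)]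
  have e3 : Ch.map R (SS.SingMap (prA s)) (Ch.map R (SS.SingMap (cstP s)) c) = c := by
    refine gr_ext (Ch.map R (SS.SingMap (prA s)) ∘ₗ Ch.map R (SS.SingMap (cstP s))) LinearMap.id
      ?_ hcg
    intro x r
    show Ch.map R (SS.SingMap (prA s)) (Ch.map R (SS.SingMap (cstP s)) _) = _
    rw [Ch.map_single, Ch.map_single]
    rfl
  have e4 : Ch.bd R (SS.Sing A) (Ch.map R (SS.SingMap (prA s)) (chF R ρ w)) = c := by
    rw [← Ch.map_bd, e1, e2, e3]
  exact Hd.mk_eq_zero.2 ⟨Submodule.Quotient.mk (Ch.map R (SS.SingMap (prA s)) (chF R ρ w)), by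
    rw [N.bd_mk, e4]⟩

/-- **surjectivity** -/
theorem homology_surj {s : C(A, Z)} (hs : Function.Injective s) {m : ℕ}
    (hc : ∀ q ≤ m, Compr s q) {i : ℕ} (hi : i ≤ m) {v : H R (SS.Sing Z)}
    (hv : v ∈ H.gr R (SS.Sing Z) i) :
    ∃ u ∈ H.gr R (SS.Sing A) i, H.map R (SS.SingMap s) u = v := by
  obtain ⟨ρ, h1, h2, h3⟩ := exists_section hs hc
  obtain ⟨c, hcg, hcb, hz, rfl⟩ := exists_rep hv
  have e1 : Ch.bd R (SS.Sing (PE s)) (chF R ρ c) = 0 := by
    rw [bd_chF ρ h2 hi hcg, hcb, map_zero]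
  let v' : H R (SS.Sing (PE s)) := Hd.mk (N.bd R _) (Submodule.Quotient.mk (chF R ρ c)) (bd_mk_zero e1)
  have hv' : v' ∈ H.gr R (SS.Sing (PE s)) i :=
    Gr334.mk_mem_gr (Submodule.mem_map_of_mem (chF_gr ρ hcg)) _
  have e2 : Ch.map R (SS.SingMap (pr0 s)) (chF R ρ c) = c := by
    refine gr_ext (Ch.map R (SS.SingMap (pr0 s)) ∘ₗ chF R ρ) LinearMap.id ?_ hcg
    intro x r
    show Ch.map R (SS.SingMap (pr0 s)) (chF R ρ _) = _
    rw [chF_single, Ch.map_single, h1 i hi]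
    rfl
  refine ⟨H.map R (SS.SingMap (prA s)) v', Gr334.H_map_mem_gr _ hv', ?_⟩
  have e3 : H.map R (SS.SingMap s) (H.map R (SS.SingMap (prA s)) v') =
      H.map R (SS.SingMap (s.comp (prA s))) v' := (HZ76.H_map_comp _ _ _ _).symm
  rw [e3, ← HZ76.topHomotopyInv R _ _ _ _ (pr0_homotopic s)]
  refine Hd.mk_eq_mk.2 ⟨0, ?_⟩
  rw [map_zero]
  refine (sub_eq_zero.2 ?_).symm
  show (Submodule.Quotient.mk (Ch.map R (SS.SingMap (pr0 s)) (chF R ρ c)) : N R (SS.Sing Z)) = _
  rw [e2]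

end Crest.Agent.R204.Conn747
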