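import Crest.Agent.R204.FreuS_297

/-!
Row 204: simplex version of the relative Freudenthal step.
-/

open Set Metric Module
open scoped unitInterval Topology NNReal ENNReal

namespace Crest.Agent.R204.Freu297

/-- the corner simplex in `ℝ^q` -/
def cornerK (q : ℕ) : Set (Fin q → ℝ) := {y | (∀ i, 0 ≤ y i) ∧ ∑ i, y i ≤ 1}

theorem isClosed_cornerK (q : ℕ) : IsClosed (cornerK q) := by
  have : cornerK q = (⋂ i, {y : Fin q → ℝ | 0 ≤ y i}) ∩ {y | ∑ i, y i ≤ 1} := by
    ext y; simp [cornerK]
  rw [this]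
  refine (isClosed_iInter fun i => isClosed_le continuous_const (continuous_apply i)).inter
    (isClosed_le (by fun_prop) continuous_const)

theorem convex_cornerK (q : ℕ) : Convex ℝ (cornerK q) := by
  intro a ha b hb s t hs ht hst
  refine ⟨fun i => ?_, ?_⟩
  · simp only [Pi.add_apply, Pi.smul_apply, smul_eq_mul]
    have := ha.1 i; have := hb.1 i; positivity
  · simp only [Pi.add_apply, Pi.smul_apply, smul_eq_mul, Finset.sum_add_distrib,
      ← Finset.mul_sum]
    nlinarith [ha.2, hb.2]

theorem interior_cornerK (q : ℕ) :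
    interior (cornerK q) = {y | (∀ i, 0 < y i) ∧ ∑ i, y i < 1} := by
  apply Set.Subset.antisymm
  · intro y hy
    have hyK : cornerK q ∈ 𝓝 y := mem_interior_iff_mem_nhds.1 hy
    have hy0 : y ∈ cornerK q := interior_subset hy
    have key : ∀ (i : Fin q) (c : ℝ), ∃ t : ℝ, 0 < t ∧ y + (t * c) • Pi.single i (1 : ℝ) ∈
        cornerK q := by
      intro i c
      have hcont : ContinuousAt (fun t : ℝ => y + (t * c) • Pi.single (M := fun _ => ℝ) i (1 : ℝ))
          0 := by fun_prop
      have h0 : (fun t : ℝ => y + (t * c) • Pi.single (M := fun _ => ℝ) i (1 : ℝ)) 0 = y := by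
        simp
      have hev : ∀ᶠ t in 𝓝 (0 : ℝ), y + (t * c) • Pi.single (M := fun _ => ℝ) i (1 : ℝ) ∈
          cornerK q := hcont.eventually (by rw [h0]; exact hyK)
      have := (hev.filter_mono (nhdsWithin_le_nhds (s := Set.Ioi (0 : ℝ)))).and
        (self_mem_nhdsWithin (a := (0 : ℝ)) (s := Set.Ioi (0 : ℝ)))
      obtain ⟨t, ht1, ht2⟩ := this.exists
      exact ⟨t, ht2, ht1⟩
    refine ⟨fun i => ?_, ?_⟩
    · rcases (hy0.1 i).eq_or_lt with h | h
      · exfalso
        obtain ⟨t, ht, hm⟩ := key i (-1)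
        have := hm.1 i
        simp only [Pi.add_apply, Pi.smul_apply, Pi.single_eq_same, smul_eq_mul, ← h] at this
        linarith
      · exact h
    · rcases hy0.2.eq_or_lt with h | h
      · exfalso
        have hne : ∃ i : Fin q, True := by
          by_contra hc
          push Not at hc
          have : ∑ i, y i = 0 := Finset.sum_eq_zero fun i _ => (hc i).elim
          rw [this] at h
          exact zero_ne_one h
        obtain ⟨i, _⟩ := hne
        obtain ⟨t, ht, hm⟩ := key i 1
        have := hm.2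
        simp only [Pi.add_apply, Pi.smul_apply, smul_eq_mul, Finset.sum_add_distrib,
          ← Finset.mul_sum, h, Finset.sum_pi_single', Finset.mem_univ, if_true] at this
        linarith
      · exact h
  · rw [Set.subset_def]
    intro y hy
    rw [mem_interior]
    refine ⟨{y | (∀ i, 0 < y i) ∧ ∑ i, y i < 1}, ?_, ?_, hy⟩
    · rintro z ⟨h1, h2⟩
      exact ⟨fun i => (h1 i).le, h2.le⟩
    · have : {y : Fin q → ℝ | (∀ i, 0 < y i) ∧ ∑ i, y i < 1} =
          (⋂ i, {y : Fin q → ℝ | 0 < y i}) ∩ {y | ∑ i, y i < 1} := by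
        ext y; simp
      rw [this]
      exact (isOpen_iInter_of_finite fun i => isOpen_lt continuous_const (continuous_apply i)).inter
        (isOpen_lt (by fun_prop) continuous_const)

theorem frontier_cornerK (q : ℕ) (y : Fin q → ℝ) (hy : y ∈ cornerK q) :
    y ∈ frontier (cornerK q) ↔ (∃ i, y i = 0) ∨ ∑ i, y i = 1 := by
  rw [(isClosed_cornerK q).frontier_eq, Set.mem_sdiff, interior_cornerK]
  simp only [hy, true_and]
  constructor
  · intro h
    by_contra hc
    push Not at hc
    apply h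
    exact ⟨fun i => lt_of_le_of_ne (hy.1 i) (Ne.symm (hc.1 i)), lt_of_le_of_ne hy.2 hc.2⟩
  · rintro (⟨i, hi⟩ | h) ⟨h1, h2⟩
    · exact (h1 i).ne' hi
    · exact h2.ne h

/-- the unit cube as a subset of `ℝ^q` -/
def cubeC (q : ℕ) : Set (Fin q → ℝ) := {y | ∀ i, 0 ≤ y i ∧ y i ≤ 1}

theorem cubeC_eq (q : ℕ) : cubeC q = Set.univ.pi fun _ => Icc (0 : ℝ) 1 := by
  ext y
  simp only [cubeC, Set.mem_pi, Set.mem_univ, true_implies, Set.mem_Icc]
  rfl

theorem isClosed_cubeC (q : ℕ) : IsClosed (cubeC q) := by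
  rw [cubeC_eq]; exact isClosed_set_pi fun _ _ => isClosed_Icc

theorem frontier_cubeC (q : ℕ) (y : Fin q → ℝ) (hy : y ∈ cubeC q) :
    y ∈ frontier (cubeC q) ↔ ∃ i, y i = 0 ∨ y i = 1 := by
  rw [(isClosed_cubeC q).frontier_eq, Set.mem_sdiff]
  simp only [hy, true_and]
  rw [cubeC_eq, interior_pi_set Set.finite_univ]
  simp only [interior_Icc, Set.mem_pi, Set.mem_univ, true_implies, not_forall]
  constructor
  · rintro ⟨i, hi⟩
    refine ⟨i, ?_⟩
    by_contra hc
    push Not at hc
    exact hi ⟨lt_of_le_of_ne (hy i).1 (Ne.symm hc.1), lt_of_le_of_ne (hy i).2 hc.2⟩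
  · rintro ⟨i, hi⟩
    refine ⟨i, ?_⟩
    rintro ⟨h1, h2⟩
    rcases hi with hi | hi
    · exact h1.ne' hi
    · exact h2.ne hi

theorem exists_homeo_corner_cube (q : ℕ) : ∃ e : (Fin q → ℝ) ≃ₜ (Fin q → ℝ),
    e '' cornerK q = cubeC q ∧ e '' frontier (cornerK q) = frontier (cubeC q) := by
  have h1 : (interior (cornerK q)).Nonempty := by
    refine ⟨fun _ => 1 / (q + 1 : ℝ), ?_⟩
    rw [interior_cornerK]
    refine ⟨fun i => by positivity, ?_⟩
    simp only [Finset.sum_const, Finset.card_univ, Fintype.card_fin, nsmul_eq_mul]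
    rw [mul_one_div, div_lt_one (by positivity)]
    linarith
  have h2 : Bornology.IsBounded (cornerK q) := by
    refine (Metric.isBounded_closedBall (x := (0 : Fin q → ℝ)) (r := 1)).subset fun y hy => ?_
    rw [mem_closedBall, dist_zero_right, pi_norm_le_iff_of_nonneg zero_le_one]
    intro i
    rw [Real.norm_eq_abs, abs_of_nonneg (hy.1 i)]
    exact (Finset.single_le_sum (f := y) (fun i _ => hy.1 i) (Finset.mem_univ i)).trans hy.2
  have h3 : (interior (cubeC q)).Nonempty := by
    refine ⟨fun _ => 1 / 2, ?_⟩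
    rw [cubeC_eq, interior_pi_set Set.finite_univ]
    simp only [interior_Icc, Set.mem_pi, Set.mem_univ, true_implies]
    intro i
    constructor <;> norm_num
  have h4 : Bornology.IsBounded (cubeC q) := by
    refine (Metric.isBounded_closedBall (x := (0 : Fin q → ℝ)) (r := 1)).subset fun y hy => ?_
    rw [mem_closedBall, dist_zero_right, pi_norm_le_iff_of_nonneg zero_le_one]
    intro i
    rw [Real.norm_eq_abs, abs_of_nonneg (hy i).1]
    exact (hy i).2
  have h5 : Convex ℝ (cubeC q) := by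
    rw [cubeC_eq]; exact convex_pi fun _ _ => convex_Icc 0 1
  obtain ⟨e, -, he1, he2⟩ := exists_homeomorph_image_eq (convex_cornerK q) h1
    (NormedSpace.isVonNBounded_of_isBounded ℝ h2) h5 h3 (NormedSpace.isVonNBounded_of_isBounded ℝ h4)
  rw [(isClosed_cornerK q).closure_eq, (isClosed_cubeC q).closure_eq] at he1
  exact ⟨e, he1, he2⟩

/-- **Homeomorphism of pairs** `(Δ^q, ∂Δ^q) ≃ (I^q, ∂I^q)`. -/
theorem exists_simplexCube (q : ℕ) : ∃ h : stdSimplex ℝ (Fin (q + 1)) ≃ₜ (Fin q → I),
    ∀ x, (∃ i, x.1 i = 0) ↔ h x ∈ Cube.boundary (Fin q) := by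
  obtain ⟨e, he1, he2⟩ := exists_homeo_corner_cube q
  have hK : ∀ x : stdSimplex ℝ (Fin (q + 1)), (fun j : Fin q => x.1 j.succ) ∈ cornerK q := by
    intro x
    refine ⟨fun i => x.2.1 _, ?_⟩
    have := x.2.2
    rw [Fin.sum_univ_succ] at this
    have h0 := x.2.1 0
    linarith
  have hC : ∀ k ∈ cornerK q, e k ∈ cubeC q := fun k hk => by
    rw [← he1]; exact ⟨k, hk, rfl⟩
  have hCi : ∀ y ∈ cubeC q, e.symm y ∈ cornerK q := fun y hy => by
    rw [← he1] at hy
    obtain ⟨k, hk, rfl⟩ := hy
    rw [e.symm_apply_apply]; exact hk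
  have hy : ∀ y : Fin q → I, (fun i => (y i : ℝ)) ∈ cubeC q := fun y i => (y i).2
  have hS : ∀ k ∈ cornerK q, (Fin.cons (1 - ∑ i, k i) k : Fin (q + 1) → ℝ) ∈
      stdSimplex ℝ (Fin (q + 1)) := by
    intro k hk
    refine ⟨fun i => ?_, ?_⟩
    · refine Fin.cases ?_ (fun j => ?_) i
      · simp only [Fin.cons_zero]; linarith [hk.2]
      · simp only [Fin.cons_succ]; exact hk.1 j
    · rw [Fin.sum_univ_succ]
      simp
  let h : stdSimplex ℝ (Fin (q + 1)) ≃ₜ (Fin q → I) :=
    { toFun := fun x i => ⟨e (fun j : Fin q => x.1 j.succ) i, hC _ (hK x) i⟩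
      invFun := fun y => ⟨Fin.cons (1 - ∑ i, e.symm (fun i => (y i : ℝ)) i)
        (e.symm (fun i => (y i : ℝ))), hS _ (hCi _ (hy y))⟩
      left_inv := by
        intro x
        apply Subtype.ext
        have h1 : e.symm (fun i => e (fun j : Fin q => x.1 j.succ) i) =
            fun j : Fin q => x.1 j.succ := by
          rw [show (fun i => e (fun j : Fin q => x.1 j.succ) i) =
            e (fun j : Fin q => x.1 j.succ) from rfl, e.symm_apply_apply]
        funext i
        simp only [h1]
        refine Fin.cases ?_ (fun j => ?_) i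
        · simp only [Fin.cons_zero]
          have := x.2.2
          rw [Fin.sum_univ_succ] at this
          linarith
        · simp only [Fin.cons_succ]
      right_inv := by
        intro y
        funext i
        apply Subtype.ext
        simp only [Fin.cons_succ]
        rw [show (fun j : Fin q => e.symm (fun i => (y i : ℝ)) j) = e.symm (fun i => (y i : ℝ))
          from rfl, e.apply_symm_apply]
      continuous_toFun := by
        refine continuous_pi fun i => Continuous.subtype_mk ?_ _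
        refine (continuous_apply i).comp (e.continuous.comp ?_)
        exact continuous_pi fun j => (continuous_apply _).comp continuous_subtype_val
      continuous_invFun := by
        refine Continuous.subtype_mk ?_ _
        have h1 : Continuous (fun y : Fin q → I => e.symm (fun i => (y i : ℝ))) :=
          e.symm.continuous.comp (by fun_prop)
        refine continuous_pi fun i => ?_
        refine Fin.cases ?_ (fun j => ?_) i
        · simp only [Fin.cons_zero]
          fun_prop
        · simp only [Fin.cons_succ]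
          exact (continuous_apply j).comp h1 }
  have hv : ∀ x i, ((h x i : I) : ℝ) = e (fun j : Fin q => x.1 j.succ) i := fun _ _ => rfl
  refine ⟨h, fun x => ?_⟩
  have e1 : (∃ i, x.1 i = 0) ↔ (fun j : Fin q => x.1 j.succ) ∈ frontier (cornerK q) := by
    rw [frontier_cornerK q _ (hK x)]
    have hs := x.2.2
    rw [Fin.sum_univ_succ] at hs
    constructor
    · rintro ⟨i, hi⟩
      revert hi
      refine Fin.cases ?_ (fun j => ?_) i
      · intro h0; right; linarith
      · intro h0; left; exact ⟨j, h0⟩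
    · rintro (⟨j, hj⟩ | h0)
      · exact ⟨j.succ, hj⟩
      · exact ⟨0, by linarith⟩
  have e2 : (fun j : Fin q => x.1 j.succ) ∈ frontier (cornerK q) ↔
      e (fun j : Fin q => x.1 j.succ) ∈ frontier (cubeC q) := by
    rw [← he2]
    constructor
    · intro h; exact ⟨_, h, rfl⟩
    · rintro ⟨k, hk, hke⟩
      rw [← e.injective hke]; exact hk
  rw [e1, e2, frontier_cubeC q _ (hC _ (hK x))]
  constructor
  · rintro ⟨i, hi | hi⟩
    · exact ⟨i, Or.inl (Subtype.ext (by rw [hv]; exact hi))⟩
    · exact ⟨i, Or.inr (Subtype.ext (by rw [hv]; exact hi))⟩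
  · rintro ⟨i, hi | hi⟩
    · exact ⟨i, Or.inl (by rw [← hv, hi]; rfl)⟩
    · exact ⟨i, Or.inr (by rw [← hv, hi]; rfl)⟩

/-- **Relative Freudenthal step, simplex version.** -/
theorem step_simplex_rel {q n J : ℕ} (hq : q + J + 2 < 2 * (n + 1))
    (a : C(stdSimplex ℝ (Fin (q + 1)), GenLoop (Fin (J + 1)) (Sph (n + 1)) (pt (n + 1))))
    (ha : ∀ x : stdSimplex ℝ (Fin (q + 1)), (∃ i, x.1 i = 0) → a x ∈ Set.range (susp n J)) :
    ∃ b : C(stdSimplex ℝ (Fin (q + 1)), GenLoop (Fin J) (Sph n) (pt n)),
      a.HomotopicRel ((susp n J).comp b) {x | ∃ i, x.1 i = 0} := by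
  obtain ⟨h, hh⟩ := exists_simplexCube q
  let a' : C(Fin q → I, GenLoop (Fin (J + 1)) (Sph (n + 1)) (pt (n + 1))) :=
    ⟨fun y => a (h.symm y), a.continuous.comp h.symm.continuous⟩
  obtain ⟨b', ⟨H⟩⟩ := step_loop_rel hq a' (by
    intro y hy
    refine ha (h.symm y) ?_
    rw [hh, h.apply_symm_apply]; exact hy)
  refine ⟨⟨fun x => b' (h x), b'.continuous.comp h.continuous⟩, ?_⟩
  have ha' : ∀ x, a' (h x) = a x := fun x => by
    show a (h.symm (h x)) = a x
    rw [h.symm_apply_apply]
  refine homotopicRel_mk (fun p => H (p.1, h p.2)) ?_ ?_ ?_ ?_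
  · exact H.continuous.comp (by fun_prop)
  · intro x
    simp only
    rw [H.apply_zero, ha']
  · intro x
    simp only
    rw [H.apply_one]
    rfl
  · intro s x hx
    simp only
    rw [H.eq_fst s ((hh x).1 hx), ha']

end Crest.Agent.R204.Freu297
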