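import Crest.Agent.R204.BridgeSing_478
import Crest.Agent.R204.SpecA_334

/-!
# Row 204, block I0b: S0314 and S0315 from statements on spherical simplices of `GenLoop`

`Core314`, `Core315`: the statements on based simplices `Δ^d → Ω^n S^n` with constant faces.
`s0314_of`, `s0315_of`: the exact statements of S0314 and S0315.
-/

set_option autoImplicit false

open scoped Topology
open CategoryTheory Limits Simplicial AlgebraicTopology Opposite

namespace Crest.Agent.R204.Red478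

open Crest.Agent.R204 Bridge478 BridgeSing478

section Spherical

variable {Y : Type} [TopologicalSpace Y]

/-- a singular simplex of positive dimension all of whose faces are the constant simplex at `y` -/
def IsSph (y : Y) {e : ℕ} (a : (SS.Sing Y).S (e + 1)) : Prop :=
  ∀ i : Fin (e + 2), (SS.Sing Y).act (Op.face i) a = SpecA.cst y e

theorem cst_degenerate (y : Y) (e : ℕ) :
    SpecA.cst y (e + 1) = (SS.Sing Y).act (Op.dgn (0 : Fin (e + 1))) (SpecA.cst y e) := by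
  apply ContinuousMap.ext
  intro p
  rfl

theorem sx_cst (y : Y) (e : ℕ) : N.sx (K := SS.Sing Y) F2 (SpecA.cst y (e + 1)) = 0 := by
  rw [cst_degenerate]
  exact N.sx_dgn _ _

theorem bd_sx {y : Y} {e : ℕ} {a : (SS.Sing Y).S (e + 1)} (ha : IsSph y a) :
    N.bd F2 (SS.Sing Y) (N.sx F2 a) = 0 := by
  have h1 : N.bd F2 (SS.Sing Y) (N.sx F2 a)
      = ∑ _i : Fin (e + 2), N.sx (K := SS.Sing Y) F2 (SpecA.cst y e) := by
    rw [N.sx, N.bd_mk, Ch.bd_single_succ]
    have : ∀ i : Fin (e + 2), (Finsupp.single (⟨e, (SS.Sing Y).act (Op.face i) a⟩ : (SS.Sing Y).T)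
        ((1 : F2) * (-1) ^ (i : ℕ)) : Ch F2 (SS.Sing Y))
        = Finsupp.single ⟨e, SpecA.cst y e⟩ 1 := by
      intro i
      rw [ha i, neg_one_pow_F2, mul_one]
    rw [Finset.sum_congr rfl fun i _ => this i]
    exact map_sum (Submodule.mkQ (Ch.Dg F2 (SS.Sing Y))) _ _
  rw [h1]
  rcases e with _ | e
  · rw [Fin.sum_univ_two, ← two_smul F2, show (2 : F2) = 0 from rfl, zero_smul]
  · exact Finset.sum_eq_zero fun i _ => sx_cst y e

/-- the homology class of a spherical simplex -/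
noncomputable def sphCl {y : Y} {e : ℕ} (a : (SS.Sing Y).S (e + 1)) (ha : IsSph y a) :
    H F2 (SS.Sing Y) := Hd.mk (N.bd F2 (SS.Sing Y)) (N.sx F2 a) (bd_sx ha)

theorem IsSph.map {Z : Type} [TopologicalSpace Z] (f : C(Y, Z)) {y : Y} {e : ℕ}
    {a : (SS.Sing Y).S (e + 1)} (ha : IsSph y a) :
    IsSph (f y) ((SS.SingMap f).app (e + 1) a) := by
  intro i
  rw [← (SS.SingMap f).nat, ha i]
  rfl

theorem map_sphCl {Z : Type} [TopologicalSpace Z] (f : C(Y, Z)) {y : Y} {e : ℕ}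
    {a : (SS.Sing Y).S (e + 1)} (ha : IsSph y a) {z : Z} (hz : f y = z) :
    H.map F2 (SS.SingMap f) (sphCl a ha)
      = sphCl (y := z) ((SS.SingMap f).app (e + 1) a) (hz ▸ ha.map f) := by
  refine Hd.mk_eq_mk.2 ⟨0, ?_⟩
  rw [map_zero]
  exact (sub_eq_zero.2 (N.map_sx (SS.SingMap f) a)).symm

end Spherical

/-- the unit sphere of `ℝ^(n+1)` -/
abbrev S (n : ℕ) : Type := Metric.sphere (0 : EuclideanSpace ℝ (Fin (n + 1))) 1

/-- **core statement of S0314** -/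
def Core314 : Prop := ∀ (e n : ℕ), e + 1 ≠ 1 → e + 1 ≠ 3 → e + 1 ≠ 7 → (∀ j : ℕ, e + 1 + 2 ≠ 2 ^ j) →
  e + 1 + 2 ≤ n → ∀ (x : S n) (a : (SS.Sing (GenLoop (Fin n) (S n) x)).S (e + 1))
    (ha : IsSph (GenLoop.const : GenLoop (Fin n) (S n) x) a), sphCl a ha = 0

/-- **core statement of S0315** -/
def Core315 : Prop := ∀ (e n : ℕ), e + 1 + 2 ≤ n → ∀ (x : S n)
  (a b : (SS.Sing (GenLoop (Fin n) (S n) x)).S (e + 1))
  (ha : IsSph (GenLoop.const : GenLoop (Fin n) (S n) x) a)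
  (hb : IsSph (GenLoop.const : GenLoop (Fin n) (S n) x) b),
    sphCl a ha = 0 ∨ sphCl b hb = 0 ∨ sphCl a ha = sphCl b hb

/-- the generator of the top homology of the sphere -/
theorem sphere_gen (hS : SpecA.Spheres) (e : ℕ) (s : S (e + 1)) :
    ∃ (σ : (SS.Sing (S (e + 1))).S (e + 1)) (hσ : IsSph s σ),
      ∀ u ∈ H.gr F2 (SS.Sing (S (e + 1))) (e + 1), ∃ c : F2, u = c • sphCl σ hσ := by
  obtain ⟨σ, hσ, h2, -⟩ := hS e s
  refine ⟨σ, hσ, fun u hu => ?_⟩
  have h3 := (h2 (bd_sx hσ)).2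
  rw [h3] at hu
  obtain ⟨c, hc⟩ := Submodule.mem_span_singleton.1 hu
  exact ⟨c, hc.symm⟩

theorem map_zero_of {Y : TopCat.{0}} (hN : DgAcyclic (SS.Sing Y)) (hS : SpecA.Spheres) (e : ℕ)
    (s : S (e + 1)) (f : C(S (e + 1), Y)) (y : Y) (hf : f s = y)
    (h : ∀ (a : (SS.Sing Y).S (e + 1)) (ha : IsSph y a), sphCl a ha = 0) :
    ((singularHomologyFunctor (ModuleCat.{0} (ZMod 2)) (e + 1)).obj
        (ModuleCat.of (ZMod 2) (ZMod 2))).map (TopCat.ofHom f) = 0 := by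
  apply sing_map_eq_zero hN
  intro u hu
  obtain ⟨σ, hσ, hgen⟩ := sphere_gen hS e s
  obtain ⟨c, rfl⟩ := hgen u hu
  rw [map_smul, TopCat.hom_ofHom, map_sphCl f hσ hf, h, smul_zero]

theorem map_eq_of {Y : TopCat.{0}} (hN : DgAcyclic (SS.Sing Y)) (hS : SpecA.Spheres) (e : ℕ)
    (s : S (e + 1)) (f g : C(S (e + 1), Y)) (y : Y) (hf : f s = y) (hg : g s = y)
    (h : ∀ (a b : (SS.Sing Y).S (e + 1)) (ha : IsSph y a) (hb : IsSph y b),
      sphCl a ha = 0 ∨ sphCl b hb = 0 ∨ sphCl a ha = sphCl b hb) :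
    ((singularHomologyFunctor (ModuleCat.{0} (ZMod 2)) (e + 1)).obj
        (ModuleCat.of (ZMod 2) (ZMod 2))).map (TopCat.ofHom f) = 0 ∨
    ((singularHomologyFunctor (ModuleCat.{0} (ZMod 2)) (e + 1)).obj
        (ModuleCat.of (ZMod 2) (ZMod 2))).map (TopCat.ofHom g) = 0 ∨
    ((singularHomologyFunctor (ModuleCat.{0} (ZMod 2)) (e + 1)).obj
        (ModuleCat.of (ZMod 2) (ZMod 2))).map (TopCat.ofHom f) =
      ((singularHomologyFunctor (ModuleCat.{0} (ZMod 2)) (e + 1)).obj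
        (ModuleCat.of (ZMod 2) (ZMod 2))).map (TopCat.ofHom g) := by
  obtain ⟨σ, hσ, hgen⟩ := sphere_gen hS e s
  rcases h _ _ (hf ▸ hσ.map f) (hg ▸ hσ.map g) with h0 | h0 | h0
  · left
    apply sing_map_eq_zero hN
    intro u hu
    obtain ⟨c, rfl⟩ := hgen u hu
    rw [map_smul, TopCat.hom_ofHom, map_sphCl f hσ hf, h0, smul_zero]
  · right; left
    apply sing_map_eq_zero hN
    intro u hu
    obtain ⟨c, rfl⟩ := hgen u hu
    rw [map_smul, TopCat.hom_ofHom, map_sphCl g hσ hg, h0, smul_zero]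
  · right; right
    apply sing_map_eq hN
    intro u hu
    obtain ⟨c, rfl⟩ := hgen u hu
    rw [map_smul, map_smul, TopCat.hom_ofHom, TopCat.hom_ofHom, map_sphCl f hσ hf,
      map_sphCl g hσ hg, h0]

theorem dgAcyclic_of (hN : SpecA.DgAcyclic) (K : SS) : DgAcyclic K := by
  intro c hc hb
  obtain ⟨w, -, hw⟩ := hN F2 K c hc hb
  exact ⟨w, hw⟩

/-- **S0314, exact statement**, from the normalisation theorem, the homology of spheres and the
core statement on spherical simplices. -/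
theorem s0314_of (hN : SpecA.DgAcyclic) (hS : SpecA.Spheres) (hC : Core314)
    (d n : ℕ) (hd : 0 < d) (h1 : d ≠ 1) (h3 : d ≠ 3) (h7 : d ≠ 7) (hK : ∀ j : ℕ, d + 2 ≠ 2 ^ j)
    (hn : d + 2 ≤ n)
    (x : Metric.sphere (0 : EuclideanSpace ℝ (Fin (n + 1))) 1)
    (s : Metric.sphere (0 : EuclideanSpace ℝ (Fin (d + 1))) 1)
    (f : C(Metric.sphere (0 : EuclideanSpace ℝ (Fin (d + 1))) 1,
      GenLoop (Fin n) (Metric.sphere (0 : EuclideanSpace ℝ (Fin (n + 1))) 1) x))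
    (hf : f s = GenLoop.const) :
    ((AlgebraicTopology.singularHomologyFunctor (ModuleCat.{0} (ZMod 2)) d).obj
        (ModuleCat.of (ZMod 2) (ZMod 2))).map (TopCat.ofHom f) = 0 := by
  obtain ⟨e, rfl⟩ : ∃ e, d = e + 1 := ⟨d - 1, by omega⟩
  exact map_zero_of (Y := TopCat.of (GenLoop (Fin n) (S n) x)) (dgAcyclic_of hN _) hS e s f _ hf
    (fun a ha => hC e n h1 h3 h7 hK hn x a ha)

/-- **S0315, exact statement.** -/
theorem s0315_of (hN : SpecA.DgAcyclic) (hS : SpecA.Spheres) (hC : Core315)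
    (d n : ℕ) (hd : 0 < d) (hn : d + 2 ≤ n)
    (x : Metric.sphere (0 : EuclideanSpace ℝ (Fin (n + 1))) 1)
    (s : Metric.sphere (0 : EuclideanSpace ℝ (Fin (d + 1))) 1)
    (f g : C(Metric.sphere (0 : EuclideanSpace ℝ (Fin (d + 1))) 1,
      GenLoop (Fin n) (Metric.sphere (0 : EuclideanSpace ℝ (Fin (n + 1))) 1) x))
    (hf : f s = GenLoop.const) (hg : g s = GenLoop.const) :
    ((AlgebraicTopology.singularHomologyFunctor (ModuleCat.{0} (ZMod 2)) d).obj
        (ModuleCat.of (ZMod 2) (ZMod 2))).map (TopCat.ofHom f) = 0 ∨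
    ((AlgebraicTopology.singularHomologyFunctor (ModuleCat.{0} (ZMod 2)) d).obj
        (ModuleCat.of (ZMod 2) (ZMod 2))).map (TopCat.ofHom g) = 0 ∨
    ((AlgebraicTopology.singularHomologyFunctor (ModuleCat.{0} (ZMod 2)) d).obj
        (ModuleCat.of (ZMod 2) (ZMod 2))).map (TopCat.ofHom f) =
      ((AlgebraicTopology.singularHomologyFunctor (ModuleCat.{0} (ZMod 2)) d).obj
        (ModuleCat.of (ZMod 2) (ZMod 2))).map (TopCat.ofHom g) := by
  obtain ⟨e, rfl⟩ : ∃ e, d = e + 1 := ⟨d - 1, by omega⟩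
  exact map_eq_of (Y := TopCat.of (GenLoop (Fin n) (S n) x)) (dgAcyclic_of hN _) hS e s f g _ hf hg
    (fun a b ha hb => hC e n hn x a b ha hb)

end Crest.Agent.R204.Red478
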