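import Crest.Agent.R204.HDegA_160
import Crest.Agent.R204.C2_735
import Crest.Agent.R204.Red_478

/-!
# Row 204, block I0: the suspension map `Ω^n S^n → Ω^(n+1) S^(n+1)`, change of base point and the
reduction of S0314 / S0315 to large `n`
-/

set_option autoImplicit false

open scoped unitInterval Topology Topology.Homotopy

noncomputable section

namespace Crest.Agent.R204.SusMap478

open Crest.Agent.R204 HDeg160 Cubes735 Red478

/-! ## continuity of suspensions -/

section Cont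

variable {Y Z : Type*} [TopologicalSpace Y] [TopologicalSpace Z] {y₀ : Y} {z₀ : Z}

/-- the suspension `Ω^J Y → Ω^(J+1) Z` as a continuous map -/
def suspC (D : SuspData Y Z y₀ z₀) (J : ℕ) : C(Ω^ (Fin J) Y y₀, Ω^ (Fin (J + 1)) Z z₀) :=
  ⟨D.susp, by
    rw [continuous_genLoop_iff]
    refine D.e.continuous.comp (Continuous.prodMk ?_ ?_)
    · have h1 : Continuous fun g : Ω^ (Fin J) Y y₀ => g := continuous_id
      rw [continuous_genLoop_iff] at h1
      refine h1.comp (continuous_fst.prodMk ?_)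
      exact continuous_pi fun i => (continuous_apply (Fin.castSucc i)).comp continuous_snd
    · exact (continuous_apply _).comp continuous_snd⟩

@[simp] theorem suspC_apply (D : SuspData Y Z y₀ z₀) {J : ℕ} (g : Ω^ (Fin J) Y y₀)
    (t : I^ Fin (J + 1)) : suspC D J g t = D.e (g (Fin.init t), t (Fin.last J)) := rfl

theorem suspC_const (D : SuspData Y Z y₀ z₀) (J : ℕ) :
    suspC D J (GenLoop.const : Ω^ (Fin J) Y y₀) = GenLoop.const := by
  ext t
  exact D.e_base _

/-- functoriality of `Ω^J`, as a continuous map -/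
def mapC {J : Type*} [Finite J] (g : C(Y, Z)) (hg : g y₀ = z₀) : C(Ω^ J Y y₀, Ω^ J Z z₀) :=
  ⟨GenLoop.map g hg, by
    rw [continuous_genLoop_iff]
    have h1 : Continuous fun x : Ω^ J Y y₀ => x := continuous_id
    rw [continuous_genLoop_iff] at h1
    exact g.continuous.comp h1⟩

@[simp] theorem mapC_apply {J : Type*} [Finite J] (g : C(Y, Z)) (hg : g y₀ = z₀) (x : Ω^ J Y y₀)
    (t : J → I) : mapC (J := J) g hg x t = g (x t) := rfl

theorem mapC_const {J : Type*} [Finite J] (g : C(Y, Z)) (hg : g y₀ = z₀) :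
    mapC (J := J) g hg (GenLoop.const : Ω^ J Y y₀) = GenLoop.const := by
  ext t
  exact hg

end Cont

/-! ## the explicit suspension of unit spheres -/

section Sphere

/-- the vector `(v, s)` of `ℝ^(n+2)` -/
def app {n : ℕ} (v : EuclideanSpace ℝ (Fin (n + 1))) (s : ℝ) : EuclideanSpace ℝ (Fin (n + 2)) :=
  WithLp.toLp 2 (Fin.snoc (α := fun _ => ℝ) v s)

theorem app_norm_sq {n : ℕ} (v : EuclideanSpace ℝ (Fin (n + 1))) (s : ℝ) :
    ‖app v s‖ ^ 2 = ‖v‖ ^ 2 + s ^ 2 := by
  rw [EuclideanSpace.real_norm_sq_eq, EuclideanSpace.real_norm_sq_eq, Fin.sum_univ_castSucc]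
  simp [app, Fin.snoc_castSucc, Fin.snoc_last]

theorem continuous_app {n : ℕ} {P : Type*} [TopologicalSpace P]
    {v : P → EuclideanSpace ℝ (Fin (n + 1))} {s : P → ℝ} (hv : Continuous v) (hs : Continuous s) :
    Continuous fun p => app (v p) (s p) := by
  refine (PiLp.continuous_toLp 2 _).comp ?_
  refine continuous_pi fun i => ?_
  refine Fin.lastCases ?_ (fun j => ?_) i
  · simpa using hs
  · simp only [Fin.snoc_castSucc]
    exact (continuous_apply j).comp ((PiLp.continuous_ofLp 2 _).comp hv)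

variable {n : ℕ}

/-- the circle through `(x,0)` and `(y,0)` in the sphere of dimension one higher -/
def circ (x y : EuclideanSpace ℝ (Fin (n + 1))) (t : ℝ) : EuclideanSpace ℝ (Fin (n + 2)) :=
  app ((1 / 2 : ℝ) • (x + y) + Real.cos (2 * Real.pi * t) • ((1 / 2 : ℝ) • (x - y)))
    (Real.sin (2 * Real.pi * t) * ‖(1 / 2 : ℝ) • (x - y)‖)

theorem circ_norm (x y : EuclideanSpace ℝ (Fin (n + 1))) (hx : ‖x‖ = 1) (hy : ‖y‖ = 1) (t : ℝ) :
    ‖circ x y t‖ = 1 := by
  have h0 : inner ℝ (x + y) (x - y) = (0 : ℝ) := by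
    rw [inner_add_left, inner_sub_right, inner_sub_right, real_inner_self_eq_norm_sq,
      real_inner_self_eq_norm_sq, hx, hy, real_inner_comm]
    ring
  have h1 : ‖x + y‖ ^ 2 + ‖x - y‖ ^ 2 = 4 := by
    rw [@norm_add_sq ℝ, @norm_sub_sq ℝ, hx, hy]
    ring
  have h2 : ‖circ x y t‖ ^ 2 = 1 := by
    rw [circ, app_norm_sq, @norm_add_sq ℝ, mul_pow, inner_smul_left, inner_smul_right,
      inner_smul_right, h0, norm_smul, norm_smul, norm_smul, mul_pow, mul_pow, mul_pow]
    have h3 := Real.sin_sq_add_cos_sq (2 * Real.pi * t)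
    simp only [Real.norm_eq_abs, sq_abs, mul_zero, map_zero, add_zero]
    linear_combination (1 / 4 : ℝ) * h1 + (1 / 4 : ℝ) * ‖x - y‖ ^ 2 * h3
  exact (pow_eq_one_iff_of_nonneg (norm_nonneg _) two_ne_zero).1 h2

/-- the point `(x, 0)` -/
def eqp (x : S n) : S (n + 1) := ⟨app x.1 0, by
  rw [mem_sphere_zero_iff_norm]
  have h := app_norm_sq x.1 0
  rw [mem_sphere_zero_iff_norm.1 x.2] at h
  refine (pow_eq_one_iff_of_nonneg (norm_nonneg _) two_ne_zero).1 ?_
  rw [h]; norm_num⟩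

theorem circ_zero (x y : EuclideanSpace ℝ (Fin (n + 1))) : circ x y 0 = app x 0 := by
  have e : (1 / 2 : ℝ) • (x + y) + (1 : ℝ) • ((1 / 2 : ℝ) • (x - y)) = x := by
    rw [one_smul, smul_add, smul_sub, add_add_sub_cancel, ← add_smul]; norm_num
  rw [circ, mul_zero, Real.cos_zero, Real.sin_zero, zero_mul, e]

theorem circ_one (x y : EuclideanSpace ℝ (Fin (n + 1))) : circ x y 1 = app x 0 := by
  have e : (1 / 2 : ℝ) • (x + y) + (1 : ℝ) • ((1 / 2 : ℝ) • (x - y)) = x := by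
    rw [one_smul, smul_add, smul_sub, add_add_sub_cancel, ← add_smul]; norm_num
  rw [circ, mul_one, Real.cos_two_pi, Real.sin_two_pi, zero_mul, e]

theorem circ_self (x : EuclideanSpace ℝ (Fin (n + 1))) (t : ℝ) : circ x x t = app x 0 := by
  have e : (1 / 2 : ℝ) • (x + x) = x := by
    rw [smul_add, ← add_smul]; norm_num
  rw [circ, sub_self, smul_zero, smul_zero, norm_zero, mul_zero, add_zero, e]

/-- the suspension map `S^n × I → S^(n+1)` with base points `x` and `(x, 0)` -/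
def sphSusp (x : S n) : SuspData (S n) (S (n + 1)) x (eqp x) where
  e := ⟨fun p => ⟨circ x.1 p.1.1 (p.2 : ℝ), by
      rw [mem_sphere_zero_iff_norm]
      exact circ_norm _ _ (mem_sphere_zero_iff_norm.1 x.2) (mem_sphere_zero_iff_norm.1 p.1.2) _⟩, by
    refine Continuous.subtype_mk ?_ _
    refine continuous_app ?_ ?_
    · fun_prop
    · fun_prop⟩
  e_zero y := Subtype.ext (circ_zero _ _)
  e_one y := Subtype.ext (circ_one _ _)
  e_base t := Subtype.ext (circ_self _ _)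

/-- the suspension map `Ω^n S^n → Ω^(n+1) S^(n+1)` -/
def sus (n : ℕ) (x : S n) :
    C(GenLoop (Fin n) (S n) x, GenLoop (Fin (n + 1)) (S (n + 1)) (eqp x)) :=
  suspC (sphSusp x) n

theorem sus_const (n : ℕ) (x : S n) : sus n x GenLoop.const = GenLoop.const :=
  suspC_const _ _

/-! ## change of base point -/

/-- rotation of the sphere taking `x` to `y` -/
theorem exists_rot (x y : S n) : ∃ g h : C(S n, S n), g x = y ∧ h y = x ∧
    (∀ z, g (h z) = z) ∧ ∀ z, h (g z) = z := by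
  obtain ⟨L, hL⟩ : ∃ L : EuclideanSpace ℝ (Fin (n + 1)) ≃ₗᵢ[ℝ] EuclideanSpace ℝ (Fin (n + 1)),
      L x.1 = y.1 := by
    refine ⟨(ℝ ∙ ((x : EuclideanSpace ℝ (Fin (n + 1))) - y))ᗮ.reflection, ?_⟩
    apply Submodule.reflection_sub
    rw [mem_sphere_zero_iff_norm.1 x.2, mem_sphere_zero_iff_norm.1 y.2]
  refine ⟨⟨fun z => ⟨L z.1, ?_⟩, ?_⟩, ⟨fun z => ⟨L.symm z.1, ?_⟩, ?_⟩, ?_, ?_, ?_, ?_⟩
  · rw [mem_sphere_zero_iff_norm, L.norm_map]; exact mem_sphere_zero_iff_norm.1 z.2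
  · exact Continuous.subtype_mk (L.continuous.comp continuous_subtype_val) _
  · rw [mem_sphere_zero_iff_norm, L.symm.norm_map]; exact mem_sphere_zero_iff_norm.1 z.2
  · exact Continuous.subtype_mk (L.symm.continuous.comp continuous_subtype_val) _
  · exact Subtype.ext hL
  · refine Subtype.ext ?_
    show L.symm y.1 = x.1
    rw [← hL, L.symm_apply_apply]
  · exact fun z => Subtype.ext (L.apply_symm_apply _)
  · exact fun z => Subtype.ext (L.symm_apply_apply _)

end Sphere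

/-! ## the reduction to large `n` -/

/-- all spherical classes of degree `e+1` in `Ω^n S^n` vanish -/
def P314 (e n : ℕ) (x : S n) : Prop :=
  ∀ (a : (SS.Sing (GenLoop (Fin n) (S n) x)).S (e + 1))
    (ha : IsSph (GenLoop.const : GenLoop (Fin n) (S n) x) a), sphCl a ha = 0

/-- there is at most one nonzero spherical class of degree `e+1` in `Ω^n S^n` -/
def P315 (e n : ℕ) (x : S n) : Prop :=
  ∀ (a b : (SS.Sing (GenLoop (Fin n) (S n) x)).S (e + 1))
    (ha : IsSph (GenLoop.const : GenLoop (Fin n) (S n) x) a)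
    (hb : IsSph (GenLoop.const : GenLoop (Fin n) (S n) x) b),
    sphCl a ha = 0 ∨ sphCl b hb = 0 ∨ sphCl a ha = sphCl b hb

theorem sphCl_mem_gr {Y : Type} [TopologicalSpace Y] {y : Y} {e : ℕ} (a : (SS.Sing Y).S (e + 1))
    (ha : IsSph y a) : sphCl a ha ∈ H.gr F2 (SS.Sing Y) (e + 1) := by
  refine Submodule.mem_map.2 ⟨⟨N.sx F2 a, ?_⟩, ?_, rfl⟩
  · rw [LinearMap.mem_ker]; exact bd_sx ha
  · exact Submodule.mem_map.2 ⟨Finsupp.single ⟨e + 1, a⟩ 1, Submodule.subset_span ⟨a, rfl⟩, rfl⟩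

theorem sphCl_congr {Y : Type} [TopologicalSpace Y] {y : Y} {e : ℕ} {a b : (SS.Sing Y).S (e + 1)}
    (ha : IsSph y a) (hb : IsSph y b) (h : a = b) : sphCl a ha = sphCl b hb := by
  subst h; rfl

/-- a spherical class is the image of the class transported by an inverse map -/
theorem sphCl_transport {Y Z : Type} [TopologicalSpace Y] [TopologicalSpace Z] (g : C(Y, Z))
    (h : C(Z, Y)) {y : Y} {z : Z} (hh : h z = y) (hgh : ∀ w, g (h w) = w) {e : ℕ}
    (a : (SS.Sing Z).S (e + 1)) (ha : IsSph z a) :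
    ∃ (a' : (SS.Sing Y).S (e + 1)) (ha' : IsSph y a'),
      H.map F2 (SS.SingMap g) (sphCl a' ha') = sphCl a ha := by
  have hg : g y = z := by rw [← hh, hgh]
  refine ⟨(SS.SingMap h).app (e + 1) a, hh ▸ ha.map h, ?_⟩
  rw [map_sphCl g _ hg]
  apply sphCl_congr
  apply ContinuousMap.ext
  intro p
  exact hgh _

theorem P314_rot {e n : ℕ} {x y : S n} (h : P314 e n x) : P314 e n y := by
  obtain ⟨g, g', h1, h2, h3, -⟩ := exists_rot x y
  intro a ha
  obtain ⟨a', ha', h4⟩ := sphCl_transport (mapC (J := Fin n) g h1) (mapC (J := Fin n) g' h2)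
    (mapC_const g' h2) (fun w => GenLoop.ext _ _ fun t => h3 _) a ha
  rw [← h4, h a' ha', map_zero]

theorem P315_rot {e n : ℕ} {x y : S n} (h : P315 e n x) : P315 e n y := by
  obtain ⟨g, g', h1, h2, h3, -⟩ := exists_rot x y
  intro a b ha hb
  obtain ⟨a', ha', h4⟩ := sphCl_transport (mapC (J := Fin n) g h1) (mapC (J := Fin n) g' h2)
    (mapC_const g' h2) (fun w => GenLoop.ext _ _ fun t => h3 _) a ha
  obtain ⟨b', hb', h5⟩ := sphCl_transport (mapC (J := Fin n) g h1) (mapC (J := Fin n) g' h2)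
    (mapC_const g' h2) (fun w => GenLoop.ext _ _ fun t => h3 _) b hb
  rcases h a' b' ha' hb' with h6 | h6 | h6
  · exact Or.inl (h4.symm.trans ((congrArg _ h6).trans (map_zero _)))
  · exact Or.inr (Or.inl (h5.symm.trans ((congrArg _ h6).trans (map_zero _))))
  · exact Or.inr (Or.inr (h4.symm.trans ((congrArg _ h6).trans h5)))

/-- **(R4), final form**: there is a based map `Ω^n S^n → Ω^(n+1) S^(n+1)` injective on `H_d` for
`1 ≤ d ≤ n - 2` (some suspension map, some base point) -/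
def Stab : Prop := ∀ (n : ℕ) (x : S n), ∃ (x' : S (n + 1))
  (F : C(GenLoop (Fin n) (S n) x, GenLoop (Fin (n + 1)) (S (n + 1)) x')),
  F GenLoop.const = GenLoop.const ∧ ∀ e : ℕ, e + 1 + 2 ≤ n →
  ∀ u ∈ H.gr F2 (SS.Sing (GenLoop (Fin n) (S n) x)) (e + 1), H.map F2 (SS.SingMap F) u = 0 → u = 0

/-- the version with the explicit map `sus` -/
theorem stab_of_sus (h : ∀ (n e : ℕ) (x : S n), e + 1 + 2 ≤ n →
    ∀ u ∈ H.gr F2 (SS.Sing (GenLoop (Fin n) (S n) x)) (e + 1),
      H.map F2 (SS.SingMap (sus n x)) u = 0 → u = 0) : Stab :=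
  fun n x => ⟨eqp x, sus n x, sus_const n x, fun e he => h n e x he⟩

theorem P314_down (hs : Stab) {e n : ℕ} (hn : e + 1 + 2 ≤ n) {x : S n}
    (h : ∀ x' : S (n + 1), P314 e (n + 1) x') : P314 e n x := by
  obtain ⟨x', F, hF, hs⟩ := hs n x
  intro a ha
  apply hs e hn _ (sphCl_mem_gr a ha)
  rw [map_sphCl F ha hF]
  exact h x' _ _

theorem P315_down (hs : Stab) {e n : ℕ} (hn : e + 1 + 2 ≤ n) {x : S n}
    (h : ∀ x' : S (n + 1), P315 e (n + 1) x') : P315 e n x := by
  obtain ⟨x', F, hF, hs⟩ := hs n x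
  intro a b ha hb
  have ea := map_sphCl F ha hF
  have eb := map_sphCl F hb hF
  rcases h x' _ _ (hF ▸ ha.map F) (hF ▸ hb.map F) with h1 | h1 | h1
  · exact Or.inl (hs e hn _ (sphCl_mem_gr a ha) (ea.trans h1))
  · exact Or.inr (Or.inl (hs e hn _ (sphCl_mem_gr b hb) (eb.trans h1)))
  · refine Or.inr (Or.inr (sub_eq_zero.1 ?_))
    apply hs e hn _ (Submodule.sub_mem _ (sphCl_mem_gr a ha) (sphCl_mem_gr b hb))
    exact (map_sub _ _ _).trans (sub_eq_zero.2 (ea.trans (h1.trans eb.symm)))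

theorem P314_of_huge (hs : Stab) {e : ℕ} (h : ∀ N, ∃ n, N ≤ n ∧ ∃ x : S n, P314 e n x) {n : ℕ}
    (hn : e + 1 + 2 ≤ n) (x : S n) : P314 e n x := by
  obtain ⟨m, hm, hy⟩ := h n
  obtain ⟨k, rfl⟩ := Nat.exists_eq_add_of_le hm
  clear h hm
  induction k generalizing n with
  | zero =>
    obtain ⟨y, hy⟩ := hy
    exact P314_rot hy
  | succ k ih =>
    apply P314_down hs hn
    refine fun x' => ih (by omega) x' ?_
    rw [show n + 1 + k = n + (k + 1) by omega]
    exact hy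

theorem P315_of_huge (hs : Stab) {e : ℕ} (h : ∀ N, ∃ n, N ≤ n ∧ ∃ x : S n, P315 e n x) {n : ℕ}
    (hn : e + 1 + 2 ≤ n) (x : S n) : P315 e n x := by
  obtain ⟨m, hm, hy⟩ := h n
  obtain ⟨k, rfl⟩ := Nat.exists_eq_add_of_le hm
  clear h hm
  induction k generalizing n with
  | zero =>
    obtain ⟨y, hy⟩ := hy
    exact P315_rot hy
  | succ k ih =>
    apply P315_down hs hn
    refine fun x' => ih (by omega) x' ?_
    rw [show n + 1 + k = n + (k + 1) by omega]
    exact hy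

/-- core statement for arbitrarily large `n` -/
def Huge314 : Prop := ∀ e : ℕ, e + 1 ≠ 1 → e + 1 ≠ 3 → e + 1 ≠ 7 → (∀ j : ℕ, e + 1 + 2 ≠ 2 ^ j) →
  ∀ N, ∃ n, N ≤ n ∧ ∃ x : S n, P314 e n x

/-- core statement for arbitrarily large `n` -/
def Huge315 : Prop := ∀ e N : ℕ, ∃ n, N ≤ n ∧ ∃ x : S n, P315 e n x

theorem core314_of_huge (hs : Stab) (h : Huge314) : Core314 :=
  fun e _n h1 h3 h7 hj hn x a ha => P314_of_huge hs (h e h1 h3 h7 hj) hn x a ha

theorem core315_of_huge (hs : Stab) (h : Huge315) : Core315 :=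
  fun e _n hn x a b ha hb => P315_of_huge hs (h e) hn x a b ha hb

end Crest.Agent.R204.SusMap478
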