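import Crest.Agent.R204.ConnD_747
import Crest.Agent.R204.FreuT_297
import Crest.Agent.R204.SusMap_478

/-!
# Row 204: homology suspension ranges (seat 747)

* `susp_inj`, `susp_surj`: `H_i(Ω^J S^n) → H_i(Ω^(J+1) S^(n+1))` is injective for `i + J + 1 < 2 n`
  and surjective for `i + J < 2 n`;
* `EJ_inj`, `EJ_surj`: `H_i(S^m) → H_i(Ω^J S^(m+J))` is injective for `i + 1 < 2 m`, surjective for
  `i < 2 m`;
* `stab : SusMap478.Stab`.
-/

set_option autoImplicit false

open scoped unitInterval Topology Topology.Homotopy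

noncomputable section

namespace Crest.Agent.R204.Conn747

open Crest.Agent.R204.Freu297

theorem compr_susp {q n J : ℕ} (hq : q + J + 2 < 2 * (n + 1)) : Compr (susp n J) q :=
  fun a ha => step_simplex_rel hq a ha

variable (R : Type) [CommRing R]

theorem susp_inj {n J i : ℕ} (hi : i + J + 1 < 2 * n)
    {u : H R (SS.Sing (GenLoop (Fin J) (Sph n) (pt n)))} (hu : u ∈ H.gr R _ i)
    (h : H.map R (SS.SingMap (susp n J)) u = 0) : u = 0 :=
  homology_inj (susp_injective n J) (m := i + 1) (fun _ _ => compr_susp (by omega)) (by omega) hu h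

theorem susp_surj {n J i : ℕ} (hi : i + J < 2 * n)
    {v : H R (SS.Sing (GenLoop (Fin (J + 1)) (Sph (n + 1)) (pt (n + 1))))} (hv : v ∈ H.gr R _ i) :
    ∃ u ∈ H.gr R (SS.Sing (GenLoop (Fin J) (Sph n) (pt n))) i,
      H.map R (SS.SingMap (susp n J)) u = v :=
  homology_surj (susp_injective n J) (m := i) (fun _ _ => compr_susp (by omega)) le_rfl hv

theorem Hmap_comp {X Y Z : Type} [TopologicalSpace X] [TopologicalSpace Y] [TopologicalSpace Z]
    (g : C(Y, Z)) (f : C(X, Y)) (u : H R (SS.Sing X)) :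
    H.map R (SS.SingMap (g.comp f)) u = H.map R (SS.SingMap g) (H.map R (SS.SingMap f) u) := by
  have h1 : SS.SingMap (g.comp f) = SS.Hom.comp (SS.SingMap g) (SS.SingMap f) := by
    ext n x; rfl
  rw [h1]
  exact HZ76.H_map_comp R (SS.SingMap g) (SS.SingMap f) u

theorem Hmap_id {X : Type} [TopologicalSpace X] (u : H R (SS.Sing X)) :
    H.map R (SS.SingMap (ContinuousMap.id X)) u = u := by
  have : SS.SingMap (ContinuousMap.id X) = SS.Hom.id (SS.Sing X) := by
    ext n x; rfl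
  rw [this]; exact HZ76.H_map_id R u

/-- a map with a left inverse is injective on homology -/
theorem Hmap_inj_of_leftInv {X Y : Type} [TopologicalSpace X] [TopologicalSpace Y] (f : C(X, Y))
    (g : C(Y, X)) (h : ∀ x, g (f x) = x) {u : H R (SS.Sing X)}
    (hu : H.map R (SS.SingMap f) u = 0) : u = 0 := by
  have h1 : g.comp f = ContinuousMap.id X := ContinuousMap.ext h
  have h2 := Hmap_comp R g f u
  rw [h1, Hmap_id, hu, map_zero] at h2
  exact h2

/-- evaluation `Ω^0 S^m → S^m` -/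
def ofLoop0 (m : ℕ) : C(GenLoop (Fin 0) (Sph m) (pt m), Sph m) :=
  ⟨fun g => g (fun i => i.elim0), continuous_eval_const (F := GenLoop (Fin 0) (Sph m) (pt m))
    (fun i : Fin 0 => i.elim0)⟩

theorem toLoop0_ofLoop0 (m : ℕ) (g : GenLoop (Fin 0) (Sph m) (pt m)) :
    toLoop0 m (ofLoop0 m g) = g := by
  apply GenLoop.ext
  intro w
  show g _ = g w
  congr 1
  ext i; exact i.elim0

theorem toLoop0_surj {m i : ℕ} {v : H R (SS.Sing (GenLoop (Fin 0) (Sph m) (pt m)))}
    (hv : v ∈ H.gr R _ i) :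
    ∃ u ∈ H.gr R (SS.Sing (Sph m)) i, H.map R (SS.SingMap (toLoop0 m)) u = v := by
  refine ⟨H.map R (SS.SingMap (ofLoop0 m)) v, Gr334.H_map_mem_gr _ hv, ?_⟩
  have h1 : (toLoop0 m).comp (ofLoop0 m) = ContinuousMap.id _ :=
    ContinuousMap.ext (toLoop0_ofLoop0 m)
  rw [← Hmap_comp, h1, Hmap_id]

theorem EJ_inj {m : ℕ} {i : ℕ} (hi : i + 1 < 2 * m) : ∀ (J : ℕ) {u : H R (SS.Sing (Sph m))}
    (_ : u ∈ H.gr R (SS.Sing (Sph m)) i) (_ : H.map R (SS.SingMap (EJ m J)) u = 0), u = 0 := by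
  intro J
  induction J with
  | zero =>
    intro u _ h
    exact Hmap_inj_of_leftInv R (toLoop0 m) (ofLoop0 m) (fun _ => rfl) h
  | succ J ih =>
    intro u hu h
    have h' : H.map R (SS.SingMap ((susp (m + J) J).comp (EJ m J))) u = 0 := h
    rw [Hmap_comp] at h'
    exact ih hu (susp_inj R (n := m + J) (J := J) (i := i) (by omega)
      (Gr334.H_map_mem_gr _ hu) h')

theorem EJ_surj {m : ℕ} {i : ℕ} (hi : i < 2 * m) : ∀ (J : ℕ)
    {v : H R (SS.Sing (GenLoop (Fin J) (Sph (m + J)) (pt (m + J))))} (_ : v ∈ H.gr R _ i),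
    ∃ u ∈ H.gr R (SS.Sing (Sph m)) i, H.map R (SS.SingMap (EJ m J)) u = v := by
  intro J
  induction J with
  | zero =>
    intro v hv
    exact @toLoop0_surj R _ m i v hv
  | succ J ih =>
    intro v hv
    obtain ⟨w, hw, hwv⟩ := susp_surj R (n := m + J) (J := J) (i := i) (by omega) hv
    obtain ⟨u, hu, huw⟩ := ih hw
    refine ⟨u, hu, ?_⟩
    have h' : H.map R (SS.SingMap ((susp (m + J) J).comp (EJ m J))) u = v :=
      (Hmap_comp R (susp (m + J) J) (EJ m J) u).trans
        ((congrArg (fun z => H.map R (SS.SingMap (susp (m + J) J)) z) huw).trans hwv)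
    exact h'

open SusMap478 in
/-- (R4) in 478's form -/
theorem stab : SusMap478.Stab := by
  intro n x
  obtain ⟨g, h, hg, hh, -, hhg⟩ := exists_rot x (pt n)
  let G := mapC (J := Fin n) g hg
  let G' := mapC (J := Fin n) h hh
  have hGG : ∀ w, G' (G w) = w := fun w => GenLoop.ext _ _ fun t => hhg _
  refine ⟨pt (n + 1), (susp n n).comp G, ?_, ?_⟩
  · show susp n n (G GenLoop.const) = _
    rw [mapC_const g hg, susp_const]
  · intro e he u hu h0
    rw [Hmap_comp] at h0
    exact Hmap_inj_of_leftInv F2 G G' hGG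
      (susp_inj F2 (n := n) (J := n) (i := e + 1) (by omega) (Gr334.H_map_mem_gr _ hu) h0)

end Crest.Agent.R204.Conn747
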