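import Crest.Agent.R204.EZInst_847

/-!
# Row 204, A4 (helper847): unconditional statements for the cross product `crH` and the coproduct
`copH` on `H F2 K`
-/

set_option autoImplicit false

namespace Crest.Agent.R204.EZ847

open TensorProduct Coalg847 EZ271

variable {K L J K' L' : SS}

/-! ## cross product -/

theorem crH_nat (f : SS.Hom K K') (g : SS.Hom L L') (x : H F2 K) (y : H F2 L) :
    H.map F2 (SS.prodMap f g) (crH K L (x ⊗ₜ y)) = crH K' L' (H.map F2 f x ⊗ₜ H.map F2 g y) :=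
  ezd.cr_nat f g x y

theorem crH_nat' (f : SS.Hom K K') (g : SS.Hom L L') (t : H F2 K ⊗[F2] H F2 L) :
    H.map F2 (SS.prodMap f g) (crH K L t) =
      crH K' L' (TensorProduct.map (H.map F2 f) (H.map F2 g) t) := ezd.cr_nat' f g t

theorem crH_assoc (x : H F2 K) (y : H F2 L) (z : H F2 J) :
    H.map F2 (asc K L J) (crH _ _ (crH K L (x ⊗ₜ y) ⊗ₜ z)) = crH _ _ (x ⊗ₜ crH L J (y ⊗ₜ z)) :=
  ezd.cr_assoc x y z

theorem crH_swap (x : H F2 K) (y : H F2 L) :
    H.map F2 (SS.swap K L) (crH K L (x ⊗ₜ y)) = crH L K (y ⊗ₜ x) := ezd.cr_swap x y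

theorem crH_swap' (t : H F2 K ⊗[F2] H F2 L) :
    H.map F2 (SS.swap K L) (crH K L t) = crH L K (TensorProduct.comm F2 _ _ t) := ezd.cr_swap' t

theorem crH_mid (x : H F2 K) (y : H F2 L) (x' : H F2 K') (y' : H F2 L') :
    H.map F2 (mid K L K' L') (crH _ _ (crH K L (x ⊗ₜ y) ⊗ₜ crH K' L' (x' ⊗ₜ y'))) =
      crH _ _ (crH K K' (x ⊗ₜ x') ⊗ₜ crH L L' (y ⊗ₜ y')) := ezd.cr_mid x y x' y'

theorem fst_crH (x : H F2 K) (y : H F2 L) :
    H.map F2 (SS.fst K L) (crH K L (x ⊗ₜ y)) = eps L y • x := ezd.fst_cr x y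

theorem snd_crH (x : H F2 K) (y : H F2 L) :
    H.map F2 (SS.snd K L) (crH K L (x ⊗ₜ y)) = eps K x • y := ezd.snd_cr x y

theorem eps_crH (x : H F2 K) (y : H F2 L) :
    eps (K.prod L) (crH K L (x ⊗ₜ y)) = eps K x * eps L y := ezd.eps_cr x y

theorem crH_vtx_right (x : H F2 K) (w : L.S 0) :
    crH K L (x ⊗ₜ vtx w) = H.map F2 (SS.pair (SS.Hom.id K) (SS.constHom K L w)) x :=
  ezd.cr_vtx_right x w

theorem crH_vtx_left (v : K.S 0) (y : H F2 L) :
    crH K L (vtx v ⊗ₜ y) = H.map F2 (SS.pair (SS.constHom L K v) (SS.Hom.id L)) y :=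
  ezd.cr_vtx_left v y

theorem crH_vtx (v : K.S 0) (w : L.S 0) :
    crH K L (vtx v ⊗ₜ vtx w) = vtx (K := K.prod L) (v, w) := ezd.cr_vtx v w

theorem crH_mem_gr {m n : ℕ} {x : H F2 K} {y : H F2 L} (hx : x ∈ H.gr F2 K m)
    (hy : y ∈ H.gr F2 L n) : crH K L (x ⊗ₜ y) ∈ H.gr F2 (K.prod L) (m + n) := ezd.cr_mem_gr hx hy

/-- **graded Kuenneth**: `crH` identifies the degree `n` part of the tensor product with `H_n` -/
theorem crH_mem_gr_iff {n : ℕ} {t : H F2 K ⊗[F2] H F2 L} :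
    crH K L t ∈ H.gr F2 (K.prod L) n ↔ t ∈ tgr (H.gr F2 K) (H.gr F2 L) n :=
  ⟨fun h => ezd.mem_tgr_of_cr (fun K => Gr334.isInternal_H F2 K) h, fun h => ezd.cr_mem_gr' h⟩

theorem crH_surj (x : H F2 (K.prod L)) : ∃ t, crH K L t = x := (crH K L).surjective x

/-- linear maps out of `H (K × L)` are determined by their values on cross products -/
theorem hom_ext_crH {M : Type*} [AddCommMonoid M] [Module F2 M]
    {f g : H F2 (K.prod L) →ₗ[F2] M}
    (h : ∀ x y, f (crH K L (x ⊗ₜ y)) = g (crH K L (x ⊗ₜ y))) : f = g := by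
  refine LinearMap.ext fun x => ?_
  obtain ⟨t, rfl⟩ := crH_surj x
  induction t with
  | zero => simp
  | add a b ha hb => simp only [map_add, ha, hb]
  | tmul a b => exact h a b

/-! ## coproduct -/

theorem copH_nat (f : SS.Hom K L) (x : H F2 K) :
    copH L (H.map F2 f x) = TensorProduct.map (H.map F2 f) (H.map F2 f) (copH K x) :=
  ezd.cop_nat f x

theorem copH_comm (x : H F2 K) : TensorProduct.comm F2 _ _ (copH K x) = copH K x :=
  ezd.cop_comm x

theorem copH_coassoc (x : H F2 K) :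
    TensorProduct.assoc F2 _ _ _ (TensorProduct.map (copH K) LinearMap.id (copH K x)) =
      TensorProduct.map LinearMap.id (copH K) (copH K x) := ezd.cop_coassoc x

theorem eps_copH (x : H F2 K) :
    TensorProduct.lid F2 _ (TensorProduct.map (eps K) LinearMap.id (copH K x)) = x :=
  ezd.eps_cop x

theorem copH_eps (x : H F2 K) :
    TensorProduct.rid F2 _ (TensorProduct.map LinearMap.id (eps K) (copH K x)) = x :=
  ezd.cop_eps x

theorem copH_vtx (v : K.S 0) : copH K (vtx v) = vtx v ⊗ₜ vtx v := ezd.cop_vtx v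

theorem copH_crH (x : H F2 K) (y : H F2 L) :
    copH (K.prod L) (crH K L (x ⊗ₜ y)) =
      TensorProduct.map (crH K L).toLinearMap (crH K L).toLinearMap
        (TensorProduct.tensorTensorTensorComm F2 _ _ _ _ (copH K x ⊗ₜ copH L y)) :=
  ezd.cop_cr x y

/-- the coproduct is graded -/
theorem copH_mem_tgr {n : ℕ} {x : H F2 K} (hx : x ∈ H.gr F2 K n) :
    copH K x ∈ tgr (H.gr F2 K) (H.gr F2 K) n := by
  rw [← crH_mem_gr_iff, crH_copH]
  exact hMap_mem_gr _ hx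

/-- the coproduct is graded, exactly the last clause of `Spec114.Tower.FactDelta` -/
theorem copH_mem_gr {n : ℕ} {x : H F2 K} (hx : x ∈ H.gr F2 K n) :
    copH K x ∈ ⨆ p ∈ Finset.HasAntidiagonal.antidiagonal n,
      LinearMap.range (TensorProduct.map (H.gr F2 K p.1).subtype (H.gr F2 K p.2).subtype) :=
  copH_mem_tgr hx

/-! ## chain level computation -/

/-- if the Alexander-Whitney coproduct of a cycle `z` is a sum of tensors of cycles up to a
boundary, the coproduct of `[z]` is the corresponding sum -/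
theorem copH_of_cop {ι : Type*} (s : Finset ι) (z : N F2 K) (hz : N.bd F2 K z = 0)
    (a b : ι → N F2 K) (ha : ∀ i, N.bd F2 K (a i) = 0) (hb : ∀ i, N.bd F2 K (b i) = 0)
    (w : N F2 K ⊗[F2] N F2 K)
    (h : EZ271.cop F2 z = ∑ i ∈ s, a i ⊗ₜ[F2] b i + tD (N.bd F2 K) (N.bd F2 K) w) :
    copH K (Hd.mk _ z hz) = ∑ i ∈ s, Hd.mk _ (a i) (ha i) ⊗ₜ[F2] Hd.mk _ (b i) (hb i) := by
  apply (kun (N.bd F2 K) (N.bd F2 K) N.bd_bd N.bd_bd).injective
  have hc : ∀ i, tD (N.bd F2 K) (N.bd F2 K) (a i ⊗ₜ[F2] b i) = 0 := fun i =>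
    tD_mk (ha i) (hb i)
  have key : ∀ s : Finset ι, ∃ hs : tD (N.bd F2 K) (N.bd F2 K) (∑ i ∈ s, a i ⊗ₜ[F2] b i) = 0,
      ∑ i ∈ s, Hd.mk (tD (N.bd F2 K) (N.bd F2 K)) (a i ⊗ₜ[F2] b i) (hc i) =
        Hd.mk _ (∑ i ∈ s, a i ⊗ₜ[F2] b i) hs := by
    classical
    intro s
    induction s using Finset.induction_on with
    | empty =>
      refine ⟨by simp, ?_⟩
      rw [Finset.sum_empty, eq_comm, Hd.mk_eq_zero]
      exact ⟨0, by simp⟩
    | insert i s hi ih =>
      obtain ⟨hs, h2⟩ := ih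
      refine ⟨by rw [Finset.sum_insert hi, map_add, hc, hs, add_zero], ?_⟩
      rw [Finset.sum_insert hi, h2]
      have : ∀ (u v : N F2 K ⊗[F2] N F2 K) (hu : tD (N.bd F2 K) (N.bd F2 K) u = 0)
          (hv : tD (N.bd F2 K) (N.bd F2 K) v = 0)
          (huv : tD (N.bd F2 K) (N.bd F2 K) (u + v) = 0),
          Hd.mk _ u hu + Hd.mk _ v hv = Hd.mk _ (u + v) huv := fun u v hu hv huv => rfl
      rw [this _ _ _ _ (by rw [map_add, hc, hs, add_zero])]
      congr 1
      rw [Finset.sum_insert hi]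
  obtain ⟨hs, h2⟩ := key s
  rw [kun_copH, map_sum]
  simp only [kun_mk]
  rw [h2, Hd.mk_eq_mk]
  refine ⟨w, ?_⟩
  rw [h, add_sub_cancel_left]

theorem nAug_eq (z : N F2 K) : nAug K z = aug F2 z := by
  have : nAug K = aug F2 (K := K) := by
    refine hom_ext fun n x => ?_
    rcases n with _ | n
    · rw [nAug_sx_zero, aug_sx_zero]
    · rw [aug_sx_succ]
      exact nAug_gr (Nat.succ_ne_zero n) (Gr334.sx_mem_gr x)
  rw [this]

end Crest.Agent.R204.EZ847
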