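import Crest.Agent.R204.CopLem_330

/-!
# Row 204, block E (helper330): E3, final form of the coproduct lemma on chains
-/

set_option autoImplicit false

noncomputable section

namespace Crest.Agent.R204.Sus330

open Cone330 CopX330
open EZ271 (cross cross_sx map_cross map_map map_bd' map_idHom aug bd_sx_succ bd_sx_zero hom_ext
  aug_map aug_cross bd_cross sg_sx yo_iota comp_yo cop cop_sx cop_map cop_vertex fst_cross snd_cross
  front back front_val back_val front_self back_self)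
open scoped unitInterval TensorProduct

variable {P Y : Type} [TopologicalSpace P] [TopologicalSpace Y] {g0 : P} {y0 : Y}

theorem aug_of_mem_gr {K : SS} {n : ℕ} (hn : 0 < n) {c : N F2 K} (hc : c ∈ N.gr F2 K n) :
    aug F2 c = 0 := by
  refine gr_ind F2 (p := fun c => aug F2 c = 0) hc (by simp) ?_ ?_ ?_
  · intro a b ha hb; rw [map_add, ha, hb, add_zero]
  · intro r a ha; rw [map_smul, ha, smul_zero]
  · intro x
    obtain ⟨k, rfl⟩ : ∃ k, n = k + 1 := ⟨n - 1, by omega⟩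
    exact EZ271.aug_sx_succ F2 x

theorem add_self_F2 {M : Type*} [AddCommGroup M] [Module F2 M] (x : M) : x + x = 0 := by
  have h := neg_eq_self_F2 x
  calc x + x = -x + x := by rw [h]
    _ = 0 := neg_add_cancel x

namespace LoopStr

variable (Λ : LoopStr P Y g0 y0)

theorem c2_mem_gr {p q : ℕ} {a b : N F2 (SS.Sing P)} (ha : a ∈ N.gr F2 _ p) (hb : b ∈ N.gr F2 _ q) :
    Λ.c2 a b ∈ N.gr F2 _ (2 + (p + q)) :=
  map_mem_gr F2 _ (cross_mem_gr F2 (mem_gr_sx F2 _) (cross_mem_gr F2 ha hb))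

/-- the class `T` of the coproduct lemma -/
def T {M : ℕ} {x : (SS.Sing Y).S M} (hx : IsSph (K := SS.Sing Y) (cY y0 0) x)
    (z w : N F2 (SS.Sing P)) : N F2 (Cone (SS.Sing Y) (cY y0 0) x hx) :=
  N.map F2 (incl hx) (Λ.c2 z z + Λ.sig F2 w) + N.sx F2 (top hx)

variable {M : ℕ} {x : (SS.Sing Y).S (M + 1)} (hx : IsSph (K := SS.Sing Y) (cY y0 0) x)

theorem coef_T (z w : N F2 (SS.Sing P)) : coef hx F2 (Λ.T hx z w) = 1 := by
  rw [T, map_add, coef_incl, coef_top, zero_add]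

/-- `dT = 0` -/
theorem bd_T {z w : N F2 (SS.Sing P)} {a : (SS.Sing P).S M}
    (hz : N.bd F2 _ z = 0) (hz0 : aug F2 z = 0) (hsig : Λ.sig F2 (N.sx F2 a) = N.sx F2 x)
    (hw : N.bd F2 _ w = N.map F2 Λ.muH (cross F2 z z) + N.sx F2 a) :
    N.bd F2 _ (Λ.T hx z w) = 0 := by
  rw [T, map_add, bd_top hx F2 (Nat.succ_pos M), ← map_bd', ← map_add]
  have : N.bd F2 (SS.Sing Y) (Λ.c2 z z + Λ.sig F2 w) + N.sx F2 x = 0 := by
    rw [map_add, bd_c2, bd_sig, neg_eq_self_F2, hz, hw, hz0, zero_smul, zero_add,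
      add_zero, map_add, hsig]
    have e0 : Λ.c2 0 z = 0 := by rw [c2, map_zero, LinearMap.zero_apply, map_zero, map_zero]
    have e1 : Λ.c2 z 0 = 0 := by rw [c2, map_zero, map_zero, map_zero]
    rw [e0, e1, add_zero, add_zero]
    have h1 := add_self_F2 (Λ.sig F2 (N.map F2 Λ.muH (cross F2 z z)))
    have h2 := add_self_F2 (N.sx F2 x)
    calc _ = (Λ.sig F2 (N.map F2 Λ.muH (cross F2 z z)) +
          Λ.sig F2 (N.map F2 Λ.muH (cross F2 z z))) + (N.sx F2 x + N.sx F2 x) := by abel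
      _ = 0 := by rw [h1, h2, add_zero]
  rw [this, map_zero]

theorem T_mem_gr {m : ℕ} {x : (SS.Sing Y).S (2 * m + 1)}
    (hx : IsSph (K := SS.Sing Y) (cY y0 0) x) {z w : N F2 (SS.Sing P)}
    (hz : z ∈ N.gr F2 _ m) (hw : w ∈ N.gr F2 _ (2 * m + 1)) :
    Λ.T hx z w ∈ N.gr F2 _ (2 * m + 2) := by
  refine Submodule.add_mem _ (map_mem_gr F2 _ (Submodule.add_mem _ ?_ ?_)) (mem_gr_sx F2 _)
  · exact mem_gr_congr F2 (by omega) (Λ.c2_mem_gr hz hz)
  · exact Λ.sig_mem_gr F2 hw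

/-- THE COPRODUCT LEMMA (exact chain identity) -/
theorem cop_T (z w : N F2 (SS.Sing P)) : cop F2 (Λ.T hx z w) =
    N.map F2 (incl hx) (bv y0) ⊗ₜ Λ.T hx z w + Λ.T hx z w ⊗ₜ N.map F2 (incl hx) (bv y0) +
      N.map F2 (incl hx) (Λ.sig F2 z) ⊗ₜ N.map F2 (incl hx) (Λ.sig F2 z) := by
  rw [T, map_add, cop_top, cop_map, map_add (cop F2), cop_c2, cop_sig]
  simp only [map_add, TensorProduct.map_tmul, TensorProduct.tmul_add, TensorProduct.add_tmul]
  abel

end LoopStr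

end Crest.Agent.R204.Sus330
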