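import Crest.Agent.R204.EZAW_271

/-!
# Row 204, block E (helper330): the cross product is a strict coalgebra map over `F2`
`cop (cross a b) = Σ (a' × b') ⊗ (a'' × b'')`
-/

set_option autoImplicit false

noncomputable section

namespace Crest.Agent.R204.CopX330

open EZ271
open scoped TensorProduct

theorem sg_F2 {K : SS} (c : N F2 K) : EZ271.sg F2 c = c := by
  have : EZ271.sg F2 (K := K) = LinearMap.id := by
    refine hom_ext fun n x => ?_
    rw [sg_sx, show (-1 : F2) = 1 from rfl, one_pow, one_smul]
    rfl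
  rw [this]; rfl

/-- `(a' ⊗ a'') (b' ⊗ b'') ↦ (a' × b') ⊗ (a'' × b'')` -/
def CC (K L : SS) : (N F2 K ⊗[F2] N F2 K) →ₗ[F2] (N F2 L ⊗[F2] N F2 L) →ₗ[F2]
    (N F2 (K.prod L) ⊗[F2] N F2 (K.prod L)) :=
  TensorProduct.map₂ (cross F2) (cross F2)

@[simp] theorem CC_tmul {K L : SS} (a a' : N F2 K) (b b' : N F2 L) :
    CC K L (a ⊗ₜ a') (b ⊗ₜ b') = cross F2 a b ⊗ₜ cross F2 a' b' := by
  rw [CC, TensorProduct.map₂_apply_tmul, TensorProduct.map_tmul]

theorem CC_map {K L K' L' : SS} (f : SS.Hom K K') (g : SS.Hom L L') (s : N F2 K ⊗[F2] N F2 K)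
    (t : N F2 L ⊗[F2] N F2 L) :
    CC K' L' (TensorProduct.map (N.map F2 f) (N.map F2 f) s)
      (TensorProduct.map (N.map F2 g) (N.map F2 g) t) =
    TensorProduct.map (N.map F2 (SS.prodMap f g)) (N.map F2 (SS.prodMap f g)) (CC K L s t) := by
  induction s using TensorProduct.induction_on with
  | zero => simp
  | add x y hx hy => simp only [map_add, LinearMap.add_apply, hx, hy]
  | tmul a a' =>
    induction t using TensorProduct.induction_on with
    | zero => simp
    | add x y hx hy => simp only [map_add, hx, hy]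
    | tmul b b' =>
      simp only [TensorProduct.map_tmul, CC_tmul, map_cross]

theorem CC_c_bot {K L : SS} (A : Cone K) (B : Cone L) (s : N F2 K ⊗[F2] N F2 K) (z : N F2 L) :
    CC K L (TensorProduct.map (A.c F2) LinearMap.id s) (N.sx F2 B.bot ⊗ₜ z) =
      TensorProduct.map ((A.prod B).c F2) LinearMap.id (CC K L s (N.sx F2 B.bot ⊗ₜ z)) := by
  induction s using TensorProduct.induction_on with
  | zero => simp
  | add x y hx hy => simp only [map_add, LinearMap.add_apply, hx, hy]
  | tmul a a' =>
    simp only [TensorProduct.map_tmul, CC_tmul, LinearMap.id_apply, cross_c_bot]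

theorem CC_bot_c {K L : SS} (A : Cone K) (B : Cone L) (t : N F2 L ⊗[F2] N F2 L) (z : N F2 K) :
    CC K L (N.sx F2 A.bot ⊗ₜ z) (TensorProduct.map (B.c F2) LinearMap.id t) =
      TensorProduct.map ((A.prod B).c F2) LinearMap.id (CC K L (N.sx F2 A.bot ⊗ₜ z) t) := by
  induction t using TensorProduct.induction_on with
  | zero => simp
  | add x y hx hy => simp only [map_add, hx, hy]
  | tmul b b' =>
    simp only [TensorProduct.map_tmul, CC_tmul, LinearMap.id_apply, cross_bot_c]

theorem CC_c_c {K L : SS} (A : Cone K) (B : Cone L) (s : N F2 K ⊗[F2] N F2 K)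
    (t : N F2 L ⊗[F2] N F2 L) :
    CC K L (TensorProduct.map (A.c F2) LinearMap.id s) (TensorProduct.map (B.c F2) LinearMap.id t) =
      TensorProduct.map ((A.prod B).c F2) LinearMap.id
        (CC K L s (TensorProduct.map (B.c F2) LinearMap.id t) +
          CC K L (TensorProduct.map (A.c F2) LinearMap.id s) t) := by
  induction s using TensorProduct.induction_on with
  | zero => simp
  | add x y hx hy =>
    simp only [map_add, LinearMap.add_apply] at hx hy ⊢
    rw [hx, hy]; abel
  | tmul a a' =>
    induction t using TensorProduct.induction_on with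
    | zero => simp
    | add x y hx hy =>
      simp only [map_add] at hx hy ⊢
      rw [hx, hy]; abel
    | tmul b b' =>
      simp only [TensorProduct.map_tmul, CC_tmul, LinearMap.id_apply, cross_c_c, sg_F2, map_add,
        TensorProduct.add_tmul]

/-- the cross product is a strict coalgebra map -/
theorem cop_cross {K L : SS} (a : N F2 K) (b : N F2 L) :
    cop F2 (cross F2 a b) = CC K L (cop F2 a) (cop F2 b) := by
  refine ind2 F2 (M := fun K L => N F2 (K.prod L) ⊗[F2] N F2 (K.prod L))
    (fun K L => (cross F2).compr₂ (cop F2)) (fun K L => ((CC K L).comp (cop F2)).compl₂ (cop F2))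
    ?_ ?_ ?_ ?_ ?_ K L a b
  · intro K L K' L' g h a b e
    simp only [LinearMap.compr₂_apply, LinearMap.compl₂_apply, LinearMap.comp_apply] at e ⊢
    rw [← map_cross, cop_map, e, cop_map, cop_map, CC_map]
  · intro K L A B
    simp only [LinearMap.compr₂_apply, LinearMap.compl₂_apply, LinearMap.comp_apply]
    rw [cross_bot, cop_bot, cop_bot, cop_bot, CC_tmul, cross_bot]
  · intro K L A B a e
    simp only [LinearMap.compr₂_apply, LinearMap.compl₂_apply, LinearMap.comp_apply] at e ⊢
    rw [cross_c_bot, cop_c, e, cop_c, cop_bot, map_add, LinearMap.add_apply, CC_c_bot, CC_tmul,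
      cross_bot, cross_c_bot]
  · intro K L A B b e
    simp only [LinearMap.compr₂_apply, LinearMap.compl₂_apply, LinearMap.comp_apply] at e ⊢
    rw [cross_bot_c, cop_c, e, cop_c, cop_bot, map_add, CC_bot_c, CC_tmul,
      cross_bot, cross_bot_c]
  · intro K L A B a b e1 e2 e3
    simp only [LinearMap.compr₂_apply, LinearMap.compl₂_apply, LinearMap.comp_apply] at e1 e2 e3 ⊢
    have h1 : cross F2 (A.c F2 a) (B.c F2 b) =
        (A.prod B).c F2 (cross F2 a (B.c F2 b) + cross F2 (A.c F2 a) b) := by
      rw [cross_c_c, sg_F2]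
    rw [h1, cop_c, map_add (cop F2), e1, e2, ← h1]
    simp only [cop_c F2 A, cop_c F2 B, map_add, LinearMap.add_apply, CC_tmul, cross_bot]
    rw [CC_c_c, CC_c_bot, CC_bot_c]
    simp only [map_add]
    abel

end Crest.Agent.R204.CopX330
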