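import Crest.Agent.R204.AdjC_330
import Crest.Agent.R204.CopX_330

/-!
# Row 204, block E (helper330): THE COPRODUCT LEMMA on chains (E3)
-/

set_option autoImplicit false

noncomputable section

namespace Crest.Agent.R204.Sus330

open Cone330 CopX330
open EZ271 (cross cross_sx map_cross map_map map_bd' map_idHom aug bd_sx_succ bd_sx_zero hom_ext
  aug_map aug_cross bd_cross sg_sx yo_iota comp_yo cop cop_sx cop_map cop_vertex fst_cross snd_cross
  front back front_val back_val front_self back_self)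
open scoped unitInterval TensorProduct

variable {P Y : Type} [TopologicalSpace P] [TopologicalSpace Y] {g0 : P} {y0 : Y}

/-! ## generalities -/

/-- `Σ φ(c') ⊗ ψ(c'')` with `φ = aug • b` -/
theorem map_cop_aug_left {K : SS} {M : Type} [AddCommGroup M] [Module F2 M] (b : M)
    (ψ : N F2 K →ₗ[F2] M) (c : N F2 K) :
    TensorProduct.map ((aug F2 (K := K)).smulRight b) ψ (cop F2 c) = b ⊗ₜ ψ c := by
  have h : ∀ t : N F2 K ⊗[F2] N F2 K, TensorProduct.map ((aug F2 (K := K)).smulRight b) ψ t =
      b ⊗ₜ ψ (TensorProduct.lid F2 _ (TensorProduct.map (aug F2) LinearMap.id t)) := by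
    intro t
    induction t using TensorProduct.induction_on with
    | zero => simp
    | add x y hx hy => simp only [map_add, hx, hy, TensorProduct.tmul_add]
    | tmul x y =>
      simp only [TensorProduct.map_tmul, LinearMap.smulRight_apply, LinearMap.id_apply,
        TensorProduct.lid_tmul, map_smul, TensorProduct.smul_tmul]
  rw [h, EZ271.aug_cop_left]

theorem map_cop_aug_right {K : SS} {M : Type} [AddCommGroup M] [Module F2 M] (b : M)
    (ψ : N F2 K →ₗ[F2] M) (c : N F2 K) :
    TensorProduct.map ψ ((aug F2 (K := K)).smulRight b) (cop F2 c) = ψ c ⊗ₜ b := by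
  have h : ∀ t : N F2 K ⊗[F2] N F2 K, TensorProduct.map ψ ((aug F2 (K := K)).smulRight b) t =
      ψ (TensorProduct.rid F2 _ (TensorProduct.map LinearMap.id (aug F2) t)) ⊗ₜ b := by
    intro t
    induction t using TensorProduct.induction_on with
    | zero => simp
    | add x y hx hy => simp only [map_add, hx, hy, TensorProduct.add_tmul]
    | tmul x y =>
      simp only [TensorProduct.map_tmul, LinearMap.smulRight_apply, LinearMap.id_apply,
        TensorProduct.rid_tmul, map_smul, TensorProduct.smul_tmul, TensorProduct.tmul_smul]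
  rw [h, EZ271.aug_cop_right]

/-- crossing with a fixed tensor -/
theorem CC_tmul_left {K L : SS} (a a' : N F2 K) (t : N F2 L ⊗[F2] N F2 L) :
    CC K L (a ⊗ₜ a') t = TensorProduct.map (cross F2 a) (cross F2 a') t := by
  induction t using TensorProduct.induction_on with
  | zero => simp
  | add x y hx hy => simp only [map_add, hx, hy]
  | tmul b b' => rw [CC_tmul, TensorProduct.map_tmul]

theorem cop_io : cop F2 (N.sx F2 io) =
    N.sx F2 (ve 0) ⊗ₜ N.sx F2 io + N.sx F2 io ⊗ₜ N.sx F2 (ve 1) := by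
  rw [cop_sx, Finset.sum_range_succ, Finset.sum_range_one]
  congr 1
  · congr 1
    · congr 1
      refine OrderHom.ext _ _ (funext fun a => ?_)
      have : a = 0 := Fin.ext (by omega)
      subst this
      refine Fin.ext ?_
      show (front 0 1 0 : ℕ) = 0
      rw [front_val]; simp
    · rw [show 1 - 0 = 1 from rfl, back_self, (SS.std 1).act_id]
  · congr 1
    · rw [front_self, (SS.std 1).act_id]
    · rw [show 1 - 1 = 0 from rfl]
      congr 1
      refine OrderHom.ext _ _ (funext fun a => ?_)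
      have : a = 0 := Fin.ext (by omega)
      subst this
      refine Fin.ext ?_
      show (back 0 1 0 : ℕ) = 1
      rw [back_val]; simp

/-! ## the simplex `Δ^2` -/

/-- fundamental simplex of `Δ^2` -/
def i2 : (SS.std 2).S 2 := (OrderHom.id : Op 2 2)

/-- vertices of `Δ^2` -/
def v2 (i : Fin 3) : (SS.std 2).S 0 := (⟨fun _ => i, fun _ _ _ => le_rfl⟩ : Op 0 2)

theorem sx_face (i : Fin 3) : N.sx F2 (K := SS.std 2) (n := 1) (Op.face i : Op 1 2) =
    N.map F2 (stdMap (Op.face i)) (N.sx F2 io) := by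
  rw [N.map_sx]
  rfl

theorem bd_i2 : N.bd F2 (SS.std 2) (N.sx F2 i2) =
    N.map F2 (stdMap (Op.face 0)) (N.sx F2 io) + N.map F2 (stdMap (Op.face 1)) (N.sx F2 io) +
      N.map F2 (stdMap (Op.face 2)) (N.sx F2 io) := by
  rw [bd_sx_succ, Fin.sum_univ_three, ← sx_face, ← sx_face, ← sx_face,
    show (-1 : F2) = 1 from rfl, one_pow, one_pow, one_pow, one_smul, one_smul, one_smul]
  rfl

theorem cop_i2 : cop F2 (N.sx F2 i2) =
    N.sx F2 (v2 0) ⊗ₜ N.sx F2 i2 +
      N.map F2 (stdMap (Op.face 2)) (N.sx F2 io) ⊗ₜ N.map F2 (stdMap (Op.face 0)) (N.sx F2 io) +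
      N.sx F2 i2 ⊗ₜ N.sx F2 (v2 2) := by
  rw [cop_sx, Finset.sum_range_succ, Finset.sum_range_succ, Finset.sum_range_one, ← sx_face,
    ← sx_face]
  congr 1
  · congr 1
    · congr 1
      · congr 1
        refine OrderHom.ext _ _ (funext fun a => ?_)
        have : a = 0 := Fin.ext (by omega)
        subst this
        refine Fin.ext ?_
        show (front 0 2 0 : ℕ) = 0
        rw [front_val]; simp
      · rw [show 2 - 0 = 2 from rfl, back_self, (SS.std 2).act_id]
    · congr 1
      · congr 1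
        refine OrderHom.ext _ _ (funext fun a => Fin.ext ?_)
        show (front 1 2 a : ℕ) = (Op.face 2 a : Fin 3)
        rw [front_val, Ch.face_val]
        have := a.isLt
        simp
        omega
      · congr 1
        refine OrderHom.ext _ _ (funext fun a => Fin.ext ?_)
        show (back 1 2 a : ℕ) = (Op.face 0 a : Fin 3)
        rw [back_val, Ch.face_val]
        have := a.isLt
        simp
        omega
  · congr 1
    · rw [front_self, (SS.std 2).act_id]
    · rw [show 2 - 2 = 0 from rfl]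
      congr 1
      refine OrderHom.ext _ _ (funext fun a => ?_)
      have : a = 0 := Fin.ext (by omega)
      subst this
      refine Fin.ext ?_
      show (back 0 2 0 : ℕ) = 2
      rw [back_val]; simp

namespace LoopStr

variable (Λ : LoopStr P Y g0 y0)

/-- the base vertex class of `Sing Y` -/
abbrev bv (y0 : Y) : N F2 (SS.Sing Y) := N.sx F2 (cY y0 0)

theorem map_evH_vertex' (i : Fin 2) : N.map F2 Λ.evH ∘ₗ cross F2 (N.sx F2 (ve i)) =
    (aug F2 (K := SS.Sing P)).smulRight (bv y0) := by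
  refine LinearMap.ext fun c => ?_
  exact Λ.map_evH_vertex F2 i c

/-- suspensions are primitive on chains -/
theorem cop_sig (w : N F2 (SS.Sing P)) :
    cop F2 (Λ.sig F2 w) = bv y0 ⊗ₜ Λ.sig F2 w + Λ.sig F2 w ⊗ₜ bv y0 := by
  have h : ∀ (f g : N F2 (SS.Sing P) →ₗ[F2] N F2 ((SS.std 1).prod (SS.Sing P)))
      (t : N F2 (SS.Sing P) ⊗[F2] N F2 (SS.Sing P)),
      TensorProduct.map (N.map F2 Λ.evH) (N.map F2 Λ.evH) (TensorProduct.map f g t) =
        TensorProduct.map (N.map F2 Λ.evH ∘ₗ f) (N.map F2 Λ.evH ∘ₗ g) t := by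
    intro f g t
    rw [TensorProduct.map_comp]; rfl
  rw [sig_apply, cop_map, cop_cross, cop_io, map_add, LinearMap.add_apply, map_add, CC_tmul_left,
    CC_tmul_left, h, h, map_evH_vertex', map_evH_vertex', map_cop_aug_left, map_cop_aug_right]
  rfl

/-- the chain `s_*([Δ^2] × (a × b))` -/
def c2 (a b : N F2 (SS.Sing P)) : N F2 (SS.Sing Y) :=
  N.map F2 Λ.sH (cross F2 (N.sx F2 i2) (cross F2 a b))

/-- a constant-vertex restriction of `sH` -/
theorem map_sH_vertex (i : Fin 3) (hi : i = 0 ∨ i = 2) (c : N F2 ((SS.Sing P).prod (SS.Sing P))) :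
    N.map F2 Λ.sH (cross F2 (N.sx F2 (v2 i)) c) = aug F2 c • bv y0 := by
  rw [cross_vertex, map_map]
  refine map_constHom F2 _ _ (fun n x => ?_) c
  rw [base_sing]
  rcases hi with rfl | rfl
  · exact Λ.sH_zero _ (fun _ => rfl) x.1 x.2
  · exact Λ.sH_two _ (fun _ => rfl) x.1 x.2

theorem map_sH_face_two (c : N F2 ((SS.Sing P).prod (SS.Sing P))) :
    N.map F2 Λ.sH (cross F2 (N.map F2 (stdMap (Op.face 2)) (N.sx F2 io)) c) =
      Λ.sig F2 (N.map F2 (SS.fst _ _) c) := by
  have e1 : cross F2 (N.map F2 (stdMap (Op.face 2)) (N.sx F2 io)) c =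
      N.map F2 (SS.prodMap (stdMap (Op.face 2)) (SS.Hom.id _)) (cross F2 (N.sx F2 io) c) := by
    rw [map_cross, map_idHom]
  rw [e1, map_map, sig_apply]
  have e2 : cross F2 (N.sx F2 io) (N.map F2 (SS.fst (SS.Sing P) (SS.Sing P)) c) =
      N.map F2 (SS.prodMap (SS.Hom.id _) (SS.fst _ _)) (cross F2 (N.sx F2 io) c) := by
    rw [map_cross, map_idHom]
  rw [e2, map_map]
  congr 1
  congr 1
  refine SS.Hom.ext (funext fun n => funext fun x => ?_)
  exact Λ.sH_face_two x.1 x.2.1 x.2.2

theorem map_sH_face_zero (c : N F2 ((SS.Sing P).prod (SS.Sing P))) :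
    N.map F2 Λ.sH (cross F2 (N.map F2 (stdMap (Op.face 0)) (N.sx F2 io)) c) =
      Λ.sig F2 (N.map F2 (SS.snd _ _) c) := by
  have e1 : cross F2 (N.map F2 (stdMap (Op.face 0)) (N.sx F2 io)) c =
      N.map F2 (SS.prodMap (stdMap (Op.face 0)) (SS.Hom.id _)) (cross F2 (N.sx F2 io) c) := by
    rw [map_cross, map_idHom]
  rw [e1, map_map, sig_apply]
  have e2 : cross F2 (N.sx F2 io) (N.map F2 (SS.snd (SS.Sing P) (SS.Sing P)) c) =
      N.map F2 (SS.prodMap (SS.Hom.id _) (SS.snd _ _)) (cross F2 (N.sx F2 io) c) := by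
    rw [map_cross, map_idHom]
  rw [e2, map_map]
  congr 1
  congr 1
  refine SS.Hom.ext (funext fun n => funext fun x => ?_)
  exact Λ.sH_face_zero x.1 x.2.1 x.2.2

theorem map_sH_face_one (c : N F2 ((SS.Sing P).prod (SS.Sing P))) :
    N.map F2 Λ.sH (cross F2 (N.map F2 (stdMap (Op.face 1)) (N.sx F2 io)) c) =
      Λ.sig F2 (N.map F2 Λ.muH c) := by
  have e1 : cross F2 (N.map F2 (stdMap (Op.face 1)) (N.sx F2 io)) c =
      N.map F2 (SS.prodMap (stdMap (Op.face 1)) (SS.Hom.id _)) (cross F2 (N.sx F2 io) c) := by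
    rw [map_cross, map_idHom]
  rw [e1, map_map, sig_apply]
  have e2 : cross F2 (N.sx F2 io) (N.map F2 Λ.muH c) =
      N.map F2 (SS.prodMap (SS.Hom.id _) Λ.muH) (cross F2 (N.sx F2 io) c) := by
    rw [map_cross, map_idHom]
  rw [e2, map_map]
  congr 1
  congr 1
  refine SS.Hom.ext (funext fun n => funext fun x => ?_)
  exact Λ.sH_face_one x.1 x.2.1 x.2.2

/-- boundary of `c2` -/
theorem bd_c2 (a b : N F2 (SS.Sing P)) : N.bd F2 _ (Λ.c2 a b) =
    aug F2 a • Λ.sig F2 b + Λ.sig F2 (N.map F2 Λ.muH (cross F2 a b)) + aug F2 b • Λ.sig F2 a +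
      (Λ.c2 (N.bd F2 _ a) b + Λ.c2 a (N.bd F2 _ b)) := by
  rw [c2, ← map_bd', bd_cross, map_add, bd_i2, sg_F2, map_add, map_add, LinearMap.add_apply,
    LinearMap.add_apply, map_add, map_add, map_sH_face_zero, map_sH_face_one, map_sH_face_two,
    snd_cross, fst_cross, map_smul, map_smul, bd_cross, sg_F2, map_add, map_add]
  rfl

/-- the coproduct of `c2`: the heart of the coproduct lemma -/
theorem cop_c2 (a b : N F2 (SS.Sing P)) : cop F2 (Λ.c2 a b) =
    bv y0 ⊗ₜ Λ.c2 a b + Λ.sig F2 a ⊗ₜ Λ.sig F2 b + Λ.c2 a b ⊗ₜ bv y0 := by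
  have h : ∀ (f g : N F2 ((SS.Sing P).prod (SS.Sing P)) →ₗ[F2]
        N F2 ((SS.std 2).prod ((SS.Sing P).prod (SS.Sing P))))
      (t : N F2 ((SS.Sing P).prod (SS.Sing P)) ⊗[F2] N F2 ((SS.Sing P).prod (SS.Sing P))),
      TensorProduct.map (N.map F2 Λ.sH) (N.map F2 Λ.sH) (TensorProduct.map f g t) =
        TensorProduct.map (N.map F2 Λ.sH ∘ₗ f) (N.map F2 Λ.sH ∘ₗ g) t := by
    intro f g t
    rw [TensorProduct.map_comp]; rfl
  have hv : ∀ i : Fin 3, i = 0 ∨ i = 2 → N.map F2 Λ.sH ∘ₗ cross F2 (N.sx F2 (v2 i)) =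
      (aug F2 (K := (SS.Sing P).prod (SS.Sing P))).smulRight (bv y0) := fun i hi =>
    LinearMap.ext fun c => Λ.map_sH_vertex i hi c
  have hmid : TensorProduct.map
      (N.map F2 Λ.sH ∘ₗ cross F2 (N.map F2 (stdMap (Op.face 2)) (N.sx F2 io)))
      (N.map F2 Λ.sH ∘ₗ cross F2 (N.map F2 (stdMap (Op.face 0)) (N.sx F2 io)))
      (cop F2 (cross F2 a b)) = Λ.sig F2 a ⊗ₜ Λ.sig F2 b := by
    have e2 : N.map F2 Λ.sH ∘ₗ cross F2 (N.map F2 (stdMap (Op.face 2)) (N.sx F2 io)) =
        Λ.sig F2 ∘ₗ N.map F2 (SS.fst _ _) := LinearMap.ext fun c => Λ.map_sH_face_two c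
    have e0 : N.map F2 Λ.sH ∘ₗ cross F2 (N.map F2 (stdMap (Op.face 0)) (N.sx F2 io)) =
        Λ.sig F2 ∘ₗ N.map F2 (SS.snd _ _) := LinearMap.ext fun c => Λ.map_sH_face_zero c
    rw [e2, e0, TensorProduct.map_comp, LinearMap.comp_apply, cop_cross]
    have e3 : ∀ (s t : N F2 (SS.Sing P) ⊗[F2] N F2 (SS.Sing P)),
        TensorProduct.map (N.map F2 (SS.fst (SS.Sing P) (SS.Sing P)))
          (N.map F2 (SS.snd (SS.Sing P) (SS.Sing P))) (CC _ _ s t) =
        (TensorProduct.rid F2 _ (TensorProduct.map LinearMap.id (aug F2) s)) ⊗ₜ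
          (TensorProduct.lid F2 _ (TensorProduct.map (aug F2) LinearMap.id t)) := by
      intro s t
      induction s using TensorProduct.induction_on with
      | zero => simp
      | add x y hx hy =>
        simp only [map_add, LinearMap.add_apply, hx, hy, TensorProduct.add_tmul]
      | tmul x x' =>
        induction t using TensorProduct.induction_on with
        | zero => simp
        | add y z hy hz => simp only [map_add, hy, hz, TensorProduct.tmul_add]
        | tmul y y' =>
          rw [CC_tmul, TensorProduct.map_tmul, fst_cross, snd_cross]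
          simp only [TensorProduct.map_tmul, LinearMap.id_apply, TensorProduct.rid_tmul,
            TensorProduct.lid_tmul]
          rw [TensorProduct.smul_tmul_smul, TensorProduct.smul_tmul_smul, mul_comm]
    rw [e3, EZ271.aug_cop_right, EZ271.aug_cop_left, TensorProduct.map_tmul]
  rw [c2, cop_map, cop_cross (N.sx F2 i2) (cross F2 a b), cop_i2, map_add, map_add, LinearMap.add_apply,
    LinearMap.add_apply, map_add, map_add, CC_tmul_left, CC_tmul_left, CC_tmul_left, h, h, h,
    hv 0 (Or.inl rfl), hv 2 (Or.inr rfl), map_cop_aug_left, map_cop_aug_right, hmid]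
  rfl

end LoopStr

/-! ## the new cell -/

section Cell

variable {K : SS} {b : K.S 0} {M : ℕ} {x : K.S (M + 1)} (hx : IsSph b x)

/-- the base vertex of the cone -/
theorem cop_top : cop F2 (N.sx F2 (top hx)) =
    N.map F2 (incl hx) (N.sx F2 b) ⊗ₜ N.sx F2 (top hx) +
      N.sx F2 (top hx) ⊗ₜ N.map F2 (incl hx) (N.sx F2 b) := by
  rw [cop_sx, Finset.sum_range_succ, Finset.sum_range_succ', Finset.sum_eq_zero, zero_add]
  · congr 1
    · congr 1
      · rw [act_top_zero hx _ _ _, base_zero, N.map_sx]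
        · rfl
        · intro hs
          have := le_of_surjective _ hs
          omega
        · refine Fin.ext ?_
          rw [front_val]; simp
      · rw [Nat.sub_zero, back_self, SS.act_id]
    · congr 1
      · rw [front_self, SS.act_id]
      · rw [Nat.sub_self, act_top_ne hx _ _, N.map_sx]
        · congr 2
          rw [hx _, base_zero]
          intro hs
          have := le_of_surjective _ hs
          omega
        · intro h0
          have := congrArg Fin.val h0
          rw [back_val] at this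
          simp at this
  · intro a ha
    rw [Finset.mem_range] at ha
    rw [act_top_zero hx _ _ _, sx_base _ _ F2 (Nat.succ_pos a), TensorProduct.zero_tmul]
    · intro hs
      have := le_of_surjective _ hs
      omega
    · refine Fin.ext ?_
      rw [front_val]; simp

end Cell

end Crest.Agent.R204.Sus330
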