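import Crest.Agent.R204.StMod2_85

/-!
# Row 204 (helper85): Steenrod modules, part 3

Commutative `F₂`-algebras generated by classes `x` with `SQ x = x + T x²` (e.g. polynomial rings)
satisfy the Bullett–Macdonald identity; `P_j x = x^{2^j}`.
-/

set_option autoImplicit false
set_option linter.unusedSectionVars false

noncomputable section

namespace Crest.Agent.R204.StMod85

open Finset Polynomial

section algebra

variable {A : Type*} [CommRing A] [Algebra (ZMod 2) A] (SQ : A →ₐ[ZMod 2] A[X])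

/-- `f ↦ ∑ uⁿ Sqⁿ f Tⁿ` -/
def Ph (u : A[X]) : A →+* A[X][X] :=
  (Polynomial.eval₂RingHom ((Polynomial.C : A[X] →+* A[X][X]).comp Polynomial.C)
    (Polynomial.C u * Polynomial.X)).comp (SQ : A →+* A[X])

lemma coeff_eval₂_aux (u p : A[X]) (n : ℕ) :
    (Polynomial.eval₂ ((Polynomial.C : A[X] →+* A[X][X]).comp Polynomial.C)
      (Polynomial.C u * Polynomial.X) p).coeff n = u ^ n * Polynomial.C (p.coeff n) := by
  induction p using Polynomial.induction_on' with
  | add p q hp hq =>
    rw [Polynomial.eval₂_add, Polynomial.coeff_add, hp, hq, Polynomial.coeff_add, map_add, mul_add]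
  | monomial k a =>
    rw [Polynomial.eval₂_monomial, mul_pow, ← map_pow, ← mul_assoc, RingHom.comp_apply, ← map_mul,
      Polynomial.coeff_C_mul_X_pow, Polynomial.coeff_monomial]
    by_cases h : n = k
    · rw [if_pos h, if_pos h.symm, h, mul_comm]
    · rw [if_neg h, if_neg (Ne.symm h), map_zero, mul_zero]

lemma coeff_Ph (u : A[X]) (f : A) (n : ℕ) :
    (Ph SQ u f).coeff n = u ^ n * Polynomial.C (sqOf SQ n f) :=
  coeff_eval₂_aux u (SQ f) n

/-- extension of `Ph` to `A[s][T]` -/
def Pt (u : A[X]) : A[X][X] →+* A[X][X] :=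
  Polynomial.eval₂RingHom (Polynomial.eval₂RingHom (Ph SQ u) (Polynomial.C Polynomial.X))
    Polynomial.X

lemma Pt_X (u : A[X]) : Pt SQ u Polynomial.X = Polynomial.X := by
  rw [Pt, Polynomial.coe_eval₂RingHom, Polynomial.eval₂_X]

lemma Pt_C (u w : A[X]) : Pt SQ u (Polynomial.C w) =
    Polynomial.eval₂ (Ph SQ u) (Polynomial.C Polynomial.X) w := by
  rw [Pt, Polynomial.coe_eval₂RingHom, Polynomial.eval₂_C, Polynomial.coe_eval₂RingHom]

lemma Pt_C_C (u : A[X]) (a : A) : Pt SQ u (Polynomial.C (Polynomial.C a)) = Ph SQ u a := by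
  rw [Pt_C, Polynomial.eval₂_C]

lemma Pt_C_X (u : A[X]) : Pt SQ u (Polynomial.C Polynomial.X) = Polynomial.C Polynomial.X := by
  rw [Pt_C, Polynomial.eval₂_X]

/-- scalars -/
def io : (ZMod 2)[X] →+* A[X] := Polynomial.mapRingHom (algebraMap (ZMod 2) A)

lemma Pt_io (u : A[X]) (w : (ZMod 2)[X]) :
    Pt SQ u (Polynomial.C (io w)) = Polynomial.C (io w) := by
  have h : ((Pt SQ u).comp (Polynomial.C : A[X] →+* A[X][X])).comp (io (A := A)) =
      (Polynomial.C : A[X] →+* A[X][X]).comp (io (A := A)) := by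
    refine Polynomial.ringHom_ext' (RingHom.ext_zmod _ _) ?_
    simp only [RingHom.comp_apply, io, Polynomial.coe_mapRingHom, Polynomial.map_X]
    exact Pt_C_X SQ u
  exact RingHom.congr_fun h w

lemma coeff_Pt (u : A[X]) (q : A[X][X]) (n : ℕ) :
    (Pt SQ u q).coeff n = ∑ p ∈ antidiagonal n, (Pt SQ u (Polynomial.C (q.coeff p.2))).coeff p.1 := by
  induction q using Polynomial.induction_on' with
  | add p q hp hq =>
    rw [map_add, Polynomial.coeff_add, hp, hq, ← Finset.sum_add_distrib]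
    refine Finset.sum_congr rfl fun x _ => ?_
    rw [Polynomial.coeff_add, map_add, map_add, Polynomial.coeff_add]
  | monomial k a =>
    rw [← Polynomial.C_mul_X_pow_eq_monomial, map_mul, map_pow, Pt_X,
      Polynomial.coeff_mul_X_pow']
    split_ifs with h
    · rw [Finset.sum_eq_single (n - k, k)]
      · rw [Polynomial.coeff_C_mul_X_pow, if_pos rfl]
      · intro p hp hne
        have hp' := Finset.HasAntidiagonal.mem_antidiagonal.1 hp
        rw [Polynomial.coeff_C_mul_X_pow, if_neg, map_zero, map_zero, Polynomial.coeff_zero]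
        intro h2
        apply hne
        ext
        · show p.1 = n - k
          omega
        · exact h2
      · intro h2
        exact absurd (Finset.HasAntidiagonal.mem_antidiagonal.2 (by show n - k + k = n; omega)) h2
    · symm
      refine Finset.sum_eq_zero fun p hp => ?_
      have hp' := Finset.HasAntidiagonal.mem_antidiagonal.1 hp
      rw [Polynomial.coeff_C_mul_X_pow, if_neg (by omega), map_zero, map_zero,
        Polynomial.coeff_zero]

lemma coeff_Pt_Ph (u v : (ZMod 2)[X]) (f : A) (n : ℕ) :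
    (Pt SQ (io u) (Ph SQ (io v) f)).coeff n = ∑ p ∈ antidiagonal n,
      io (u ^ p.1 * v ^ p.2) * Polynomial.C (sqOf SQ p.1 (sqOf SQ p.2 f)) := by
  rw [coeff_Pt]
  refine Finset.sum_congr rfl fun p _ => ?_
  rw [coeff_Ph, map_mul, map_mul, ← map_pow io v, Pt_io, Pt_C_C, Polynomial.coeff_C_mul, coeff_Ph,
    map_mul, map_pow io u]
  ring

lemma coeff_io_mul_C (w : (ZMod 2)[X]) (r : A) (i : ℕ) :
    (io w * Polynomial.C r).coeff i = w.coeff i • r := by
  rw [Polynomial.coeff_mul_C, io, Polynomial.coe_mapRingHom, Polynomial.coeff_map, Algebra.smul_def]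

/-- the Bullett–Macdonald identity for a total square on a commutative algebra -/
theorem isBM_of_ringHom (h0 : ∀ a, (SQ a).coeff 0 = a)
    (h : ∀ f, Pt SQ (io (X * (X + 1))) (Ph SQ (io 1) f) = Pt SQ (io (X + 1)) (Ph SQ (io (X ^ 2)) f)) :
    IsBM (sqOf SQ) := by
  refine ⟨LinearMap.ext fun a => h0 a, fun n i hi => LinearMap.ext fun x => ?_⟩
  rw [phi_apply, phi_apply]
  have h1 := congrArg (fun q => (Polynomial.coeff q n).coeff i) (h x)
  simp only [coeff_Pt_Ph, Polynomial.finsetSum_coeff, coeff_io_mul_C, one_pow, mul_one,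
    coeff_bm1] at h1
  rw [h1]
  refine Finset.sum_congr rfl fun p hp => ?_
  have hp' := Finset.HasAntidiagonal.mem_antidiagonal.1 hp
  rw [coeff_bm2 _ _ _ (by rw [hp']; exact hi), hp']

/-- a class of degree one -/
def Deg1 (x : A) : Prop := SQ x = Polynomial.C x + Polynomial.C (x ^ 2) * Polynomial.X

lemma Ph_deg1 (u : A[X]) {x : A} (hx : Deg1 SQ x) : Ph SQ u x =
    Polynomial.C (Polynomial.C x) +
      Polynomial.C (Polynomial.C (x ^ 2)) * (Polynomial.C u * Polynomial.X) := by
  rw [Ph, RingHom.comp_apply]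
  show Polynomial.eval₂ _ _ (SQ x) = _
  rw [show SQ x = _ from hx, Polynomial.eval₂_add, Polynomial.eval₂_mul, Polynomial.eval₂_C,
    Polynomial.eval₂_C, Polynomial.eval₂_X]
  rfl

lemma two_eq_zero' {B : Type*} [CommRing B] [Algebra (ZMod 2) B] : (2 : B) = 0 := by
  have h : (2 : B) = 1 + 1 := by norm_num
  rw [h]
  exact add_self' (M := B) 1

lemma Pt_Ph_deg1 (u v : (ZMod 2)[X]) {x : A} (hx : Deg1 SQ x) :
    Pt SQ (io u) (Ph SQ (io v) x) = Polynomial.C (Polynomial.C x) +
      Polynomial.C (Polynomial.C (x ^ 2)) * Polynomial.C (io (u + v)) * Polynomial.X +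
      Polynomial.C (Polynomial.C (x ^ 4)) * Polynomial.C (io (u ^ 2 * v)) * Polynomial.X ^ 3 := by
  rw [Ph_deg1 SQ _ hx, map_add, map_mul, map_mul, Pt_C_C, Pt_C_C, Pt_io, Pt_X, map_pow,
    Ph_deg1 SQ _ hx]
  have h2 : (2 : A[X][X]) = 0 := by
    have h3 : (2 : A[X][X]) = Polynomial.C (Polynomial.C (2 : A)) := by
      rw [map_ofNat, map_ofNat]
    rw [h3, two_eq_zero' (B := A), map_zero, map_zero]
  simp only [map_add, map_mul, map_pow]
  linear_combination (Polynomial.C (Polynomial.C x)) ^ 3 * Polynomial.C (io u) *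
    Polynomial.C (io v) * Polynomial.X ^ 2 * h2

/-- algebras generated by classes of degree one -/
theorem isBM_of_adjoin (h0 : ∀ a, (SQ a).coeff 0 = a) {S : Set A}
    (hS : Algebra.adjoin (ZMod 2) S = ⊤) (hd : ∀ x ∈ S, Deg1 SQ x) : IsBM (sqOf SQ) := by
  refine isBM_of_ringHom SQ h0 fun f => ?_
  have hf : f ∈ Algebra.adjoin (ZMod 2) S := by rw [hS]; exact Algebra.mem_top
  induction hf using Algebra.adjoin_induction with
  | mem x hx =>
    rw [Pt_Ph_deg1 SQ _ _ (hd x hx), Pt_Ph_deg1 SQ _ _ (hd x hx)]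
    have e1 : (X * (X + 1) + 1 : (ZMod 2)[X]) = X + 1 + X ^ 2 := by ring
    have e2 : ((X * (X + 1)) ^ 2 * 1 : (ZMod 2)[X]) = (X + 1) ^ 2 * X ^ 2 := by ring
    rw [e1, e2]
  | algebraMap r =>
    have : ∀ g g' : A →+* A[X][X], g (algebraMap (ZMod 2) A r) = g' (algebraMap (ZMod 2) A r) := by
      intro g g'
      exact RingHom.congr_fun (RingHom.ext_zmod (g.comp (algebraMap (ZMod 2) A))
        (g'.comp (algebraMap (ZMod 2) A))) r
    exact this ((Pt SQ (io (X * (X + 1)))).comp (Ph SQ (io 1)))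
      ((Pt SQ (io (X + 1))).comp (Ph SQ (io (X ^ 2))))
  | add x y _ _ hx hy =>
    rw [map_add (Ph SQ _), map_add (Pt SQ _), map_add (Ph SQ _), map_add (Pt SQ _), hx, hy]
  | mul x y _ _ hx hy =>
    rw [map_mul (Ph SQ _), map_mul (Pt SQ _), map_mul (Ph SQ _), map_mul (Pt SQ _), hx, hy]

/-- `P_j x = x^{2^j}` for classes of degree one -/
theorem P_deg1 {x : A} (hx : Deg1 SQ x) (j : ℕ) (hj : 1 ≤ j) :
    P (sqOf SQ) j x = x ^ 2 ^ j := by
  have h1 : ∀ n, sqOf SQ n x = if n = 0 then x else if n = 1 then x ^ 2 else 0 := by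
    intro n
    rw [sqOf_apply, show SQ x = _ from hx, Polynomial.coeff_add, Polynomial.coeff_C,
      Polynomial.coeff_C_mul, Polynomial.coeff_X]
    rcases n with _ | _ | n
    · simp
    · simp
    · simp
  induction j, hj using Nat.le_induction with
  | base =>
    rw [P_one, h1]; simp
  | succ j hj ih =>
    have hne : 2 ^ j ≠ 0 := by positivity
    have hne1 : 2 ^ j ≠ 1 := by
      have : 2 ^ 1 ≤ 2 ^ j := Nat.pow_le_pow_right (by norm_num) hj
      omega
    rw [P_succ j hj, LinearMap.add_apply, Module.End.mul_apply, Module.End.mul_apply, ih, h1,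
      if_neg hne, if_neg hne1, map_zero, add_zero, sqOf_apply, map_pow, show SQ x = _ from hx]
    have h2 : (Polynomial.C x + Polynomial.C (x ^ 2) * Polynomial.X) ^ 2 ^ j =
        Polynomial.C (x ^ 2 ^ j) + Polynomial.C (x ^ 2 ^ (j + 1)) * Polynomial.X ^ 2 ^ j := by
      have key : ∀ (m : ℕ), (Polynomial.C x + Polynomial.C (x ^ 2) * Polynomial.X : A[X]) ^ 2 ^ m =
          Polynomial.C (x ^ 2 ^ m) + Polynomial.C (x ^ 2 ^ (m + 1)) * Polynomial.X ^ 2 ^ m := by
        intro m
        induction m with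
        | zero => simp
        | succ m ihm =>
          have h3 : (2 : A[X]) = 0 := by
            have h4 : (2 : A[X]) = Polynomial.C (2 : A) := by rw [map_ofNat]
            rw [h4, two_eq_zero' (B := A), map_zero]
          rw [pow_succ 2 m, pow_mul, ihm]
          have e1 : Polynomial.C (x ^ (2 ^ m * 2)) = (Polynomial.C (x ^ 2 ^ m)) ^ 2 := by
            rw [← map_pow, ← pow_mul]
          have e2 : Polynomial.C (x ^ 2 ^ (m + 1 + 1)) = (Polynomial.C (x ^ 2 ^ (m + 1))) ^ 2 := by
            rw [← map_pow, ← pow_mul, ← pow_succ]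
          have e3 : (Polynomial.X : A[X]) ^ (2 ^ m * 2) = (Polynomial.X ^ 2 ^ m) ^ 2 := by
            rw [← pow_mul]
          rw [e1, e2, e3]
          linear_combination (Polynomial.C (x ^ 2 ^ m) * Polynomial.C (x ^ 2 ^ (m + 1)) *
            Polynomial.X ^ 2 ^ m) * h3
      exact key j
    rw [h2, Polynomial.coeff_add, Polynomial.coeff_C, if_neg hne, zero_add,
      Polynomial.coeff_C_mul_X_pow, if_pos rfl]

end algebra

/-! ### polynomial rings -/

section mv

variable {σ : Type*}

/-- total square on `F₂[x_i]` -/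
def SQmv : MvPolynomial σ (ZMod 2) →ₐ[ZMod 2] (MvPolynomial σ (ZMod 2))[X] :=
  MvPolynomial.aeval fun i => Polynomial.C (MvPolynomial.X i) +
    Polynomial.C (MvPolynomial.X i ^ 2) * Polynomial.X

lemma SQmv_X (i : σ) : Deg1 SQmv (MvPolynomial.X i : MvPolynomial σ (ZMod 2)) := by
  rw [Deg1, SQmv, MvPolynomial.aeval_X]

lemma SQmv_coeff_zero (f : MvPolynomial σ (ZMod 2)) : (SQmv f).coeff 0 = f := by
  have h : ((Polynomial.evalRingHom (0 : MvPolynomial σ (ZMod 2))).comp
      (SQmv (σ := σ) : MvPolynomial σ (ZMod 2) →+* _)) = RingHom.id _ := by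
    refine MvPolynomial.ringHom_ext' (RingHom.ext_zmod _ _) fun i => ?_
    show Polynomial.eval 0 (SQmv (MvPolynomial.X i)) = MvPolynomial.X i
    rw [show SQmv (MvPolynomial.X i) = _ from SQmv_X i]
    simp
  have h2 := RingHom.congr_fun h f
  rw [RingHom.comp_apply, RingHom.id_apply] at h2
  rw [Polynomial.coeff_zero_eq_eval_zero]
  exact h2

/-- polynomial rings are Steenrod modules -/
theorem isBM_mv : IsBM (sqOf (SQmv (σ := σ))) :=
  isBM_of_adjoin SQmv SQmv_coeff_zero (S := Set.range MvPolynomial.X)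
    (MvPolynomial.adjoin_range_X) (by rintro _ ⟨i, rfl⟩; exact SQmv_X i)

end mv

end Crest.Agent.R204.StMod85
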