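import Crest.Agent.R204.DicksonE_91
import Crest.Agent.R204.FA_550
import Crest.Agent.R204.StMod3_85
import Crest.Agent.R204.Spine_693

/-!
# Row 204: realisation of the abstract Dickson algebra and the instance `Spine693.Dick` (helper91)
-/

set_option autoImplicit false
set_option linter.unusedSectionVars false

namespace Crest.Agent.R204.DickInst91

open MvPolynomial Crest.Agent.R204 Crest.Agent.R204.Dickson91 Crest.Agent.R204.StMod85

/-- realisation of the abstract Dickson algebra in `F₂[x_0..x_{r-1}]` -/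
noncomputable def real (r : ℕ) : FA550.D r →ₐ[ZMod 2] S r :=
  aeval (fun j : Fin r => Dickson91.Q r j)

theorem real_injective (r : ℕ) : Function.Injective (real r) := aeval_Q_inj

theorem real_range (r : ℕ) : (real r).range = Dickson91.D r := (D_eq_range r).symm

theorem real_Q {r j : ℕ} (h : j ≤ r) : real r (FA550.Q r j) = Dickson91.Q r j := by
  rcases h.lt_or_eq with h | h
  · rw [FA550.Q_lt h, real, aeval_X]
  · subst h
    rw [FA550.Q_self, map_one, Q_top]

theorem real_monomial {r : ℕ} (a : Fin r →₀ ℕ) : real r (monomial a 1) = Qmon (a : Fin r → ℕ) :=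
  (Qmon_eq_aeval a).symm

theorem sqT_eq_SQmv {σ : Type*} : (sqT : MvPolynomial σ (ZMod 2) →ₐ[ZMod 2] _) = SQmv := by
  apply MvPolynomial.algHom_ext
  intro i
  rw [sqT_X, SQmv, aeval_X, Polynomial.C_pow, mul_comm]

/-- the two forms of the total square of a Dickson invariant agree -/
theorem gen_identity {B : Type*} [CommRing B] [CharP B 2] (T : B) (q : ℕ → B) {r j : ℕ}
    (hj : j ≤ r) : T ^ (2 ^ r - 2 ^ j) * q j ^ 2 +
        (∑ b ∈ Finset.range (j + 1), T ^ (2 ^ j - 2 ^ b) * q b) *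
        (∑ a ∈ Finset.Ioc j r, T ^ (2 ^ r - 2 ^ a) * q a) =
      (∑ a ∈ Finset.range (r + 1), q a * T ^ (2 ^ r - 2 ^ a)) *
      (∑ b ∈ Finset.range (j + 1), q b * T ^ (2 ^ j - 2 ^ b)) +
      ∑ b ∈ Finset.range j, q b ^ 2 * T ^ (2 ^ r + 2 ^ j - 2 ^ (b + 1)) := by
  have e1 : ∑ a ∈ Finset.range (r + 1), q a * T ^ (2 ^ r - 2 ^ a) = T ^ (2 ^ r - 2 ^ j) *
        (∑ b ∈ Finset.range (j + 1), T ^ (2 ^ j - 2 ^ b) * q b) +
        (∑ a ∈ Finset.Ioc j r, T ^ (2 ^ r - 2 ^ a) * q a) := by
    have hU : Finset.range (r + 1) = Finset.range (j + 1) ∪ Finset.Ioc j r := by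
      ext a; simp; omega
    rw [hU, Finset.sum_union (by rw [Finset.disjoint_left]; intro a; simp; omega), Finset.mul_sum]
    congr 1
    · refine Finset.sum_congr rfl fun b hb => ?_
      rw [Finset.mem_range] at hb
      have h1 : 2 ^ b ≤ 2 ^ j := Nat.pow_le_pow_right (by norm_num) (by omega)
      have h2 : 2 ^ j ≤ 2 ^ r := Nat.pow_le_pow_right (by norm_num) hj
      have h3 : 2 ^ r - 2 ^ b = (2 ^ r - 2 ^ j) + (2 ^ j - 2 ^ b) := by omega
      rw [h3, pow_add]
      ring
    · refine Finset.sum_congr rfl fun b _ => ?_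
      rw [mul_comm]
  have e2 : ∑ b ∈ Finset.range (j + 1), q b * T ^ (2 ^ j - 2 ^ b) =
      ∑ b ∈ Finset.range (j + 1), T ^ (2 ^ j - 2 ^ b) * q b := by
    refine Finset.sum_congr rfl fun b _ => ?_
    rw [mul_comm]
  have e3 : ∑ b ∈ Finset.range j, q b ^ 2 * T ^ (2 ^ r + 2 ^ j - 2 ^ (b + 1)) +
      T ^ (2 ^ r - 2 ^ j) * q j ^ 2 =
        T ^ (2 ^ r - 2 ^ j) * (∑ b ∈ Finset.range (j + 1), T ^ (2 ^ j - 2 ^ b) * q b) ^ 2 := by
    rw [sum_pow_char, Finset.sum_range_succ, mul_add, Finset.mul_sum]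
    congr 1
    · refine Finset.sum_congr rfl fun b hb => ?_
      rw [Finset.mem_range] at hb
      have h1 : 2 ^ (b + 1) ≤ 2 ^ j := Nat.pow_le_pow_right (by norm_num) (by omega)
      have h2 : 2 ^ j ≤ 2 ^ r := Nat.pow_le_pow_right (by norm_num) hj
      have h3 : 2 ^ r + 2 ^ j - 2 ^ (b + 1) = (2 ^ r - 2 ^ j) + (2 ^ j - 2 ^ b) * 2 := by
        rw [Nat.sub_mul, ← pow_succ, ← pow_succ, pow_succ 2 j]
        omega
      rw [h3, pow_add, pow_mul, mul_pow]
      ring
    · rw [Nat.sub_self, pow_zero, one_mul]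
  rw [e1, e2]
  set P := ∑ b ∈ Finset.range (j + 1), T ^ (2 ^ j - 2 ^ b) * q b
  set A := ∑ a ∈ Finset.Ioc j r, T ^ (2 ^ r - 2 ^ a) * q a
  set E := ∑ b ∈ Finset.range j, q b ^ 2 * T ^ (2 ^ r + 2 ^ j - 2 ^ (b + 1)) with hE
  have h4 : E = T ^ (2 ^ r - 2 ^ j) * P ^ 2 + T ^ (2 ^ r - 2 ^ j) * q j ^ 2 := by
    rw [← e3, add_assoc, CharTwo.add_self_eq_zero, add_zero]
  rw [h4]
  have h5 : (T ^ (2 ^ r - 2 ^ j) * P ^ 2) + (T ^ (2 ^ r - 2 ^ j) * P ^ 2) = 0 :=
    CharTwo.add_self_eq_zero _
  linear_combination -h5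

/-- the total squares agree on generators -/
theorem map_SQgen {r j : ℕ} (hj : j ≤ r) :
    (FA550.SQgen r j).map (real r : FA550.D r →+* S r) = sqT (Dickson91.Q r j) := by
  have hC : ∀ b ≤ r, (Polynomial.C (FA550.Q r b)).map (real r : FA550.D r →+* S r) =
      Polynomial.C (Dickson91.Q r b) := by
    intro b hb
    rw [Polynomial.map_C]
    congr 1
    exact real_Q hb
  rw [sqT_Q hj, ← gen_identity Polynomial.X (fun b => Polynomial.C (Dickson91.Q r b)) hj]
  unfold FA550.SQgen
  rw [Polynomial.map_add, Polynomial.map_mul, Polynomial.map_mul, Polynomial.map_pow,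
    Polynomial.map_pow, Polynomial.map_X, hC j hj, Polynomial.map_sum, Polynomial.map_sum]
  congr 2
  · refine Finset.sum_congr rfl fun b hb => ?_
    rw [Finset.mem_range] at hb
    rw [Polynomial.map_mul, Polynomial.map_pow, Polynomial.map_X, hC b (by omega)]
  · refine Finset.sum_congr rfl fun b hb => ?_
    rw [Finset.mem_Ioc] at hb
    rw [Polynomial.map_mul, Polynomial.map_pow, Polynomial.map_X, hC b (by omega)]

/-- **the realisation commutes with the total squares** -/
theorem map_SQ {r : ℕ} (f : FA550.D r) :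
    (FA550.SQ r f).map (real r : FA550.D r →+* S r) = sqT (real r f) := by
  let ψ : Polynomial (FA550.D r) →ₐ[ZMod 2] Polynomial (S r) := Polynomial.mapAlgHom (real r)
  have h : ψ.comp (FA550.SQ r) = sqT.comp (real r) := by
    apply MvPolynomial.algHom_ext
    intro i
    simp only [AlgHom.comp_apply]
    have h1 : FA550.SQ r (X i) = FA550.SQgen r i := by simp [FA550.SQ]
    have h2 : real r (X i) = Dickson91.Q r i := by simp [real]
    rw [h1, h2, ← map_SQgen i.2.le]
    rfl
  exact DFunLike.congr_fun h f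

theorem real_Sq {r : ℕ} (a : ℕ) (f : FA550.D r) :
    real r (FA550.Sq r a f) = Dickson91.Sq a (real r f) := by
  rw [Dickson91.Sq_apply, ← map_SQ, Polynomial.coeff_map]
  rfl

/-- Bullett–Macdonald on `F₂[x]` -/
theorem isBM_Sq (r : ℕ) : IsBM (fun n => (Dickson91.Sq n : S r →ₗ[ZMod 2] S r)) := by
  have h : (fun n => (Dickson91.Sq n : S r →ₗ[ZMod 2] S r)) = sqOf SQmv := by
    funext n
    apply LinearMap.ext
    intro f
    rw [Dickson91.Sq_apply, sqOf_apply, sqT_eq_SQmv]
  rw [h]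
  exact isBM_mv

/-- Bullett–Macdonald on the abstract Dickson algebra -/
theorem isBM_D (r : ℕ) : IsBM (fun n => (FA550.Sq r n : FA550.D r →ₗ[ZMod 2] FA550.D r)) :=
  (isBM_Sq r).of_injective (real r).toLinearMap (real_injective r) (fun n x => real_Sq n x)

theorem Sq_zero_D (r : ℕ) : FA550.Sq r 0 = LinearMap.id := (isBM_D r).zero

/-- `IsBM` in the form of the spine -/
theorem BM_of_isBM {E : Type} [AddCommGroup E] [Module (ZMod 2) E]
    {Sq : ℕ → (E →ₗ[ZMod 2] E)} (h : IsBM (fun n => (Sq n : Module.End (ZMod 2) E))) :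
    Spine693.BM Sq := by
  intro n i hi
  have hb : ∀ a i, Spine693.bmc a i = StMod85.bmc a i := by
    intro a i
    unfold Spine693.bmc StMod85.bmc
    by_cases h : a ≤ i
    · rw [if_pos h, if_neg (by omega)]
    · rw [if_neg h, if_pos (by omega)]
  have hs : ∀ i, phi (fun n => (Sq n : Module.End (ZMod 2) E)) n i =
      ∑ a ∈ Finset.range (n + 1), Spine693.bmc a i • (Sq a ∘ₗ Sq (n - a)) := by
    intro i
    unfold phi
    rw [Finset.Nat.sum_antidiagonal_eq_sum_range_succ_mk]
    refine Finset.sum_congr rfl fun a _ => ?_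
    rw [hb]
    rfl
  rw [← hs, ← hs]
  exact h.bm n i hi

/-! ### `M_k` -/

/-- `M r k` is spanned by the monomials with `k ≤ s 0` -/
theorem M_eq_span (r k : ℕ) : Spine693.M r k =
    Submodule.span (ZMod 2) {f | ∃ s : Fin (r + 1) →₀ ℕ, k ≤ s 0 ∧ monomial s (1 : ZMod 2) = f} := by
  apply le_antisymm
  · intro f hf
    rw [f.as_sum]
    apply Submodule.sum_mem
    intro s hs
    have hs' : coeff s f ≠ 0 := by simpa using hs
    have h1 : coeff s f = 1 := by
      have : ∀ a : ZMod 2, a ≠ 0 → a = 1 := by decide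
      exact this _ hs'
    rw [h1]
    exact Submodule.subset_span ⟨s, hf s hs', rfl⟩
  · rw [Submodule.span_le]
    rintro _ ⟨s, hs, rfl⟩
    intro t ht
    classical
    rw [coeff_monomial] at ht
    by_cases hst : s = t
    · subst hst; exact hs
    · rw [if_neg hst] at ht
      exact absurd rfl ht

/-- `M r k` maps onto `Mk r k` -/
theorem map_M (r k : ℕ) : (Spine693.M r k).map (real (r + 1)).toLinearMap = Mk r k := by
  rw [M_eq_span, Submodule.map_span, Mk]
  congr 1
  ext f
  constructor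
  · rintro ⟨_, ⟨s, hs, rfl⟩, rfl⟩
    exact ⟨s, hs, (real_monomial s).symm⟩
  · rintro ⟨a, ha, rfl⟩
    refine ⟨monomial (Finsupp.equivFunOnFinite.symm a) 1, ⟨_, ha, rfl⟩, ?_⟩
    exact real_monomial _

theorem mem_M_iff {r k : ℕ} (f : Spine693.D (r + 1)) :
    f ∈ Spine693.M r k ↔ real (r + 1) f ∈ Mk r k := by
  rw [← map_M]
  constructor
  · intro h
    exact ⟨f, h, rfl⟩
  · rintro ⟨g, hg, hgf⟩
    have : g = f := real_injective (r + 1) hgf
    rwa [← this]

/-- `M_k` is stable under the Steenrod operations -/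
theorem M_mem {r k : ℕ} {g : Spine693.D (r + 1)} (hg : g ∈ Spine693.M r k) (a : ℕ) :
    FA550.Sq (r + 1) a g ∈ Spine693.M r k := by
  have hg' : real (r + 1) g ∈ Mk r k := (mem_M_iff g).mp hg
  have h := Sq_mem_Mk hg' a
  rw [← real_Sq] at h
  exact (mem_M_iff _).mpr h

/-- **the Steenrod operations on the Dickson algebras** (spine interface) -/
noncomputable def dick : Spine693.Dick where
  Sq r a := FA550.Sq (r + 1) a
  mem _ _ a _ hg := M_mem hg a
  zero r := Sq_zero_D (r + 1)
  bm r := BM_of_isBM (isBM_D (r + 1))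

/-! ### degrees -/

/-- weighted homogeneous elements are realised by homogeneous polynomials -/
theorem real_homog {r n : ℕ} {f : Spine693.D (r + 1)}
    (hf : IsWeightedHomogeneous (Spine693.wt r) f n) : (real (r + 1) f).IsHomogeneous n := by
  rw [f.as_sum, map_sum]
  apply IsHomogeneous.sum
  intro s hs
  have hs' : coeff s f ≠ 0 := by simpa using hs
  have h1 : coeff s f = 1 := by
    have : ∀ a : ZMod 2, a ≠ 0 → a = 1 := by decide
    exact this _ hs'
  rw [h1]
  have h2 := hf hs'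
  have h3 : Dickson91.wt (s : Fin (r + 1) → ℕ) = n := by
    rw [← h2]
    unfold Dickson91.wt
    rw [Finsupp.weight_apply, Finsupp.sum_fintype _ _ (by simp)]
    rfl
  rw [real_monomial, ← h3]
  exact Qmon_homog _

/-- converse -/
theorem weighted_of_real_homog {r n : ℕ} {f : Spine693.D (r + 1)}
    (hf : (real (r + 1) f).IsHomogeneous n) : IsWeightedHomogeneous (Spine693.wt r) f n := by
  -- compare with the weighted homogeneous component
  have hmem : real (r + 1) f ∈ Dickson91.D (r + 1) := by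
    rw [← real_range]
    exact ⟨f, rfl⟩
  have h := D_homog hmem hf
  have h2 : ∀ g ∈ Submodule.span (ZMod 2) {g : S (r + 1) | ∃ a : Fin (r + 1) → ℕ,
      Dickson91.wt a = n ∧ Qmon a = g}, ∃ f' : Spine693.D (r + 1),
      IsWeightedHomogeneous (Spine693.wt r) f' n ∧ real (r + 1) f' = g := by
    intro g hg
    induction hg using Submodule.span_induction with
    | mem x hx =>
      obtain ⟨a, ha, rfl⟩ := hx
      refine ⟨monomial (Finsupp.equivFunOnFinite.symm a) 1, ?_, real_monomial _⟩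
      apply isWeightedHomogeneous_monomial
      rw [← ha, Finsupp.weight_apply, Finsupp.sum_fintype _ _ (by simp)]
      rfl
    | zero => exact ⟨0, isWeightedHomogeneous_zero _ _ _, map_zero _⟩
    | add x y _ _ hx hy =>
      obtain ⟨f1, h1, rfl⟩ := hx
      obtain ⟨f2, h2, rfl⟩ := hy
      exact ⟨f1 + f2, h1.add h2, map_add _ _ _⟩
    | smul c x _ hx =>
      obtain ⟨f1, h1, rfl⟩ := hx
      refine ⟨c • f1, ?_, map_smul _ _ _⟩
      exact (weightedHomogeneousSubmodule (ZMod 2) (Spine693.wt r) n).smul_mem c h1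
  obtain ⟨f', hf', he⟩ := h2 _ h
  rw [← real_injective _ he]
  exact hf'

end Crest.Agent.R204.DickInst91
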