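import Mathlib
import Crest.Agent.R204.Spine_693

/-!
# Row 204, block F: common definitions and the exact statement of F-C (halving) (helper166)

Everything is in the Spine_693 types (rank `R = r+1`, `D (r+1)`, `M r k`, `BM`, `extSq`).
-/

set_option autoImplicit false

noncomputable section

namespace Crest.Agent.R204.F166

open MvPolynomial Crest.Agent.R204 Crest.Agent.R204.Spine693

/-- Milnor operators of a family `S` of operators: `P_1 = Sq^1`, `P_{j+1} = [Sq^{2^j}, P_j]` -/
def mil {E : Type} [AddCommGroup E] [Module F2 E] (S : ℕ → (E →ₗ[F2] E)) : ℕ → (E →ₗ[F2] E)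
  | 0 => 0
  | 1 => S 1
  | (j + 2) => S (2 ^ (j + 1)) ∘ₗ mil S (j + 1) + mil S (j + 1) ∘ₗ S (2 ^ (j + 1))

theorem monomial_mem_M {r k : ℕ} {s : Fin (r + 1) →₀ ℕ} (h : k ≤ s 0) (c : F2) :
    (monomial s c : D (r + 1)) ∈ M r k := by
  intro t ht
  rw [coeff_monomial] at ht
  by_cases hst : s = t
  · subst hst; exact h
  · simp [hst] at ht

/-- extension by zero of a functional on `M_e` to the whole Dickson algebra -/
def extD {r e : ℕ} (φ : M r e →ₗ[F2] F2) : D (r + 1) →ₗ[F2] F2 :=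
  (basisMonomials (Fin (r + 1)) F2).constr F2
    (fun s => if h : e ≤ s 0 then φ ⟨monomial s 1, monomial_mem_M h 1⟩ else 0)

theorem extD_monomial {r e : ℕ} (φ : M r e →ₗ[F2] F2) (s : Fin (r + 1) →₀ ℕ) (h : e ≤ s 0) :
    extD φ (monomial s 1) = φ ⟨monomial s 1, monomial_mem_M h 1⟩ := by
  have := (basisMonomials (Fin (r + 1)) F2).constr_basis F2
    (fun s => if h : e ≤ s 0 then φ ⟨monomial s 1, monomial_mem_M h 1⟩ else 0) s
  rw [coe_basisMonomials] at this
  unfold extD
  rw [this, dif_pos h]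

theorem extD_apply {r e : ℕ} (φ : M r e →ₗ[F2] F2) (g : D (r + 1)) (h : g ∈ M r e) :
    extD φ g = φ ⟨g, h⟩ := by
  have key : ∀ (t : Finset (Fin (r + 1) →₀ ℕ)) (c : (Fin (r + 1) →₀ ℕ) → F2)
      (ht : ∀ s ∈ t, c s ≠ 0 → e ≤ s 0) (hm : ∑ s ∈ t, monomial s (c s) ∈ M r e),
      extD φ (∑ s ∈ t, monomial s (c s)) = φ ⟨∑ s ∈ t, monomial s (c s), hm⟩ := by
    intro t
    induction t using Finset.induction_on with
    | empty => intro c _ hm; simp only [Finset.sum_empty, map_zero]; symm; exact map_zero φ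
    | insert a t ha ih =>
      intro c ht hm
      have hm1 : (monomial a (c a) : D (r + 1)) ∈ M r e := by
        by_cases hc : c a = 0
        · rw [hc, map_zero]; exact (M r e).zero_mem
        · exact monomial_mem_M (ht a (Finset.mem_insert_self _ _) hc) _
      have hm2 : ∑ s ∈ t, (monomial s (c s) : D (r + 1)) ∈ M r e := by
        apply Submodule.sum_mem
        intro s hs
        by_cases hc : c s = 0
        · rw [hc, map_zero]; exact (M r e).zero_mem
        · exact monomial_mem_M (ht s (Finset.mem_insert_of_mem hs) hc) _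
      have e1 : extD φ (monomial a (c a)) = φ ⟨monomial a (c a), hm1⟩ := by
        by_cases hc : c a = 0
        · have : (⟨monomial a (c a), hm1⟩ : M r e) = 0 := by
            apply Subtype.ext; simp [hc]
          rw [this, map_zero, hc, map_zero, map_zero]
        · have hc1 : c a = 1 := by
            have := Fin.exists_fin_two.mp ⟨c a, rfl⟩
            rcases this with h0 | h1
            · exact absurd h0 hc
            · exact h1
          have h0 := ht a (Finset.mem_insert_self _ _) hc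
          rw [show extD φ (monomial a (c a)) = extD φ (monomial a 1) by rw [hc1],
            extD_monomial φ a h0]
          congr 1
          apply Subtype.ext
          simp only [hc1]
      have e2 := ih c (fun s hs => ht s (Finset.mem_insert_of_mem hs)) hm2
      have hsum := Finset.sum_insert ha (f := fun s => (monomial s (c s) : D (r + 1)))
      have e3 : (⟨∑ s ∈ insert a t, monomial s (c s), hm⟩ : M r e) =
          ⟨monomial a (c a), hm1⟩ + ⟨_, hm2⟩ := Subtype.ext hsum
      rw [e3, map_add, ← e1, ← e2, ← map_add, hsum]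
  have hg : g = ∑ s ∈ g.support, monomial s (g.coeff s) := (support_sum_monomial_coeff g).symm
  have hm : ∑ s ∈ g.support, monomial s (g.coeff s) ∈ M r e := hg ▸ h
  have := key g.support (fun s => g.coeff s) (fun s _ hc => h s hc) hm
  calc extD φ g = extD φ (∑ s ∈ g.support, monomial s (g.coeff s)) := by rw [← hg]
    _ = _ := this
    _ = φ ⟨g, h⟩ := by congr 1; exact Subtype.ext hg.symm

/-- exponent of `κ f²`: `J ↦ (2J_0 + 2 - R, 2J_i + 1)`, `R = r+1` -/
def kapE (r : ℕ) (J : Fin (r + 1) →₀ ℕ) : Fin (r + 1) →₀ ℕ :=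
  Finsupp.equivFunOnFinite.symm (fun i => if i = 0 then 2 * J 0 + 2 - (r + 1) else 2 * J i + 1)

@[simp] theorem kapE_zero (r : ℕ) (J : Fin (r + 1) →₀ ℕ) : kapE r J 0 = 2 * J 0 + 2 - (r + 1) := by
  simp [kapE]

theorem kapE_ne (r : ℕ) (J : Fin (r + 1) →₀ ℕ) {i : Fin (r + 1)} (h : i ≠ 0) :
    kapE r J i = 2 * J i + 1 := by
  simp [kapE, h]

/-- the map `f ↦ κ f²` (monomialwise) -/
def kap (r : ℕ) : D (r + 1) →ₗ[F2] D (r + 1) :=
  (basisMonomials (Fin (r + 1)) F2).constr F2 (fun J => monomial (kapE r J) 1)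

theorem kap_monomial (r : ℕ) (J : Fin (r + 1) →₀ ℕ) :
    kap r (monomial J 1) = monomial (kapE r J) 1 := by
  have := (basisMonomials (Fin (r + 1)) F2).constr_basis F2
    (fun J => (monomial (kapE r J) 1 : D (r + 1))) J
  rw [coe_basisMonomials] at this
  exact this

/-- the halved functionals `φ'_a(f) = φ_{2a}(κ f²)` on `M_{e'}` -/
def half {r e : ℕ} (φ : ℕ → (M r e →ₗ[F2] F2)) (e' : ℕ) : ℕ → (M r e' →ₗ[F2] F2) :=
  fun a => extD (φ (2 * a)) ∘ₗ kap r ∘ₗ (M r e').subtype

/-- F-C1: **halving of the extension** (6.3 (ii)) -/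
def Halving (S : Dick) : Prop :=
  ∀ (r e e' : ℕ) (φ : ℕ → (M r e →ₗ[F2] F2)), 1 ≤ e → e + (r + 1) = 2 * e' →
    BM (extSq S r e φ) →
    (∀ j, 1 ≤ j → j ≤ r + 2 → ∀ g : M r e, (mil (extSq S r e φ) j (g, 0)).2 = 0) →
    BM (extSq S r e' (half φ e'))

/-- F-C2: halving of the annihilated functional (6.3 (iii)) -/
def HalvingXi (S : Dick) : Prop :=
  ∀ (r k e' : ℕ) (ξ : M r k →ₗ[F2] F2), (k + 1) + (r + 1) = 2 * e' →
    (∀ a, 1 ≤ a → ξ ∘ₗ S.SqM r k a = 0) →
    ∀ a, 1 ≤ a → (extD ξ ∘ₗ kap r ∘ₗ (M r (e' - 1)).subtype) ∘ₗ S.SqM r (e' - 1) a = 0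

end Crest.Agent.R204.F166
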