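import Crest.Agent.R204.SpineA_693

/-!
# Row 204: `LemEven` from four elementary facts on the Dickson algebra operations (helper693)
-/

set_option autoImplicit false

noncomputable section

namespace Crest.Agent.R204.Spine693

open MvPolynomial Crest.Agent.R204

/-- the elementary facts used -/
structure DickElem (S : Dick) : Prop where
  instab : ∀ (r a n : ℕ) (g : D (r + 1)), IsWeightedHomogeneous (wt r) g n → n < a → S.Sq r a g = 0
  top : ∀ (r n : ℕ) (g : D (r + 1)), IsWeightedHomogeneous (wt r) g n → S.Sq r n g = g ^ 2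
  /-- `Sq^1 (Q_0^{a-1} Q_1^{b+1} ...) = Q_0^a Q_1^b ...` for `b` even (rank ≥ 2) -/
  one_succ : ∀ (r : ℕ) (s u : Fin (r + 1 + 1) →₀ ℕ), s + Finsupp.single 1 1 = u + Finsupp.single 0 1 →
    Even (s 1) → S.Sq (r + 1) 1 (monomial u 1) = monomial s 1
  /-- `Sq^1 x^k = x^{k+1}` for `k` odd (rank one) -/
  one_zero : ∀ (u : Fin (0 + 1) →₀ ℕ), Odd (u 0) →
    S.Sq 0 1 (monomial u 1) = monomial (u + Finsupp.single 0 1) 1

theorem lemEven_of {S : Dick} (H : DickElem S) : LemEven S := by
  intro r e n he hen hn h3 f φ1 hc h1 hf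
  refine mon_ext f fun s hs => ?_
  by_cases hdeg : Finsupp.weight (wt r) s = n - e
  swap
  · exact hc _ _ (mon_hom s hs) hdeg
  have hfv : f (mon s hs) = φ1 (S.SqM r e (n - 1) (mon s hs)) := by rw [hf]; rfl
  rw [hfv]
  rcases Nat.lt_or_ge 1 e with he1 | he1
  · -- `e ≥ 2`
    have : S.SqM r e (n - 1) (mon s hs) = 0 := by
      apply Subtype.ext
      exact H.instab r (n - 1) (n - e) _ (by rw [← hdeg]; exact mon_hom s hs) (by omega)
    rw [this, map_zero]
  · have hee : e = 1 := by omega
    subst hee
    -- `Sq^{n-1} g = g^2`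
    have hsq : ((S.SqM r 1 (n - 1) (mon s hs) : M r 1) : D (r + 1)) = monomial (2 • s) 1 := by
      have := H.top r (n - 1) (monomial s 1) (by rw [← hdeg]; exact mon_hom s hs)
      show S.Sq r (n - 1) (monomial s 1) = _
      rw [this, monomial_pow]; simp
    -- `g^2 = Sq^1 (mon u)` with `u` in `M_1`
    obtain ⟨u, hu, hSu⟩ : ∃ (u : Fin (r + 1) →₀ ℕ), 1 ≤ u 0 ∧
        S.Sq r 1 (monomial u 1) = monomial (2 • s) (1 : F2) := by
      rcases Nat.eq_zero_or_pos r with hr | hr
      · subst hr
        refine ⟨2 • s - Finsupp.single 0 1, ?_, ?_⟩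
        · simp only [Finsupp.coe_tsub, Pi.sub_apply, Finsupp.smul_apply, smul_eq_mul,
            Finsupp.single_eq_same]
          omega
        · have hle : (Finsupp.single 0 1 : Fin (0 + 1) →₀ ℕ) ≤ 2 • s := by
            rw [Finsupp.single_le_iff]
            simp only [Finsupp.smul_apply, smul_eq_mul]; omega
          have := H.one_zero (2 • s - Finsupp.single 0 1) (by
            simp only [Finsupp.coe_tsub, Pi.sub_apply, Finsupp.smul_apply, smul_eq_mul,
              Finsupp.single_eq_same]
            exact ⟨s 0 - 1, by omega⟩)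
          rw [this, tsub_add_cancel_of_le hle]
      · obtain ⟨r, rfl⟩ : ∃ q, r = q + 1 := ⟨r - 1, by omega⟩
        refine ⟨2 • s + Finsupp.single 1 1 - Finsupp.single 0 1, ?_, ?_⟩
        · have h01 : (1 : Fin (r + 1 + 1)) ≠ 0 := by simp
          simp only [Finsupp.coe_tsub, Finsupp.coe_add, Pi.sub_apply, Pi.add_apply,
            Finsupp.smul_apply, smul_eq_mul, Finsupp.single_eq_same]
          have : (Finsupp.single (1 : Fin (r + 1 + 1)) 1 : Fin (r + 1 + 1) →₀ ℕ) 0 = 0 := by
            rw [Finsupp.single_apply, if_neg h01]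
          rw [this]; omega
        · refine H.one_succ r (2 • s) _ ?_ ?_
          · rw [tsub_add_cancel_of_le]
            rw [Finsupp.single_le_iff]
            simp only [Finsupp.coe_add, Pi.add_apply, Finsupp.smul_apply, smul_eq_mul]
            omega
          · simp only [Finsupp.smul_apply, smul_eq_mul]
            exact even_two_mul _
    have hEq : S.SqM r 1 (n - 1) (mon s hs) = S.SqM r 1 1 (mon u hu) := by
      apply Subtype.ext
      rw [hsq]
      exact hSu.symm
    rw [hEq]
    exact LinearMap.congr_fun h1 (mon u hu)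

end Crest.Agent.R204.Spine693
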