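import Crest.Agent.R204.FA3_550
import Crest.Agent.R204.FB_166
import Crest.Agent.R204.LemEven_693

/-!
# Row 204: `DickElem` (hence `LemEven`) and `F166.Facts` for the Dickson operations of FA_550 (helper693)
-/

set_option autoImplicit false

noncomputable section

namespace Crest.Agent.R204.Spine693

open MvPolynomial Crest.Agent.R204

/-- `del j` on monomials, `1 ≤ j < R` -/
theorem del_lt_mon (r : ℕ) (j : Fin (r + 1)) (hj : j ≠ 0) (s : Fin (r + 1) →₀ ℕ) :
    FA550.del (r + 1) j (monomial s 1) =
      (s j : F2) • monomial (s + Finsupp.single 0 1 - Finsupp.single j 1) 1 := by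
  rw [FA550.del_lt j.2, FA550.del0, mkDerivation_monomial, one_smul, Finsupp.sum]
  have e1 : (X 0 : MvPolynomial (Fin (r + 1)) (ZMod 2)) =
      monomial (Finsupp.single 0 1) 1 := rfl
  by_cases hs : s j = 0
  · rw [hs, Nat.cast_zero, zero_smul]
    refine Finset.sum_eq_zero fun b hb => ?_
    have : (b : ℕ) ≠ j := by
      intro hc
      have : b = j := Fin.ext hc
      subst this
      exact (Finsupp.mem_support_iff.1 hb) hs
    rw [if_neg this, smul_zero]
  · rw [Finset.sum_eq_single j]
    · rw [if_pos rfl, FA550.Q_zero_eq, smul_eq_mul, e1, monomial_mul, mul_one]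
      have e3 : s - Finsupp.single j 1 + Finsupp.single 0 1 =
          s + Finsupp.single 0 1 - Finsupp.single j 1 := by
        ext i
        simp only [Finsupp.coe_add, Pi.add_apply, Finsupp.coe_tsub, Pi.sub_apply]
        by_cases hi : i = j
        · subst hi
          rw [Finsupp.single_eq_same]
          omega
        · have h1 : (Finsupp.single j 1 : Fin (r + 1) →₀ ℕ) i = 0 := by
            rw [Finsupp.single_apply, if_neg (Ne.symm hi)]
          rw [h1]; omega
      rw [e3, smul_monomial, smul_eq_mul, mul_one]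
    · intro b _ hb
      have : (b : ℕ) ≠ j := fun hc => hb (Fin.ext hc)
      rw [if_neg this, smul_zero]
    · intro hc
      exact absurd (Finsupp.mem_support_iff.2 hs) hc

/-- `del R` on monomials -/
theorem del_top_mon (r : ℕ) (s : Fin (r + 1) →₀ ℕ) :
    FA550.del (r + 1) (r + 1) (monomial s 1) =
      ((∑ i, s i : ℕ) : F2) • monomial (s + Finsupp.single 0 1) 1 := by
  rw [FA550.del_self, FA550.delr, mkDerivation_monomial, one_smul, Finsupp.sum]
  have h1 : ∀ i ∈ s.support, (monomial (s - Finsupp.single i 1) ((s i : ℕ) : ZMod 2) :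
      MvPolynomial (Fin (r + 1)) (ZMod 2)) • (FA550.Q (r + 1) 0 * X i) =
      ((s i : ℕ) : F2) • monomial (s + Finsupp.single 0 1) 1 := by
    intro i hi
    have hs := Finsupp.mem_support_iff.1 hi
    have e1 : (X 0 : MvPolynomial (Fin (r + 1)) (ZMod 2)) =
      monomial (Finsupp.single 0 1) 1 := rfl
    have e2 : (X i : MvPolynomial (Fin (r + 1)) (ZMod 2)) =
      monomial (Finsupp.single i 1) 1 := rfl
    rw [FA550.Q_zero_eq, smul_eq_mul, e1, e2, monomial_mul, monomial_mul, mul_one, mul_one]
    have e3 : s - Finsupp.single i 1 + (Finsupp.single 0 1 + Finsupp.single i 1) =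
        s + Finsupp.single 0 1 := by
      ext t
      simp only [Finsupp.coe_add, Pi.add_apply, Finsupp.coe_tsub, Pi.sub_apply]
      by_cases ht : t = i
      · subst ht
        rw [Finsupp.single_eq_same]
        omega
      · have h1 : (Finsupp.single i 1 : Fin (r + 1) →₀ ℕ) t = 0 := by
          rw [Finsupp.single_apply, if_neg (Ne.symm ht)]
        rw [h1]; omega
    rw [e3, smul_monomial, smul_eq_mul, mul_one]
  rw [Finset.sum_congr rfl h1, ← Finset.sum_smul]
  congr 1
  push_cast
  refine Finset.sum_subset (Finset.subset_univ _) fun i _ hi => ?_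
  rw [Finsupp.notMem_support_iff.1 hi, Nat.cast_zero]

theorem dickElem_of {S : Dick} (h : ∀ r a, S.Sq r a = FA550.Sq (r + 1) a) : DickElem S where
  instab r a n g hg hn := by
    rw [h]; exact FA550.Sq_gt hg hn
  top r n g hg := by
    rw [h]; exact FA550.Sq_top hg
  one_succ r s u hsu he := by
    have h10 : (1 : Fin (r + 1 + 1)) ≠ 0 := by simp
    have h1c : ((1 : Fin (r + 1 + 1)) : ℕ) = 1 := by simp
    have key := del_lt_mon (r + 1) 1 h10 u
    rw [h1c] at key
    rw [h, FA550.Sq_one_eq, key]
    have hu1 : u 1 = s 1 + 1 := by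
      have := DFunLike.congr_fun hsu 1
      simp only [Finsupp.coe_add, Pi.add_apply, Finsupp.single_eq_same] at this
      rw [Finsupp.single_apply, if_neg (Ne.symm h10)] at this
      omega
    have e2 : ((u 1 : ℕ) : F2) = 1 := by
      rw [hu1]
      obtain ⟨q, hq⟩ := he
      rw [hq]; push_cast
      have : ∀ x : F2, x + x + 1 = 1 := by decide
      exact this _
    rw [e2, one_smul, ← hsu, add_tsub_cancel_right]
  one_zero u hu := by
    have key := del_top_mon 0 u
    rw [h, FA550.Sq_one_eq]
    refine key.trans ?_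
    have e2 : ((∑ i, u i : ℕ) : F2) = 1 := by
      rw [Fin.sum_univ_one]
      obtain ⟨q, hq⟩ := hu
      rw [hq]; push_cast
      have : ∀ x : F2, 2 * x + 1 = 1 := by decide
      exact this _
    rw [e2, one_smul]

/-- `LemEven` for the Dickson operations of FA_550 -/
theorem lemEven_dick {S : Dick} (h : ∀ r a, S.Sq r a = FA550.Sq (r + 1) a) : LemEven S :=
  lemEven_of (dickElem_of h)

/-- the facts used by block F-B -/
theorem facts_dick {S : Dick} (h : ∀ r a, S.Sq r a = FA550.Sq (r + 1) a) : F166.Facts S where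
  mil_lt r j hj s := by
    have e : S.Sq r = FA550.Sq (r + 1) := funext (h r)
    have hj1 : 1 ≤ (j : ℕ) := Nat.one_le_iff_ne_zero.2 (fun hc => hj (Fin.ext hc))
    rw [e, FA550.mil_eq r j hj1 (by omega)]
    exact del_lt_mon r j hj s
  mil_top r s := by
    have e : S.Sq r = FA550.Sq (r + 1) := funext (h r)
    rw [e, FA550.mil_eq r (r + 1) (by omega) (by omega)]
    exact del_top_mon r s
  hom r a g n hg := by
    rw [h]; exact FA550.Sq_homog hg a

end Crest.Agent.R204.Spine693
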