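import Mathlib
import Crest.Agent.R204.FA_550
import Crest.Agent.R204.SpecF_166

/-!
# Row 204, block F-A, part 2: facts on `D (r+1)` in the Spine_693 types (helper550)
-/

set_option autoImplicit false

noncomputable section

namespace Crest.Agent.R204.FA550

open MvPolynomial Crest.Agent.R204.Spine693 Crest.Agent.R204.F166

lemma mem_M_iff {r k : ℕ} {g : D (r + 1)} : g ∈ M r k ↔ (X 0 : D (r + 1)) ^ k ∣ g := by
  have h1 : (X 0 : D (r + 1)) ^ k = monomial (Finsupp.single 0 k) 1 := by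
    rw [X_pow_eq_monomial]
  rw [h1, monomial_one_dvd_iff_modMonomial_eq_zero]
  constructor
  · intro h
    ext s
    rw [coeff_zero]
    by_cases hs : Finsupp.single 0 k ≤ s
    · exact coeff_modMonomial_of_le _ hs
    · rw [coeff_modMonomial_of_not_le _ hs]
      by_contra h2
      exact hs (Finsupp.single_le_iff.2 (h s h2))
  · intro h s hs
    by_contra h2
    have h3 : ¬ Finsupp.single 0 k ≤ s := fun h4 => h2 (Finsupp.single_le_iff.1 h4)
    have h4 := coeff_modMonomial_of_not_le g h3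
    rw [h, coeff_zero] at h4
    exact hs h4.symm

lemma Q_zero_eq (r : ℕ) : Q (r + 1) 0 = X 0 := by
  rw [Q_lt (by omega)]; rfl

lemma Sq_X0_pow_mul (r k a : ℕ) (h : D (r + 1)) :
    Sq (r + 1) a ((X 0) ^ k * h) = (X 0) ^ k * (S (r + 1) (r + 1) ^ k * SQ (r + 1) h).coeff a := by
  rw [Sq_apply, map_mul, map_pow, ← Q_zero_eq, SQ_Q0 (by omega), mul_pow, mul_assoc, ← map_pow,
    Polynomial.coeff_C_mul]

lemma Sq_mem_M {r k : ℕ} (a : ℕ) {g : D (r + 1)} (hg : g ∈ M r k) : Sq (r + 1) a g ∈ M r k := by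
  rw [mem_M_iff] at *
  obtain ⟨h, rfl⟩ := hg
  rw [Sq_X0_pow_mul]
  exact dvd_mul_right _ _

lemma mul_mem_M {r k l : ℕ} {f g : D (r + 1)} (hf : f ∈ M r k) (hg : g ∈ M r l) :
    f * g ∈ M r (k + l) := by
  rw [mem_M_iff] at *
  rw [pow_add]
  exact mul_dvd_mul hf hg

lemma mul_mem_M' {r k : ℕ} {f : D (r + 1)} (g : D (r + 1)) (hf : f ∈ M r k) : f * g ∈ M r k := by
  rw [mem_M_iff] at *
  exact hf.mul_right _

lemma mem_M_zero {r : ℕ} (g : D (r + 1)) : g ∈ M r 0 := by rw [mem_M_iff]; simp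

lemma X0_mem_M (r : ℕ) : (X 0 : D (r + 1)) ∈ M r 1 := by rw [mem_M_iff]; simp

lemma del_mem_M {r k j : ℕ} (hj : 1 ≤ j) (hj' : j ≤ r + 1) {g : D (r + 1)} (hg : g ∈ M r k) :
    del (r + 1) j g ∈ M r (k + 1) := by
  rw [mem_M_iff] at *
  obtain ⟨h, rfl⟩ := hg
  rw [Derivation.leibniz, Derivation.leibniz_pow]
  rcases Nat.lt_or_ge j (r + 1) with h1 | h1
  · have h2 : del (r + 1) j (X 0) = 0 := by
      rw [← Q_zero_eq, del0_Q h1 (by omega), if_neg (by omega)]
    have h3 : (X 0 : D (r + 1)) ∣ del (r + 1) j h := by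
      have : ∀ x : D (r + 1), (X 0 : D (r + 1)) ∣ del (r + 1) j x := by
        intro x
        induction x using MvPolynomial.induction_on with
        | C a => simp
        | add p q hp hq => rw [map_add]; exact dvd_add hp hq
        | mul_X p i hp =>
          rw [Derivation.leibniz]
          refine dvd_add (dvd_mul_of_dvd_right ?_ _) (dvd_mul_of_dvd_right hp _)
          rw [← Q_coe i, del0_Q h1 i.2.le, Q_zero_eq]
          split_ifs <;> simp
      exact this h
    rw [h2, smul_zero, smul_zero, smul_zero, add_zero, pow_succ, smul_eq_mul]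
    exact mul_dvd_mul_left _ h3
  · obtain rfl : j = r + 1 := le_antisymm hj' h1
    have h2 : del (r + 1) (r + 1) (X 0) = X 0 * X 0 := by
      rw [← Q_zero_eq, delr_Q (by omega)]
    have h3 : (X 0 : D (r + 1)) ∣ del (r + 1) (r + 1) h := by
      have : ∀ x : D (r + 1), (X 0 : D (r + 1)) ∣ del (r + 1) (r + 1) x := by
        intro x
        induction x using MvPolynomial.induction_on with
        | C a => simp
        | add p q hp hq => rw [map_add]; exact dvd_add hp hq
        | mul_X p i hp =>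
          rw [Derivation.leibniz]
          refine dvd_add (dvd_mul_of_dvd_right ?_ _) (dvd_mul_of_dvd_right hp _)
          rw [← Q_coe i, delr_Q i.2, Q_zero_eq]
          exact dvd_mul_right _ _
      exact this h
    rw [h2, smul_eq_mul, smul_eq_mul, smul_eq_mul, pow_succ]
    refine dvd_add (mul_dvd_mul_left _ h3) (Dvd.dvd.mul_left ?_ _)
    rcases Nat.eq_zero_or_pos k with rfl | hk
    · simp
    · obtain ⟨l, rfl⟩ : ∃ l, k = l + 1 := ⟨k - 1, by omega⟩
      rw [nsmul_eq_mul]
      refine Dvd.dvd.mul_left ?_ _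
      rw [Nat.add_sub_cancel, ← mul_assoc, ← pow_succ]
      exact dvd_of_eq (pow_succ _ _)


/-! ### `Sq^0 = id` and the Milnor operators -/

lemma two_pow_lt {a b : ℕ} (h : a < b) : (2:ℕ) ^ a < 2 ^ b := Nat.pow_lt_pow_right (by norm_num) h
lemma two_pow_le {a b : ℕ} (h : a ≤ b) : (2:ℕ) ^ a ≤ 2 ^ b := Nat.pow_le_pow_right (by norm_num) h

lemma coeff_sum_XC {R : ℕ} (s : Finset ℕ) (e : ℕ → ℕ) (q : ℕ → D R) (n : ℕ) :
    (∑ b ∈ s, Polynomial.X ^ (e b) * Polynomial.C (q b) : Polynomial (D R)).coeff n =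
      ∑ b ∈ s, if n = e b then q b else 0 := by
  rw [Polynomial.finsetSum_coeff]
  refine Finset.sum_congr rfl fun b _ => ?_
  rw [Polynomial.coeff_mul_C, Polynomial.coeff_X_pow]
  split_ifs <;> simp

/-- first factor -/
def fA (R j : ℕ) : Polynomial (D R) :=
  ∑ b ∈ Finset.range (j + 1), Polynomial.X ^ (2 ^ j - 2 ^ b) * Polynomial.C (Q R b)
/-- second factor -/
def fB (R j : ℕ) : Polynomial (D R) :=
  ∑ a ∈ Finset.Ioc j R, Polynomial.X ^ (2 ^ R - 2 ^ a) * Polynomial.C (Q R a)

lemma SQgen_eq (R j : ℕ) : SQgen R j =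
    Polynomial.X ^ (2 ^ R - 2 ^ j) * Polynomial.C (Q R j ^ 2) + fA R j * fB R j := by
  rw [SQgen, map_pow]; rfl

lemma fA_coeff (R j n : ℕ) : (fA R j).coeff n =
    ∑ b ∈ Finset.range (j + 1), if n = 2 ^ j - 2 ^ b then Q R b else 0 := coeff_sum_XC _ _ _ _

lemma fB_coeff (R j n : ℕ) : (fB R j).coeff n =
    ∑ a ∈ Finset.Ioc j R, if n = 2 ^ R - 2 ^ a then Q R a else 0 := coeff_sum_XC _ _ _ _

lemma fA_zero (R j : ℕ) : (fA R j).coeff 0 = Q R j := by
  rw [fA_coeff, Finset.sum_eq_single j]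
  · simp
  · intro b hb hbj
    have h1 := Finset.mem_range.1 hb
    have := two_pow_lt (show b < j by omega)
    rw [if_neg (by omega)]
  · intro h; simp at h

lemma fB_zero {R j : ℕ} (h : j < R) : (fB R j).coeff 0 = 1 := by
  rw [fB_coeff, Finset.sum_eq_single R]
  · simp
  · intro b hb hbj
    have h1 := Finset.mem_Ioc.1 hb
    have := two_pow_lt (show b < R by omega)
    rw [if_neg (by omega)]
  · intro h'; simp at h'; omega

lemma SQgen_coeff_zero {R j : ℕ} (h : j < R) : (SQgen R j).coeff 0 = Q R j := by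
  have := two_pow_lt h
  rw [SQgen_eq, Polynomial.coeff_add, Polynomial.coeff_mul_C, Polynomial.coeff_X_pow,
    if_neg (by omega), zero_mul, zero_add, Polynomial.mul_coeff_zero, fA_zero, fB_zero h, mul_one]

lemma Sq_zero_apply (R : ℕ) (g : D R) : Sq R 0 g = g := by
  have h : ((Polynomial.aeval (0 : D R)).restrictScalars (ZMod 2)).comp (SQ R) = AlgHom.id (ZMod 2) (D R) := by
    apply MvPolynomial.algHom_ext
    intro i
    rw [AlgHom.comp_apply, ← Q_coe i, SQ_Q i.2, AlgHom.restrictScalars_apply,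
      Polynomial.coe_aeval_eq_eval, ← Polynomial.coeff_zero_eq_eval_zero, SQgen_coeff_zero i.2]
    rfl
  have h1 := congrArg (fun f => f g) h
  simpa [Polynomial.coe_aeval_eq_eval, ← Polynomial.coeff_zero_eq_eval_zero, Sq_apply] using h1

lemma Sq_one_mul (R : ℕ) (x y : D R) : Sq R 1 (x * y) = x * Sq R 1 y + y * Sq R 1 x := by
  have h0 := Sq_zero_apply R
  rw [Sq_apply, map_mul, Polynomial.mul_coeff_one]
  rw [show (SQ R x).coeff 0 = x from h0 x, show (SQ R y).coeff 0 = y from h0 y, Sq_apply, Sq_apply]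
  ring

lemma SQgen_coeff_one {R j : ℕ} (h : j < R) : (SQgen R j).coeff 1 = del R 1 (Q R j) := by
  have h1 := two_pow_lt h
  have hR : 1 ≤ R := by omega
  have hA : (fA R j).coeff 1 = if j = 1 then Q R 0 else 0 := by
    rw [fA_coeff]
    split_ifs with hj
    · subst hj
      rw [Finset.sum_range_succ, Finset.sum_range_one]; simp
    · refine Finset.sum_eq_zero fun b hb => ?_
      have hb1 := Finset.mem_range.1 hb
      rw [if_neg]
      intro h2
      have hb2 := two_pow_le (show b ≤ j by omega)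
      rcases Nat.eq_zero_or_pos j with rfl | hj0
      · have : b = 0 := by omega
        subst this; simp at h2
      · have h3 : 2 ^ 1 ∣ 2 ^ j := pow_dvd_pow 2 (by omega)
        rcases Nat.eq_zero_or_pos b with rfl | hb0
        · have h4 := two_pow_le (show 2 ≤ j by omega)
          simp at h2; omega
        · have h5 : 2 ^ 1 ∣ 2 ^ b := pow_dvd_pow 2 (by omega)
          omega
  have hB : (fB R j).coeff 1 = 0 := by
    rw [fB_coeff]
    refine Finset.sum_eq_zero fun b hb => ?_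
    have hb1 := Finset.mem_Ioc.1 hb
    rw [if_neg]
    intro h2
    have h3 : 2 ^ 1 ∣ 2 ^ R := pow_dvd_pow 2 (by omega)
    have h5 : 2 ^ 1 ∣ 2 ^ b := pow_dvd_pow 2 (by omega)
    omega
  rw [SQgen_eq, Polynomial.coeff_add, Polynomial.coeff_mul_C, Polynomial.coeff_X_pow,
    Polynomial.mul_coeff_one, fA_zero, fB_zero h, hA, hB, mul_zero, zero_add, mul_one]
  rcases Nat.lt_or_ge 1 R with h2 | h2
  · have h3 : ¬ (1 = 2 ^ R - 2 ^ j) := by
      intro h4
      have h6 := two_pow_le (show j ≤ R - 1 by omega)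
      have h7 : 2 ^ R = 2 * 2 ^ (R - 1) := by rw [← pow_succ']; congr 1; omega
      have h8 := two_pow_le (show 1 ≤ R - 1 by omega)
      omega
    rw [if_neg h3, zero_mul, zero_add, del0_Q h2 h.le]
  · obtain rfl : R = 1 := by omega
    obtain rfl : j = 0 := by omega
    rw [delr_Q h]; simp [sq]

lemma Sq_one_eq {R : ℕ} (x : D R) : Sq R 1 x = del R 1 x := by
  induction x using MvPolynomial.induction_on with
  | C a =>
    have h1 : (C a : D R) = algebraMap (ZMod 2) (D R) a := rfl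
    rw [h1, Derivation.map_algebraMap, Sq_apply, AlgHom.commutes]
    exact Polynomial.coeff_C_succ
  | add p q hp hq => rw [map_add, map_add, hp, hq]
  | mul_X p i hp =>
    rw [Sq_one_mul, Derivation.leibniz, hp, ← Q_coe i, Sq_apply R 1 (Q R i), SQ_Q i.2,
      SQgen_coeff_one i.2]; rfl

theorem mil_eq (r : ℕ) : ∀ j, 1 ≤ j → j ≤ r + 2 → ∀ x, mil (Sq (r + 1)) j x = del (r + 1) j x := by
  intro j
  induction j with
  | zero => intro h; omega
  | succ j ih =>
    intro _ hj x
    rcases Nat.eq_zero_or_pos j with rfl | hj0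
    · exact Sq_one_eq x
    · obtain ⟨i, rfl⟩ : ∃ i, j = i + 1 := ⟨j - 1, by omega⟩
      change Sq (r + 1) (2 ^ (i + 1)) (mil (Sq (r + 1)) (i + 1) x)
        + mil (Sq (r + 1)) (i + 1) (Sq (r + 1) (2 ^ (i + 1)) x) = _
      rw [ih (by omega) (by omega), ih (by omega) (by omega),
        Sq_del (by omega) (by omega), if_pos le_rfl, Nat.sub_self, Sq_zero_apply]
      have := two_eq_zero (r + 1) (del (r + 1) (i + 1) (Sq (r + 1) (2 ^ (i + 1)) x))
      linear_combination this

end Crest.Agent.R204.FA550
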