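import Mathlib
import Crest.Agent.R204.SpecF_166
import Crest.Agent.R204.StMod_85

/-!
# Row 204, block F-C (helper787): halving (6.3 (ii), (iii))

`HalfInput S` = the facts on the Dickson algebra itself that are used;
`halving : HalfInput S → Halving S`, `halvingXi : HalfInput S → HalvingXi S`.
-/

set_option autoImplicit false

noncomputable section

namespace Crest.Agent.R204.FC787

open MvPolynomial Crest.Agent.R204 Crest.Agent.R204.Spine693 Crest.Agent.R204.F166

/-- `∑_{1 ≤ j ≤ R} P_j M_k` -/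
def NN (S : Dick) (r k : ℕ) : Submodule F2 (D (r + 1)) :=
  ⨆ j : {j : ℕ // 1 ≤ j ∧ j ≤ r + 1}, (M r k).map (mil (S.Sq r) j.1)

/-- the facts on the Dickson algebras used by the halving step -/
structure HalfInput (S : Dick) : Prop where
  /-- (3.3) `P_{R+1} M_k ⊆ ∑_{j ≤ R} P_j M_k` -/
  last : ∀ r k, ∀ g ∈ M r k, mil (S.Sq r) (r + 2) g ∈ NN S r k
  /-- the operator `P = P_1 ⋯ P_R` -/
  top : ∀ r, ∃ P : D (r + 1) →ₗ[F2] D (r + 1),
    (∀ j, 1 ≤ j → j ≤ r + 1 → ∀ g, P (mil (S.Sq r) j g) = 0) ∧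
    (∀ c, r ≤ 2 * c + 1 → ∀ f ∈ M r c, P (kap r f) = (X 0 * f) ^ 2)
  /-- 6.3 (ii) -/
  sq : ∀ r c a, r ≤ 2 * c → ∀ f ∈ M r c,
    S.Sq r (2 * a) (kap r f) + kap r (S.Sq r a f) ∈ NN S r (2 * c - r)

/-! ### linear algebra in characteristic two -/

lemma add_self2 {E : Type} [AddCommGroup E] [Module F2 E] (x : E) : x + x = 0 := by
  have h : (2 : F2) • x = 0 := by
    rw [show (2 : F2) = 0 from rfl, zero_smul]
  rwa [two_smul] at h

lemma sub_eq_add2 {E : Type} [AddCommGroup E] [Module F2 E] (x y : E) : x - y = x + y := by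
  rw [sub_eq_iff_eq_add, add_assoc, add_self2, add_zero]

/-! ### Milnor operators -/

section mil

variable {E : Type} [AddCommGroup E] [Module F2 E] (T : ℕ → (E →ₗ[F2] E))

lemma mil_succ_succ (j : ℕ) : mil T (j + 2) =
    T (2 ^ (j + 1)) ∘ₗ mil T (j + 1) + mil T (j + 1) ∘ₗ T (2 ^ (j + 1)) := rfl

lemma mil_one : mil T 1 = T 1 := rfl

/-- induction principle -/
lemma mil_ind {Q : (E →ₗ[F2] E) → Prop} (h1 : Q (T 1))
    (h2 : ∀ (A : E →ₗ[F2] E) (j : ℕ), Q A → Q (T (2 ^ (j + 1)) ∘ₗ A + A ∘ₗ T (2 ^ (j + 1)))) :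
    ∀ j, 1 ≤ j → Q (mil T j) := by
  intro j hj
  induction j, hj using Nat.le_induction with
  | base => exact h1
  | succ j hj ih =>
    obtain ⟨i, rfl⟩ : ∃ i, j = i + 1 := ⟨j - 1, by omega⟩
    exact h2 _ _ ih

lemma mil_eq_P (j : ℕ) (hj : 1 ≤ j) :
    mil T j = StMod85.P (R := Module.End F2 E) T j := by
  induction j, hj using Nat.le_induction with
  | base => rfl
  | succ j hj ih =>
    obtain ⟨i, rfl⟩ : ∃ i, j = i + 1 := ⟨j - 1, by omega⟩
    rw [mil_succ_succ, ih]
    rfl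

end mil

lemma mil_mem (S : Dick) (r k j : ℕ) (hj : 1 ≤ j) : ∀ g ∈ M r k, mil (S.Sq r) j g ∈ M r k := by
  refine mil_ind (S.Sq r) (Q := fun A => ∀ g ∈ M r k, A g ∈ M r k) ?_ ?_ j hj
  · intro g hg; exact S.mem r k 1 g hg
  · intro A j hA g hg
    exact (M r k).add_mem (S.mem r k _ _ (hA g hg)) (hA _ (S.mem r k _ _ hg))

lemma NN_le (S : Dick) (r k : ℕ) : NN S r k ≤ M r k := by
  refine iSup_le ?_
  rintro ⟨j, hj1, hj2⟩
  rintro _ ⟨g, hg, rfl⟩
  exact mil_mem S r k j hj1 g hg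

lemma NN_mono (S : Dick) (r : ℕ) {k l : ℕ} (h : k ≤ l) : NN S r l ≤ NN S r k := by
  refine iSup_mono fun j => Submodule.map_mono (M_anti r h)

lemma mem_NN (S : Dick) (r k j : ℕ) (h1 : 1 ≤ j) (h2 : j ≤ r + 1) {g : D (r + 1)}
    (hg : g ∈ M r k) : mil (S.Sq r) j g ∈ NN S r k := by
  refine (le_iSup (fun j : {j : ℕ // 1 ≤ j ∧ j ≤ r + 1} => (M r k).map (mil (S.Sq r) j.1))
    ⟨j, h1, h2⟩) ?_
  exact ⟨g, hg, rfl⟩

/-! ### the map `kap` -/

lemma kap_mem (r c : ℕ) {f : D (r + 1)} (hf : f ∈ M r c) : kap r f ∈ M r (2 * c + 1 - r) := by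
  rw [← support_sum_monomial_coeff f, map_sum]
  refine Submodule.sum_mem _ fun s hs => ?_
  have hs' : coeff s f ≠ 0 := by simpa [mem_support_iff] using hs
  have h1 : (monomial s (coeff s f) : D (r + 1)) = coeff s f • monomial s 1 := by
    rw [smul_monomial, smul_eq_mul, mul_one]
  rw [h1, map_smul, kap_monomial]
  refine Submodule.smul_mem _ _ (monomial_mem_M ?_ 1)
  rw [kapE_zero]
  have := hf s hs'
  omega

/-! ### F-C2 -/

/-- a functional on `M_k` killed by all `Sq^a`, `a ≥ 1`, kills `∑ P_j M_k` -/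
lemma extD_NN (S : Dick) (r k : ℕ) (ξ : M r k →ₗ[F2] F2)
    (hξ : ∀ a, 1 ≤ a → ξ ∘ₗ S.SqM r k a = 0) : ∀ g ∈ NN S r k, extD ξ g = 0 := by
  have hS : ∀ a, 1 ≤ a → ∀ g ∈ M r k, extD ξ (S.Sq r a g) = 0 := by
    intro a ha g hg
    rw [extD_apply ξ _ (S.mem r k a g hg)]
    exact LinearMap.congr_fun (hξ a ha) ⟨g, hg⟩
  have hm : ∀ j, 1 ≤ j → ∀ g ∈ M r k, extD ξ (mil (S.Sq r) j g) = 0 := by
    intro j hj
    have := mil_ind (S.Sq r) (Q := fun A => (∀ g ∈ M r k, A g ∈ M r k) ∧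
      ∀ g ∈ M r k, extD ξ (A g) = 0) ⟨fun g hg => S.mem r k 1 g hg, hS 1 le_rfl⟩ ?_ j hj
    · exact this.2
    · rintro A j ⟨hA1, hA2⟩
      refine ⟨fun g hg => (M r k).add_mem (S.mem r k _ _ (hA1 g hg)) (hA1 _ (S.mem r k _ _ hg)),
        fun g hg => ?_⟩
      rw [LinearMap.add_apply, map_add, LinearMap.comp_apply, LinearMap.comp_apply,
        hS _ Nat.one_le_two_pow _ (hA1 g hg), hA2 _ (S.mem r k _ _ hg), add_zero]
  intro g hg
  have h2 : NN S r k ≤ LinearMap.ker (extD ξ) := by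
    refine iSup_le ?_
    rintro ⟨j, hj1, hj2⟩
    rintro _ ⟨g, hg, rfl⟩
    exact hm j hj1 g hg
  exact h2 hg

theorem halvingXi (S : Dick) (h : HalfInput S) : HalvingXi S := by
  intro r k e' ξ he hξ a ha
  ext ⟨f, hf⟩
  have hc : r ≤ 2 * (e' - 1) := by omega
  have hk : 2 * (e' - 1) - r = k := by omega
  have hk1 : 2 * (e' - 1) + 1 - r = k + 1 := by omega
  have h1 := h.sq r (e' - 1) a hc f hf
  rw [hk] at h1
  have h2 := extD_NN S r k ξ hξ _ h1
  have h3 := kap_mem r (e' - 1) hf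
  rw [hk1] at h3
  have h4 : extD ξ (S.Sq r (2 * a) (kap r f)) = 0 := by
    have h5 := M_anti r (Nat.le_succ k) h3
    rw [extD_apply ξ _ (S.mem r k _ _ h5)]
    exact LinearMap.congr_fun (hξ (2 * a) (by omega)) ⟨kap r f, h5⟩
  rw [map_add, h4, zero_add] at h2
  exact h2

/-! ### F-C1 -/

lemma bmc_two_mul (a i : ℕ) : Spine693.bmc (2 * a) (2 * i) = Spine693.bmc a i := by
  unfold Spine693.bmc
  by_cases h : a ≤ i
  · rw [if_pos h, if_pos (by omega)]
    have := StMod85.cast_choose_lucas (2 * a) (2 * i - 2 * a)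
    rw [show (2 * a) % 2 = 0 by omega, show (2 * i - 2 * a) % 2 = 0 by omega,
      show (2 * a) / 2 = a by omega, show (2 * i - 2 * a) / 2 = i - a by omega] at this
    simpa using this
  · rw [if_neg h, if_neg (by omega)]

lemma sum_parity {E : Type} [AddCommMonoid E] (f : ℕ → E) (n : ℕ) :
    ∑ a ∈ Finset.range (2 * n + 1), f a =
      ∑ a ∈ Finset.range (n + 1), f (2 * a) + ∑ a ∈ Finset.range n, f (2 * a + 1) := by
  induction n with
  | zero => simp
  | succ n ih =>
    rw [show 2 * (n + 1) + 1 = (2 * n + 1) + 1 + 1 by ring, Finset.sum_range_succ,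
      Finset.sum_range_succ, ih, Finset.sum_range_succ (fun a => f (2 * a)) (n + 1),
      Finset.sum_range_succ (fun a => f (2 * a + 1)) n,
      show 2 * (n + 1) = 2 * n + 1 + 1 by ring]
    abel

/-- Bullett–Macdonald in the form of `StMod_85` -/
lemma isBM_of {E : Type} [AddCommGroup E] [Module F2 E] (T : ℕ → (E →ₗ[F2] E)) (h0 : T 0 = LinearMap.id)
    (h : BM T) : StMod85.IsBM (R := Module.End F2 E) T := by
  have key : ∀ n i, StMod85.phi (R := Module.End F2 E) T n i =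
      ∑ a ∈ Finset.range (n + 1), Spine693.bmc a i • (T a ∘ₗ T (n - a)) := by
    intro n i
    unfold StMod85.phi
    rw [Finset.Nat.sum_antidiagonal_eq_sum_range_succ
      (fun a b => StMod85.bmc a i • ((T a : Module.End F2 E) * T b))]
    refine Finset.sum_congr rfl fun a _ => ?_
    have : StMod85.bmc a i = Spine693.bmc a i := by
      unfold StMod85.bmc Spine693.bmc
      by_cases hh : a ≤ i
      · rw [if_pos hh, if_neg (by omega)]
      · rw [if_neg hh, if_pos (by omega)]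
    rw [this]
    rfl
  refine ⟨h0, fun n i hi => ?_⟩
  rw [key, key]
  exact h n i hi

section halving

variable (S : Dick) (r e : ℕ) (φ : ℕ → (M r e →ₗ[F2] F2))

lemma extSq_zero : extSq S r e φ 0 = LinearMap.id := by
  rw [extSq, if_pos rfl]

lemma extSq_fst (a : ℕ) (x : M r e × F2) :
    ((extSq S r e φ a x).1 : D (r + 1)) = S.Sq r a x.1 := by
  unfold extSq
  by_cases ha : a = 0
  · subst ha
    rw [if_pos rfl, S.zero]; rfl
  · rw [if_neg ha]
    simp [Dick.SqM]

lemma extSq_snd (a : ℕ) (ha : a ≠ 0) (x : M r e × F2) :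
    (extSq S r e φ a x).2 = φ a x.1 := by
  unfold extSq
  rw [if_neg ha]
  simp

lemma extSq_t (a : ℕ) (ha : a ≠ 0) (c : F2) : extSq S r e φ a (0, c) = 0 := by
  unfold extSq
  rw [if_neg ha]
  simp

lemma mil_fst (j : ℕ) (hj : 1 ≤ j) (x : M r e × F2) :
    ((mil (extSq S r e φ) j x).1 : D (r + 1)) = mil (S.Sq r) j x.1 := by
  induction j, hj using Nat.le_induction generalizing x with
  | base => exact extSq_fst S r e φ 1 x
  | succ j hj ih =>
    obtain ⟨i, rfl⟩ : ∃ i, j = i + 1 := ⟨j - 1, by omega⟩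
    rw [mil_succ_succ, mil_succ_succ]
    simp only [LinearMap.add_apply, LinearMap.comp_apply, Prod.fst_add, Submodule.coe_add]
    rw [extSq_fst, ih, ih, extSq_fst]

lemma mil_t (j : ℕ) (hj : 1 ≤ j) (c : F2) : mil (extSq S r e φ) j (0, c) = 0 := by
  induction j, hj using Nat.le_induction with
  | base => exact extSq_t S r e φ 1 one_ne_zero c
  | succ j hj ih =>
    obtain ⟨i, rfl⟩ : ∃ i, j = i + 1 := ⟨j - 1, by omega⟩
    rw [mil_succ_succ]
    simp only [LinearMap.add_apply, LinearMap.comp_apply]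
    rw [ih, map_zero, zero_add, extSq_t S r e φ _ (by positivity) c, map_zero]

/-- `(∑ P_j M_e) × 0` -/
def NV : Submodule F2 (M r e × F2) := ((NN S r e).comap (M r e).subtype).prod ⊥

lemma mem_NV (x : M r e × F2) : x ∈ NV S r e ↔ (x.1 : D (r + 1)) ∈ NN S r e ∧ x.2 = 0 := by
  unfold NV
  rw [Submodule.mem_prod]
  rfl

variable (hm : ∀ j, 1 ≤ j → j ≤ r + 2 → ∀ g : M r e, (mil (extSq S r e φ) j (g, 0)).2 = 0)

include hm in
lemma mil_snd (j : ℕ) (h1 : 1 ≤ j) (h2 : j ≤ r + 2) (x : M r e × F2) :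
    (mil (extSq S r e φ) j x).2 = 0 := by
  have hx : x = (x.1, 0) + (0, x.2) := by simp
  rw [hx, map_add, mil_t S r e φ j h1, add_zero]
  exact hm j h1 h2 _

include hm in
lemma mil_mem_NV (h : HalfInput S) (j : ℕ) (h1 : 1 ≤ j) (h2 : j ≤ r + 2) (x : M r e × F2) :
    mil (extSq S r e φ) j x ∈ NV S r e := by
  rw [mem_NV]
  refine ⟨?_, mil_snd S r e φ hm j h1 h2 x⟩
  rw [mil_fst S r e φ j h1]
  by_cases hj : j = r + 2
  · rw [hj]
    exact h.last r e _ x.1.2
  · exact mem_NN S r e j h1 (by omega) x.1.2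

include hm in
/-- `NV` is stable under the operations -/
lemma extSq_mem_NV (h : HalfInput S) (hBM : BM (extSq S r e φ)) (a : ℕ) :
    ∀ x ∈ NV S r e, extSq S r e φ a x ∈ NV S r e := by
  have hI := isBM_of (extSq S r e φ) (extSq_zero S r e φ) hBM
  -- generators
  have hgen : ∀ j, 1 ≤ j → j ≤ r + 1 → ∀ y : M r e × F2,
      extSq S r e φ a (mil (extSq S r e φ) j y) ∈ NV S r e := by
    intro j h1 h2 y
    have h3 := hI.sq_P a j h1
    rw [← mil_eq_P _ j h1, ← mil_eq_P _ (j + 1) (by omega)] at h3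
    have h4 := LinearMap.congr_fun h3 y
    have h5 : extSq S r e φ a (mil (extSq S r e φ) j y) =
        mil (extSq S r e φ) j (extSq S r e φ a y) +
          (if 2 ^ j ≤ a then mil (extSq S r e φ) (j + 1) (extSq S r e φ (a - 2 ^ j) y) else 0) := by
      refine h4.trans ?_
      by_cases hja : 2 ^ j ≤ a
      · rw [if_pos hja, if_pos hja]; rfl
      · rw [if_neg hja, if_neg hja]; rfl
    rw [h5]
    refine Submodule.add_mem _ (mil_mem_NV S r e φ hm h j h1 (by omega) _) ?_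
    split_ifs
    · exact mil_mem_NV S r e φ hm h (j + 1) (by omega) (by omega) _
    · exact Submodule.zero_mem _
  have hall : ∀ g ∈ NN S r e, ∃ hg : g ∈ M r e, extSq S r e φ a (⟨g, hg⟩, 0) ∈ NV S r e := by
    intro g hg
    refine Submodule.iSup_induction _ (motive := fun g => ∃ hg : g ∈ M r e,
      extSq S r e φ a (⟨g, hg⟩, 0) ∈ NV S r e) hg ?_ ?_ ?_
    · rintro ⟨j, hj1, hj2⟩ _ ⟨g', hg', rfl⟩
      refine ⟨mil_mem S r e j hj1 g' hg', ?_⟩
      have h6 := hgen j hj1 hj2 (⟨g', hg'⟩, 0)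
      have h7 : mil (extSq S r e φ) j (⟨g', hg'⟩, 0) =
          (⟨mil (S.Sq r) j g', mil_mem S r e j hj1 g' hg'⟩, 0) := by
        refine Prod.ext (Subtype.ext ?_) ?_
        · exact mil_fst S r e φ j hj1 (⟨g', hg'⟩, 0)
        · exact mil_snd S r e φ hm j hj1 (by omega) _
      rw [h7] at h6
      exact h6
    · refine ⟨Submodule.zero_mem _, ?_⟩
      have : ((⟨0, Submodule.zero_mem _⟩, 0) : M r e × F2) = 0 := rfl
      rw [this, map_zero]
      exact Submodule.zero_mem _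
    · rintro g1 g2 ⟨h1, k1⟩ ⟨h2, k2⟩
      refine ⟨Submodule.add_mem _ h1 h2, ?_⟩
      have : ((⟨g1 + g2, Submodule.add_mem _ h1 h2⟩, 0) : M r e × F2) =
          (⟨g1, h1⟩, 0) + (⟨g2, h2⟩, 0) := by
        refine Prod.ext (Subtype.ext rfl) ?_
        simp
      rw [this, map_add]
      exact Submodule.add_mem _ k1 k2
  intro x hx
  rw [mem_NV] at hx
  obtain ⟨hg, h8⟩ := hall _ hx.1
  have : x = (⟨(x.1 : D (r + 1)), hg⟩, 0) := Prod.ext (Subtype.ext rfl) hx.2
  rw [this]
  exact h8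

include hm in
lemma odd_mem_NV (h : HalfInput S) (hBM : BM (extSq S r e φ)) (a : ℕ) (x : M r e × F2) :
    extSq S r e φ (2 * a + 1) x ∈ NV S r e := by
  have hI := isBM_of (extSq S r e φ) (extSq_zero S r e φ) hBM
  have h1 := LinearMap.congr_fun (hI.sq_one (2 * a)) x
  have h2 : extSq S r e φ 1 (extSq S r e φ (2 * a) x) =
      (2 * a + 1) • extSq S r e φ (2 * a + 1) x := h1
  rw [add_smul, one_smul, mul_smul, two_smul, add_self2, zero_add] at h2
  rw [← h2]
  exact mil_mem_NV S r e φ hm h 1 le_rfl (by omega) _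

end halving

/-- the map `(f, c) ↦ (κ f², c)` -/
def hmap (r e e' : ℕ) (he : e ≤ 2 * e' + 1 - r) : (M r e' × F2) →ₗ[F2] (M r e × F2) :=
  ((kap r ∘ₗ (M r e').subtype).codRestrict (M r e)
    (fun f => M_anti r he (kap_mem r e' f.2))).prodMap LinearMap.id

lemma hmap_fst (r e e' : ℕ) (he : e ≤ 2 * e' + 1 - r) (x : M r e' × F2) :
    ((hmap r e e' he x).1 : D (r + 1)) = kap r x.1 := rfl

lemma hmap_snd (r e e' : ℕ) (he : e ≤ 2 * e' + 1 - r) (x : M r e' × F2) :
    (hmap r e e' he x).2 = x.2 := rfl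

theorem halving (S : Dick) (h : HalfInput S) : Halving S := by
  intro r e e' φ he1 he hBM hm
  have he' : e ≤ 2 * e' + 1 - r := by omega
  have hr : r ≤ 2 * e' := by omega
  have hee : 2 * e' - r = e + 1 := by omega
  set T := extSq S r e φ with hT
  set U := extSq S r e' (half φ e') with hU
  set H := hmap r e e' he' with hH
  -- intertwining
  have hint : ∀ a x, T (2 * a) (H x) - H (U a x) ∈ NV S r e := by
    intro a x
    by_cases ha : a = 0
    · subst ha
      rw [mul_zero, hT, hU, extSq_zero, extSq_zero, LinearMap.id_apply, LinearMap.id_apply, sub_self]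
      exact Submodule.zero_mem _
    · rw [mem_NV]
      constructor
      · rw [Prod.fst_sub, Submodule.coe_sub, hT, hU, extSq_fst, hH, hmap_fst, hmap_fst, extSq_fst,
          sub_eq_add2]
        have h1 := h.sq r e' a hr x.1 x.1.2
        rw [hee] at h1
        exact NN_mono S r (Nat.le_succ e) h1
      · rw [Prod.snd_sub, hT, extSq_snd S r e φ _ (by omega), hH, hmap_snd, hU,
          extSq_snd S r e' _ _ ha, sub_eq_zero]
        unfold half
        rw [LinearMap.comp_apply, LinearMap.comp_apply]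
        have h2 : kap r ((M r e').subtype x.1) ∈ M r e := M_anti r he' (kap_mem r e' x.1.2)
        rw [extD_apply _ _ h2]
        rfl
  -- injectivity
  have hinj : ∀ x, H x ∈ NV S r e → x = 0 := by
    intro x hx
    rw [mem_NV, hH, hmap_fst, hmap_snd] at hx
    obtain ⟨P, hP1, hP2⟩ := h.top r
    have h3 : NN S r e ≤ LinearMap.ker P := by
      refine iSup_le ?_
      rintro ⟨j, hj1, hj2⟩
      rintro _ ⟨g, hg, rfl⟩
      exact hP1 j hj1 hj2 g
    have h4 : P (kap r x.1) = 0 := h3 hx.1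
    rw [hP2 e' (by omega) x.1 x.1.2] at h4
    have h5 : (X 0 * (x.1 : D (r + 1))) = 0 := pow_eq_zero_iff (two_ne_zero) |>.1 h4
    have h6 : (x.1 : D (r + 1)) = 0 := by
      rcases mul_eq_zero.1 h5 with h7 | h7
      · exact absurd h7 (X_ne_zero _)
      · exact h7
    exact Prod.ext (Subtype.ext h6) hx.2
  have hst := extSq_mem_NV S r e φ hm h hBM
  have hodd := odd_mem_NV S r e φ hm h hBM
  -- comparison of double operations
  have hdouble : ∀ a b x, T (2 * a) (T (2 * b) (H x)) - H (U a (U b x)) ∈ NV S r e := by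
    intro a b x
    have h1 := hst (2 * a) _ (hint b x)
    have h2 := hint a (U b x)
    rw [map_sub] at h1
    have := Submodule.add_mem _ h1 h2
    rwa [sub_add_sub_cancel] at this
  -- both sides
  have hside : ∀ n i x, (∑ a ∈ Finset.range (2 * n + 1), Spine693.bmc a (2 * i) •
      (T a ∘ₗ T (2 * n - a))) (H x) -
      H ((∑ a ∈ Finset.range (n + 1), Spine693.bmc a i • (U a ∘ₗ U (n - a))) x) ∈ NV S r e := by
    intro n i x
    rw [sum_parity, LinearMap.add_apply, LinearMap.sum_apply, LinearMap.sum_apply,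
      LinearMap.sum_apply, map_sum, add_sub_right_comm, ← Finset.sum_sub_distrib]
    refine Submodule.add_mem _ (Submodule.sum_mem _ fun a ha => ?_)
      (Submodule.sum_mem _ fun a ha => ?_)
    · rw [bmc_two_mul, LinearMap.smul_apply, LinearMap.smul_apply, map_smul, ← smul_sub,
        LinearMap.comp_apply, LinearMap.comp_apply, show 2 * n - 2 * a = 2 * (n - a) by omega]
      exact Submodule.smul_mem _ _ (hdouble a (n - a) x)
    · rw [LinearMap.smul_apply, LinearMap.comp_apply]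
      exact Submodule.smul_mem _ _ (hodd a _)
  intro n i hi
  refine LinearMap.ext fun x => ?_
  rw [← sub_eq_zero]
  apply hinj
  have h1 := hside n i x
  have h2 := hside n (2 * n - i) x
  have h3 := hBM (2 * n) (2 * i) (by omega)
  rw [show 2 * (2 * n) - 2 * i = 2 * (2 * n - i) by omega] at h3
  have h5 := LinearMap.congr_fun h3 (H x)
  rw [← h5] at h2
  have h4 := Submodule.sub_mem _ h2 h1
  rw [sub_sub_sub_cancel_left] at h4
  rw [map_sub]
  exact h4

end Crest.Agent.R204.FC787
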