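import Mathlib
import Crest.Agent.R204.FA3_550
import Crest.Agent.R204.FC_787

/-!
# Row 204, block F-A, part 4: the composite `P = P_1 ⋯ P_R` and `HalfInput` (helper550)
-/

set_option autoImplicit false

noncomputable section

namespace Crest.Agent.R204.FA550

open MvPolynomial Crest.Agent.R204.Spine693 Crest.Agent.R204.F166

/-! ### the composite and its lift -/

/-- `P_1 ∘ ⋯ ∘ P_i` -/
def PiD (R : ℕ) : ℕ → (D R →ₗ[ZMod 2] D R)
  | 0 => LinearMap.id
  | (i + 1) => PiD R i ∘ₗ (del R (i + 1)).toLinearMap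

lemma PiD_succ (R i : ℕ) (x : D R) : PiD R (i + 1) x = PiD R i (del R (i + 1) x) := rfl

lemma PiD_del {R : ℕ} : ∀ i j : ℕ, 1 ≤ j → j ≤ i → i ≤ R → ∀ x : D R, PiD R i (del R j x) = 0 := by
  intro i
  induction i with
  | zero => intro j h1 h2; omega
  | succ i ih =>
    intro j h1 h2 h3 x
    rw [PiD_succ]
    rcases Nat.lt_or_ge j (i + 1) with h | h
    · rw [del_comm (by omega) h3 h1 (by omega), ih j h1 (by omega) (by omega)]
    · obtain rfl : j = i + 1 := by omega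
      rw [del_del h1 h3, map_zero]

/-- lift of `PiD` -/
def PiL (R : ℕ) : ℕ → Polynomial (D R) → Polynomial (D R)
  | 0 => fun p => p
  | (i + 1) => fun p => PiL R i (lift (del R (i + 1)) p)

lemma PiL_succ (R i : ℕ) (p : Polynomial (D R)) :
    PiL R (i + 1) p = PiL R i (lift (del R (i + 1)) p) := rfl

lemma coeff_PiL (R : ℕ) : ∀ (i : ℕ) (p : Polynomial (D R)) (n : ℕ),
    (PiL R i p).coeff n = PiD R i (p.coeff n) := by
  intro i
  induction i with
  | zero => intro p n; rfl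
  | succ i ih => intro p n; rw [PiL_succ, ih, coeff_lift, PiD_succ]

lemma PiL_lift {R : ℕ} {i j : ℕ} (h1 : 1 ≤ j) (h2 : j ≤ i) (h3 : i ≤ R) (p : Polynomial (D R)) :
    PiL R i (lift (del R j) p) = 0 := by
  ext n : 1
  rw [coeff_PiL, coeff_lift, PiD_del i j h1 h2 h3, Polynomial.coeff_zero]

lemma lift_comm {R : ℕ} {i j : ℕ} (hi : 1 ≤ i) (hi' : i ≤ R) (hj : 1 ≤ j) (hj' : j ≤ R)
    (p : Polynomial (D R)) : lift (del R i) (lift (del R j) p) = lift (del R j) (lift (del R i) p) := by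
  ext n : 1
  simp only [coeff_lift]
  exact del_comm hi hi' hj hj' _

lemma lift_lift {R : ℕ} {j : ℕ} (hj : 1 ≤ j) (hj' : j ≤ R) (p : Polynomial (D R)) :
    lift (del R j) (lift (del R j) p) = 0 := by
  ext n : 1
  simp only [coeff_lift, Polynomial.coeff_zero]
  exact del_del hj hj' _

/-- the composite of the `dd`s -/
def DD (R : ℕ) : ℕ → Polynomial (D R) → Polynomial (D R)
  | 0 => fun p => p
  | (i + 1) => fun p => DD R i (dd R (i + 1) p)

lemma DD_succ (R i : ℕ) (p : Polynomial (D R)) : DD R (i + 1) p = DD R i (dd R (i + 1) p) := rfl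

lemma DD_add (R : ℕ) : ∀ (i : ℕ) (p q : Polynomial (D R)), DD R i (p + q) = DD R i p + DD R i q := by
  intro i
  induction i with
  | zero => intro p q; rfl
  | succ i ih => intro p q; rw [DD_succ, dd_add, ih]; rfl

lemma dd_zero (R j : ℕ) : dd R j 0 = 0 := by simp [dd]

lemma DD_zero (R : ℕ) : ∀ i : ℕ, DD R i 0 = 0 := by
  intro i
  induction i with
  | zero => rfl
  | succ i ih => rw [DD_succ, dd_zero, ih]

lemma DD_sum (R i : ℕ) {ι : Type*} (s : Finset ι) (f : ι → Polynomial (D R)) :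
    DD R i (∑ l ∈ s, f l) = ∑ l ∈ s, DD R i (f l) := by
  classical
  induction s using Finset.induction_on with
  | empty => simp [DD_zero]
  | insert a s ha ih => rw [Finset.sum_insert ha, Finset.sum_insert ha, DD_add, ih]

lemma DD_Xpow (R k : ℕ) : ∀ (i : ℕ) (p : Polynomial (D R)),
    DD R i (Polynomial.X ^ k * p) = Polynomial.X ^ k * DD R i p := by
  intro i
  induction i with
  | zero => intro p; rfl
  | succ i ih => intro p; rw [DD_succ, dd_pow_mul, ih]; rfl

lemma dd_sq_mul (R j : ℕ) (c p : Polynomial (D R)) : dd R j (c ^ 2 * p) = c ^ 2 * dd R j p := by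
  rw [dd_mul, dd_sq]; ring

lemma DD_sq_mul (R : ℕ) (c : Polynomial (D R)) : ∀ (i : ℕ) (p : Polynomial (D R)),
    DD R i (c ^ 2 * p) = c ^ 2 * DD R i p := by
  intro i
  induction i with
  | zero => intro p; rfl
  | succ i ih => intro p; rw [DD_succ, dd_sq_mul, ih]; rfl

lemma SQ_PiD {R : ℕ} (hR : 0 < R) : ∀ (i : ℕ), i ≤ R → ∀ x : D R, SQ R (PiD R i x) = DD R i (SQ R x) := by
  intro i
  induction i with
  | zero => intro _ x; rfl
  | succ i ih =>
    intro h x
    rw [PiD_succ, ih (by omega), SQ_del hR h, DD_succ]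

/-- the key formula -/
lemma DD_lift {R : ℕ} : ∀ (i : ℕ), i + 1 ≤ R → ∀ j, 1 ≤ j → j ≤ i + 1 → ∀ p : Polynomial (D R),
    DD R i (lift (del R j) p) = Polynomial.X ^ (2 ^ (i + 1) - 2 ^ j) * PiL R (i + 1) p := by
  intro i
  induction i with
  | zero =>
    intro h j h1 h2 p
    obtain rfl : j = 1 := by omega
    rw [Nat.sub_self, pow_zero, one_mul]; rfl
  | succ i ih =>
    intro h j h1 h2 p
    rw [DD_succ, dd, DD_add, DD_Xpow]
    rcases Nat.lt_or_ge j (i + 2) with h3 | h3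
    · have h4 := two_pow_le (show j ≤ i + 1 by omega)
      have h5 : (2:ℕ) ^ (i + 1 + 1) = 2 * 2 ^ (i + 1) := pow_succ' 2 (i + 1)
      rw [lift_comm (by omega) (by omega) h1 (by omega), ih (by omega) j h1 (by omega),
        PiL_lift (by omega) le_rfl (by omega), mul_zero, zero_add,
        lift_comm (by omega) (by omega) h1 (by omega), ih (by omega) j h1 (by omega),
        ← mul_assoc, ← pow_add, PiL_succ R (i + 1)]
      congr 2; omega
    · obtain rfl : j = i + 2 := by omega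
      rw [lift_lift (by omega) (by omega), DD_zero, mul_zero, add_zero,
        ih (by omega) (i + 1) (by omega) le_rfl, Nat.sub_self, Nat.sub_self, PiL_succ R (i + 1)]

theorem DD_top {r : ℕ} (p : Polynomial (D (r + 1))) :
    DD (r + 1) (r + 1) p = S (r + 1) (r + 1) ^ 2 * PiL (r + 1) (r + 1) p := by
  rw [DD_succ, dd, DD_add, DD_Xpow, DD_lift r le_rfl (r + 1) (by omega) le_rfl, Nat.sub_self, pow_zero,
    one_mul, lift_del_top, DD_sum]
  have h1 : ∀ l ∈ Finset.range (r + 1), DD (r + 1) r (Polynomial.C (Q (r + 1) l) ^ 2 *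
      lift (del (r + 1) (l + 1)) p) = Polynomial.C (Q (r + 1) l) ^ 2 *
      (Polynomial.X ^ (2 ^ (r + 1) - 2 ^ (l + 1)) * PiL (r + 1) (r + 1) p) := by
    intro l hl
    have := Finset.mem_range.1 hl
    rw [DD_sq_mul, DD_lift r le_rfl (l + 1) (by omega) (by omega)]
  rw [Finset.sum_congr rfl h1, Finset.mul_sum]
  have h2 : ∀ l ∈ Finset.range (r + 1), Polynomial.X ^ 2 ^ (r + 1) * (Polynomial.C (Q (r + 1) l) ^ 2 *
      (Polynomial.X ^ (2 ^ (r + 1) - 2 ^ (l + 1)) * PiL (r + 1) (r + 1) p)) =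
      (u (r + 1) l) ^ 2 * PiL (r + 1) (r + 1) p := by
    intro l hl
    have := Finset.mem_range.1 hl
    have h4 := two_pow_le (show l + 1 ≤ r + 1 by omega)
    have h6 : (2:ℕ) ^ (l + 1) = 2 * 2 ^ l := pow_succ' 2 l
    have h5 : 2 ^ (r + 1) + (2 ^ (r + 1) - 2 ^ (l + 1)) = 2 * (2 ^ (r + 1) - 2 ^ l) := by omega
    rw [u, mul_pow, ← pow_mul, mul_comm (2 ^ (r + 1) - 2 ^ l) 2, ← h5, pow_add]; ring
  rw [Finset.sum_congr rfl h2, ← Finset.sum_mul, ← S'_sq, S_top, CharTwo.add_sq]; ring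

/-! ### squares of polynomials in characteristic two -/

lemma coeff_sq_even {A : Type*} [CommRing A] [CharP A 2] (p : Polynomial A) (a : ℕ) :
    (p ^ 2).coeff (2 * a) = (p.coeff a) ^ 2 := by
  induction p using Polynomial.induction_on' with
  | add p q hp hq =>
    rw [CharTwo.add_sq, Polynomial.coeff_add, hp, hq, Polynomial.coeff_add, CharTwo.add_sq]
  | monomial n c =>
    rw [Polynomial.monomial_pow, Polynomial.coeff_monomial, Polynomial.coeff_monomial]
    by_cases h : n = a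
    · rw [if_pos (by omega), if_pos h]
    · rw [if_neg (by omega), if_neg h]; simp

lemma coeff_sq_odd {A : Type*} [CommRing A] [CharP A 2] (p : Polynomial A) (a : ℕ) :
    (p ^ 2).coeff (2 * a + 1) = 0 := by
  induction p using Polynomial.induction_on' with
  | add p q hp hq => rw [CharTwo.add_sq, Polynomial.coeff_add, hp, hq, add_zero]
  | monomial n c =>
    rw [Polynomial.monomial_pow, Polynomial.coeff_monomial, if_neg (by omega)]

/-! ### `P` -/

/-- `P = P_1 ⋯ P_R`, `R = r + 1` -/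
def PP (r : ℕ) : D (r + 1) →ₗ[ZMod 2] D (r + 1) := PiD (r + 1) (r + 1)

lemma PP_del {r j : ℕ} (h1 : 1 ≤ j) (h2 : j ≤ r + 1) (x : D (r + 1)) : PP r (del (r + 1) j x) = 0 :=
  PiD_del _ _ h1 h2 le_rfl x

lemma S_ne_zero (r : ℕ) : S (r + 1) (r + 1) ≠ 0 := by
  intro h
  have h1 := congrArg (fun p => Polynomial.coeff p 0) h
  simp only [Polynomial.coeff_zero] at h1
  rw [S, Finset.sum_range_succ, Polynomial.coeff_add, Polynomial.finsetSum_coeff, u_self,
    Polynomial.coeff_one_zero, Finset.sum_eq_zero] at h1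
  · simp at h1
  · intro b hb
    have := two_pow_lt (Finset.mem_range.1 hb)
    rw [u, Polynomial.coeff_mul_C, Polynomial.coeff_X_pow, if_neg (by omega), zero_mul]

/-- 6.3 (i) in generating form -/
theorem PiL_SQ {r : ℕ} {x f : D (r + 1)} (h : PP r x = (X 0 * f) ^ 2) :
    PiL (r + 1) (r + 1) (SQ (r + 1) x) = (Polynomial.C (X 0) * SQ (r + 1) f) ^ 2 := by
  have h1 : SQ (r + 1) (PP r x) = S (r + 1) (r + 1) ^ 2 * PiL (r + 1) (r + 1) (SQ (r + 1) x) := by
    rw [PP, SQ_PiD (by omega) _ le_rfl, DD_top]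
  rw [h, map_pow, map_mul, ← Q_zero_eq, SQ_Q0 (by omega)] at h1
  have h2 : S (r + 1) (r + 1) ^ 2 * (Polynomial.C (Q (r + 1) 0) * SQ (r + 1) f) ^ 2 =
      S (r + 1) (r + 1) ^ 2 * PiL (r + 1) (r + 1) (SQ (r + 1) x) := by rw [← h1]; ring
  rw [← Q_zero_eq]
  exact (mul_left_cancel₀ (pow_ne_zero 2 (S_ne_zero r)) h2).symm

theorem PP_Sq_even {r : ℕ} {x f : D (r + 1)} (h : PP r x = (X 0 * f) ^ 2) (a : ℕ) :
    PP r (Sq (r + 1) (2 * a) x) = (X 0 * Sq (r + 1) a f) ^ 2 := by
  rw [PP, Sq_apply, ← coeff_PiL, PiL_SQ h, coeff_sq_even, Polynomial.coeff_C_mul, Sq_apply]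

theorem PP_Sq_odd {r : ℕ} {x f : D (r + 1)} (h : PP r x = (X 0 * f) ^ 2) (a : ℕ) :
    PP r (Sq (r + 1) (2 * a + 1) x) = 0 := by
  rw [PP, Sq_apply, ← coeff_PiL, PiL_SQ h, coeff_sq_odd]

end Crest.Agent.R204.FA550
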