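import Mathlib
import Crest.Agent.R204.FA4_550
import Crest.Agent.R204.DickElem_693

/-!
# Row 204, block F-A, part 5: `HalfInput` for the Dickson operations (helper550)
-/

set_option autoImplicit false

noncomputable section

namespace Crest.Agent.R204.FA550

open MvPolynomial Crest.Agent.R204.Spine693 Crest.Agent.R204.F166 Crest.Agent.R204.FC787

/-! ### `P` on monomials -/

lemma F2_mul_eq_zero {n : ℕ} (h : Even n) : (n : F2) = 0 := F166.cast_even h

/-- the derivations `1, …, i` on a monomial with odd exponents at `1, …, i` -/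
lemma PiD_mon (r : ℕ) : ∀ (i : ℕ), i ≤ r → ∀ s t : Fin (r + 1) →₀ ℕ,
    (∀ j : Fin (r + 1), 1 ≤ (j : ℕ) → (j : ℕ) ≤ i → Odd (s j)) →
    t 0 = s 0 + i → (∀ j : Fin (r + 1), 1 ≤ (j : ℕ) → (j : ℕ) ≤ i → t j + 1 = s j) →
    (∀ j : Fin (r + 1), i < (j : ℕ) → t j = s j) →
    PiD (r + 1) i (monomial s 1) = monomial t 1 := by
  intro i
  induction i with
  | zero =>
    intro _ s t _ h0 _ h2
    have : t = s := by
      ext j
      by_cases hj : j = 0
      · subst hj; omega
      · exact h2 j (by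
          rcases Nat.eq_zero_or_pos (j : ℕ) with h | h
          · exact absurd (Fin.ext h) hj
          · exact h)
    rw [this]; rfl
  | succ i ih =>
    intro hi s t ho h0 h1 h2
    have hne : (⟨i + 1, by omega⟩ : Fin (r + 1)) ≠ 0 := by
      intro h; exact absurd (congrArg Fin.val h) (by simp)
    have hodd : Odd (s ⟨i + 1, by omega⟩) := ho ⟨i + 1, by omega⟩ (by simp) (by simp)
    rw [PiD_succ]
    have h3 := del_lt_mon r ⟨i + 1, by omega⟩ hne s
    rw [cast_odd hodd, one_smul] at h3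
    rw [h3]
    have hv : ∀ j : Fin (r + 1), j ≠ ⟨i + 1, by omega⟩ → j ≠ 0 →
        (s + Finsupp.single 0 1 - Finsupp.single ⟨i + 1, by omega⟩ 1 : Fin (r + 1) →₀ ℕ) j = s j := by
      intro j hj1 hj0
      rw [Finsupp.tsub_apply, Finsupp.add_apply, Finsupp.single_eq_of_ne (by simpa using hj0),
        Finsupp.single_eq_of_ne (by simpa using hj1)]
      omega
    apply ih (by omega)
    · intro j hj1 hj2
      rw [hv j (by rintro rfl; simp at hj2) (by rintro rfl; simp at hj1)]
      exact ho j hj1 (by omega)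
    · rw [Finsupp.tsub_apply, Finsupp.add_apply, Finsupp.single_eq_same,
        Finsupp.single_eq_of_ne (by simpa using hne.symm)]
      omega
    · intro j hj1 hj2
      rw [hv j (by rintro rfl; simp at hj2) (by rintro rfl; simp at hj1)]
      exact h1 j hj1 (by omega)
    · intro j hj
      have hj0 : j ≠ 0 := by rintro rfl; simp at hj
      by_cases hj3 : j = ⟨i + 1, by omega⟩
      · have := h1 ⟨i + 1, by omega⟩ (by simp) (by simp)
        rw [hj3, Finsupp.tsub_apply, Finsupp.add_apply, Finsupp.single_eq_of_ne (by simpa using hne),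
          Finsupp.single_eq_same]
        omega
      · rw [hv j hj3 hj0]
        refine h2 j ?_
        rcases Nat.lt_or_ge (i + 1) (j : ℕ) with h | h
        · exact h
        · exact absurd (Fin.ext (by simp only; omega)) hj3

/-- `sigE s = (s_0 + r + 1, s_j - 1)` -/
def sigE (r : ℕ) (s : Fin (r + 1) →₀ ℕ) : Fin (r + 1) →₀ ℕ :=
  Finsupp.equivFunOnFinite.symm (fun i => if i = 0 then s 0 + (r + 1) else s i - 1)

lemma sigE_zero (r : ℕ) (s : Fin (r + 1) →₀ ℕ) : sigE r s 0 = s 0 + (r + 1) := by simp [sigE]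

lemma sigE_ne (r : ℕ) (s : Fin (r + 1) →₀ ℕ) {i : Fin (r + 1)} (h : i ≠ 0) :
    sigE r s i = s i - 1 := by simp [sigE, h]

lemma one_le_of_ne {r : ℕ} {j : Fin (r + 1)} (h : j ≠ 0) : 1 ≤ (j : ℕ) :=
  Nat.one_le_iff_ne_zero.2 (fun hc => h (Fin.ext hc))

lemma PP_typeA (r : ℕ) (s : Fin (r + 1) →₀ ℕ) (hA : TypeA s) :
    PP r (monomial s 1) = monomial (sigE r s) 1 := by
  have h1 : PP r (monomial s 1) = PiD (r + 1) r (del (r + 1) (r + 1) (monomial s 1)) := rfl
  rw [h1, del_top_mon, cast_odd hA.2, one_smul]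
  have hs : ∀ j : Fin (r + 1), j ≠ 0 → (s + Finsupp.single 0 1 : Fin (r + 1) →₀ ℕ) j = s j := by
    intro j hj
    rw [Finsupp.add_apply, Finsupp.single_eq_of_ne (by simpa using hj), add_zero]
  apply PiD_mon r r le_rfl
  · intro j hj _
    have hj0 : j ≠ 0 := by rintro rfl; simp at hj
    rw [hs j hj0]
    exact hA.1 j hj0
  · rw [sigE_zero, Finsupp.add_apply, Finsupp.single_eq_same]; omega
  · intro j hj _
    have hj0 : j ≠ 0 := by rintro rfl; simp at hj
    rw [hs j hj0, sigE_ne r s hj0]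
    have := (hA.1 j hj0).pos
    omega
  · intro j hj
    have := j.2
    omega

lemma del_sq_mul (R j : ℕ) (c x : D R) : del R j (c ^ 2 * x) = c ^ 2 * del R j x := by
  rw [Derivation.leibniz, pow_two, Derivation.leibniz, CharTwo.add_self_eq_zero, smul_zero, add_zero,
    smul_eq_mul]

lemma PiD_sq_mul (R : ℕ) (c : D R) : ∀ (i : ℕ) (x : D R), PiD R i (c ^ 2 * x) = c ^ 2 * PiD R i x := by
  intro i
  induction i with
  | zero => intro x; rfl
  | succ i ih => intro x; rw [PiD_succ, del_sq_mul, ih, PiD_succ]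

lemma PP_not_typeA (r : ℕ) (s : Fin (r + 1) →₀ ℕ) (hA : ¬ TypeA s) :
    PP r (monomial s 1) = 0 := by
  by_cases h : ∀ j : Fin (r + 1), j ≠ 0 → Odd (s j)
  · have h2 : ¬ Odd (∑ j, s j) := fun h3 => hA ⟨h, h3⟩
    rw [Nat.not_odd_iff_even] at h2
    have h1 : PP r (monomial s 1) = PiD (r + 1) r (del (r + 1) (r + 1) (monomial s 1)) := rfl
    rw [h1, del_top_mon, cast_even h2, zero_smul, map_zero]
  · simp only [not_forall] at h
    obtain ⟨j, hj0, hj⟩ := h
    rw [Nat.not_odd_iff_even] at hj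
    have h3 : (X 0) ^ 2 * PP r (monomial s 1) = 0 := by
      have h4 := del_lt_mon r j hj0 (s + Finsupp.single 0 1 + Finsupp.single j 1)
      have h5 : (s + Finsupp.single 0 1 + Finsupp.single j 1 : Fin (r + 1) →₀ ℕ) j = s j + 1 := by
        rw [Finsupp.add_apply, Finsupp.add_apply, Finsupp.single_eq_same,
          Finsupp.single_eq_of_ne (by simpa using hj0), add_zero]
      have h6 : s + Finsupp.single 0 1 + Finsupp.single j 1 + Finsupp.single 0 1 -
          Finsupp.single j 1 = Finsupp.single 0 2 + s := by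
        ext i
        have e2 : (Finsupp.single 0 2 : Fin (r + 1) →₀ ℕ) = Finsupp.single 0 1 + Finsupp.single 0 1 := by
          rw [← Finsupp.single_add]
        rw [e2]
        simp only [Finsupp.tsub_apply, Finsupp.add_apply]
        omega
      rw [h5, cast_odd (Even.add_one hj), one_smul, h6] at h4
      have h7 : (X 0 : D (r + 1)) ^ 2 * monomial s 1 = monomial (Finsupp.single 0 2 + s) 1 := by
        rw [X_pow_eq_monomial, monomial_mul, one_mul]
      rw [PP, ← PiD_sq_mul, h7, ← h4]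
      exact PiD_del _ _ (one_le_of_ne hj0) (by omega) le_rfl _
    exact (mul_eq_zero.1 h3).resolve_left (pow_ne_zero 2 (X_ne_zero 0))

lemma coeff_single (r : ℕ) (s t : Fin (r + 1) →₀ ℕ) (hA : TypeA s) :
    coeff (sigE r s) (PP r (monomial t 1)) = coeff s (monomial t (1 : ZMod 2)) := by
  by_cases ht : TypeA t
  · rw [PP_typeA r t ht, coeff_monomial, coeff_monomial]
    have : sigE r t = sigE r s ↔ t = s := by
      refine ⟨fun h => ?_, fun h => by rw [h]⟩
      ext j
      have h1 := DFunLike.congr_fun h j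
      by_cases hj : j = 0
      · subst hj; rw [sigE_zero, sigE_zero] at h1; omega
      · rw [sigE_ne r t hj, sigE_ne r s hj] at h1
        have h2 := (ht.1 j hj).pos
        have h3 := (hA.1 j hj).pos
        omega
    simp only [this]
  · rw [PP_not_typeA r t ht, coeff_zero, coeff_monomial, if_neg]
    rintro rfl
    exact ht hA

/-- the coefficients at type A exponents are detected by `P` -/
lemma coeff_typeA (r : ℕ) (s : Fin (r + 1) →₀ ℕ) (hA : TypeA s) (y : D (r + 1)) :
    coeff (sigE r s) (PP r y) = coeff s y := by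
  induction y using MvPolynomial.induction_on' with
  | monomial t c =>
    have h1 : (monomial t c : D (r + 1)) = c • monomial t 1 := by
      rw [smul_monomial, smul_eq_mul, mul_one]
    rw [h1, map_smul, coeff_smul, coeff_smul, coeff_single r s t hA]
  | add p q hp hq => rw [map_add, coeff_add, coeff_add, hp, hq]

/-! ### `P (κ f²) = (Q_0 f)²` -/

lemma typeA_kapE (r : ℕ) (J : Fin (r + 1) →₀ ℕ) (hJ : r ≤ 2 * J 0 + 1) : TypeA (kapE r J) := by
  refine ⟨fun j hj => ?_, ?_⟩
  · rw [kapE_ne r J hj]; exact ⟨J j, rfl⟩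
  · rw [Fin.sum_univ_succ, kapE_zero]
    have h1 : ∀ i : Fin r, kapE r J i.succ = 2 * J i.succ + 1 := fun i =>
      kapE_ne r J (Fin.succ_ne_zero i)
    rw [Finset.sum_congr rfl fun i _ => h1 i, Finset.sum_add_distrib, ← Finset.mul_sum]
    simp only [Finset.sum_const, Finset.card_univ, Fintype.card_fin, smul_eq_mul, mul_one]
    refine ⟨J 0 + ∑ i : Fin r, J i.succ, ?_⟩
    omega

lemma PP_kap_mon (r : ℕ) (J : Fin (r + 1) →₀ ℕ) (hJ : r ≤ 2 * J 0 + 1) :
    PP r (kap r (monomial J 1)) = (X 0 * monomial J 1) ^ 2 := by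
  rw [kap_monomial, PP_typeA r _ (typeA_kapE r J hJ)]
  have e1 : (X 0 : D (r + 1)) = monomial (Finsupp.single 0 1) 1 := rfl
  rw [e1, monomial_mul, one_mul, monomial_pow, one_pow]
  refine congrArg (fun t => (monomial t (1 : ZMod 2) : D (r + 1))) ?_
  ext j
  rw [Finsupp.smul_apply, Finsupp.add_apply, smul_eq_mul]
  by_cases hj : j = 0
  · subst hj
    rw [sigE_zero, kapE_zero, Finsupp.single_eq_same]; omega
  · rw [sigE_ne r _ hj, kapE_ne r J hj, Finsupp.single_eq_of_ne (by simpa using hj)]; omega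

theorem PP_kap {r c : ℕ} (hc : r ≤ 2 * c + 1) {f : D (r + 1)} (hf : f ∈ M r c) :
    PP r (kap r f) = (X 0 * f) ^ 2 := by
  have h1 : f = ∑ s ∈ f.support, monomial s (f.coeff s) := (support_sum_monomial_coeff f).symm
  have h2 : ∀ s ∈ f.support, (monomial s (f.coeff s) : D (r + 1)) = monomial s 1 := by
    intro s hs
    have h3 : f.coeff s ≠ 0 := mem_support_iff.1 hs
    have h4 : f.coeff s = 1 := by
      have : ∀ x : ZMod 2, x ≠ 0 → x = 1 := by decide
      exact this _ h3
    rw [h4]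
  rw [h1, Finset.sum_congr rfl h2, map_sum, map_sum, Finset.mul_sum, CharTwo.sum_sq]
  refine Finset.sum_congr rfl fun s hs => ?_
  have := hf s (mem_support_iff.1 hs)
  exact PP_kap_mon r s (by omega)

/-! ### `HalfInput` -/

/-- elements of `M_{k+1}` killed by `P` are in `∑ P_j M_k` -/
theorem mem_NN_of_PP {S : Dick} (h : ∀ r a, S.Sq r a = Sq (r + 1) a) {r k : ℕ} {y : D (r + 1)}
    (hy : y ∈ M r (k + 1)) (hP : PP r y = 0) : y ∈ NN S r k := by
  rw [← support_sum_monomial_coeff y]
  refine Submodule.sum_mem _ fun s hs => ?_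
  have hs' : coeff s y ≠ 0 := mem_support_iff.1 hs
  have hA : ¬ TypeA s := by
    intro hA
    apply hs'
    rw [← coeff_typeA r s hA y, hP, coeff_zero]
  obtain ⟨j, u, h1, h2, hu, huj⟩ := exists_preimage (facts_dick h) r k s (hy s hs') hA
  have h3 : (monomial s (coeff s y) : D (r + 1)) = coeff s y • monomial s 1 := by
    rw [smul_monomial, smul_eq_mul, mul_one]
  rw [h3, ← huj]
  exact Submodule.smul_mem _ _ (FC787.mem_NN S r k j h1 h2 (monomial_mem_M hu 1))

theorem last_dick {S : Dick} (h : ∀ r a, S.Sq r a = Sq (r + 1) a) (r k : ℕ) (g : D (r + 1))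
    (hg : g ∈ M r k) : mil (S.Sq r) (r + 2) g ∈ NN S r k := by
  have e : S.Sq r = Sq (r + 1) := funext (h r)
  have h0 : mil (S.Sq r) (r + 2) g = ∑ l ∈ Finset.range (r + 1),
      mil (S.Sq r) (l + 1) (Q (r + 1) l ^ 2 * g) := by
    rw [e, mil_eq r (r + 2) (by omega) le_rfl, del_top_apply]
    refine Finset.sum_congr rfl fun l hl => ?_
    have hl' := Finset.mem_range.1 hl
    rw [mil_eq r (l + 1) (by omega) (by omega), del_sq_mul]
  rw [h0]
  refine Submodule.sum_mem _ fun l hl => ?_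
  have hl' := Finset.mem_range.1 hl
  refine FC787.mem_NN S r k (l + 1) (by omega) (by omega) ?_
  rw [mul_comm]
  exact mul_mem_M' _ hg

theorem top_dick {S : Dick} (h : ∀ r a, S.Sq r a = Sq (r + 1) a) (r : ℕ) :
    ∀ j, 1 ≤ j → j ≤ r + 1 → ∀ g, PP r (mil (S.Sq r) j g) = 0 := by
  have e : S.Sq r = Sq (r + 1) := funext (h r)
  intro j h1 h2 g
  rw [e, mil_eq r j h1 (by omega)]
  exact PP_del h1 h2 g

theorem sq_dick {S : Dick} (h : ∀ r a, S.Sq r a = Sq (r + 1) a) (r c a : ℕ) (hc : r ≤ 2 * c)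
    (f : D (r + 1)) (hf : f ∈ M r c) :
    S.Sq r (2 * a) (kap r f) + kap r (S.Sq r a f) ∈ NN S r (2 * c - r) := by
  have hk : 2 * c + 1 - r = 2 * c - r + 1 := by omega
  have h1 : kap r f ∈ M r (2 * c - r + 1) := hk ▸ kap_mem r c hf
  have h2 : kap r (S.Sq r a f) ∈ M r (2 * c - r + 1) := hk ▸ kap_mem r c (S.mem r c a f hf)
  apply mem_NN_of_PP h
  · exact (M r _).add_mem (S.mem r _ _ _ h1) h2
  · rw [map_add, PP_kap (by omega) (S.mem r c a f hf), h r, h r,
      PP_Sq_even (PP_kap (by omega) hf) a, CharTwo.add_self_eq_zero]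

theorem halfInput {S : Dick} (h : ∀ r a, S.Sq r a = Sq (r + 1) a) : HalfInput S :=
  ⟨last_dick h, fun r => ⟨PP r, top_dick h r, fun _ hc _ hf => PP_kap hc hf⟩, sq_dick h⟩

end Crest.Agent.R204.FA550
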