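import Crest.Agent.R204.Spine_693

/-!
# Row 204: spine, algebraic lemmas (helper693)
monomials of `M r k`, the parity/mod 4 lemma of section 07, the dual form of the extension (section 05).
-/

set_option autoImplicit false

noncomputable section

namespace Crest.Agent.R204.Spine693

open MvPolynomial Crest.Agent.R204

theorem mon_mem {r k : ℕ} (s : Fin (r + 1) →₀ ℕ) (h : k ≤ s 0) :
    (monomial s (1 : F2) : D (r + 1)) ∈ M r k := by
  intro t ht
  rw [coeff_monomial] at ht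
  by_cases hst : s = t
  · subst hst; exact h
  · simp [hst] at ht

/-- monomials of `M r k` -/
def mon {r k : ℕ} (s : Fin (r + 1) →₀ ℕ) (h : k ≤ s 0) : M r k := ⟨monomial s 1, mon_mem s h⟩

theorem M_sum {r k : ℕ} (g : M r k) :
    g = ∑ s ∈ (g : D (r + 1)).support.attach,
      ((g : D (r + 1)).coeff (s : Fin (r + 1) →₀ ℕ)) •
        mon (s : Fin (r + 1) →₀ ℕ) (g.2 s (mem_support_iff.1 s.2)) := by
  apply Subtype.ext
  rw [AddSubmonoidClass.coe_finsetSum]
  conv_lhs => rw [← support_sum_monomial_coeff (g : D (r + 1))]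
  rw [← Finset.sum_attach]
  refine Finset.sum_congr rfl fun s _ => ?_
  simp [mon, smul_monomial]

theorem mon_ext {r k : ℕ} {V : Type*} [AddCommGroup V] [Module F2 V] (f : M r k →ₗ[F2] V)
    (h : ∀ (s : Fin (r + 1) →₀ ℕ) (hs : k ≤ s 0), f (mon s hs) = 0) : f = 0 := by
  ext g
  rw [M_sum g, map_sum]
  simp only [map_smul, h, smul_zero, Finset.sum_const_zero, LinearMap.zero_apply]

theorem exists_mon {r k : ℕ} {V : Type*} [AddCommGroup V] [Module F2 V] (f : M r k →ₗ[F2] V)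
    (h : f ≠ 0) : ∃ (s : Fin (r + 1) →₀ ℕ) (hs : k ≤ s 0), f (mon s hs) ≠ 0 := by
  by_contra hc
  push Not at hc
  exact h (mon_ext f hc)

theorem mon_hom {r k : ℕ} (s : Fin (r + 1) →₀ ℕ) (h : k ≤ s 0) :
    IsWeightedHomogeneous (wt r) ((mon s h : M r k) : D (r + 1)) (Finsupp.weight (wt r) s) :=
  isWeightedHomogeneous_monomial _ _ _ rfl

theorem weight_eq (r : ℕ) (s : Fin (r + 1) →₀ ℕ) :
    Finsupp.weight (wt r) s = ∑ j, s j * wt r j := by
  rw [Finsupp.weight_apply, Finsupp.sum_fintype]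
  · rfl
  · intro i; simp

theorem wt_zero (r : ℕ) : wt r 0 = 2 ^ (r + 1) - 1 := by simp [wt]

theorem le_weight (r : ℕ) (s : Fin (r + 1) →₀ ℕ) : s 0 ≤ Finsupp.weight (wt r) s := by
  rw [weight_eq]
  calc s 0 ≤ s 0 * wt r 0 := by
        refine Nat.le_mul_of_pos_right _ ?_
        rw [wt_zero]
        have : 2 ≤ 2 ^ (r + 1) := by
          rw [pow_succ]; have := Nat.one_le_two_pow (n := r); omega
        omega
    _ ≤ _ := Finset.single_le_sum (f := fun j => s j * wt r j) (fun _ _ => Nat.zero_le _)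
        (Finset.mem_univ _)

/-- the degree mod 4 -/
theorem weight_mod4 (r : ℕ) (hr : 1 ≤ r) (s : Fin (r + 1) →₀ ℕ) :
    ((Finsupp.weight (wt r) s : ℕ) : ZMod 4) =
      - (s 0 : ZMod 4) + 2 * (s ⟨1, by omega⟩ : ZMod 4) := by
  rw [weight_eq]
  push_cast
  obtain ⟨r, rfl⟩ : ∃ q, r = q + 1 := ⟨r - 1, by omega⟩
  rw [Fin.sum_univ_succ, Fin.sum_univ_succ]
  have hw : ∀ j : Fin (r + 1 + 1), ((wt (r + 1) j : ℕ) : ZMod 4) = - (2 : ZMod 4) ^ (j : ℕ) := by
    intro j
    have hj : 2 ^ (j : ℕ) ≤ 2 ^ (r + 1 + 1) := Nat.pow_le_pow_right (by norm_num) (by omega)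
    rw [wt, Nat.cast_sub hj]
    push_cast
    have : (2 : ZMod 4) ^ (r + 1 + 1) = 0 := by
      rw [pow_add, pow_add, mul_assoc, show (2 : ZMod 4) ^ 1 * 2 ^ 1 = 0 from by decide, mul_zero]
    rw [this, zero_sub]
  have h0 : ∑ i : Fin r, ((s (Fin.succ (Fin.succ i)) : ℕ) : ZMod 4) *
      ((wt (r + 1) (Fin.succ (Fin.succ i)) : ℕ) : ZMod 4) = 0 := by
    refine Finset.sum_eq_zero fun i _ => ?_
    rw [hw]
    have : (2 : ZMod 4) ^ ((i.succ.succ : Fin (r + 1 + 1)) : ℕ) = 0 := by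
      simp only [Fin.val_succ]
      rw [pow_add, pow_add, mul_assoc, show (2 : ZMod 4) ^ 1 * 2 ^ 1 = 0 from by decide, mul_zero]
    rw [this, neg_zero, mul_zero]
  rw [h0, hw, hw]
  have e1 : (Fin.succ (0 : Fin (r + 1))) = (⟨1, by omega⟩ : Fin (r + 1 + 1)) := rfl
  rw [e1]
  simp only [Fin.val_zero, pow_zero, pow_one]
  have : (-2 : ZMod 4) = 2 := by decide
  linear_combination ((s ⟨1, by omega⟩ : ℕ) : ZMod 4) * this

/-- the degree mod 2 -/
theorem weight_mod2 (r : ℕ) (s : Fin (r + 1) →₀ ℕ) :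
    ((Finsupp.weight (wt r) s : ℕ) : ZMod 2) = (s 0 : ZMod 2) := by
  rw [weight_eq]
  push_cast
  rw [Fin.sum_univ_succ]
  have h0 : ∑ i : Fin r, ((s (Fin.succ i) : ℕ) : ZMod 2) *
      ((wt r (Fin.succ i) : ℕ) : ZMod 2) = 0 := by
    refine Finset.sum_eq_zero fun i _ => ?_
    have : ((wt r (Fin.succ i) : ℕ) : ZMod 2) = 0 := by
      rw [ZMod.natCast_eq_zero_iff]
      rw [wt]
      refine Nat.dvd_sub ?_ ?_
      · exact dvd_pow_self 2 (by omega)
      · exact dvd_pow_self 2 (by simp)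
    rw [this, mul_zero]
  have h1 : ((wt r 0 : ℕ) : ZMod 2) = 1 := by
    rw [wt_zero, Nat.cast_sub Nat.one_le_two_pow]
    push_cast
    have : (2 : ZMod 2) = 0 := by decide
    rw [this, zero_pow (by omega)]
    decide
  rw [h0, h1, mul_one, add_zero]

/-- section 07: the degree argument. -/
theorem no_even (S : Dick) (h61 : Lem61 S) (r k m : ℕ) (hm : Even m) (hkm : k + 1 ≤ 2 * m)
    (f : M r k →ₗ[F2] F2) (hf : f ≠ 0) (hA : ∀ a, 1 ≤ a → f ∘ₗ S.SqM r k a = 0)
    (hc : Conc f (2 * m - (k + 1))) (h2 : (f ∘ₗ inc r k) ∘ₗ inc r (k + 1) = 0) : False := by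
  obtain ⟨s, hs, hfs⟩ := exists_mon f hf
  have hdeg : Finsupp.weight (wt r) s = 2 * m - (k + 1) := by
    by_contra hne
    exact hfs (hc _ _ (mon_hom s hs) hne)
  -- a_0 ≤ k+1
  have hle : s 0 ≤ k + 1 := by
    by_contra hlt
    push Not at hlt
    have : ((f ∘ₗ inc r k) ∘ₗ inc r (k + 1)) (mon s (show k + 1 + 1 ≤ s 0 by omega)) = 0 := by
      rw [h2]; rfl
    exact hfs this
  -- parity
  have hpar : ((s 0 : ℕ) : ZMod 2) = ((k + 1 : ℕ) : ZMod 2) := by
    rw [← weight_mod2 r s, hdeg, Nat.cast_sub hkm]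
    push_cast
    have : (2 : ZMod 2) = 0 := by decide
    rw [this, zero_mul, zero_sub]
    have : ∀ x : ZMod 2, -x = x := by decide
    rw [this]
  have hs0 : s 0 = k + 1 := by
    rcases Nat.lt_or_ge (s 0) (k + 1) with h | h
    · exfalso
      have : s 0 = k := by omega
      rw [this] at hpar
      push_cast at hpar
      have h' : ∀ x : ZMod 2, x ≠ x + 1 := by decide
      exact h' _ hpar
    · omega
  have hA' : TypeA s := by
    by_contra hnA
    exact hfs (h61 r k f hA s (by omega) hnA (mon s hs) rfl)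
  obtain ⟨hodd, hsum⟩ := hA'
  rcases Nat.eq_zero_or_pos r with rfl | hr
  · -- rank one
    have : ∑ j, s j = s 0 := by simp
    rw [this, hs0] at hsum
    have hw : Finsupp.weight (wt 0) s = s 0 := by
      rw [weight_eq]; simp [wt]
    rw [hw, hs0] at hdeg
    have : k + 1 = m := by omega
    rw [this] at hsum
    exact (Nat.not_even_iff_odd.2 hsum) hm
  · -- rank at least two
    have h4 := weight_mod4 r hr s
    rw [hdeg, Nat.cast_sub hkm, ← hs0] at h4
    have h1 : Odd (s ⟨1, by omega⟩) := hodd _ (by simp [Fin.ext_iff])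
    obtain ⟨q, hq⟩ := h1
    obtain ⟨p, hp⟩ := hm
    rw [hq, hp] at h4
    push_cast at h4
    have e : (0 : ZMod 4) = 2 := by
      have h44 : (4 : ZMod 4) = 0 := by decide
      linear_combination h4 - (p : ZMod 4) * h44 + (q : ZMod 4) * h44
    revert e
    decide

end Crest.Agent.R204.Spine693
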