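import Mathlib
import Crest.Agent.R204.FB_166
import Crest.Agent.R204.SpineA_693

/-!
# Row 204, block F-D (helper166): 6.4, the induction, and Theorem 06
-/

set_option autoImplicit false

noncomputable section

namespace Crest.Agent.R204.F166

open MvPolynomial Crest.Agent.R204 Crest.Agent.R204.Spine693

/-- the `Sq^2` / `Sq_1` formulas of 6.4 (ii) -/
def SqForm (S : Dick) : Prop :=
  ∀ (r e : ℕ) (s : Fin (r + 1) →₀ ℕ), 1 ≤ r → 1 ≤ e → e ≤ 2 → Even (e + (r + 1)) → TypeA s →
    s 0 = e → ∃ x ∈ M r e, S.Sq r 2 x = S.Sq r (wd r s + e - 2) (monomial s 1)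

/-- instability -/
def Instab (S : Dick) : Prop :=
  ∀ (r a n : ℕ) (g : D (r + 1)), IsWeightedHomogeneous (wt r) g n → n < a → S.Sq r a g = 0

/-! ### the exponents `kapE` -/

theorem sum_two_pow (r : ℕ) : ∑ i : Fin r, ((2 : ℤ) ^ (r + 1) - 2 ^ ((i : ℕ) + 1)) =
    r * 2 ^ (r + 1) - 2 ^ (r + 1) + 2 := by
  rw [Finset.sum_sub_distrib]
  have h1 : ∑ i : Fin r, (2 : ℤ) ^ (r + 1) = r * 2 ^ (r + 1) := by simp
  have h2 : ∑ i : Fin r, (2 : ℤ) ^ ((i : ℕ) + 1) = 2 ^ (r + 1) - 2 := by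
    rw [Fin.sum_univ_eq_sum_range (fun i => (2 : ℤ) ^ (i + 1)) r]
    induction r with
    | zero => simp
    | succ r ih =>
      rw [Finset.sum_range_succ, ih]
      · ring
      · simp
  rw [h1, h2]; ring

theorem wt_int (r : ℕ) (i : Fin (r + 1)) : ((wt r i : ℕ) : ℤ) = 2 ^ (r + 1) - 2 ^ (i : ℕ) := by
  unfold wt
  rw [Nat.cast_sub (Nat.pow_le_pow_right (by norm_num) i.2.le)]
  push_cast
  rfl

/-- `|κ f²| = 2|f| + R` -/
theorem wd_kapE (r : ℕ) (J : Fin (r + 1) →₀ ℕ) (hJ : r + 1 ≤ 2 * J 0 + 2) :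
    wd r (kapE r J) = 2 * wd r J + (r + 1) := by
  rw [wd_eq, wd_eq, Fin.sum_univ_succ, Fin.sum_univ_succ]
  have h0 : kapE r J 0 = 2 * J 0 + 2 - (r + 1) := kapE_zero r J
  have h1 : ∀ i : Fin r, kapE r J i.succ = 2 * J i.succ + 1 := fun i =>
    kapE_ne r J (Fin.succ_ne_zero i)
  simp only [h0, h1]
  zify [hJ]
  have h2 : ∀ i : Fin r, ((wt r i.succ : ℕ) : ℤ) = 2 ^ (r + 1) - 2 ^ ((i : ℕ) + 1) := by
    intro i; rw [wt_int]; simp
  have h3 : ((wt r 0 : ℕ) : ℤ) = 2 ^ (r + 1) - 1 := by rw [wt_int]; simp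
  have h4 : ∑ i : Fin r, (2 * (J i.succ : ℤ) + 1) * ((wt r i.succ : ℕ) : ℤ) =
      2 * ∑ i : Fin r, (J i.succ : ℤ) * ((wt r i.succ : ℕ) : ℤ) +
      ∑ i : Fin r, ((2 : ℤ) ^ (r + 1) - 2 ^ ((i : ℕ) + 1)) := by
    rw [Finset.mul_sum, ← Finset.sum_add_distrib]
    refine Finset.sum_congr rfl fun i _ => ?_
    rw [h2 i]; ring
  rw [h4, sum_two_pow, h3]
  ring

/-- a type A exponent is `kapE J` -/
theorem exists_kapE {r c : ℕ} (s : Fin (r + 1) →₀ ℕ) (hA : TypeA s)
    (hs : 2 * c + 2 ≤ s 0 + (r + 1)) :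
    ∃ J : Fin (r + 1) →₀ ℕ, kapE r J = s ∧ c ≤ J 0 ∧ r + 1 ≤ 2 * J 0 + 2 := by
  obtain ⟨h1, h2⟩ := hA
  have hpar : Even (s 0 + (r + 1)) := by
    rw [Fin.sum_univ_succ] at h2
    have h3 : Even (∑ i : Fin r, s i.succ + r) := by
      have : ∑ i : Fin r, s i.succ + r = ∑ i : Fin r, (s i.succ + 1) := by
        rw [Finset.sum_add_distrib]; simp
      rw [this]
      exact Finset.even_sum _ fun i _ => (h1 i.succ (Fin.succ_ne_zero i)).add_one
    have h4 : Odd (s 0 + r) := by
      have h5 : Odd (s 0 + ∑ i : Fin r, s i.succ + (∑ i : Fin r, s i.succ + r)) := h2.add_even h3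
      have h6 : s 0 + ∑ i : Fin r, s i.succ + (∑ i : Fin r, s i.succ + r) =
        (s 0 + r) + 2 * ∑ i : Fin r, s i.succ := by ring
      rw [h6] at h5
      rw [← Nat.not_even_iff_odd] at h5 ⊢
      intro h7
      exact h5 (h7.add (even_two_mul _))
    have := h4.add_one
    rwa [add_assoc] at this
  obtain ⟨q, hq⟩ := hpar
  refine ⟨Finsupp.equivFunOnFinite.symm (fun i => if i = 0 then q - 1 else (s i - 1) / 2), ?_, ?_, ?_⟩
  · ext i
    by_cases hi : i = 0
    · subst hi
      rw [kapE_zero]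
      simp only [Finsupp.coe_equivFunOnFinite_symm, if_true]
      omega
    · rw [kapE_ne _ _ hi]
      simp only [Finsupp.coe_equivFunOnFinite_symm, if_neg hi]
      obtain ⟨m, hm⟩ := h1 i hi
      omega
  · simp only [Finsupp.coe_equivFunOnFinite_symm, if_true]
    omega
  · simp only [Finsupp.coe_equivFunOnFinite_symm, if_true]
    omega

theorem typeA_parity {r : ℕ} {s : Fin (r + 1) →₀ ℕ} (hA : TypeA s) : Even (s 0 + (r + 1)) := by
  obtain ⟨h1, h2⟩ := hA
  rw [Fin.sum_univ_succ] at h2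
  have h3 : Even (∑ i : Fin r, s i.succ + r) := by
    have : ∑ i : Fin r, s i.succ + r = ∑ i : Fin r, (s i.succ + 1) := by
      rw [Finset.sum_add_distrib]; simp
    rw [this]
    exact Finset.even_sum _ fun i _ => (h1 i.succ (Fin.succ_ne_zero i)).add_one
  have h4 : Odd (s 0 + r) := by
    have h5 : Odd (s 0 + ∑ i : Fin r, s i.succ + (∑ i : Fin r, s i.succ + r)) := h2.add_even h3
    have h6 : s 0 + ∑ i : Fin r, s i.succ + (∑ i : Fin r, s i.succ + r) =
      (s 0 + r) + 2 * ∑ i : Fin r, s i.succ := by ring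
    rw [h6] at h5
    rw [← Nat.not_even_iff_odd] at h5 ⊢
    intro h7
    exact h5 (h7.add (even_two_mul _))
  have := h4.add_one
  rwa [add_assoc] at this

/-- `kap` doubles degrees -/
theorem kap_hom (r c : ℕ) (hc : r + 1 ≤ 2 * c + 2) (f : D (r + 1)) (hf : f ∈ M r c) (i : ℕ)
    (hi : IsWeightedHomogeneous (wt r) f i) :
    IsWeightedHomogeneous (wt r) (kap r f) (2 * i + (r + 1)) := by
  rw [← support_sum_monomial_coeff f, map_sum]
  refine Submodule.sum_mem (weightedHomogeneousSubmodule F2 (wt r) _) fun s hs => ?_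
  have h2 : (monomial s (f.coeff s) : D (r + 1)) = f.coeff s • monomial s 1 := by
    rw [smul_monomial, smul_eq_mul, mul_one]
  rw [h2, map_smul, kap_monomial]
  refine Submodule.smul_mem _ _ ?_
  have h3 : c ≤ s 0 := hf s (mem_support_iff.1 hs)
  have h4 : wd r s = i := hi (mem_support_iff.1 hs)
  have h5 := homog_monomial r (kapE r s) 1
  rw [wd_kapE r s (by omega), h4] at h5
  exact h5

theorem kap_mem' (r c e : ℕ) (he : e + (r + 1) ≤ 2 * c + 2) (f : D (r + 1)) (hf : f ∈ M r c) :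
    kap r f ∈ M r e := by
  rw [← support_sum_monomial_coeff f, map_sum]
  refine Submodule.sum_mem _ fun s hs => ?_
  have h2 : (monomial s (f.coeff s) : D (r + 1)) = f.coeff s • monomial s 1 := by
    rw [smul_monomial, smul_eq_mul, mul_one]
  rw [h2, map_smul, kap_monomial]
  refine Submodule.smul_mem _ _ (monomial_mem_M ?_ 1)
  have h3 : c ≤ s 0 := hf s (mem_support_iff.1 hs)
  rw [kapE_zero]
  omega

/-! ### Adem relations needed -/

section Adem

variable {E : Type} [AddCommGroup E] [Module F2 E] {S : ℕ → (E →ₗ[F2] E)}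

/-- `Sq^2 Sq^2 = Sq^1 Sq^2 Sq^1` -/
theorem sq22 (h0 : S 0 = LinearMap.id) (h : BM S) (x : E) : S 2 (S 2 x) = S 1 (S 2 (S 1 x)) := by
  have h1 := (BM.isBM h0 h).adem 2 2 (by norm_num)
  have h2 := LinearMap.congr_fun h1 x
  have e1 : (S 2 * S 2 : Module.End F2 E) x = S 2 (S 2 x) := rfl
  rw [e1] at h2
  rw [h2, show 2 / 2 + 1 = 2 from rfl, Finset.sum_range_succ, Finset.sum_range_one]
  have e2 : ((Nat.choose (2 - 1 - 0) (2 - 2 * 0) : ℕ) : ZMod 2) = 0 := by decide
  have e3 : ((Nat.choose (2 - 1 - 1) (2 - 2 * 1) : ℕ) : ZMod 2) = 1 := by decide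
  rw [e2, e3, zero_smul, one_smul, zero_add, show 2 + 2 - 1 = 2 + 1 from rfl]
  have e4 : (S (2 + 1) * S 1 : Module.End F2 E) x = S (2 + 1) (S 1 x) := rfl
  rw [e4, sq_odd h0 h 2 even_two]

/-- `Sq^n = Sq^2 Sq^{n-2} + Sq^1 Sq^{n-2} Sq^1` for `n = 2n'`, `n'` odd `≥ 3` -/
theorem sq_two_mod_four (h0 : S 0 = LinearMap.id) (h : BM S) {n' : ℕ} (hn : Odd n') (hn3 : 3 ≤ n')
    (x : E) : S (2 * n') x = S 2 (S (2 * n' - 2) x) + S 1 (S (2 * n' - 2) (S 1 x)) := by
  have h1 := (BM.isBM h0 h).adem 2 (2 * n' - 2) (by omega)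
  have h2 := LinearMap.congr_fun h1 x
  have e1 : (S 2 * S (2 * n' - 2) : Module.End F2 E) x = S 2 (S (2 * n' - 2) x) := rfl
  rw [e1] at h2
  rw [h2, show 2 / 2 + 1 = 2 from rfl, Finset.sum_range_succ, Finset.sum_range_one]
  obtain ⟨q, hq⟩ := hn
  have e2 : ((Nat.choose (2 * n' - 2 - 1 - 0) (2 - 2 * 0) : ℕ) : ZMod 2) = 1 := by
    have : 2 * n' - 2 - 1 - 0 = 4 * (q - 1) + 3 := by omega
    rw [this, show 2 - 2 * 0 = 2 from rfl, Nat.choose_two_right]
    have h3 : (4 * (q - 1) + 3) * (4 * (q - 1) + 3 - 1) / 2 =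
        2 * ((4 * (q - 1) + 3) * (q - 1) + 2 * (q - 1) + 1) + 1 := by
      have : (4 * (q - 1) + 3) * (4 * (q - 1) + 3 - 1) =
          2 * (2 * ((4 * (q - 1) + 3) * (q - 1) + 2 * (q - 1) + 1) + 1) := by
        rw [show 4 * (q - 1) + 3 - 1 = 4 * (q - 1) + 2 by omega]; ring
      rw [this]; omega
    rw [h3]
    exact cast_odd (odd_two_mul_add_one _)
  have e3 : ((Nat.choose (2 * n' - 2 - 1 - 1) (2 - 2 * 1) : ℕ) : ZMod 2) = 1 := by simp
  rw [e2, e3, one_smul, one_smul]
  have e4 : (S (2 + (2 * n' - 2) - 0) * S 0 + S (2 + (2 * n' - 2) - 1) * S 1 :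
      Module.End F2 E) x = S (2 + (2 * n' - 2) - 0) (S 0 x) + S (2 + (2 * n' - 2) - 1) (S 1 x) := rfl
  rw [e4, h0, LinearMap.id_apply, show 2 + (2 * n' - 2) - 0 = 2 * n' by omega,
    show 2 + (2 * n' - 2) - 1 = (2 * n' - 2) + 1 by omega,
    sq_odd h0 h (2 * n' - 2) (by exact ⟨n' - 1, by omega⟩), add_assoc, add_self2, add_zero]

end Adem

/-! ### the inductive step -/

theorem ext_apply_zero_snd {S : Dick} {r e : ℕ} {φ : ℕ → (M r e →ₗ[F2] F2)} {a : ℕ} (ha : 1 ≤ a)
    (x : M r e × F2) : (extSq S r e φ a x).2 = φ a x.1 := by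
  obtain ⟨g, c⟩ := x
  rw [ext_apply ha]

/-- **Theorem 06** -/
theorem thm06 {S : Dick} (F : Facts S) (hH : Halving S) (hX : HalvingXi S) (hE : LemEven S)
    (hI : Instab S) (hSF : SqForm S) : Thm06 S := by
  intro r k m
  induction m using Nat.strong_induction_on generalizing k with
  | _ m IH =>
  intro hm ξ φ hξ hkm hcx han hcp hBM hc
  have h61 := lem61 F
  -- Step 1
  obtain ⟨s, hs, hξs⟩ := exists_mon ξ hξ
  have hwd : wd r s = m - k := by
    by_contra h
    exact hξs (hcx _ _ (mon_hom s hs) h)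
  have hpar0 : Even (s 0 + (k + 1)) := by
    have h1 := wd_parity r s
    rw [hwd] at h1
    have h2 : Odd (m - k + k) := by rwa [Nat.sub_add_cancel hkm]
    rw [Nat.even_add, Nat.even_add_one]
    rw [Nat.odd_add] at h2
    rw [← Nat.not_even_iff_odd] at h2
    tauto
  have hs1 : k + 1 ≤ s 0 := by
    by_contra h
    have h2 : s 0 = k := by omega
    rw [h2, ← add_assoc, ← two_mul] at hpar0
    exact (Nat.not_even_iff_odd.2 (odd_two_mul_add_one k)) hpar0
  have hA : TypeA s := by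
    by_contra hA
    exact hξs (h61 r k ξ han s hs1 hA (mon s hs) rfl)
  have hparA := typeA_parity hA
  have hpar2 : Even ((k + 1) + (r + 1)) := by
    rw [Nat.even_add] at hpar0 hparA ⊢
    tauto
  -- Step 2: normal form
  have hcT : ConcT r (k + 1) (2 * m + 2 - (k + 1)) φ := by
    intro a ha g i hg hi
    exact hcp a ha g i hg (by omega)
  have hparT : Even (2 * m + 2 - (k + 1) + (k + 1)) := by
    rw [Nat.sub_add_cancel (by omega)]
    exact ⟨m + 1, by ring⟩
  obtain ⟨l, hBM', hcT', hmil⟩ := normalForm F φ hBM hcT hparT hpar2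
  set φ' := phiN S r (k + 1) φ l with hφ'
  have hc' : ∀ g : M r (k + 1), φ' (m + 1) g = ξ (inc r k g) := by
    intro g
    rw [← hc g]
    have key : (l ∘ₗ S.SqM r (k + 1) (m + 1)) = 0 := by
      refine mon_ext _ fun u hu => ?_
      by_cases hd : wd r u + (m + 1) = 2 * m + 2 - (k + 1)
      · have : S.SqM r (k + 1) (m + 1) (mon u hu) = 0 := by
          apply Subtype.ext
          exact hI r (m + 1) (wd r u) _ (mon_hom u hu) (by omega)
        rw [LinearMap.comp_apply, this, map_zero]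
      · have h1 := hcT' (m + 1) (by omega) (mon u hu) _ (mon_hom u hu) hd
        have h2 := hcT (m + 1) (by omega) (mon u hu) _ (mon_hom u hu) hd
        rw [hφ'] at h1
        have h3 : phiN S r (k + 1) φ l (m + 1) (mon u hu) =
          φ (m + 1) (mon u hu) + (l ∘ₗ S.SqM r (k + 1) (m + 1)) (mon u hu) := rfl
        rw [h3, h2, zero_add] at h1
        exact h1
    have h3 : φ' (m + 1) g = φ (m + 1) g + (l ∘ₗ S.SqM r (k + 1) (m + 1)) g := rfl
    rw [h3, key, LinearMap.zero_apply, add_zero]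
  have hφ1 : ∀ g : M r (k + 1), φ' 1 g = 0 := by
    intro g
    have := hmil 1 le_rfl (by omega) g
    rwa [mil_one, ext_apply le_rfl] at this
  -- Step 3: halving
  obtain ⟨k', hk'⟩ : ∃ k', (k + 1) + (r + 1) = 2 * (k' + 1) := by
    obtain ⟨q, hq⟩ := hpar2
    exact ⟨q - 1, by omega⟩
  obtain ⟨n', hn'⟩ : ∃ n', m + 1 = 2 * n' := by
    obtain ⟨q, hq⟩ := hm
    exact ⟨q + 1, by omega⟩
  have hBMh := hH r (k + 1) (k' + 1) φ' (by omega) hk' hBM' hmil
  set φh := half φ' (k' + 1) with hφh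
  set ξh : M r k' →ₗ[F2] F2 := extD ξ ∘ₗ kap r ∘ₗ (M r k').subtype with hξh
  have hanh : ∀ a, 1 ≤ a → ξh ∘ₗ S.SqM r k' a = 0 := hX r k (k' + 1) ξ hk' han
  have hξh_apply : ∀ (J : Fin (r + 1) →₀ ℕ) (hJ : k' ≤ J 0), ξh (mon J hJ) =
      extD ξ (monomial (kapE r J) 1) := by
    intro J hJ
    rw [hξh]
    show extD ξ (kap r (monomial J 1)) = _
    rw [kap_monomial]
  have hφh_apply : ∀ (a : ℕ) (f : M r (k' + 1)), φh a f =
      φ' (2 * a) ⟨kap r f, kap_mem' r (k' + 1) (k + 1) (by omega) _ f.2⟩ := by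
    intro a f
    rw [hφh]
    show extD (φ' (2 * a)) (kap r f) = _
    rw [extD_apply]
  -- (c) for the halved data
  have hch : ∀ f : M r (k' + 1), φh n' f = ξh (inc r k' f) := by
    intro f
    rw [hφh_apply, ← hn', hc']
    rw [hξh]
    show _ = extD ξ (kap r f)
    rw [extD_apply ξ (kap r f) (kap_mem' r (k' + 1) k (by omega) _ f.2)]
    rfl
  have hcxh : Conc ξh (n' - (k' + 1)) := by
    intro g i hg hi
    rw [hξh]
    show extD ξ (kap r g) = 0
    have hgM : kap r g ∈ M r k := kap_mem' r k' k (by omega) _ g.2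
    rw [extD_apply ξ _ hgM]
    refine hcx _ (2 * i + (r + 1)) ?_ ?_
    · exact kap_hom r k' (by omega) _ g.2 i hg
    · omega
  have hcph : ∀ a, 1 ≤ a → ∀ (g : M r (k' + 1)) (i : ℕ),
      IsWeightedHomogeneous (wt r) (g : D (r + 1)) i → i + a + (k' + 1) ≠ 2 * n' → φh a g = 0 := by
    intro a ha g i hg hi
    rw [hφh_apply]
    refine hcT' (2 * a) (by omega) _ (2 * i + (r + 1)) ?_ ?_
    · exact kap_hom r (k' + 1) (by omega) _ g.2 i hg
    · omega
  -- the exponent `J` of `s`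
  obtain ⟨J, hJs, hJ0, hJ1⟩ := exists_kapE (c := k') s hA (by omega)
  have hξs' : extD ξ (monomial s 1) ≠ 0 := by
    rw [extD_apply ξ _ (monomial_mem_M hs 1)]
    exact hξs
  have hξhJ : ξh (mon J hJ0) ≠ 0 := by
    rw [hξh_apply, hJs]; exact hξs'
  have hξh0 : ξh ≠ 0 := by
    intro h0; rw [h0] at hξhJ; exact hξhJ rfl
  have hwdJ : wd r s = 2 * wd r J + (r + 1) := by rw [← hJs, wd_kapE r J hJ1]
  -- Step 4
  rcases Nat.even_or_odd n' with hne | hno
  · -- `n'` even
    obtain ⟨m', rfl⟩ : ∃ m', n' = m' + 1 := ⟨n' - 1, by omega⟩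
    have hm'odd : Odd m' := by
      rw [Nat.even_add_one, Nat.not_even_iff_odd] at hne; exact hne
    obtain ⟨h1, h2, l', h3⟩ := IH m' (by omega) k' hm'odd ξh φh hξh0 (by omega)
      (by
        have : m' - k' = m' + 1 - (k' + 1) := by omega
        rw [this]; exact hcxh) hanh
      (fun a ha g i hg hi => hcph a ha g i hg (by omega)) hBMh hch
    refine ⟨h1, by omega, l' + 1, ?_⟩
    rw [hn', h3, pow_succ]; ring
  · -- `n'` odd
    rcases Nat.lt_or_ge n' 3 with hn3 | hn3
    · -- `n' = 1`, `m = 1`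
      have hn1 : n' = 1 := by
        obtain ⟨q, hq⟩ := hno; omega
      have hwle := le_weight r s
      have hwe : wd r s = Finsupp.weight (wt r) s := rfl
      have hk0 : k = 0 := by omega
      have hw1 : wd r s = 1 := by omega
      refine ⟨by omega, hk0, 1, by omega⟩
    · exfalso
      -- `φh n' = 0` on `M_{k'+1}`
      have hle : k' + 1 ≤ n' := by omega
      have hφhn : φh n' = 0 := by
        refine hE r (k' + 1) n' (by omega) hle hno hn3 (φh n') (φh 1) ?_ ?_ ?_
        · intro g i hg hi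
          exact hcph n' (by omega) g i hg (by omega)
        · refine LinearMap.ext fun g => ?_
          have h1 := sq_one_sq ext_zero hBMh 1 (g, (0 : F2))
          rw [show ((1 + 1 : ℕ) : F2) = 0 from rfl, zero_smul] at h1
          have h2 := congrArg Prod.snd h1
          rw [ext_apply_zero_snd le_rfl, ext_fst] at h2
          exact h2
        · refine LinearMap.ext fun g => ?_
          have h0 : Even (n' - 1) := by
            obtain ⟨q, hq⟩ := hno; exact ⟨q, by omega⟩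
          have h1 := sq_odd ext_zero hBMh (n' - 1) h0 (g, (0 : F2))
          rw [Nat.sub_add_cancel (by omega)] at h1
          have h2 := congrArg Prod.snd h1
          rw [ext_apply_zero_snd (by omega), ext_apply_zero_snd le_rfl, ext_fst] at h2
          exact h2
      -- `a_0 = e`
      have hJk : J 0 = k' := by
        by_contra hne
        have hJ' : k' + 1 ≤ J 0 := by omega
        have h1 := hch (mon J hJ')
        rw [hφhn, LinearMap.zero_apply] at h1
        have h2 : inc r k' (mon J hJ') = mon J hJ0 := rfl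
        rw [h2] at h1
        exact hξhJ h1.symm
      have hs0 : s 0 = k + 1 := by
        rw [← hJs, kapE_zero, hJk]; omega
      -- `ξ(g) = φ'_2(Sq^{n-2} g)`
      have hg1 : φ' (m + 1) (mon s hs1) = ξ (mon s hs) := by
        rw [hc']; rfl
      have hg2 : φ' (m + 1) (mon s hs1) = φ' 2 (S.SqM r (k + 1) (2 * n' - 2) (mon s hs1)) := by
        have h1 := sq_two_mod_four ext_zero hBM' hno hn3 (mon s hs1, (0 : F2))
        have h2 := congrArg Prod.snd h1
        rw [Prod.snd_add, ext_apply_zero_snd (by omega), ext_apply_zero_snd (by omega),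
          ext_apply_zero_snd le_rfl, ext_fst, hφ1, add_zero, ← hn'] at h2
        rw [h2, hn']
      rw [← hg1, hg2] at hξs
      apply hξs
      rcases Nat.lt_or_ge 2 (k + 1) with he3 | he2
      · have : S.SqM r (k + 1) (2 * n' - 2) (mon s hs1) = 0 := by
          apply Subtype.ext
          exact hI r (2 * n' - 2) (wd r s) _ (mon_hom s hs1) (by omega)
        rw [this, map_zero]
      · rcases Nat.eq_zero_or_pos r with hr | hr
        · -- rank one, `e = 1`
          exfalso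
          subst hr
          have hk0 : k = 0 := by omega
          subst hk0
          have : wd 0 s = 1 := by
            rw [wd_eq]
            simp [hs0, wt]
          omega
        · obtain ⟨x, hx, hx2⟩ := hSF r (k + 1) s hr (by omega) he2 hpar2 hA hs0
          have h1 : S.SqM r (k + 1) (2 * n' - 2) (mon s hs1) = S.SqM r (k + 1) 2 ⟨x, hx⟩ := by
            apply Subtype.ext
            have : wd r s + (k + 1) - 2 = 2 * n' - 2 := by omega
            rw [this] at hx2
            exact hx2.symm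
          rw [h1]
          have h2 := sq22 ext_zero hBM' ((⟨x, hx⟩ : M r (k + 1)), (0 : F2))
          have h3 := congrArg Prod.snd h2
          rw [ext_apply_zero_snd (by omega), ext_apply_zero_snd le_rfl, ext_fst, hφ1] at h3
          exact h3

end Crest.Agent.R204.F166
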