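import Mathlib
import Crest.Agent.R204.FA3_550
import Crest.Agent.R204.FD_166

/-!
# Row 204, block F (helper787): the formulas for `Sq^2` and `Sq_1` (6.4), `SqForm`
-/

set_option autoImplicit false

noncomputable section

namespace Crest.Agent.R204.FSq787

open MvPolynomial
open Crest.Agent.R204.Spine693 (M TypeA)
open Crest.Agent.R204.FA550 (SQ Sq Q Top)

/-! ### `Sq^1`, `Sq^2` of products and squares -/

section basic

variable {R : ℕ}

lemma Sq_one_mul (x y : FA550.D R) : Sq R 1 (x * y) = x * Sq R 1 y + y * Sq R 1 x :=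
  FA550.Sq_one_mul R x y

lemma coeff_two_mul (p q : Polynomial (FA550.D R)) :
    (p * q).coeff 2 = p.coeff 0 * q.coeff 2 + p.coeff 1 * q.coeff 1 + p.coeff 2 * q.coeff 0 := by
  rw [Polynomial.coeff_mul, Finset.Nat.sum_antidiagonal_eq_sum_range_succ_mk]
  simp [Finset.sum_range_succ]

lemma SQ_coeff_zero (x : FA550.D R) : (SQ R x).coeff 0 = x := FA550.Sq_zero_apply R x

lemma Sq_two_mul (x y : FA550.D R) :
    Sq R 2 (x * y) = x * Sq R 2 y + Sq R 1 x * Sq R 1 y + Sq R 2 x * y := by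
  rw [FA550.Sq_apply, map_mul, coeff_two_mul, SQ_coeff_zero, SQ_coeff_zero]
  rfl

lemma Sq_one_sq (z : FA550.D R) : Sq R 1 (z ^ 2) = 0 := by
  rw [sq, Sq_one_mul]; exact CharTwo.add_self_eq_zero _

lemma Sq_two_sq (z : FA550.D R) : Sq R 2 (z ^ 2) = (Sq R 1 z) ^ 2 := by
  rw [sq, Sq_two_mul, sq]
  have := CharTwo.add_self_eq_zero (z * Sq R 2 z)
  linear_combination this

/-- killed by `Sq^1` and `Sq^2` -/
def Inert (y : FA550.D R) : Prop := Sq R 1 y = 0 ∧ Sq R 2 y = 0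

lemma Inert.one_mul {y : FA550.D R} (h : Inert y) (x : FA550.D R) :
    Sq R 1 (y * x) = y * Sq R 1 x := by
  rw [Sq_one_mul, h.1, mul_zero, add_zero]

lemma Inert.two_mul {y : FA550.D R} (h : Inert y) (x : FA550.D R) :
    Sq R 2 (y * x) = y * Sq R 2 x := by
  rw [Sq_two_mul, h.1, h.2, zero_mul, zero_mul, add_zero, add_zero]

lemma Inert.mul {y x : FA550.D R} (h : Inert y) (h' : Inert x) : Inert (y * x) :=
  ⟨by rw [h.one_mul, h'.1, mul_zero], by rw [h.two_mul, h'.2, mul_zero]⟩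

lemma inert_one : Inert (1 : FA550.D R) := by
  constructor <;> rw [FA550.Sq_apply, map_one, Polynomial.coeff_one] <;> simp

lemma Inert.pow {y : FA550.D R} (h : Inert y) (n : ℕ) : Inert (y ^ n) := by
  induction n with
  | zero => rw [pow_zero]; exact inert_one
  | succ n ih => rw [pow_succ]; exact ih.mul h

lemma inert_sq {z : FA550.D R} (h : Sq R 1 z = 0) : Inert (z ^ 2) :=
  ⟨Sq_one_sq z, by rw [Sq_two_sq, h]; simp⟩

lemma inert_four (k : FA550.D R) : Inert ((k ^ 2) ^ 2) := inert_sq (Sq_one_sq k)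

lemma Sq_one_prod {ι : Type*} (s : Finset ι) (f : ι → FA550.D R) (h : ∀ i ∈ s, Sq R 1 (f i) = 0) :
    Sq R 1 (∏ i ∈ s, f i) = 0 := by
  classical
  induction s using Finset.induction_on with
  | empty => rw [Finset.prod_empty]; exact inert_one.1
  | insert a s ha ih =>
    rw [Finset.prod_insert ha, Sq_one_mul, h a (Finset.mem_insert_self _ _),
      ih fun i hi => h i (Finset.mem_insert_of_mem hi), mul_zero, mul_zero, add_zero]

/-! ### generators -/

lemma Sq_one_Q {j : ℕ} (hR : 1 < R) (hj : j ≤ R) :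
    Sq R 1 (Q R j) = if j = 1 then Q R 0 else 0 := by
  rw [FA550.Sq_one_eq, FA550.del0_Q hR hj]

lemma Sq_two_Q {j : ℕ} (hR : 2 < R) (hj : j ≤ R) :
    Sq R 2 (Q R j) = if j = 2 then Q R 1 else 0 := by
  rcases Nat.lt_or_ge j R with h | h
  swap
  · obtain rfl : j = R := le_antisymm hj h
    rw [FA550.Q_self, inert_one.2, if_neg (by omega)]
  have h8 : (2:ℕ) ^ R = 2 * 2 ^ (R - 1) := by rw [← pow_succ']; congr 1; omega
  have h4 : (4:ℕ) ≤ 2 ^ (R - 1) := by
    have := FA550.two_pow_le (show 2 ≤ R - 1 by omega)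
    simpa using this
  have hlt : ∀ a, a < R → (4:ℕ) ≤ 2 ^ R - 2 ^ a := by
    intro a ha
    have := FA550.two_pow_le (show a ≤ R - 1 by omega)
    omega
  rw [FA550.Sq_apply, FA550.SQ_Q h, FA550.SQgen_eq, Polynomial.coeff_add, Polynomial.coeff_mul_C,
    Polynomial.coeff_X_pow, if_neg (by have := hlt j h; omega), zero_mul, zero_add,
    FA550.fAB_coeff]
  by_cases hj2 : j = 2
  · subst hj2
    rw [if_pos rfl, Finset.sum_eq_single 1, Finset.sum_eq_single R]
    · rw [if_pos (by simp), FA550.Q_self, mul_one]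
    · intro a ha haR
      have ha0 := Finset.mem_Ioc.1 ha
      rw [if_neg]
      have := hlt a (by omega)
      simp; omega
    · intro h'; exact absurd (Finset.mem_Ioc.2 ⟨h, le_rfl⟩) h'
    · intro b hb hb1
      refine Finset.sum_eq_zero fun a ha => ?_
      have ha0 := Finset.mem_Ioc.1 ha
      have hb0 := Finset.mem_range.1 hb
      rw [if_neg]
      rcases Nat.lt_or_ge a R with haR | haR
      · have := hlt a haR
        omega
      · obtain rfl : a = R := by omega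
        have : b = 0 ∨ b = 2 := by omega
        rcases this with rfl | rfl <;> simp
    · intro h'; simp at h'
  · rw [if_neg hj2]
    refine Finset.sum_eq_zero fun b hb => Finset.sum_eq_zero fun a ha => ?_
    have ha0 := Finset.mem_Ioc.1 ha
    have hb0 := Finset.mem_range.1 hb
    rw [if_neg]
    rcases Nat.lt_or_ge a R with haR | haR
    · have := hlt a haR
      omega
    · obtain rfl : a = R := by omega
      rw [Nat.sub_self, add_zero]
      intro h2
      have hbj := FA550.two_pow_le (show b ≤ j by omega)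
      rcases Nat.lt_or_ge j 2 with hj' | hj'
      · have h5 : j = 0 ∨ j = 1 := by omega
        rcases h5 with rfl | rfl
        · have := Nat.one_le_two_pow (n := b)
          omega
        · have := Nat.one_le_two_pow (n := b)
          omega
      · have h6 : 8 ≤ 2 ^ j := by
          have := FA550.two_pow_le (show 3 ≤ j by omega)
          simpa using this
        have h7 : 8 ∣ 2 ^ j := by
          have := pow_dvd_pow 2 (show 3 ≤ j by omega)
          simpa using this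
        rcases Nat.lt_or_ge b 3 with hb3 | hb3
        · have h5 : b = 0 ∨ b = 1 ∨ b = 2 := by omega
          rcases h5 with rfl | rfl | rfl <;> omega
        · have h9 : 8 ∣ 2 ^ b := by
            have := pow_dvd_pow 2 hb3
            simpa using this
          omega

lemma Sq_two_Q_two : Sq 2 2 (Q 2 1) = Q 2 1 ^ 2 := by
  rw [FA550.Sq_apply, FA550.SQ_Q (by norm_num), FA550.SQgen_eq, Polynomial.coeff_add,
    Polynomial.coeff_mul_C, Polynomial.coeff_X_pow, if_pos (by norm_num), one_mul, FA550.fAB_coeff]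
  have : ∑ b ∈ Finset.range (1 + 1), ∑ a ∈ Finset.Ioc 1 2,
      (if 2 = (2 ^ 1 - 2 ^ b) + (2 ^ 2 - 2 ^ a) then Q 2 b * Q 2 a else 0) = 0 := by
    refine Finset.sum_eq_zero fun b hb => Finset.sum_eq_zero fun a ha => ?_
    have ha0 := Finset.mem_Ioc.1 ha
    have hb0 := Finset.mem_range.1 hb
    obtain rfl : a = 2 := by omega
    have : b = 0 ∨ b = 1 := by omega
    rw [if_neg]
    rcases this with rfl | rfl <;> simp
  rw [this, add_zero]

lemma Sq_two_Q1Q2 (hR : 1 < R) : Sq R 2 (Q R 1 * Q R 2) = Q R 1 ^ 2 := by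
  rcases Nat.lt_or_ge 2 R with h | h
  · rw [Sq_two_mul, Sq_two_Q h (by omega), Sq_two_Q h (by omega), if_pos rfl, if_neg (by norm_num),
      Sq_one_Q hR (by omega), Sq_one_Q hR (by omega), if_pos rfl, if_neg (by norm_num)]
    ring
  · obtain rfl : R = 2 := by omega
    rw [FA550.Q_self, mul_one, Sq_two_Q_two]

lemma Sq_two_Q1sqQ2 (hR : 2 < R) :
    Sq R 2 (Q R 1 ^ 2 * Q R 2) = Q R 1 ^ 3 + Q R 0 ^ 2 * Q R 2 := by
  rw [Sq_two_mul, Sq_two_Q hR (by omega), if_pos rfl, Sq_one_sq, Sq_two_sq,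
    Sq_one_Q (j := 1) (by omega) (by omega), if_pos rfl]
  ring

lemma inert_Q {j : ℕ} (hR : 2 < R) (hj : j ≤ R) (h1 : j ≠ 1) (h2 : j ≠ 2) : Inert (Q R j) :=
  ⟨by rw [Sq_one_Q (by omega) hj, if_neg h1], by rw [Sq_two_Q hR hj, if_neg h2]⟩

end basic

/-! ### the second leading coefficient of a squarefree product -/

open Classical in
lemma Top_prod (r : ℕ) (s : Finset (Fin (r + 1))) :
    Top r (∑ i ∈ s, Spine693.wt r i) ((∏ i ∈ s, (X i : FA550.D (r + 1))) ^ 2)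
      (∑ j ∈ s, (∏ i ∈ s.erase j, (X i : FA550.D (r + 1))) ^ 2 * (Q (r + 1) 0 * Q (r + 1) ((j : ℕ) + 1)))
      (SQ (r + 1) (∏ i ∈ s, X i)) := by
  induction s using Finset.induction_on with
  | empty => simpa using Top.one r
  | insert a s ha ih =>
    have h1 : Top r (Spine693.wt r a) ((X a : FA550.D (r + 1)) ^ 2)
        (Q (r + 1) 0 * Q (r + 1) ((a : ℕ) + 1)) (SQ (r + 1) (X a)) := by
      have := FA550.SQgen_Top a.2
      rw [← FA550.SQ_Q a.2, FA550.Q_coe] at this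
      exact this
    have h2 := h1.mul ih
    rw [Finset.sum_insert ha, Finset.prod_insert ha, map_mul, mul_pow, Finset.sum_insert ha,
      Finset.erase_insert ha]
    have h3 : ∑ j ∈ s, (∏ i ∈ (insert a s).erase j, (X i : FA550.D (r + 1))) ^ 2 *
        (Q (r + 1) 0 * Q (r + 1) ((j : ℕ) + 1)) = (X a) ^ 2 *
        ∑ j ∈ s, (∏ i ∈ s.erase j, (X i : FA550.D (r + 1))) ^ 2 *
          (Q (r + 1) 0 * Q (r + 1) ((j : ℕ) + 1)) := by
      rw [Finset.mul_sum]
      refine Finset.sum_congr rfl fun j hj => ?_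
      have hja : j ≠ a := fun h => ha (h ▸ hj)
      rw [Finset.erase_insert_of_ne hja.symm, Finset.prod_insert (fun h => ha (Finset.mem_of_mem_erase h)),
        mul_pow, mul_assoc]
    rw [h3]
    have h4 : (∏ i ∈ s, (X i : FA550.D (r + 1))) ^ 2 * (Q (r + 1) 0 * Q (r + 1) ((a : ℕ) + 1)) +
        X a ^ 2 * ∑ j ∈ s, (∏ i ∈ s.erase j, (X i : FA550.D (r + 1))) ^ 2 *
          (Q (r + 1) 0 * Q (r + 1) ((j : ℕ) + 1)) =
        X a ^ 2 * ∑ j ∈ s, (∏ i ∈ s.erase j, (X i : FA550.D (r + 1))) ^ 2 *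
          (Q (r + 1) 0 * Q (r + 1) ((j : ℕ) + 1)) +
        (Q (r + 1) 0 * Q (r + 1) ((a : ℕ) + 1)) * (∏ i ∈ s, (X i : FA550.D (r + 1))) ^ 2 := by ring
    rw [h4]
    exact h2

lemma Top_four {r n : ℕ} {g g' : FA550.D (r + 1)} {p : Polynomial (FA550.D (r + 1))}
    (h : Top r n g g' p) : Top r (n + n) (g ^ 2) 0 (p ^ 2) := by
  have h1 := h.mul h
  have h2 : g * g' + g' * g = 0 := by
    rw [mul_comm g g']; exact CharTwo.add_self_eq_zero (g' * g)
  rw [h2, ← sq, ← sq] at h1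
  exact h1

/-- `Sq_1` of `k² · ∏_{i ∈ s} Q_i` -/
lemma Sq_sub_one (r : ℕ) (s : Finset (Fin (r + 1))) (t : Fin (r + 1) →₀ ℕ)
    (h1 : 1 ≤ 2 * Finsupp.weight (Spine693.wt r) t + ∑ i ∈ s, Spine693.wt r i) :
    Sq (r + 1) (2 * Finsupp.weight (Spine693.wt r) t + ∑ i ∈ s, Spine693.wt r i - 1)
      ((monomial t 1) ^ 2 * ∏ i ∈ s, X i) =
    ((monomial t 1 : FA550.D (r + 1)) ^ 2) ^ 2 *
      ∑ j ∈ s, (∏ i ∈ s.erase j, (X i : FA550.D (r + 1))) ^ 2 *
        (Q (r + 1) 0 * Q (r + 1) ((j : ℕ) + 1)) := by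
  obtain ⟨g', hg⟩ := FA550.SQ_monomial_Top r t
  have h2 := (Top_four hg).mul (Top_prod r s)
  have h3 : SQ (r + 1) ((monomial t 1) ^ 2 * ∏ i ∈ s, X i) =
      SQ (r + 1) (monomial t 1) ^ 2 * SQ (r + 1) (∏ i ∈ s, X i) := by rw [map_mul, map_pow]
  rw [← h3, zero_mul, add_zero, ← two_mul] at h2
  exact h2.2.2.1 h1

/-! ### type A monomials -/

/-- half of an exponent -/
def hf {r : ℕ} (s : Fin (r + 1) →₀ ℕ) : Fin (r + 1) →₀ ℕ := s.mapRange (fun n => n / 2) rfl

lemma hf_apply {r : ℕ} (s : Fin (r + 1) →₀ ℕ) (i : Fin (r + 1)) : hf s i = s i / 2 :=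
  Finsupp.mapRange_apply (hf := rfl)

lemma mon_eq {r : ℕ} (s : Fin (r + 1) →₀ ℕ) (S : Finset (Fin (r + 1)))
    (hS : ∀ i, i ∈ S ↔ Odd (s i)) :
    (monomial s 1 : FA550.D (r + 1)) = (monomial (hf s) 1) ^ 2 * ∏ i ∈ S, X i := by
  rw [monomial_eq, monomial_eq, map_one, one_mul, one_mul, Finsupp.prod_fintype _ _ (by simp),
    Finsupp.prod_fintype _ _ (by simp), ← Finset.prod_pow]
  have h1 : ∏ i ∈ S, (X i : FA550.D (r + 1)) = ∏ i, (X i) ^ (s i % 2) := by
    rw [← Finset.prod_subset (Finset.subset_univ S)]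
    · refine Finset.prod_congr rfl fun i hi => ?_
      rw [Nat.odd_iff.1 ((hS i).1 hi), pow_one]
    · intro i _ hi
      have : s i % 2 = 0 := by
        have := mt (hS i).2 hi
        rw [Nat.not_odd_iff_even, Nat.even_iff] at this
        exact this
      rw [this, pow_zero]
  rw [h1, ← Finset.prod_mul_distrib]
  refine Finset.prod_congr rfl fun i _ => ?_
  rw [hf_apply, ← pow_mul, ← pow_add]
  congr 1
  omega

lemma wd_hf {r : ℕ} (s : Fin (r + 1) →₀ ℕ) (S : Finset (Fin (r + 1)))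
    (hS : ∀ i, i ∈ S ↔ Odd (s i)) :
    F166.wd r s = 2 * Finsupp.weight (Spine693.wt r) (hf s) + ∑ i ∈ S, Spine693.wt r i := by
  have h1 : ∑ i ∈ S, Spine693.wt r i = ∑ i, (s i % 2) * Spine693.wt r i := by
    rw [← Finset.sum_subset (Finset.subset_univ S)]
    · refine Finset.sum_congr rfl fun i hi => ?_
      rw [Nat.odd_iff.1 ((hS i).1 hi), one_mul]
    · intro i _ hi
      have : s i % 2 = 0 := by
        have := mt (hS i).2 hi
        rw [Nat.not_odd_iff_even, Nat.even_iff] at this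
        exact this
      rw [this, zero_mul]
  have h2 : Finsupp.weight (Spine693.wt r) (hf s) = ∑ i, hf s i * Spine693.wt r i := F166.wd_eq r (hf s)
  rw [F166.wd_eq, h1, h2, Finset.mul_sum, ← Finset.sum_add_distrib]
  refine Finset.sum_congr rfl fun i _ => ?_
  rw [hf_apply, ← mul_assoc, ← add_mul]
  congr 1
  omega

section main

variable {r : ℕ} (hr : 1 ≤ r)

/-- the index `1` -/
def i1 : Fin (r + 1) := ⟨1, by omega⟩

lemma Q_one : Q (r + 1) 1 = X (i1 hr) := FA550.Q_lt (by omega)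

lemma i1_ne : i1 hr ≠ 0 := by
  intro h
  have := congrArg Fin.val h
  simp [i1] at this

/-- the indices `≥ 2` -/
def E2 : Finset (Fin (r + 1)) := (Finset.univ.erase 0).erase (i1 hr)

lemma mem_E2 {i : Fin (r + 1)} (hi : i ∈ E2 hr) : (i : ℕ) ≠ 0 ∧ (i : ℕ) ≠ 1 := by
  unfold E2 at hi
  have h1 := Finset.ne_of_mem_erase hi
  have h2 := Finset.ne_of_mem_erase (Finset.mem_of_mem_erase hi)
  refine ⟨fun h => h2 (Fin.ext h), fun h => h1 (Fin.ext h)⟩

lemma Sq_one_X {i : Fin (r + 1)} (hi : (i : ℕ) ≠ 1) (hr : 1 ≤ r) :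
    Sq (r + 1) 1 (X i : FA550.D (r + 1)) = 0 := by
  rw [← FA550.Q_coe i, Sq_one_Q (by omega) i.2.le, if_neg hi]

include hr in
lemma case_two (s : Fin (r + 1) →₀ ℕ) (hA : ∀ j : Fin (r + 1), j ≠ 0 → Odd (s j)) (h0 : s 0 = 2) :
    ∃ x ∈ M r 2, Sq (r + 1) 2 x = Sq (r + 1) (F166.wd r s + 2 - 2) (monomial s 1) := by
  have hS : ∀ i, i ∈ Finset.univ.erase (0 : Fin (r + 1)) ↔ Odd (s i) := by
    intro i
    by_cases hi : i = 0
    · subst hi
      rw [h0]
      simp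
    · exact ⟨fun _ => hA i hi, fun _ => Finset.mem_erase.2 ⟨hi, Finset.mem_univ _⟩⟩
  set k : FA550.D (r + 1) := monomial (hf s) 1 with hk
  set B : FA550.D (r + 1) := ∏ i ∈ E2 hr, X i with hB
  have h1 : Sq (r + 1) 1 (B * k ^ 2) = 0 := by
    rw [Sq_one_mul, Sq_one_sq, hB, Sq_one_prod _ _ fun i hi => Sq_one_X (mem_E2 hr hi).2 hr,
      mul_zero, mul_zero, add_zero]
  have h2 : (∏ i ∈ Finset.univ.erase (0 : Fin (r + 1)), (X i : FA550.D (r + 1))) =
      Q (r + 1) 1 * B := by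
    rw [Q_one hr, hB]
    exact (Finset.mul_prod_erase _ _ (Finset.mem_erase.2 ⟨i1_ne hr, Finset.mem_univ _⟩)).symm
  refine ⟨(B * k ^ 2) ^ 2 * (Q (r + 1) 1 * Q (r + 1) 2), ?_, ?_⟩
  · rw [FA550.mem_M_iff]
    have h3 : (X 0 : FA550.D (r + 1)) ∣ k := by
      rw [hk, X_dvd_monomial]
      right
      rw [hf_apply, h0]; norm_num
    refine Dvd.dvd.mul_right ?_ _
    refine pow_dvd_pow_of_dvd ?_ 2
    exact Dvd.dvd.mul_left (h3.trans (dvd_pow_self _ two_ne_zero)) _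
  · rw [(inert_sq h1).two_mul, Sq_two_Q1Q2 (by omega), Nat.add_sub_cancel,
      FA550.Sq_top (isWeightedHomogeneous_monomial _ _ _ rfl), mon_eq s _ hS, h2]
    ring

include hr in
lemma case_one (s : Fin (r + 1) →₀ ℕ) (hr2 : 2 ≤ r) (hA : ∀ j : Fin (r + 1), j ≠ 0 → Odd (s j))
    (h0 : s 0 = 1) :
    ∃ x ∈ M r 1, Sq (r + 1) 2 x = Sq (r + 1) (F166.wd r s + 1 - 2) (monomial s 1) := by
  have hS : ∀ i, i ∈ (Finset.univ : Finset (Fin (r + 1))) ↔ Odd (s i) := by
    intro i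
    by_cases hi : i = 0
    · subst hi
      rw [h0]
      simp
    · exact ⟨fun _ => hA i hi, fun _ => Finset.mem_univ _⟩
  set k : FA550.D (r + 1) := monomial (hf s) 1 with hk
  set B : FA550.D (r + 1) := ∏ i ∈ E2 hr, X i with hB
  set Bj : Fin (r + 1) → FA550.D (r + 1) := fun j => ∏ i ∈ (E2 hr).erase j, X i with hBj
  have hBin : Inert (B ^ 2) :=
    inert_sq (Sq_one_prod _ _ fun i hi => Sq_one_X (mem_E2 hr hi).2 hr)
  have hBjin : ∀ j, Inert ((Bj j) ^ 2) := fun j =>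
    inert_sq (Sq_one_prod _ _ fun i hi => Sq_one_X (mem_E2 hr (Finset.mem_of_mem_erase hi)).2 hr)
  have hQ0 : Inert (Q (r + 1) 0) := inert_Q (by omega) (by omega) (by norm_num) (by norm_num)
  have hk4 : Inert ((k ^ 2) ^ 2) := inert_four k
  refine ⟨(k ^ 2) ^ 2 * (Q (r + 1) 0 * (B ^ 2 * (Q (r + 1) 1 ^ 2 * Q (r + 1) 2)) +
    ∑ j ∈ E2 hr, Q (r + 1) 0 ^ 3 * (Q (r + 1) ((j : ℕ) + 1) * ((Bj j) ^ 2 *
      (Q (r + 1) 1 * Q (r + 1) 2)))), ?_, ?_⟩
  · rw [FA550.mem_M_iff, pow_one, ← FA550.Q_zero_eq]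
    refine Dvd.dvd.mul_left (dvd_add (dvd_mul_right _ _) (Finset.dvd_sum fun j _ => ?_)) _
    exact Dvd.dvd.mul_right (dvd_pow_self _ three_ne_zero) _
  · rw [hk4.two_mul, map_add, map_sum, hQ0.two_mul, hBin.two_mul, Sq_two_Q1sqQ2 (by omega)]
    have h3 : ∀ j ∈ E2 hr, Sq (r + 1) 2 (Q (r + 1) 0 ^ 3 * (Q (r + 1) ((j : ℕ) + 1) * ((Bj j) ^ 2 *
        (Q (r + 1) 1 * Q (r + 1) 2)))) = Q (r + 1) 0 ^ 3 * (Q (r + 1) ((j : ℕ) + 1) * ((Bj j) ^ 2 *
        Q (r + 1) 1 ^ 2)) := by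
      intro j hj
      have hj' := mem_E2 hr hj
      have hjin : Inert (Q (r + 1) ((j : ℕ) + 1)) :=
        inert_Q (by omega) (by omega) (by omega) (by omega)
      rw [(hQ0.pow 3).two_mul, hjin.two_mul, (hBjin j).two_mul, Sq_two_Q1Q2 (by omega)]
    rw [Finset.sum_congr rfl h3]
    have hwd := wd_hf s _ hS
    have hpos : 1 ≤ ∑ i, Spine693.wt r i := by
      refine le_trans ?_ (Finset.single_le_sum (fun i _ => Nat.zero_le _) (Finset.mem_univ 0))
      have := FA550.two_pow_lt (show 0 < r + 1 by omega)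
      unfold Spine693.wt
      simp only [Fin.val_zero]
      omega
    have h4 := Sq_sub_one r Finset.univ (hf s) (by omega)
    rw [show F166.wd r s + 1 - 2 = F166.wd r s - 1 by omega, hwd, mon_eq s _ hS, h4]
    congr 1
    rw [← Finset.add_sum_erase _ _ (Finset.mem_univ (0 : Fin (r + 1))),
      ← Finset.add_sum_erase _ _ (Finset.mem_erase.2 ⟨i1_ne hr, Finset.mem_univ (i1 hr)⟩)]
    have h5 : (∏ i ∈ Finset.univ.erase (0 : Fin (r + 1)), (X i : FA550.D (r + 1))) =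
        Q (r + 1) 1 * B := by
      rw [Q_one hr, hB]
      exact (Finset.mul_prod_erase _ _ (Finset.mem_erase.2 ⟨i1_ne hr, Finset.mem_univ _⟩)).symm
    have h6 : (∏ i ∈ Finset.univ.erase (i1 hr), (X i : FA550.D (r + 1))) =
        Q (r + 1) 0 * B := by
      rw [FA550.Q_zero_eq, hB, E2, Finset.erase_right_comm]
      exact (Finset.mul_prod_erase _ _ (Finset.mem_erase.2 ⟨(i1_ne hr).symm, Finset.mem_univ _⟩)).symm
    have h7 : ∀ j ∈ E2 hr, (∏ i ∈ Finset.univ.erase j, (X i : FA550.D (r + 1))) =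
        Q (r + 1) 0 * (Q (r + 1) 1 * Bj j) := by
      intro j hj
      have hj' := mem_E2 hr hj
      have hj0 : j ≠ 0 := fun h => hj'.1 (by rw [h]; rfl)
      have hj1 : j ≠ i1 hr := fun h => hj'.2 (by rw [h]; rfl)
      rw [FA550.Q_zero_eq, Q_one hr, hBj, E2]
      have e1 : (((Finset.univ.erase (0 : Fin (r + 1))).erase (i1 hr)).erase j) =
          ((Finset.univ.erase j).erase 0).erase (i1 hr) := by
        rw [Finset.erase_right_comm (s := Finset.univ.erase 0), Finset.erase_right_comm (s := Finset.univ)]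
      simp only []
      rw [e1, Finset.mul_prod_erase _ _ (Finset.mem_erase.2 ⟨i1_ne hr, Finset.mem_erase.2
        ⟨hj1.symm, Finset.mem_univ _⟩⟩), Finset.mul_prod_erase _ _ (Finset.mem_erase.2
        ⟨hj0.symm, Finset.mem_univ _⟩)]
    have h8 : ∑ j ∈ (Finset.univ.erase (0 : Fin (r + 1))).erase (i1 hr),
        (∏ i ∈ Finset.univ.erase j, (X i : FA550.D (r + 1))) ^ 2 *
        (Q (r + 1) 0 * Q (r + 1) ((j : ℕ) + 1)) = ∑ j ∈ E2 hr, Q (r + 1) 0 ^ 3 *
        (Q (r + 1) ((j : ℕ) + 1) * ((Bj j) ^ 2 * Q (r + 1) 1 ^ 2)) := by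
      refine Finset.sum_congr rfl fun j hj => ?_
      rw [h7 j hj]; ring
    rw [h8, h5, h6]
    have e2 : ((i1 hr : Fin (r + 1)) : ℕ) + 1 = 2 := rfl
    have e3 : ((0 : Fin (r + 1)) : ℕ) + 1 = 1 := rfl
    rw [e2, e3]
    ring

end main

/-- the formulas of 6.4 (ii) at the level of `Sq (r+1)` -/
theorem sqForm {r e : ℕ} (s : Fin (r + 1) →₀ ℕ) (hr : 1 ≤ r) (he : 1 ≤ e) (he2 : e ≤ 2)
    (hev : Even (e + (r + 1))) (hA : TypeA s) (h0 : s 0 = e) :
    ∃ x ∈ M r e, Sq (r + 1) 2 x = Sq (r + 1) (F166.wd r s + e - 2) (monomial s 1) := by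
  have h1 : e = 1 ∨ e = 2 := by omega
  rcases h1 with rfl | rfl
  · refine case_one hr s ?_ hA.1 h0
    rcases hev with ⟨m, hm⟩
    omega
  · exact case_two hr s hA.1 h0

theorem sqForm_of {S : Spine693.Dick} (h : ∀ r a, S.Sq r a = FA550.Sq (r + 1) a) :
    F166.SqForm S := by
  intro r e s hr he he2 hev hA h0
  rw [h, h]
  exact sqForm s hr he he2 hev hA h0

end Crest.Agent.R204.FSq787
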