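import Mathlib
import Crest.Agent.R204.FA5_550
import Crest.Agent.R204.FD_166
import Crest.Agent.R204.DickInst_91
import Crest.Agent.R204.FSq_787

/-!
# Row 204, block F: assembly (helper550)

`Dick91.dick : Spine693.Dick` (the Dickson algebras with their Steenrod operations) satisfies
Lemma 6.1, the even case `LemEven` and Theorem 06.
-/

set_option autoImplicit false

noncomputable section

namespace Crest.Agent.R204.F550

open MvPolynomial Crest.Agent.R204 Crest.Agent.R204.Spine693 Crest.Agent.R204.F166

theorem instab_of {S : Dick} (h : ∀ r a, S.Sq r a = FA550.Sq (r + 1) a) : Instab S := by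
  intro r a n g hg hn
  rw [h]
  exact FA550.Sq_gt hg hn

theorem thm06_of {S : Dick} (h : ∀ r a, S.Sq r a = FA550.Sq (r + 1) a) (hSF : SqForm S) :
    Thm06 S :=
  thm06 (facts_dick h) (FC787.halving S (FA550.halfInput h)) (FC787.halvingXi S (FA550.halfInput h))
    (lemEven_dick h) (instab_of h) hSF

theorem lem61_of {S : Dick} (h : ∀ r a, S.Sq r a = FA550.Sq (r + 1) a) : Lem61 S :=
  lem61 (facts_dick h)

theorem lem61_dick : Lem61 DickInst91.dick := lem61_of fun _ _ => rfl

theorem lemEven_dick' : LemEven DickInst91.dick := lemEven_dick fun _ _ => rfl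

/-- **Theorem 06** (section 06 of the paper proof) for the Dickson algebras -/
theorem thm06_dick : Thm06 DickInst91.dick :=
  thm06_of (fun _ _ => rfl) (FSq787.sqForm_of fun _ _ => rfl)

end Crest.Agent.R204.F550
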