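import Crest.Agent.R204.HopfZ_407

/-!
Row 204: the `k = 0` side of section 04, part 2: weight components, Steenrod operations,
lowest weight component (helper407).
-/

set_option autoImplicit false

namespace Crest.Agent.R204.HopfZ407

open MvPolynomial TensorProduct
open scoped TensorProduct
open Crest.Agent.R204 Crest.Agent.R204.Spec114 Crest.Agent.R204.Spec114.Tower

section main

variable {X : Tower} {D : ℕ} (h : Hyp X D)

include h in
theorem Hyp.inj_Sle {p : MvPolynomial Wd0 F2} (hp : p ∈ Rng114.Sle v0 D) (h0 : e0 X p = 0) :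
    p = 0 :=
  Rng114.inj_Sle h.ind (h.gr 0 (by omega)).2.1 (h.gr 0 (by omega)).2.2
    (fun i hi => h.y0_mem_gr i hi) (fun _ ht _ hp h0 => h.inj ht hp h0) hp h0

include h in
theorem Hyp.ker_Sle : LinearMap.ker ((e0 X).toLinearMap ∘ₗ (Rng114.Sle v0 D).subtype) = ⊥ := by
  rw [LinearMap.ker_eq_bot']
  rintro ⟨p, hp⟩ h0
  exact Subtype.ext (h.inj_Sle hp h0)

/-- A linear left inverse of `e0` in the range. -/
noncomputable def Hyp.linv : X.H 0 →ₗ[F2] Rng114.Sle v0 D :=
  Classical.choose (LinearMap.exists_leftInverse_of_injective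
    ((e0 X).toLinearMap ∘ₗ (Rng114.Sle v0 D).subtype) h.ker_Sle)

include h in
theorem Hyp.linv_e0 {p : MvPolynomial Wd0 F2} (hp : p ∈ Rng114.Sle v0 D) :
    (h.linv (e0 X p) : MvPolynomial Wd0 F2) = p := by
  have h1 := Classical.choose_spec (LinearMap.exists_leftInverse_of_injective
    ((e0 X).toLinearMap ∘ₗ (Rng114.Sle v0 D).subtype) h.ker_Sle)
  exact congrArg Subtype.val (LinearMap.congr_fun h1 ⟨p, hp⟩)

/-- The weight components on `H 0` (meaningful on the base component in degrees `≤ D`). -/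
noncomputable def Hyp.wc (m : ℕ) : X.H 0 →ₗ[F2] X.H 0 :=
  (e0 X).toLinearMap ∘ₗ weightedHomogeneousComponent w0 m ∘ₗ (Rng114.Sle v0 D).subtype ∘ₗ h.linv

include h in
theorem Hyp.wc_e0' (m : ℕ) {p : MvPolynomial Wd0 F2} (hp : p ∈ Rng114.Sle v0 D) :
    h.wc m (e0 X p) = e0 X (weightedHomogeneousComponent w0 m p) := by
  rw [Hyp.wc, LinearMap.comp_apply, LinearMap.comp_apply, LinearMap.comp_apply,
    Submodule.subtype_apply, h.linv_e0 hp, AlgHom.toLinearMap_apply]

include h in
theorem Hyp.wc_e0 (m : ℕ) {t : ℕ} (ht : t ≤ D) {p : MvPolynomial Wd0 F2} (hp : p ∈ VV t) :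
    h.wc m (e0 X p) = e0 X (weightedHomogeneousComponent w0 m p) :=
  h.wc_e0' m (Rng114.V_le_Sle v0 ht hp)

/-- Image of the bihomogeneous polynomials. -/
noncomputable def BB (X : Tower) (m t : ℕ) : Submodule F2 (X.H 0) :=
  (PB m t).map (e0 X).toLinearMap

theorem mem_BB {m t : ℕ} {z : X.H 0} : z ∈ BB X m t ↔ ∃ f ∈ PB m t, e0 X f = z := Iff.rfl

theorem BB_mul {m t m' t' : ℕ} {a b : X.H 0} (ha : a ∈ BB X m t) (hb : b ∈ BB X m' t') :
    a * b ∈ BB X (m + m') (t + t') := by
  obtain ⟨f, hf, rfl⟩ := mem_BB.1 ha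
  obtain ⟨g, hg, rfl⟩ := mem_BB.1 hb
  exact mem_BB.2 ⟨f * g, PB_mul hf hg, map_mul _ _ _⟩

include h in
theorem Hyp.wc_BB {m t : ℕ} (ht : t ≤ D) {z : X.H 0} (hz : z ∈ BB X m t) (m' : ℕ) :
    h.wc m' z = if m' = m then z else 0 := by
  obtain ⟨f, hf, rfl⟩ := mem_BB.1 hz
  rw [h.wc_e0 m' ht hf.2, weightedHomogeneousComponent_of_mem (mem_PB.1 hf).1]
  split_ifs <;> simp

/-! ### Steenrod operations preserve the weights -/

theorem Sq_tword (hS : X.FactSq D) (hT : X.FactT D) (hX : X.FactX D) :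
    ∀ J : List ℕ, (∀ i ∈ J, i ≤ D + 1) → ∀ a : ℕ, X.Sq 0 a (X.tword 0 J) ∈
      Submodule.span F2 {z : X.H 0 | ∃ J' : List ℕ, J'.length = J.length ∧
        J'.sum + a = J.sum ∧ z = X.tword 0 J'} := by
  intro J
  induction J with
  | nil =>
    intro _ a
    rcases Nat.eq_zero_or_pos a with ha | ha
    · subst ha
      rw [(hS 0 (by omega)).1]
      exact Submodule.subset_span ⟨[], rfl, rfl, rfl⟩
    · rw [tword_nil, (hX.1 0 (by omega)).2 a ha]
      exact Submodule.zero_mem _
  | cons i J ih =>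
    intro hJ a
    rw [tword_cons, (hT 0 (by omega) i (hJ i (by simp))).2.2.2 a]
    refine Submodule.sum_mem _ fun b hb => ?_
    have hb' : b ≤ a := Nat.lt_succ_iff.1 (Finset.mem_range.1 hb)
    by_cases h2 : 2 * b ≤ i
    · rw [if_pos h2]
      refine Submodule.smul_mem _ _ ?_
      have h1 := Submodule.mem_map_of_mem (f := X.T 0 (i - b))
        (ih (fun j hj => hJ j (by simp [hj])) (a - b))
      rw [Submodule.map_span] at h1
      refine Submodule.span_mono ?_ h1
      rintro _ ⟨_, ⟨J', h3, h4, rfl⟩, rfl⟩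
      refine ⟨(i - b) :: J', by simp [h3], ?_, rfl⟩
      simp only [List.sum_cons]
      omega
    · rw [if_neg h2, zero_smul]
      exact Submodule.zero_mem _

theorem Sq_mul_deg_zero (hS : X.FactSq D) {u : X.H 0} (hu : u ∈ X.gr 0 0) (a : ℕ) (y : X.H 0) :
    X.Sq 0 a (y * u) = X.Sq 0 a y * u := by
  have h := hS 0 (by omega)
  rw [h.2.2.2.1, Finset.sum_eq_single (a, 0)]
  · rw [h.1]
  · rintro ⟨p, q⟩ hp hne
    have hpq : p + q = a := Finset.HasAntidiagonal.mem_antidiagonal.1 hp
    have hq : 0 < q := by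
      rcases Nat.eq_zero_or_pos q with hq | hq
      · exfalso
        apply hne
        rw [hq] at hpq ⊢
        rw [← hpq]
        rfl
      · exact hq
    rw [h.2.2.1 q 0 u hu (by omega), mul_zero]
  · intro hn
    exact absurd (Finset.HasAntidiagonal.mem_antidiagonal.2 (by simp)) hn

theorem Sq_St (hG : X.FactGr D) (hS : X.FactSq D) (hT : X.FactT D) (hX : X.FactX D)
    {r t : ℕ} (ht : t ≤ D + 1) {z : X.H 0} (hz : z ∈ St X r t) {a t' : ℕ} (ha : t' + a = t) :
    X.Sq 0 a z ∈ St X r t' := by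
  induction hz using Submodule.span_induction with
  | mem z hz =>
    obtain ⟨J, rfl, rfl, rfl⟩ := hz
    have h1 := Sq_tword hS hT hX J (fun i hi => (entries_le_sum hi).trans ht) a
    have h2 := Submodule.mem_map_of_mem (f := LinearMap.mulRight F2
      (X.xinv ^ (2 ^ J.length))) h1
    rw [Submodule.map_span] at h2
    rw [Tower.tword0, Sq_mul_deg_zero hS (pow_mem_gr_zero hG hX.2.2.2.1 _)]
    refine Submodule.span_mono ?_ h2
    rintro _ ⟨_, ⟨J', h3, h4, rfl⟩, rfl⟩
    refine ⟨J', h3, by omega, ?_⟩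
    rw [LinearMap.mulRight_apply, Tower.tword0, h3]
  | zero => rw [map_zero]; exact Submodule.zero_mem _
  | add a b _ _ ha hb => rw [map_add]; exact Submodule.add_mem _ ha hb
  | smul c a _ ha => rw [map_smul]; exact Submodule.smul_mem _ _ ha

/-- the property of an element: Steenrod operations keep the weight -/
def Keep (X : Tower) (m t : ℕ) (z : X.H 0) : Prop :=
  ∀ a, X.Sq 0 a z ∈ (if a ≤ t then BB X m (t - a) else ⊥)

theorem Keep.mul (hS : X.FactSq D) {m t m' t' : ℕ} {y z : X.H 0} (hy : Keep X m t y)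
    (hz : Keep X m' t' z) : Keep X (m + m') (t + t') (y * z) := by
  intro a
  rw [(hS 0 (by omega)).2.2.2.1]
  refine Submodule.sum_mem _ fun p hp => ?_
  have hp' : p.1 + p.2 = a := Finset.HasAntidiagonal.mem_antidiagonal.1 hp
  have h1 := hy p.1
  have h2 := hz p.2
  by_cases h3 : p.1 ≤ t
  · by_cases h4 : p.2 ≤ t'
    · rw [if_pos h3] at h1
      rw [if_pos h4] at h2
      rw [if_pos (by omega)]
      have h5 := BB_mul h1 h2
      have h6 : t - p.1 + (t' - p.2) = t + t' - a := by omega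
      rwa [h6] at h5
    · rw [if_neg h4, Submodule.mem_bot] at h2
      rw [h2, mul_zero]
      exact Submodule.zero_mem _
  · rw [if_neg h3, Submodule.mem_bot] at h1
    rw [h1, zero_mul]
    exact Submodule.zero_mem _

theorem Keep.one (hG : X.FactGr D) (hS : X.FactSq D) : Keep X 0 0 1 := by
  intro a
  rcases Nat.eq_zero_or_pos a with ha | ha
  · subst ha
    rw [if_pos le_rfl, (hS 0 (by omega)).1]
    refine mem_BB.2 ⟨1, ?_, map_one _⟩
    rw [mem_PB]
    exact ⟨isWeightedHomogeneous_one F2 w0, isWeightedHomogeneous_one F2 v0⟩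
  · rw [(hS 0 (by omega)).2.2.1 a 0 1 (hG 0 (by omega)).2.1 (by omega)]
    exact Submodule.zero_mem _

include h

theorem Hyp.keep_y0 (I : Wd0) (hI : v0 I ≤ D) : Keep X (w0 I) (v0 I) (y0 X I) := by
  intro a
  have hr : 1 ≤ I.1.1.length := by
    rcases h' : I.1.1 with _ | ⟨a, l⟩
    · exact absurd h' I.2
    · simp
  have hpos := v0_pos I
  by_cases ha : a < v0 I
  · rw [if_pos ha.le]
    have h1 : y0 X I ∈ Wsp X I.1.1.length (v0 I) :=
      Submodule.subset_span ⟨I.1.1, I.1.2.1, rfl, rfl, rfl⟩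
    rw [← h.w _ _ hr hpos hI] at h1
    have h2 := Sq_St h.gr h.sq h.t h.x (by omega) h1 (a := a) (t' := v0 I - a) (by omega)
    rw [h.w _ _ hr (by omega) (by omega)] at h2
    exact Wsp_le h.q (by omega) h2
  · rw [(h.sq 0 (by omega)).2.2.1 a _ _ (h.y0_mem_gr I hI) (by omega)]
    exact Submodule.zero_mem _

theorem Hyp.keep_monomial (d : Wd0 →₀ ℕ) (hd : Finsupp.weight v0 d ≤ D) :
    Keep X (Finsupp.weight w0 d) (Finsupp.weight v0 d) (e0 X (monomial d 1)) := by
  have hone : Keep X (Finsupp.weight w0 (0 : Wd0 →₀ ℕ)) (Finsupp.weight v0 (0 : Wd0 →₀ ℕ))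
      (e0 X (monomial 0 1)) := by
    have : (monomial (0 : Wd0 →₀ ℕ) (1 : F2)) = 1 := rfl
    rw [this, map_one, map_zero, map_zero]
    exact Keep.one h.gr h.sq
  have hadd : ∀ f g : Wd0 →₀ ℕ,
      Keep X (Finsupp.weight w0 f) (Finsupp.weight v0 f) (e0 X (monomial f 1)) →
      Keep X (Finsupp.weight w0 g) (Finsupp.weight v0 g) (e0 X (monomial g 1)) →
      Keep X (Finsupp.weight w0 (f + g)) (Finsupp.weight v0 (f + g))
        (e0 X (monomial (f + g) 1)) := by
    intro f g hf hg
    have hm : (monomial (f + g) (1 : F2)) = monomial f 1 * monomial g 1 := by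
      rw [monomial_mul, one_mul]
    rw [hm, map_mul, map_add, map_add]
    exact Keep.mul h.sq hf hg
  induction d using Finsupp.induction_linear with
  | zero => exact hone
  | add f g hf hg =>
    rw [map_add] at hd
    exact hadd f g (hf (by omega)) (hg (by omega))
  | single I n =>
    induction n with
    | zero => rw [Finsupp.single_zero]; exact hone
    | succ n ih =>
      rw [Finsupp.single_add] at hd ⊢
      rw [map_add] at hd
      refine hadd _ _ (ih (by omega)) ?_
      have hs1 : Finsupp.weight v0 (Finsupp.single I 1) = v0 I := by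
        rw [Finsupp.weight_single, one_smul]
      have hs2 : Finsupp.weight w0 (Finsupp.single I 1) = w0 I := by
        rw [Finsupp.weight_single, one_smul]
      rw [hs1] at hd ⊢
      rw [hs2]
      have h1 : e0 X (monomial (Finsupp.single I 1) 1) = y0 X I := by
        rw [← MvPolynomial.X, aeval_X]
      rw [h1]
      exact h.keep_y0 I (by omega)

/-- Steenrod operations commute with the weight components. -/
theorem Hyp.Sq_wc {t : ℕ} (ht : t ≤ D) {p : MvPolynomial Wd0 F2} (hp : p ∈ VV t) (a m : ℕ) :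
    X.Sq 0 a (h.wc m (e0 X p)) = h.wc m (X.Sq 0 a (e0 X p)) := by
  rw [mem_weightedHomogeneousSubmodule] at hp
  rw [p.as_sum, map_sum, map_sum, map_sum, map_sum, map_sum]
  refine Finset.sum_congr rfl fun d hd => ?_
  have hdt := hp (mem_support_iff.1 hd)
  have h1 : monomial d (coeff d p) = (coeff d p) • monomial d (1 : F2) := by
    rw [smul_monomial, smul_eq_mul, mul_one]
  rw [h1, map_smul, map_smul, map_smul, map_smul, map_smul]
  congr 1
  have h2 : e0 X (monomial d (1 : F2)) ∈ BB X (Finsupp.weight w0 d) (Finsupp.weight v0 d) :=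
    mem_BB.2 ⟨_, mem_PB.2 ⟨isWeightedHomogeneous_monomial w0 d 1 rfl,
      isWeightedHomogeneous_monomial v0 d 1 rfl⟩, rfl⟩
  rw [h.wc_BB (by omega) h2]
  have h3 := h.keep_monomial d (by omega) a
  by_cases ha : a ≤ Finsupp.weight v0 d
  · rw [if_pos ha] at h3
    rw [h.wc_BB (by omega) h3]
    split_ifs <;> simp
  · rw [if_neg ha, Submodule.mem_bot] at h3
    rw [h3, map_zero]
    split_ifs
    · exact h3
    · exact map_zero _

/-- Weight components lie in the range again. -/
theorem Hyp.wc_mem {t : ℕ} (ht : t ≤ D) {p : MvPolynomial Wd0 F2} (hp : p ∈ VV t) (m : ℕ) :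
    h.wc m (e0 X p) ∈ BB X m t := by
  classical
  rw [h.wc_e0 m ht hp]
  refine mem_BB.2 ⟨_, mem_PB.2 ⟨weightedHomogeneousComponent_isWeightedHomogeneous m p, ?_⟩, rfl⟩
  intro d hd
  rw [coeff_weightedHomogeneousComponent] at hd
  split_ifs at hd with h1
  · exact hp hd
  · exact absurd rfl hd

/-- **(4.2), `k = 0`: the lowest weight component.** -/
theorem Hyp.lowest {i : ℕ} (hi1 : 1 ≤ i) (hi : i ≤ D) {x : X.H 0} (hx : x ∈ X.gr 0 i)
    (hb : x ∈ X.base) (hprim : X.IsPrim 0 x) (hne : x ≠ 0) :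
    ∃ r, 1 ≤ r ∧ (∀ m < 2 ^ r, h.wc m x = 0) ∧ h.wc (2 ^ r) x ≠ 0 ∧ h.wc (2 ^ r) x ∈ Wsp X r i ∧
      ((∀ a, 1 ≤ a → X.Sq 0 a x = 0) → ∀ a, 1 ≤ a → X.Sq 0 a (h.wc (2 ^ r) x) = 0) ∧
      X.σ 0 x - X.σ 0 (h.wc (2 ^ r) x) ∈ Submodule.span F2 {z : X.H 1 | ∃ J : List ℕ,
        J.Pairwise (· ≤ ·) ∧ r < J.length ∧ wdeg 1 J = i + 1 ∧ z = X.word 1 J} := by
  classical
  obtain ⟨p, hp, rfl⟩ := h.exists_poly hi hx hb
  have hP := h.prim_lift hi hp hprim
  have hbij := h.del_spec.2.2.bij
  have hae : ∀ f : MvPolynomial Wd0 F2,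
      aeval (MvPolynomial.X : Wd0 → MvPolynomial Wd0 F2) f = f := fun f => by simp
  have hp0 : p ≠ 0 := by
    rintro rfl
    exact hne (map_zero _)
  obtain ⟨m, ⟨I₀, j₀, hm⟩, hge, hcne, hcsp⟩ := h.del_spec.2.2.exists_lowest hP hp0
  have hcmp : ∀ m, Hopf407.cmp w0 hbij m p = weightedHomogeneousComponent w0 m p := by
    intro m
    have := Hopf407.cmp_aeval w0 hbij m p
    rwa [hae, hae] at this
  rw [hcmp] at hcne hcsp
  have hlt : ∀ m' < m, weightedHomogeneousComponent w0 m' p = 0 := by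
    intro m' hm'
    rw [← hcmp]
    exact (Hopf407.mem_WtGe_iff hbij).1 hge m' hm'
  have hr : m = 2 ^ (j₀ + I₀.1.1.length) := by
    rw [← hm, w0, pow_add]
  have hr1 : 1 ≤ j₀ + I₀.1.1.length := by
    rcases h' : I₀.1.1 with _ | ⟨a, l⟩
    · exact absurd h' I₀.2
    · simp; omega
  set r := j₀ + I₀.1.1.length with hrdef
  subst hr
  have hwc : ∀ m', h.wc m' (e0 X p) = e0 X (weightedHomogeneousComponent w0 m' p) :=
    fun m' => h.wc_e0 m' hi hp
  have hcV : weightedHomogeneousComponent w0 (2 ^ r) p ∈ VV i := by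
    rw [mem_weightedHomogeneousSubmodule]
    intro d hd
    rw [coeff_weightedHomogeneousComponent] at hd
    split_ifs at hd with h1
    · exact hp hd
    · exact absurd rfl hd
  refine ⟨r, hr1, ?_, ?_, ?_, ?_, ?_⟩
  · intro m' hm'
    rw [hwc, hlt m' hm', map_zero]
  · rw [hwc]
    intro h0
    exact hcne (h.inj hi hcV h0)
  · rw [hwc]
    have key : ∀ q ∈ Submodule.span F2 {a : MvPolynomial Wd0 F2 | ∃ I j,
        2 ^ j * w0 I = 2 ^ r ∧ a = MvPolynomial.X I ^ (2 ^ j)},
        e0 X (weightedHomogeneousComponent v0 i q) ∈ Wsp X r i := by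
      intro q hq
      induction hq using Submodule.span_induction with
      | mem q hq =>
        obtain ⟨I, j, hij, rfl⟩ := hq
        rw [weightedHomogeneousComponent_of_mem (mem_PB.1 (X_pow_mem_PB I j)).2]
        split_ifs with hdeg
        · refine Submodule.subset_span ⟨List.replicate j 0 ++ I.1.1,
            pairwise_replicate_append I.1.2.1, ?_, ?_, ?_⟩
          · rw [List.length_append, List.length_replicate]
            rw [w0, ← pow_add] at hij
            exact Nat.pow_right_injective (le_refl 2) hij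
          · rw [wdeg_replicate, hdeg]; rfl
          · rw [word0_replicate h.q, map_pow, aeval_X]; rfl
        · rw [map_zero]; exact Submodule.zero_mem _
      | zero => rw [map_zero, map_zero]; exact Submodule.zero_mem _
      | add a b _ _ ha hb => rw [map_add, map_add]; exact Submodule.add_mem _ ha hb
      | smul c a _ ha => rw [map_smul, map_smul]; exact Submodule.smul_mem _ _ ha
    have h1 := key _ hcsp
    rwa [weightedHomogeneousComponent_of_mem hcV, if_pos rfl] at h1
  · intro hSq a ha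
    rw [h.Sq_wc hi hp, hSq a ha, map_zero]
  · rw [← map_sub, hwc, ← map_sub]
    set q := p - weightedHomogeneousComponent w0 (2 ^ r) p with hq
    have hqV : q ∈ VV i := Submodule.sub_mem _ hp hcV
    rw [h.sigma_e0 hi hi1 hqV]
    refine Submodule.sum_mem _ fun I _ => ?_
    by_cases hc : coeff (Finsupp.single I 1) q = 0
    · rw [hc, zero_smul]; exact Submodule.zero_mem _
    · have hvI : v0 I = i := by
        have := (mem_weightedHomogeneousSubmodule F2 v0 i q).1 hqV hc
        simpa [Finsupp.weight_single] using this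
      refine Submodule.smul_mem _ _ ?_
      rw [h.sigma_y0 I (by omega)]
      refine Submodule.subset_span ⟨_, pairwise_map_pred I.1.2.1, ?_, ?_, rfl⟩
      · rw [List.length_map]
        by_contra hcon
        push Not at hcon
        apply hc
        have hwI : Finsupp.weight w0 (Finsupp.single I 1) = 2 ^ I.1.1.length := by
          rw [Finsupp.weight_single, one_smul]; rfl
        rcases hcon.lt_or_eq with h1 | h1
        · have h2 : 2 ^ I.1.1.length < 2 ^ r := Nat.pow_lt_pow_right (by norm_num) h1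
          have h3 := hlt _ h2
          have h4 := congrArg (coeff (Finsupp.single I 1)) h3
          rw [coeff_weightedHomogeneousComponent, if_pos hwI, coeff_zero] at h4
          rw [hq, coeff_sub, h4, coeff_weightedHomogeneousComponent, if_neg, sub_zero]
          rw [hwI]; omega
        · rw [hq, coeff_sub, coeff_weightedHomogeneousComponent, if_pos, sub_self]
          rw [hwI, h1]
      · rw [wdeg_map_pred _ I.1.2.2]
        exact congrArg (· + 1) hvI

end main

end Crest.Agent.R204.HopfZ407
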