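import Crest.Agent.R204.Thm3g_737
import Crest.Agent.R204.F_550
import Crest.Agent.R204.HopfZ2_407

/-!
# Row 204: the abstract cores `Core314` and `Core315` (helper737)

`core314 : Core314` and `core315'` (= `Core315` with `FactHopf` as extra hypothesis), unconditional.
-/

set_option autoImplicit false

noncomputable section

namespace Crest.Agent.R204.Thm3Glue

open Spec114 Glue114
open Crest.Agent.R204.DickInst91 (dick)

variable {Y : Spec114.Tower} {S : Sph Y} {D d : ℕ}

/-- (L), from helper407 -/
theorem lowL (hF : Facts Y S D d) : LowL Y D := by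
  intro i hi1 hi x hx hb hp hne
  obtain ⟨r, hr, _, h1, h2, h3, h4⟩ := (hyp hF).lowest hi1 hi hx hb hp hne
  exact ⟨r, hr, _, h2, h1, h3, h4⟩

/-- **the outputs of Theorem 3 and of the `k = 0` analysis** -/
def t3out' (hF : Facts Y S D d) : T3Out dick Y d := t3out hF (lowL hF)

/-- **`Core314`** -/
theorem core314 : Core314 :=
  core314_of (St := dick) F550.thm06_dick F550.lemEven_dick' F550.lem61_dick
    fun _ _ _ _ hF => ⟨t3out' hF⟩

/-- **`Core315`**, with Hopf invariant one as extra input -/
theorem core315' (X : Spec114.Tower) (S : Sph X) (D d : ℕ) (hF : Facts X S D d) (hH : S.FactHopf d)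
    (α β : S.A) : S.h 0 α = 0 ∨ S.h 0 β = 0 ∨ S.h 0 α = S.h 0 β :=
  core315_of (St := dick) F550.thm06_dick F550.lemEven_dick' F550.lem61_dick
    (fun _ _ _ _ hF => ⟨t3out' hF⟩) X S D d hF hH α β

end Crest.Agent.R204.Thm3Glue
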