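import Crest.Agent.R204.Defs

/-!
# Row 204, leaf B.0: infinite cyclic covers of simplicial sets and the Wang sequence (helper808)

`Coc K` = integral 1-cocycle given by heights of vertices, `Coc.cov` = the cover, `proj`, `deck`.
Short exact sequence `0 → N(cov) --(t-1)--> N(cov) → N(K) → 0`; Wang sequence over `F2`.
-/

set_option autoImplicit false

namespace Crest.Agent.R204.Cov808

open Finsupp

/-! ## the algebra of `ℤ →₀ V` -/

section Shift

variable {R V : Type*} [CommRing R] [AddCommGroup V] [Module R V]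

/-- shift of `ℤ →₀ V` -/
noncomputable def shiftZ (R V : Type*) [CommRing R] [AddCommGroup V] [Module R V] :
    (ℤ →₀ V) →ₗ[R] (ℤ →₀ V) := Finsupp.lmapDomain V R (fun m => 1 + m)

theorem shiftZ_single (m : ℤ) (v : V) : shiftZ R V (single m v) = single (1 + m) v := by
  simp [shiftZ, Finsupp.lmapDomain_apply, Finsupp.mapDomain_single]

theorem shiftZ_apply (f : ℤ →₀ V) (m : ℤ) : shiftZ R V f (1 + m) = f m := by
  rw [shiftZ, Finsupp.lmapDomain_apply]
  exact Finsupp.mapDomain_apply (fun a b h => by simpa using h) f m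

/-- sum of the coordinates -/
noncomputable def sumZ (R V : Type*) [CommRing R] [AddCommGroup V] [Module R V] :
    (ℤ →₀ V) →ₗ[R] V := Finsupp.lsum R (fun _ => LinearMap.id)

theorem sumZ_single (m : ℤ) (v : V) : sumZ R V (single m v) = v := by
  simp [sumZ]

theorem shiftZ_sub_injective {f : ℤ →₀ V} (h : shiftZ R V f = f) : f = 0 := by
  have h1 : ∀ m : ℤ, f (1 + m) = f m := fun m => by
    conv_lhs => rw [← h]
    exact shiftZ_apply f m
  have h2 : ∀ (k : ℕ) (m : ℤ), f (k + m) = f m := by
    intro k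
    induction k with
    | zero => intro m; simp
    | succ k ih =>
      intro m
      rw [← ih m, ← h1 (k + m)]
      congr 1
      push_cast
      ring
  ext m
  by_contra hm
  simp only [Finsupp.coe_zero, Pi.zero_apply] at hm
  have hinf : Set.Infinite (Set.range fun k : ℕ => (k : ℤ) + m) :=
    Set.infinite_range_of_injective (fun a b h => by simpa using h)
  refine hinf (Set.Finite.subset f.support.finite_toSet ?_)
  rintro _ ⟨k, rfl⟩
  simp only [Finset.mem_coe, Finsupp.mem_support_iff]
  rw [h2]; exact hm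

theorem sumZ_shiftZ (f : ℤ →₀ V) : sumZ R V (shiftZ R V f) = sumZ R V f := by
  induction f using Finsupp.induction_linear with
  | zero => simp
  | add f g hf hg => rw [map_add, map_add, hf, hg, map_add]
  | single m v => rw [shiftZ_single, sumZ_single, sumZ_single]

theorem single_sub_mem (m : ℤ) (v : V) :
    ∃ g : ℤ →₀ V, shiftZ R V g - g = single m v - single 0 v := by
  induction m with
  | zero => exact ⟨0, by simp⟩
  | succ k ih =>
    obtain ⟨g, hg⟩ := ih
    refine ⟨g + single (k : ℤ) v, ?_⟩
    rw [map_add, shiftZ_single, add_sub_add_comm, hg, add_comm (1 : ℤ)]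
    abel
  | pred k ih =>
    obtain ⟨g, hg⟩ := ih
    refine ⟨g - single (-(k : ℤ) - 1) v, ?_⟩
    have e : shiftZ R V (g - single (-(k : ℤ) - 1) v) - (g - single (-(k : ℤ) - 1) v)
        = (shiftZ R V g - g) + (single (-(k : ℤ) - 1) v - single (1 + (-(k : ℤ) - 1)) v) := by
      rw [map_sub, shiftZ_single]; abel
    rw [e, hg]
    have : (1 + (-(k : ℤ) - 1)) = -(k : ℤ) := by ring
    rw [this]; abel

theorem exists_shiftZ (f : ℤ →₀ V) (h : sumZ R V f = 0) : ∃ g, shiftZ R V g - g = f := by
  have key : ∀ f : ℤ →₀ V, ∃ g, shiftZ R V g - g = f - single 0 (sumZ R V f) := by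
    intro f
    induction f using Finsupp.induction_linear with
    | zero => exact ⟨0, by simp⟩
    | add f g hf hg =>
      obtain ⟨a, ha⟩ := hf
      obtain ⟨b, hb⟩ := hg
      refine ⟨a + b, ?_⟩
      rw [map_add, add_sub_add_comm, ha, hb, map_add, single_add]
      abel
    | single m v =>
      rw [sumZ_single]
      exact single_sub_mem m v
  obtain ⟨g, hg⟩ := key f
  exact ⟨g, by rw [hg, h]; simp⟩

end Shift

/-! ## integral cocycles and covers -/

/-- integral 1-cocycle given by the heights of the vertices relative to the vertex `0` -/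
structure Coc (K : SS) where
  l : ∀ {n : ℕ}, K.S n → Fin (n + 1) → ℤ
  l_act : ∀ {m n : ℕ} (f : Op m n) (x : K.S n) (i : Fin (m + 1)),
    l (K.act f x) i = l x (f i) - l x (f 0)

namespace Coc

variable {K : SS} (c : Coc K)

theorem l_zero {n : ℕ} (x : K.S n) : c.l x 0 = 0 := by
  have := c.l_act (OrderHom.id) x 0
  rw [K.act_id] at this
  simpa using this

/-- the infinite cyclic cover -/
def cov : SS where
  S n := K.S n × ℤ
  act f x := (K.act f x.1, x.2 + c.l x.1 (f 0))
  act_id x := by simp [K.act_id, c.l_zero]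
  act_comp f g x := by
    simp only [K.act_comp, c.l_act, OrderHom.comp_coe, Function.comp_apply]
    refine Prod.ext rfl ?_
    simp only
    ring

theorem cov_act {m n : ℕ} (f : Op m n) (x : K.S n) (k : ℤ) :
    c.cov.act f (x, k) = (K.act f x, k + c.l x (f 0)) := rfl

/-- projection -/
def proj : SS.Hom c.cov K := ⟨fun _ x => x.1, fun _ _ => rfl⟩

/-- deck transformations -/
def deck (k : ℤ) : SS.Hom c.cov c.cov :=
  ⟨fun _ x => (x.1, k + x.2), fun f x => by
    change (_, _) = (_, _)
    simp only [cov, Prod.mk.injEq, true_and]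
    ring⟩

@[simp] theorem proj_app (n : ℕ) (x : c.cov.S n) : c.proj.app n x = x.1 := rfl
@[simp] theorem deck_app (k : ℤ) (n : ℕ) (x : c.cov.S n) : (c.deck k).app n x = (x.1, k + x.2) := rfl

variable (R : Type) [CommRing R]

theorem dgn_zero {n : ℕ} (j : Fin (n + 1)) : Op.dgn j 0 = 0 := by
  apply Fin.ext
  rw [Ch.dgn_val]
  simp

/-- the sheet `m` (not a simplicial map) -/
noncomputable def inclCh (m : ℤ) : Ch R K →ₗ[R] Ch R c.cov :=
  Finsupp.lmapDomain R R (fun t : K.T => (⟨t.1, (t.2, m)⟩ : c.cov.T))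

theorem inclCh_single (m : ℤ) {n : ℕ} (x : K.S n) (r : R) :
    c.inclCh R m (single ⟨n, x⟩ r) = single ⟨n, ((x, m) : c.cov.S n)⟩ r := by
  simp [inclCh, Finsupp.lmapDomain_apply, Finsupp.mapDomain_single]

/-- the sheet `m` on normalised chains -/
noncomputable def incl (m : ℤ) : N R K →ₗ[R] N R c.cov :=
  Submodule.mapQ _ _ (c.inclCh R m) (by
    intro z hz
    change c.inclCh R m z ∈ Ch.Dg R c.cov
    refine Submodule.span_induction (p := fun z _ => c.inclCh R m z ∈ Ch.Dg R c.cov) ?_ ?_ ?_ ?_ hz
    · rintro _ ⟨⟨n, x⟩, hx, rfl⟩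
      rcases n with _ | n
      · exact hx.elim
      · obtain ⟨j, y, rfl⟩ := hx
        rw [inclCh_single]
        have : ((K.act (Op.dgn j) y, m) : c.cov.S (n + 1)) = c.cov.act (Op.dgn j) (y, m) := by
          rw [cov_act, dgn_zero, c.l_zero, add_zero]
        rw [this]
        exact Submodule.subset_span ⟨_, Ch.isDgn_act _ _ _, rfl⟩
    · simp
    · intro a b _ _ ha hb; rw [map_add]; exact Submodule.add_mem _ ha hb
    · intro r a _ ha; rw [map_smul]; exact Submodule.smul_mem _ _ ha)

@[simp] theorem incl_sx (m : ℤ) {n : ℕ} (x : K.S n) :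
    c.incl R m (N.sx R x) = N.sx R (K := c.cov) ((x, m) : c.cov.S n) := by
  rw [N.sx, incl, Submodule.mapQ_apply, inclCh_single]; rfl

/-- induction principle on normalised chains -/
theorem N_induction {K : SS} {P : N R K → Prop} (h0 : P 0) (ha : ∀ a b, P a → P b → P (a + b))
    (hs : ∀ (r : R) (a), P a → P (r • a)) (hx : ∀ (n : ℕ) (x : K.S n), P (N.sx R x))
    (a : N R K) : P a := by
  obtain ⟨a, rfl⟩ := Submodule.Quotient.mk_surjective _ a
  induction a using Finsupp.induction_linear with
  | zero => exact h0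
  | add f g hf hg => exact ha _ _ hf hg
  | single t r =>
    obtain ⟨n, x⟩ := t
    have : (Submodule.Quotient.mk (single (⟨n, x⟩ : K.T) r) : N R K) = r • N.sx R x := by
      rw [N.sx, ← Submodule.Quotient.mk_smul, Finsupp.smul_single, smul_eq_mul, mul_one]
    rw [this]
    exact hs _ _ (hx n x)

theorem N_hom_ext {K : SS} {V : Type*} [AddCommGroup V] [Module R V] {f g : N R K →ₗ[R] V}
    (h : ∀ (n : ℕ) (x : K.S n), f (N.sx R x) = g (N.sx R x)) : f = g := by
  refine LinearMap.ext fun a => ?_
  refine N_induction R (P := fun a => f a = g a) (by simp) ?_ ?_ h a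
  · intro a b ha hb; rw [map_add, map_add, ha, hb]
  · intro r a ha; rw [map_smul, map_smul, ha]

/-- decomposition into sheets, unnormalised source -/
noncomputable def labCh : Ch R c.cov →ₗ[R] (ℤ →₀ N R K) :=
  Finsupp.linearCombination R (fun t : c.cov.T => single t.2.2 (N.sx R (K := K) t.2.1))

/-- decomposition into sheets -/
noncomputable def lab : N R c.cov →ₗ[R] (ℤ →₀ N R K) :=
  Submodule.liftQ _ (c.labCh R) (by
    intro z hz
    rw [LinearMap.mem_ker]
    refine Submodule.span_induction (p := fun z _ => c.labCh R z = 0) ?_ ?_ ?_ ?_ hz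
    · rintro _ ⟨⟨n, x⟩, hx, rfl⟩
      rcases n with _ | n
      · exact hx.elim
      · obtain ⟨j, ⟨y, k⟩, rfl⟩ := hx
        rw [labCh, Finsupp.linearCombination_single, one_smul]
        have : (c.cov.act (Op.dgn j) ((y, k) : c.cov.S n)).1 = K.act (Op.dgn j) y := rfl
        simp only [this, N.sx_dgn, single_zero]
    · simp
    · intro a b _ _ ha hb; rw [map_add, ha, hb, add_zero]
    · intro r a _ ha; rw [map_smul, ha, smul_zero])

@[simp] theorem lab_sx {n : ℕ} (x : K.S n) (m : ℤ) :
    c.lab R (N.sx R (K := c.cov) ((x, m) : c.cov.S n)) = single m (N.sx R x) := by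
  rw [N.sx, lab, Submodule.liftQ_apply, labCh, Finsupp.linearCombination_single, one_smul]

theorem lab_incl (m : ℤ) (a : N R K) : c.lab R (c.incl R m a) = single m a := by
  refine N_induction R (P := fun a => c.lab R (c.incl R m a) = single m a) (by simp) ?_ ?_ ?_ a
  · intro a b ha hb; rw [map_add, map_add, ha, hb, single_add]
  · intro r a ha; rw [map_smul, map_smul, ha, smul_single]
  · intro n x; rw [incl_sx, lab_sx]

/-- the inverse -/
noncomputable def unlab : (ℤ →₀ N R K) →ₗ[R] N R c.cov := Finsupp.lsum R (fun m => c.incl R m)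

@[simp] theorem unlab_single (m : ℤ) (a : N R K) : c.unlab R (single m a) = c.incl R m a := by
  simp [unlab]

theorem unlab_lab (a : N R c.cov) : c.unlab R (c.lab R a) = a := by
  refine N_induction R (P := fun a => c.unlab R (c.lab R a) = a) (by simp) ?_ ?_ ?_ a
  · intro a b ha hb; rw [map_add, map_add, ha, hb]
  · intro r a ha; rw [map_smul, map_smul, ha]
  · rintro n ⟨x, m⟩; rw [lab_sx, unlab_single, incl_sx]

theorem lab_unlab (f : ℤ →₀ N R K) : c.lab R (c.unlab R f) = f := by
  induction f using Finsupp.induction_linear with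
  | zero => simp
  | add f g hf hg => rw [map_add, map_add, hf, hg]
  | single m v => rw [unlab_single, lab_incl]

theorem lab_injective : Function.Injective (c.lab R) := fun a b h => by
  rw [← c.unlab_lab R a, h, c.unlab_lab]

theorem lab_deck (a : N R c.cov) : c.lab R (N.map R (c.deck 1) a) = shiftZ R _ (c.lab R a) := by
  refine N_induction R (P := fun a => c.lab R (N.map R (c.deck 1) a) = shiftZ R _ (c.lab R a))
    (by simp) ?_ ?_ ?_ a
  · intro a b ha hb; simp only [map_add, ha, hb]
  · intro r a ha; simp only [map_smul, ha]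
  · rintro n ⟨x, m⟩
    rw [N.map_sx, lab_sx, shiftZ_single]
    exact lab_sx c R x (1 + m)

theorem sumZ_lab (a : N R c.cov) : sumZ R _ (c.lab R a) = N.map R c.proj a := by
  refine N_induction R (P := fun a => sumZ R _ (c.lab R a) = N.map R c.proj a)
    (by simp) ?_ ?_ ?_ a
  · intro a b ha hb; simp only [map_add, ha, hb]
  · intro r a ha; simp only [map_smul, ha]
  · rintro n ⟨x, m⟩
    rw [N.map_sx, lab_sx, sumZ_single]; rfl

theorem proj_incl (m : ℤ) (a : N R K) : N.map R c.proj (c.incl R m a) = a := by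
  rw [← sumZ_lab, lab_incl, sumZ_single]

theorem proj_deck (k : ℤ) (a : N R c.cov) :
    N.map R c.proj (N.map R (c.deck k) a) = N.map R c.proj a := by
  refine N_induction R (P := fun a => N.map R c.proj (N.map R (c.deck k) a) = N.map R c.proj a)
    (by simp) ?_ ?_ ?_ a
  · intro a b ha hb; simp only [map_add, ha, hb]
  · intro r a ha; simp only [map_smul, ha]
  · rintro n ⟨x, m⟩
    rw [N.map_sx, N.map_sx, N.map_sx]; rfl

/-- `t - 1` on normalised chains -/
noncomputable def tm : N R c.cov →ₗ[R] N R c.cov := N.map R (c.deck 1) - LinearMap.id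

theorem tm_apply (a : N R c.cov) : c.tm R a = N.map R (c.deck 1) a - a := rfl

theorem tm_injective : Function.Injective (c.tm R) := by
  rw [injective_iff_map_eq_zero]
  intro a ha
  rw [tm_apply, sub_eq_zero] at ha
  have h1 := c.lab_deck R a
  rw [ha] at h1
  have h2 := shiftZ_sub_injective h1.symm
  exact c.lab_injective R (by rw [h2, map_zero])

theorem proj_tm (a : N R c.cov) : N.map R c.proj (c.tm R a) = 0 := by
  rw [tm_apply, map_sub, proj_deck, sub_self]

theorem exists_tm (a : N R c.cov) (h : N.map R c.proj a = 0) : ∃ b, c.tm R b = a := by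
  rw [← sumZ_lab] at h
  obtain ⟨g, hg⟩ := exists_shiftZ _ h
  refine ⟨c.unlab R g, c.lab_injective R ?_⟩
  rw [tm_apply, map_sub, lab_deck, lab_unlab, hg]

theorem proj_surjective : Function.Surjective (N.map R c.proj) := fun a =>
  ⟨c.incl R 0 a, c.proj_incl R 0 a⟩

theorem tm_bd (a : N R c.cov) : c.tm R (N.bd R c.cov a) = N.bd R c.cov (c.tm R a) := by
  rw [tm_apply, tm_apply, map_sub]
  have := LinearMap.congr_fun (N.map_bd (R := R) (c.deck 1)) a
  simp only [LinearMap.comp_apply] at this
  rw [this]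

theorem proj_bd (a : N R c.cov) :
    N.map R c.proj (N.bd R c.cov a) = N.bd R K (N.map R c.proj a) :=
  LinearMap.congr_fun (N.map_bd (R := R) c.proj) a

/-! ## the Wang operator -/

/-- kernel of the projection -/
theorem exists_W (a : N R K) :
    ∃ w, c.tm R w = N.bd R c.cov (c.incl R 0 a) - c.incl R 0 (N.bd R K a) := by
  apply c.exists_tm R
  rw [map_sub, proj_bd, proj_incl, proj_incl, sub_self]

/-- Wang operator: `bd ∘ incl 0 = incl 0 ∘ bd + (t-1) W` -/
noncomputable def W0 (a : N R K) : N R c.cov := (c.exists_W R a).choose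

theorem tm_W0 (a : N R K) :
    c.tm R (c.W0 R a) = N.bd R c.cov (c.incl R 0 a) - c.incl R 0 (N.bd R K a) :=
  (c.exists_W R a).choose_spec

/-- Wang operator: `bd ∘ incl 0 = incl 0 ∘ bd + (t-1) W` -/
noncomputable def W : N R K →ₗ[R] N R c.cov where
  toFun a := c.W0 R a
  map_add' a b := by
    apply c.tm_injective R
    rw [map_add, tm_W0, tm_W0, tm_W0]
    simp only [map_add]; abel
  map_smul' r a := by
    apply c.tm_injective R
    rw [RingHom.id_apply, map_smul, tm_W0, tm_W0]
    simp only [map_smul, smul_sub]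

theorem tm_W (a : N R K) :
    c.tm R (c.W R a) = N.bd R c.cov (c.incl R 0 a) - c.incl R 0 (N.bd R K a) :=
  c.tm_W0 R a

theorem W_bd (a : N R K) : c.W R (N.bd R K a) = - N.bd R c.cov (c.W R a) := by
  apply c.tm_injective R
  rw [tm_W, map_neg, tm_bd, tm_W, map_sub, N.bd_bd, N.bd_bd, map_zero]
  abel

end Coc

end Crest.Agent.R204.Cov808
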