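import Crest.Agent.R204.GeoB_979
import Crest.Agent.R204.Cov3_892

/-!
# Row 204, leaf B5: the range loop statement on the base component (owner helper892)

`loop_base` : 979's `loop_polyR` for a principal fibration `X` whose `H(G)` is identified with a subalgebra
`base` of an algebra `H0` (`H0 = H(Ω^(n+1) Z)`, `base` = homology of the component of the constant loop).
-/

set_option autoImplicit false

noncomputable section

namespace Crest.Agent.R204.Cov892

open Crest.Agent.R204 Crest.Agent.R204.Bis343 Crest.Agent.R204.Bis343.BSS Crest.Agent.R204.Bar170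
  Crest.Agent.R204.Coalg847 Crest.Agent.R204.Ind979 Crest.Agent.R204.Bar334 Crest.Agent.R204.Geo979
open TensorProduct

section alg

variable {H0 : Type} [CommRing H0] [Algebra F2 H0] {base : Subalgebra F2 H0}

theorem mval_val {ι : Type} (v : ι → base) (m : ι →₀ ℕ) :
    ((mval v m : base) : H0) = mval (fun i => (v i : H0)) m := by
  unfold mval
  exact map_finsuppProd base.val m _

/-- range polynomial generators of a subalgebra, seen in the big algebra -/
theorem PolyR.of_base {gr0 : ℕ → Submodule F2 H0} {ι : Type} {v : ι → base} {deg : ι → ℕ} {N : ℕ}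
    (h : PolyR (fun t => (gr0 t).comap base.val.toLinearMap) v deg N) :
    PolyR (fun t => gr0 t ⊓ Subalgebra.toSubmodule base) (fun i => (v i : H0)) deg N := by
  refine ⟨fun t ht => ?_, fun t ht a ha => ?_⟩
  · have h1 := (h.1 t ht).map' base.val.toLinearMap (LinearMap.ker_eq_bot.2 Subtype.val_injective)
    have h2 : (fun m : {m : ι →₀ ℕ // mdeg deg m = t} => mval (fun i => (v i : H0)) m) =
        base.val.toLinearMap ∘ fun m : {m : ι →₀ ℕ // mdeg deg m = t} => mval v m :=
      funext fun m => (mval_val v m).symm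
    rw [h2]
    exact h1
  · have h2 := h.2 t ht (show (⟨a, ha.2⟩ : base) ∈ _ from ha.1)
    have h3 := Submodule.mem_map_of_mem (f := base.val.toLinearMap) h2
    rw [Submodule.map_span, Set.image_image] at h3
    refine Submodule.span_mono ?_ h3
    rintro _ ⟨m, hm, rfl⟩
    exact ⟨m, hm, (mval_val v m).symm⟩

end alg

section loop

variable {X : PFib} {H0 A : Type} [CommRing H0] [Algebra F2 H0] [CommRing A] [Algebra F2 A]
  {ι : Type}

/-- **the loop theorem on the base component** -/
theorem loop_base (hi : SpecA.HomotopyInv) (Z : EZData) {deg : ι → ℕ} {φ : (ι →₀ ℕ) → H F2 X.G}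
    {Ps : Finset ι → H F2 X.K}
    {B : BarData (FCof (cech X.π)) deg (Koszul459.bd (ι := ι)) (Koszul459.asym (ι := ι))}
    (O : BarOK X Z φ deg Ps B)
    -- `H(G)` as a subalgebra of `H0`
    (base : Subalgebra F2 H0) (gr0 : ℕ → Submodule F2 H0) (θ : H F2 X.G →ₗ[F2] H0)
    (θ_inj : Function.Injective θ) (θ_range : ∀ y ∈ base, ∃ x, θ x = y)
    (θ_gr : ∀ t x, θ x ∈ gr0 t → x ∈ H.gr F2 X.G t)
    (one_mem : (1 : H0) ∈ gr0 0)
    (mul_mem : ∀ s t a b, a ∈ gr0 s → b ∈ gr0 t → a * b ∈ gr0 (s + t))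
    (one_ne : (1 : H0) ≠ 0) (conn : gr0 0 ⊓ Subalgebra.toSubmodule base ≤ Submodule.span F2 {1})
    (v : ι → H0) (hv : ∀ i, v i ∈ gr0 (deg i) ⊓ Subalgebra.toSubmodule base)
    (hφ : ∀ m, θ (φ m) = mval v m)
    -- the algebra containing `H(K)`
    (ψ : H F2 X.K →ₗ[F2] A) (grA : ℕ → Submodule F2 A) (ψ_inj : Function.Injective ψ)
    (hgA : ∀ t a, a ∈ H.gr F2 X.K t → ψ a ∈ grA t)
    (s : H0 →ₗ[F2] A) (hs : ∀ S, ψ (Ps S) = ∏ i ∈ S, s (v i)) {N : ℕ}
    (h : SimR grA (fun i => s (v i)) (fun i => deg i + 1) (N + 1)) :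
    PolyR (fun t => gr0 t ⊓ Subalgebra.toSubmodule base) v deg N := by
  classical
  -- the inverse of `θ` on the base
  have hex : ∀ y : base, ∃ x, θ x = (y : H0) := fun y => θ_range y y.2
  choose g0 hg0 using hex
  let g : base →ₗ[F2] H F2 X.G :=
    { toFun := g0
      map_add' := fun a b => θ_inj (by rw [map_add, hg0, hg0, hg0]; rfl)
      map_smul' := fun r a => θ_inj (by rw [map_smul, hg0, hg0]; rfl) }
  have hg : ∀ y : base, θ (g y) = (y : H0) := hg0
  let v' : ι → base := fun i => ⟨v i, (hv i).2⟩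
  refine PolyR.of_base (base := base) (gr0 := gr0) (v := v') (deg := deg) (N := N) ?_
  refine loop_polyR (HG := base) (A := A) hi Z O g (fun t => (gr0 t).comap base.val.toLinearMap) ?_ ?_
    one_mem (fun s t a b ha hb => mul_mem s t a b ha hb) ?_ ?_ v' (fun i => (hv i).1) ?_ ψ grA ψ_inj hgA
    (s ∘ₗ base.val.toLinearMap) hs h
  · intro a b hab
    apply Subtype.ext
    rw [← hg, ← hg, hab]
  · intro t a ha
    refine θ_gr t _ ?_
    rw [hg]; exact ha
  · intro h1
    exact one_ne (congrArg Subtype.val h1)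
  · intro a ha
    obtain ⟨r, hr⟩ := Submodule.mem_span_singleton.1 (conn ⟨ha, a.2⟩)
    exact Submodule.mem_span_singleton.2 ⟨r, Subtype.ext hr⟩
  · intro m
    refine θ_inj ?_
    rw [hφ, hg, mval_val]

end loop

end Crest.Agent.R204.Cov892
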