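import Crest.Agent.R204.Psi2_755
import Crest.Agent.R204.BarG_170
import Crest.Agent.R204.GeoB_979

/-!
# Row 204, block B (leaf P3, helper755): `BarData` of a path fibration with a product, and the loop
theorem in a range `loop_range`.
-/

set_option autoImplicit false

namespace Crest.Agent.R204.Psi755

open Crest.Agent.R204 Crest.Agent.R204.Bis343 Crest.Agent.R204.EZ271 Crest.Agent.R204.Bar170
open Crest.Agent.R204.Coalg847 Crest.Agent.R204.Bar334 Crest.Agent.R204.Ind979
open Finsupp BSS BSS.Tot EZ847 TensorProduct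

/-- homotopy invariance -/
theorem hI : SpecA.HomotopyInv := HtpInv334.homotopyInv

section fin

variable {X : PFib} (S : PSus X) (M : PMul X)
  (conn : ∀ x ∈ H.gr F2 X.G 0, ∃ r : F2, x = r • vtx X.e)

theorem brL_bar : ∀ (p : ℕ) (w : List (H F2 X.G)), brL X p w = (X.barMod hI ezd conn).br p w
  | 0, [] => rfl
  | 0, _ :: _ => rfl
  | _ + 1, [] => rfl
  | p + 1, a :: w => by
    show H.map F2 (X.alpha p) (ezd.cr X.G (X.E p) (a ⊗ₜ brL X p w)) = _
    rw [brL_bar p w]
    rfl

variable {ι : Type} (zr : ι → N F2 X.G) (hb : ∀ i, N.bd F2 X.G (zr i) = 0)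
  (φ : (ι →₀ ℕ) → H F2 X.G) (hv : ∀ i, vc zr hb i = φ (Finsupp.single i 1))

include hv in
theorem cls_asym (T : Finset ι) :
    cls S M zr hb T.card T.toList = (X.barMod hI ezd conn).brW φ T.card (Koszul459.asym T) := by
  classical
  have h1 : (T.toList.permutations'.map fun w => brL X T.card (w.map (vc zr hb))).sum =
      ∑ l ∈ Koszul459.orderings T, brL X T.card (l.map (vc zr hb)) := by
    have hp := (List.permutations_perm_permutations' T.toList).map
      (fun w => brL X T.card (w.map (vc zr hb)))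
    rw [← hp.sum_eq, Koszul459.orderings,
      List.sum_toFinset _ (List.nodup_permutations _ T.nodup_toList)]
  rw [cls_eq S M zr hb T.card T.toList T.length_toList, h1, Koszul459.asym, map_sum]
  refine Finset.sum_congr rfl fun l _ => ?_
  have h2 := E1_459.BarMod.brW_single (X := X.barMod hI ezd conn) (φ := φ) T.card (l.map Koszul459.lt) 1
  refine Eq.trans ?_ h2.symm
  rw [one_smul, brL_bar conn]
  refine congrArg ((X.barMod hI ezd conn).br T.card) ?_
  have h3 : l.map (vc zr hb) = (l.map Koszul459.lt).map (fun m => φ m.1) := by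
    rw [List.map_map]
    exact List.map_congr_left fun i _ => hv i
  exact h3

/-- the product of the cycles over a finite set -/
noncomputable def Psi (T : Finset ι) : (cech X.π).Tot := psi S M zr T.toList

theorem Psi_F (T : Finset ι) : Psi S M zr T ∈ (cech X.π).Fp T.card := by
  have := psi_F S M zr T.toList
  rwa [T.length_toList] at this

theorem Psi_gr {deg : ι → ℕ} (hz : ∀ i, zr i ∈ N.gr F2 X.G (deg i)) (T : Finset ι) :
    Psi S M zr T ∈ (cech X.π).grT (degS deg T) := by
  have := psi_gr S M zr hz T.toList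
  rwa [Finset.sum_map_toList, Finset.sum_add_distrib, Finset.sum_const, smul_eq_mul, mul_one,
    add_comm] at this

include hb hv in
theorem Psi_lead (p : ℕ) (T : Finset ι) (hT : T.card = p + 1)
    (h : Psi S M zr T ∈ (BSS.FCof (cech X.π)).Z (p + 1)) :
    BSS.lead (cech X.π) (p + 1) ⟨Psi S M zr T, h⟩ =
      (X.barMod hI ezd conn).Wp φ (p + 1) (Koszul459.asym T) := by
  have h1 := lead_psi S M zr hb p T.toList (T.length_toList.trans hT) h
  have h2 := cls_asym S M conn zr hb φ hv T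
  rw [hT] at h2
  have h3 := E1_459.BarMod.mk_brW (X := X.barMod hI ezd conn) (φ := φ) (p + 1) (Koszul459.asym T)
  refine Eq.trans ?_ h3
  refine h1.trans ?_
  exact congrArg Submodule.Quotient.mk h2

/-- **`BarData`** of a path fibration with a product -/
noncomputable def barData {deg : ι → ℕ} (hdeg : ∀ i, 1 ≤ deg i)
    (hz : ∀ i, zr i ∈ N.gr F2 X.G (deg i)) (h0 : φ 0 = vtx X.e)
    (hadd : ∀ a b, X.mulH ezd (φ a) (φ b) = φ (a + b))
    (hgr : ∀ m, φ m ∈ H.gr F2 X.G (wt1 deg m)) :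
    BarData (BSS.FCof (cech X.π)) deg (Koszul459.bd (ι := ι)) (Koszul459.asym (ι := ι)) :=
  X.barData hI ezd conn deg φ hdeg (X.mult_of hI ezd conn deg hdeg h0 hadd hgr) hgr
    (Psi S M zr) (fun _ => D_psi S M zr hdeg hz hb _) (Psi_F S M zr) (Psi_gr S M zr hz)
    (Psi_lead S M conn zr hb φ hv)

/-- the product of the suspensions over a finite set -/
noncomputable def Ps (v : ι → H F2 X.G) (T : Finset ι) : H F2 X.K := sigL S M (T.toList.map v)

noncomputable def barOK {deg : ι → ℕ} (hdeg : ∀ i, 1 ≤ deg i)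
    (hz : ∀ i, zr i ∈ N.gr F2 X.G (deg i)) (h0 : φ 0 = vtx X.e)
    (hadd : ∀ a b, X.mulH ezd (φ a) (φ b) = φ (a + b))
    (hgr : ∀ m, φ m ∈ H.gr F2 X.G (wt1 deg m)) :
    Geo979.BarOK X ezd φ deg (Ps S M (vc zr hb)) (barData S M conn zr hb φ hv hdeg hz h0 hadd hgr) where
  jE := (X.barMod hI ezd conn).inc 1
  jE_inj := (X.barMod hI ezd conn).inc_injective 1
  lead_eq θ := rfl
  W_eq m := by
    have hw : ∀ w ∈ (Finsupp.single [m] (1 : F2)).support, w.length = 1 := fun w hw => by
      have := Finsupp.support_single_subset hw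
      rw [Finset.mem_singleton] at this
      rw [this]; rfl
    refine ((X.barMod hI ezd conn).W_eq φ hw).trans ?_
    refine congrArg ((X.barMod hI ezd conn).inc 1) ?_
    have h3 := E1_459.BarMod.Wp_single (X := X.barMod hI ezd conn) (φ := φ) 1 [m] 1
    refine h3.trans ?_
    rw [one_smul, Geo979.j1_apply]
    rfl
  Psi_ev T := by
    rw [Geo979.evK_mk]
    exact aug_psi S M zr hb T.toList _

end fin

/-! ## the loop theorem in a range -/

theorem map_sigL {X : PFib} (S : PSus X) (M : PMul X) {A : Type} [CommRing A] [Algebra F2 A]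
    (ψ : H F2 X.K →ₗ[F2] A) (ψ_one : ψ (vtx (X.π.app 0 X.p0)) = 1)
    (ψ_mul : ∀ a b, ψ (mulK M a b) = ψ a * ψ b) (l : List (H F2 X.G)) :
    ψ (sigL S M l) = (l.map fun v => ψ (sus S v)).prod := by
  induction l with
  | nil => exact ψ_one
  | cons v l ih =>
    rw [List.map_cons, List.prod_cons, ← ih]
    exact ψ_mul _ _

theorem map_Ps {X : PFib} (S : PSus X) (M : PMul X) {A : Type} [CommRing A] [Algebra F2 A]
    (ψ : H F2 X.K →ₗ[F2] A) (ψ_one : ψ (vtx (X.π.app 0 X.p0)) = 1)
    (ψ_mul : ∀ a b, ψ (mulK M a b) = ψ a * ψ b) {ι : Type} (v : ι → H F2 X.G) (T : Finset ι) :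
    ψ (Ps S M v T) = ∏ i ∈ T, ψ (sus S (v i)) := by
  rw [Ps, map_sigL S M ψ ψ_one ψ_mul, List.map_map, ← Finset.prod_map_toList]
  rfl

/-- **the loop theorem in a range**, for a path fibration with contraction and product -/
theorem loop_range {X : PFib} (S : PSus X) (M : PMul X) {HG A : Type} [CommRing HG] [Algebra F2 HG]
    [CommRing A] [Algebra F2 A] {ι : Type} {deg : ι → ℕ} (hdeg : ∀ i, 1 ≤ deg i)
    (connX : ∀ x ∈ H.gr F2 X.G 0, ∃ r : F2, x = r • vtx X.e)
    (g : HG →ₗ[F2] H F2 X.G) (grG : ℕ → Submodule F2 HG)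
    (g_inj : Function.Injective g) (hgG : ∀ t a, a ∈ grG t → g a ∈ H.gr F2 X.G t)
    (g_one : g 1 = vtx X.e) (g_mul : ∀ a b, g (a * b) = X.mulH ezd (g a) (g b))
    (one_mem : (1 : HG) ∈ grG 0)
    (mul_mem : ∀ s t a b, a ∈ grG s → b ∈ grG t → a * b ∈ grG (s + t))
    (conn : grG 0 ≤ Submodule.span F2 {1})
    (v : ι → HG) (hv : ∀ i, v i ∈ grG (deg i))
    (ψ : H F2 X.K →ₗ[F2] A) (grA : ℕ → Submodule F2 A) (ψ_inj : Function.Injective ψ)
    (hgA : ∀ t a, a ∈ H.gr F2 X.K t → ψ a ∈ grA t)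
    (ψ_one : ψ (vtx (X.π.app 0 X.p0)) = 1)
    (ψ_mul : ∀ a b, ψ (mulK M a b) = ψ a * ψ b) {n : ℕ}
    (h : SimR grA (fun i => ψ (sus S (g (v i)))) (fun i => deg i + 1) (n + 1)) :
    PolyR grG v deg n := by
  classical
  have hz : ∀ i, ∃ z : N F2 X.G, z ∈ N.gr F2 X.G (deg i) ∧ ∃ hb : N.bd F2 X.G z = 0,
      g (v i) = Hd.mk (N.bd F2 X.G) z hb := fun i => Gr334.mem_H_gr.1 (hgG _ _ (hv i))
  choose zr hzr hb hvz using hz
  have hvc : ∀ i, vc zr hb i = g (v i) := fun i => (hvz i).symm
  have hv' : ∀ i, vc zr hb i = g (mval v (Finsupp.single i 1)) := fun i => by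
    rw [mval_single, pow_one, hvc]
  have hmem : ∀ m : ι →₀ ℕ, mval v m ∈ grG (mdeg deg m) := by
    intro m
    induction m using Finsupp.induction_linear with
    | zero => rw [mval_zero, mdeg_zero]; exact one_mem
    | add a b ha hb => rw [mval_add, mdeg_add]; exact mul_mem _ _ _ _ ha hb
    | single i k =>
      rw [mval_single, mdeg_single]
      induction k with
      | zero => rw [pow_zero, zero_mul]; exact one_mem
      | succ k ih => rw [pow_succ, add_mul, one_mul]; exact mul_mem _ _ _ _ ih (hv i)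
  have O := barOK S M connX zr hb (fun m => g (mval v m)) hv' hdeg hzr
    (by show g (mval v 0) = _; rw [mval_zero]; exact g_one)
    (fun a b => by
      show X.mulH ezd (g (mval v a)) (g (mval v b)) = g (mval v (a + b))
      rw [mval_add, g_mul])
    (fun m => hgG _ _ (hmem m))
  refine Geo979.loop_polyR hI ezd O g grG g_inj hgG one_mem mul_mem ?_ conn v hv (fun _ => rfl) ψ grA
    ψ_inj hgA (ψ ∘ₗ sus S ∘ₗ g) (fun T => ?_) h
  · intro h1
    have h2 : eps X.G (g 1) = 0 := by rw [h1, map_zero, map_zero]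
    rw [g_one, eps_vtx] at h2
    exact one_ne_zero h2
  · rw [map_Ps S M ψ ψ_one ψ_mul]
    exact Finset.prod_congr rfl fun i _ => by rw [hvc]; rfl

end Crest.Agent.R204.Psi755
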