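import Crest.Agent.R204.Cov4_892
import Crest.Agent.R204.Cov5_892
import Crest.Agent.R204.Psi3_755
import Crest.Agent.R204.PF_94
import Crest.Agent.R204.Sigma2_88

/-!
# Row 204, leaf B5: the suspension of the path fibration and the loop suspension (owner helper892)
-/

set_option autoImplicit false

noncomputable section

open Set unitInterval Topology

namespace Crest.Agent.R204.Cov892

open Crest.Agent.R204 Crest.Agent.R204.SS Crest.Agent.R204.Sus330 Crest.Agent.R204.PF872

variable {B : Type} [TopologicalSpace B] {b : B} {P : Type} [TopologicalSpace P] {g0 : P}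

/-- 755's suspension of the path fibration, projected to the base space, is the loop suspension -/
theorem prj_sus (Λ : LoopStr P B g0 b) (j : C(G0 b, P)) (hj : ∀ g : G0 b, toPB Λ (j g) = g.1)
    (y : H F2 (Sing (G0 b))) :
    H.map F2 (prj b) (Psi755.sus (PF94.psus b) y) = Λ.sigma (H.map F2 (SingMap j) y) := by
  refine (Sigma88.sgH_nat (Psi755.susE_ends (PF94.psus b)) (Sigma88.ends Λ) (SingMap j) (prj b)
    (fun n θ x => ?_) y).symm
  refine ContinuousMap.ext fun u => ?_
  have h1 := congrArg (fun γ : PB b => γ.1 (lam1 (stdSimplex.map (so θ) u))) (hj (sg x u))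
  refine (show _ = (sg x u).1.1 (lam1 (stdSimplex.map (so θ) u)) from h1).trans ?_
  have h2 := PF94.shr_end (sg x u).1 (SingAct265.bar (so θ) u)
  exact h2.symm

section base

open Crest.Agent.R204.Ind979 Crest.Agent.R204.Bar170 Crest.Agent.R204.Psi755 Crest.Agent.R204.Coalg847

/-- **the range loop theorem on the base component**, algebraic form -/
theorem loop_range_base {X : PFib} (S : PSus X) (M : PMul X) {H0 A : Type} [CommRing H0] [Algebra F2 H0]
    [CommRing A] [Algebra F2 A] {ι : Type} {deg : ι → ℕ} (hdeg : ∀ i, 1 ≤ deg i)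
    (connX : ∀ x ∈ H.gr F2 X.G 0, ∃ r : F2, x = r • Coalg847.vtx X.e)
    (base : Subalgebra F2 H0) (gr0 : ℕ → Submodule F2 H0) (θ : H F2 X.G →ₗ[F2] H0)
    (θ_inj : Function.Injective θ) (θ_range : ∀ y ∈ base, ∃ x, θ x = y)
    (θ_gr : ∀ t x, θ x ∈ gr0 t → x ∈ H.gr F2 X.G t)
    (θ_one : θ (Coalg847.vtx X.e) = 1) (θ_mul : ∀ x y, θ (X.mulH EZ847.ezd x y) = θ x * θ y)
    (one_mem : (1 : H0) ∈ gr0 0)
    (mul_mem : ∀ s t a b, a ∈ gr0 s → b ∈ gr0 t → a * b ∈ gr0 (s + t))
    (v : ι → H0) (hv : ∀ i, v i ∈ gr0 (deg i) ⊓ Subalgebra.toSubmodule base)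
    (ψ : H F2 X.K →ₗ[F2] A) (grA : ℕ → Submodule F2 A) (ψ_inj : Function.Injective ψ)
    (hgA : ∀ t a, a ∈ H.gr F2 X.K t → ψ a ∈ grA t)
    (ψ_one : ψ (Coalg847.vtx (X.π.app 0 X.p0)) = 1)
    (ψ_mul : ∀ a b, ψ (mulK M a b) = ψ a * ψ b)
    (s : H0 →ₗ[F2] A) (hs : ∀ x, θ x ∈ base → s (θ x) = ψ (sus S x)) {n : ℕ}
    (h : SimR grA (fun i => s (v i)) (fun i => deg i + 1) (n + 1)) :
    PolyR (fun t => gr0 t ⊓ Subalgebra.toSubmodule base) v deg n := by
  classical
  have hex : ∀ y : base, ∃ x, θ x = (y : H0) := fun y => θ_range y y.2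
  choose g0 hg0 using hex
  let g : base →ₗ[F2] H F2 X.G :=
    { toFun := g0
      map_add' := fun a b => θ_inj (by rw [map_add, hg0, hg0, hg0]; rfl)
      map_smul' := fun r a => θ_inj (by rw [map_smul, hg0, hg0]; rfl) }
  have hg : ∀ y : base, θ (g y) = (y : H0) := hg0
  let v' : ι → base := fun i => ⟨v i, (hv i).2⟩
  refine PolyR.of_base (base := base) (gr0 := gr0) (v := v') (deg := deg) (N := n) ?_
  refine loop_range S M hdeg connX g (fun t => (gr0 t).comap base.val.toLinearMap) ?_ ?_ ?_ ?_ one_mem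
    (fun s t a b ha hb => mul_mem s t a b ha hb) ?_ v' (fun i => (hv i).1) ψ grA ψ_inj hgA ψ_one ψ_mul ?_
  · intro a b hab
    apply Subtype.ext
    rw [← hg, ← hg, hab]
  · intro t a ha
    refine θ_gr t _ ?_
    rw [hg]; exact ha
  · refine θ_inj ?_
    rw [hg, θ_one]; rfl
  · intro a b
    refine θ_inj ?_
    rw [hg, θ_mul, hg, hg]; rfl
  · intro a ha
    have h1 : g a ∈ H.gr F2 X.G 0 := θ_gr 0 _ (by rw [hg]; exact ha)
    obtain ⟨r, hr⟩ := connX _ h1
    have h2 := congrArg θ hr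
    rw [hg, map_smul, θ_one] at h2
    exact Submodule.mem_span_singleton.2 ⟨r, Subtype.ext h2.symm⟩
  · have h3 : (fun i => ψ (sus S (g (v' i)))) = fun i => s (v i) := by
      funext i
      have h4 := hs (g (v' i)) (by rw [hg]; exact (v' i).2)
      rw [hg] at h4
      exact h4.symm
    rw [h3]
    exact h

end base

end Crest.Agent.R204.Cov892
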