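import Crest.Agent.R204.ExcC_406
import Crest.Agent.R204.HA_498

/-!
# Row 204, leaf A-EXC (helper406): degrees, open covers, the Mayer-Vietoris short exact sequence
-/

set_option autoImplicit false

namespace Crest.Agent.R204.Exc406

open Finsupp Function

/-! ## degree projections on normalised chains -/

section pr

variable {R : Type} [CommRing R] {K L : SS}

theorem proj_Dg (n : ℕ) {c : Ch R K} (hc : c ∈ Ch.Dg R K) : proj R K n c ∈ Ch.Dg R K := by
  have : Ch.Dg R K ≤ (Ch.Dg R K).comap (proj R K n) := by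
    refine Submodule.span_le.2 ?_
    rintro _ ⟨t, ht, rfl⟩
    rw [SetLike.mem_coe, Submodule.mem_comap, proj_single]
    split_ifs
    · exact single_mem_Dg ht 1
    · exact Submodule.zero_mem _
  exact this hc

variable (R K) in
/-- projection to degree `n` on normalised chains -/
noncomputable def prN (n : ℕ) : N R K →ₗ[R] N R K :=
  Submodule.mapQ _ _ (proj R K n) (fun _ hc => proj_Dg n hc)

theorem prN_mk (n : ℕ) (c : Ch R K) :
    prN R K n (Submodule.Quotient.mk c) = Submodule.Quotient.mk (proj R K n c) := rfl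

theorem proj_mem_gr (n : ℕ) (c : Ch R K) : proj R K n c ∈ Ch.gr R K n := by
  induction c using Finsupp.induction_linear with
  | zero => rw [map_zero]; exact Submodule.zero_mem _
  | add f g hf hg => rw [map_add]; exact Submodule.add_mem _ hf hg
  | single t r =>
    rw [proj_single]
    split_ifs with h
    · obtain ⟨m, x⟩ := t
      dsimp only at h
      subst h
      have : (single ⟨m, x⟩ r : Ch R K) = r • single ⟨m, x⟩ 1 := by simp
      rw [this]
      exact Submodule.smul_mem _ _ (Submodule.subset_span ⟨x, rfl⟩)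
    · exact Submodule.zero_mem _

theorem prN_mem_gr (n : ℕ) (c : N R K) : prN R K n c ∈ N.gr R K n := by
  obtain ⟨c, rfl⟩ := Submodule.Quotient.mk_surjective _ c
  exact ⟨proj R K n c, proj_mem_gr n c, rfl⟩

theorem proj_of_mem_gr (n : ℕ) {c : Ch R K} (hc : c ∈ Ch.gr R K n) : proj R K n c = c := by
  have : Ch.gr R K n ≤ LinearMap.eqLocus (proj R K n) LinearMap.id := by
    refine Submodule.span_le.2 ?_
    rintro _ ⟨x, rfl⟩
    rw [SetLike.mem_coe, LinearMap.mem_eqLocus, proj_single, if_pos rfl]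
    rfl
  exact this hc

theorem prN_of_mem_gr (n : ℕ) {c : N R K} (hc : c ∈ N.gr R K n) : prN R K n c = c := by
  obtain ⟨c, hc, rfl⟩ := hc
  rw [Submodule.mkQ_apply, prN_mk, proj_of_mem_gr n hc]

theorem mem_gr_iff (n : ℕ) (c : N R K) : c ∈ N.gr R K n ↔ prN R K n c = c :=
  ⟨prN_of_mem_gr n, fun h => h ▸ prN_mem_gr n c⟩

theorem proj_bd (n : ℕ) (c : Ch R K) :
    proj R K n (Ch.bd R K c) = Ch.bd R K (proj R K (n + 1) c) := by
  refine ch_ext (proj R K n ∘ₗ Ch.bd R K) (Ch.bd R K ∘ₗ proj R K (n + 1)) (fun m x => ?_) c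
  rw [LinearMap.comp_apply, LinearMap.comp_apply, proj_single]
  rcases m with _ | m
  · rw [Ch.bd_single_zero, map_zero, if_neg (by simp), map_zero]
  · by_cases h : m = n
    · subst h
      rw [if_pos rfl, proj_bd_single]
    · rw [if_neg (by simpa using h), map_zero, Ch.bd_single_succ, map_sum]
      refine Finset.sum_eq_zero fun i _ => ?_
      rw [proj_single, if_neg h]

theorem proj_zero_bd (c : Ch R K) : Ch.bd R K (proj R K 0 c) = 0 := by
  refine ch_ext (Ch.bd R K ∘ₗ proj R K 0) 0 (fun m x => ?_) c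
  rw [LinearMap.comp_apply, proj_single, LinearMap.zero_apply]
  rcases m with _ | m
  · rw [if_pos rfl, Ch.bd_single_zero]
  · rw [if_neg (by simp), map_zero]

theorem prN_bd (n : ℕ) (c : N R K) : prN R K n (N.bd R K c) = N.bd R K (prN R K (n + 1) c) := by
  obtain ⟨c, rfl⟩ := Submodule.Quotient.mk_surjective _ c
  rw [N.bd_mk, prN_mk, prN_mk, N.bd_mk, proj_bd]

theorem bd_prN_zero (c : N R K) : N.bd R K (prN R K 0 c) = 0 := by
  obtain ⟨c, rfl⟩ := Submodule.Quotient.mk_surjective _ c
  rw [prN_mk, N.bd_mk, proj_zero_bd]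
  rfl

theorem bd_prN_cycle (n : ℕ) {c : N R K} (hc : N.bd R K c = 0) : N.bd R K (prN R K n c) = 0 := by
  rcases n with _ | n
  · exact bd_prN_zero c
  · rw [← prN_bd, hc, map_zero]

theorem bd_mem_gr (n : ℕ) {c : N R K} (hc : c ∈ N.gr R K (n + 1)) : N.bd R K c ∈ N.gr R K n := by
  rw [mem_gr_iff] at hc ⊢
  rw [prN_bd, hc]

theorem bd_gr_zero {c : N R K} (hc : c ∈ N.gr R K 0) : N.bd R K c = 0 := by
  rw [mem_gr_iff] at hc
  rw [← hc, bd_prN_zero]

theorem proj_map (f : SS.Hom K L) (n : ℕ) (c : Ch R K) :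
    proj R L n (Ch.map R f c) = Ch.map R f (proj R K n c) := by
  refine ch_ext (proj R L n ∘ₗ Ch.map R f) (Ch.map R f ∘ₗ proj R K n) (fun m x => ?_) c
  rw [LinearMap.comp_apply, LinearMap.comp_apply, Ch.map_single, proj_single, proj_single]
  by_cases h : m = n
  · rw [if_pos h, if_pos h, Ch.map_single]
  · rw [if_neg h, if_neg h, map_zero]

theorem prN_map (f : SS.Hom K L) (n : ℕ) (c : N R K) :
    prN R L n (N.map R f c) = N.map R f (prN R K n c) := by
  obtain ⟨c, rfl⟩ := Submodule.Quotient.mk_surjective _ c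
  rw [N.map_mk, prN_mk, prN_mk, N.map_mk, proj_map]

theorem map_mem_gr (f : SS.Hom K L) {n : ℕ} {c : N R K} (hc : c ∈ N.gr R K n) :
    N.map R f c ∈ N.gr R L n := by
  rw [mem_gr_iff] at hc ⊢
  rw [prN_map, hc]

theorem mem_gr_of_map (f : SS.Hom K L) (hf : Injective (N.map R f)) {n : ℕ} {c : N R K}
    (hc : N.map R f c ∈ N.gr R L n) : c ∈ N.gr R K n := by
  rw [mem_gr_iff] at hc ⊢
  apply hf
  rw [← prN_map, hc]

/-- a class whose image under an injective homology map is homogeneous is homogeneous -/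
theorem H_mem_gr_of_map (f : SS.Hom K L) (hf : Injective (H.map R f)) {n : ℕ} {u : H R K}
    (hu : H.map R f u ∈ H.gr R L n) : u ∈ H.gr R K n := by
  obtain ⟨z, hz, rfl⟩ := Hd.mk_surj _ u
  rw [HA498.H_gr_eq, HA498.mem_grHd] at hu
  obtain ⟨y, hy, hy', e⟩ := hu
  rw [H.map, Hd.map_mk, Hd.mk_eq_mk] at e
  obtain ⟨w, hw⟩ := e
  have h1 : Hd.mk (N.bd R K) z hz = Hd.mk (N.bd R K) (prN R K n z) (bd_prN_cycle n hz) := by
    apply hf
    rw [H.map, Hd.map_mk, Hd.map_mk, Hd.mk_eq_mk]
    refine ⟨w - prN R L (n + 1) w, ?_⟩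
    rw [map_sub, ← prN_bd, hw, map_sub, prN_map, prN_of_mem_gr n hy]
    abel
  rw [h1, HA498.H_gr_eq]
  exact HA498.mk_mem_grHd (prN_mem_gr n z) _

theorem H_map_mem_gr (f : SS.Hom K L) {n : ℕ} {u : H R K} (hu : u ∈ H.gr R K n) :
    H.map R f u ∈ H.gr R L n :=
  HA498.map_mem_grHd (N.map_bd f) (fun _ hx => map_mem_gr f hx) hu

end pr

/-! ## the Mayer-Vietoris square of simplicial sets -/

section MV

variable {K0 K1 K2 L : SS}

/-- a union of two simplicial subsets with intersection `K0` (levelwise injective maps) -/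
structure MVSq (i : SS.Hom K0 K1) (j : SS.Hom K0 K2) (k : SS.Hom K1 L) (l : SS.Hom K2 L) : Prop where
  hi : ∀ n, Injective (i.app n)
  hk : ∀ n, Injective (k.app n)
  hl : ∀ n, Injective (l.app n)
  comm : ∀ n x, k.app n (i.app n x) = l.app n (j.app n x)
  cap : ∀ n x y, k.app n x = l.app n y → ∃ z, i.app n z = x
  cup : ∀ n x, (∃ y, k.app n y = x) ∨ ∃ y, l.app n y = x

variable {i : SS.Hom K0 K1} {j : SS.Hom K0 K2} {k : SS.Hom K1 L} {l : SS.Hom K2 L}

theorem N_map_comm {R : Type} [CommRing R] (h : MVSq i j k l) (x : N R K0) :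
    N.map R k (N.map R i x) = N.map R l (N.map R j x) := by
  obtain ⟨c, rfl⟩ := Submodule.Quotient.mk_surjective _ x
  rw [N.map_mk, N.map_mk, N.map_mk, N.map_mk]
  congr 1
  refine ch_ext (Ch.map R k ∘ₗ Ch.map R i) (Ch.map R l ∘ₗ Ch.map R j) (fun n x => ?_) c
  rw [LinearMap.comp_apply, LinearMap.comp_apply, Ch.map_single, Ch.map_single, Ch.map_single,
    Ch.map_single, h.comm]

theorem Ch_map_apply {R : Type} [CommRing R] {K L : SS} (f : SS.Hom K L)
    (hf : ∀ n, Injective (f.app n)) (c : Ch R K) (n : ℕ) (x : K.S n) :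
    Ch.map R f c ⟨n, f.app n x⟩ = c ⟨n, x⟩ := by
  have hinj : Function.Injective (fun t : K.T => (⟨t.1, f.app t.1 t.2⟩ : L.T)) := by
    rintro ⟨n, x⟩ ⟨m, y⟩ h
    simp only [Sigma.mk.injEq] at h
    obtain ⟨rfl, h⟩ := h
    rw [heq_eq_eq] at h
    rw [hf _ h]
  rw [Ch.map, Finsupp.lmapDomain_apply]
  exact Finsupp.mapDomain_apply hinj c ⟨n, x⟩

theorem Ch_map_notin {R : Type} [CommRing R] {K L : SS} (f : SS.Hom K L) (c : Ch R K) (n : ℕ)
    (y : L.S n) (hy : ∀ x, f.app n x ≠ y) : Ch.map R f c ⟨n, y⟩ = 0 := by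
  rw [Ch.map, Finsupp.lmapDomain_apply]
  apply Finsupp.mapDomain_of_notMem_range
  rintro ⟨⟨m, x⟩, h⟩
  simp only [Sigma.mk.injEq] at h
  obtain ⟨rfl, h⟩ := h
  rw [heq_eq_eq] at h
  exact hy x h

open Classical in
theorem mv_exact {R : Type} [CommRing R] (h : MVSq i j k l) (a : N R K1) (b : N R K2)
    (hab : N.map R k a + N.map R l b = 0) : ∃ x : N R K0, N.map R i x = a ∧ -N.map R j x = b := by
  obtain ⟨A, rfl⟩ := Submodule.Quotient.mk_surjective _ a
  obtain ⟨B, rfl⟩ := Submodule.Quotient.mk_surjective _ b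
  rw [N.map_mk, N.map_mk, ← Submodule.Quotient.mk_add, Submodule.Quotient.mk_eq_zero,
    mem_Dg_iff] at hab
  set S : K1.T → Prop := fun t => ∃ z : K0.S t.1, i.app t.1 z = t.2 with hS
  -- the part of `A` in the intersection
  have h1 : (A.filter S) ∈ LinearMap.range (Ch.map R i) := by
    have h2 : ∀ c : Ch R K1, (∀ t, c t ≠ 0 → S t) → c ∈ LinearMap.range (Ch.map R i) := by
      intro c
      induction c using Finsupp.induction with
      | zero => intro _; exact Submodule.zero_mem _
      | single_add t r f ht hr ih =>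
        intro hc
        have h3 : S t := hc t (by simp [Finsupp.notMem_support_iff.1 ht, hr])
        refine Submodule.add_mem _ ?_ (ih fun s hs => hc s ?_)
        · obtain ⟨n, x⟩ := t
          obtain ⟨z, hz⟩ := h3
          dsimp only at z hz
          subst hz
          exact ⟨single ⟨n, z⟩ r, Ch.map_single _ _ _ _⟩
        · have : s ≠ t := by
            rintro rfl
            exact hs (Finsupp.notMem_support_iff.1 ht)
          rw [Finsupp.add_apply, Finsupp.single_eq_of_ne this, zero_add]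
          exact hs
    refine h2 _ fun t ht => ?_
    by_contra hc
    exact ht (Finsupp.filter_apply_neg _ _ hc)
  obtain ⟨Z, hZ⟩ := h1
  have h4 : N.map R i (Submodule.Quotient.mk Z) = (Submodule.Quotient.mk A : N R K1) := by
    rw [N.map_mk, hZ, Submodule.Quotient.eq, mem_Dg_iff]
    rintro ⟨n, x⟩ hx
    rw [Finsupp.sub_apply] at hx
    by_cases hs : S ⟨n, x⟩
    · rw [Finsupp.filter_apply_pos _ _ hs, sub_self] at hx
      exact absurd rfl hx
    · rw [Finsupp.filter_apply_neg _ _ hs, zero_sub, neg_ne_zero] at hx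
      refine isDgn_of_map k h.hk (hab ⟨n, k.app n x⟩ ?_)
      rw [Finsupp.add_apply, Ch_map_apply k h.hk, Ch_map_notin, add_zero]
      · exact hx
      · intro y hy
        exact hs (h.cap n x y hy.symm)
  refine ⟨Submodule.Quotient.mk Z, h4, ?_⟩
  apply map_inj l h.hl (R := R)
  rw [map_neg, ← N_map_comm h, h4]
  have : N.map R k (Submodule.Quotient.mk A : N R K1) + N.map R l (Submodule.Quotient.mk B : N R K2)
      = 0 := by
    rw [N.map_mk, N.map_mk, ← Submodule.Quotient.mk_add, Submodule.Quotient.mk_eq_zero, mem_Dg_iff]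
    exact hab
  rw [neg_eq_iff_add_eq_zero]
  exact this

theorem N_induction {R : Type} [CommRing R] {K : SS} {p : Submodule R (N R K)}
    (h : ∀ n (x : K.S n), N.sx R x ∈ p) (c : N R K) : c ∈ p := by
  obtain ⟨c, rfl⟩ := Submodule.Quotient.mk_surjective _ c
  induction c using Finsupp.induction_linear with
  | zero => exact Submodule.zero_mem _
  | add f g hf hg => exact Submodule.add_mem _ hf hg
  | single t r =>
    obtain ⟨n, x⟩ := t
    have : (single ⟨n, x⟩ r : Ch R K) = r • single ⟨n, x⟩ 1 := by simp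
    rw [this, Submodule.Quotient.mk_smul]
    exact Submodule.smul_mem _ _ (h n x)

variable (R : Type) [CommRing R]

/-- the Mayer-Vietoris short exact sequence -/
theorem mv_ses (h : MVSq i j k l) :
    HA498.SES (N.bd R K0) ((N.bd R K1).prodMap (N.bd R K2)) (N.bd R L)
      ((N.map R i).prod (-N.map R j)) ((N.map R k).coprod (N.map R l)) where
  sq' := N.bd_bd
  sq := fun x => by
    rw [LinearMap.prodMap_apply, LinearMap.prodMap_apply, N.bd_bd, N.bd_bd]; rfl
  hf := by
    refine LinearMap.ext fun x => ?_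
    have h1 := LinearMap.congr_fun (N.map_bd (R := R) i) x
    have h2 := LinearMap.congr_fun (N.map_bd (R := R) j) x
    simp only [LinearMap.comp_apply] at h1 h2
    refine Prod.ext h1 ?_
    show -(N.map R j (N.bd R K0 x)) = N.bd R K2 (-(N.map R j x))
    rw [map_neg, h2]
  hg := by
    refine LinearMap.ext fun x => ?_
    have h1 := LinearMap.congr_fun (N.map_bd (R := R) k) x.1
    have h2 := LinearMap.congr_fun (N.map_bd (R := R) l) x.2
    simp only [LinearMap.comp_apply] at h1 h2
    simp only [LinearMap.comp_apply, LinearMap.coprod_apply, LinearMap.prodMap_apply, h1, h2,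
      map_add]
  inj := by
    intro x y hxy
    exact map_inj i h.hi (congrArg Prod.fst hxy)
  ex := by
    rintro ⟨a, b⟩
    constructor
    · intro hab
      obtain ⟨x, hx, hx'⟩ := mv_exact h a b hab
      exact ⟨x, Prod.ext hx hx'⟩
    · rintro ⟨x, hx⟩
      rw [← hx]
      show N.map R k (N.map R i x) + N.map R l (-N.map R j x) = 0
      rw [map_neg, N_map_comm h, add_neg_cancel]
  surj := by
    rw [← LinearMap.range_eq_top, Submodule.eq_top_iff']
    refine N_induction fun n x => ?_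
    rcases h.cup n x with ⟨y, rfl⟩ | ⟨y, rfl⟩
    · exact ⟨(N.sx R y, 0), by simp⟩
    · exact ⟨(0, N.sx R y), by simp⟩

end MV

end Crest.Agent.R204.Exc406
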