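import Crest.Agent.R204.Hopf4b_450
import Crest.Agent.R204.HspSS_696
import Crest.Agent.R204.Ops_265
import Crest.Agent.R204.EZInst_847

/-!
# Row 204, A4p (helper450): the instance `Sing (Ω^J Z)` and the comparison with `Ops265.mulH`

* `omMon c : HMon (Sing (Om J Z z₀))` for `J` nontrivial, `c : BoxConf (Fin 2) J`, product `mulS c`,
  unit vertex `eS`; in homology independent of `c` (`omMon_mulL_eq`);
* the laws `UnitL / UnitR / Assoc / Comm` of `omAlg k (mulS c)`;
* `mulL_eq_mulH`.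
-/

set_option autoImplicit false

open scoped Topology unitInterval Topology.Homotopy

noncomputable section

namespace Crest.Agent.R204.Hopf450

open Crest.Agent.R204 SS SingAct265 Cubes735 Hsp696 HspSS696 ThAlg265 TensorProduct Coalg847

/-! ## comparison of products -/

/-- the Pontryagin product is `Ops265.mulH` -/
theorem mulL_eq_mulH {K : SS} (M : HMon K) : M.mulL EZ847.ezd = Ops265.mulH M.mu := by
  refine LinearMap.ext fun x => LinearMap.ext fun y => ?_
  obtain ⟨x, hx, rfl⟩ := Hd.mk_surj _ x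
  obtain ⟨y, hy, rfl⟩ := Hd.mk_surj _ y
  rw [M.mulL_mk EZ847.ezd x y hx hy, Ops265.mulH_mk]
  rfl

theorem vtx_eq (K : SS) (v : K.S 0) : Coalg847.vtx v = C5T557.vtx F2 v := rfl

theorem vtx_eq_oneH (K : SS) (v : K.S 0) : Coalg847.vtx v = Ops265.oneH v := rfl

/-- `Δ_* = cr ∘ cop` -/
theorem diag_eq {K : SS} (E : EZData) (x : H F2 K) :
    H.map F2 (SS.diag K) x = E.cr K K (E.cop K x) := (E.cr_cop x).symm

/-- `μ_* Δ_* y = mul'(cop y)` -/
theorem map_mu_diag {K : SS} (M : HMon K) (E : EZData) (y : H F2 K) :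
    H.map F2 M.mu (H.map F2 (SS.diag K) y) = TensorProduct.lift (M.mulL E) (E.cop K y) := by
  rw [diag_eq E]
  generalize E.cop K y = t
  induction t with
  | zero => simp
  | add a b ha hb => simp only [map_add, ha, hb]
  | tmul a b => rw [TensorProduct.lift.tmul]; rfl

/-! ## the instance -/

section om

variable {J : Type} [Finite J] {Z : Type} [TopologicalSpace Z] {z₀ : Z} {M : ℕ}

theorem omAlg_unitL (k : Fin (M + 1) ↪ J) (c : BoxConf (Fin 2) J) :
    (omAlg k (mulS c) : ThAlg M (Sing (HspSS696.Om J Z z₀))).UnitL := SH.of' (mulS_unit_left c)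

theorem omAlg_unitR (k : Fin (M + 1) ↪ J) (c : BoxConf (Fin 2) J) :
    (omAlg k (mulS c) : ThAlg M (Sing (HspSS696.Om J Z z₀))).UnitR := SH.of' (mulS_unit_right c)

theorem omAlg_assoc [Nontrivial J] (k : Fin (M + 1) ↪ J) (c : BoxConf (Fin 2) J) :
    (omAlg k (mulS c) : ThAlg M (Sing (HspSS696.Om J Z z₀))).Assoc := SH.of' (mulS_assoc c)

theorem omAlg_comm [Nontrivial J] (k : Fin (M + 1) ↪ J) (c : BoxConf (Fin 2) J) :
    (omAlg k (mulS c) : ThAlg M (Sing (HspSS696.Om J Z z₀))).Comm := SH.of' (mulS_comm c)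

variable [Nontrivial J]

/-- **the H-monoid `Sing (Ω^J Z)`** -/
def omMon (c : BoxConf (Fin 2) J) : HMon (Sing (HspSS696.Om J Z z₀)) :=
  HMon.ofSH (mulS c) eS (SH.of' (mulS_unit_left c)) (SH.of' (mulS_unit_right c))
    (SH.of' (mulS_assoc c)) (SH.of' (mulS_comm c))

@[simp] theorem omMon_mu (c : BoxConf (Fin 2) J) :
    (omMon c : HMon (Sing (HspSS696.Om J Z z₀))).mu = mulS c := rfl

@[simp] theorem omMon_e (c : BoxConf (Fin 2) J) :
    (omMon c : HMon (Sing (HspSS696.Om J Z z₀))).e = eS := rfl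

theorem omMon_eq_ofThAlg (k : Fin (M + 1) ↪ J) (c : BoxConf (Fin 2) J) :
    (omMon c : HMon (Sing (HspSS696.Om J Z z₀))) =
      HMon.ofThAlg (omAlg k (mulS c)) (omAlg_unitL k c) (omAlg_unitR k c) (omAlg_assoc k c)
        (omAlg_comm k c) := rfl

/-- in homology the product does not depend on the configuration -/
theorem omMon_map_mu (c d : BoxConf (Fin 2) J) :
    H.map F2 (omMon c : HMon (Sing (HspSS696.Om J Z z₀))).mu = H.map F2 (omMon d).mu :=
  (SH.of' (mulS_htpy' c d)).map_eq HtpInv334.homotopyInv F2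

theorem omMon_mulL_eq (E : EZData) (c d : BoxConf (Fin 2) J) :
    (omMon c : HMon (Sing (HspSS696.Om J Z z₀))).mulL E = (omMon d).mulL E := by
  refine LinearMap.ext fun x => LinearMap.ext fun y => ?_
  rw [HMon.mulL_apply, HMon.mulL_apply, omMon_map_mu c d]

/-- inverses: `x ↦ x⁻¹` on `Sing (Ω^J Z)` -/
theorem omMon_inv_right [DecidableEq J] (i : J) (c : BoxConf (Fin 2) J) :
    H.map F2 ((omMon c : HMon (Sing (HspSS696.Om J Z z₀))).mu.comp
      (SS.pair (Hom.id _) (invS i))) = H.map F2 (constHom _ _ eS) := by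
  have h1 : H.map F2 ((mulS (halves i)).comp (SS.pair (Hom.id (Sing (HspSS696.Om J Z z₀))) (invS i))) =
      H.map F2 (constHom _ _ eS) := (SH.of' (mulS_inv_right i)).map_eq HtpInv334.homotopyInv F2
  rw [← h1]
  exact map_comp_congr (omMon_map_mu c (halves i)) _

theorem omMon_inv_left [DecidableEq J] (i : J) (c : BoxConf (Fin 2) J) :
    H.map F2 ((omMon c : HMon (Sing (HspSS696.Om J Z z₀))).mu.comp
      (SS.pair (invS i) (Hom.id _))) = H.map F2 (constHom _ _ eS) := by
  have h1 : H.map F2 ((mulS (halves i)).comp (SS.pair (invS i) (Hom.id (Sing (HspSS696.Om J Z z₀))))) =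
      H.map F2 (constHom _ _ eS) := (SH.of' (mulS_inv_left i)).map_eq HtpInv334.homotopyInv F2
  rw [← h1]
  exact map_comp_congr (omMon_map_mu c (halves i)) _

/-- `[x] [x⁻¹] = 1` for a point `x` -/
theorem omMon_vtx_inv [DecidableEq J] (E : EZData) (i : J) (c : BoxConf (Fin 2) J)
    (v : (Sing (HspSS696.Om J Z z₀)).S 0) :
    (omMon c).mulL E (vtx v) (vtx ((invS i).app 0 v)) = vtx eS := by
  rw [HMon.mulL_vtx_vtx, ← hMap_vtx (K := (Sing (HspSS696.Om J Z z₀)).prod
    (Sing (HspSS696.Om J Z z₀))) (omMon c).mu (v, (invS i).app 0 v)]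
  have h1 : (vtx (K := (Sing (HspSS696.Om J Z z₀)).prod (Sing (HspSS696.Om J Z z₀)))
      (v, (invS i).app 0 v)) = H.map F2 (SS.pair (Hom.id _) (invS i)) (vtx v) := by
    rw [hMap_vtx]; rfl
  rw [h1, ← hMap_comp, omMon_inv_right i c, hMap_vtx]
  rfl

/-- loop maps are H-maps -/
theorem mapS_hmor {Z' : Type} [TopologicalSpace Z'] {z₀' : Z'} (g : C(Z, Z')) (hg : g z₀ = z₀')
    (c : BoxConf (Fin 2) J) :
    HMor (omMon c : HMon (Sing (HspSS696.Om J Z z₀))) (omMon c) (mapS g hg) where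
  mu := by
    show H.map F2 ((mapS g hg).comp (mulS c)) = _
    rw [mapS_mulS]; rfl
  one := by
    congr 1
    refine sing_ext fun t => ?_
    show Cubes735.GenLoop.map g hg GenLoop.const = GenLoop.const
    ext s
    exact hg

end om

end Crest.Agent.R204.Hopf450
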