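import Crest.Agent.R204.GeoC_979
import Crest.Agent.R204.Psi3_755
import Crest.Agent.R204.SigEval_343
import Crest.Agent.R204.PolyT_979
import Crest.Agent.R204.Hopf4i_450

/-!
# Row 204, block B, final instantiation, part D (helper979)

`loopThm : PolyT979.LoopThm`, the loop space theorem in a range for `Ω^(b+1) Z` over `Ω^b Z`
(both path connected).
-/

set_option autoImplicit false
set_option linter.style.haveILetI false

noncomputable section

namespace Crest.Agent.R204.Geo979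

open Crest.Agent.R204 Crest.Agent.R204.SS Crest.Agent.R204.Bis343 Crest.Agent.R204.Bar170
  Crest.Agent.R204.Coalg847 Crest.Agent.R204.PF872 Crest.Agent.R204.Cov892
open Crest.Agent.R204.SingAct265 (mkS singPair)
open Crest.Agent.R204.HspSS696 (Om mulS)
open Crest.Agent.R204.Cubes735 (BoxConf mu)
open Crest.Agent.R204.Inst194 (EE hmonA)
open Crest.Agent.R204.Hopf450 (HMon)
open TensorProduct unitInterval

variable {Z : Type} [TopologicalSpace Z] {z₀ : Z} {n : ℕ}

/-- the suspension of the path fibration is 330's loop suspension -/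
theorem sigma_eq (h1 : ∀ x : Om (Fin (n + 1)) Z z₀, Joined x GenLoop.const)
    (y : H F2 (Sing (Om (Fin (n + 1)) Z z₀))) :
    H.map F2 (prj (bo Z z₀ n)) (Psi755.sus (PF94.psus (bo Z z₀ n)) (gG h1 y)) =
      (Sus330.genLoop n).sigma y :=
  SigEval343.prj_sgH_toG' h1 y

/-- the product of `H (Ω^(n+1) Z)` from coordinate `0` is loop concatenation -/
theorem gG_mulL [Nontrivial (Fin (n + 1))] (h1 : ∀ x : Om (Fin (n + 1)) Z z₀, Joined x GenLoop.const)
    (M : HMon (Sing (Om (Fin (n + 1)) Z z₀))) (c : BoxConf (Fin 2) (Fin (n + 1)))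
    (hM : M.mu = mulS c) (x y : H F2 (Sing (Om (Fin (n + 1)) Z z₀))) :
    gG h1 (M.mulL EE x y) = (PF94.pf (bo Z z₀ n)).mulH EE (gG h1 x) (gG h1 y) := by
  rw [← gG_mul, HMon.mulL_apply, hM]
  congr 1
  exact LinearMap.congr_fun (Hopf450.omMon_map_mu (Z := Z) (z₀ := z₀) c
    (Hsp696.halves (Fin.last n))) _

theorem loopThm : PolyT979.LoopThm := by
  intro M b hM hb Z _ z₀ h0 h1 J v e he hv N
  letI := (hmonA hM (hb.trans (Nat.le_succ b)) : HMon (SS.Sing (Om (Fin (b + 1)) Z z₀))).ring EE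
  letI := (hmonA hM (hb.trans (Nat.le_succ b)) : HMon (SS.Sing (Om (Fin (b + 1)) Z z₀))).alg EE
  letI := (hmonA hM hb : HMon (SS.Sing (Om (Fin b) Z z₀))).ring EE
  letI := (hmonA hM hb : HMon (SS.Sing (Om (Fin b) Z z₀))).alg EE
  intro hS
  haveI : Nontrivial (Fin (b + 1)) := Fin.nontrivial_iff_two_le.2 (by omega)
  haveI := simplyConn h0 h1
  haveI := pathConn h1
  let c : BoxConf (Fin 2) (Fin b) := Hsp696.halves (Inst194.i0 hb)
  refine Psi755.loop_range (X := PF94.pf (bo Z z₀ b)) (PF94.psus (bo Z z₀ b))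
    (PF94.pmul (hsp (Z := Z) (z₀ := z₀) c)) he (conn_G h1) (gG h1)
    (H.gr F2 (SS.Sing (Om (Fin (b + 1)) Z z₀))) (gG_inj h1) (fun t a ha => gG_gr h1 ha) (gG_one h1)
    (fun x y => gG_mulL h1 (hmonA hM (hb.trans (Nat.le_succ b))) _ rfl x y) (vtx_mem_gr _)
    (fun s t x y hx hy => HMon.mulL_mem_gr _ _ hx hy)
    (fun x hx => Submodule.mem_span_singleton.2 ⟨_, (gr_zero_eq _ hx).symm⟩) v hv
    (H.map F2 (prj (bo Z z₀ b))) (H.gr F2 (SS.Sing (Om (Fin b) Z z₀))) (prj_inj _)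
    (fun t a ha => hMap_mem_gr _ ha) ?_ ?_ ?_
  · exact hMap_vtx _ _
  · intro x y
    exact prj_mul _ _ _ x y
  · have e1 : (fun j => H.map F2 (prj (bo Z z₀ b))
        (Psi755.sus (PF94.psus (bo Z z₀ b)) (gG h1 (v j)))) =
        fun j => (Sus330.genLoop b).sigma (v j) := funext fun j => sigma_eq h1 _
    exact Eq.mpr (congrArg (fun s => Ind979.SimR (H.gr F2 (Sing (Om (Fin b) Z z₀))) s
      (fun j => e j + 1) (N + 1)) e1) hS

end Crest.Agent.R204.Geo979
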