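import Crest.Agent.R204.InstSp_194
import Crest.Agent.R204.AdjC_330
import Crest.Agent.R204.Hopf4b_450
import Crest.Agent.R204.Ops_265
import Crest.Agent.R204.Sq2_252
import Crest.Agent.R204.CompOps_696

/-!
# Row 204, SP3 (helper194): the CONCRETE TOWER

`thA hM h`   : the `Θ`-algebra `Sing (Ω^(Fin j) Z)` (`h : M + 1 ≤ j`, product = halves of coordinate 0)
`hmonA hM h` : its H-monoid
`tower p`    : the `Spec114.Tower` with parameters `p = (M, J0, K)`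
-/

set_option autoImplicit false
set_option linter.style.haveILetI false

noncomputable section

namespace Crest.Agent.R204.Inst194

open scoped _root_.Topology _root_.Topology.Homotopy TensorProduct
open Crest.Agent.R204 Crest.Agent.R204.Freu297 Crest.Agent.R204.Sus330
open Crest.Agent.R204.HspSS696 (mulS eS ptS mulS_comm mulS_assoc mulS_unit_left mulS_unit_right mulS_htpy')
open Crest.Agent.R204.Hsp696 (halves)
open Crest.Agent.R204.ThAlg265 (ThAlg SH omAlg omAlg_oneLaw)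
open Crest.Agent.R204.Hopf450 (HMon)

/-- the EZ data used everywhere -/
abbrev EE : Coalg847.EZData := EZ847.ezd

/-! ## one stage -/

section stage

variable {M j : ℕ} {Z : Type} [TopologicalSpace Z] {z₀ : Z}

theorem two_le {M j : ℕ} (hM : 1 ≤ M) (h : M + 1 ≤ j) : 2 ≤ j := by omega

/-- coordinate `0` -/
def i0 (h : M + 1 ≤ j) : Fin j := ⟨0, by omega⟩

/-- the product of `Ω^(Fin j) Z` : the two halves of coordinate `0` -/
def mu0 (h : M + 1 ≤ j) : SS.Hom ((SS.Sing (Ω^ (Fin j) Z z₀)).prod (SS.Sing (Ω^ (Fin j) Z z₀)))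
    (SS.Sing (Ω^ (Fin j) Z z₀)) := mulS (halves (i0 h))

/-- the `Θ`-algebra of `Ω^(Fin j) Z` -/
def thA (h : M + 1 ≤ j) : ThAlg M (SS.Sing (Ω^ (Fin j) Z z₀)) := omAlg (emb h) (mu0 h)

@[simp] theorem thA_mu (h : M + 1 ≤ j) : (thA h : ThAlg M (SS.Sing (Ω^ (Fin j) Z z₀))).mu = mu0 h := rfl
@[simp] theorem thA_one (h : M + 1 ≤ j) : (thA h : ThAlg M (SS.Sing (Ω^ (Fin j) Z z₀))).one = eS := rfl

theorem thA_unitL (h : M + 1 ≤ j) : (thA h : ThAlg M (SS.Sing (Ω^ (Fin j) Z z₀))).UnitL :=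
  SH.of' (mulS_unit_left (halves (i0 h)))

theorem thA_unitR (h : M + 1 ≤ j) : (thA h : ThAlg M (SS.Sing (Ω^ (Fin j) Z z₀))).UnitR :=
  SH.of' (mulS_unit_right (halves (i0 h)))

theorem thA_assoc (hM : 1 ≤ M) (h : M + 1 ≤ j) : (thA h : ThAlg M (SS.Sing (Ω^ (Fin j) Z z₀))).Assoc := by
  haveI : Nontrivial (Fin j) := Fin.nontrivial_iff_two_le.2 (two_le hM h)
  exact SH.of' (mulS_assoc (halves (i0 h)))

theorem thA_comm (hM : 1 ≤ M) (h : M + 1 ≤ j) : (thA h : ThAlg M (SS.Sing (Ω^ (Fin j) Z z₀))).Comm := by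
  haveI : Nontrivial (Fin j) := Fin.nontrivial_iff_two_le.2 (two_le hM h)
  exact SH.of' (mulS_comm (halves (i0 h)))

theorem thA_oneLaw (h : M + 1 ≤ j) : (thA h : ThAlg M (SS.Sing (Ω^ (Fin j) Z z₀))).OneLaw :=
  omAlg_oneLaw _ _

/-- the H-monoid `Ω^(Fin j) Z` -/
def hmonA (hM : 1 ≤ M) (h : M + 1 ≤ j) : HMon (SS.Sing (Ω^ (Fin j) Z z₀)) :=
  HMon.ofThAlg (thA h) (thA_unitL h) (thA_unitR h) (thA_assoc hM h) (thA_comm hM h)

@[simp] theorem hmonA_mu (hM : 1 ≤ M) (h : M + 1 ≤ j) :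
    (hmonA hM h : HMon (SS.Sing (Ω^ (Fin j) Z z₀))).mu = mu0 h := rfl
@[simp] theorem hmonA_e (hM : 1 ≤ M) (h : M + 1 ≤ j) :
    (hmonA hM h : HMon (SS.Sing (Ω^ (Fin j) Z z₀))).e = eS := rfl

/-- the base component -/
def baseA (hM : 1 ≤ M) (h : M + 1 ≤ j) :
    letI := (hmonA hM h : HMon (SS.Sing (Ω^ (Fin j) Z z₀))).ring EE
    letI := (hmonA hM h : HMon (SS.Sing (Ω^ (Fin j) Z z₀))).alg EE
    Subalgebra F2 (H F2 (SS.Sing (Ω^ (Fin j) Z z₀))) := by
  haveI : Nontrivial (Fin j) := Fin.nontrivial_iff_two_le.2 (two_le hM h)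
  exact Comp696.baseAlg (hmonA hM h) EE (Comp696.omCm (emb h) (halves (i0 h))).c
    (Comp696.omCm (emb h) (halves (i0 h))).one (Comp696.omCm (emb h) (halves (i0 h))).mu

end stage

/-! ## the tower -/

/-- parameters: `M` skeleton, `J0` coordinates, `K` stages -/
structure Par where
  M : ℕ
  J0 : ℕ
  K : ℕ
  hM : 1 ≤ M
  hJ : M + 1 ≤ J0

namespace Par

variable (p : Par)

/-- the sphere dimension -/
abbrev n : ℕ := p.J0 + p.K

/-- `X_k` -/
abbrev X (k : ℕ) : Type := XT p.J0 p.K k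

/-- `Sing X_k` -/
abbrev S (k : ℕ) : SS := XS p.J0 p.K k

theorem hc (k : ℕ) : p.M + 1 ≤ cd p.J0 p.K k := le_cd p.hJ p.K k

/-- the `Θ`-algebra of `X_k` -/
abbrev A (k : ℕ) : ThAlg p.M (p.S k) := thA (p.hc k)

/-- the H-monoid of `X_k` -/
abbrev N (k : ℕ) : HMon (p.S k) := hmonA p.hM (p.hc k)

/-- the loop suspension -/
def sig (k : ℕ) : H F2 (p.S k) →ₗ[F2] H F2 (p.S (k + 1)) :=
  if h : k < p.K then (loopX p.J0 h).sigma else 0

/-- the classes `x_k` -/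
def x : (k : ℕ) → H F2 (p.S k)
  | 0 => Coalg847.vtx (ptS (iotaL p.n) : (p.S 0).S 0)
  | k + 1 => p.sig k (x k)

/-- `[-1]` -/
def xinv : H F2 (p.S 0) :=
  Coalg847.vtx (ptS (GenLoop.symmAt (i0 (p.hc 0)) (iotaL p.n)) : (p.S 0).S 0)

/-- **the concrete tower** -/
def tower : Spec114.Tower where
  H k := H F2 (p.S k)
  ring k := (p.N k).ring EE
  alg k := (p.N k).alg EE
  gr k t := H.gr F2 (p.S k) t
  Δ k := (p.N k).copA EE
  ε k := (p.N k).epsA EE
  Sq k a := Sq252.Sq (p.S k) a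
  T k i := Ops265.T (p.A k) i
  Q k i := Ops265.Q (p.A k) i
  σ k := p.sig k
  x k := p.x k
  xinv := p.xinv
  base := baseA p.hM (p.hc 0)

end Par

end Crest.Agent.R204.Inst194
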