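import Crest.Agent.R204.Cov2_892
import Crest.Agent.R204.Hopf4i_450
import Crest.Agent.R204.LoopId2_872
import Crest.Agent.R204.CopH_847
import Crest.Agent.R204.PF_94

/-!
# Row 204, leaf B5 / Geo (helper905): products in the homology of the base of the path fibration

* generic: `mK mk : H F2 K →ₗ H F2 K →ₗ H F2 K` for a map `mk : K × K → K`; `p : K → L` strictly
  multiplicative into an H-monoid `M` on `L` with `p u = M.e`:
  `map_mK`, `map_foldr`, `map_toList` (product over a `Finset` in the ring `M.ring ezd`)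
* chain level: `pK`, `bd_foldr`, `mk_foldr`
* instance: `K = Bt b`, `L = Sing (Ω^n Z)`, `mk = mulT (mu2 c)`, `p = prj b`.
-/

set_option autoImplicit false
set_option linter.style.haveILetI false

noncomputable section

namespace Crest.Agent.R204.LoopA905

open Crest.Agent.R204 TensorProduct
open Crest.Agent.R204.Hopf450 (HMon)

/-! ## generic part -/

section gen

variable {K L : SS} (mk : SS.Hom (K.prod K) K)

/-- product on homology given by a map `K × K → K` -/
def mK : H F2 K →ₗ[F2] H F2 K →ₗ[F2] H F2 K :=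
  (TensorProduct.mk F2 (H F2 K) (H F2 K)).compr₂ (H.map F2 mk ∘ₗ (EZ847.crH K K).toLinearMap)

theorem mK_apply (x y : H F2 K) : mK mk x y = H.map F2 mk (EZ847.crH K K (x ⊗ₜ y)) := rfl

variable (M : HMon L) (p : SS.Hom K L)

/-- **(A1)** a strictly multiplicative map is multiplicative on homology -/
theorem map_mK (hp : p.comp mk = M.mu.comp (SS.prodMap p p)) (x y : H F2 K) :
    H.map F2 p (mK mk x y) = M.mulL EZ847.ezd (H.map F2 p x) (H.map F2 p y) := by
  rw [mK_apply, ← Coalg847.hMap_comp, hp, Coalg847.hMap_comp, EZ847.crH_nat]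
  rfl

/-- **(A2)** products of lists -/
theorem map_foldr (hp : p.comp mk = M.mu.comp (SS.prodMap p p)) {u : K.S 0}
    (hu : p.app 0 u = M.e) {ι : Type*} (z : ι → H F2 K) (l : List ι) :
    letI := M.ring EZ847.ezd
    H.map F2 p (l.foldr (fun i y => mK mk (z i) y) (Coalg847.vtx u)) =
      (l.map fun i => H.map F2 p (z i)).prod := by
  letI := M.ring EZ847.ezd
  induction l with
  | nil =>
    rw [List.foldr_nil, Coalg847.hMap_vtx, hu]
    rfl
  | cons i l ih =>
    rw [List.foldr_cons, map_mK mk M p hp, ih, List.map_cons, List.prod_cons]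
    rfl

/-- products over finite sets -/
theorem map_toList (hp : p.comp mk = M.mu.comp (SS.prodMap p p)) {u : K.S 0}
    (hu : p.app 0 u = M.e) {ι : Type*} (z : ι → H F2 K) (S : Finset ι) :
    letI := M.ring EZ847.ezd
    H.map F2 p (S.toList.foldr (fun i y => mK mk (z i) y) (Coalg847.vtx u)) =
      ∏ i ∈ S, H.map F2 p (z i) := by
  letI := M.ring EZ847.ezd
  rw [map_foldr mk M p hp hu, Finset.prod_map_toList]

/-! ### chain level -/

/-- product on chains -/
def pK (a b : N F2 K) : N F2 K := N.map F2 mk (EZ271.cross F2 a b)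

theorem bd_pK {a b : N F2 K} (ha : N.bd F2 K a = 0) (hb : N.bd F2 K b = 0) :
    N.bd F2 K (pK mk a b) = 0 := by
  unfold pK
  rw [← EZ271.map_bd', EZ847.cross_cyc ha hb, map_zero]

theorem mK_mk {a b : N F2 K} (ha : N.bd F2 K a = 0) (hb : N.bd F2 K b = 0) :
    mK mk (Hd.mk _ a ha) (Hd.mk _ b hb) = Hd.mk _ (pK mk a b) (bd_pK mk ha hb) := by
  rw [mK_apply, EZ847.crH_mk]
  rfl

/-- iterated product on chains -/
def fK {ι : Type*} (z : ι → N F2 K) (u : K.S 0) (l : List ι) : N F2 K :=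
  l.foldr (fun i c => pK mk (z i) c) (N.sx F2 u)

theorem fK_nil {ι : Type*} (z : ι → N F2 K) (u : K.S 0) : fK mk z u [] = N.sx F2 u := rfl

theorem fK_cons {ι : Type*} (z : ι → N F2 K) (u : K.S 0) (i : ι) (l : List ι) :
    fK mk z u (i :: l) = N.map F2 mk (EZ271.cross F2 (z i) (fK mk z u l)) := rfl

theorem bd_fK {ι : Type*} {z : ι → N F2 K} (hz : ∀ i, N.bd F2 K (z i) = 0) (u : K.S 0)
    (l : List ι) : N.bd F2 K (fK mk z u l) = 0 := by
  induction l with
  | nil => exact Coalg847.bd_vertex u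
  | cons i l ih => exact bd_pK mk (hz i) ih

theorem mk_fK {ι : Type*} {z : ι → N F2 K} (hz : ∀ i, N.bd F2 K (z i) = 0) (u : K.S 0)
    (l : List ι) : Hd.mk _ (fK mk z u l) (bd_fK mk hz u l) =
      l.foldr (fun i y => mK mk (Hd.mk _ (z i) (hz i)) y) (Coalg847.vtx u) := by
  induction l with
  | nil => rfl
  | cons i l ih =>
    rw [List.foldr_cons, ← ih, mK_mk]
    rfl

end gen

/-! ## the instance -/

section om

open Cov892 PF872 Cubes735

/-- the projection of the covering is strictly multiplicative -/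
theorem prj_comp_mulT {B : Type} [TopologicalSpace B] {b : B} (mu : C(B × B, B))
    (hb : mu (b, b) = b) :
    (prj b).comp (mulT mu hb) =
      ((SS.SingMap mu).comp (SingAct265.singPair B B)).comp (SS.prodMap (prj b) (prj b)) := by
  refine SS.Hom.ext (funext fun n => funext fun x => ?_)
  exact prj_mulT mu hb n x.1 x.2

variable {Z : Type} [TopologicalSpace Z] {z₀ : Z} {n : ℕ} [Nontrivial (Fin n)]
  (c : BoxConf (Fin 2) (Fin n))

/-- product on `H(Bt)` -/
abbrev m2 : H F2 (Bt (bo Z z₀ n)) →ₗ[F2] H F2 (Bt (bo Z z₀ n)) →ₗ[F2] H F2 (Bt (bo Z z₀ n)) :=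
  mK (mulT (Hsp696.mu2 c) (hsp c).hb)

theorem prj_comp_m2 : (prj (bo Z z₀ n)).comp (mulT (Hsp696.mu2 c) (hsp c).hb) =
    (Hopf450.omMon c).mu.comp (SS.prodMap (prj (bo Z z₀ n)) (prj (bo Z z₀ n))) :=
  prj_comp_mulT _ _

/-- the base vertex of `Bt` -/
abbrev ubt : (Bt (bo Z z₀ n)).S 0 := (PF94.pf (bo Z z₀ n)).π.app 0 (PF94.pf (bo Z z₀ n)).p0

theorem prj_ubt : (prj (bo Z z₀ n)).app 0 ubt = (Hopf450.omMon c).e := rfl

/-- (A1) -/
theorem prj_m2 (x y : H F2 (Bt (bo Z z₀ n))) : H.map F2 (prj (bo Z z₀ n)) (m2 c x y) =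
    (Hopf450.omMon c).mulL EZ847.ezd (H.map F2 (prj _) x) (H.map F2 (prj _) y) :=
  map_mK _ _ _ (prj_comp_m2 c) x y

/-- (A2) -/
theorem prj_foldr {ι : Type*} (z : ι → H F2 (Bt (bo Z z₀ n))) (l : List ι) :
    letI := (Hopf450.omMon c : HMon (SS.Sing (HspSS696.Om (Fin n) Z z₀))).ring EZ847.ezd
    H.map F2 (prj (bo Z z₀ n)) (l.foldr (fun i y => m2 c (z i) y) (Coalg847.vtx ubt)) =
      (l.map fun i => H.map F2 (prj (bo Z z₀ n)) (z i)).prod :=
  map_foldr _ _ _ (prj_comp_m2 c) (prj_ubt c) z l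

/-- (A2) for finite sets -/
theorem prj_toList {ι : Type*} (z : ι → H F2 (Bt (bo Z z₀ n))) (S : Finset ι) :
    letI := (Hopf450.omMon c : HMon (SS.Sing (HspSS696.Om (Fin n) Z z₀))).ring EZ847.ezd
    H.map F2 (prj (bo Z z₀ n)) (S.toList.foldr (fun i y => m2 c (z i) y) (Coalg847.vtx ubt)) =
      ∏ i ∈ S, H.map F2 (prj (bo Z z₀ n)) (z i) :=
  map_toList _ _ _ (prj_comp_m2 c) (prj_ubt c) z S

/-- (A3) the chain level form: `c_l = MK_*(z_i × c_{l'})`, `c_[] = ` base vertex of `Bt` -/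
theorem prj_mk_fK {ι : Type*} {z : ι → N F2 (Bt (bo Z z₀ n))} (hz : ∀ i, N.bd F2 _ (z i) = 0)
    (S : Finset ι) :
    letI := (Hopf450.omMon c : HMon (SS.Sing (HspSS696.Om (Fin n) Z z₀))).ring EZ847.ezd
    H.map F2 (prj (bo Z z₀ n)) (Hd.mk _ (fK (mulT (Hsp696.mu2 c) (hsp c).hb) z ubt S.toList)
      (bd_fK _ hz _ _)) = ∏ i ∈ S, H.map F2 (prj (bo Z z₀ n)) (Hd.mk _ (z i) (hz i)) := by
  rw [mk_fK]
  exact prj_toList c (fun i => Hd.mk _ (z i) (hz i)) S

end om

end Crest.Agent.R204.LoopA905
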