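import Crest.Agent.R204.Cov6_892
import Crest.Agent.R204.GeoC_979
import Crest.Agent.R204.CompB_696
import Crest.Agent.R204.ExcD_406
import Crest.Agent.R204.GeoD_979
import Crest.Agent.R204.LoopA_905
import Crest.Agent.R204.Inst_194

/-!
# Row 204, leaf B5: the base component of `Ω^(n+1) Z` and the group of the path fibration of `Ω^n Z`
(owner helper892)
-/

set_option autoImplicit false
set_option linter.style.haveILetI false

noncomputable section

open Set unitInterval Topology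

namespace Crest.Agent.R204.Cov892

open Crest.Agent.R204 Crest.Agent.R204.SS Crest.Agent.R204.PF872
open Crest.Agent.R204.Sus330 (LoopStr genLoop)
open Crest.Agent.R204.HspSS696 (Om mulS eS)
open Crest.Agent.R204.Cubes735 (BoxConf)
open Crest.Agent.R204.Hopf450 (HMon)
open TensorProduct

section space

variable {Z : Type} [TopologicalSpace Z] {z₀ : Z} {n : ℕ}

/-- the two descriptions of the base component -/
def clsH : {x : Om (Fin (n + 1)) Z z₀ // Comp696.cls x = 1} ≃ₜ Om0 n Z z₀ where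
  toFun x := ⟨x.1, Comp696.cls_eq_iff.1 x.2⟩
  invFun x := ⟨x.1, Comp696.cls_eq_iff.2 x.2⟩
  left_inv _ := rfl
  right_inv _ := rfl
  continuous_toFun := Continuous.subtype_mk continuous_subtype_val _
  continuous_invFun := Continuous.subtype_mk continuous_subtype_val _

/-- the inclusion of the group of the path fibration -/
def j0 : C(G0 (bo Z z₀ n), Om (Fin (n + 1)) Z z₀) :=
  ((Comp696.valC (fun x : Om (Fin (n + 1)) Z z₀ => Comp696.cls x) 1).comp
    (hc (clsH (Z := Z) (z₀ := z₀) (n := n)).symm)).comp (hc (G0H (Z := Z) (z₀ := z₀) (n := n)).symm)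

theorem ev_j0 (g : G0 (bo Z z₀ n)) (s : I) : Cubes735.ev s (j0 g) = g.1.1 s := by
  have h := G0H_apply (G0H.symm g) s
  rw [Homeomorph.apply_symm_apply] at h
  exact h.symm

theorem toPB_j0 (g : G0 (bo Z z₀ n)) : toPB (genLoop n) (j0 g) = g.1 :=
  PB_ext fun t => ev_j0 g t

/-- `H(G0) → H(Ω^(n+1) Z)` -/
def Hj : H F2 (Sing (G0 (bo Z z₀ n))) →ₗ[F2] H F2 (Sing (Om (Fin (n + 1)) Z z₀)) :=
  H.map F2 (SingMap j0)

theorem hc_inj {X Y : Type} [TopologicalSpace X] [TopologicalSpace Y] (e : X ≃ₜ Y) :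
    Function.Injective (H.map F2 (SingMap (hc e))) := by
  intro x y h
  have h2 := congrArg (H.map F2 (SingMap (hc e.symm))) h
  rwa [← Coalg847.hMap_comp, ← Coalg847.hMap_comp, singMap_homeo, Coalg847.hMap_id,
    Coalg847.hMap_id] at h2

theorem hc_surj {X Y : Type} [TopologicalSpace X] [TopologicalSpace Y] (e : X ≃ₜ Y) :
    Function.Surjective (H.map F2 (SingMap (hc e))) := by
  intro y
  refine ⟨H.map F2 (SingMap (hc e.symm)) y, ?_⟩
  rw [← Coalg847.hMap_comp, singMap_homeo', Coalg847.hMap_id]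

/-- a map which is a homeomorphism onto a subspace -/
theorem map_homeo_inj {X Y W : Type} [TopologicalSpace X] [TopologicalSpace Y] [TopologicalSpace W]
    (e : X ≃ₜ Y) (f : C(Y, W)) (hf : Function.Injective (H.map F2 (SingMap f))) :
    Function.Injective (H.map F2 (SingMap (f.comp (hc e)))) := by
  have h : ∀ x, H.map F2 (SingMap (f.comp (hc e))) x = H.map F2 (SingMap f) (H.map F2 (SingMap (hc e)) x) :=
    fun x => Coalg847.hMap_comp (SingMap f) (SingMap (hc e)) x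
  intro x y hxy
  rw [h, h] at hxy
  exact hc_inj e (hf hxy)

theorem map_homeo_range {X Y W : Type} [TopologicalSpace X] [TopologicalSpace Y] [TopologicalSpace W]
    (e : X ≃ₜ Y) (f : C(Y, W)) (y : H F2 (Sing W)) :
    (∃ x, H.map F2 (SingMap (f.comp (hc e))) x = y) ↔ ∃ x, H.map F2 (SingMap f) x = y := by
  have h : ∀ x, H.map F2 (SingMap (f.comp (hc e))) x = H.map F2 (SingMap f) (H.map F2 (SingMap (hc e)) x) :=
    fun x => Coalg847.hMap_comp (SingMap f) (SingMap (hc e)) x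
  constructor
  · rintro ⟨x, rfl⟩
    exact ⟨_, (h x).symm⟩
  · rintro ⟨x, rfl⟩
    obtain ⟨x1, rfl⟩ := hc_surj e x
    exact ⟨x1, h x1⟩

theorem Hj_inj : Function.Injective (Hj (Z := Z) (z₀ := z₀) (n := n)) :=
  map_homeo_inj _ _ (map_homeo_inj _ _ (Comp696.map_valC_injective
    (fun x : Om (Fin (n + 1)) Z z₀ => Comp696.cls x) (fun _ _ h => Comp696.cls_eq_iff.2 h) F2 1))

theorem Hj_range (y : H F2 (Sing (Om (Fin (n + 1)) Z z₀))) :
    (∃ x, Hj x = y) ↔ y ∈ Comp696.Hc F2 (Comp696.cOm (Fin (n + 1)) Z z₀) 1 := by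
  have h1 := Comp696.range_map_valC (fun x : Om (Fin (n + 1)) Z z₀ => Comp696.cls x)
    (fun _ _ h => Comp696.cls_eq_iff.2 h) F2 1
  refine (map_homeo_range _ _ y).trans ((map_homeo_range _ _ y).trans ?_)
  show y ∈ LinearMap.range (H.map F2 (SingMap (Comp696.valC (fun x : Om (Fin (n + 1)) Z z₀ => Comp696.cls x) 1)))
    ↔ _
  rw [h1]; rfl

/-- homogeneous classes -/
theorem Hj_gr (t : ℕ) (x : H F2 (Sing (G0 (bo Z z₀ n))))
    (h : Hj x ∈ H.gr F2 (Sing (Om (Fin (n + 1)) Z z₀)) t) : x ∈ H.gr F2 _ t :=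
  Exc406.H_mem_gr_of_map (R := F2) (SingMap (j0 (Z := Z) (z₀ := z₀) (n := n))) Hj_inj h

theorem Hj_one : Hj (Coalg847.vtx (K := Sing (G0 (bo Z z₀ n))) (PF94.pf (bo Z z₀ n)).e) =
    Coalg847.vtx eS := by
  refine (Coalg847.hMap_vtx (K := Sing (G0 (bo Z z₀ n))) _ _).trans ?_
  refine congrArg Coalg847.vtx ?_
  refine SingAct265.sing_ext (Y := Om (Fin (n + 1)) Z z₀) fun t => ?_
  show j0 one = GenLoop.const
  exact congrArg Subtype.val ((Homeomorph.symm_apply_eq G0H).2 (Subtype.ext (PB_ext fun s => rfl)) :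
    G0H.symm one = ⟨GenLoop.const, Joined.refl _⟩)

/-- strict multiplicativity of the inclusion -/
theorem j0_mul (g h : G0 (bo Z z₀ n)) : j0 (mul (g, h)) =
    Cubes735.mu (Hsp696.halves (Fin.last n)) ![j0 g, j0 h] := by
  have h1 := G0H_halves (G0H.symm g) (G0H.symm h)
  rw [Homeomorph.apply_symm_apply, Homeomorph.apply_symm_apply] at h1
  have h2 := (Homeomorph.symm_apply_eq G0H).2 h1.symm
  exact congrArg Subtype.val h2

theorem j0_mulS : (SingMap (j0 (Z := Z) (z₀ := z₀) (n := n))).comp (PF872.mulS (b := bo Z z₀ n)) =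
    (mulS (Hsp696.halves (Fin.last n))).comp (SS.prodMap (SingMap j0) (SingMap j0)) := by
  refine SS.Hom.ext (funext fun q => funext fun x => ?_)
  exact SingAct265.sing_ext (Y := Om (Fin (n + 1)) Z z₀) fun t => j0_mul _ _

theorem Hj_mul (x y : H F2 (Sing (G0 (bo Z z₀ n)))) :
    Hj ((PF94.pf (bo Z z₀ n)).mulH EZ847.ezd x y) =
      H.map F2 (mulS (Hsp696.halves (Fin.last n))) (EZ847.ezd.cr _ _ (Hj x ⊗ₜ Hj y)) := by
  have h1 := Coalg847.hMap_comp (SingMap (j0 (Z := Z) (z₀ := z₀) (n := n))) (PF872.mulS (b := bo Z z₀ n))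
    (EZ847.ezd.cr _ _ (x ⊗ₜ y))
  have h2 := Coalg847.hMap_comp (mulS (Hsp696.halves (Fin.last n)))
    (SS.prodMap (SingMap (j0 (Z := Z) (z₀ := z₀) (n := n))) (SingMap j0)) (EZ847.ezd.cr _ _ (x ⊗ₜ y))
  have h3 := EZ847.ezd.cr_nat (SingMap (j0 (Z := Z) (z₀ := z₀) (n := n))) (SingMap j0) x y
  have h0 := congrArg (fun f => H.map F2 f (EZ847.ezd.cr _ _ (x ⊗ₜ y))) (j0_mulS (Z := Z) (z₀ := z₀) (n := n))
  exact h1.symm.trans (h0.trans (h2.trans (congrArg _ h3)))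

theorem Hj_mulL [Nontrivial (Fin (n + 1))] (M : HMon (Sing (Om (Fin (n + 1)) Z z₀)))
    (c : BoxConf (Fin 2) (Fin (n + 1))) (hM : M.mu = mulS c) (x y : H F2 (Sing (G0 (bo Z z₀ n)))) :
    Hj ((PF94.pf (bo Z z₀ n)).mulH EZ847.ezd x y) = M.mulL EZ847.ezd (Hj x) (Hj y) := by
  have h2 : H.map F2 M.mu = H.map F2 (mulS (Z := Z) (z₀ := z₀) (Hsp696.halves (Fin.last n))) := by
    rw [hM]
    exact Hopf450.omMon_map_mu (Z := Z) (z₀ := z₀) c (Hsp696.halves (Fin.last n))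
  exact (Hj_mul x y).trans (LinearMap.congr_fun h2 (EZ847.ezd.cr _ _ (Hj x ⊗ₜ Hj y))).symm

instance pathConnectedOm0 : PathConnectedSpace (Om0 n Z z₀) where
  nonempty := ⟨⟨GenLoop.const, Joined.refl _⟩⟩
  joined x y := by
    have h : ∀ x : Om0 n Z z₀, Joined x ⟨GenLoop.const, Joined.refl _⟩ := by
      rintro ⟨x, ⟨p⟩⟩
      have hp : ∀ t : I, Joined (p t) GenLoop.const := fun t => by
        have := (PathConnectedSpace.joined t (1 : I)).map p.continuous
        rwa [p.target] at this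
      exact ⟨{ toFun := fun t => ⟨p t, hp t⟩
               continuous_toFun := Continuous.subtype_mk p.continuous _
               source' := Subtype.ext p.source
               target' := Subtype.ext p.target }⟩
    exact (h x).trans (h y).symm

theorem conn_G0 (x : H F2 (PF94.pf (bo Z z₀ n)).G) (hx : x ∈ H.gr F2 (PF94.pf (bo Z z₀ n)).G 0) :
    ∃ r : F2, x = r • Coalg847.vtx (PF94.pf (bo Z z₀ n)).e := by
  haveI : PathConnectedSpace (G0 (bo Z z₀ n)) :=
    (G0H (Z := Z) (z₀ := z₀) (n := n)).surjective.pathConnectedSpace (G0H).continuous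
  exact ⟨_, Geo979.gr_zero_eq (Y := G0 (bo Z z₀ n)) _ hx⟩

end space

section loop

open Crest.Agent.R204.Ind979 Crest.Agent.R204.Inst194 Crest.Agent.R204.Psi755

variable {Z : Type} [TopologicalSpace Z] {z₀ : Z}

/-- **the range loop theorem on the base component** -/
theorem loopThm0 {b : ℕ} (hb : 2 ≤ b) (M0 : HMon (Sing (Om (Fin (b + 1)) Z z₀)))
    (M1 : HMon (Sing (Om (Fin b) Z z₀))) (c0 : BoxConf (Fin 2) (Fin (b + 1)))
    (c1 : BoxConf (Fin 2) (Fin b)) (hm0 : M0.mu = mulS c0) (he0 : M0.e = eS) (hm1 : M1.mu = mulS c1)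
    (he1 : M1.e = eS) (hinj : Function.Injective (H.map F2 (prj (bo Z z₀ b))))
    {A : Type} [CommRing A] [Algebra F2 A]
    (J : Type) (v : J → H F2 (Sing (Om (Fin (b + 1)) Z z₀))) (e : J → ℕ) (he : ∀ j, 1 ≤ e j) :
    letI := M0.ring EE
    letI := M0.alg EE
    letI := M1.ring EE
    letI := M1.alg EE
    ∀ base : Subalgebra F2 (H F2 (Sing (Om (Fin (b + 1)) Z z₀))),
    (∀ y ∈ base, y ∈ Comp696.Hc F2 (Comp696.cOm (Fin (b + 1)) Z z₀) 1) →
    (∀ j, v j ∈ H.gr F2 (Sing (Om (Fin (b + 1)) Z z₀)) (e j) ⊓ Subalgebra.toSubmodule base) →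
    ∀ (ιA : A →ₐ[F2] H F2 (Sing (Om (Fin b) Z z₀))), Function.Injective ιA →
    (∀ x, ∃ a, ιA a = H.map F2 (prj (bo Z z₀ b)) x) →
    ∀ (s : H F2 (Sing (Om (Fin (b + 1)) Z z₀)) →ₗ[F2] A),
    (∀ y ∈ base, ιA (s y) = (genLoop b).sigma y) →
    ∀ (grA : ℕ → Submodule F2 A), (∀ t a, ιA a ∈ H.gr F2 (Sing (Om (Fin b) Z z₀)) t → a ∈ grA t) →
    ∀ N : ℕ, SimR grA (fun j => s (v j)) (fun j => e j + 1) (N + 1) →
    PolyR (fun t => H.gr F2 (Sing (Om (Fin (b + 1)) Z z₀)) t ⊓ Subalgebra.toSubmodule base) v e N := by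
  letI := M0.ring EE
  letI := M0.alg EE
  letI := M1.ring EE
  letI := M1.alg EE
  intro base hbase hv ιA hι hr s hs grA hgA N hS
  haveI : Nontrivial (Fin (b + 1)) := Fin.nontrivial_iff_two_le.2 (by omega)
  haveI : Nontrivial (Fin b) := Fin.nontrivial_iff_two_le.2 (by omega)
  -- the map into `A`
  choose f hf using hr
  let ψ : H F2 (Bt (bo Z z₀ b)) →ₗ[F2] A :=
    { toFun := f
      map_add' := fun x y => hι (by rw [map_add, hf, hf, hf, map_add])
      map_smul' := fun r x => hι (by rw [RingHom.id_apply, map_smul, hf, hf, map_smul]) }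
  have hψ : ∀ x, ιA (ψ x) = H.map F2 (prj (bo Z z₀ b)) x := hf
  have ψ_inj : Function.Injective ψ := fun x y hxy =>
    hinj ((hψ x).symm.trans ((congrArg ιA hxy).trans (hψ y)))
  have ψ_gr : ∀ t a, a ∈ H.gr F2 (Bt (bo Z z₀ b)) t → ψ a ∈ grA t := fun t a ha => by
    refine hgA t _ ?_
    rw [hψ]
    exact Coalg847.hMap_mem_gr _ ha
  let w0 : (Bt (bo Z z₀ b)).S 0 := (PF94.pf (bo Z z₀ b)).π.app 0 (PF94.pf (bo Z z₀ b)).p0
  have ψ_one : ψ (Coalg847.vtx w0) = 1 := by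
    have h1 := hψ (Coalg847.vtx w0)
    have h2 := Coalg847.hMap_vtx (prj (bo Z z₀ b)) w0
    have h3 : Coalg847.vtx ((prj (bo Z z₀ b)).app 0 w0) = (1 : H F2 (Sing (Om (Fin b) Z z₀))) :=
      (congrArg Coalg847.vtx he1).symm
    have h4 : ιA 1 = 1 := map_one ιA
    exact hι (h1.trans (h2.trans (h3.trans h4.symm)))
  have ψ_mul : ∀ x y : H F2 (Bt (bo Z z₀ b)),
      ψ (H.map F2 (mulT (Hsp696.mu2 c1) (hsp (Z := Z) (z₀ := z₀) c1).hb) (EZ847.ezd.cr _ _ (x ⊗ₜ y))) =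
        ψ x * ψ y := fun x y => by
    have h1 := Geo979.prj_mul (Hsp696.mu2 c1) (hsp (Z := Z) (z₀ := z₀) c1).hb EZ847.ezd x y
    have h2 := congrArg (fun m => H.map F2 m (EZ847.ezd.cr _ _
      (H.map F2 (prj (bo Z z₀ b)) x ⊗ₜ H.map F2 (prj (bo Z z₀ b)) y))) hm1
    have h3 : ιA (ψ x * ψ y) = M1.mulL EE (H.map F2 (prj (bo Z z₀ b)) x) (H.map F2 (prj (bo Z z₀ b)) y) := by
      rw [map_mul, hψ, hψ]; rfl
    exact hι ((hψ _).trans (h1.trans (h2.symm.trans h3.symm)))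
  have ψ_sus : ∀ x : H F2 (Sing (G0 (bo Z z₀ b))), Hj x ∈ base →
      s (Hj x) = ψ (sus (PF94.psus (bo Z z₀ b)) x) := fun x hx =>
    hι ((hs _ hx).trans ((prj_sus (genLoop b) j0 toPB_j0 x).symm.trans (hψ _).symm))
  have θ_one : Hj (Coalg847.vtx (K := Sing (G0 (bo Z z₀ b))) (PF94.pf (bo Z z₀ b)).e) =
      (1 : H F2 (Sing (Om (Fin (b + 1)) Z z₀))) :=
    Hj_one.trans (congrArg Coalg847.vtx he0).symm
  have θ_mul : ∀ x y : H F2 (Sing (G0 (bo Z z₀ b))),
      Hj ((PF94.pf (bo Z z₀ b)).mulH EZ847.ezd x y) = Hj x * Hj y := fun x y =>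
    Hj_mulL M0 c0 hm0 x y
  refine loop_range_base (X := PF94.pf (bo Z z₀ b)) (PF94.psus (bo Z z₀ b))
    (PF94.pmul (hsp (Z := Z) (z₀ := z₀) c1)) he conn_G0 base
    (H.gr F2 (Sing (Om (Fin (b + 1)) Z z₀))) Hj Hj_inj (fun y hy => (Hj_range y).2 (hbase y hy)) Hj_gr
    θ_one θ_mul (Coalg847.vtx_mem_gr _)
    (fun s t x y hx hy => HMon.mulL_mem_gr _ _ hx hy) v hv ψ grA ψ_inj ψ_gr ψ_one ψ_mul s ψ_sus hS

end loop

end Crest.Agent.R204.Cov892
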