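import Crest.Agent.R204.Moment_265
import Crest.Agent.R204.EG_265

/-!
# Row 204, block C (helper265): explicit families of configurations over skeleta of `EG`
-/

set_option autoImplicit false

namespace Crest.Agent.R204.Fam265

open Finset Moment265 SS

/-- moments of the step function with values `w` on the intervals of lengths `t` -/
def mom (M : ℕ) {n : ℕ} (w t : Fin n → ℝ) : Fin (M + 1) → ℝ :=
  fun j => MF (fun s => s ^ ((j : ℕ) + 1)) w t

theorem mom_push (M : ℕ) {m n : ℕ} (f : Fin m → Fin n) (hf : Monotone f) (w : Fin n → ℝ)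
    (t : Fin m → ℝ) : mom M (fun k => w (f k)) t = mom M w (push f t) := by
  funext j
  exact MF_push f hf _ w t

theorem mom_sub (M : ℕ) {n : ℕ} (w w' t : Fin n → ℝ) :
    mom M (fun k => w k - w' k) t = mom M w t - mom M w' t := by
  funext j
  simp only [mom, MF, Pi.sub_apply, ← sum_sub_distrib, sub_mul]

theorem mom_smul (M : ℕ) {n : ℕ} (a : ℝ) (w t : Fin n → ℝ) :
    mom M (fun k => a * w k) t = a • mom M w t := by
  funext j
  simp only [mom, MF, Pi.smul_apply, smul_eq_mul, mul_sum, mul_assoc]

theorem mom_ne_zero {M n : ℕ} (hM : n ≤ M) {w : Fin (n + 1) → ℝ} (hw : ∀ k, w k ≠ 0)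
    {t : Fin (n + 1) → ℝ} (ht : ∀ k, 0 ≤ t k) (hs : ∑ k, t k = 1) : mom M w t ≠ 0 := by
  obtain ⟨j, hj⟩ := MF_ne w hw t ht hs hM
  exact fun h => hj (congrFun h j)

theorem mom_ne {M n : ℕ} (hM : n ≤ M) {w w' : Fin (n + 1) → ℝ} (hw : ∀ k, w k ≠ w' k)
    {t : Fin (n + 1) → ℝ} (ht : ∀ k, 0 ≤ t k) (hs : ∑ k, t k = 1) : mom M w t ≠ mom M w' t := by
  intro h
  refine mom_ne_zero hM (w := fun k => w k - w' k) (fun k => sub_ne_zero.2 (hw k)) ht hs ?_
  rw [mom_sub, h, sub_self]

/-- the moments are not all zero for weights pulled back from dimension `≤ M` -/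
theorem mom_ne_of_factor {M n p : ℕ} (hp : p ≤ M) (f : Op n p) {w w' : Fin (p + 1) → ℝ}
    (hw : ∀ k, w k ≠ w' k) (t : stdSimplex ℝ (Fin (n + 1))) :
    mom M (fun k => w (f k)) t ≠ mom M (fun k => w' (f k)) t := by
  rw [mom_push M f f.monotone w, mom_push M f f.monotone w']
  refine mom_ne hp hw ?_ ?_
  · intro k
    exact sum_nonneg fun _ _ => stdSimplex.zero_le _ _
  · have := sum_filter_push f (t : Fin (n + 1) → ℝ) (fun _ => True)
    simp only [filter_true] at this
    rw [this]
    exact stdSimplex.sum_eq_one t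

theorem continuous_lo {P : Type*} [TopologicalSpace P] {n : ℕ} {t : P → Fin n → ℝ}
    (ht : Continuous t) (k : Fin n) : Continuous fun p => lo (t p) k := by
  unfold lo; fun_prop

theorem continuous_hi {P : Type*} [TopologicalSpace P] {n : ℕ} {t : P → Fin n → ℝ}
    (ht : Continuous t) (k : Fin n) : Continuous fun p => hi (t p) k := by
  unfold hi; fun_prop

theorem continuous_mom {P : Type*} [TopologicalSpace P] (M : ℕ) {n : ℕ} {w t : P → Fin n → ℝ}
    (hw : Continuous w) (ht : Continuous t) : Continuous fun p => mom M (w p) (t p) := by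
  refine continuous_pi fun j => ?_
  unfold mom MF
  have h1 := fun k => continuous_hi ht k
  have h2 := fun k => continuous_lo ht k
  fun_prop

theorem coe_map_eq_push {m n : ℕ} (f : Op m n) (t : stdSimplex ℝ (Fin (m + 1))) :
    ((stdSimplex.map f t : stdSimplex ℝ (Fin (n + 1))) : Fin (n + 1) → ℝ) = push f t := by
  funext i
  rw [stdSimplex.map_coe, FunOnFinite.linearMap_apply_apply]
  rfl

/-- moments are natural for simplicial operators -/
theorem mom_act (M : ℕ) {m n : ℕ} (f : Op m n) (w : Fin (n + 1) → ℝ)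
    (t : stdSimplex ℝ (Fin (m + 1))) :
    mom M (fun k => w (f k)) t =
      mom M w (stdSimplex.map f t : stdSimplex ℝ (Fin (n + 1))) := by
  rw [coe_map_eq_push, mom_push M f f.monotone w]

/-- injective real functions -/
abbrev Inj (F : Type) : Type := {w : F → ℝ // Function.Injective w}

/-- configurations -/
abbrev PConf (F J : Type) : Type := {p : F → J → ℝ // Function.Injective p}

/-- the explicit family of configurations over the `M`-skeleton of `EG (Inj F)` -/
noncomputable def fam (F : Type) (M : ℕ) : Hom (sk M (EG (Inj F))) (Sing (PConf F (Fin (M + 1)))) where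
  app n g := ⟨fun t => ⟨fun v => mom M (fun k => (g.1 k).1 v) t, by
      obtain ⟨p, hp, f, y, hy⟩ := g.2
      intro v v' h
      by_contra hv
      have h' : mom M (fun k => (y (f k)).1 v) t = mom M (fun k => (y (f k)).1 v') t := by
        have := h
        simp only [hy] at this
        exact this
      exact mom_ne_of_factor hp f (w := fun k => (y k).1 v) (w' := fun k => (y k).1 v')
        (fun k hk => hv ((y k).2 hk)) t h'⟩,
    by
      refine Continuous.subtype_mk (continuous_pi fun v => ?_) _
      exact continuous_mom M continuous_const continuous_subtype_val⟩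
  nat f g := by
    refine ContinuousMap.ext fun t => Subtype.ext (funext fun v => ?_)
    exact mom_act M f (fun k => (g.1 k).1 v) t

theorem fam_apply {F : Type} {M n : ℕ} (g : (sk M (EG (Inj F))).S n)
    (t : stdSimplex ℝ (Fin (n + 1))) (v : F) :
    (DFunLike.coe (F := C(stdSimplex ℝ (Fin (n + 1)), PConf F (Fin (M + 1))))
      ((fam F M).app n g) t).1 v = mom M (fun k => (g.1 k).1 v) t := rfl

end Crest.Agent.R204.Fam265
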