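import Crest.Agent.R204.CovT_761
import Crest.Agent.R204.Fam_265
import Crest.Agent.R204.SingAct_265
import Crest.Agent.R204.Orb_742

/-!
# Row 204, block C / G (helper761): cover transfer, II

* `M_H_eq` : independence of the boxes on homology, arbitrary coordinates (counting condition);
* composition of box families (`Sys.sigma`, `Bx.comp`, `M_comp`);
* invariance under automorphisms of the base, orbit versions;
* box families from real labels of threads (`Rl`, moments).
-/

set_option autoImplicit false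
set_option linter.unusedSectionVars false

open scoped Topology unitInterval Topology.Homotopy
open Set

noncomputable section

namespace Crest.Agent.R204.CovT761

open Crest.Agent.R204.Cubes735 Crest.Agent.R204.Htpy761 SingAct265

variable {B : SS} {Φ : Sys B} {A A' J : Type} {X Z : Type} [TopologicalSpace X]
  [TopologicalSpace Z] {z₀ : Z}

theorem ev_M [Finite J] (c : Bx Φ J) (l : Lb Φ (Ω^ J Z z₀)) {n : ℕ} (b : B.S n)
    (t : stdSimplex ℝ (Fin (n + 1))) :
    ev ((M c l).app n b) t = mu (c.c n b t) (fun v => l.l n b v t) := rfl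

theorem eq_M' [Finite J] (c : Bx Φ J) (l : Lb Φ (Ω^ J Z z₀)) (g : SS.Hom B (SS.Sing (Ω^ J Z z₀)))
    (h : ∀ (n : ℕ) (b : B.S n) (t : stdSimplex ℝ (Fin (n + 1))),
      ev (g.app n b) t = mu (c.c n b t) (fun v => l.l n b v t)) : g = M c l :=
  SS.Hom.ext (funext fun n => funext fun b => sing_ext fun t => h n b t)

/-! ### coordinates in general position -/

theorem exists_emb_disjoint {A A' A'' J : Type} [Finite A] [Finite A'] [Finite A''] [Finite J]
    (ι : A ↪ J) (ι' : A' ↪ J) (h : Nat.card A + Nat.card A' + Nat.card A'' ≤ Nat.card J) :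
    ∃ κ : A'' ↪ J, (∀ x y, ι x ≠ κ y) ∧ ∀ x y, ι' x ≠ κ y := by
  classical
  let _ := Fintype.ofFinite A
  let _ := Fintype.ofFinite A'
  let _ := Fintype.ofFinite A''
  let _ := Fintype.ofFinite J
  let S : Finset J := Finset.univ.map ι ∪ Finset.univ.map ι'
  have hS : S.card ≤ Fintype.card A + Fintype.card A' := by
    refine (Finset.card_union_le _ _).trans ?_
    rw [Finset.card_map, Finset.card_map]
    rfl
  have hc : Fintype.card A'' ≤ Fintype.card {j // j ∉ S} := by
    rw [Fintype.card_subtype_compl, Fintype.card_coe]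
    simp only [Nat.card_eq_fintype_card] at h
    omega
  obtain ⟨κ⟩ := Function.Embedding.nonempty_of_card_le hc
  refine ⟨κ.trans (Function.Embedding.subtype _), fun x y hxy => ?_, fun x y hxy => ?_⟩
  · have := (κ y).2
    apply this
    simp only [S, Finset.mem_union, Finset.mem_map, Finset.mem_univ, true_and]
    exact Or.inl ⟨x, hxy⟩
  · have := (κ y).2
    apply this
    simp only [S, Finset.mem_union, Finset.mem_map, Finset.mem_univ, true_and]
    exact Or.inr ⟨x, hxy⟩

/-- **independence of the boxes in homology** -/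
theorem M_H_eq (hI : SpecA.HomotopyInv) (R : Type) [CommRing R] [Finite A] [Finite A'] [Finite J]
    (ι : A ↪ J) (ι' : A' ↪ J) (h : 2 * Nat.card A + Nat.card A' ≤ Nat.card J)
    (c : Bx Φ A) (c' : Bx Φ A') (l : Lb Φ (Ω^ J Z z₀)) :
    H.map R (M (c.extend ι) l) = H.map R (M (c'.extend ι') l) := by
  obtain ⟨κ, h1, h2⟩ := exists_emb_disjoint (A'' := A) ι ι' (by omega)
  have e1 := (M_htp h1 c c l).map_eq hI R
  have e2 := (M_htp (fun x y => (h2 y x).symm) c c' l).map_eq hI R
  rw [e1, e2]

/-! ### composition -/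

/-- constant local system -/
def Sys.const (B : SS) (G : Type) [Finite G] : Sys B where
  F _ _ := G
  fin _ _ := inferInstance
  e _ _ := Equiv.refl G

/-- disjoint union of local systems -/
def Sys.sigma {G : Type} [Finite G] (Φ : G → Sys B) : Sys B where
  F n b := Σ i, (Φ i).F n b
  fin _ _ := inferInstance
  e f b := Equiv.sigmaCongrRight fun i => (Φ i).e f b

theorem continuous_comp {P F J : Type*} [TopologicalSpace P] {G : F → Type*}
    {c : P → BoxConf F J} {d : P → ∀ v, BoxConf (G v) J} (hc : Continuous c)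
    (hd : ∀ v, Continuous fun p => d p v) : Continuous fun p => (c p).comp (d p) := by
  refine BoxConf.continuous_mk (fun v j => ?_) (fun v j => ?_)
  · exact ((BoxConf.continuous_a v.1 j).comp hc).add (((BoxConf.continuous_r v.1 j).comp hc).mul
      ((BoxConf.continuous_a v.2 j).comp (hd v.1)))
  · exact ((BoxConf.continuous_r v.1 j).comp hc).mul
      ((BoxConf.continuous_r v.2 j).comp (hd v.1))

/-- composition of box families -/
def Bx.comp {G : Type} [Finite G] {Φ : G → Sys B} (o : Bx (Sys.const B G) A)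
    (d : ∀ i, Bx (Φ i) A) : Bx (Sys.sigma Φ) A where
  c n b := (⟨fun t => (show BoxConf G A from o.c n b t).comp (fun i => (d i).c n b t),
    continuous_comp (c := fun t => (show BoxConf G A from o.c n b t)) (o.c n b).continuous
      fun i => ((d i).c n b).continuous⟩ :
      C(stdSimplex ℝ (Fin (n + 1)), BoxConf (Σ i, (Φ i).F n b) A))
  nat {m n} f b t := by
    have h1 : (show BoxConf G A from o.c m (B.act f b) t) =
      (show BoxConf G A from o.c n b (stdSimplex.map f t)) := o.nat f b t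
    have h2 : ∀ i, ((d i).c m (B.act f b) t).relabel ((Φ i).e f b) =
      (d i).c n b (stdSimplex.map f t) := fun i => (d i).nat f b t
    refine BoxConf.ext' (fun v j => ?_) (fun v j => ?_)
    · have e1 : (show BoxConf G A from o.c m (B.act f b) t).a v.1 j +
          (show BoxConf G A from o.c m (B.act f b) t).r v.1 j *
          (((d v.1).c m (B.act f b) t).relabel ((Φ v.1).e f b)).a v.2 j =
          (show BoxConf G A from o.c n b (stdSimplex.map f t)).a v.1 j +
          (show BoxConf G A from o.c n b (stdSimplex.map f t)).r v.1 j *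
          ((d v.1).c n b (stdSimplex.map f t)).a v.2 j := by rw [h1, h2]
      exact e1
    · have e1 : (show BoxConf G A from o.c m (B.act f b) t).r v.1 j *
          (((d v.1).c m (B.act f b) t).relabel ((Φ v.1).e f b)).r v.2 j =
          (show BoxConf G A from o.c n b (stdSimplex.map f t)).r v.1 j *
          ((d v.1).c n b (stdSimplex.map f t)).r v.2 j := by rw [h1, h2]
      exact e1

/-- labels of a disjoint union -/
def Lb.sigma {G : Type} [Finite G] {Φ : G → Sys B} (l : ∀ i, Lb (Φ i) X) : Lb (Sys.sigma Φ) X where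
  l n b v := (l v.1).l n b v.2
  nat f b v t := (l v.1).nat f b v.2 t

/-- operad law for cover transfers -/
theorem M_comp [Finite J] {G : Type} [Finite G] {Φ : G → Sys B} (o : Bx (Sys.const B G) J)
    (d : ∀ i, Bx (Φ i) J) (l : ∀ i, Lb (Φ i) (Ω^ J Z z₀)) {n : ℕ} (b : B.S n)
    (t : stdSimplex ℝ (Fin (n + 1))) :
    ev ((M (o.comp d) (Lb.sigma l)).app n b) t =
      mu (show BoxConf G J from o.c n b t) (fun i => ev ((M (d i) (l i)).app n b) t) :=
  mu_comp (show BoxConf G J from o.c n b t) (fun i => (d i).c n b t)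
    (fun i v => (l i).l n b v t)

theorem Bx.comp_extend {G : Type} [Finite G] {Φ : G → Sys B} (o : Bx (Sys.const B G) A)
    (d : ∀ i, Bx (Φ i) A) (k : A ↪ J) {n : ℕ} (b : B.S n) (t : stdSimplex ℝ (Fin (n + 1))) :
    ((o.comp d).extend k).c n b t = ((o.extend k).comp fun i => (d i).extend k).c n b t :=
  BoxConf.extend_comp (show BoxConf G A from o.c n b t) (fun i => (d i).c n b t) k

/-! ### invariance under automorphisms of the base -/

/-- lifting of a self map of the base to a local system -/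
structure Act (Φ : Sys B) (g : SS.Hom B B) where
  s : ∀ (n : ℕ) (b : B.S n), Φ.F n b ≃ Φ.F n (g.app n b)

/-- invariance of a box family -/
def Bx.Inv {g : SS.Hom B B} (sg : Act Φ g) (c : Bx Φ A) : Prop :=
  ∀ (n : ℕ) (b : B.S n) (t : stdSimplex ℝ (Fin (n + 1))),
    (c.c n (g.app n b) t).relabel (sg.s n b) = c.c n b t

/-- invariance of labels -/
def Lb.Inv {g : SS.Hom B B} (sg : Act Φ g) (l : Lb Φ X) : Prop :=
  ∀ (n : ℕ) (b : B.S n) (v : Φ.F n b) (t : stdSimplex ℝ (Fin (n + 1))),
    l.l n (g.app n b) (sg.s n b v) t = l.l n b v t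

theorem Lb.const_inv {g : SS.Hom B B} (sg : Act Φ g) (x : X) : (Lb.const Φ x).Inv sg :=
  fun _ _ _ _ => rfl

theorem M_inv [Finite J] {g : SS.Hom B B} {sg : Act Φ g} {c : Bx Φ J} {l : Lb Φ (Ω^ J Z z₀)}
    (hc : c.Inv sg) (hl : l.Inv sg) {n : ℕ} (b : B.S n) :
    (M c l).app n (g.app n b) = (M c l).app n b := by
  refine sing_ext fun t => ?_
  rw [ev_M, ev_M, ← hc n b t, ← mu_relabel (c.c n (g.app n b) t) (sg.s n b)]
  congr 1
  funext v
  exact hl n b v t

theorem Bx.Inv.extend {g : SS.Hom B B} {sg : Act Φ g} {c : Bx Φ A} (hc : c.Inv sg) (k : A ↪ J) :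
    (c.extend k).Inv sg := by
  intro n b t
  show ((c.c n (g.app n b) t).extend k).relabel (sg.s n b) = (c.c n b t).extend k
  rw [← BoxConf.extend_relabel, hc n b t]

/-- the induced self map of the cylinder -/
def cylMap (g : SS.Hom B B) : SS.Hom (B.prod (SS.std 1)) (B.prod (SS.std 1)) :=
  SS.prodMap g (SS.Hom.id _)

/-- the induced lifting on the cylinder -/
def Act.cyl {g : SS.Hom B B} (sg : Act Φ g) : Act Φ.cyl (cylMap g) where
  s n b := sg.s n b.1

theorem Bx.Inv.hty [Finite A] [Finite A'] {g : SS.Hom B B} {sg : Act Φ g} {ι : A ↪ J} {ι' : A' ↪ J}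
    (hd : ∀ x y, ι x ≠ ι' y) {c : Bx Φ A} {c' : Bx Φ A'} (hc : c.Inv sg) (hc' : c'.Inv sg) :
    (c.hty hd c').Inv sg.cyl := by
  intro n b t
  show (Htpy761.hty hd (tmv b.2 t) (c.c n (g.app n b.1) t) (c'.c n (g.app n b.1) t)).relabel
    (sg.s n b.1) = Htpy761.hty hd (tmv b.2 t) (c.c n b.1 t) (c'.c n b.1 t)
  rw [← hty_relabel, hc n b.1 t, hc' n b.1 t]

/-- homotopies of maps on orbits from invariant homotopies -/
theorem Htp.orb {τ : DK742.Invo B} {L : SS} {f f' : SS.Hom (DK742.orb B τ) L}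
    (h : SS.Hom (B.prod (SS.std 1)) L)
    (h0 : SS.Hom.comp h (SpecA.endMap B 0) = SS.Hom.comp f (DK742.proj τ))
    (h1 : SS.Hom.comp h (SpecA.endMap B 1) = SS.Hom.comp f' (DK742.proj τ))
    (hinv : ∀ (n : ℕ) (b : B.S n) (a : (SS.std 1).S n),
      h.app n (τ.g.app n b, a) = h.app n (b, a)) : Htp f f' := by
  refine ⟨⟨fun n p => Quotient.liftOn (s := τ.rel n) p.1 (fun b => h.app n (b, p.2)) (by
      rintro b b' (rfl | rfl)
      · rfl
      · exact (hinv n b p.2).symm), ?_⟩, ?_, ?_⟩
  · intro m n φ p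
    obtain ⟨y, a⟩ := p
    obtain ⟨b, rfl⟩ := DK742.proj_surj τ _ y
    exact h.nat φ (b, a)
  · refine SS.Hom.ext (funext fun n => funext fun y => ?_)
    obtain ⟨b, rfl⟩ := DK742.proj_surj τ _ y
    exact congrFun (congrFun (congrArg SS.Hom.app h0) n) b
  · refine SS.Hom.ext (funext fun n => funext fun y => ?_)
    obtain ⟨b, rfl⟩ := DK742.proj_surj τ _ y
    exact congrFun (congrFun (congrArg SS.Hom.app h1) n) b

/-- **independence of the boxes, orbit version** -/
theorem M_htp_orb [Finite A] [Finite A'] [Finite J] {τ : DK742.Invo B} {sg : Act Φ τ.g}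
    {ι : A ↪ J} {ι' : A' ↪ J} (hd : ∀ x y, ι x ≠ ι' y) (c : Bx Φ A) (c' : Bx Φ A')
    (l : Lb Φ (Ω^ J Z z₀)) (hc : c.Inv sg) (hc' : c'.Inv sg) (hl : l.Inv sg)
    {f f' : SS.Hom (DK742.orb B τ) (SS.Sing (Ω^ J Z z₀))}
    (hf : SS.Hom.comp f (DK742.proj τ) = M (c.extend ι) l)
    (hf' : SS.Hom.comp f' (DK742.proj τ) = M (c'.extend ι') l) : Htp f f' := by
  refine Htp.orb (τ := τ) (M (c.hty hd c') l.cyl) ?_ ?_ ?_
  · rw [hf]
    refine eq_M' _ _ _ fun n b t => ?_
    have e0 : tmv ((SpecA.endMap B 0).app n b).2 t = 0 := tmv_eq_zero _ (fun _ => rfl) t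
    refine (congrArg (fun s => mu (Htpy761.hty hd s (c.c n b t) (c'.c n b t))
      (fun v => l.l n b v t)) e0).trans ?_
    rw [hty_zero]; rfl
  · rw [hf']
    refine eq_M' _ _ _ fun n b t => ?_
    have e1 : tmv ((SpecA.endMap B 1).app n b).2 t = 1 := tmv_eq_one _ (fun _ => rfl) t
    refine (congrArg (fun s => mu (Htpy761.hty hd s (c.c n b t) (c'.c n b t))
      (fun v => l.l n b v t)) e1).trans ?_
    rw [hty_one]; rfl
  · intro n b a
    exact M_inv (g := cylMap τ.g) (sg := sg.cyl) (Bx.Inv.hty hd hc hc')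
      (fun n b v t => hl n b.1 v t) (b, a)

/-- orbit version in homology -/
theorem M_H_eq_orb (hI : SpecA.HomotopyInv) (R : Type) [CommRing R] [Finite A] [Finite A']
    [Finite J] {τ : DK742.Invo B} {sg : Act Φ τ.g}
    (ι : A ↪ J) (ι' : A' ↪ J) (h : 2 * Nat.card A + Nat.card A' ≤ Nat.card J)
    (c : Bx Φ A) (c' : Bx Φ A') (l : Lb Φ (Ω^ J Z z₀)) (hc : c.Inv sg) (hc' : c'.Inv sg)
    (hl : l.Inv sg) {f f' : SS.Hom (DK742.orb B τ) (SS.Sing (Ω^ J Z z₀))}
    (hf : SS.Hom.comp f (DK742.proj τ) = M (c.extend ι) l)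
    (hf' : SS.Hom.comp f' (DK742.proj τ) = M (c'.extend ι') l) : H.map R f = H.map R f' := by
  obtain ⟨κ, h1, h2⟩ := exists_emb_disjoint (A'' := A) ι ι' (by omega)
  let f'' : SS.Hom (DK742.orb B τ) (SS.Sing (Ω^ J Z z₀)) :=
    DK742.orbLift τ (M (c.extend κ) l) (fun n b => M_inv (hc.extend κ) hl b)
  have hf'' : SS.Hom.comp f'' (DK742.proj τ) = M (c.extend κ) l := rfl
  have e1 := (M_htp_orb h1 c c l hc hc hl hf hf'').map_eq hI R
  have e2 := (M_htp_orb (fun x y => (h2 y x).symm) c c' l hc hc' hl hf'' hf').map_eq hI R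
  rw [e1, e2]

/-! ### box families from real labels -/

open Fam265

/-- real labels of the threads of a local system, separated at every time, of dimension `≤ M` -/
structure Rl (Φ : Sys B) (M : ℕ) where
  w : ∀ (n : ℕ) (b : B.S n), Φ.F n b → Fin (n + 1) → ℝ
  nat : ∀ {m n : ℕ} (f : Op m n) (b : B.S n) (v : Φ.F n b),
    w m (B.act f b) (Φ.e f b v) = fun i => w n b v (f i)
  sep : ∀ (n : ℕ) (b : B.S n), ∃ p, p ≤ M ∧ ∃ (f : Op n p) (y : Φ.F n b → Fin (p + 1) → ℝ),
    (∀ v, w n b v = fun i => y v (f i)) ∧ ∀ v v', v ≠ v' → ∀ k, y v k ≠ y v' k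

/-- the point configuration of moments -/
def momConf {F : Type} (M : ℕ) {n : ℕ} (w : F → Fin (n + 1) → ℝ)
    (hsep : ∃ p, p ≤ M ∧ ∃ (f : Op n p) (y : F → Fin (p + 1) → ℝ),
      (∀ v, w v = fun i => y v (f i)) ∧ ∀ v v', v ≠ v' → ∀ k, y v k ≠ y v' k)
    (t : stdSimplex ℝ (Fin (n + 1))) : InjConf F (Fin (M + 1)) :=
  ⟨fun v => mom M (w v) t, by
    obtain ⟨p, hp, f, y, h1, h2⟩ := hsep
    intro v v' h
    by_contra hne
    have h' : mom M (w v) (t : Fin (n + 1) → ℝ) = mom M (w v') t := h
    rw [h1, h1] at h'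
    exact mom_ne_of_factor hp f (h2 v v' hne) t h'⟩

/-- finite type instance used for the cubes -/
def cubesF {F J : Type} [Finite F] [Fintype J] (p : InjConf F J) : BoxConf F J :=
  letI := Fintype.ofFinite F
  InjConf.cubes p

theorem continuous_cubesF {P F J : Type} [TopologicalSpace P] [Finite F] [Fintype J]
    {p : P → InjConf F J} (hp : Continuous p) : Continuous fun q => cubesF (p q) := by
  let _ := Fintype.ofFinite F
  exact InjConf.continuous_cubes hp

theorem cubesF_relabel {F F' J : Type} [Finite F] [Finite F'] [Fintype J] (p : InjConf F J)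
    (e : F' ≃ F) : cubesF (p.relabel e) = (cubesF p).relabel e := by
  let _ := Fintype.ofFinite F
  let _ := Fintype.ofFinite F'
  exact InjConf.cubes_relabel p e

/-- the box family of a family of real labels -/
def Rl.bx {M : ℕ} (r : Rl Φ M) : Bx Φ (Fin (M + 1)) where
  c n b := ⟨fun t => cubesF (momConf M (r.w n b) (r.sep n b) t), by
    refine continuous_cubesF (Continuous.subtype_mk (continuous_pi fun v => ?_) _)
    exact continuous_mom M continuous_const continuous_subtype_val⟩
  nat {m n} f b t := by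
    show (cubesF (momConf M (r.w m (B.act f b)) (r.sep m (B.act f b)) t)).relabel (Φ.e f b) =
      cubesF (momConf M (r.w n b) (r.sep n b) (stdSimplex.map f t))
    rw [← cubesF_relabel]
    congr 1
    refine Subtype.ext (funext fun v => ?_)
    show mom M (r.w m (B.act f b) (Φ.e f b v)) t = mom M (r.w n b v) (stdSimplex.map f t)
    rw [r.nat f b v]
    exact mom_act M f (r.w n b v) t

/-- invariance of a family of real labels -/
def Rl.Inv {M : ℕ} {g : SS.Hom B B} (sg : Act Φ g) (r : Rl Φ M) : Prop :=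
  ∀ (n : ℕ) (b : B.S n) (v : Φ.F n b), r.w n (g.app n b) (sg.s n b v) = r.w n b v

theorem Rl.Inv.bx {M : ℕ} {g : SS.Hom B B} {sg : Act Φ g} {r : Rl Φ M} (h : r.Inv sg) :
    r.bx.Inv sg := by
  intro n b t
  show (cubesF (momConf M (r.w n (g.app n b)) _ t)).relabel (sg.s n b) =
    cubesF (momConf M (r.w n b) _ t)
  rw [← cubesF_relabel]
  congr 1
  refine Subtype.ext (funext fun v => ?_)
  show mom M (r.w n (g.app n b) (sg.s n b v)) t = mom M (r.w n b v) t
  rw [h n b v]

end Crest.Agent.R204.CovT761
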