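import Crest.Agent.R204.Htpy_761
import Crest.Agent.R204.C2_735
import Crest.Agent.R204.SpecA_334

/-!
# Row 204, block C / G (helper761): cover transfer

A simplicial map `B → Sing (Ω^J Z)` presented by a local system of finite sets over `B`, a family of
box configurations and a family of labels.  Two such maps with the same labels are homotopic as soon
as the boxes can be placed in disjoint sets of coordinates.
-/

set_option autoImplicit false
set_option linter.unusedSectionVars false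

open scoped Topology unitInterval Topology.Homotopy
open Set

noncomputable section

namespace Crest.Agent.R204.CovT761

open Crest.Agent.R204.Cubes735 Crest.Agent.R204.Htpy761

/-! ### `place` is `extend` -/

theorem place_eq_extend {F A J : Type*} (ι : A ↪ J) (c : BoxConf F A) :
    place ι c = c.extend ι := rfl

/-! ### simplicial homotopies -/

/-- one-step simplicial homotopy -/
def Htp {K L : SS} (f g : SS.Hom K L) : Prop := ∃ h : SS.Hom (K.prod (SS.std 1)) L,
  SS.Hom.comp h (SpecA.endMap K 0) = f ∧ SS.Hom.comp h (SpecA.endMap K 1) = g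

theorem Htp.map_eq (hI : SpecA.HomotopyInv) (R : Type) [CommRing R] {K L : SS} {f g : SS.Hom K L}
    (h : Htp f g) : H.map R f = H.map R g := by
  obtain ⟨h, rfl, rfl⟩ := h
  exact hI R K L h

theorem Htp.refl {K L : SS} (f : SS.Hom K L) : Htp f f :=
  ⟨SS.Hom.comp f (SS.fst K (SS.std 1)), rfl, rfl⟩

theorem Htp.comp {K L M : SS} {f g : SS.Hom K L} (h : Htp f g) (k : SS.Hom L M) :
    Htp (SS.Hom.comp k f) (SS.Hom.comp k g) := by
  obtain ⟨h, rfl, rfl⟩ := h
  exact ⟨SS.Hom.comp k h, rfl, rfl⟩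

theorem Htp.precomp {J K L : SS} {f g : SS.Hom K L} (h : Htp f g) (k : SS.Hom J K) :
    Htp (SS.Hom.comp f k) (SS.Hom.comp g k) := by
  obtain ⟨h, rfl, rfl⟩ := h
  exact ⟨SS.Hom.comp h (SS.prodMap k (SS.Hom.id _)), rfl, rfl⟩

/-! ### local systems -/

/-- local systems of finite sets -/
structure Sys (B : SS) : Type 1 where
  F : ∀ n : ℕ, B.S n → Type
  fin : ∀ (n : ℕ) (b : B.S n), Finite (F n b)
  e : ∀ {m n : ℕ} (f : Op m n) (b : B.S n), F n b ≃ F m (B.act f b)

attribute [instance] Sys.fin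

variable {B : SS} {Φ : Sys B} {A A' J : Type} {X Z : Type} [TopologicalSpace X]
  [TopologicalSpace Z] {z₀ : Z}

/-- families of box configurations -/
structure Bx (Φ : Sys B) (A : Type) where
  c : ∀ (n : ℕ) (b : B.S n), C(stdSimplex ℝ (Fin (n + 1)), BoxConf (Φ.F n b) A)
  nat : ∀ {m n : ℕ} (f : Op m n) (b : B.S n) (t : stdSimplex ℝ (Fin (m + 1))),
    (c m (B.act f b) t).relabel (Φ.e f b) = c n b (stdSimplex.map f t)

/-- families of labels -/
structure Lb (Φ : Sys B) (X : Type) [TopologicalSpace X] where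
  l : ∀ (n : ℕ) (b : B.S n), Φ.F n b → C(stdSimplex ℝ (Fin (n + 1)), X)
  nat : ∀ {m n : ℕ} (f : Op m n) (b : B.S n) (v : Φ.F n b) (t : stdSimplex ℝ (Fin (m + 1))),
    l m (B.act f b) (Φ.e f b v) t = l n b v (stdSimplex.map f t)

/-- the constant family of labels -/
def Lb.const (Φ : Sys B) (x : X) : Lb Φ X where
  l _ _ _ := ContinuousMap.const _ x
  nat _ _ _ _ := rfl

/-- the cover transfer -/
def M [Finite J] (c : Bx Φ J) (l : Lb Φ (Ω^ J Z z₀)) : SS.Hom B (SS.Sing (Ω^ J Z z₀)) where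
  app n b := (⟨fun t => mu (c.c n b t) (fun v => l.l n b v t),
    continuous_mu (c.c n b).continuous (continuous_pi fun v => (l.l n b v).continuous)⟩ :
      C(stdSimplex ℝ (Fin (n + 1)), Ω^ J Z z₀))
  nat {m n} f b := by
    refine ContinuousMap.ext fun t => ?_
    show mu (c.c m (B.act f b) t) (fun v => l.l m (B.act f b) v t) =
      mu (c.c n b (stdSimplex.map f t)) (fun v => l.l n b v (stdSimplex.map f t))
    rw [← c.nat f b t, ← mu_relabel (c.c m (B.act f b) t) (Φ.e f b)]
    congr 1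
    funext v
    exact l.nat f b v t

theorem M_apply [Finite J] (c : Bx Φ J) (l : Lb Φ (Ω^ J Z z₀)) {n : ℕ} (b : B.S n)
    (t : stdSimplex ℝ (Fin (n + 1))) :
    DFunLike.coe (F := C(stdSimplex ℝ (Fin (n + 1)), Ω^ J Z z₀)) ((M c l).app n b) t =
      mu (c.c n b t) (fun v => l.l n b v t) := rfl

/-- recognising a cover transfer -/
theorem eq_M [Finite J] (c : Bx Φ J) (l : Lb Φ (Ω^ J Z z₀)) (g : SS.Hom B (SS.Sing (Ω^ J Z z₀)))
    (h : ∀ (n : ℕ) (b : B.S n) (t : stdSimplex ℝ (Fin (n + 1))),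
      DFunLike.coe (F := C(stdSimplex ℝ (Fin (n + 1)), Ω^ J Z z₀)) (g.app n b) t =
      mu (c.c n b t) (fun v => l.l n b v t)) : g = M c l :=
  SS.Hom.ext (funext fun n => funext fun b => ContinuousMap.ext fun t => h n b t)

/-- all labels constant -/
theorem M_const [Finite J] (c : Bx Φ J) {n : ℕ} (b : B.S n) (t : stdSimplex ℝ (Fin (n + 1))) :
    DFunLike.coe (F := C(stdSimplex ℝ (Fin (n + 1)), Ω^ J Z z₀))
      ((M c (Lb.const Φ (GenLoop.const : Ω^ J Z z₀))).app n b) t = GenLoop.const :=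
  mu_const _

/-- placing a family along an embedding of the coordinates -/
def Bx.extend (c : Bx Φ A) (k : A ↪ J) : Bx Φ J where
  c n b := ⟨fun t => (c.c n b t).extend k, BoxConf.continuous_extend (c.c n b).continuous k⟩
  nat f b t := by
    show ((c.c _ (B.act f b) t).extend k).relabel (Φ.e f b) = (c.c _ b (stdSimplex.map f t)).extend k
    rw [← BoxConf.extend_relabel, c.nat]

/-! ### the cylinder -/

/-- the pull back of a local system to the cylinder -/
def Sys.cyl (Φ : Sys B) : Sys (B.prod (SS.std 1)) where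
  F n b := Φ.F n b.1
  fin n b := Φ.fin n b.1
  e f b := Φ.e f b.1

/-- the underlying function of a simplex of `Δ¹` -/
def fn {n : ℕ} (g : (SS.std 1).S n) : Fin (n + 1) → Fin 2 :=
  let g' : Op n 1 := g
  g'

theorem fn_act {m n : ℕ} (f : Op m n) (g : (SS.std 1).S n) : fn ((SS.std 1).act f g) = fn g ∘ f :=
  rfl

/-- the coordinate `Δ¹ → [0,1]` at a point of a simplex -/
def tmv {n : ℕ} (g : (SS.std 1).S n) (t : stdSimplex ℝ (Fin (n + 1))) : ℝ :=
  (stdSimplex.map (fn g) t : stdSimplex ℝ (Fin 2)) 1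

theorem continuous_tmv {n : ℕ} (g : (SS.std 1).S n) : Continuous (tmv g) := by
  unfold tmv
  have h1 : Continuous (fun t : stdSimplex ℝ (Fin (n + 1)) =>
      (stdSimplex.map (fn g) t : stdSimplex ℝ (Fin 2))) :=
    stdSimplex.continuous_map _
  exact (continuous_apply 1).comp (continuous_subtype_val.comp h1)

theorem tmv_act {m n : ℕ} (f : Op m n) (g : (SS.std 1).S n) (t : stdSimplex ℝ (Fin (m + 1))) :
    tmv ((SS.std 1).act f g) t = tmv g (stdSimplex.map f t) := by
  unfold tmv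
  rw [fn_act, stdSimplex.map_comp_apply]

theorem tmv_eq_zero {n : ℕ} (g : (SS.std 1).S n) (hg : ∀ i, fn g i = 0)
    (t : stdSimplex ℝ (Fin (n + 1))) : tmv g t = 0 := by
  unfold tmv
  rw [stdSimplex.map_coe, FunOnFinite.linearMap_apply_apply]
  refine Finset.sum_eq_zero fun i hi => ?_
  simp only [Finset.mem_filter] at hi
  rw [hg i] at hi
  exact absurd hi.2 (by simp)

theorem tmv_eq_one {n : ℕ} (g : (SS.std 1).S n) (hg : ∀ i, fn g i = 1)
    (t : stdSimplex ℝ (Fin (n + 1))) : tmv g t = 1 := by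
  unfold tmv
  rw [stdSimplex.map_coe, FunOnFinite.linearMap_apply_apply]
  have := stdSimplex.sum_eq_one t
  rw [← this]
  refine Finset.sum_congr ?_ fun _ _ => rfl
  ext i
  simp [hg i]

variable [Finite A] [Finite A']

/-- the universal homotopy as a family over the cylinder -/
def Bx.hty {ι : A ↪ J} {ι' : A' ↪ J} (hd : ∀ x y, ι x ≠ ι' y) (c : Bx Φ A) (c' : Bx Φ A') :
    Bx Φ.cyl J where
  c n b := (⟨fun t => Htpy761.hty hd (tmv b.2 t) (c.c n b.1 t) (c'.c n b.1 t),
    continuous_hty hd (continuous_tmv b.2) (c.c n b.1).continuous (c'.c n b.1).continuous⟩ :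
      C(stdSimplex ℝ (Fin (n + 1)), BoxConf (Φ.F n b.1) J))
  nat {m n} f b t := by
    show (Htpy761.hty hd (tmv ((SS.std 1).act f b.2) t) (c.c m (B.act f b.1) t)
      (c'.c m (B.act f b.1) t)).relabel (Φ.e f b.1) =
      Htpy761.hty hd (tmv b.2 (stdSimplex.map f t)) (c.c n b.1 (stdSimplex.map f t))
        (c'.c n b.1 (stdSimplex.map f t))
    rw [← hty_relabel, c.nat, c'.nat, tmv_act]

/-- the universal homotopy (same coordinates) as a family over the cylinder -/
def Bx.hty2 {ι ι' : A ↪ J} (hd : ∀ x y, ι x ≠ ι' y) (c c' : Bx Φ A) :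
    Bx Φ.cyl J where
  c n b := (⟨fun t => Htpy761.hty2 hd (tmv b.2 t) (c.c n b.1 t) (c'.c n b.1 t),
    continuous_hty2 hd (continuous_tmv b.2) (c.c n b.1).continuous (c'.c n b.1).continuous⟩ :
      C(stdSimplex ℝ (Fin (n + 1)), BoxConf (Φ.F n b.1) J))
  nat {m n} f b t := by
    show (Htpy761.hty2 hd (tmv ((SS.std 1).act f b.2) t) (c.c m (B.act f b.1) t)
      (c'.c m (B.act f b.1) t)).relabel (Φ.e f b.1) =
      Htpy761.hty2 hd (tmv b.2 (stdSimplex.map f t)) (c.c n b.1 (stdSimplex.map f t))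
        (c'.c n b.1 (stdSimplex.map f t))
    rw [← hty2_relabel, c.nat, c'.nat, tmv_act]

/-- labels over the cylinder -/
def Lb.cyl (l : Lb Φ X) : Lb Φ.cyl X where
  l n b v := l.l n b.1 v
  nat f b v t := l.nat f b.1 v t

/-- **Independence of the boxes** (disjoint sets of coordinates) -/
theorem M_htp [Finite J] {ι : A ↪ J} {ι' : A' ↪ J} (hd : ∀ x y, ι x ≠ ι' y) (c : Bx Φ A)
    (c' : Bx Φ A') (l : Lb Φ (Ω^ J Z z₀)) : Htp (M (c.extend ι) l) (M (c'.extend ι') l) := by
  refine ⟨M (c.hty hd c') l.cyl, ?_, ?_⟩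
  · refine eq_M _ _ _ fun n b t => ?_
    have e0 : tmv ((SpecA.endMap B 0).app n b).2 t = 0 := tmv_eq_zero _ (fun _ => rfl) t
    refine (congrArg (fun s => mu (Htpy761.hty hd s (c.c n b t) (c'.c n b t))
      (fun v => l.l n b v t)) e0).trans ?_
    beta_reduce
    rw [hty_zero]; rfl
  · refine eq_M _ _ _ fun n b t => ?_
    have e1 : tmv ((SpecA.endMap B 1).app n b).2 t = 1 := tmv_eq_one _ (fun _ => rfl) t
    refine (congrArg (fun s => mu (Htpy761.hty hd s (c.c n b t) (c'.c n b t))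
      (fun v => l.l n b v t)) e1).trans ?_
    beta_reduce
    rw [hty_one]; rfl

/-- **Independence of the boxes** (same coordinates, a second disjoint copy being available) -/
theorem M_htp2 [Finite J] {ι ι' : A ↪ J} (hd : ∀ x y, ι x ≠ ι' y) (c c' : Bx Φ A)
    (l : Lb Φ (Ω^ J Z z₀)) : Htp (M (c.extend ι) l) (M (c'.extend ι) l) := by
  refine ⟨M (c.hty2 hd c') l.cyl, ?_, ?_⟩
  · refine eq_M _ _ _ fun n b t => ?_
    have e0 : tmv ((SpecA.endMap B 0).app n b).2 t = 0 := tmv_eq_zero _ (fun _ => rfl) t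
    refine (congrArg (fun s => mu (Htpy761.hty2 hd s (c.c n b t) (c'.c n b t))
      (fun v => l.l n b v t)) e0).trans ?_
    beta_reduce
    rw [hty2_zero]; rfl
  · refine eq_M _ _ _ fun n b t => ?_
    have e1 : tmv ((SpecA.endMap B 1).app n b).2 t = 1 := tmv_eq_one _ (fun _ => rfl) t
    refine (congrArg (fun s => mu (Htpy761.hty2 hd s (c.c n b t) (c'.c n b t))
      (fun v => l.l n b v t)) e1).trans ?_
    beta_reduce
    rw [hty2_one]; rfl

end Crest.Agent.R204.CovT761
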