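import Crest.Agent.R204.Cube_477
import Crest.Agent.R204.EZSym_888
import Crest.Agent.R204.C5Aux_265
import Crest.Agent.R204.HZ_76

/-!
# Row 204, leaf H10 (helper477): the cross product of singular chains (instance of `Cross`),
acyclicity of the square.
-/

set_option autoImplicit false

namespace Crest.Agent.R204.HopfF2477

open SS Finsupp

/-- `Sing X × Sing Y → Sing (X × Y)` -/
noncomputable def spr (X Y : Type) [TopologicalSpace X] [TopologicalSpace Y] :
    Hom ((Sing X).prod (Sing Y)) (Sing (X × Y)) :=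
  ⟨fun _ x => (x.1 : C(_, X)).prodMk (x.2 : C(_, Y)), fun _ _ => rfl⟩

/-- the cross product of normalised singular chains mod 2 -/
noncomputable def crs {X Y : Type} [TopologicalSpace X] [TopologicalSpace Y] :
    N F2 (Sing X) →ₗ[F2] N F2 (Sing Y) →ₗ[F2] N F2 (Sing (X × Y)) :=
  (EZ271.cross F2 (K := Sing X) (L := Sing Y)).compr₂ (N.map F2 (spr X Y))

theorem crs_apply {X Y : Type} [TopologicalSpace X] [TopologicalSpace Y] (x : N F2 (Sing X))
    (y : N F2 (Sing Y)) : crs x y = N.map F2 (spr X Y) (EZ271.cross F2 x y) := rfl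

theorem Nbd_map {K L : SS} (f : Hom K L) (c : N F2 K) :
    N.bd F2 L (N.map F2 f c) = N.map F2 f (N.bd F2 K c) :=
  (LinearMap.congr_fun (N.map_bd (R := F2) f) c).symm

theorem Nmap_comp {J K L : SS} (g : Hom K L) (f : Hom J K) (c : N F2 J) :
    N.map F2 (g.comp f) c = N.map F2 g (N.map F2 f c) := by
  induction c using N_ind with
  | h0 => simp
  | hadd a b ha hb => simp only [map_add, ha, hb]
  | hsx n x => rw [N.map_sx, N.map_sx, N.map_sx]; rfl

theorem crs_nat {X Y X' Y' : Type} [TopologicalSpace X] [TopologicalSpace Y] [TopologicalSpace X']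
    [TopologicalSpace Y'] (f : C(X, X')) (g : C(Y, Y')) (x : N F2 (Sing X)) (y : N F2 (Sing Y)) :
    pf (f.prodMap g) (crs x y) = crs (pf f x) (pf g y) := by
  rw [crs_apply, crs_apply]
  unfold pf
  rw [← EZ271.map_cross, ← Nmap_comp, ← Nmap_comp]
  rfl

/-- the cross product -/
noncomputable def theCross : Cross where
  cr := crs
  bd x y := by
    rw [crs_apply, Nbd_map, EZ271.bd_cross2, map_add]; rfl
  nat := crs_nat
  gr hx hy := map_gr _ (C5265.cross_mem_gr F2 hx hy)
  fst := by
    intro X Y _ _ q x y hy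
    rw [crs_apply]
    unfold pf
    rw [← Nmap_comp]
    have : (SingMap (ContinuousMap.fst)).comp (spr X Y) = SS.fst (Sing X) (Sing Y) := rfl
    rw [this, EZ271.fst_cross]
    have h : EZ271.aug F2 y = 0 := by
      refine N_gr_ind (p := fun y => EZ271.aug F2 y = 0) y hy ?_ ?_ ?_
      · simp
      · intro a b ha hb; rw [map_add, ha, hb, add_zero]
      · intro x; simp
    rw [h, zero_smul]
  fst0 := by
    intro X Y _ _ x y
    rw [crs_apply]
    unfold pf
    rw [← Nmap_comp]
    have : (SingMap (ContinuousMap.fst)).comp (spr X Y) = SS.fst (Sing X) (Sing Y) := rfl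
    rw [this, EZ271.fst_cross, EZ271.aug_sx_zero, one_smul]
  swap x y := by
    rw [crs_apply, crs_apply, ← EZ271.swap_cross x y]
    unfold pf
    rw [← Nmap_comp, ← Nmap_comp]; rfl
  assoc x y z := by
    have e1 : crs (crs x y) z = N.map F2 ((spr _ _).comp (prodMap (spr _ _) (Hom.id _)))
        (EZ271.cross F2 (EZ271.cross F2 x y) z) := by
      rw [crs_apply, crs_apply, Nmap_comp, EZ271.map_cross]
      congr 2
      exact (EZ271.map_idHom F2 z).symm
    have e2 : crs x (crs y z) = N.map F2 ((spr _ _).comp (prodMap (Hom.id _) (spr _ _)))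
        (EZ271.cross F2 x (EZ271.cross F2 y z)) := by
      rw [crs_apply, crs_apply, Nmap_comp, EZ271.map_cross]
      congr 2
      rw [EZ271.map_idHom F2 x]
    rw [e1, e2, ← EZ271.assoc_cross F2 x y z, ← Nmap_comp]
    unfold pf
    rw [← Nmap_comp]; rfl

theorem gr_pt {n : ℕ} {c : N F2 pt} (hc : c ∈ N.gr F2 pt (n + 1)) : c = 0 := by
  refine N_gr_ind (p := fun c => c = 0) c hc rfl ?_ ?_
  · intro a b ha hb; rw [ha, hb, add_zero]
  · intro x
    exact sx_act_dgn (K := pt) (m := n + 1) (n := 0) ⟨fun _ => 0, fun _ _ _ => le_rfl⟩ (by omega) ()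

/-- positive degree cycles in contractible spaces are boundaries -/
theorem acyclic (X : Type) [TopologicalSpace X] [ContractibleSpace X] {n : ℕ} {c : N F2 (Sing X)}
    (hc : c ∈ N.gr F2 (Sing X) (n + 1)) (hz : N.bd F2 _ c = 0) : ∃ h, N.bd F2 _ h = c := by
  have hinj := (HZ76.contr F2 X).1
  have h0 : Hd.mk (N.bd F2 (Sing X)) c hz = 0 := by
    refine hinj ?_
    rw [map_zero]
    unfold H.map
    rw [Hd.map_mk]
    rw [Hd.mk_eq_zero]
    exact ⟨0, by rw [map_zero, gr_pt (map_gr (toPt (Sing X)) hc)]⟩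
  rwa [Hd.mk_eq_zero] at h0

instance contractible_square : ContractibleSpace (I × I) := by
  rw [contractible_iff_id_nullhomotopic]
  refine ⟨(0, 0), ⟨{
    toFun := fun p => (unitInterval.symm p.1 * p.2.1, unitInterval.symm p.1 * p.2.2)
    continuous_toFun := by fun_prop
    map_zero_left := fun p => by simp
    map_one_left := fun p => by simp }⟩⟩

theorem acy : Acy := fun _ hc hz => acyclic (I × I) (n := 1) hc hz

end Crest.Agent.R204.HopfF2477
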