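import Crest.Agent.R204.Defs

/-!
# Row 204, block B (leaf B4x): `p`-fold cross products on the homology of `G^p` (helper872)

Abstract interface `Kun` (external product in mod 2 homology) and its consequences for powers.
-/

set_option autoImplicit false

noncomputable section

open Function TensorProduct

namespace Crest.Agent.R204.CrossP872

open SS

/-! ## functoriality of homology -/

theorem Nmap_comp {K L M : SS} (g : SS.Hom L M) (f : SS.Hom K L) (c : N F2 K) :
    N.map F2 (SS.Hom.comp g f) c = N.map F2 g (N.map F2 f c) := by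
  obtain ⟨c, rfl⟩ := Submodule.Quotient.mk_surjective _ c
  rw [N.map_mk, N.map_mk, N.map_mk]
  congr 1
  induction c using Finsupp.induction_linear with
  | zero => simp
  | add a b ha hb => rw [map_add, map_add, map_add, ha, hb]
  | single t r =>
    obtain ⟨n, x⟩ := t
    rw [Ch.map_single, Ch.map_single, Ch.map_single]
    rfl

theorem Nmap_id {K : SS} (c : N F2 K) : N.map F2 (SS.Hom.id K) c = c := by
  obtain ⟨c, rfl⟩ := Submodule.Quotient.mk_surjective _ c
  rw [N.map_mk]
  congr 1
  induction c using Finsupp.induction_linear with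
  | zero => simp
  | add a b ha hb => rw [map_add, ha, hb]
  | single t r =>
    obtain ⟨n, x⟩ := t
    rw [Ch.map_single]
    rfl

theorem Hmap_mk {K L : SS} (f : SS.Hom K L) (z : N F2 K) (hz : N.bd F2 K z = 0) :
    ∃ hz', H.map F2 f (Hd.mk _ z hz) = Hd.mk (N.bd F2 L) (N.map F2 f z) hz' := ⟨_, rfl⟩

theorem Hmap_comp {K L M : SS} (g : SS.Hom L M) (f : SS.Hom K L) (x : H F2 K) :
    H.map F2 g (H.map F2 f x) = H.map F2 (SS.Hom.comp g f) x := by
  obtain ⟨z, hz, rfl⟩ := Hd.mk_surj _ x
  obtain ⟨h1, e1⟩ := Hmap_mk f z hz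
  rw [e1]
  obtain ⟨h2, e2⟩ := Hmap_mk g _ h1
  rw [e2]
  obtain ⟨h3, e3⟩ := Hmap_mk (SS.Hom.comp g f) z hz
  rw [e3]
  congr 1
  exact (Nmap_comp g f z).symm

theorem Hmap_id {K : SS} (x : H F2 K) : H.map F2 (SS.Hom.id K) x = x := by
  obtain ⟨z, hz, rfl⟩ := Hd.mk_surj _ x
  obtain ⟨h1, e1⟩ := Hmap_mk (SS.Hom.id K) z hz
  rw [e1]
  congr 1
  exact Nmap_id z

/-! ## the interface -/

/-- associativity `(J × K) × L → J × (K × L)` -/
def assocHom (J K L : SS) : SS.Hom ((J.prod K).prod L) (J.prod (K.prod L)) :=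
  ⟨fun _ x => (x.1.1, (x.1.2, x.2)), fun _ _ => rfl⟩

/-- inverse of `assocHom` -/
def assocInv (J K L : SS) : SS.Hom (J.prod (K.prod L)) ((J.prod K).prod L) :=
  ⟨fun _ x => ((x.1, x.2.1), x.2.2), fun _ _ => rfl⟩

/-- external product in mod 2 homology -/
structure Kun where
  /-- the cross product -/
  x : ∀ (K L : SS), H F2 K →ₗ[F2] H F2 L →ₗ[F2] H F2 (K.prod L)
  nat : ∀ {K K' L L' : SS} (f : SS.Hom K K') (g : SS.Hom L L') (a : H F2 K) (b : H F2 L),
    H.map F2 (SS.prodMap f g) (x K L a b) = x K' L' (H.map F2 f a) (H.map F2 g b)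
  assoc : ∀ (J K L : SS) (a : H F2 J) (b : H F2 K) (c : H F2 L),
    H.map F2 (assocHom J K L) (x (J.prod K) L (x J K a b) c) = x J (K.prod L) a (x K L b c)
  comm : ∀ (K L : SS) (a : H F2 K) (b : H F2 L), H.map F2 (SS.swap K L) (x K L a b) = x L K b a
  /-- the class of the point -/
  pt1 : H F2 pt
  /-- the coefficient of a class of the point -/
  eps : H F2 pt →ₗ[F2] F2
  pt1_gr : pt1 ∈ H.gr F2 pt 0
  eps_pt1 : eps pt1 = 1
  eps_smul : ∀ a : H F2 pt, eps a • pt1 = a
  unit : ∀ (K : SS) (a : H F2 K), H.map F2 (SS.snd pt K) (x pt K pt1 a) = a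
  bij : ∀ K L : SS, Bijective (TensorProduct.lift (x K L))
  gr_mem : ∀ (K L : SS) (i j : ℕ) (a : H F2 K) (b : H F2 L), a ∈ H.gr F2 K i → b ∈ H.gr F2 L j →
    x K L a b ∈ H.gr F2 (K.prod L) (i + j)

namespace Kun

variable (X : Kun)

/-- augmentation -/
def ep (K : SS) : H F2 K →ₗ[F2] F2 := X.eps ∘ₗ H.map F2 (SS.toPt K)

theorem ep_nat {K L : SS} (f : SS.Hom K L) (a : H F2 K) : X.ep L (H.map F2 f a) = X.ep K a := by
  simp only [ep, LinearMap.comp_apply]
  rw [Hmap_comp]
  rfl

theorem unit' (K : SS) (a : H F2 K) : X.x pt K X.pt1 a = H.map F2 (SS.pair (SS.toPt K) (SS.Hom.id K)) a := by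
  conv_rhs => rw [← X.unit K a, Hmap_comp]
  conv_lhs => rw [← Hmap_id (X.x pt K X.pt1 a)]
  rfl

theorem snd_x (K L : SS) (a : H F2 K) (b : H F2 L) :
    H.map F2 (SS.snd K L) (X.x K L a b) = X.ep K a • b := by
  have h : SS.snd K L = SS.Hom.comp (SS.snd pt L) (SS.prodMap (SS.toPt K) (SS.Hom.id L)) := rfl
  rw [h, ← Hmap_comp, X.nat, Hmap_id]
  rw [← X.eps_smul (H.map F2 (SS.toPt K) a), map_smul, LinearMap.smul_apply, map_smul, X.unit]
  rfl

theorem fst_x (K L : SS) (a : H F2 K) (b : H F2 L) :
    H.map F2 (SS.fst K L) (X.x K L a b) = X.ep L b • a := by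
  have h : SS.fst K L = SS.Hom.comp (SS.snd L K) (SS.swap K L) := rfl
  rw [h, ← Hmap_comp, X.comm, X.snd_x]

/-- left commutation `J × (K × L) → K × (J × L)` -/
def lcommHom (J K L : SS) : SS.Hom (J.prod (K.prod L)) (K.prod (J.prod L)) :=
  ⟨fun _ x => (x.2.1, (x.1, x.2.2)), fun _ _ => rfl⟩

theorem assoc' (J K L : SS) (a : H F2 J) (b : H F2 K) (c : H F2 L) :
    H.map F2 (assocInv J K L) (X.x J (K.prod L) a (X.x K L b c)) = X.x (J.prod K) L (X.x J K a b) c := by
  rw [← X.assoc, Hmap_comp]
  exact Hmap_id _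

theorem lcomm (J K L : SS) (a : H F2 J) (b : H F2 K) (c : H F2 L) :
    H.map F2 (lcommHom J K L) (X.x J (K.prod L) a (X.x K L b c)) = X.x K (J.prod L) b (X.x J L a c) := by
  rw [← X.assoc, Hmap_comp, ← X.assoc, ← X.comm J K a b]
  have h2 : X.x (K.prod J) L (H.map F2 (SS.swap J K) (X.x J K a b)) c =
      H.map F2 (SS.prodMap (SS.swap J K) (SS.Hom.id L)) (X.x (J.prod K) L (X.x J K a b) c) := by
    rw [X.nat, Hmap_id]
  rw [h2, Hmap_comp]
  rfl

/-- middle interchange `(J × K) × (J' × K') → (J × J') × (K × K')` -/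
def midHom (J K J' K' : SS) : SS.Hom ((J.prod K).prod (J'.prod K')) ((J.prod J').prod (K.prod K')) :=
  ⟨fun _ x => ((x.1.1, x.2.1), (x.1.2, x.2.2)), fun _ _ => rfl⟩

theorem mid (J K J' K' : SS) (a : H F2 J) (b : H F2 K) (a' : H F2 J') (b' : H F2 K') :
    H.map F2 (midHom J K J' K') (X.x (J.prod K) (J'.prod K') (X.x J K a b) (X.x J' K' a' b')) =
      X.x (J.prod J') (K.prod K') (X.x J J' a a') (X.x K K' b b') := by
  rw [← X.assoc' J J' (K.prod K')]
  rw [← X.lcomm K J' K' b a' b']
  have h1 : X.x J (J'.prod (K.prod K')) a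
      (H.map F2 (lcommHom K J' K') (X.x K (J'.prod K') b (X.x J' K' a' b'))) =
      H.map F2 (SS.prodMap (SS.Hom.id J) (lcommHom K J' K'))
        (X.x J (K.prod (J'.prod K')) a (X.x K (J'.prod K') b (X.x J' K' a' b'))) := by
    rw [X.nat, Hmap_id]
  rw [h1, ← X.assoc J K (J'.prod K'), Hmap_comp, Hmap_comp]
  rfl

end Kun

/-! ## powers -/

/-- `G^p` -/
def Pow (G : SS) (p : ℕ) : SS where
  S n := Fin p → G.S n
  act f v := fun i => G.act f (v i)
  act_id v := by funext i; exact G.act_id _
  act_comp f g v := by funext i; exact G.act_comp f g _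

/-- the map `G × G^p → G^(p+1)` -/
def consHom (G : SS) (p : ℕ) : SS.Hom (G.prod (Pow G p)) (Pow G (p + 1)) :=
  ⟨fun _ x => Fin.cons (α := fun _ => G.S _) x.1 x.2, fun f x => by
    funext i; refine Fin.cases ?_ (fun i => ?_) i <;> rfl⟩

/-- its inverse -/
def unconsHom (G : SS) (p : ℕ) : SS.Hom (Pow G (p + 1)) (G.prod (Pow G p)) :=
  ⟨fun _ v => (v 0, Fin.tail v), fun _ _ => rfl⟩

theorem cons_uncons (G : SS) (p : ℕ) :
    SS.Hom.comp (consHom G p) (unconsHom G p) = SS.Hom.id _ := by
  ext n v
  exact Fin.cons_self_tail v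

theorem uncons_cons (G : SS) (p : ℕ) :
    SS.Hom.comp (unconsHom G p) (consHom G p) = SS.Hom.id _ := by
  ext n v
  rfl

/-- the unique map `pt → G^0` -/
def ptPow (G : SS) : SS.Hom pt (Pow G 0) := ⟨fun _ _ => Fin.elim0, fun _ _ => by funext i; exact i.elim0⟩

/-- componentwise map -/
def powMap {G G' : SS} {p : ℕ} (f : Fin p → SS.Hom G G') : SS.Hom (Pow G p) (Pow G' p) :=
  ⟨fun n v i => (f i).app n (v i), fun a v => by funext i; exact (f i).nat a _⟩

variable (X : Kun) (G : SS)

/-- the `p`-fold cross product -/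
def cross : ∀ p : ℕ, MultilinearMap F2 (fun _ : Fin p => H F2 G) (H F2 (Pow G p))
  | 0 => MultilinearMap.constOfIsEmpty F2 _ (H.map F2 (ptPow G) X.pt1)
  | p + 1 => LinearMap.uncurryLeft
      { toFun := fun a => (H.map F2 (consHom G p) ∘ₗ X.x G (Pow G p) a).compMultilinearMap (cross p)
        map_add' := fun a b => by
          ext v
          simp
        map_smul' := fun r a => by
          ext v
          simp }

theorem cross_zero (v : Fin 0 → H F2 G) : cross X G 0 v = H.map F2 (ptPow G) X.pt1 := rfl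

theorem cross_succ {p : ℕ} (v : Fin (p + 1) → H F2 G) :
    cross X G (p + 1) v = H.map F2 (consHom G p) (X.x G (Pow G p) (v 0) (cross X G p (Fin.tail v))) :=
  rfl

theorem cross_cons {p : ℕ} (a : H F2 G) (v : Fin p → H F2 G) :
    cross X G (p + 1) (Fin.cons a v) = H.map F2 (consHom G p) (X.x G (Pow G p) a (cross X G p v)) :=
  rfl

variable {G}

/-- naturality -/
theorem cross_map {G' : SS} {p : ℕ} (f : Fin p → SS.Hom G G') (v : Fin p → H F2 G) :
    H.map F2 (powMap f) (cross X G p v) = cross X G' p (fun i => H.map F2 (f i) (v i)) := by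
  induction p with
  | zero =>
    rw [cross_zero, cross_zero, Hmap_comp]
    congr 1
    congr 1
    ext n y
    exact funext fun i => i.elim0
  | succ p ih =>
    rw [cross_succ, cross_succ, Hmap_comp]
    have h1 := ih (fun i => f i.succ) (Fin.tail v)
    have h2 : (Fin.tail fun i => H.map F2 (f i) (v i)) =
      fun i => H.map F2 (f i.succ) (Fin.tail v i) := rfl
    rw [h2, ← h1, ← X.nat, Hmap_comp]
    congr 1
    congr 1
    ext n y
    funext i
    refine Fin.cases ?_ (fun i => ?_) i <;> rfl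

/-- insertion `G × G^p → G^(p+1)` at position `i` -/
def insHom (G : SS) (p : ℕ) (i : Fin (p + 1)) : SS.Hom (G.prod (Pow G p)) (Pow G (p + 1)) :=
  ⟨fun _ x => Fin.insertNth (α := fun _ => G.S _) i x.1 x.2, fun f x => by
    funext j
    refine Fin.succAboveCases i ?_ (fun j => ?_) j
    · simp [Pow, SS.prod]
    · simp [Pow, SS.prod]⟩

theorem ins_zero (p : ℕ) : insHom G p 0 = consHom G p := by
  ext n x
  exact Fin.insertNth_zero' x.1 x.2

/-- tuples: insertion into a `cons` -/
theorem ins_cons {α : Type} {p : ℕ} (j : Fin (p + 1)) (a b : α) (w : Fin p → α) :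
    Fin.insertNth (α := fun _ => α) j.succ a (Fin.cons (α := fun _ => α) b w : Fin (p + 1) → α) =
      Fin.cons (α := fun _ => α) b (Fin.insertNth (α := fun _ => α) j a w) := by
  funext k
  refine Fin.succAboveCases j.succ ?_ (fun k => ?_) k
  · rw [Fin.insertNth_apply_same, Fin.cons_succ, Fin.insertNth_apply_same]
  · rw [Fin.insertNth_apply_succAbove]
    refine Fin.cases ?_ (fun k => ?_) k
    · rw [Fin.succ_succAbove_zero, Fin.cons_zero, Fin.cons_zero]
    · rw [Fin.succ_succAbove_succ, Fin.cons_succ, Fin.cons_succ, Fin.insertNth_apply_succAbove]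

/-- insertion at position `i` -/
theorem cross_ins {p : ℕ} (i : Fin (p + 1)) (a : H F2 G) (v : Fin p → H F2 G) :
    H.map F2 (insHom G p i) (X.x G (Pow G p) a (cross X G p v)) =
      cross X G (p + 1) (Fin.insertNth (α := fun _ => H F2 G) i a v) := by
  induction p with
  | zero =>
    obtain rfl : i = 0 := Fin.fin_one_eq_zero i
    rw [ins_zero, ← cross_cons]
    congr 1
    exact (Fin.insertNth_zero' a v).symm
  | succ p ih =>
    refine Fin.cases ?_ (fun j => ?_) i
    · rw [ins_zero, ← cross_cons]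
      congr 1
      exact (Fin.insertNth_zero' a v).symm
    · have h1 : (Fin.insertNth (α := fun _ => H F2 G) j.succ a v) =
          Fin.cons (α := fun _ => H F2 G) (v 0) (Fin.insertNth (α := fun _ => H F2 G) j a (Fin.tail v)) := by
        conv_lhs => rw [← Fin.cons_self_tail v]
        exact ins_cons j a (v 0) (Fin.tail v)
      rw [h1, cross_cons, ← ih j (Fin.tail v), cross_succ]
      have h2 : X.x G (Pow G (p + 1)) a
          (H.map F2 (consHom G p) (X.x G (Pow G p) (v 0) (cross X G p (Fin.tail v)))) =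
          H.map F2 (SS.prodMap (SS.Hom.id G) (consHom G p))
            (X.x G (G.prod (Pow G p)) a (X.x G (Pow G p) (v 0) (cross X G p (Fin.tail v)))) := by
        rw [X.nat, Hmap_id]
      have h3 : X.x G (Pow G (p + 1)) (v 0)
          (H.map F2 (insHom G p j) (X.x G (Pow G p) a (cross X G p (Fin.tail v)))) =
          H.map F2 (SS.prodMap (SS.Hom.id G) (insHom G p j))
            (X.x G (G.prod (Pow G p)) (v 0) (X.x G (Pow G p) a (cross X G p (Fin.tail v)))) := by
        rw [X.nat, Hmap_id]
      rw [h2, h3, ← X.lcomm G G (Pow G p) a (v 0), Hmap_comp, Hmap_comp, Hmap_comp]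
      congr 1
      congr 1
      ext n y
      exact ins_cons j y.1 y.2.1 y.2.2

/-! ## removing, contracting, inserting the unit -/

/-- removal of the `i`-th component -/
def remHom (G : SS) (p : ℕ) (i : Fin (p + 1)) : SS.Hom (Pow G (p + 1)) (Pow G p) :=
  ⟨fun _ v => Fin.removeNth (α := fun _ => G.S _) i v, fun _ _ => rfl⟩

/-- the face `remHom` forgets a factor -/
theorem cross_rem {p : ℕ} (i : Fin (p + 1)) (v : Fin (p + 1) → H F2 G) :
    H.map F2 (remHom G p i) (cross X G (p + 1) v) =
      X.ep G (v i) • cross X G p (Fin.removeNth (α := fun _ => H F2 G) i v) := by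
  have h1 : Fin.insertNth (α := fun _ => H F2 G) i (v i) (Fin.removeNth (α := fun _ => H F2 G) i v) = v :=
    Fin.insertNth_self_removeNth i v
  conv_lhs => rw [← h1, ← cross_ins, Hmap_comp]
  rw [← X.snd_x G (Pow G p)]
  congr 1
  congr 1
  ext n y
  exact Fin.removeNth_insertNth (α := fun _ => G.S n) i y.1 y.2

/-- Pontryagin product of a binary operation -/
def pm (mu : SS.Hom (G.prod G) G) (a b : H F2 G) : H F2 G := H.map F2 mu (X.x G G a b)

/-- multiplication of the components `i`, `i+1` (last face if `i = p`) -/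
def conHom (G : SS) (mu : SS.Hom (G.prod G) G) (p : ℕ) (i : Fin (p + 1)) :
    SS.Hom (Pow G (p + 1)) (Pow G p) :=
  ⟨fun n v => Fin.contractNth i (fun a b => mu.app n (a, b)) v, fun {m n} f v => by
    funext j
    simp only [Fin.contractNth, Pow]
    split_ifs
    · rfl
    · exact mu.nat f (v j.castSucc, v j.succ)
    · rfl⟩

theorem contract_cons {α : Type} {p : ℕ} (op : α → α → α) (j : Fin (p + 1)) (a : α) (w : Fin (p + 1) → α) :
    Fin.contractNth j.succ op (Fin.cons (α := fun _ => α) a w : Fin (p + 2) → α) =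
      Fin.cons (α := fun _ => α) a (Fin.contractNth j op w) := by
  funext k
  refine Fin.cases ?_ (fun k => ?_) k
  · simp [Fin.contractNth]
  · simp only [Fin.contractNth, Fin.val_succ, Fin.cons_succ]
    simp only [add_lt_add_iff_right, add_left_inj]
    split_ifs <;> rfl

theorem contract_zero {α : Type} {p : ℕ} (op : α → α → α) (a b : α) (w : Fin p → α) :
    Fin.contractNth 0 op (Fin.cons (α := fun _ => α) a (Fin.cons (α := fun _ => α) b w) : Fin (p + 2) → α) =
      Fin.cons (α := fun _ => α) (op a b) w := by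
  funext k
  refine Fin.cases ?_ (fun k => ?_) k
  · simp [Fin.contractNth]
  · simp [Fin.contractNth]

theorem contract_last {α : Type} {p : ℕ} (op : α → α → α) (w : Fin (p + 1) → α) :
    Fin.contractNth (Fin.last p) op w = Fin.removeNth (α := fun _ => α) (Fin.last p) w := by
  funext k
  simp [Fin.contractNth, Fin.removeNth]

/-- the face `conHom` for `i < p` multiplies the factors `i`, `i+1` -/
theorem cross_con (mu : SS.Hom (G.prod G) G) {p : ℕ} (i : Fin (p + 1)) (hi : (i : ℕ) < p)
    (v : Fin (p + 1) → H F2 G) :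
    H.map F2 (conHom G mu p i) (cross X G (p + 1) v) = cross X G p (Fin.contractNth i (pm X mu) v) := by
  induction p with
  | zero => omega
  | succ p ih =>
    revert hi
    refine Fin.cases (fun _ => ?_) (fun j hi => ?_) i
    · have h1 : v = Fin.cons (α := fun _ => H F2 G) (v 0)
          (Fin.cons (α := fun _ => H F2 G) (v 1) (Fin.tail (Fin.tail v)) : Fin (p + 1) → H F2 G) := by
        funext k
        refine Fin.cases rfl (fun k => ?_) k
        refine Fin.cases rfl (fun k => rfl) k
      have h4 : Fin.contractNth 0 (pm X mu) v =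
          Fin.cons (α := fun _ => H F2 G) (pm X mu (v 0) (v 1)) (Fin.tail (Fin.tail v)) := by
        conv_lhs => rw [h1]
        exact contract_zero _ _ _ _
      rw [h4]
      conv_lhs => rw [h1]
      rw [cross_cons, cross_cons, cross_cons]
      have h2 : X.x G (Pow G (p + 1)) (v 0)
          (H.map F2 (consHom G p) (X.x G (Pow G p) (v 1) (cross X G p (Fin.tail (Fin.tail v))))) =
          H.map F2 (SS.prodMap (SS.Hom.id G) (consHom G p))
            (X.x G (G.prod (Pow G p)) (v 0) (X.x G (Pow G p) (v 1) (cross X G p (Fin.tail (Fin.tail v))))) := by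
        rw [X.nat, Hmap_id]
      have h3 : X.x G (Pow G p) (pm X mu (v 0) (v 1)) (cross X G p (Fin.tail (Fin.tail v))) =
          H.map F2 (SS.prodMap mu (SS.Hom.id _)) (X.x (G.prod G) (Pow G p) (X.x G G (v 0) (v 1))
            (cross X G p (Fin.tail (Fin.tail v)))) := by
        rw [X.nat, Hmap_id]; rfl
      rw [h2, h3, ← X.assoc' G G (Pow G p), Hmap_comp, Hmap_comp, Hmap_comp, Hmap_comp]
      congr 1
      congr 1
      ext n y
      exact contract_zero (fun a b => mu.app n (a, b)) y.1 y.2.1 y.2.2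
    · have h4 : Fin.contractNth j.succ (pm X mu) v =
          Fin.cons (α := fun _ => H F2 G) (v 0) (Fin.contractNth j (pm X mu) (Fin.tail v)) := by
        conv_lhs => rw [← Fin.cons_self_tail v]
        exact contract_cons _ _ _ _
      rw [h4, cross_cons, ← ih j (by simpa using hi) (Fin.tail v), cross_succ]
      have h3 : X.x G (Pow G p) (v 0) (H.map F2 (conHom G mu p j) (cross X G (p + 1) (Fin.tail v))) =
          H.map F2 (SS.prodMap (SS.Hom.id G) (conHom G mu p j)) (X.x G (Pow G (p + 1)) (v 0)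
            (cross X G (p + 1) (Fin.tail v))) := by
        rw [X.nat, Hmap_id]
      rw [h3, Hmap_comp, Hmap_comp]
      congr 1
      congr 1
      ext n y
      exact contract_cons (fun a b => mu.app n (a, b)) j y.1 y.2

/-- the last face -/
theorem cross_con_last (mu : SS.Hom (G.prod G) G) {p : ℕ} (v : Fin (p + 1) → H F2 G) :
    H.map F2 (conHom G mu p (Fin.last p)) (cross X G (p + 1) v) =
      X.ep G (v (Fin.last p)) • cross X G p (Fin.init v) := by
  have h : conHom G mu p (Fin.last p) = remHom G p (Fin.last p) := by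
    ext n y
    exact contract_last (fun a b => mu.app n (a, b)) y
  rw [h, cross_rem]
  congr 2
  funext k
  simp [Fin.removeNth, Fin.init]

/-- the first face -/
theorem cross_tail {p : ℕ} (v : Fin (p + 1) → H F2 G) :
    H.map F2 (remHom G p 0) (cross X G (p + 1) v) = X.ep G (v 0) • cross X G p (Fin.tail v) := by
  rw [cross_rem]
  rfl

/-- the class of a vertex -/
def vcl (u : G.S 0) : H F2 G := H.map F2 (SS.constHom pt G u) X.pt1

/-- insertion of a vertex at position `i` -/
def unitHom (G : SS) (u : G.S 0) (p : ℕ) (i : Fin (p + 1)) : SS.Hom (Pow G p) (Pow G (p + 1)) :=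
  SS.Hom.comp (insHom G p i) (SS.pair (SS.constHom _ G u) (SS.Hom.id _))

/-- the degeneracy `unitHom` inserts the class of the vertex -/
theorem cross_unit (u : G.S 0) {p : ℕ} (i : Fin (p + 1)) (v : Fin p → H F2 G) :
    H.map F2 (unitHom G u p i) (cross X G p v) =
      cross X G (p + 1) (Fin.insertNth (α := fun _ => H F2 G) i (vcl X u) v) := by
  rw [← cross_ins, vcl]
  have h1 : X.x G (Pow G p) (H.map F2 (SS.constHom pt G u) X.pt1) (cross X G p v) =
      H.map F2 (SS.prodMap (SS.constHom pt G u) (SS.Hom.id _)) (X.x pt (Pow G p) X.pt1 (cross X G p v)) := by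
    rw [X.nat, Hmap_id]
  rw [h1, X.unit', Hmap_comp, Hmap_comp]
  rfl

/-! ## componentwise product -/

/-- componentwise product on `G^p` -/
def powMul (G : SS) (mu : SS.Hom (G.prod G) G) (p : ℕ) : SS.Hom ((Pow G p).prod (Pow G p)) (Pow G p) :=
  ⟨fun n x i => mu.app n (x.1 i, x.2 i), fun f x => by
    funext i; exact mu.nat f (x.1 i, x.2 i)⟩

/-- the product of cross products -/
theorem cross_mul (mu : SS.Hom (G.prod G) G) {p : ℕ} (v w : Fin p → H F2 G) :
    H.map F2 (powMul G mu p) (X.x (Pow G p) (Pow G p) (cross X G p v) (cross X G p w)) =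
      cross X G p (fun i => pm X mu (v i) (w i)) := by
  induction p with
  | zero =>
    rw [cross_zero, cross_zero, cross_zero, ← X.nat, X.unit', Hmap_comp, Hmap_comp]
    congr 1
    congr 1
    ext n y
    exact funext fun i => i.elim0
  | succ p ih =>
    rw [cross_succ, cross_succ, cross_succ, ← X.nat, Hmap_comp]
    have h1 : cross X G p (Fin.tail fun i => pm X mu (v i) (w i)) =
        H.map F2 (powMul G mu p) (X.x (Pow G p) (Pow G p) (cross X G p (Fin.tail v))
          (cross X G p (Fin.tail w))) := (ih (Fin.tail v) (Fin.tail w)).symm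
    rw [h1]
    have h2 : pm X mu (v 0) (w 0) = H.map F2 mu (X.x G G (v 0) (w 0)) := rfl
    rw [h2, ← X.nat, Hmap_comp, ← X.mid, Hmap_comp]
    congr 1
    congr 1
    ext n y
    funext i
    refine Fin.cases ?_ (fun i => ?_) i <;> rfl

/-! ## permutations -/

/-- permutation of the factors -/
def permHom (G : SS) (p : ℕ) (σ : Equiv.Perm (Fin p)) : SS.Hom (Pow G p) (Pow G p) :=
  ⟨fun _ v => v ∘ σ, fun _ _ => rfl⟩

theorem cross_adj {p : ℕ} (i : Fin p) (v : Fin (p + 1) → H F2 G) :
    H.map F2 (permHom G (p + 1) (Equiv.swap i.castSucc i.succ)) (cross X G (p + 1) v) =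
      cross X G (p + 1) (v ∘ Equiv.swap i.castSucc i.succ) := by
  induction p with
  | zero => exact i.elim0
  | succ p ih =>
    refine Fin.cases ?_ (fun j => ?_) i
    · have e : ∀ (α : Type) (a b : α) (w : Fin p → α),
          (Fin.cons (α := fun _ => α) a (Fin.cons (α := fun _ => α) b w : Fin (p + 1) → α) :
            Fin (p + 1 + 1) → α) ∘ (Equiv.swap (0 : Fin (p + 1)).castSucc (0 : Fin (p + 1)).succ) =
          (Fin.cons (α := fun _ => α) b (Fin.cons (α := fun _ => α) a w : Fin (p + 1) → α) :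
            Fin (p + 1 + 1) → α) := by
        intro α a b w
        funext k
        simp only [comp_apply, Fin.castSucc_zero]
        refine Fin.cases ?_ (fun k => ?_) k
        · rw [Equiv.swap_apply_left]; rfl
        · refine Fin.cases ?_ (fun k => ?_) k
          · rw [Equiv.swap_apply_right]; rfl
          · rw [Equiv.swap_apply_of_ne_of_ne]
            · rfl
            · exact Fin.succ_ne_zero _
            · intro h
              exact Fin.succ_ne_zero _ (Fin.succ_injective _ h)
      have h1 : v = Fin.cons (α := fun _ => H F2 G) (v 0)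
          (Fin.cons (α := fun _ => H F2 G) (v 1) (Fin.tail (Fin.tail v)) : Fin (p + 1) → H F2 G) := by
        funext k
        refine Fin.cases rfl (fun k => ?_) k
        refine Fin.cases rfl (fun k => rfl) k
      rw [h1, e, cross_cons, cross_cons, cross_cons, cross_cons]
      have h2 : ∀ a b : H F2 G, X.x G (Pow G (p + 1)) a
          (H.map F2 (consHom G p) (X.x G (Pow G p) b (cross X G p (Fin.tail (Fin.tail v))))) =
          H.map F2 (SS.prodMap (SS.Hom.id G) (consHom G p))
            (X.x G (G.prod (Pow G p)) a (X.x G (Pow G p) b (cross X G p (Fin.tail (Fin.tail v))))) := by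
        intro a b
        rw [X.nat, Hmap_id]
      rw [h2, h2, ← X.lcomm G G (Pow G p), Hmap_comp, Hmap_comp, Hmap_comp, Hmap_comp]
      congr 1
      congr 1
      ext n y
      exact e _ y.2.1 y.1 y.2.2
    · have e : ∀ (α : Type) (a : α) (w : Fin (p + 1) → α),
          (Fin.cons (α := fun _ => α) a w : Fin (p + 1 + 1) → α) ∘
            (Equiv.swap j.succ.castSucc j.succ.succ) =
          (Fin.cons (α := fun _ => α) a (w ∘ Equiv.swap j.castSucc j.succ) : Fin (p + 1 + 1) → α) := by
        intro α a w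
        funext k
        simp only [comp_apply]
        refine Fin.cases ?_ (fun k => ?_) k
        · rw [Equiv.swap_apply_of_ne_of_ne]
          · rfl
          · intro h
            rw [← Fin.succ_castSucc] at h
            exact (Fin.succ_ne_zero _ h.symm)
          · intro h
            exact (Fin.succ_ne_zero _ h.symm)
        · have h : Equiv.swap j.succ.castSucc j.succ.succ k.succ =
              (Equiv.swap j.castSucc j.succ k).succ := by
            rw [← Fin.succ_castSucc]
            exact (Fin.succ_injective _).swap_apply j.castSucc j.succ k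
          rw [h, Fin.cons_succ, Fin.cons_succ]
          rfl
      have h1 : v = Fin.cons (α := fun _ => H F2 G) (v 0) (Fin.tail v) := (Fin.cons_self_tail v).symm
      rw [h1, e, cross_cons, cross_cons, ← ih j (Fin.tail v)]
      have h2 : X.x G (Pow G (p + 1)) (v 0)
          (H.map F2 (permHom G (p + 1) (Equiv.swap j.castSucc j.succ)) (cross X G (p + 1) (Fin.tail v))) =
          H.map F2 (SS.prodMap (SS.Hom.id G) (permHom G (p + 1) (Equiv.swap j.castSucc j.succ)))
            (X.x G (Pow G (p + 1)) (v 0) (cross X G (p + 1) (Fin.tail v))) := by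
        rw [X.nat, Hmap_id]
      rw [h2, Hmap_comp, Hmap_comp]
      congr 1
      congr 1
      ext n y
      exact e _ y.1 y.2

/-- permutation of the factors -/
theorem cross_perm {p : ℕ} (σ : Equiv.Perm (Fin p)) (v : Fin p → H F2 G) :
    H.map F2 (permHom G p σ) (cross X G p v) = cross X G p (v ∘ σ) := by
  rcases p with _ | p
  · obtain rfl : σ = 1 := Subsingleton.elim _ _
    exact Hmap_id _
  · have hσ : σ ∈ Submonoid.closure (Set.range fun i : Fin p => Equiv.swap i.castSucc i.succ) := by
      rw [Equiv.Perm.mclosure_swap_castSucc_succ]; trivial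
    induction hσ using Submonoid.closure_induction generalizing v with
    | mem σ h =>
      obtain ⟨i, rfl⟩ := h
      exact cross_adj X i v
    | one => exact Hmap_id _
    | mul s t _ _ hs ht =>
      have : permHom G (p + 1) (s * t) = SS.Hom.comp (permHom G (p + 1) t) (permHom G (p + 1) s) := rfl
      rw [this, ← Hmap_comp, hs, ht]
      rfl

/-! ## grading -/

theorem Nmap_gr {K L : SS} (f : SS.Hom K L) {n : ℕ} {c : N F2 K} (hc : c ∈ N.gr F2 K n) :
    N.map F2 f c ∈ N.gr F2 L n := by
  obtain ⟨c, hc, rfl⟩ := hc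
  refine ⟨Ch.map F2 f c, ?_, rfl⟩
  refine Submodule.span_induction (p := fun c _ => Ch.map F2 f c ∈ Ch.gr F2 L n) ?_ ?_ ?_ ?_ hc
  · rintro _ ⟨x, rfl⟩
    rw [Ch.map_single]
    exact Submodule.subset_span ⟨_, rfl⟩
  · rw [map_zero]; exact Submodule.zero_mem _
  · intro a b _ _ ha hb; rw [map_add]; exact Submodule.add_mem _ ha hb
  · intro r a _ ha; rw [map_smul]; exact Submodule.smul_mem _ _ ha

theorem Hmap_gr {K L : SS} (f : SS.Hom K L) {n : ℕ} {c : H F2 K} (hc : c ∈ H.gr F2 K n) :
    H.map F2 f c ∈ H.gr F2 L n := by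
  obtain ⟨⟨z, hz⟩, hc, rfl⟩ := hc
  obtain ⟨h1, e1⟩ := Hmap_mk f z hz
  refine ⟨⟨N.map F2 f z, h1⟩, Nmap_gr f hc, e1.symm⟩

theorem cross_gr {p : ℕ} (d : Fin p → ℕ) (v : Fin p → H F2 G) (hv : ∀ i, v i ∈ H.gr F2 G (d i)) :
    cross X G p v ∈ H.gr F2 (Pow G p) (∑ i, d i) := by
  induction p with
  | zero => exact Hmap_gr _ X.pt1_gr
  | succ p ih =>
    rw [cross_succ, Fin.sum_univ_succ]
    exact Hmap_gr _ (X.gr_mem _ _ _ _ _ _ (hv 0) (ih (fun i => d i.succ) (Fin.tail v) fun i => hv i.succ))

/-! ## the basis of `H(G^p)` -/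

/-- `H(G × G^p) ≃ H(G^(p+1))` -/
def consEquiv (G : SS) (p : ℕ) : H F2 (G.prod (Pow G p)) ≃ₗ[F2] H F2 (Pow G (p + 1)) :=
  LinearEquiv.ofLinearMap (H.map F2 (consHom G p)) (H.map F2 (unconsHom G p))
    (by
      refine LinearMap.ext fun x => ?_
      rw [LinearMap.comp_apply, Hmap_comp, cons_uncons, Hmap_id]; rfl)
    (by
      refine LinearMap.ext fun x => ?_
      rw [LinearMap.comp_apply, Hmap_comp, uncons_cons, Hmap_id]; rfl)

/-- `F2 ≃ H(G^0)` -/
def zeroEquiv (G : SS) : F2 ≃ₗ[F2] H F2 (Pow G 0) :=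
  LinearEquiv.ofLinearMap (LinearMap.toSpanSingleton F2 _ (H.map F2 (ptPow G) X.pt1))
    (X.eps ∘ₗ H.map F2 (SS.toPt _))
    (by
      refine LinearMap.ext fun x => ?_
      rw [LinearMap.comp_apply, LinearMap.toSpanSingleton_apply, ← map_smul, LinearMap.comp_apply,
        X.eps_smul, Hmap_comp]
      have : SS.Hom.comp (ptPow G) (SS.toPt (Pow G 0)) = SS.Hom.id _ := by
        ext n v
        exact funext fun i => i.elim0
      rw [this, Hmap_id]; rfl)
    (by
      refine LinearMap.ext_ring ?_
      rw [LinearMap.comp_apply, LinearMap.toSpanSingleton_apply, one_smul, LinearMap.comp_apply,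
        Hmap_comp]
      have : SS.Hom.comp (SS.toPt (Pow G 0)) (ptPow G) = SS.Hom.id _ := by
        ext n v
        rfl
      rw [this, Hmap_id, X.eps_pt1]; rfl)

/-- the basis of `H(G^p)` given by a basis of `H(G)` -/
def crossBasis {I : Type} (b : Module.Basis I F2 (H F2 G)) :
    ∀ p : ℕ, Module.Basis (Fin p → I) F2 (H F2 (Pow G p))
  | 0 => (Module.Basis.singleton (Fin 0 → I) F2).map (zeroEquiv X G)
  | p + 1 => (((b.tensorProduct (crossBasis b p)).map
      (LinearEquiv.ofBijective (TensorProduct.lift (X.x G (Pow G p))) (X.bij _ _))).map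
        (consEquiv G p)).reindex (Fin.consEquiv fun _ => I)

theorem crossBasis_apply {I : Type} (b : Module.Basis I F2 (H F2 G)) {p : ℕ} (s : Fin p → I) :
    crossBasis X b p s = cross X G p (fun i => b (s i)) := by
  induction p with
  | zero =>
    simp [crossBasis, cross_zero, zeroEquiv]
  | succ p ih =>
    rw [cross_succ]
    have := ih (Fin.tail s)
    simp only [crossBasis, Module.Basis.reindex_apply, Module.Basis.map_apply]
    simp [consEquiv, Fin.consEquiv, Module.Basis.tensorProduct_apply, this]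
    rfl

end Crest.Agent.R204.CrossP872
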