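import Crest.Agent.R204.CupX_718

/-!
# Row 204, leaf G4 (helper718): cross products of cochains and the strict
Cartan formulas for `∪` (any ring) and `∪₁` (mod 2) on Eilenberg-Zilber cross products.
-/

set_option autoImplicit false

namespace Crest.Agent.R204.Pont718

open EZ271 Finsupp

/-- induction principle for natural bilinear identities on cross products -/
theorem cross_induct (P : ∀ (K L : SS) (p q : ℕ), K.S p → L.S q → Prop)
    (nat : ∀ (K L : SS) (p q : ℕ) (x : K.S p) (y : L.S q),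
      P (SS.std p) (SS.std q) p q (OrderHom.id : Op p p) (OrderHom.id : Op q q) → P K L p q x y)
    (h00 : ∀ (K L : SS) (A : Cone K) (B : Cone L), P K L 0 0 A.bot B.bot)
    (h10 : ∀ (K L : SS) (A : Cone K) (B : Cone L) (p : ℕ) (x : K.S p),
      P K L p 0 x B.bot → P K L (p + 1) 0 (A.k x) B.bot)
    (h01 : ∀ (K L : SS) (A : Cone K) (B : Cone L) (q : ℕ) (y : L.S q),
      P K L 0 q A.bot y → P K L 0 (q + 1) A.bot (B.k y))
    (h11 : ∀ (K L : SS) (A : Cone K) (B : Cone L) (p q : ℕ) (x : K.S p) (y : L.S q),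
      P K L p (q + 1) x (B.k y) → P K L (p + 1) q (A.k x) y →
        P K L (p + 1) (q + 1) (A.k x) (B.k y)) :
    ∀ (n : ℕ) (p q : ℕ) (_ : p + q = n) (K L : SS) (x : K.S p) (y : L.S q), P K L p q x y := by
  have e0 : (OrderHom.id : Op 0 0) = (Cone.std 0).bot :=
    OrderHom.ext _ _ (funext fun a => Fin.ext (by omega))
  have e1 : ∀ p : ℕ, (OrderHom.id : Op (p + 1) (p + 1)) = (Cone.std (p + 1)).k (Op.face 0 : Op p (p + 1)) := by
    intro p
    refine OrderHom.ext _ _ (funext fun a => ?_)
    induction a using Fin.cases with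
    | zero => rfl
    | succ a => rfl
  intro n
  induction n with
  | zero =>
    intro p q h K L x y
    obtain rfl : p = 0 := by omega
    obtain rfl : q = 0 := by omega
    refine nat _ _ _ _ _ _ ?_
    rw [e0]
    exact h00 _ _ (Cone.std 0) (Cone.std 0)
  | succ n ih =>
    intro p q h K L x y
    refine nat _ _ _ _ _ _ ?_
    rcases p with _ | p <;> rcases q with _ | q
    · omega
    · rw [e0, e1]
      exact h01 _ _ (Cone.std 0) (Cone.std (q + 1)) q _ (ih 0 q (by omega) _ _ _ _)
    · rw [e0, e1]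
      exact h10 _ _ (Cone.std (p + 1)) (Cone.std 0) p _ (ih p 0 (by omega) _ _ _ _)
    · rw [e1, e1]
      exact h11 _ _ (Cone.std (p + 1)) (Cone.std (q + 1)) p q _ _
        (ih p (q + 1) (by omega) _ _ _ _) (ih (p + 1) q (by omega) _ _ _ _)

section

variable {R : Type} [CommRing R] {K L : SS}

theorem cross_natural {K' L' : SS} (f : SS.Hom K K') (g : SS.Hom L L') (X : N R K) (Y : N R L) :
    cross R (N.map R f X) (N.map R g Y) = N.map R (SS.prodMap f g) (cross R X Y) :=
  (map_cross R f g X Y).symm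

theorem isConeMap_fst (A : Cone K) (B : Cone L) : IsConeMap (A.prod B) A (SS.fst K L) where
  k _ := rfl

theorem isConeMap_snd (A : Cone K) (B : Cone L) : IsConeMap (A.prod B) B (SS.snd K L) where
  k _ := rfl

/-- projections of a cross product -/
theorem map_fst_cross_sx {p q : ℕ} (x : K.S p) (y : L.S q) :
    N.map R (SS.fst K L) (cross R (N.sx R x) (N.sx R y)) = aug R (N.sx R y) • N.sx R x := by
  refine cross_induct (fun K L p q x y => N.map R (SS.fst K L) (cross R (N.sx R x) (N.sx R y)) =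
    aug R (N.sx R y) • N.sx R x) ?_ ?_ ?_ ?_ ?_ (p + q) p q rfl K L x y
  · intro K L p q x y h
    have h2 := congrArg (N.map R (K.yo x)) h
    rw [map_map, map_smul, N.map_sx, yo_iota] at h2
    have e : (K.yo x).comp (SS.fst (SS.std p) (SS.std q)) =
        (SS.fst K L).comp (SS.prodMap (K.yo x) (L.yo y)) := rfl
    rw [e, ← map_map, map_cross, N.map_sx, N.map_sx, yo_iota, yo_iota] at h2
    rw [h2, ← aug_map R (L.yo y), N.map_sx, yo_iota]
  · intro K L A B
    rw [cross_bot, N.map_sx, aug_sx_zero, one_smul]; rfl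
  · intro K L A B p x h
    rw [← Cone.c_sx, cross_c_bot, (isConeMap_fst A B).c, h, map_smul]
  · intro K L A B q y h
    rw [← Cone.c_sx, cross_bot_c, (isConeMap_fst A B).c, h, map_smul, Cone.c_bot, smul_zero,
      Cone.aug_c, zero_smul]
  · intro K L A B p q x y h1 h2
    rw [← Cone.c_sx, ← Cone.c_sx] at *
    rw [cross_c_c, (isConeMap_fst A B).c, map_add, h1]
    have h3 : N.map R (SS.fst K L) (cross R (sg R (A.c R (N.sx R x))) (N.sx R y)) =
        ((-1 : R) ^ (p + 1)) • (aug R (N.sx R y) • A.c R (N.sx R x)) := by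
      rw [Cone.c_sx, sg_sx, map_smul, LinearMap.smul_apply, map_smul, ← Cone.c_sx, h2]
    rw [h3, Cone.aug_c, zero_smul, zero_smul, zero_add, map_smul, map_smul, Cone.c_c, smul_zero,
      smul_zero]

theorem map_snd_cross_sx {p q : ℕ} (x : K.S p) (y : L.S q) :
    N.map R (SS.snd K L) (cross R (N.sx R x) (N.sx R y)) = aug R (N.sx R x) • N.sx R y := by
  refine cross_induct (fun K L p q x y => N.map R (SS.snd K L) (cross R (N.sx R x) (N.sx R y)) =
    aug R (N.sx R x) • N.sx R y) ?_ ?_ ?_ ?_ ?_ (p + q) p q rfl K L x y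
  · intro K L p q x y h
    have h2 := congrArg (N.map R (L.yo y)) h
    rw [map_map, map_smul, N.map_sx, yo_iota] at h2
    have e : (L.yo y).comp (SS.snd (SS.std p) (SS.std q)) =
        (SS.snd K L).comp (SS.prodMap (K.yo x) (L.yo y)) := rfl
    rw [e, ← map_map, map_cross, N.map_sx, N.map_sx, yo_iota, yo_iota] at h2
    rw [h2, ← aug_map R (K.yo x), N.map_sx, yo_iota]
  · intro K L A B
    rw [cross_bot, N.map_sx, aug_sx_zero, one_smul]; rfl
  · intro K L A B p x h
    rw [← Cone.c_sx, cross_c_bot, (isConeMap_snd A B).c, h, map_smul, Cone.c_bot, smul_zero,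
      Cone.aug_c, zero_smul]
  · intro K L A B q y h
    rw [← Cone.c_sx, cross_bot_c, (isConeMap_snd A B).c, h, map_smul]
  · intro K L A B p q x y h1 h2
    rw [← Cone.c_sx, ← Cone.c_sx] at *
    rw [cross_c_c, (isConeMap_snd A B).c, map_add, h1]
    have h3 : N.map R (SS.snd K L) (cross R (sg R (A.c R (N.sx R x))) (N.sx R y)) = 0 := by
      rw [Cone.c_sx, sg_sx, map_smul, LinearMap.smul_apply, map_smul, ← Cone.c_sx, h2, Cone.aug_c,
        zero_smul, smul_zero]
    rw [h3, add_zero, map_smul, Cone.c_c, smul_zero, Cone.aug_c, zero_smul]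

theorem map_fst_cross (X : N R K) (Y : N R L) :
    N.map R (SS.fst K L) (cross R X Y) = aug R Y • X := by
  have : (cross R (K := K) (L := L)).compr₂ (N.map R (SS.fst K L)) =
      ((LinearMap.lsmul R (N R K)).flip.compl₂ (aug R)) := by
    refine bilin_ext R fun p x q y => ?_
    simp only [LinearMap.compr₂_apply, LinearMap.compl₂_apply, LinearMap.flip_apply,
      LinearMap.lsmul_apply]
    exact map_fst_cross_sx x y
  exact LinearMap.congr_fun₂ this X Y

theorem map_snd_cross (X : N R K) (Y : N R L) :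
    N.map R (SS.snd K L) (cross R X Y) = aug R X • Y := by
  have : (cross R (K := K) (L := L)).compr₂ (N.map R (SS.snd K L)) =
      ((LinearMap.lsmul R (N R L)).comp (aug R)) := by
    refine bilin_ext R fun p x q y => ?_
    simp only [LinearMap.compr₂_apply, LinearMap.comp_apply, LinearMap.lsmul_apply]
    exact map_snd_cross_sx x y
  exact LinearMap.congr_fun₂ this X Y

/-! ## cross products of cochains -/

/-- cross product of cochains -/
noncomputable def crs (a : Co R K) (b : Co R L) : Co R (K.prod L) :=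
  cup (a ∘ₗ N.map R (SS.fst K L)) (b ∘ₗ N.map R (SS.snd K L))

theorem crs_map {K' L' : SS} (f : SS.Hom K' K) (g : SS.Hom L' L) (a : Co R K) (b : Co R L) :
    crs a b ∘ₗ N.map R (SS.prodMap f g) = crs (a ∘ₗ N.map R f) (b ∘ₗ N.map R g) := by
  unfold crs
  rw [cup_map]
  congr 1
  · refine LinearMap.ext fun w => ?_
    simp only [LinearMap.comp_apply, map_map]; rfl
  · refine LinearMap.ext fun w => ?_
    simp only [LinearMap.comp_apply, map_map]; rfl

theorem aug_comp_map (f : SS.Hom K L) : (aug R (K := L)) ∘ₗ N.map R f = aug R :=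
  LinearMap.ext fun w => by rw [LinearMap.comp_apply, aug_map]

theorem crs_aug_left (b : Co R L) : crs (aug R (K := K)) b = b ∘ₗ N.map R (SS.snd K L) := by
  unfold crs
  rw [aug_comp_map, cup_aug_left]

theorem crs_aug_right (a : Co R K) : crs a (aug R (K := L)) = a ∘ₗ N.map R (SS.fst K L) := by
  unfold crs
  rw [aug_comp_map, cup_aug_right]

theorem crs_bd (a : Co R K) (b : Co R L) : crs a b ∘ₗ N.bd R (K.prod L) =
    crs (a ∘ₗ N.bd R K) b + crs (a ∘ₗ sg R) (b ∘ₗ N.bd R L) := by
  unfold crs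
  rw [cup_bd, comp_map_bd, comp_map_bd, comp_map_sg]

theorem crs_sg (a : Co R K) (b : Co R L) : crs a b ∘ₗ sg R = crs (a ∘ₗ sg R) (b ∘ₗ sg R) := by
  unfold crs
  rw [cup_sg, comp_map_sg, comp_map_sg]

theorem crs_add_left (a a' : Co R K) (b : Co R L) : crs (a + a') b = crs a b + crs a' b := by
  unfold crs
  rw [LinearMap.add_comp, cup_add_left]

theorem crs_add_right (a : Co R K) (b b' : Co R L) : crs a (b + b') = crs a b + crs a b' := by
  unfold crs
  rw [LinearMap.add_comp, cup_add_right]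

theorem crs_zero_left (b : Co R L) : crs (0 : Co R K) b = 0 := by
  unfold crs
  rw [LinearMap.zero_comp, cup_zero_left]

theorem crs_zero_right (a : Co R K) : crs a (0 : Co R L) = 0 := by
  unfold crs
  rw [LinearMap.zero_comp, cup_zero_right]

theorem crs_smul_left (r : R) (a : Co R K) (b : Co R L) : crs (r • a) b = r • crs a b := by
  unfold crs
  rw [LinearMap.smul_comp, cup_smul_left]

theorem hk_fst (A : Cone K) (B : Cone L) (a : Co R K) :
    hk (A.prod B) (a ∘ₗ N.map R (SS.fst K L)) = (hk A a) ∘ₗ N.map R (SS.fst K L) :=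
  LinearMap.ext fun w => by
    simp only [hk, LinearMap.comp_apply]
    rw [(isConeMap_fst A B).c]

theorem hk_snd (A : Cone K) (B : Cone L) (b : Co R L) :
    hk (A.prod B) (b ∘ₗ N.map R (SS.snd K L)) = (hk B b) ∘ₗ N.map R (SS.snd K L) :=
  LinearMap.ext fun w => by
    simp only [hk, LinearMap.comp_apply]
    rw [(isConeMap_snd A B).c]

theorem crs_bot (A : Cone K) (B : Cone L) (a : Co R K) (b : Co R L) :
    crs a b (N.sx R (A.prod B).bot) = a (N.sx R A.bot) * b (N.sx R B.bot) := by
  unfold crs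
  rw [cup_bot, LinearMap.comp_apply, LinearMap.comp_apply, N.map_sx, N.map_sx]
  rfl

theorem hk_crs (A : Cone K) (B : Cone L) (a : Co R K) (b : Co R L) :
    hk (A.prod B) (crs a b) = a (N.sx R A.bot) • crs (aug R) (hk B b) + crs (hk A a) b := by
  refine LinearMap.ext fun w => ?_
  change crs a b ((A.prod B).c R w) = _
  rw [crs_aug_left]
  unfold crs
  rw [cup_cone, hk_fst]
  simp only [LinearMap.add_apply, LinearMap.smul_apply, smul_eq_mul, LinearMap.comp_apply,
    N.map_sx]
  congr 2
  rw [(isConeMap_snd A B).c]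

/-- `AW ∘ EZ = id` -/
theorem crs_cross_sx {p q : ℕ} (x : K.S p) (y : L.S q) (a : Co R K) (b : Co R L) :
    crs a b (cross R (N.sx R x) (N.sx R y)) = a (N.sx R x) * b (N.sx R y) := by
  refine cross_induct (fun K L p q x y => ∀ (a : Co R K) (b : Co R L),
    crs a b (cross R (N.sx R x) (N.sx R y)) = a (N.sx R x) * b (N.sx R y))
    ?_ ?_ ?_ ?_ ?_ (p + q) p q rfl K L x y a b
  · intro K L p q x y h a b
    have h2 := h (a ∘ₗ N.map R (K.yo x)) (b ∘ₗ N.map R (L.yo y))
    rw [← crs_map] at h2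
    simp only [LinearMap.comp_apply, map_cross, N.map_sx, yo_iota] at h2
    exact h2
  · intro K L A B a b
    rw [cross_bot, crs_bot]
  · intro K L A B p x h a b
    have h2 := h (hk A a) b
    have h3 := h (aug R) (hk B b)
    rw [hk_bot, mul_zero] at h3
    rw [← Cone.c_sx, cross_c_bot]
    change hk (A.prod B) (crs a b) _ = _
    rw [hk_crs, LinearMap.add_apply, LinearMap.smul_apply, h3, h2, smul_zero, zero_add]; rfl
  · intro K L A B q y h a b
    have h2 := h (hk A a) b
    have h3 := h (aug R) (hk B b)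
    rw [hk_bot, zero_mul] at h2
    rw [← Cone.c_sx, cross_bot_c]
    change hk (A.prod B) (crs a b) _ = _
    rw [hk_crs, LinearMap.add_apply, LinearMap.smul_apply, h3, h2, add_zero, aug_sx_zero, one_mul]
    rfl
  · intro K L A B p q x y h1 h2 a b
    rw [← Cone.c_sx, ← Cone.c_sx] at *
    have e : ∀ f : Co R (K.prod L), f (cross R (sg R (A.c R (N.sx R x))) (N.sx R y)) =
        (-1 : R) ^ (p + 1) * f (cross R (A.c R (N.sx R x)) (N.sx R y)) := by
      intro f
      rw [Cone.c_sx, sg_sx, map_smul, LinearMap.smul_apply, map_smul, smul_eq_mul]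
    rw [cross_c_c]
    change hk (A.prod B) (crs a b) _ = _
    rw [hk_crs, LinearMap.add_apply, LinearMap.smul_apply, map_add, map_add, e, e, h1, h1, h2, h2,
      Cone.aug_c]
    simp only [hk, LinearMap.comp_apply, Cone.c_c, map_zero, smul_eq_mul]
    ring

theorem crs_cross (a : Co R K) (b : Co R L) (X : N R K) (Y : N R L) :
    crs a b (cross R X Y) = a X * b Y := by
  have : (cross R (K := K) (L := L)).compr₂ (crs a b) =
      ((LinearMap.mul R R).comp a).compl₂ b := by
    refine bilin_ext R fun p x q y => ?_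
    simp only [LinearMap.compr₂_apply, LinearMap.comp_apply, LinearMap.compl₂_apply,
      LinearMap.mul_apply']
    exact crs_cross_sx x y a b
  exact LinearMap.congr_fun₂ this X Y

theorem hk_parity (B : Cone L) {b : Co R L} {β : ℕ} (hb : b ∘ₗ sg R = (-1 : R) ^ β • b) :
    hk B b ∘ₗ sg R = (-1 : R) ^ (β + 1) • hk B b := by
  have h := hk_sg B b
  rw [hb] at h
  refine LinearMap.ext fun w => ?_
  have h2 := LinearMap.congr_fun h w
  simp only [hk, LinearMap.comp_apply, LinearMap.smul_apply, LinearMap.neg_apply, smul_eq_mul] at h2 ⊢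
  rw [pow_succ]
  linear_combination h2

theorem bot_parity {b : Co R L} {β : ℕ} (hb : b ∘ₗ sg R = (-1 : R) ^ β • b) (v : L.S 0) :
    (-1 : R) ^ β * b (N.sx R v) = b (N.sx R v) := by
  have h2 := LinearMap.congr_fun hb (N.sx R v)
  simp only [LinearMap.comp_apply, LinearMap.smul_apply, smul_eq_mul, sg_sx, pow_zero, one_smul] at h2
  exact h2.symm

theorem bot_parity' {b : Co R L} {β : ℕ} (hb : b ∘ₗ sg R = (-1 : R) ^ β • b) (v : L.S 0) (γ : ℕ) :
    (-1 : R) ^ (β * γ) * b (N.sx R v) = b (N.sx R v) := by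
  induction γ with
  | zero => simp
  | succ γ ih =>
    rw [mul_add, mul_one, pow_add, mul_assoc, bot_parity hb, ih]

/-- strict Cartan formula for `∪` -/
theorem cup_cross_sx {p q : ℕ} (x : K.S p) (y : L.S q) (a c : Co R K) (b d : Co R L) (β γ : ℕ)
    (hb : b ∘ₗ sg R = (-1 : R) ^ β • b) (hc : c ∘ₗ sg R = (-1 : R) ^ γ • c) :
    cup (crs a b) (crs c d) (cross R (N.sx R x) (N.sx R y)) =
      (-1 : R) ^ (β * γ) * (cup a c (N.sx R x) * cup b d (N.sx R y)) := by
  refine cross_induct (fun K L p q x y => ∀ (a c : Co R K) (b d : Co R L) (β γ : ℕ)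
    (_ : b ∘ₗ sg R = (-1 : R) ^ β • b) (_ : c ∘ₗ sg R = (-1 : R) ^ γ • c),
    cup (crs a b) (crs c d) (cross R (N.sx R x) (N.sx R y)) =
      (-1 : R) ^ (β * γ) * (cup a c (N.sx R x) * cup b d (N.sx R y)))
    ?_ ?_ ?_ ?_ ?_ (p + q) p q rfl K L x y a c b d β γ hb hc
  · intro K L p q x y h a c b d β γ hb hc
    have h2 := h (a ∘ₗ N.map R (K.yo x)) (c ∘ₗ N.map R (K.yo x)) (b ∘ₗ N.map R (L.yo y))
      (d ∘ₗ N.map R (L.yo y)) β γ (by rw [comp_map_sg, hb]; rfl) (by rw [comp_map_sg, hc]; rfl)
    rw [← crs_map, ← crs_map, ← cup_map, ← cup_map, ← cup_map] at h2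
    simp only [LinearMap.comp_apply, map_cross, N.map_sx, yo_iota] at h2
    exact h2
  · intro K L A B a c b d β γ hb hc
    rw [cross_bot, cup_bot, cup_bot, cup_bot, crs_bot, crs_bot]
    have := bot_parity' hb B.bot γ
    linear_combination (-(a (N.sx R A.bot) * c (N.sx R A.bot) * d (N.sx R B.bot))) * this
  · intro K L A B p x h a c b d β γ hb hc
    have h2 := h (hk A a) c b d β γ hb hc
    have h3 := h (aug R) c (hk B b) d (β + 1) γ (hk_parity B hb) hc
    rw [cup_bot] at h2 h3 ⊢
    rw [hk_bot] at h3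
    have h4 := crs_cross c d (A.c R (N.sx R x)) (N.sx R B.bot)
    rw [cross_c_bot] at h4
    rw [← Cone.c_sx, cross_c_bot, cup_cone, cup_cone, crs_bot, h4, hk_crs, cup_add_left, cup_smul_left,
      LinearMap.add_apply, LinearMap.smul_apply, h2, h3]
    have := bot_parity' hb B.bot γ
    simp only [smul_eq_mul]
    linear_combination (-(a (N.sx R A.bot) * c (A.c R (N.sx R x)) * d (N.sx R B.bot))) * this
  · intro K L A B q y h a c b d β γ hb hc
    have h2 := h (hk A a) c b d β γ hb hc
    have h3 := h (aug R) c (hk B b) d (β + 1) γ (hk_parity B hb) hc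
    rw [cup_bot] at h2 h3 ⊢
    rw [hk_bot] at h2
    rw [aug_sx_zero] at h3
    have h4 := crs_cross c d (N.sx R A.bot) (B.c R (N.sx R y))
    rw [cross_bot_c] at h4
    rw [← Cone.c_sx, cross_bot_c, cup_cone, cup_cone, crs_bot, h4, hk_crs, cup_add_left, cup_smul_left,
      LinearMap.add_apply, LinearMap.smul_apply, h2, h3]
    have t1 := bot_parity' hb B.bot γ
    have t2 := bot_parity hc A.bot
    simp only [smul_eq_mul]
    have t3 : (-1 : R) ^ ((β + 1) * γ) = (-1 : R) ^ (β * γ) * (-1) ^ γ := by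
      rw [← pow_add]; ring_nf
    rw [t3]
    linear_combination (-(a (N.sx R A.bot) * c (N.sx R A.bot) * d (B.c R (N.sx R y)))) * t1 +
      (a (N.sx R A.bot) * (-1 : R) ^ (β * γ) * cup (hk B b) d (N.sx R y)) * t2
  · intro K L A B p q x y h1 h2 a c b d β γ hb hc
    have hb' := hk_parity B hb
    have h1a := h1 (hk A a) c b d β γ hb hc
    have h1b := h1 (aug R) c (hk B b) d (β + 1) γ hb' hc
    have h2a := h2 (hk A a) c b d β γ hb hc
    have h2b := h2 (aug R) c (hk B b) d (β + 1) γ hb' hc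
    rw [← Cone.c_sx] at h1a h1b h2a h2b
    rw [← Cone.c_sx, ← Cone.c_sx]
    have e : ∀ f : Co R (K.prod L), f (cross R (sg R (A.c R (N.sx R x))) (N.sx R y)) =
        (-1 : R) ^ (p + 1) * f (cross R (A.c R (N.sx R x)) (N.sx R y)) := by
      intro f
      rw [Cone.c_sx, sg_sx, map_smul, LinearMap.smul_apply, map_smul, smul_eq_mul]
    have e2 : (-1 : R) ^ (p + 1) * c (A.c R (N.sx R x)) = (-1 : R) ^ γ * c (A.c R (N.sx R x)) := by
      have h := LinearMap.congr_fun hc (A.c R (N.sx R x))
      simp only [LinearMap.comp_apply, LinearMap.smul_apply, smul_eq_mul] at h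
      rw [← h, Cone.c_sx, sg_sx, map_smul, smul_eq_mul]
    have h4 := crs_cross c d (A.c R (N.sx R x)) (B.c R (N.sx R y))
    rw [cross_c_c] at h4 ⊢
    rw [cup_cone, crs_bot, h4, hk_crs, cup_add_left, cup_smul_left, LinearMap.add_apply,
      LinearMap.smul_apply, map_add, map_add, e, e, h1a, h1b, h2a, h2b]
    simp only [cup_cone, cup_aug_left, hk_hk, hk_bot, cup_zero_left, LinearMap.zero_apply, zero_mul,
      zero_add, add_zero, mul_zero, smul_eq_mul]
    have t1 := bot_parity' hb B.bot γ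
    have t3 : (-1 : R) ^ ((β + 1) * γ) = (-1 : R) ^ (β * γ) * (-1) ^ γ := by
      rw [← pow_add]; ring_nf
    have t4 : (-1 : R) ^ γ * (-1 : R) ^ γ = 1 := by
      rw [← mul_pow]; simp
    rw [t3]
    linear_combination (-(a (N.sx R A.bot) * c (A.c R (N.sx R x)) * d (B.c R (N.sx R y)))) * t1 +
      (a (N.sx R A.bot) * (-1 : R) ^ (β * γ) * (-1) ^ γ * cup (hk B b) d (N.sx R y)) * e2 +
      (a (N.sx R A.bot) * (-1 : R) ^ (β * γ) * c (A.c R (N.sx R x)) * cup (hk B b) d (N.sx R y)) * t4

/-- strict Cartan formula for `∪` on arbitrary chains -/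
theorem cup_cross (X : N R K) (Y : N R L) (a c : Co R K) (b d : Co R L) (β γ : ℕ)
    (hb : b ∘ₗ sg R = (-1 : R) ^ β • b) (hc : c ∘ₗ sg R = (-1 : R) ^ γ • c) :
    cup (crs a b) (crs c d) (cross R X Y) = (-1 : R) ^ (β * γ) * (cup a c X * cup b d Y) := by
  have : (cross R (K := K) (L := L)).compr₂ (cup (crs a b) (crs c d)) =
      (-1 : R) ^ (β * γ) • (((LinearMap.mul R R).comp (cup a c)).compl₂ (cup b d)) := by
    refine bilin_ext R fun p x q y => ?_
    simp only [LinearMap.compr₂_apply, LinearMap.comp_apply, LinearMap.compl₂_apply,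
      LinearMap.mul_apply', LinearMap.smul_apply, smul_eq_mul]
    exact cup_cross_sx x y a c b d β γ hb hc
  exact LinearMap.congr_fun₂ this X Y

end

section mod2

variable {K L : SS}

theorem cup_cross2 (X : N F2 K) (Y : N F2 L) (a c : Co F2 K) (b d : Co F2 L) :
    cup (crs a b) (crs c d) (cross F2 X Y) = cup a c X * cup b d Y := by
  have := cup_cross X Y a c b d 0 0 (by rw [f2_comp_sg]; simp) (by rw [f2_comp_sg]; simp)
  simpa using this

/-- strict Cartan formula for `∪₁` -/
theorem cup1_cross_sx {p q : ℕ} (x : K.S p) (y : L.S q) (a c : Co F2 K) (b d : Co F2 L) :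
    cup1 (crs a b) (crs c d) (cross F2 (N.sx F2 x) (N.sx F2 y)) =
      cup a c (N.sx F2 x) * cup1 b d (N.sx F2 y) + cup1 a c (N.sx F2 x) * cup d b (N.sx F2 y) := by
  refine cross_induct (fun K L p q x y => ∀ (a c : Co F2 K) (b d : Co F2 L),
    cup1 (crs a b) (crs c d) (cross F2 (N.sx F2 x) (N.sx F2 y)) =
      cup a c (N.sx F2 x) * cup1 b d (N.sx F2 y) + cup1 a c (N.sx F2 x) * cup d b (N.sx F2 y))
    ?_ ?_ ?_ ?_ ?_ (p + q) p q rfl K L x y a c b d
  · intro K L p q x y h a c b d
    have h2 := h (a ∘ₗ N.map F2 (K.yo x)) (c ∘ₗ N.map F2 (K.yo x)) (b ∘ₗ N.map F2 (L.yo y))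
      (d ∘ₗ N.map F2 (L.yo y))
    rw [← crs_map, ← crs_map, ← cup_map, ← cup_map, ← cup1_map, ← cup1_map, ← cup1_map] at h2
    simp only [LinearMap.comp_apply, map_cross, N.map_sx, yo_iota] at h2
    exact h2
  · intro K L A B a c b d
    rw [cross_bot, cup1_bot, cup1_bot, cup1_bot]; ring
  · intro K L A B p x h a c b d
    have h2 := h (hk A a) c b d
    have h3 := h (aug F2) c (hk B b) d
    rw [← Cone.c_sx, cross_c_bot, cup1_cone, hk_crs, hk_crs, cup1_add_left, cup1_smul_left]
    simp only [cup_add_left, cup_add_right, cup_smul_left, cup_smul_right, LinearMap.add_apply,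
      LinearMap.smul_apply, smul_eq_mul, h2, h3, cup_cross2, cup1_bot, cup_bot, hk_bot, cup1_cone,
      cup_cone, cup_aug_left, cup1_aug_left, LinearMap.zero_apply]
    ring
  · intro K L A B q y h a c b d
    have h2 := h (hk A a) c b d
    have h3 := h (aug F2) c (hk B b) d
    rw [← Cone.c_sx, cross_bot_c, cup1_cone, hk_crs, hk_crs, cup1_add_left, cup1_smul_left]
    simp only [cup_add_left, cup_add_right, cup_smul_left, cup_smul_right, LinearMap.add_apply,
      LinearMap.smul_apply, smul_eq_mul, h2, h3, cup_cross2, cup1_bot, cup_bot, hk_bot, cup1_cone,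
      cup_cone, cup_aug_left, cup_aug_right, cup1_aug_left, LinearMap.zero_apply, aug_sx_zero]
    ring
  · intro K L A B p q x y h1 h2 a c b d
    have h1a := h1 (hk A a) c b d
    have h1b := h1 (aug F2) c (hk B b) d
    have h2a := h2 (hk A a) c b d
    have h2b := h2 (aug F2) c (hk B b) d
    rw [← Cone.c_sx] at h1a h1b h2a h2b
    rw [← Cone.c_sx, ← Cone.c_sx]
    rw [cross_c_c, f2_sg, cup1_cone, hk_crs, hk_crs, cup1_add_left, cup1_smul_left]
    simp only [cup_add_left, cup_add_right, cup_smul_left, cup_smul_right, LinearMap.add_apply,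
      LinearMap.smul_apply, smul_eq_mul, map_add, h1a, h1b, h2a, h2b, cup_cross2, hk_bot, hk_hk,
      cup1_cone, cup_cone, cup_aug_left, cup_aug_right, cup1_aug_left, LinearMap.zero_apply,
      cup_zero_left, cup1_zero_left, cup_zero_right]
    have z1 : hk B b (B.c F2 (N.sx F2 y)) = 0 := by
      simp only [hk, LinearMap.comp_apply, Cone.c_c, map_zero]
    have z2 : hk A c (A.c F2 (N.sx F2 x)) = 0 := by
      simp only [hk, LinearMap.comp_apply, Cone.c_c, map_zero]
    have z3 : hk A a (A.c F2 (N.sx F2 x)) = 0 := by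
      simp only [hk, LinearMap.comp_apply, Cone.c_c, map_zero]
    have z4 : hk A c (N.sx F2 x) = c (A.c F2 (N.sx F2 x)) := rfl
    rw [z1, z2, z3, z4, Cone.aug_c]
    ring

theorem cup1_cross (X : N F2 K) (Y : N F2 L) (a c : Co F2 K) (b d : Co F2 L) :
    cup1 (crs a b) (crs c d) (cross F2 X Y) =
      cup a c X * cup1 b d Y + cup1 a c X * cup d b Y := by
  have : (cross F2 (K := K) (L := L)).compr₂ (cup1 (crs a b) (crs c d)) =
      (((LinearMap.mul F2 F2).comp (cup a c)).compl₂ (cup1 b d)) +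
      (((LinearMap.mul F2 F2).comp (cup1 a c)).compl₂ (cup d b)) := by
    refine bilin_ext F2 fun p x q y => ?_
    simp only [LinearMap.compr₂_apply, LinearMap.comp_apply, LinearMap.compl₂_apply,
      LinearMap.mul_apply', LinearMap.add_apply]
    exact cup1_cross_sx x y a c b d
  exact LinearMap.congr_fun₂ this X Y

end mod2

end Crest.Agent.R204.Pont718
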