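/-
Row 204, block H: Freudenthal surjectivity (helper661).
Elementary proof: Lipschitz approximation, Hausdorff dimension, vertical push.
-/
import Mathlib

set_option autoImplicit false

open Set Metric Module
open scoped unitInterval NNReal

namespace Crest.Agent.R204.Freud661

/-! ### Lipschitz approximation -/

section approx

variable {K : Type*} [MetricSpace K] [CompactSpace K]

/-- the subalgebra of Lipschitz functions on a compact metric space -/
def lipAlg (K : Type*) [MetricSpace K] [CompactSpace K] : Subalgebra ℝ C(K, ℝ) where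
  carrier := {f | ∃ L : ℝ≥0, LipschitzWith L f}
  mul_mem' := by
    rintro f g ⟨Lf, hf⟩ ⟨Lg, hg⟩
    refine ⟨‖f‖₊ * Lg + ‖g‖₊ * Lf, LipschitzWith.of_dist_le_mul fun x y => ?_⟩
    have h1 : |f x| ≤ ‖f‖ := by simpa using f.norm_coe_le_norm x
    have h2 : |g y| ≤ ‖g‖ := by simpa using g.norm_coe_le_norm y
    have h3 := hf.dist_le_mul x y
    have h4 := hg.dist_le_mul x y
    rw [Real.dist_eq] at h3 h4 ⊢
    have : (f * g) x - (f * g) y = f x * (g x - g y) + g y * (f x - f y) := by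
      simp only [ContinuousMap.mul_apply]; ring
    rw [this]
    calc |f x * (g x - g y) + g y * (f x - f y)|
        ≤ |f x| * |g x - g y| + |g y| * |f x - f y| := by
          refine (abs_add_le _ _).trans ?_
          rw [abs_mul, abs_mul]
      _ ≤ ‖f‖ * (Lg * dist x y) + ‖g‖ * (Lf * dist x y) := by
          gcongr
      _ = _ := by push_cast; ring
  add_mem' := by
    rintro f g ⟨Lf, hf⟩ ⟨Lg, hg⟩
    exact ⟨Lf + Lg, hf.add hg⟩
  algebraMap_mem' := by
    intro r
    exact ⟨0, LipschitzWith.of_dist_le_mul fun x y => by simp [Algebra.algebraMap_eq_smul_one]⟩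

lemma lipAlg_sep : (lipAlg K).SeparatesPoints := by
  intro x y hxy
  refine ⟨fun z => dist z x, ⟨⟨fun z => dist z x, by fun_prop⟩, ?_, rfl⟩, ?_⟩
  · exact ⟨1, by simpa using LipschitzWith.dist_left x⟩
  · simp only [dist_self]
    exact fun h => hxy (dist_eq_zero.1 h.symm).symm

lemma lip_approx (f : C(K, ℝ)) (ε : ℝ) (hε : 0 < ε) :
    ∃ g : K → ℝ, (∃ L : ℝ≥0, LipschitzWith L g) ∧ ∀ x, |g x - f x| < ε := by
  obtain ⟨g, hg⟩ := ContinuousMap.exists_mem_subalgebra_near_continuous_of_separatesPoints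
    (lipAlg K) lipAlg_sep f f.continuous ε hε
  obtain ⟨L, hL⟩ := g.2
  exact ⟨g.1, ⟨L, hL⟩, fun x => by simpa using hg x⟩

/-- Lipschitz approximation relative to the zero set. -/
lemma lip_approx_rel (f : C(K, ℝ)) (ε : ℝ) (hε : 0 < ε) :
    ∃ g : K → ℝ, (∃ L : ℝ≥0, LipschitzWith L g) ∧ (∀ x, |g x - f x| < ε) ∧
      ∀ x, f x = 0 → g x = 0 := by
  obtain ⟨g, ⟨L, hL⟩, hg⟩ := lip_approx f (ε / 2) (by linarith)
  refine ⟨fun x => g x - max (-(ε / 2)) (min (ε / 2) (g x)), ⟨L + L, ?_⟩, ?_, ?_⟩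
  · exact hL.sub ((hL.const_min _).const_max _)
  · intro x
    have h1 := abs_lt.1 (hg x)
    have h2 : -(ε / 2) ≤ max (-(ε / 2)) (min (ε / 2) (g x)) := le_max_left _ _
    have h3 : max (-(ε / 2)) (min (ε / 2) (g x)) ≤ ε / 2 :=
      max_le (by linarith) (min_le_left _ _)
    show |g x - max (-(ε / 2)) (min (ε / 2) (g x)) - f x| < ε
    rw [abs_lt]
    constructor <;> linarith
  · intro x hx
    have h1 := abs_lt.1 (hg x)
    rw [hx] at h1
    show g x - max (-(ε / 2)) (min (ε / 2) (g x)) = 0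
    rw [min_eq_right (by linarith), max_eq_right (by linarith)]
    ring

end approx

/-- constructor for relative homotopies -/
lemma mkRel {X Y : Type*} [TopologicalSpace X] [TopologicalSpace Y] (f g : C(X, Y)) (S : Set X)
    (H : I × X → Y) (hc : Continuous H) (h0 : ∀ x, H (0, x) = f x) (h1 : ∀ x, H (1, x) = g x)
    (hS : ∀ s, ∀ x ∈ S, H (s, x) = f x) : f.HomotopicRel g S :=
  ⟨{ toFun := H, continuous_toFun := hc, map_zero_left := h0, map_one_left := h1,
     prop' := fun s x hx => hS s x hx }⟩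

/-! ### clamping -/

/-- clamp to the unit interval -/
noncomputable def pI (s : ℝ) : I := projIcc 0 1 zero_le_one s

@[fun_prop]
lemma continuous_pI : Continuous pI := continuous_projIcc (h := zero_le_one)

lemma pI_coe (s : I) : pI (s : ℝ) = s := projIcc_val _ s

lemma lip_pI : LipschitzWith 1 pI := LipschitzWith.projIcc zero_le_one

lemma pI_of_nonpos {s : ℝ} (h : s ≤ 0) : pI s = 0 := projIcc_of_le_left _ h

lemma pI_of_one_le {s : ℝ} (h : 1 ≤ s) : pI s = 1 := projIcc_of_right_le _ h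

lemma coe_pI {s : ℝ} (h0 : 0 ≤ s) (h1 : s ≤ 1) : (pI s : ℝ) = s :=
  congrArg Subtype.val (pI_coe ⟨s, h0, h1⟩)

/-! ### cube spheres -/

/-- A model `S` of the `n`-sphere as the cube with its boundary collapsed. -/
structure CubeSphere (n : ℕ) (S : Type*) [TopologicalSpace S] where
  /-- the collapse map -/
  p : C(Fin n → I, S)
  /-- the base point -/
  pt : S
  surj : Function.Surjective p
  bdry : ∀ x ∈ Cube.boundary (Fin n), p x = pt
  inj : ∀ x y, p x = p y → x = y ∨ (x ∈ Cube.boundary (Fin n) ∧ y ∈ Cube.boundary (Fin n))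

namespace CubeSphere

variable {n : ℕ} {S : Type*} [TopologicalSpace S] [T2Space S] (P : CubeSphere n S)

include P in
omit [T2Space S] in
lemma compactSpace : CompactSpace S := by
  have := isCompact_range P.p.continuous
  rw [P.surj.range_eq] at this
  exact isCompact_univ_iff.1 this

lemma quot {Z : Type*} [TopologicalSpace Z] :
    Topology.IsQuotientMap (Prod.map P.p (id : Z → Z)) := by
  have h1 : IsProperMap P.p := P.p.continuous.isProperMap
  have h2 : IsProperMap (Prod.map P.p (id : Z → Z)) := h1.prodMap isProperMap_id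
  exact h2.isClosedMap.isQuotientMap h2.continuous (P.surj.prodMap Function.surjective_id)

/-- maps out of `S × Z` -/
lemma lift_exists {Z Y : Type*} [TopologicalSpace Z] [TopologicalSpace Y]
    (Φ : (Fin n → I) × Z → Y) (hΦ : Continuous Φ)
    (h : ∀ x x' z, x ∈ Cube.boundary (Fin n) → x' ∈ Cube.boundary (Fin n) → Φ (x, z) = Φ (x', z)) :
    ∃ Ψ : C(S × Z, Y), ∀ x z, Ψ (P.p x, z) = Φ (x, z) := by
  choose s hs using P.surj
  let Ψ : S × Z → Y := fun q => Φ (s q.1, q.2)
  have key : ∀ x z, Ψ (P.p x, z) = Φ (x, z) := by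
    intro x z
    rcases P.inj _ _ (hs (P.p x)) with h1 | ⟨h1, h2⟩
    · simp only [Ψ, h1]
    · exact h _ _ _ h1 h2
  refine ⟨⟨Ψ, ?_⟩, key⟩
  rw [P.quot.continuous_iff]
  have : Ψ ∘ Prod.map P.p (id : Z → Z) = Φ := by
    funext ⟨x, z⟩
    exact key x z
  rw [this]
  exact hΦ

lemma lift_exists' {Y : Type*} [TopologicalSpace Y]
    (Φ : (Fin n → I) → Y) (hΦ : Continuous Φ)
    (h : ∀ x x', x ∈ Cube.boundary (Fin n) → x' ∈ Cube.boundary (Fin n) → Φ x = Φ x') :
    ∃ Ψ : C(S, Y), ∀ x, Ψ (P.p x) = Φ x := by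
  obtain ⟨Ψ, hΨ⟩ := P.lift_exists (Z := Unit) (fun q => Φ q.1) (by fun_prop)
    (fun x x' _ hx hx' => h x x' hx hx')
  exact ⟨⟨fun z => Ψ (z, ()), by fun_prop⟩, fun x => hΨ x ()⟩

omit [T2Space S] in
lemma eq_of_p_eq {x y : Fin n → I} (h : P.p x = P.p y) (hy : y ∉ Cube.boundary (Fin n)) :
    x = y := by
  rcases P.inj _ _ h with h | ⟨_, h⟩
  · exact h
  · exact absurd h hy

omit [T2Space S] in
lemma mem_bdry_of_p_eq (hn : 0 < n) {x : Fin n → I} (h : P.p x = P.pt) :
    x ∈ Cube.boundary (Fin n) := by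
  have h0 : (fun _ => 0 : Fin n → I) ∈ Cube.boundary (Fin n) := ⟨⟨0, hn⟩, Or.inl rfl⟩
  rw [← P.bdry _ h0] at h
  rcases P.inj _ _ h with h | ⟨h, _⟩
  · rw [h]; exact h0
  · exact h

end CubeSphere

/-! ### vertical push -/

section push

variable {X : Type*} [MetricSpace X] [CompactSpace X]

/-- the relative boundary of `X × I` -/
def bd {X : Type*} (C : Set X) : Set (X × I) := {p | p.1 ∈ C ∨ p.2 = 0 ∨ p.2 = 1}

lemma push {S : Type*} [TopologicalSpace S] [T2Space S] (F : C(X × I, S)) (x0 a b : S)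
    (ha : a ≠ x0) (hb : b ≠ x0)
    (hab : ∀ x s t, F (x, s) = a → F (x, t) = b → False) (C : Set X)
    (hF : ∀ p ∈ bd C, F p = x0) :
    ∃ F2 : C(X × I, S), F.HomotopicRel F2 (bd C) ∧
      (∀ x (t : I), (t : ℝ) ≤ 1 / 2 → F2 (x, t) ≠ a) ∧
      (∀ x (t : I), 1 / 2 ≤ (t : ℝ) → F2 (x, t) ≠ b) ∧ (∀ p ∈ bd C, F2 p = x0) := by
  have hF0 : ∀ x, F (x, 0) = x0 := fun x => hF _ (Or.inr (Or.inl rfl))
  have hF1 : ∀ x, F (x, 1) = x0 := fun x => hF _ (Or.inr (Or.inr rfl))
  have hFC : ∀ x ∈ C, ∀ t, F (x, t) = x0 := fun x hx t => hF _ (Or.inl hx)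
  let A : Set X := Prod.fst '' (F ⁻¹' {a})
  let B : Set X := Prod.fst '' (F ⁻¹' {b})
  have hA : IsClosed A := (((isClosed_singleton.preimage F.continuous).isCompact).image
    continuous_fst).isClosed
  have hB : IsClosed B := (((isClosed_singleton.preimage F.continuous).isCompact).image
    continuous_fst).isClosed
  have hAB : Disjoint B A := by
    rw [Set.disjoint_left]
    rintro x ⟨⟨x', t⟩, ht, rfl⟩ ⟨⟨x'', s⟩, hs, h⟩
    simp only at h
    subst h
    exact hab _ _ _ hs ht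
  obtain ⟨lam, hl0, hl1, hlI⟩ := exists_continuous_zero_one_of_isClosed hB hA hAB
  let F2 : C(X × I, S) := ⟨fun p => F (p.1, pI (2 * (p.2 : ℝ) - lam p.1)), by fun_prop⟩
  refine ⟨F2, ?_, ?_, ?_, ?_⟩
  · refine mkRel _ _ _ (fun q => F (q.2.1, pI ((1 - (q.1 : ℝ)) * (q.2.2 : ℝ) +
      (q.1 : ℝ) * (2 * (q.2.2 : ℝ) - lam q.2.1)))) (by fun_prop) ?_ ?_ ?_
    · rintro ⟨x, t⟩
      simp [pI_coe]
    · rintro ⟨x, t⟩
      simp [F2]
    · rintro s ⟨x, t⟩ hx
      rcases hx with hx | hx | hx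
      · simp only at hx
        simp only [hFC x hx]
      · simp only at hx
        subst hx
        have h1 := (hlI x).1
        have h2 := s.2.1
        have : pI ((1 - (s : ℝ)) * ((0 : I) : ℝ) + (s : ℝ) * (2 * ((0 : I) : ℝ) - lam x)) = 0 := by
          apply pI_of_nonpos
          simp only [Icc.coe_zero]
          nlinarith
        simp only [this]
      · simp only at hx
        subst hx
        have h1 := (hlI x).2
        have h2 := s.2.1
        have : pI ((1 - (s : ℝ)) * ((1 : I) : ℝ) + (s : ℝ) * (2 * ((1 : I) : ℝ) - lam x)) = 1 := by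
          apply pI_of_one_le
          simp only [Icc.coe_one]
          nlinarith
        simp only [this]
  · intro x t ht h
    have h' : F (x, pI (2 * (t : ℝ) - lam x)) = a := h
    have hx : x ∈ A := ⟨(x, _), h', rfl⟩
    have h1 : lam x = 1 := hl1 hx
    rw [h1, pI_of_nonpos (by linarith), hF0] at h'
    exact ha h'.symm
  · intro x t ht h
    have h' : F (x, pI (2 * (t : ℝ) - lam x)) = b := h
    have hx : x ∈ B := ⟨(x, _), h', rfl⟩
    have h1 : lam x = 0 := hl0 hx
    rw [h1, pI_of_one_le (by linarith), hF1] at h'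
    exact hb h'.symm
  · rintro ⟨x, t⟩ hx
    show F (x, pI (2 * (t : ℝ) - lam x)) = x0
    rcases hx with hx | hx | hx
    · exact hFC x hx _
    · simp only at hx
      subst hx
      have h1 := (hlI x).1
      rw [pI_of_nonpos (by simp; linarith), hF0]
    · simp only at hx
      subst hx
      have h1 := (hlI x).2
      rw [pI_of_one_le (by simp; linarith), hF1]

end push

/-! ### centred coordinates -/

section coords

variable {n : ℕ}

/-- centred coordinates -/
noncomputable def ctr (x : Fin n → I) : Fin n → ℝ := fun i => (x i : ℝ) - 1 / 2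

@[fun_prop]
lemma continuous_ctr : Continuous (ctr : (Fin n → I) → _) := by unfold ctr; fun_prop

/-- clamped dilation of centred coordinates -/
noncomputable def cl (κ : ℝ) (v : Fin n → ℝ) : Fin n → I := fun i => pI (1 / 2 + κ * v i)

lemma continuous_cl : Continuous (fun q : ℝ × (Fin n → ℝ) => cl q.1 q.2) := by
  unfold cl; fun_prop

lemma cl_one (x : Fin n → I) : cl 1 (ctr x) = x := by
  funext i
  simp [cl, ctr, pI_coe]

lemma norm_ctr_le (x : Fin n → I) : ‖ctr x‖ ≤ 1 / 2 := by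
  rw [pi_norm_le_iff_of_nonneg (by norm_num)]
  intro i
  rw [Real.norm_eq_abs, abs_le]
  have h0 := (x i).2.1
  have h1 := (x i).2.2
  simp only [ctr]
  constructor <;> linarith

lemma norm_ctr_bdry {x : Fin n → I} (hx : x ∈ Cube.boundary (Fin n)) : ‖ctr x‖ = 1 / 2 := by
  refine le_antisymm (norm_ctr_le x) ?_
  obtain ⟨i, hi⟩ := hx
  refine le_trans ?_ (norm_le_pi_norm (ctr x) i)
  rcases hi with hi | hi <;> simp only [ctr, hi, Real.norm_eq_abs] <;> norm_num

lemma cl_mem_bdry {κ : ℝ} {v : Fin n → ℝ} (hκ : 0 ≤ κ) (h : 1 / 2 ≤ κ * ‖v‖) :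
    cl κ v ∈ Cube.boundary (Fin n) := by
  by_contra hc
  have hlt : ∀ i, ‖κ * v i‖ < 1 / 2 := by
    intro i
    by_contra hi
    rw [not_lt, Real.norm_eq_abs] at hi
    apply hc
    refine ⟨i, ?_⟩
    rcases le_abs.1 hi with hi | hi
    · right
      exact pI_of_one_le (by linarith)
    · left
      exact pI_of_nonpos (by linarith)
  have h2 : ‖κ • v‖ < 1 / 2 := by
    rw [pi_norm_lt_iff (by norm_num)]
    intro i
    simpa using hlt i
  rw [norm_smul, Real.norm_of_nonneg hκ] at h2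
  linarith

end coords

namespace CubeSphere

variable {n : ℕ} {S : Type*} [TopologicalSpace S] [T2Space S] (P : CubeSphere n S)

/-- the radius function and the cut-off coordinate function on `S`. -/
lemma exists_W : ∃ W : C(S, ℝ), ∀ x, W (P.p x) = ‖ctr x‖ :=
  P.lift_exists' (fun x => ‖ctr x‖) (by fun_prop) fun x x' hx hx' => by
    rw [norm_ctr_bdry hx, norm_ctr_bdry hx']

/-- the radius function -/
noncomputable def W : C(S, ℝ) := P.exists_W.choose

lemma W_p (x : Fin n → I) : P.W (P.p x) = ‖ctr x‖ := P.exists_W.choose_spec x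

lemma exists_xi : ∃ ξ : C(S, Fin n → ℝ), ∀ x, ξ (P.p x) = (pI (4 - 8 * ‖ctr x‖) : ℝ) • ctr x :=
  P.lift_exists' (fun x => (pI (4 - 8 * ‖ctr x‖) : ℝ) • ctr x) (by fun_prop) fun x x' hx hx' => by
    rw [norm_ctr_bdry hx, norm_ctr_bdry hx', pI_of_nonpos (by norm_num)]
    simp

/-- the cut-off coordinates -/
noncomputable def xi : C(S, Fin n → ℝ) := P.exists_xi.choose

lemma xi_p (x : Fin n → I) : P.xi (P.p x) = (pI (4 - 8 * ‖ctr x‖) : ℝ) • ctr x :=
  P.exists_xi.choose_spec x

lemma xi_p_of_le {x : Fin n → I} (h : ‖ctr x‖ ≤ 3 / 8) : P.xi (P.p x) = ctr x := by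
  rw [xi_p, pI_of_one_le (by linarith)]
  simp

lemma norm_xi_le (z : S) : ‖P.xi z‖ ≤ 1 / 2 := by
  obtain ⟨x, rfl⟩ := P.surj z
  rw [xi_p, norm_smul, Real.norm_of_nonneg (pI _).2.1]
  calc _ ≤ 1 * (1 / 2 : ℝ) := by
        gcongr
        · exact (pI _).2.2
        · exact norm_ctr_le x
    _ = _ := by norm_num

lemma exists_stretch : ∃ Ψ : C(S × I, S), ∀ x s, Ψ (P.p x, s) = P.p (cl (1 + s) (ctr x)) :=
  P.lift_exists (fun q : (Fin n → I) × I => P.p (cl (1 + q.2) (ctr q.1)))
    (P.p.continuous.comp (continuous_cl.comp (f := fun q : (Fin n → I) × I =>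
      ((1 : ℝ) + q.2, ctr q.1)) (by fun_prop)))
    fun x x' s hx hx' => by
      have h1 : (0 : ℝ) ≤ s := s.2.1
      have h : ∀ y ∈ Cube.boundary (Fin n), cl (1 + (s : ℝ)) (ctr y) ∈ Cube.boundary (Fin n) := by
        intro y hy
        apply cl_mem_bdry (by linarith)
        rw [norm_ctr_bdry hy]
        linarith
      simp only
      rw [P.bdry _ (h x hx), P.bdry _ (h x' hx')]

/-- Replace a map by one given by nearby coordinates. -/
lemma approx_step (hn : 0 < n) {K : Type*} [TopologicalSpace K] (F : C(K, S))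
    (G : C(K, Fin n → ℝ)) (hG : ∀ z, ‖G z - P.xi (F z)‖ ≤ 1 / 16) :
    ∃ F1 : C(K, S), F.HomotopicRel F1 {z | F z = P.pt} ∧
      ∀ z x, F1 z = P.p x → x ∉ Cube.boundary (Fin n) → cl 2 (G z) = x := by
  obtain ⟨Ψ, hΨ⟩ := P.exists_stretch
  have hptW : P.W P.pt = 1 / 2 := by
    have h0 : (fun _ => 0 : Fin n → I) ∈ Cube.boundary (Fin n) := ⟨⟨0, hn⟩, Or.inl rfl⟩
    rw [← P.bdry _ h0, W_p, norm_ctr_bdry h0]
  -- the second homotopy
  have hHc : Continuous fun q : I × K => if P.W (F q.2) ≤ 3 / 8 then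
      P.p (cl 2 ((1 - (q.1 : ℝ)) • P.xi (F q.2) + (q.1 : ℝ) • G q.2)) else P.pt := by
    refine Continuous.if_le ?_ continuous_const (by fun_prop) continuous_const ?_
    · exact P.p.continuous.comp (continuous_cl.comp (f := fun q : I × K =>
        ((2 : ℝ), (1 - (q.1 : ℝ)) • P.xi (F q.2) + (q.1 : ℝ) • G q.2)) (by fun_prop))
    · rintro ⟨s, z⟩ h
      simp only at h ⊢
      apply P.bdry
      apply cl_mem_bdry (by norm_num)
      obtain ⟨x, hx⟩ := P.surj (F z)
      have h1 := hG z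
      rw [← hx, W_p] at h
      rw [← hx, P.xi_p_of_le h.le] at h1 ⊢
      have e : (1 - (s : ℝ)) • ctr x + (s : ℝ) • G z = ctr x + (s : ℝ) • (G z - ctr x) := by
        rw [sub_smul, smul_sub, one_smul]; abel
      rw [e]
      have h2 := norm_sub_norm_le (ctr x) (-((s : ℝ) • (G z - ctr x)))
      rw [norm_neg, sub_neg_eq_add, norm_smul, Real.norm_of_nonneg s.2.1, h] at h2
      have h3 : (s : ℝ) * ‖G z - ctr x‖ ≤ 1 * (1 / 16) := by
        gcongr
        exact s.2.2
      linarith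
  let F1 : C(K, S) := ⟨fun z => if P.W (F z) ≤ 3 / 8 then P.p (cl 2 (G z)) else P.pt, by
    have := hHc.comp (f := fun z : K => ((1 : I), z)) (by fun_prop)
    convert this using 2 with z
    simp⟩
  let F0 : C(K, S) := ⟨fun z => Ψ (F z, 1), by fun_prop⟩
  have hF01 : F.HomotopicRel F0 {z | F z = P.pt} := by
    refine mkRel _ _ _ (fun q => Ψ (F q.2, q.1)) (by fun_prop) ?_ ?_ ?_
    · intro z
      obtain ⟨x, hx⟩ := P.surj (F z)
      simp only [← hx, hΨ]
      simp [cl_one]
    · intro z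
      rfl
    · intro s z hz
      have hz' : F z = P.pt := hz
      have h0 : (fun _ => 0 : Fin n → I) ∈ Cube.boundary (Fin n) := ⟨⟨0, hn⟩, Or.inl rfl⟩
      have h1 : (0 : ℝ) ≤ s := s.2.1
      simp only [hz']
      rw [← P.bdry _ h0, hΨ, P.bdry _ h0]
      apply P.bdry
      apply cl_mem_bdry (by linarith)
      rw [norm_ctr_bdry h0]
      linarith
  have hF12 : F0.HomotopicRel F1 {z | F z = P.pt} := by
    refine mkRel _ _ _ _ hHc ?_ ?_ ?_
    · intro z
      obtain ⟨x, hx⟩ := P.surj (F z)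
      simp only [F0, ContinuousMap.coe_mk, ← hx, hΨ, W_p, Icc.coe_zero, Icc.coe_one]
      split_ifs with h
      · rw [P.xi_p_of_le h]
        norm_num
      · rw [P.bdry _ (cl_mem_bdry (by norm_num) (by linarith))]
    · intro z
      simp [F1]
    · intro s z hz
      have hz' : F z = P.pt := hz
      have h0 : (fun _ => 0 : Fin n → I) ∈ Cube.boundary (Fin n) := ⟨⟨0, hn⟩, Or.inl rfl⟩
      simp only [hz', hptW, F0, ContinuousMap.coe_mk]
      rw [if_neg (by norm_num)]
      rw [← P.bdry _ h0, hΨ, P.bdry _ h0]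
      refine (P.bdry _ ?_).symm
      apply cl_mem_bdry (by norm_num)
      rw [norm_ctr_bdry h0]
      norm_num
  refine ⟨F1, hF01.trans hF12, ?_⟩
  intro z x hzx hx
  have h : (if P.W (F z) ≤ 3 / 8 then P.p (cl 2 (G z)) else P.pt) = P.p x := hzx
  split_ifs at h
  · exact P.eq_of_p_eq h hx
  · exact absurd (P.mem_bdry_of_p_eq hn h.symm) hx

/-- Lipschitz approximation of the coordinates -/
lemma exists_lip {K : Type*} [MetricSpace K] [CompactSpace K] (F : C(K, S)) {ε : ℝ} (hε : 0 < ε) :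
    ∃ G : K → Fin n → ℝ, (∃ L : ℝ≥0, LipschitzWith L G) ∧ ∀ z, ‖G z - P.xi (F z)‖ ≤ ε := by
  have key : ∀ i : Fin n, ∃ g : K → ℝ, (∃ L : ℝ≥0, LipschitzWith L g) ∧
      (∀ z, |g z - P.xi (F z) i| < ε) := by
    intro i
    exact lip_approx ⟨fun z => P.xi (F z) i, by fun_prop⟩ ε hε
  choose g hgL hg using key
  choose Lg hgL using hgL
  refine ⟨fun z i => g i z, ⟨∑ i, Lg i, ?_⟩, ?_⟩
  · refine LipschitzWith.of_dist_le_mul fun z w => ?_
    rw [dist_pi_le_iff (by positivity)]
    intro i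
    refine ((hgL i).dist_le_mul z w).trans ?_
    gcongr
    exact_mod_cast Finset.single_le_sum (f := Lg) (fun _ _ => bot_le) (Finset.mem_univ i)
  · intro z
    rw [pi_norm_le_iff_of_nonneg hε.le]
    intro i
    exact (hg i z).le

end CubeSphere

/-! ### generic pairs of values -/

section generic

variable {X : Type*} [MetricSpace X] {EX : Type*} [NormedAddCommGroup EX] [NormedSpace ℝ EX]
  [FiniteDimensional ℝ EX]

lemma dense_generic {n : ℕ} (κ : EX → X) {Lκ : ℝ≥0} (hκL : LipschitzWith Lκ κ)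
    (hκ : Function.Surjective κ) (hdim : finrank ℝ EX + 2 < 2 * n) (G : X × I → Fin n → ℝ)
    {L : ℝ≥0} (hG : LipschitzWith L G) :
    Dense {q : (Fin n → ℝ) × (Fin n → ℝ) | ∀ x s t, G (x, s) = q.1 → G (x, t) = q.2 → False} := by
  let Ψ : EX × ℝ × ℝ → (Fin n → ℝ) × (Fin n → ℝ) := fun p =>
    (G (κ p.1, pI p.2.1), G (κ p.1, pI p.2.2))
  have h1 : LipschitzWith (1 : ℝ≥0) (fun p : EX × ℝ × ℝ => p.1) := LipschitzWith.prod_fst
  have h2 : LipschitzWith (1 * 1 : ℝ≥0) (fun p : EX × ℝ × ℝ => p.2.1) :=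
    LipschitzWith.prod_fst.comp LipschitzWith.prod_snd
  have h3 : LipschitzWith (1 * 1 : ℝ≥0) (fun p : EX × ℝ × ℝ => p.2.2) :=
    LipschitzWith.prod_snd.comp LipschitzWith.prod_snd
  obtain ⟨L', hL'⟩ : ∃ L', LipschitzWith L' Ψ :=
    ⟨_, (hG.comp ((hκL.comp h1).prodMk (lip_pI.comp h2))).prodMk
      (hG.comp ((hκL.comp h1).prodMk (lip_pI.comp h3)))⟩
  have hd : Dense (range Ψ)ᶜ := by
    refine dense_compl_of_dimH_lt_finrank (E := (Fin n → ℝ) × (Fin n → ℝ)) ?_
    have h1 : dimH (range Ψ) ≤ dimH (univ : Set (EX × ℝ × ℝ)) := by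
      rw [← image_univ]
      exact hL'.dimH_image_le _
    refine h1.trans_lt ?_
    rw [Real.dimH_univ_eq_finrank]
    simp only [finrank_prod, finrank_self, finrank_fintype_fun_eq_card, Fintype.card_fin]
    norm_cast
    omega
  refine hd.mono ?_
  rintro ⟨a, b⟩ hab x s t hs ht
  apply hab
  obtain ⟨z, rfl⟩ := hκ x
  refine ⟨(z, (s : ℝ), (t : ℝ)), ?_⟩
  simp only [Ψ, pI_coe] at hs ht ⊢
  rw [hs, ht]

/-- The two standard values, in centred coordinates: `(0,…,0,±1/8)`. -/
noncomputable def a8 (r : ℕ) : Fin (r + 1) → ℝ := Pi.single (Fin.last r) (1 / 8)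

lemma norm_a8 (r : ℕ) : ‖a8 r‖ ≤ 1 / 8 := by
  rw [pi_norm_le_iff_of_nonneg (by norm_num)]
  intro i
  unfold a8
  by_cases h : i = Fin.last r
  · subst h; simp
  · simp [h]

lemma exists_good {r : ℕ} (κ : EX → X) {Lκ : ℝ≥0} (hκL : LipschitzWith Lκ κ)
    (hκ : Function.Surjective κ) (hdim : finrank ℝ EX < 2 * r) (G : X × I → Fin (r + 1) → ℝ)
    {L : ℝ≥0} (hG : LipschitzWith L G) (hG1 : ∀ z, ‖G z‖ ≤ 1) :
    ∃ G' : C(X × I, Fin (r + 1) → ℝ), (∀ z, ‖G' z - G z‖ ≤ 1 / 32) ∧
      ∀ x s t, G' (x, s) = a8 r → G' (x, t) = -a8 r → False := by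
  have hd := dense_generic κ hκL hκ (by omega : finrank ℝ EX + 2 < 2 * (r + 1)) G hG
  obtain ⟨⟨a, b⟩, hq, hab⟩ := Metric.dense_iff.1 hd (a8 r, -a8 r) (1 / 1000) (by norm_num)
  rw [Metric.mem_ball, Prod.dist_eq, max_lt_iff] at hq
  obtain ⟨ha, hb⟩ := hq
  simp only at ha hb
  rw [dist_eq_norm] at ha hb
  set l := Fin.last r with hl
  have ha8 : a8 r l = 1 / 8 := by simp [a8, hl]
  have hal : |a l - 1 / 8| < 1 / 1000 := by
    have := (norm_le_pi_norm (a - a8 r) l).trans_lt ha
    rwa [Pi.sub_apply, ha8, Real.norm_eq_abs] at this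
  have hbl : |b l + 1 / 8| < 1 / 1000 := by
    have := (norm_le_pi_norm (b - -a8 r) l).trans_lt hb
    rwa [Pi.sub_apply, Pi.neg_apply, ha8, Real.norm_eq_abs, sub_neg_eq_add] at this
  rw [abs_lt] at hal hbl
  have hden : b l - a l < -(1 / 5) := by linarith
  have hden0 : b l - a l ≠ 0 := by linarith
  let e : Fin (r + 1) → ℝ := (-a8 r - a8 r) - (b - a)
  have he : ‖e‖ ≤ 1 / 500 := by
    have : e = (a - a8 r) - (b - -a8 r) := by simp only [e]; abel
    rw [this]
    refine (norm_sub_le _ _).trans ?_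
    linarith
  let T : (Fin (r + 1) → ℝ) → (Fin (r + 1) → ℝ) := fun v =>
    v + (a8 r - a) + ((v l - a l) / (b l - a l)) • e
  have hTa : T a = a8 r := by simp [T]
  have hTb : T b = -a8 r := by
    simp only [T, div_self hden0, one_smul, e]
    abel
  have hcoef : ∀ w : Fin (r + 1) → ℝ, |w l / (b l - a l)| ≤ 5 * ‖w‖ := by
    intro w
    rw [abs_div]
    have h1 : |w l| ≤ ‖w‖ := norm_le_pi_norm w l
    have h2 : 1 / 5 ≤ |b l - a l| := by rw [abs_of_neg (by linarith)]; linarith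
    rw [div_le_iff₀ (by linarith)]
    nlinarith [norm_nonneg w]
  have hTinj : Function.Injective T := by
    intro v v' h
    have h1 : (v - v') = -(((v - v') l / (b l - a l)) • e) := by
      have h' : T v - T v' = 0 := sub_eq_zero.2 h
      have h2 : T v - T v' = (v - v') + (((v - v') l / (b l - a l)) • e) := by
        simp only [T, Pi.sub_apply]
        rw [show (v l - v' l) / (b l - a l) = (v l - a l) / (b l - a l) -
          (v' l - a l) / (b l - a l) by ring, sub_smul]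
        abel
      rw [h2] at h'
      exact eq_neg_of_add_eq_zero_left h'
    have h3 : ‖v - v'‖ ≤ 5 * ‖v - v'‖ * (1 / 500) := by
      calc ‖v - v'‖ = ‖((v - v') l / (b l - a l)) • e‖ := by rw [h1, norm_neg]; rw [← h1]
        _ = |(v - v') l / (b l - a l)| * ‖e‖ := by rw [norm_smul, Real.norm_eq_abs]
        _ ≤ 5 * ‖v - v'‖ * (1 / 500) := by
          gcongr
          exact hcoef _
    have h4 : ‖v - v'‖ = 0 := by nlinarith [norm_nonneg (v - v')]
    exact sub_eq_zero.1 (norm_eq_zero.1 h4)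
  have hGc : Continuous G := hG.continuous
  have hTc : Continuous T := by
    simp only [T]
    fun_prop
  refine ⟨⟨fun z => T (G z), hTc.comp hGc⟩, ?_, ?_⟩
  · intro z
    show ‖T (G z) - G z‖ ≤ 1 / 32
    have h1 : T (G z) - G z = (a8 r - a) + (((G z - a) l / (b l - a l)) • e) := by
      simp only [T, Pi.sub_apply]; abel
    rw [h1]
    have h2 : ‖G z - a‖ ≤ 2 := by
      have h3 : ‖a‖ ≤ 1 / 8 + 1 / 1000 := by
        have := norm_add_le (a - a8 r) (a8 r)
        rw [sub_add_cancel] at this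
        linarith [norm_a8 r]
      refine (norm_sub_le _ _).trans ?_
      linarith [hG1 z]
    have h4 : ‖((G z - a) l / (b l - a l)) • e‖ ≤ (5 * 2) * (1 / 500) := by
      rw [norm_smul, Real.norm_eq_abs]
      have := hcoef (G z - a)
      calc _ ≤ (5 * ‖G z - a‖) * (1 / 500) := by gcongr
        _ ≤ _ := by gcongr
    refine (norm_add_le _ _).trans ?_
    rw [norm_sub_rev] at ha
    norm_num at h4 ⊢
    linarith
  · intro x s t h1 h2
    refine hab x s t (hTinj ?_) (hTinj ?_)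
    · rw [hTa]; exact h1
    · rw [hTb]; exact h2

end generic

/-! ### the last coordinate -/

section lastCoord

variable {r : ℕ}

/-- append a last coordinate -/
def sn (y : Fin r → I) (t : I) : Fin (r + 1) → I := Fin.snoc (α := fun _ => I) y t

@[simp] lemma sn_last (y : Fin r → I) (t : I) : sn y t (Fin.last r) = t := by simp [sn]

@[simp] lemma sn_castSucc (y : Fin r → I) (t : I) (i : Fin r) : sn y t i.castSucc = y i := by
  simp [sn]

/-- forget the last coordinate -/
def ini (x : Fin (r + 1) → I) : Fin r → I := fun i => x i.castSucc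

lemma sn_ini (x : Fin (r + 1) → I) : sn (ini x) (x (Fin.last r)) = x := by
  funext i
  refine Fin.lastCases ?_ (fun j => ?_) i
  · simp
  · simp [ini]

@[simp] lemma ini_sn (y : Fin r → I) (t : I) : ini (sn y t) = y := by
  funext i; simp [ini]

lemma continuous_sn : Continuous (fun q : (Fin r → I) × I => sn q.1 q.2) := by
  refine continuous_pi fun i => ?_
  refine Fin.lastCases ?_ (fun j => ?_) i
  · simpa using continuous_snd
  · simp only [sn_castSucc]; fun_prop

@[fun_prop]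
lemma Continuous.sn' {Z : Type*} [TopologicalSpace Z] {f : Z → Fin r → I} {g : Z → I}
    (hf : Continuous f) (hg : Continuous g) : Continuous fun z => sn (f z) (g z) :=
  continuous_sn.comp (f := fun z => (f z, g z)) (by fun_prop)

@[fun_prop]
lemma continuous_ini : Continuous (ini : (Fin (r + 1) → I) → _) := by unfold ini; fun_prop

lemma sn_bdry_iff {y : Fin r → I} {t : I} : sn y t ∈ Cube.boundary (Fin (r + 1)) ↔
    y ∈ Cube.boundary (Fin r) ∨ t = 0 ∨ t = 1 := by
  constructor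
  · rintro ⟨i, hi⟩
    revert hi
    refine Fin.lastCases ?_ (fun j => ?_) i
    · intro hi
      right
      simpa using hi
    · intro hi
      left
      exact ⟨j, by simpa using hi⟩
  · rintro (⟨j, hj⟩ | h)
    · exact ⟨j.castSucc, by simpa using hj⟩
    · exact ⟨Fin.last r, by simpa using h⟩

lemma bdry_iff {x : Fin (r + 1) → I} : x ∈ Cube.boundary (Fin (r + 1)) ↔
    ini x ∈ Cube.boundary (Fin r) ∨ x (Fin.last r) = 0 ∨ x (Fin.last r) = 1 := by
  conv_lhs => rw [← sn_ini x]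
  exact sn_bdry_iff

/-- the middle of the interval -/
noncomputable def hf : I := ⟨1 / 2, by norm_num, by norm_num⟩

@[simp] lemma coe_hf : (hf : ℝ) = 1 / 2 := rfl

lemma hf_ne_zero : hf ≠ 0 := by
  intro h
  have := congrArg Subtype.val h
  norm_num at this

lemma hf_ne_one : hf ≠ 1 := by
  intro h
  have := congrArg Subtype.val h
  norm_num at this

end lastCoord

section expand

variable {r : ℕ} {S : Type*} [TopologicalSpace S] [T2Space S] (P : CubeSphere (r + 1) S)

/-- the vertical profile of the expansion -/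
noncomputable def phi (lam : ℝ) (t : I) : I :=
  pI ((1 / 2) * (pI (2 * lam * ((t : ℝ) - 1 / 4) + 1 / 2) : ℝ) +
    (1 / 2) * (pI (2 * lam * ((t : ℝ) - 3 / 4) + 1 / 2) : ℝ))

lemma continuous_phi : Continuous (fun q : ℝ × I => phi q.1 q.2) := by
  unfold phi; fun_prop

lemma phi_one (t : I) : phi 1 t = t := by
  have h0 := t.2.1
  have h1 := t.2.2
  unfold phi
  rcases le_total (t : ℝ) (1 / 2) with h | h
  · rw [pI_of_nonpos (s := 2 * 1 * ((t : ℝ) - 3 / 4) + 1 / 2) (by linarith),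
      coe_pI (s := 2 * 1 * ((t : ℝ) - 1 / 4) + 1 / 2) (by linarith) (by linarith)]
    have : (1 / 2 : ℝ) * (2 * 1 * ((t : ℝ) - 1 / 4) + 1 / 2) + 1 / 2 * ((0 : I) : ℝ) = t := by
      simp only [Icc.coe_zero]; ring
    rw [this, pI_coe]
  · rw [pI_of_one_le (s := 2 * 1 * ((t : ℝ) - 1 / 4) + 1 / 2) (by linarith),
      coe_pI (s := 2 * 1 * ((t : ℝ) - 3 / 4) + 1 / 2) (by linarith) (by linarith)]
    have : (1 / 2 : ℝ) * ((1 : I) : ℝ) + 1 / 2 * (2 * 1 * ((t : ℝ) - 3 / 4) + 1 / 2) = t := by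
      simp only [Icc.coe_one]; ring
    rw [this, pI_coe]

lemma phi_zero {lam : ℝ} (h : 1 ≤ lam) : phi lam 0 = 0 := by
  unfold phi
  simp only [Icc.coe_zero]
  rw [pI_of_nonpos (s := 2 * lam * ((0 : ℝ) - 1 / 4) + 1 / 2) (by linarith),
    pI_of_nonpos (s := 2 * lam * ((0 : ℝ) - 3 / 4) + 1 / 2) (by linarith)]
  exact pI_of_nonpos (by simp)

lemma phi_last {lam : ℝ} (h : 1 ≤ lam) : phi lam 1 = 1 := by
  unfold phi
  simp only [Icc.coe_one]
  rw [pI_of_one_le (s := 2 * lam * ((1 : ℝ) - 1 / 4) + 1 / 2) (by linarith),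
    pI_of_one_le (s := 2 * lam * ((1 : ℝ) - 3 / 4) + 1 / 2) (by linarith)]
  exact pI_of_one_le (by norm_num)

/-- the expansion of the cube -/
noncomputable def expd (lam : ℝ) (x : Fin (r + 1) → I) : Fin (r + 1) → I :=
  sn (cl lam (ctr (ini x))) (phi lam (x (Fin.last r)))

lemma expd_one (x : Fin (r + 1) → I) : expd 1 x = x := by
  rw [expd, cl_one, phi_one, sn_ini]

lemma expd_bdry {lam : ℝ} (h : 1 ≤ lam) {x : Fin (r + 1) → I}
    (hx : x ∈ Cube.boundary (Fin (r + 1))) : expd lam x ∈ Cube.boundary (Fin (r + 1)) := by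
  rw [expd, sn_bdry_iff]
  rw [bdry_iff] at hx
  rcases hx with hx | hx | hx
  · left
    apply cl_mem_bdry (by linarith)
    rw [norm_ctr_bdry hx]
    linarith
  · right; left
    rw [hx, phi_zero h]
  · right; right
    rw [hx, phi_last h]

lemma continuous_expd : Continuous (fun q : ℝ × (Fin (r + 1) → I) => expd q.1 q.2) := by
  unfold expd
  refine Continuous.sn' ?_ ?_
  · exact continuous_cl.comp (f := fun q : ℝ × (Fin (r + 1) → I) => (q.1, ctr (ini q.2)))
      (by fun_prop)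
  · exact continuous_phi.comp (f := fun q : ℝ × (Fin (r + 1) → I) => (q.1, q.2 (Fin.last r)))
      (by fun_prop)

lemma exists_expd (M : ℝ) (hM : 0 ≤ M) :
    ∃ Ψ : C(S × I, S), ∀ x s, Ψ (P.p x, s) = P.p (expd (1 + s * M) x) :=
  P.lift_exists (fun q : (Fin (r + 1) → I) × I => P.p (expd (1 + q.2 * M) q.1))
    (P.p.continuous.comp (continuous_expd.comp (f := fun q : (Fin (r + 1) → I) × I =>
      ((1 : ℝ) + q.2 * M, q.1)) (by fun_prop)))
    fun x x' s hx hx' => by
      have h1 : (0 : ℝ) ≤ s := s.2.1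
      have h2 : (1 : ℝ) ≤ 1 + s * M := by nlinarith
      simp only
      rw [P.bdry _ (expd_bdry h2 hx), P.bdry _ (expd_bdry h2 hx')]

/-- the two standard values in the cube: `(1/2,…,1/2, 3/4)` and `(1/2,…,1/2,1/4)`. -/
noncomputable def a0 (r : ℕ) : Fin (r + 1) → I := cl 2 (a8 r)
/-- the second standard value -/
noncomputable def b0 (r : ℕ) : Fin (r + 1) → I := cl 2 (-a8 r)

lemma a0_castSucc (i : Fin r) : (a0 r i.castSucc : ℝ) = 1 / 2 := by
  have : i.castSucc ≠ Fin.last r := (Fin.castSucc_lt_last i).ne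
  simp only [a0, cl, a8, Pi.single_apply, this, if_false]
  rw [coe_pI] <;> norm_num

lemma a0_last : (a0 r (Fin.last r) : ℝ) = 3 / 4 := by
  simp only [a0, cl, a8, Pi.single_apply, if_true]
  rw [coe_pI] <;> norm_num

lemma b0_castSucc (i : Fin r) : (b0 r i.castSucc : ℝ) = 1 / 2 := by
  have : i.castSucc ≠ Fin.last r := (Fin.castSucc_lt_last i).ne
  simp only [b0, cl, a8, Pi.single_apply, Pi.neg_apply, this, if_false]
  rw [coe_pI] <;> norm_num

lemma b0_last : (b0 r (Fin.last r) : ℝ) = 1 / 4 := by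
  simp only [b0, cl, a8, Pi.single_apply, Pi.neg_apply, if_true]
  rw [coe_pI] <;> norm_num

lemma a0_not_bdry : a0 r ∉ Cube.boundary (Fin (r + 1)) := by
  rintro ⟨i, hi⟩
  revert hi
  refine Fin.lastCases ?_ (fun j => ?_) i
  · have h := a0_last (r := r)
    rintro (hi | hi) <;> rw [hi] at h <;> norm_num at h
  · have h := a0_castSucc j
    rintro (hi | hi) <;> rw [hi] at h <;> norm_num at h

lemma b0_not_bdry : b0 r ∉ Cube.boundary (Fin (r + 1)) := by
  rintro ⟨i, hi⟩
  revert hi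
  refine Fin.lastCases ?_ (fun j => ?_) i
  · have h := b0_last (r := r)
    rintro (hi | hi) <;> rw [hi] at h <;> norm_num at h
  · have h := b0_castSucc j
    rintro (hi | hi) <;> rw [hi] at h <;> norm_num at h

/-- A positive lower bound away from an interior point. -/
lemma exists_nu {n : ℕ} {S : Type*} [TopologicalSpace S] [T2Space S] (P : CubeSphere n S)
    (c : Fin n → I) (hc : ‖ctr c‖ ≤ 1 / 4) :
    ∃ ν : C(S, ℝ), (∀ x, ν (P.p x) ≤ ‖ctr x - ctr c‖) ∧ ∀ z, z ≠ P.p c → 0 < ν z := by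
  obtain ⟨ν, hν⟩ := P.lift_exists' (fun x => min ‖ctr x - ctr c‖ (1 / 8)) (by fun_prop)
    fun x x' hx hx' => by
      have : ∀ y ∈ Cube.boundary (Fin n), min ‖ctr y - ctr c‖ (1 / 8) = 1 / 8 := by
        intro y hy
        apply min_eq_right
        have := norm_sub_norm_le (ctr y) (ctr c)
        rw [norm_ctr_bdry hy] at this
        linarith
      rw [this x hx, this x' hx']
  refine ⟨ν, fun x => by rw [hν]; exact min_le_left _ _, ?_⟩
  intro z hz
  obtain ⟨x, rfl⟩ := P.surj z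
  rw [hν, lt_min_iff]
  refine ⟨?_, by norm_num⟩
  rw [norm_pos_iff, sub_ne_zero]
  intro h
  apply hz
  congr 1
  rw [← cl_one x, ← cl_one c, h]

lemma norm_ctr_a0 : ‖ctr (a0 r)‖ ≤ 1 / 4 := by
  rw [pi_norm_le_iff_of_nonneg (by norm_num)]
  intro i
  refine Fin.lastCases ?_ (fun j => ?_) i
  · simp only [ctr, a0_last]; norm_num
  · simp only [ctr, a0_castSucc]; norm_num

lemma norm_ctr_b0 : ‖ctr (b0 r)‖ ≤ 1 / 4 := by
  rw [pi_norm_le_iff_of_nonneg (by norm_num)]
  intro i
  refine Fin.lastCases ?_ (fun j => ?_) i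
  · simp only [ctr, b0_last]; norm_num
  · simp only [ctr, b0_castSucc]; norm_num

lemma exists_coord {n : ℕ} {v : Fin n → ℝ} {δ : ℝ} (hδ : 0 < δ) (h : δ ≤ ‖v‖) : ∃ i, δ ≤ |v i| := by
  by_contra hc
  push Not at hc
  have : ‖v‖ < δ := by
    rw [pi_norm_lt_iff hδ]
    intro i
    simpa using hc i
  linarith

lemma expand {X : Type*} [MetricSpace X] [CompactSpace X] (F2 : C(X × I, S)) (C : Set X)
    (hC : ∀ q ∈ bd C, F2 q = P.pt)
    (hlo : ∀ x (t : I), (t : ℝ) ≤ 1 / 2 → F2 (x, t) ≠ P.p (a0 r))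
    (hup : ∀ x (t : I), 1 / 2 ≤ (t : ℝ) → F2 (x, t) ≠ P.p (b0 r)) :
    ∃ F3 : C(X × I, S), F2.HomotopicRel F3 (bd C) ∧ (∀ q ∈ bd C, F3 q = P.pt) ∧
      (∀ x (t : I), (t : ℝ) ≤ 1 / 2 → ∃ (y : Fin r → I) (t' : I), (t' : ℝ) ≤ 1 / 2 ∧ F3 (x, t) = P.p (sn y t')) ∧
      (∀ x (t : I), 1 / 2 ≤ (t : ℝ) → ∃ (y : Fin r → I) (t' : I), 1 / 2 ≤ (t' : ℝ) ∧ F3 (x, t) = P.p (sn y t')) := by
  obtain ⟨νa, hνa, hνa'⟩ := exists_nu P (a0 r) norm_ctr_a0
  obtain ⟨νb, hνb, hνb'⟩ := exists_nu P (b0 r) norm_ctr_b0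
  have hKlo : IsCompact {q : X × I | (q.2 : ℝ) ≤ 1 / 2} :=
    (isClosed_le (by fun_prop) (by fun_prop)).isCompact
  have hKup : IsCompact {q : X × I | 1 / 2 ≤ (q.2 : ℝ)} :=
    (isClosed_le (by fun_prop) (by fun_prop)).isCompact
  obtain ⟨δa, hδa, hδa'⟩ := hKlo.exists_forall_le' (f := fun q => νa (F2 q)) (by fun_prop)
    (a := 0) (fun q hq => hνa' _ (hlo q.1 q.2 hq))
  obtain ⟨δb, hδb, hδb'⟩ := hKup.exists_forall_le' (f := fun q => νb (F2 q)) (by fun_prop)
    (a := 0) (fun q hq => hνb' _ (hup q.1 q.2 hq))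
  set δ := min δa δb with hδdef
  have hδ : 0 < δ := lt_min hδa hδb
  let M : ℝ := 1 / δ
  have hM : 0 ≤ M := by positivity
  set lam : ℝ := 1 + M with hlam
  have hlam1 : 1 ≤ lam := by linarith
  have hlamδ : 1 ≤ lam * δ := by
    have : M * δ = 1 := by simp only [M]; field_simp
    nlinarith
  obtain ⟨Ψ, hΨ⟩ := exists_expd P M hM
  have hΨ1 : ∀ x, Ψ (P.p x, 1) = P.p (expd lam x) := by
    intro x
    rw [hΨ]
    simp [hlam]
  have hpt : ∀ s, Ψ (P.pt, s) = P.pt := by
    intro s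
    have h0 : (fun _ => 0 : Fin (r + 1) → I) ∈ Cube.boundary (Fin (r + 1)) :=
      ⟨0, Or.inl rfl⟩
    have h1 : (0 : ℝ) ≤ s := s.2.1
    rw [← P.bdry _ h0, hΨ, P.bdry _ (expd_bdry (by nlinarith) h0), P.bdry _ h0]
  refine ⟨⟨fun q => Ψ (F2 q, 1), by fun_prop⟩, ?_, ?_, ?_, ?_⟩
  · refine mkRel _ _ _ (fun q => Ψ (F2 q.2, q.1)) (by fun_prop) ?_ ?_ ?_
    · intro z
      obtain ⟨x, hx⟩ := P.surj (F2 z)
      simp only [← hx, hΨ]
      simp [expd_one]
    · intro z
      rfl
    · intro s z hz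
      simp only [hC z hz, hpt]
  · intro q hq
    simp only [ContinuousMap.coe_mk, hC q hq, hpt]
  · intro x t ht
    obtain ⟨z, hz⟩ := P.surj (F2 (x, t))
    simp only [ContinuousMap.coe_mk, ← hz, hΨ1]
    have h1 : δ ≤ ‖ctr z - ctr (a0 r)‖ := by
      have := hδa' (x, t) ht
      simp only [← hz] at this
      exact (min_le_left _ _).trans (this.trans (hνa z))
    obtain ⟨i, hi⟩ := exists_coord hδ h1
    revert hi
    refine Fin.lastCases ?_ (fun j => ?_) i
    · intro hi
      rw [Pi.sub_apply, ctr, ctr, a0_last] at hi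
      by_cases hb : P.p (expd lam z) = P.pt
      · refine ⟨0, 0, by norm_num, ?_⟩
        rw [hb, P.bdry _ (sn_bdry_iff.2 (Or.inr (Or.inl rfl)))]
      refine ⟨cl lam (ctr (ini z)), phi lam (z (Fin.last r)), ?_, rfl⟩
      rcases le_abs.1 hi with hi | hi
      · exfalso
        apply hb
        apply P.bdry
        rw [expd, sn_bdry_iff]
        right; right
        unfold phi
        rw [pI_of_one_le (s := 2 * lam * ((z (Fin.last r) : ℝ) - 1 / 4) + 1 / 2) (by nlinarith),
          pI_of_one_le (s := 2 * lam * ((z (Fin.last r) : ℝ) - 3 / 4) + 1 / 2) (by nlinarith)]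
        exact pI_of_one_le (by norm_num)
      · unfold phi
        rw [pI_of_nonpos (s := 2 * lam * ((z (Fin.last r) : ℝ) - 3 / 4) + 1 / 2) (by nlinarith)]
        set w := pI (2 * lam * ((z (Fin.last r) : ℝ) - 1 / 4) + 1 / 2)
        have hw0 := w.2.1
        have hw1 := w.2.2
        rw [coe_pI (by simp; linarith) (by simp; linarith)]
        simp; linarith
    · intro hi
      rw [Pi.sub_apply, ctr, ctr, a0_castSucc] at hi
      refine ⟨0, 0, by norm_num, ?_⟩
      rw [P.bdry _ (sn_bdry_iff.2 (Or.inr (Or.inl rfl)))]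
      apply P.bdry
      rw [expd, sn_bdry_iff]
      left
      apply cl_mem_bdry (by linarith)
      have h2 : δ ≤ ‖ctr (ini z)‖ := by
        refine le_trans ?_ (norm_le_pi_norm _ j)
        have e : ctr (ini z) j = (z j.castSucc : ℝ) - 1 / 2 - (1 / 2 - 1 / 2) := by
          unfold ctr ini
          ring
        rw [Real.norm_eq_abs, e]
        exact hi
      nlinarith
  · intro x t ht
    obtain ⟨z, hz⟩ := P.surj (F2 (x, t))
    simp only [ContinuousMap.coe_mk, ← hz, hΨ1]
    have h1 : δ ≤ ‖ctr z - ctr (b0 r)‖ := by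
      have := hδb' (x, t) ht
      simp only [← hz] at this
      exact (min_le_right _ _).trans (this.trans (hνb z))
    obtain ⟨i, hi⟩ := exists_coord hδ h1
    revert hi
    refine Fin.lastCases ?_ (fun j => ?_) i
    · intro hi
      rw [Pi.sub_apply, ctr, ctr, b0_last] at hi
      by_cases hb : P.p (expd lam z) = P.pt
      · refine ⟨0, 1, by norm_num, ?_⟩
        rw [hb, P.bdry _ (sn_bdry_iff.2 (Or.inr (Or.inr rfl)))]
      refine ⟨cl lam (ctr (ini z)), phi lam (z (Fin.last r)), ?_, rfl⟩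
      rcases le_abs.1 hi with hi | hi
      · unfold phi
        rw [pI_of_one_le (s := 2 * lam * ((z (Fin.last r) : ℝ) - 1 / 4) + 1 / 2) (by nlinarith)]
        set w := pI (2 * lam * ((z (Fin.last r) : ℝ) - 3 / 4) + 1 / 2)
        have hw0 := w.2.1
        have hw1 := w.2.2
        rw [coe_pI (by simp; linarith) (by simp; linarith)]
        simp; linarith
      · exfalso
        apply hb
        apply P.bdry
        rw [expd, sn_bdry_iff]
        right; left
        unfold phi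
        rw [pI_of_nonpos (s := 2 * lam * ((z (Fin.last r) : ℝ) - 1 / 4) + 1 / 2) (by nlinarith),
          pI_of_nonpos (s := 2 * lam * ((z (Fin.last r) : ℝ) - 3 / 4) + 1 / 2) (by nlinarith)]
        exact pI_of_nonpos (by simp)
    · intro hi
      rw [Pi.sub_apply, ctr, ctr, b0_castSucc] at hi
      refine ⟨0, 1, by norm_num, ?_⟩
      rw [P.bdry _ (sn_bdry_iff.2 (Or.inr (Or.inr rfl)))]
      apply P.bdry
      rw [expd, sn_bdry_iff]
      left
      apply cl_mem_bdry (by linarith)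
      have h2 : δ ≤ ‖ctr (ini z)‖ := by
        refine le_trans ?_ (norm_le_pi_norm _ j)
        have e : ctr (ini z) j = (z j.castSucc : ℝ) - 1 / 2 - (1 / 2 - 1 / 2) := by
          unfold ctr ini
          ring
        rw [Real.norm_eq_abs, e]
        exact hi
      nlinarith

end expand

/-! ### the canonical suspension -/

section susp

variable {r : ℕ} {S S' : Type*} [TopologicalSpace S] [T2Space S] [TopologicalSpace S'] [T2Space S']
  (P : CubeSphere r S) (Q : CubeSphere (r + 1) S')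

lemma exists_sigma : ∃ sg : C(S × I, S'), ∀ y t, sg (P.p y, t) = Q.p (sn y t) :=
  P.lift_exists (fun q : (Fin r → I) × I => Q.p (sn q.1 q.2)) (by fun_prop)
    fun x x' t hx hx' => by
      simp only
      rw [Q.bdry _ (sn_bdry_iff.2 (Or.inl hx)), Q.bdry _ (sn_bdry_iff.2 (Or.inl hx'))]

/-- The canonical suspension map `S_r × I → S_{r+1}`, `(p y, t) ↦ p (y, t)`. -/
noncomputable def sigma : C(S × I, S') := (exists_sigma P Q).choose

lemma sigma_p (y : Fin r → I) (t : I) : sigma P Q (P.p y, t) = Q.p (sn y t) :=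
  (exists_sigma P Q).choose_spec y t

lemma sigma_zero (z : S) : sigma P Q (z, 0) = Q.pt := by
  obtain ⟨y, rfl⟩ := P.surj z
  rw [sigma_p, Q.bdry _ (sn_bdry_iff.2 (Or.inr (Or.inl rfl)))]

lemma sigma_one (z : S) : sigma P Q (z, 1) = Q.pt := by
  obtain ⟨y, rfl⟩ := P.surj z
  rw [sigma_p, Q.bdry _ (sn_bdry_iff.2 (Or.inr (Or.inr rfl)))]

omit [T2Space S] in
lemma exists_bdry_pt (hr : 0 < r) : ∃ y ∈ Cube.boundary (Fin r), P.p y = P.pt := by
  have h0 : (fun _ => 0 : Fin r → I) ∈ Cube.boundary (Fin r) := ⟨⟨0, hr⟩, Or.inl rfl⟩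
  exact ⟨_, h0, P.bdry _ h0⟩

lemma sigma_pt (hr : 0 < r) (t : I) : sigma P Q (P.pt, t) = Q.pt := by
  obtain ⟨y, hy, hy'⟩ := exists_bdry_pt P hr
  rw [← hy', sigma_p, Q.bdry _ (sn_bdry_iff.2 (Or.inl hy))]

lemma sigma_hf_inj {u v : S} (h : sigma P Q (u, hf) = sigma P Q (v, hf)) :
    u = v := by
  obtain ⟨y, rfl⟩ := P.surj u
  obtain ⟨y', rfl⟩ := P.surj v
  rw [sigma_p, sigma_p] at h
  rcases Q.inj _ _ h with h | ⟨h1, h2⟩
  · have := congrArg ini h
    rw [ini_sn, ini_sn] at this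
    rw [this]
  · rw [sn_bdry_iff] at h1 h2
    have h1' : y ∈ Cube.boundary (Fin r) := by
      rcases h1 with h | h | h
      · exact h
      · exact absurd h hf_ne_zero
      · exact absurd h hf_ne_one
    have h2' : y' ∈ Cube.boundary (Fin r) := by
      rcases h2 with h | h | h
      · exact h
      · exact absurd h hf_ne_zero
      · exact absurd h hf_ne_one
    rw [P.bdry _ h1', P.bdry _ h2']

/-- tent function -/
lemma exists_Sm : ∃ Θ : C(S' × I, S'), ∀ x m,
    Θ (Q.p x, m) = Q.p (sn (ini x) (pI (m * min (x (Fin.last r) : ℝ) (1 - x (Fin.last r))))) :=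
  Q.lift_exists (fun q : (Fin (r + 1) → I) × I =>
    Q.p (sn (ini q.1) (pI (q.2 * min (q.1 (Fin.last r) : ℝ) (1 - q.1 (Fin.last r))))))
    (by fun_prop) fun x x' m hx hx' => by
      have key : ∀ y ∈ Cube.boundary (Fin (r + 1)),
          Q.p (sn (ini y) (pI (m * min (y (Fin.last r) : ℝ) (1 - y (Fin.last r))))) = Q.pt := by
        intro y hy
        apply Q.bdry
        rw [sn_bdry_iff]
        rw [bdry_iff] at hy
        rcases hy with hy | hy | hy
        · exact Or.inl hy
        · right; left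
          rw [hy]
          exact pI_of_nonpos (by simp)
        · right; left
          rw [hy]
          exact pI_of_nonpos (by simp)
      simp only
      rw [key x hx, key x' hx']

lemma exists_Sp : ∃ Θ : C(S' × I, S'), ∀ x m,
    Θ (Q.p x, m) = Q.p (sn (ini x) (pI (1 - m * min (x (Fin.last r) : ℝ) (1 - x (Fin.last r))))) :=
  Q.lift_exists (fun q : (Fin (r + 1) → I) × I =>
    Q.p (sn (ini q.1) (pI (1 - q.2 * min (q.1 (Fin.last r) : ℝ) (1 - q.1 (Fin.last r))))))
    (by fun_prop) fun x x' m hx hx' => by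
      have key : ∀ y ∈ Cube.boundary (Fin (r + 1)),
          Q.p (sn (ini y) (pI (1 - m * min (y (Fin.last r) : ℝ) (1 - y (Fin.last r))))) = Q.pt := by
        intro y hy
        apply Q.bdry
        rw [sn_bdry_iff]
        rw [bdry_iff] at hy
        rcases hy with hy | hy | hy
        · exact Or.inl hy
        · right; right
          rw [hy]
          exact pI_of_one_le (by simp)
        · right; right
          rw [hy]
          exact pI_of_one_le (by simp)
      simp only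
      rw [key x hx, key x' hx']

/-- Straighten a map whose lower/upper halves lie in the lower/upper hemispheres. -/
lemma straighten (hr : 0 < r) {X : Type*} [MetricSpace X] [CompactSpace X] (F3 : C(X × I, S'))
    (C : Set X) (hC : ∀ q ∈ bd C, F3 q = Q.pt)
    (hlo : ∀ x (t : I), (t : ℝ) ≤ 1 / 2 → ∃ (y : Fin r → I) (t' : I), (t' : ℝ) ≤ 1 / 2 ∧
      F3 (x, t) = Q.p (sn y t'))
    (hup : ∀ x (t : I), 1 / 2 ≤ (t : ℝ) → ∃ (y : Fin r → I) (t' : I), 1 / 2 ≤ (t' : ℝ) ∧
      F3 (x, t) = Q.p (sn y t')) :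
    ∃ g : C(X, S), (∀ x ∈ C, g x = P.pt) ∧
      F3.HomotopicRel ⟨fun q => sigma P Q (g q.1, q.2), by fun_prop⟩ (bd C) := by
  have := P.compactSpace
  -- the equatorial map
  have hmid : ∀ x, ∃ u : S, sigma P Q (u, hf) = F3 (x, hf) := by
    intro x
    obtain ⟨y, t, ht, h1⟩ := hlo x hf (by simp)
    obtain ⟨y', t', ht', h2⟩ := hup x hf (by simp)
    by_cases hb : F3 (x, hf) = Q.pt
    · exact ⟨P.pt, by rw [hb, sigma_pt P Q hr]⟩
    · have h3 : sn y t = sn y' t' := by
        apply Q.eq_of_p_eq (h1.symm.trans h2)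
        intro h
        exact hb (h2.trans (Q.bdry _ h))
      have h4 : t = t' := by
        have := congrFun h3 (Fin.last r)
        simpa using this
      have h5 : t = hf := by
        apply Subtype.ext
        rw [← h4] at ht'
        exact le_antisymm ht ht'
      exact ⟨P.p y, by rw [sigma_p, h1, h5]⟩
  choose g hg using hmid
  let j : S → S' := fun u => sigma P Q (u, hf)
  have hj : Topology.IsClosedEmbedding j := by
    apply Continuous.isClosedEmbedding (by fun_prop)
    intro u v h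
    exact sigma_hf_inj P Q h
  have hgc : Continuous g := by
    rw [hj.isEmbedding.continuous_iff]
    have : j ∘ g = fun x => F3 (x, hf) := funext hg
    rw [this]
    fun_prop
  have hgC : ∀ x ∈ C, g x = P.pt := by
    intro x hx
    apply sigma_hf_inj P Q
    rw [hg, sigma_pt P Q hr]
    exact hC _ (Or.inl hx)
  refine ⟨⟨g, hgc⟩, hgC, ?_⟩
  obtain ⟨Sm, hSm⟩ := exists_Sm Q
  obtain ⟨Sp, hSp⟩ := exists_Sp Q
  have hSm1 : ∀ (y : Fin r → I) (t : I), (t : ℝ) ≤ 1 / 2 → Sm (Q.p (sn y t), 1) = Q.p (sn y t) := by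
    intro y t ht
    rw [hSm, ini_sn, sn_last, min_eq_left (by linarith), Icc.coe_one, one_mul, pI_coe]
  have hSp1 : ∀ (y : Fin r → I) (t : I), 1 / 2 ≤ (t : ℝ) → Sp (Q.p (sn y t), 1) = Q.p (sn y t) := by
    intro y t ht
    rw [hSp, ini_sn, sn_last, min_eq_right (by linarith), Icc.coe_one, one_mul, sub_sub_cancel,
      pI_coe]
  have hSmpt : ∀ m, Sm (Q.pt, m) = Q.pt := by
    intro m
    have h0 : sn (0 : Fin r → I) 0 ∈ Cube.boundary (Fin (r + 1)) :=
      sn_bdry_iff.2 (Or.inr (Or.inl rfl))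
    have h1 : pI ((m : ℝ) * min (((0 : I) : ℝ)) (1 - ((0 : I) : ℝ))) = 0 :=
      pI_of_nonpos (by simp)
    rw [← Q.bdry _ h0, hSm, sn_last, ini_sn, h1]
  have hSppt : ∀ m, Sp (Q.pt, m) = Q.pt := by
    intro m
    have h0 : sn (0 : Fin r → I) 1 ∈ Cube.boundary (Fin (r + 1)) :=
      sn_bdry_iff.2 (Or.inr (Or.inr rfl))
    have h1 : pI (1 - (m : ℝ) * min (((1 : I) : ℝ)) (1 - ((1 : I) : ℝ))) = 1 :=
      pI_of_one_le (by simp)
    rw [← Q.bdry _ h0, hSp, sn_last, ini_sn, h1]
  -- the time change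
  let om : I → I := fun t => pI (max (min (2 * (t : ℝ)) (1 / 2)) (2 * t - 1))
  have hom : Continuous om := by simp only [om]; fun_prop
  have hom0 : om 0 = 0 := pI_of_nonpos (by simp)
  have hom1 : om 1 = 1 := pI_of_one_le (by norm_num)
  have homlo : ∀ t : I, (t : ℝ) ≤ 1 / 2 → (om t : ℝ) = min (2 * (t : ℝ)) (1 / 2) := by
    intro t ht
    have h0 := t.2.1
    have h1 : 2 * (t : ℝ) - 1 ≤ min (2 * (t : ℝ)) (1 / 2) := by
      apply le_min <;> linarith
    simp only [om]
    rw [max_eq_left h1, coe_pI]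
    · apply le_min <;> linarith
    · exact (min_le_right _ _).trans (by norm_num)
  have homup : ∀ t : I, 1 / 2 ≤ (t : ℝ) → (om t : ℝ) = max (1 / 2) (2 * (t : ℝ) - 1) := by
    intro t ht
    have h0 := t.2.2
    simp only [om]
    rw [min_eq_right (by linarith), coe_pI]
    · exact (by norm_num : (0 : ℝ) ≤ 1 / 2).trans (le_max_left _ _)
    · apply max_le <;> linarith
  let G1 : C(X × I, S') := ⟨fun q => F3 (q.1, om q.2), by fun_prop⟩
  have h01 : F3.HomotopicRel G1 (bd C) := by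
    refine mkRel _ _ _ (fun q => F3 (q.2.1, pI ((1 - (q.1 : ℝ)) * q.2.2 + q.1 * om q.2.2)))
      (by fun_prop) ?_ ?_ ?_
    · rintro ⟨x, t⟩
      simp [pI_coe]
    · rintro ⟨x, t⟩
      simp [pI_coe, G1]
    · rintro s ⟨x, t⟩ (hx | hx | hx)
      · simp only at hx
        rw [hC (x, t) (Or.inl hx), hC _ (Or.inl hx)]
      · simp only at hx
        subst hx
        simp only [hom0]
        rw [pI_of_nonpos (by simp)]
      · simp only at hx
        subst hx
        simp only [hom1]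
        rw [pI_of_one_le (by simp)]
  -- the scaling homotopy
  have hHc : Continuous fun q : I × (X × I) => if (q.2.2 : ℝ) ≤ 1 / 2 then
      Sm (F3 (q.2.1, om q.2.2), pI ((1 - (q.1 : ℝ)) + (q.1 : ℝ) * max 0 (4 * (q.2.2 : ℝ) - 1)))
      else Sp (F3 (q.2.1, om q.2.2),
        pI ((1 - (q.1 : ℝ)) + (q.1 : ℝ) * max 0 (3 - 4 * (q.2.2 : ℝ)))) := by
    refine Continuous.if_le (by fun_prop) (by fun_prop) (by fun_prop) (by fun_prop) ?_
    rintro ⟨s, x, t⟩ ht
    simp only at ht ⊢
    have ht' : t = hf := Subtype.ext ht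
    have h1 : om t = hf := by
      apply Subtype.ext
      rw [homlo t ht.le, ht]
      norm_num
    have h2 : pI ((1 - (s : ℝ)) + s * max 0 (4 * (t : ℝ) - 1)) = 1 := by
      apply pI_of_one_le
      rw [ht]
      norm_num
    have h3 : pI ((1 - (s : ℝ)) + s * max 0 (3 - 4 * (t : ℝ))) = 1 := by
      apply pI_of_one_le
      rw [ht]
      norm_num
    rw [h1, h2, h3]
    obtain ⟨y, t1, ht1, e1⟩ := hlo x hf (by simp)
    obtain ⟨y', t2, ht2, e2⟩ := hup x hf (by simp)
    calc Sm (F3 (x, hf), 1) = F3 (x, hf) := by rw [e1, hSm1 y t1 ht1]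
      _ = Sp (F3 (x, hf), 1) := by rw [e2, hSp1 y' t2 ht2]
  let G2 : C(X × I, S') := ⟨fun q => sigma P Q (g q.1, pI ((4 * (q.2 : ℝ) - 1) / 2)), by fun_prop⟩
  have h12 : G1.HomotopicRel G2 (bd C) := by
    refine mkRel _ _ _ _ hHc ?_ ?_ ?_
    · rintro ⟨x, t⟩
      simp only [Icc.coe_zero, sub_zero, zero_mul, add_zero, G1, ContinuousMap.coe_mk]
      rw [pI_of_one_le (le_refl (1 : ℝ))]
      split_ifs with h
      · obtain ⟨y, t1, ht1, e1⟩ := hlo x (om t) (by rw [homlo t h]; exact min_le_right _ _)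
        rw [e1, hSm1 y t1 ht1]
      · push Not at h
        obtain ⟨y, t1, ht1, e1⟩ := hup x (om t) (by rw [homup t h.le]; exact le_max_left _ _)
        rw [e1, hSp1 y t1 ht1]
    · rintro ⟨x, t⟩
      have h0 := t.2.1
      have h1 := t.2.2
      obtain ⟨y, hy⟩ := P.surj (g x)
      simp only [Icc.coe_one, sub_self, one_mul, zero_add, G2, ContinuousMap.coe_mk]
      split_ifs with h
      · rcases le_total (t : ℝ) (1 / 4) with h4 | h4
        · rw [max_eq_left (by linarith), pI_of_nonpos (le_refl (0 : ℝ)),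
            pI_of_nonpos (s := (4 * (t : ℝ) - 1) / 2) (by linarith), sigma_zero]
          obtain ⟨y', t1, ht1, e1⟩ := hlo x (om t) (by rw [homlo t h]; exact min_le_right _ _)
          rw [e1, hSm]
          apply Q.bdry
          rw [sn_bdry_iff]
          right; left
          exact pI_of_nonpos (by simp)
        · have h5 : om t = hf := by
            apply Subtype.ext
            rw [homlo t h, min_eq_right (by linarith)]
            rfl
          rw [h5, ← hg, ← hy, sigma_p, sigma_p, hSm, ini_sn, sn_last, max_eq_right (by linarith),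
            coe_pI (by linarith) (by linarith)]
          congr 3
          simp only [coe_hf]
          norm_num
          ring
      · push Not at h
        rcases le_total (3 / 4) (t : ℝ) with h4 | h4
        · rw [max_eq_left (by linarith), pI_of_nonpos (le_refl (0 : ℝ)),
            pI_of_one_le (s := (4 * (t : ℝ) - 1) / 2) (by linarith), sigma_one]
          obtain ⟨y', t1, ht1, e1⟩ := hup x (om t) (by rw [homup t h.le]; exact le_max_left _ _)
          rw [e1, hSp]
          apply Q.bdry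
          rw [sn_bdry_iff]
          right; right
          exact pI_of_one_le (by simp)
        · have h5 : om t = hf := by
            apply Subtype.ext
            rw [homup t h.le, max_eq_left (by linarith)]
            rfl
          rw [h5, ← hg, ← hy, sigma_p, sigma_p, hSp, ini_sn, sn_last, max_eq_right (by linarith),
            coe_pI (s := 3 - 4 * (t : ℝ)) (by linarith) (by linarith)]
          congr 3
          simp only [coe_hf]
          norm_num
          ring
    · rintro s ⟨x, t⟩ hx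
      have hx1 : F3 (x, om t) = Q.pt := by
        rcases hx with hx | hx | hx
        · exact hC _ (Or.inl hx)
        · simp only at hx
          rw [hx, hom0]
          exact hC _ (Or.inr (Or.inl rfl))
        · simp only at hx
          rw [hx, hom1]
          exact hC _ (Or.inr (Or.inr rfl))
      simp only [hx1, hSmpt, hSppt, G1, ContinuousMap.coe_mk, ite_self]
  have h23 : G2.HomotopicRel ⟨fun q => sigma P Q (g q.1, q.2), by fun_prop⟩ (bd C) := by
    refine mkRel _ _ _ (fun q => sigma P Q (g q.2.1, pI ((1 - (q.1 : ℝ)) *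
      pI ((4 * (q.2.2 : ℝ) - 1) / 2) + q.1 * q.2.2))) (by fun_prop) ?_ ?_ ?_
    · rintro ⟨x, t⟩
      simp [pI_coe, G2]
    · rintro ⟨x, t⟩
      simp [pI_coe]
    · rintro s ⟨x, t⟩ (hx | hx | hx)
      · simp only at hx
        simp only [G2, ContinuousMap.coe_mk, hgC x hx, sigma_pt P Q hr]
      · simp only at hx
        subst hx
        simp only [G2, ContinuousMap.coe_mk, Icc.coe_zero]
        rw [pI_of_nonpos (s := (4 * (0 : ℝ) - 1) / 2) (by norm_num), pI_of_nonpos (by simp)]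
      · simp only at hx
        subst hx
        simp only [G2, ContinuousMap.coe_mk, Icc.coe_one]
        rw [pI_of_one_le (s := (4 * (1 : ℝ) - 1) / 2) (by norm_num), pI_of_one_le (by simp)]
  exact (h01.trans h12).trans h23

/-- **Freudenthal surjectivity, one step**, relative form. -/
theorem freudenthal_step {X : Type*} [MetricSpace X] [CompactSpace X] {EX : Type*}
    [NormedAddCommGroup EX] [NormedSpace ℝ EX] [FiniteDimensional ℝ EX] (κ : EX → X) {Lκ : ℝ≥0}
    (hκL : LipschitzWith Lκ κ) (hκ : Function.Surjective κ) (hdim : finrank ℝ EX < 2 * r)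
    (C : Set X) (F : C(X × I, S')) (hF : ∀ q ∈ bd C, F q = Q.pt) :
    ∃ g : C(X, S), (∀ x ∈ C, g x = P.pt) ∧
      F.HomotopicRel ⟨fun q => sigma P Q (g q.1, q.2), by fun_prop⟩ (bd C) := by
  have hr : 0 < r := by omega
  obtain ⟨G, ⟨L, hL⟩, hG⟩ := Q.exists_lip F (ε := 1 / 32) (by norm_num)
  have hG1 : ∀ z, ‖G z‖ ≤ 1 := by
    intro z
    have h1 := norm_add_le (G z - Q.xi (F z)) (Q.xi (F z))
    rw [sub_add_cancel] at h1
    linarith [hG z, Q.norm_xi_le (F z)]
  obtain ⟨G', hG', hgood⟩ := exists_good κ hκL hκ hdim G hL hG1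
  obtain ⟨F1, hFF1, hF1⟩ := Q.approx_step (Nat.succ_pos r) F G' (fun z => by
    have h1 := norm_add_le (G' z - G z) (G z - Q.xi (F z))
    rw [sub_add_sub_cancel] at h1
    linarith [hG z, hG' z])
  have hFF1' : F.HomotopicRel F1 (bd C) := by
    obtain ⟨H⟩ := hFF1
    exact ⟨{ H with prop' := fun s x hx => H.prop' s x (hF x hx) }⟩
  have hF1C : ∀ q ∈ bd C, F1 q = Q.pt := fun q hq => by
    rw [← hFF1'.fst_eq_snd hq, hF q hq]
  have hcl : ∀ (v w : Fin (r + 1) → ℝ), cl 2 v = cl 2 w → cl 2 w ∉ Cube.boundary (Fin (r + 1)) →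
      v = w := by
    intro v w h hw
    funext i
    have hi := congrFun h i
    simp only [cl] at hi
    have key : ∀ u : ℝ, pI u ≠ 0 → pI u ≠ 1 → (pI u : ℝ) = u := by
      intro u h0 h1
      apply coe_pI
      · by_contra hc
        exact h0 (pI_of_nonpos (not_le.1 hc).le)
      · by_contra hc
        exact h1 (pI_of_one_le (not_le.1 hc).le)
    have hw0 : pI (1 / 2 + 2 * w i) ≠ 0 := fun h0 => hw ⟨i, Or.inl h0⟩
    have hw1 : pI (1 / 2 + 2 * w i) ≠ 1 := fun h0 => hw ⟨i, Or.inr h0⟩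
    have e1 := key _ hw0 hw1
    have e2 := key (1 / 2 + 2 * v i) (by rw [hi]; exact hw0) (by rw [hi]; exact hw1)
    rw [hi, e1] at e2
    linarith
  obtain ⟨F2, hF12, hlo, hup, hF2C⟩ := push F1 Q.pt (Q.p (a0 r)) (Q.p (b0 r))
    (fun h => a0_not_bdry (Q.mem_bdry_of_p_eq (Nat.succ_pos r) h))
    (fun h => b0_not_bdry (Q.mem_bdry_of_p_eq (Nat.succ_pos r) h))
    (fun x s t h1 h2 => hgood x s t
      (hcl _ _ (hF1 _ _ h1 a0_not_bdry) a0_not_bdry)
      (hcl _ _ (hF1 _ _ h2 b0_not_bdry) b0_not_bdry)) C hF1C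
  obtain ⟨F3, hF23, hF3C, hlo3, hup3⟩ := expand Q F2 C hF2C hlo hup
  obtain ⟨g, hg, hF3⟩ := straighten P Q hr F3 C hF3C hlo3 hup3
  exact ⟨g, hg, ((hFF1'.trans hF12).trans hF23).trans hF3⟩

end susp

end Crest.Agent.R204.Freud661
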