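/-
Row 204, block H (helper661): the quotient model `QS n = I^n / ∂I^n` of the sphere, the canonical
suspension, and surjectivity of suspension `π_n(S^n) → π_{n+1}(S^{n+1})` in this model.
-/
import Mathlib
import Crest.Agent.R204.Freud_661
import Crest.Agent.R204.HDegA_160

set_option autoImplicit false

open Set Metric Module
open scoped unitInterval Topology Topology.Homotopy

namespace Crest.Agent.R204.CubeSph661

open Crest.Agent.R204.Freud661 Crest.Agent.R204.HDeg160

/-! ### the quotient model -/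

/-- collapse of the boundary -/
def qsSetoid (n : ℕ) : Setoid (Fin n → I) where
  r x y := x = y ∨ (x ∈ Cube.boundary (Fin n) ∧ y ∈ Cube.boundary (Fin n))
  iseqv :=
    { refl := fun _ => Or.inl rfl
      symm := by
        rintro x y (h | ⟨h1, h2⟩)
        · exact Or.inl h.symm
        · exact Or.inr ⟨h2, h1⟩
      trans := by
        rintro x y z (h | ⟨h1, h2⟩) (h' | ⟨h1', h2'⟩)
        · exact Or.inl (h.trans h')
        · subst h; exact Or.inr ⟨h1', h2'⟩
        · subst h'; exact Or.inr ⟨h1, h2⟩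
        · exact Or.inr ⟨h1, h2'⟩ }

/-- the quotient `I^n / ∂I^n` -/
def QS (n : ℕ) : Type := Quotient (qsSetoid n)

instance (n : ℕ) : TopologicalSpace (QS n) :=
  inferInstanceAs (TopologicalSpace (Quotient (qsSetoid n)))

/-- collapse map -/
def qsMk (n : ℕ) (x : Fin n → I) : QS n := Quotient.mk (qsSetoid n) x

lemma continuous_qsMk (n : ℕ) : Continuous (qsMk n) := continuous_quotient_mk'

lemma qsMk_surj (n : ℕ) : Function.Surjective (qsMk n) := Quotient.exists_rep

lemma qsMk_eq {n : ℕ} {x y : Fin n → I} :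
    qsMk n x = qsMk n y ↔ x = y ∨ (x ∈ Cube.boundary (Fin n) ∧ y ∈ Cube.boundary (Fin n)) :=
  ⟨fun h => Quotient.exact h, fun h => Quotient.sound h⟩

lemma mem_bdry_of_norm {n : ℕ} {x : Fin n → I} (h : 1 / 2 ≤ ‖ctr x‖) :
    x ∈ Cube.boundary (Fin n) := by
  obtain ⟨i, hi⟩ := exists_coord (by norm_num) h
  refine ⟨i, ?_⟩
  have h0 := (x i).2.1
  have h1 := (x i).2.2
  simp only [ctr] at hi
  rcases le_abs.1 hi with hi | hi
  · right
    exact Subtype.ext (le_antisymm h1 (by simp; linarith))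
  · left
    exact Subtype.ext (le_antisymm (by simp; linarith) h0)

/-- an embedding of the quotient -/
noncomputable def qsEmb (n : ℕ) : QS n → (Fin n → ℝ) × ℝ :=
  Quotient.lift (s := qsSetoid n) (fun x => ((1 / 2 - ‖ctr x‖) • ctr x, 1 / 2 - ‖ctr x‖)) (by
    rintro x y (h | ⟨h1, h2⟩)
    · rw [h]
    · simp only [norm_ctr_bdry h1, norm_ctr_bdry h2, sub_self, zero_smul])

lemma qsEmb_mk {n : ℕ} (x : Fin n → I) :
    qsEmb n (qsMk n x) = ((1 / 2 - ‖ctr x‖) • ctr x, 1 / 2 - ‖ctr x‖) := rfl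

lemma continuous_qsEmb (n : ℕ) : Continuous (qsEmb n) := by
  apply Continuous.quotient_lift
  fun_prop

lemma qsEmb_inj (n : ℕ) : Function.Injective (qsEmb n) := by
  intro a b h
  obtain ⟨x, rfl⟩ := qsMk_surj n a
  obtain ⟨y, rfl⟩ := qsMk_surj n b
  rw [qsEmb_mk, qsEmb_mk, Prod.mk.injEq] at h
  obtain ⟨h1, h2⟩ := h
  rw [qsMk_eq]
  by_cases h0 : 1 / 2 - ‖ctr x‖ = 0
  · right
    exact ⟨mem_bdry_of_norm (by linarith), mem_bdry_of_norm (by linarith)⟩
  · left
    rw [← h2] at h1
    have h3 := smul_right_injective _ h0 h1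
    rw [← cl_one x, ← cl_one y, h3]

instance (n : ℕ) : T2Space (QS n) :=
  T2Space.of_injective_continuous (qsEmb_inj n) (continuous_qsEmb n)

instance (n : ℕ) : CompactSpace (QS n) :=
  inferInstanceAs (CompactSpace (Quotient (qsSetoid n)))

/-- the standard cube sphere -/
def qs (n : ℕ) : CubeSphere n (QS n) where
  p := ⟨qsMk n, continuous_qsMk n⟩
  pt := qsMk n 0
  surj := qsMk_surj n
  bdry := by
    intro x hx
    obtain ⟨i, hi⟩ := hx
    exact qsMk_eq.2 (Or.inr ⟨⟨i, hi⟩, ⟨i, Or.inl rfl⟩⟩)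
  inj := fun x y h => qsMk_eq.1 h

/-! ### loops -/

section loops

variable {n : ℕ} {S S' : Type*} [TopologicalSpace S] [T2Space S] [TopologicalSpace S'] [T2Space S']

omit [T2Space S] in
/-- the collapse as a generalised loop -/
def pLoop (P : CubeSphere n S) : Ω^ (Fin n) S P.pt := ⟨P.p, P.bdry⟩

variable (P : CubeSphere n S) (Q : CubeSphere (n + 1) S')

/-- the canonical suspension as `SuspData` -/
noncomputable def suspData (hn : 0 < n) : SuspData S S' P.pt Q.pt where
  e := sigma P Q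
  e_zero := sigma_zero P Q
  e_one := sigma_one P Q
  e_base := sigma_pt P Q hn

lemma susp_pLoop (hn : 0 < n) : (suspData P Q hn).susp (pLoop P) = pLoop Q := by
  ext t
  rw [SuspData.susp_apply]
  show sigma P Q (P.p (Fin.init t), t (Fin.last n)) = Q.p t
  rw [sigma_p]
  congr 1
  exact sn_ini t

/-- splitting off the last coordinate -/
def snocHomeo (n : ℕ) : ((Fin n → I) × I) → (Fin (n + 1) → I) := fun q => sn q.1 q.2

/-- the clamping parametrisation of the cube -/
noncomputable def kap (n : ℕ) : (Fin n → ℝ) → (Fin n → I) := fun v i => pI (v i)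

lemma lip_kap (n : ℕ) : LipschitzWith 1 (kap n) := by
  refine LipschitzWith.of_dist_le_mul fun v w => ?_
  rw [NNReal.coe_one, one_mul, dist_pi_le_iff dist_nonneg]
  intro i
  have h1 := lip_pI.dist_le_mul (v i) (w i)
  rw [NNReal.coe_one, one_mul] at h1
  exact h1.trans (dist_le_pi_dist v w i)

lemma kap_surj (n : ℕ) : Function.Surjective (kap n) := by
  intro x
  exact ⟨fun i => x i, funext fun i => pI_coe (x i)⟩

/-- **Surjectivity of suspension** `π_q(S_n) → π_{q+1}(S_{n+1})`, `q < 2 n`. -/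
theorem susp_surj {q : ℕ} (hn : 0 < n) (hq : q < 2 * n) (f : Ω^ (Fin (q + 1)) S' Q.pt) :
    ∃ g : Ω^ (Fin q) S P.pt, GenLoop.Homotopic f ((suspData P Q hn).susp g) := by
  let F : C((Fin q → I) × I, S') := ⟨fun z => f (sn z.1 z.2), by
    exact f.1.continuous.comp continuous_sn⟩
  have hF : ∀ z ∈ bd (Cube.boundary (Fin q)), F z = Q.pt := by
    rintro ⟨x, t⟩ hz
    exact f.2 _ (sn_bdry_iff.2 hz)
  obtain ⟨g, hg, H⟩ := freudenthal_step P Q (kap q) (lip_kap q) (kap_surj q) (by simpa using hq)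
    (Cube.boundary (Fin q)) F hF
  refine ⟨⟨g, hg⟩, ?_⟩
  obtain ⟨H⟩ := H
  refine mkRel _ _ _ (fun z => H (z.1, (ini z.2, z.2 (Fin.last q)))) ?_ ?_ ?_ ?_
  · exact H.continuous.comp (by fun_prop)
  · intro x
    rw [H.apply_zero]
    show f (sn (ini x) (x (Fin.last q))) = f x
    rw [sn_ini]
  · intro x
    rw [H.apply_one]
    rfl
  · intro s x hx
    have h1 := H.prop' s (ini x, x (Fin.last q)) (bdry_iff.1 hx)
    have h2 : H (s, (ini x, x (Fin.last q))) = F (ini x, x (Fin.last q)) := h1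
    rw [h2]
    show f (sn (ini x) (x (Fin.last q))) = f x
    rw [sn_ini]

end loops

end Crest.Agent.R204.CubeSph661
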