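import Crest.Agent.R204.HopfF2_477

/-!
# Row 204, leaf H10 (helper477): fundamental chains `zc n` of the cubes `Fin n → I`

Everything over an abstract cross product `𝒞 : Cross` (instantiated from helper271's `cross`).
-/

set_option autoImplicit false

namespace Crest.Agent.R204.HopfF2477

open SS Finsupp

/-- `(x, t) ↦ Fin.snoc x t` -/
noncomputable def snocM (n : ℕ) : C((Fin n → I) × I, Fin (n + 1) → I) :=
  ⟨fun p => Fin.snoc (α := fun _ => I) p.1 p.2, by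
    refine continuous_pi fun i => ?_
    refine Fin.lastCases ?_ (fun j => ?_) i
    · simp only [Fin.snoc_last]; exact continuous_snd
    · simp only [Fin.snoc_castSucc]; exact (continuous_apply j).comp continuous_fst⟩

theorem snocM_apply {n : ℕ} (x : Fin n → I) (t : I) :
    snocM n (x, t) = Fin.snoc (α := fun _ => I) x t := rfl

/-- `(x, y) ↦ Fin.append x y` -/
noncomputable def appM (p q : ℕ) : C((Fin p → I) × (Fin q → I), Fin (p + q) → I) :=
  ⟨fun x => Fin.append x.1 x.2, by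
    refine continuous_pi fun i => ?_
    refine Fin.addCases (fun j => ?_) (fun j => ?_) i
    · simp only [Fin.append_left]; exact (continuous_apply j).comp continuous_fst
    · simp only [Fin.append_right]; exact (continuous_apply j).comp continuous_snd⟩

theorem appM_apply {p q : ℕ} (x : Fin p → I) (y : Fin q → I) : appM p q (x, y) = Fin.append x y :=
  rfl

theorem append_snoc' {p q : ℕ} (x : Fin p → I) (y : Fin q → I) (t : I) :
    Fin.append x (Fin.snoc (α := fun _ => I) y t) =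
      (Fin.snoc (α := fun _ => I) (Fin.append x y) t : Fin (p + q + 1) → I) := by
  refine funext fun i => ?_
  refine Fin.addCases (m := p) (n := q + 1) (fun j => ?_) (fun j => ?_) i
  · rw [Fin.append_left]
    exact (((Fin.snoc_castSucc (α := fun _ => I) t (Fin.append x y) (Fin.castAdd q j))).trans
      (Fin.append_left x y j)).symm
  · rw [Fin.append_right]
    refine Fin.lastCases ?_ (fun j => ?_) j
    · rw [Fin.snoc_last]
      exact (Fin.snoc_last (α := fun _ => I) t (Fin.append x y)).symm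
    · rw [Fin.snoc_castSucc]
      exact ((Fin.snoc_castSucc (α := fun _ => I) t (Fin.append x y) (Fin.natAdd p j)).trans
        (Fin.append_right x y j)).symm

namespace Cross

variable (𝒞 : Cross)

/-- the fundamental chain of the cube -/
noncomputable def zc : (n : ℕ) → N F2 (Sing (Fin n → I))
  | 0 => N.sx F2 (vx (fun i : Fin 0 => i.elim0))
  | n + 1 => pf (snocM n) (𝒞.cr (zc n) iota)

theorem zc_zero : 𝒞.zc 0 = N.sx F2 (vx (fun i : Fin 0 => i.elim0)) := rfl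
theorem zc_succ (n : ℕ) : 𝒞.zc (n + 1) = pf (snocM n) (𝒞.cr (𝒞.zc n) iota) := rfl

theorem zc_gr (n : ℕ) : 𝒞.zc n ∈ N.gr F2 (Sing (Fin n → I)) n := by
  induction n with
  | zero => exact sx_gr (K := Sing (Fin 0 → I)) (n := 0) _
  | succ n ih => exact pf_gr _ (𝒞.gr ih iota_gr)

variable {X Y Z W A : Type} [TopologicalSpace X] [TopologicalSpace Y] [TopologicalSpace Z]
  [TopologicalSpace W] [TopologicalSpace A]

/-- reassociation as a continuous map -/
def asc (X Y Z : Type) [TopologicalSpace X] [TopologicalSpace Y] [TopologicalSpace Z] :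
    C((X × Y) × Z, X × (Y × Z)) := ⟨fun p => (p.1.1, (p.1.2, p.2)), by fun_prop⟩

/-- inverse reassociation -/
def asc' (X Y Z : Type) [TopologicalSpace X] [TopologicalSpace Y] [TopologicalSpace Z] :
    C(X × (Y × Z), (X × Y) × Z) := ⟨fun p => ((p.1, p.2.1), p.2.2), by fun_prop⟩

theorem asc_cr (x : N F2 (Sing X)) (y : N F2 (Sing Y)) (z : N F2 (Sing Z)) :
    pf (asc X Y Z) (𝒞.cr (𝒞.cr x y) z) = 𝒞.cr x (𝒞.cr y z) := 𝒞.assoc x y z

theorem asc'_cr (x : N F2 (Sing X)) (y : N F2 (Sing Y)) (z : N F2 (Sing Z)) :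
    pf (asc' X Y Z) (𝒞.cr x (𝒞.cr y z)) = 𝒞.cr (𝒞.cr x y) z := by
  rw [← 𝒞.asc_cr x y z, ← pf_comp]
  exact pf_id _

/-- a vertex in the second factor -/
theorem pf_vertex (x : N F2 (Sing X)) (y : Y) (F : C(X × Y, W)) (G : C(X, W))
    (h : ∀ a, F (a, y) = G a) : pf F (𝒞.cr x (N.sx F2 (vx y))) = pf G x := by
  rw [𝒞.vertex, ← pf_comp]
  exact congrArg (fun f => pf f x) (ContinuousMap.ext h)

theorem pf_vertex' (x : X) (y : N F2 (Sing Y)) (F : C(X × Y, W)) (G : C(Y, W))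
    (h : ∀ b, F (x, b) = G b) : pf F (𝒞.cr (N.sx F2 (vx x)) y) = pf G y := by
  rw [𝒞.vertex', ← pf_comp]
  exact congrArg (fun f => pf f y) (ContinuousMap.ext h)

/-- the boundary of the cube chain is killed by maps which are independent of the cube
coordinate on the boundary -/
theorem bd_zc_push (n : ℕ) : ∀ (A W : Type) [TopologicalSpace A] [TopologicalSpace W]
    (a : N F2 (Sing A)) (F : C((Fin n → I) × A, W)) (G : C(A, W))
    (_ : ∀ x ∈ Cube.boundary (Fin n), ∀ a, F (x, a) = G a),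
    pf F (𝒞.cr (N.bd F2 _ (𝒞.zc n)) a) = 0 := by
  induction n with
  | zero =>
    intro A W _ _ a F G _
    have : N.bd F2 _ (𝒞.zc 0) = 0 := by
      rw [zc_zero]
      unfold N.sx
      rw [N.bd_mk, Ch.bd_single_zero]; rfl
    rw [this, map_zero, LinearMap.zero_apply, map_zero]
  | succ n ih =>
    intro A W _ _ a F G hF
    rw [zc_succ, ← pf_bd, 𝒞.bd, bd_iota]
    simp only [map_add, LinearMap.add_apply]
    have hbd : ∀ (x : Fin n → I) (t : I), x ∈ Cube.boundary (Fin n) ∨ t = 0 ∨ t = 1 →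
        snocM n (x, t) ∈ Cube.boundary (Fin (n + 1)) := by
      rintro x t (⟨j, hj⟩ | h)
      · exact ⟨j.castSucc, by rw [snocM_apply, Fin.snoc_castSucc]; exact hj⟩
      · exact ⟨Fin.last n, by rw [snocM_apply, Fin.snoc_last]; exact h⟩
    -- the boundary part
    have e1 : pf F (𝒞.cr (pf (snocM n) (𝒞.cr (N.bd F2 _ (𝒞.zc n)) iota)) a) = 0 := by
      have h1 : 𝒞.cr (pf (snocM n) (𝒞.cr (N.bd F2 _ (𝒞.zc n)) iota)) a =
          pf ((snocM n).prodMap (ContinuousMap.id A)) (𝒞.cr (𝒞.cr (N.bd F2 _ (𝒞.zc n)) iota) a) := by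
        rw [𝒞.nat, pf_id]
      rw [h1, ← pf_comp, ← 𝒞.asc'_cr, ← pf_comp]
      refine ih (I × A) W _ _ (G.comp ContinuousMap.snd) ?_
      rintro x hx ⟨t, a⟩
      exact hF _ (hbd x t (Or.inl hx)) a
    -- the two ends
    have e2 : ∀ c : I, (c = 0 ∨ c = 1) →
        pf F (𝒞.cr (pf (snocM n) (𝒞.cr (𝒞.zc n) (A1 ![c]))) a) =
          pf (G.comp ContinuousMap.snd) (𝒞.cr (𝒞.zc n) a) := by
      intro c hc
      rw [A1_pt, 𝒞.vertex, ← pf_comp]
      have h1 : ∀ f : C(Fin n → I, Fin (n + 1) → I), 𝒞.cr (pf f (𝒞.zc n)) a =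
          pf (f.prodMap (ContinuousMap.id A)) (𝒞.cr (𝒞.zc n) a) := by
        intro f; rw [𝒞.nat, pf_id]
      rw [h1, ← pf_comp]
      refine congrArg (fun f => pf f (𝒞.cr (𝒞.zc n) a)) (ContinuousMap.ext ?_)
      rintro ⟨x, a⟩
      exact hF _ (hbd x c (Or.inr hc)) a
    rw [e1, e2 1 (Or.inr rfl), e2 0 (Or.inl rfl), zero_add, add_self']

/-- based maps of cubes give cycles -/
theorem bd_pf_zc (n : ℕ) (f : C(Fin n → I, W)) (w : W)
    (hf : ∀ x ∈ Cube.boundary (Fin n), f x = w) : N.bd F2 _ (pf f (𝒞.zc n)) = 0 := by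
  rw [← pf_bd]
  have h := 𝒞.bd_zc_push n Unit W (N.sx F2 (vx ())) (f.comp ContinuousMap.fst)
    (ContinuousMap.const Unit w) (fun x hx _ => hf x hx)
  rwa [𝒞.pf_vertex _ _ _ f (fun _ => rfl)] at h

theorem pf_app (p q : ℕ) : pf (appM p q) (𝒞.cr (𝒞.zc p) (𝒞.zc q)) = 𝒞.zc (p + q) := by
  induction q with
  | zero =>
    rw [zc_zero, 𝒞.pf_vertex _ _ _ (ContinuousMap.id _)]
    · exact pf_id _
    · intro a
      show Fin.append a _ = a
      exact Fin.append_elim0 a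
  | succ q ih =>
    rw [zc_succ]
    have h1 : 𝒞.cr (𝒞.zc p) (pf (snocM q) (𝒞.cr (𝒞.zc q) iota)) =
        pf ((ContinuousMap.id (Fin p → I)).prodMap (snocM q))
          (𝒞.cr (𝒞.zc p) (𝒞.cr (𝒞.zc q) iota)) := by
      rw [𝒞.nat, pf_id]
    show _ = pf (snocM (p + q)) (𝒞.cr (𝒞.zc (p + q)) iota)
    have h2 : 𝒞.cr (pf (appM p q) (𝒞.cr (𝒞.zc p) (𝒞.zc q))) iota =
        pf ((appM p q).prodMap (ContinuousMap.id I)) (𝒞.cr (𝒞.cr (𝒞.zc p) (𝒞.zc q)) iota) := by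
      rw [𝒞.nat, pf_id]
    rw [h1, ← pf_comp, ← ih, h2, ← pf_comp, ← 𝒞.asc_cr, ← pf_comp]
    refine congrArg (fun f => pf f (𝒞.cr (𝒞.cr (𝒞.zc p) (𝒞.zc q)) iota)) (ContinuousMap.ext ?_)
    rintro ⟨⟨x, y⟩, t⟩
    exact append_snoc' x y t

/-- middle four interchange -/
def m4 (X Y Z W : Type) [TopologicalSpace X] [TopologicalSpace Y] [TopologicalSpace Z]
    [TopologicalSpace W] : C((X × Y) × (Z × W), (X × Z) × (Y × W)) :=
  ⟨fun p => ((p.1.1, p.2.1), (p.1.2, p.2.2)), by fun_prop⟩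

theorem m4_cr (x : N F2 (Sing X)) (y : N F2 (Sing Y)) (z : N F2 (Sing Z)) (w : N F2 (Sing W)) :
    pf (m4 X Y Z W) (𝒞.cr (𝒞.cr x y) (𝒞.cr z w)) = 𝒞.cr (𝒞.cr x z) (𝒞.cr y w) := by
  -- both sides are images of `x × ((y × z) × w)`
  have h1 : 𝒞.cr (𝒞.cr x y) (𝒞.cr z w) = pf (asc' X Y (Z × W)) (𝒞.cr x (𝒞.cr y (𝒞.cr z w))) :=
    (𝒞.asc'_cr _ _ _).symm
  have h2 : 𝒞.cr y (𝒞.cr z w) = pf (asc Y Z W) (𝒞.cr (𝒞.cr y z) w) := (𝒞.asc_cr _ _ _).symm
  have h3 : 𝒞.cr y z = pf ContinuousMap.prodSwap (𝒞.cr z y) := (𝒞.swap z y).symm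
  have h4 : 𝒞.cr (pf ContinuousMap.prodSwap (𝒞.cr z y)) w =
      pf (ContinuousMap.prodSwap.prodMap (ContinuousMap.id W)) (𝒞.cr (𝒞.cr z y) w) := by
    rw [𝒞.nat, pf_id]
  have h5 : 𝒞.cr (𝒞.cr z y) w = pf (asc' Z Y W) (𝒞.cr z (𝒞.cr y w)) := (𝒞.asc'_cr _ _ _).symm
  have h6 : ∀ {B C : Type} [TopologicalSpace B] [TopologicalSpace C] (f : C(B, C))
      (b : N F2 (Sing B)), 𝒞.cr x (pf f b) = pf ((ContinuousMap.id X).prodMap f) (𝒞.cr x b) := by
    intro B C _ _ f b; rw [𝒞.nat, pf_id]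
  have h7 : 𝒞.cr x (𝒞.cr z (𝒞.cr y w)) = pf (asc X Z (Y × W)) (𝒞.cr (𝒞.cr x z) (𝒞.cr y w)) :=
    (𝒞.asc_cr _ _ _).symm
  rw [h1, h2, h3, h4, h5, ← pf_comp, ← pf_comp, h6, h6, h7, ← pf_comp, ← pf_comp, ← pf_comp]
  exact pf_id _

end Cross

end Crest.Agent.R204.HopfF2477
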