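import Crest.Agent.R204.Cup_718

/-!
# Row 204, leaf G4 (helper718): coboundary of `∪₁` (mod 2), cross products of cochains and the strict
Cartan formulas for `∪` (any ring) and `∪₁` (mod 2) on Eilenberg-Zilber cross products.
-/

set_option autoImplicit false

namespace Crest.Agent.R204.Pont718

open EZ271 Finsupp Finset

/-! ## transport of cochains along the Yoneda map -/

section yo

variable {R : Type} [CommRing R] {K L : SS}

theorem comp_map_bd (f : SS.Hom K L) (a : Co R L) :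
    (a ∘ₗ N.map R f) ∘ₗ N.bd R _ = (a ∘ₗ N.bd R L) ∘ₗ N.map R f :=
  LinearMap.ext fun w => by simp [map_bd']

theorem comp_map_sg (f : SS.Hom K L) (a : Co R L) :
    (a ∘ₗ N.map R f) ∘ₗ sg R = (a ∘ₗ sg R) ∘ₗ N.map R f :=
  LinearMap.ext fun w => by simp [map_sg]

end yo

section mod2

variable {K L : SS}

theorem two_f2 (a : F2) : a + a = 0 := CharTwo.add_self_eq_zero a

theorem f2_add_self {M : Type*} [AddCommGroup M] [Module F2 M] (a : M) : a + a = 0 := by
  have : (2 : F2) • a = 0 := by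
    have : (2 : F2) = 0 := rfl
    rw [this, zero_smul]
  rwa [two_smul] at this

theorem f2_neg {M : Type*} [AddCommGroup M] [Module F2 M] (a : M) : -a = a :=
  neg_eq_of_add_eq_zero_left (f2_add_self a)

theorem f2_sub {M : Type*} [AddCommGroup M] [Module F2 M] (a b : M) : a - b = a + b := by
  rw [sub_eq_add_neg, f2_neg]

theorem f2_sg (z : N F2 K) : sg F2 z = z := by
  have : sg F2 (K := K) = LinearMap.id := by
    refine hom_ext fun n x => ?_
    rw [sg_sx]
    have : (-1 : F2) = 1 := rfl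
    rw [this, one_pow, one_smul]; rfl
  rw [this]; rfl

theorem f2_comp_sg (a : Co F2 K) : a ∘ₗ sg F2 = a :=
  LinearMap.ext fun w => by simp [f2_sg]

/-- Leibniz rule mod 2 -/
theorem cup_bd2 (a b : Co F2 K) : cup a b ∘ₗ N.bd F2 K =
    cup (a ∘ₗ N.bd F2 K) b + cup a (b ∘ₗ N.bd F2 K) := by
  rw [cup_bd, f2_comp_sg]

theorem hk_bd2 (A : Cone K) (a : Co F2 K) :
    hk A (a ∘ₗ N.bd F2 K) = a + hk A a ∘ₗ N.bd F2 K + a (N.sx F2 A.bot) • aug F2 := by
  rw [hk_bd, f2_sub, f2_sub]

/-- coboundary formula for `∪₁` mod 2 -/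
theorem cup1_bd (a b : Co F2 K) : cup1 a b ∘ₗ N.bd F2 K =
    cup a b + cup b a + cup1 (a ∘ₗ N.bd F2 K) b + cup1 a (b ∘ₗ N.bd F2 K) := by
  have key : ∀ (n : ℕ) (K : SS) (a b : Co F2 K) (x : K.S n),
      cup1 a b (N.bd F2 K (N.sx F2 x)) =
        cup a b (N.sx F2 x) + cup b a (N.sx F2 x) + cup1 (a ∘ₗ N.bd F2 K) b (N.sx F2 x) +
          cup1 a (b ∘ₗ N.bd F2 K) (N.sx F2 x) := by
    intro n
    induction n with
    | zero =>
      intro K a b x
      rw [bd_sx_zero, map_zero, cup_bot, cup_bot, cup1_bot, cup1_bot, mul_comm, two_f2]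
      simp
    | succ n ih =>
      intro K a b x
      suffices H : ∀ (A : Cone (SS.std (n + 1))) (x : (SS.std (n + 1)).S n)
          (a b : Co F2 (SS.std (n + 1))),
          cup1 a b (N.bd F2 _ (A.c F2 (N.sx F2 x))) =
            cup a b (A.c F2 (N.sx F2 x)) + cup b a (A.c F2 (N.sx F2 x)) +
              cup1 (a ∘ₗ N.bd F2 _) b (A.c F2 (N.sx F2 x)) +
              cup1 a (b ∘ₗ N.bd F2 _) (A.c F2 (N.sx F2 x)) by
        have h := H (Cone.std (n + 1)) (Op.face 0 : Op n (n + 1)) (a ∘ₗ N.map F2 (K.yo x))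
          (b ∘ₗ N.map F2 (K.yo x))
        rw [← iota_succ] at h
        rw [comp_map_bd, comp_map_bd, ← cup_map, ← cup_map, ← cup1_map, ← cup1_map, ← cup1_map] at h
        simp only [LinearMap.comp_apply, map_bd', N.map_sx, yo_iota] at h
        exact h
      intro A x a b
      have IH := ih _ (hk A a) b x
      have L1 := LinearMap.congr_fun (cup_bd2 (hk A b) (hk A a)) (N.sx F2 x)
      rw [Cone.bd_c, map_sub, map_sub, map_smul, cup1_bot, smul_zero, sub_zero, f2_sub, cup1_cone,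
        IH]
      rw [LinearMap.comp_apply] at L1
      rw [L1, cup_cone, cup_cone, cup1_cone, cup1_cone, hk_bd2, hk_bd2]
      simp only [cup_add_left, cup_add_right, cup1_add_left, LinearMap.add_apply, cup_smul_left,
        cup_smul_right, cup1_smul_left, cup1_aug_left, cup_aug_left, cup_aug_right,
        LinearMap.smul_apply, smul_eq_mul, smul_zero, LinearMap.zero_apply]
      simp only [hk, LinearMap.comp_apply]
      generalize cup1 a b (N.sx F2 x) = t1
      generalize cup (a ∘ₗ A.c F2) b (N.sx F2 x) = t2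
      generalize cup b (a ∘ₗ A.c F2) (N.sx F2 x) = t3
      generalize cup1 ((a ∘ₗ A.c F2) ∘ₗ N.bd F2 (SS.std (n + 1))) b (N.sx F2 x) = t4
      generalize cup1 (a ∘ₗ A.c F2) (b ∘ₗ N.bd F2 (SS.std (n + 1))) (N.sx F2 x) = t5
      generalize cup ((b ∘ₗ A.c F2) ∘ₗ N.bd F2 (SS.std (n + 1))) (a ∘ₗ A.c F2) (N.sx F2 x) = t6
      generalize cup (b ∘ₗ A.c F2) ((a ∘ₗ A.c F2) ∘ₗ N.bd F2 (SS.std (n + 1))) (N.sx F2 x) = t7
      generalize a (N.sx F2 A.bot) * b (A.c F2 (N.sx F2 x)) = t8
      generalize b (N.sx F2 A.bot) * a (A.c F2 (N.sx F2 x)) = t9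
      generalize cup (b ∘ₗ A.c F2) a (N.sx F2 x) = t10
      revert t1 t2 t3 t4 t5 t6 t7 t8 t9 t10
      intro t1 t2 t3 t4 t5 t6 t7 t8 t9 t10
      have e1 := two_f2 t1
      have e2 := two_f2 t2
      have e3 := two_f2 t3
      have e4 := two_f2 t4
      have e8 := two_f2 t8
      have e9 := two_f2 t9
      have e10 := two_f2 t10
      have e6 := two_f2 t6
      have e7 := two_f2 t7
      linear_combination (-1) * e8 + (-1) * e9 + (-1) * e10
  refine hom_ext fun n x => ?_
  exact key n K a b x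

end mod2

end Crest.Agent.R204.Pont718
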