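import Crest.Agent.R204.EZCross_271

/-!
# Row 204, leaf G4 (helper718): cup and cup-1 products on normalised cochains

`Co R K := N R K →ₗ[R] R`; coboundary = precomposition with `N.bd` (no sign).
* `cup` : any ring, Leibniz rule `cup_bd`;
* `cup1` : Steenrod's `∪₁` with the mod 2 sign-free formula; coboundary formula `cup1_bd`.
-/

set_option autoImplicit false

namespace Crest.Agent.R204.Pont718

open EZ271 Finsupp Finset

theorem mem_ad {n : ℕ} {p : ℕ × ℕ} : p ∈ Finset.HasAntidiagonal.antidiagonal n ↔ p.1 + p.2 = n :=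
  Finset.HasAntidiagonal.mem_antidiagonal

/-- segment `[s, s+l]` of `[n]` (only used when `s + l ≤ n`) -/
def seg (n s l : ℕ) : Op l n :=
  ⟨fun a => ⟨min (s + a) n, by omega⟩, fun a b h => by
    have : (a : ℕ) ≤ b := h
    simp only [Fin.mk_le_mk]
    omega⟩

@[simp] theorem seg_val (n s l : ℕ) (a : Fin (l + 1)) : ((seg n s l a : Fin (n + 1)) : ℕ) = min (s + a) n := rfl

/-- the face `[0..i] ∪ [i+l..i+l+r]` of `[n]`, `n = i + l + r` -/
def gap (n i l r : ℕ) : Op (r + i + 1) n :=
  ⟨fun a => ⟨min (if (a : ℕ) ≤ i then (a : ℕ) else a - 1 + l) n, by omega⟩, fun a b h => by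
    have : (a : ℕ) ≤ b := h
    simp only [Fin.mk_le_mk]
    split_ifs <;> omega⟩

@[simp] theorem gap_val (n i l r : ℕ) (a : Fin (r + i + 1 + 1)) :
    ((gap n i l r a : Fin (n + 1)) : ℕ) = min (if (a : ℕ) ≤ i then (a : ℕ) else a - 1 + l) n := rfl

theorem seg_zero_self (n : ℕ) : seg n 0 n = OrderHom.id := by
  refine OrderHom.ext _ _ (funext fun a => Fin.ext ?_)
  simp only [seg_val, OrderHom.id_coe, id]
  omega

theorem seg_succ_front (n i : ℕ) : seg (n + 1) 0 (i + 1) = Op.star (seg n 0 i) := by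
  refine OrderHom.ext _ _ (funext fun a => ?_)
  induction a using Fin.cases with
  | zero => exact Fin.ext (by simp)
  | succ a =>
    refine Fin.ext ?_
    rw [Op.star_succ]
    simp only [seg_val, Fin.val_succ]
    omega

theorem seg_succ_back (n i l : ℕ) : seg (n + 1) (i + 1) l = (Op.face 0).comp (seg n i l) := by
  refine OrderHom.ext _ _ (funext fun a => ?_)
  refine Fin.ext ?_
  simp only [OrderHom.comp_coe, Function.comp_apply, face_zero_apply, Fin.val_succ, seg_val]
  omega

theorem seg_zero_zero (n : ℕ) : seg n 0 0 = ⟨fun _ => 0, fun _ _ _ => le_rfl⟩ := by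
  refine OrderHom.ext _ _ (funext fun a => ?_)
  refine Fin.ext ?_
  simp

theorem gap_succ_zero (n l r : ℕ) :
    gap (n + 1) 0 (l + 1) r = Op.cons ((Op.face 0).comp (seg n l r)) := by
  refine OrderHom.ext _ _ (funext fun a => ?_)
  induction a using Fin.cases with
  | zero => exact Fin.ext (by simp)
  | succ a =>
    refine Fin.ext ?_
    rw [Op.cons_succ]
    simp only [OrderHom.comp_coe, Function.comp_apply, face_zero_apply, gap_val, Fin.val_succ, seg_val]
    rw [if_neg (by omega)]
    omega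

theorem gap_succ_succ (n i l r : ℕ) : gap (n + 1) (i + 1) l r = Op.star (gap n i l r) := by
  refine OrderHom.ext _ _ (funext fun a => ?_)
  induction a using Fin.cases with
  | zero => exact Fin.ext (by simp)
  | succ a =>
    refine Fin.ext ?_
    rw [Op.star_succ]
    simp only [gap_val, Fin.val_succ]
    split_ifs <;> omega

variable {R : Type} [CommRing R] {K L : SS}

/-- simplices `γ^* y` with `γ` constant on a step vanish in normalised chains -/
theorem sx_act_eq_zero {m n : ℕ} (γ : Op m n) (y : K.S n) (a : ℕ) (ha : a + 1 ≤ m)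
    (h : (γ ⟨a, by omega⟩ : ℕ) = γ ⟨a + 1, by omega⟩) : N.sx R (K.act γ y) = 0 := by
  rcases m with _ | m
  · omega
  have e : γ = (γ.comp (Op.face ⟨a + 1, by omega⟩)).comp (Op.dgn ⟨a, by omega⟩) := by
    refine OrderHom.ext _ _ (funext fun b => ?_)
    simp only [OrderHom.comp_coe, Function.comp_apply]
    by_cases hb : (b : ℕ) = a + 1
    · have h1 : (Op.face (⟨a + 1, by omega⟩ : Fin (m + 2)) (Op.dgn (⟨a, by omega⟩ : Fin (m + 1)) b)) =
          (⟨a, by omega⟩ : Fin (m + 2)) := by
        refine Fin.ext ?_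
        rw [Ch.face_val, Ch.dgn_val]
        simp only
        split_ifs <;> omega
      rw [h1]
      have h2 : b = ⟨a + 1, by omega⟩ := Fin.ext hb
      exact (congrArg γ h2).trans (Fin.ext h).symm
    · have h1 : (Op.face (⟨a + 1, by omega⟩ : Fin (m + 2)) (Op.dgn (⟨a, by omega⟩ : Fin (m + 1)) b)) = b := by
        refine Fin.ext ?_
        rw [Ch.face_val, Ch.dgn_val]
        simp only
        split_ifs <;> omega
      rw [h1]
  rw [e, K.act_comp, N.sx_dgn]

/-- normalised cochains (all degrees together) -/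
abbrev Co (R : Type) [CommRing R] (K : SS) : Type := N R K →ₗ[R] R

theorem act_dgn_seg {n s l : ℕ} (j : Fin (n + 1)) (y : K.S n) (h1 : s ≤ j) (h2 : (j : ℕ) + 1 ≤ s + l) :
    N.sx R (K.act (seg (n + 1) s l) (K.act (Op.dgn j) y)) = 0 := by
  rw [← K.act_comp]
  refine sx_act_eq_zero _ _ (j - s) (by omega) ?_
  simp only [OrderHom.comp_coe, Function.comp_apply, Ch.dgn_val, seg_val]
  split_ifs <;> omega

theorem act_dgn_gap_left {n i l r : ℕ} (j : Fin (n + 1)) (y : K.S n) (hn : i + l + r = n + 1)
    (h1 : (j : ℕ) + 1 ≤ i) :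
    N.sx R (K.act (gap (n + 1) i l r) (K.act (Op.dgn j) y)) = 0 := by
  rw [← K.act_comp]
  refine sx_act_eq_zero _ _ j (by omega) ?_
  simp only [OrderHom.comp_coe, Function.comp_apply, Ch.dgn_val, gap_val]
  split_ifs <;> omega

theorem act_dgn_gap_right {n i l r : ℕ} (j : Fin (n + 1)) (y : K.S n) (hn : i + l + r = n + 1)
    (h1 : i + l ≤ (j : ℕ)) :
    N.sx R (K.act (gap (n + 1) i l r) (K.act (Op.dgn j) y)) = 0 := by
  rw [← K.act_comp]
  refine sx_act_eq_zero _ _ (j - l + 1) (by omega) ?_
  simp only [OrderHom.comp_coe, Function.comp_apply, Ch.dgn_val, gap_val]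
  split_ifs <;> omega

/-- cup product: front face ⊗ back face -/
noncomputable def cup (a b : Co R K) : Co R K :=
  liftN (fun n x => ∑ p ∈ antidiagonal n,
      a (N.sx R (K.act (seg n 0 p.1) x)) * b (N.sx R (K.act (seg n p.1 p.2) x)))
    (fun n j y => by
      refine Finset.sum_eq_zero fun p hp => ?_
      rw [mem_ad] at hp
      by_cases h : (j : ℕ) + 1 ≤ p.1
      · rw [act_dgn_seg j y (by omega) (by omega), map_zero, zero_mul]
      · rw [act_dgn_seg (s := p.1) (l := p.2) j y (by omega) (by omega), map_zero, mul_zero])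

theorem cup_sx (a b : Co R K) {n : ℕ} (x : K.S n) : cup a b (N.sx R x) = ∑ p ∈ antidiagonal n,
      a (N.sx R (K.act (seg n 0 p.1) x)) * b (N.sx R (K.act (seg n p.1 p.2) x)) := by
  simp [cup]

/-- cup-one product (sign-free formula) -/
noncomputable def cup1 (a b : Co R K) : Co R K :=
  liftN (fun n x => ∑ p ∈ antidiagonal n, ∑ q ∈ antidiagonal p.2,
      a (N.sx R (K.act (gap n p.1 q.1 q.2) x)) * b (N.sx R (K.act (seg n p.1 q.1) x)))
    (fun n j y => by
      refine Finset.sum_eq_zero fun p hp => Finset.sum_eq_zero fun q hq => ?_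
      rw [mem_ad] at hp hq
      by_cases h : (j : ℕ) + 1 ≤ p.1
      · rw [act_dgn_gap_left j y (by omega) h, map_zero, zero_mul]
      · by_cases h' : p.1 + q.1 ≤ (j : ℕ)
        · rw [act_dgn_gap_right j y (by omega) h', map_zero, zero_mul]
        · rw [act_dgn_seg (s := p.1) (l := q.1) j y (by omega) (by omega), map_zero, mul_zero])

theorem cup1_sx (a b : Co R K) {n : ℕ} (x : K.S n) : cup1 a b (N.sx R x) =
    ∑ p ∈ antidiagonal n, ∑ q ∈ antidiagonal p.2,
      a (N.sx R (K.act (gap n p.1 q.1 q.2) x)) * b (N.sx R (K.act (seg n p.1 q.1) x)) := by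
  simp [cup1]

/-! ## bilinearity, naturality -/

theorem cup_add_left (a a' b : Co R K) : cup (a + a') b = cup a b + cup a' b := by
  refine hom_ext fun n x => ?_
  simp only [cup_sx, LinearMap.add_apply, add_mul, Finset.sum_add_distrib]

theorem cup_add_right (a b b' : Co R K) : cup a (b + b') = cup a b + cup a b' := by
  refine hom_ext fun n x => ?_
  simp only [cup_sx, LinearMap.add_apply, mul_add, Finset.sum_add_distrib]

theorem cup_smul_left (r : R) (a b : Co R K) : cup (r • a) b = r • cup a b := by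
  refine hom_ext fun n x => ?_
  simp only [cup_sx, LinearMap.smul_apply, smul_eq_mul, Finset.mul_sum]
  exact Finset.sum_congr rfl fun _ _ => by ring

theorem cup_smul_right (r : R) (a b : Co R K) : cup a (r • b) = r • cup a b := by
  refine hom_ext fun n x => ?_
  simp only [cup_sx, LinearMap.smul_apply, smul_eq_mul, Finset.mul_sum]
  exact Finset.sum_congr rfl fun _ _ => by ring

theorem cup_zero_left (b : Co R K) : cup 0 b = 0 := by
  have := cup_smul_left (0 : R) 0 b; simpa using this

theorem cup_zero_right (a : Co R K) : cup a 0 = 0 := by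
  have := cup_smul_right (0 : R) a 0; simpa using this

theorem cup1_add_left (a a' b : Co R K) : cup1 (a + a') b = cup1 a b + cup1 a' b := by
  refine hom_ext fun n x => ?_
  simp only [cup1_sx, LinearMap.add_apply, add_mul, Finset.sum_add_distrib]

theorem cup1_add_right (a b b' : Co R K) : cup1 a (b + b') = cup1 a b + cup1 a b' := by
  refine hom_ext fun n x => ?_
  simp only [cup1_sx, LinearMap.add_apply, mul_add, Finset.sum_add_distrib]

theorem cup1_smul_left (r : R) (a b : Co R K) : cup1 (r • a) b = r • cup1 a b := by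
  refine hom_ext fun n x => ?_
  simp only [cup1_sx, LinearMap.smul_apply, smul_eq_mul, Finset.mul_sum]
  exact Finset.sum_congr rfl fun _ _ => Finset.sum_congr rfl fun _ _ => by ring

theorem cup1_smul_right (r : R) (a b : Co R K) : cup1 a (r • b) = r • cup1 a b := by
  refine hom_ext fun n x => ?_
  simp only [cup1_sx, LinearMap.smul_apply, smul_eq_mul, Finset.mul_sum]
  exact Finset.sum_congr rfl fun _ _ => Finset.sum_congr rfl fun _ _ => by ring

theorem cup1_zero_left (b : Co R K) : cup1 0 b = 0 := by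
  have := cup1_smul_left (0 : R) 0 b; simpa using this

theorem cup1_zero_right (a : Co R K) : cup1 a 0 = 0 := by
  have := cup1_smul_right (0 : R) a 0; simpa using this

/-- `cup` as a bilinear map -/
noncomputable def cupL : Co R K →ₗ[R] Co R K →ₗ[R] Co R K :=
  LinearMap.mk₂ R cup cup_add_left cup_smul_left cup_add_right cup_smul_right

/-- `cup1` as a bilinear map -/
noncomputable def cup1L : Co R K →ₗ[R] Co R K →ₗ[R] Co R K :=
  LinearMap.mk₂ R cup1 cup1_add_left cup1_smul_left cup1_add_right cup1_smul_right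

theorem cupL_apply (a b : Co R K) : cupL a b = cup a b := rfl
theorem cup1L_apply (a b : Co R K) : cup1L a b = cup1 a b := rfl

theorem cup_sum_left {ι : Type*} (s : Finset ι) (f : ι → Co R K) (b : Co R K) :
    cup (∑ i ∈ s, f i) b = ∑ i ∈ s, cup (f i) b := by
  rw [← cupL_apply, map_sum, LinearMap.sum_apply]; rfl

theorem cup_sum_right {ι : Type*} (s : Finset ι) (f : ι → Co R K) (a : Co R K) :
    cup a (∑ i ∈ s, f i) = ∑ i ∈ s, cup a (f i) := by
  rw [← cupL_apply, map_sum]; rfl

theorem cup1_sum_left {ι : Type*} (s : Finset ι) (f : ι → Co R K) (b : Co R K) :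
    cup1 (∑ i ∈ s, f i) b = ∑ i ∈ s, cup1 (f i) b := by
  rw [← cup1L_apply, map_sum, LinearMap.sum_apply]; rfl

theorem cup1_sum_right {ι : Type*} (s : Finset ι) (f : ι → Co R K) (a : Co R K) :
    cup1 a (∑ i ∈ s, f i) = ∑ i ∈ s, cup1 a (f i) := by
  rw [← cup1L_apply, map_sum]; rfl

theorem cup_map (f : SS.Hom K L) (a b : Co R L) :
    cup a b ∘ₗ N.map R f = cup (a ∘ₗ N.map R f) (b ∘ₗ N.map R f) := by
  refine hom_ext fun n x => ?_
  simp only [LinearMap.comp_apply, N.map_sx, cup_sx, f.nat]

theorem cup1_map (f : SS.Hom K L) (a b : Co R L) :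
    cup1 a b ∘ₗ N.map R f = cup1 (a ∘ₗ N.map R f) (b ∘ₗ N.map R f) := by
  refine hom_ext fun n x => ?_
  simp only [LinearMap.comp_apply, N.map_sx, cup1_sx, f.nat]

/-! ## sign operator and units -/

theorem cup_sg (a b : Co R K) : cup a b ∘ₗ sg R = cup (a ∘ₗ sg R) (b ∘ₗ sg R) := by
  refine hom_ext fun n x => ?_
  simp only [LinearMap.comp_apply, sg_sx, map_smul, cup_sx, smul_eq_mul, Finset.mul_sum]
  refine Finset.sum_congr rfl fun p hp => ?_
  rw [mem_ad] at hp
  have e : (-1 : R) ^ n = (-1) ^ p.1 * (-1) ^ p.2 := by rw [← hp, pow_add]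
  rw [e]; ring

theorem cup_neg_left (a b : Co R K) : cup (-a) b = - cup a b := by
  rw [← cupL_apply, map_neg]; rfl

theorem cup_neg_right (a b : Co R K) : cup a (-b) = - cup a b := by
  rw [← cupL_apply, map_neg]; rfl

theorem cup_aug_right (a : Co R K) : cup a (aug R) = a := by
  refine hom_ext fun n x => ?_
  rw [cup_sx, Finset.sum_eq_single (n, 0)]
  · rw [show ((n, 0) : ℕ × ℕ).1 = n from rfl, seg_zero_self, K.act_id, aug_sx_zero, mul_one]
  · rintro ⟨i, l⟩ hp hne
    rw [mem_ad] at hp
    rcases l with _ | l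
    · exact absurd (by simp only at hp; simp [← hp]) hne
    · simp
  · intro h; exact absurd (by simp) h

theorem cup_aug_left (a : Co R K) : cup (aug R) a = a := by
  refine hom_ext fun n x => ?_
  rw [cup_sx, Finset.sum_eq_single (0, n)]
  · rw [show ((0, n) : ℕ × ℕ).2 = n from rfl, show ((0, n) : ℕ × ℕ).1 = 0 from rfl, seg_zero_self,
      K.act_id, aug_sx_zero, one_mul]
  · rintro ⟨i, l⟩ hp hne
    rw [mem_ad] at hp
    rcases i with _ | i
    · exact absurd (by simp only at hp; simp [← hp]) hne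
    · simp
  · intro h; exact absurd (by simp) h

theorem cup1_aug_left (b : Co R K) : cup1 (aug R) b = 0 := by
  refine hom_ext fun n x => ?_
  rw [cup1_sx, LinearMap.zero_apply]
  refine Finset.sum_eq_zero fun p _ => Finset.sum_eq_zero fun q _ => ?_
  rw [aug_sx_succ, zero_mul]

theorem sx_gap_zero {n i r : ℕ} (x : K.S n) (h : i + r ≤ n) : N.sx R (K.act (gap n i 0 r) x) = 0 := by
  refine sx_act_eq_zero _ _ i (by omega) ?_
  simp only [gap_val]
  split_ifs <;> omega

theorem cup1_aug_right (a : Co R K) : cup1 a (aug R) = 0 := by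
  refine hom_ext fun n x => ?_
  rw [cup1_sx, LinearMap.zero_apply]
  refine Finset.sum_eq_zero fun p hp => Finset.sum_eq_zero fun q hq => ?_
  rw [mem_ad] at hp hq
  obtain ⟨l, r⟩ := q
  rcases l with _ | l
  · simp only at hq ⊢
    rw [sx_gap_zero x (by omega), map_zero, zero_mul]
  · rw [aug_sx_succ, mul_zero]

/-! ## cone recursion -/

section cone

variable (A : Cone K) (B : Cone L)

/-- value at the cone point and the cochain `x ↦ a (cone x)` -/
noncomputable abbrev hk (a : Co R K) : Co R K := a ∘ₗ A.c R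

theorem act_seg_zero_zero {n : ℕ} (x : K.S n) : K.act (seg (n + 1) 0 0) (A.k x) = A.bot :=
  A.h_vert _ _ (by refine Fin.ext ?_; simp)

theorem act_seg_front {n : ℕ} (i : ℕ) (x : K.S n) :
    K.act (seg (n + 1) 0 (i + 1)) (A.k x) = A.k (K.act (seg n 0 i) x) := by
  rw [seg_succ_front, A.h_star]

theorem act_seg_back {n : ℕ} (i l : ℕ) (x : K.S n) :
    K.act (seg (n + 1) (i + 1) l) (A.k x) = K.act (seg n i l) x := by
  rw [seg_succ_back, K.act_comp, A.h_face]

theorem act_gap_zero {n : ℕ} (l r : ℕ) (x : K.S n) :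
    K.act (gap (n + 1) 0 (l + 1) r) (A.k x) = A.k (K.act (seg n l r) x) := by
  rw [gap_succ_zero, A.h_cons, K.act_comp, A.h_face]

theorem act_gap_succ {n : ℕ} (i l r : ℕ) (x : K.S n) :
    K.act (gap (n + 1) (i + 1) l r) (A.k x) = A.k (K.act (gap n i l r) x) := by
  rw [gap_succ_succ, A.h_star]

theorem cup_cone (a b : Co R K) (w : N R K) :
    cup a b (A.c R w) = a (N.sx R A.bot) * b (A.c R w) + cup (hk A a) b w := by
  have : cup a b ∘ₗ A.c R = (a (N.sx R A.bot)) • (b ∘ₗ A.c R) + cup (hk A a) b := by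
    refine hom_ext fun n x => ?_
    simp only [LinearMap.comp_apply, LinearMap.add_apply, LinearMap.smul_apply, smul_eq_mul,
      Cone.c_sx]
    rw [cup_sx, cup_sx, Finset.Nat.sum_antidiagonal_succ, act_seg_zero_zero]
    simp only [act_seg_front, act_seg_back]
    rw [seg_zero_self, K.act_id]
    simp only [hk, LinearMap.comp_apply, Cone.c_sx]
  exact LinearMap.congr_fun this w

theorem cup_bot (a b : Co R K) (v : K.S 0) :
    cup a b (N.sx R v) = a (N.sx R v) * b (N.sx R v) := by
  rw [cup_sx]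
  simp [seg_zero_self, K.act_id]

theorem cup1_bot (a b : Co R K) (v : K.S 0) : cup1 a b (N.sx R v) = 0 := by
  rw [cup1_sx]
  refine Finset.sum_eq_zero fun p hp => Finset.sum_eq_zero fun q hq => ?_
  rw [mem_ad] at hp hq
  obtain ⟨i, p2⟩ := p
  obtain ⟨l, r⟩ := q
  obtain rfl : l = 0 := by simp only at hp hq; omega
  rw [sx_gap_zero v (by simp only at hp hq ⊢; omega), map_zero, zero_mul]

theorem cup1_cone (a b : Co R K) (w : N R K) :
    cup1 a b (A.c R w) = cup1 (hk A a) b w + cup (hk A b) (hk A a) w := by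
  have : cup1 a b ∘ₗ A.c R = cup1 (hk A a) b + cup (hk A b) (hk A a) := by
    refine hom_ext fun n x => ?_
    simp only [LinearMap.comp_apply, LinearMap.add_apply, Cone.c_sx]
    rw [cup1_sx, cup1_sx, cup_sx, Finset.Nat.sum_antidiagonal_succ]
    simp only
    rw [Finset.Nat.sum_antidiagonal_succ]
    simp only
    rw [sx_gap_zero (A.k x) (by omega), map_zero, zero_mul, zero_add, add_comm]
    congr 1
    · refine Finset.sum_congr rfl fun p _ => Finset.sum_congr rfl fun q _ => ?_
      rw [act_gap_succ, act_seg_back]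
      simp only [hk, LinearMap.comp_apply, Cone.c_sx]
    · refine Finset.sum_congr rfl fun p _ => ?_
      rw [act_gap_zero, act_seg_front]
      simp only [hk, LinearMap.comp_apply, Cone.c_sx]
      ring
  exact LinearMap.congr_fun this w

theorem hk_hk (a : Co R K) : hk A (hk A a) = 0 := by
  refine LinearMap.ext fun w => ?_
  simp only [hk, LinearMap.comp_apply, Cone.c_c, map_zero, LinearMap.zero_apply]

theorem hk_bot (a : Co R K) : hk A a (N.sx R A.bot) = 0 := by
  simp only [hk, LinearMap.comp_apply, Cone.c_bot, map_zero]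

theorem hk_bd (a : Co R K) :
    hk A (a ∘ₗ N.bd R K) = a - hk A a ∘ₗ N.bd R K - a (N.sx R A.bot) • aug R := by
  refine LinearMap.ext fun w => ?_
  simp only [hk, LinearMap.comp_apply, Cone.bd_c, map_sub, map_smul, LinearMap.sub_apply,
    LinearMap.smul_apply, smul_eq_mul]
  ring

theorem hk_sg (a : Co R K) : hk A (a ∘ₗ sg R) = - (hk A a ∘ₗ sg R) := by
  refine LinearMap.ext fun w => ?_
  simp only [hk, LinearMap.comp_apply, LinearMap.neg_apply, Cone.sg_c, map_neg]

end cone

/-- every natural identity may be checked on cones: reduction to `ι_{n+1} = cone (face 0)` -/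
theorem iota_succ (n : ℕ) : N.sx R (K := SS.std (n + 1)) (OrderHom.id : Op (n + 1) (n + 1)) =
    (Cone.std (n + 1)).c R (N.sx R (K := SS.std (n + 1)) (Op.face 0 : Op n (n + 1))) := by
  rw [Cone.c_sx]
  congr 1
  refine OrderHom.ext _ _ (funext fun a => ?_)
  induction a using Fin.cases with
  | zero => rfl
  | succ a => rfl

theorem iota_zero : N.sx R (K := SS.std 0) (OrderHom.id : Op 0 0) = N.sx R (Cone.std 0).bot := by
  congr 1
  refine OrderHom.ext _ _ (funext fun a => Fin.ext (by omega))

/-- Leibniz rule (over any ring) -/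
theorem cup_bd (a b : Co R K) : cup a b ∘ₗ N.bd R K =
    cup (a ∘ₗ N.bd R K) b + cup (a ∘ₗ sg R) (b ∘ₗ N.bd R K) := by
  refine hom_ext fun n => ?_
  have key : ∀ (n : ℕ) (K : SS) (a b : Co R K) (x : K.S n),
      cup a b (N.bd R K (N.sx R x)) =
        cup (a ∘ₗ N.bd R K) b (N.sx R x) + cup (a ∘ₗ sg R) (b ∘ₗ N.bd R K) (N.sx R x) := by
    intro n
    induction n with
    | zero =>
      intro K a b x
      rw [bd_sx_zero, map_zero, cup_bot, cup_bot]
      simp [bd_sx_zero]
    | succ n ih =>
      intro K a b x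
      suffices H : ∀ (A : Cone (SS.std (n + 1))) (x : (SS.std (n + 1)).S n)
          (a b : Co R (SS.std (n + 1))),
          cup a b (N.bd R _ (A.c R (N.sx R x))) =
            cup (a ∘ₗ N.bd R _) b (A.c R (N.sx R x)) +
              cup (a ∘ₗ sg R) (b ∘ₗ N.bd R _) (A.c R (N.sx R x)) by
        have h := H (Cone.std (n + 1)) (Op.face 0 : Op n (n + 1)) (a ∘ₗ N.map R (K.yo x))
          (b ∘ₗ N.map R (K.yo x))
        rw [← iota_succ] at h
        have e1 : (a ∘ₗ N.map R (K.yo x)) ∘ₗ N.bd R _ = (a ∘ₗ N.bd R K) ∘ₗ N.map R (K.yo x) :=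
          LinearMap.ext fun w => by simp [map_bd']
        have e2 : (b ∘ₗ N.map R (K.yo x)) ∘ₗ N.bd R _ = (b ∘ₗ N.bd R K) ∘ₗ N.map R (K.yo x) :=
          LinearMap.ext fun w => by simp [map_bd']
        have e3 : (a ∘ₗ N.map R (K.yo x)) ∘ₗ sg R = (a ∘ₗ sg R) ∘ₗ N.map R (K.yo x) :=
          LinearMap.ext fun w => by simp [map_sg]
        rw [e1, e2, e3, ← cup_map, ← cup_map, ← cup_map] at h
        simp only [LinearMap.comp_apply, map_bd', N.map_sx, yo_iota] at h
        exact h
      intro A x a b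
      have IH := ih _ (hk A a) b x
      rw [Cone.bd_c, map_sub, map_sub, cup_cone, IH, cup_cone, cup_cone, hk_bd, hk_sg, map_smul,
        cup_bot]
      simp only [sub_eq_add_neg, cup_add_left, LinearMap.add_apply, LinearMap.comp_apply,
        bd_sx_zero, sg_sx, pow_zero, one_smul, map_zero, zero_mul, zero_add, Cone.bd_c]
      rw [cup_neg_left, cup_neg_left, cup_neg_left, cup_smul_left, cup_aug_left]
      simp only [LinearMap.neg_apply, LinearMap.smul_apply, smul_eq_mul, map_add, map_neg, map_smul]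
      ring
  exact fun x => key n K a b x

end Crest.Agent.R204.Pont718
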