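import Crest.Agent.R204.LC_803

/-!
# The functor `Co` (cochains on lists with values in a complex / dg-ring) and the filtration lemma

(row 204, block G, leaf G5; helper803)
-/

set_option autoImplicit false

namespace Crest.Agent.R204.SQ803

/-- cochains on lists with values in `B` -/
structure Co (J B : Type*) where
  f : List J → B

/-- complexes (ungraded) -/
class Cx (B : Type*) [AddCommGroup B] where
  δ : B →+ B
  δδ : ∀ b, δ (δ b) = 0

instance (n : ℕ) : Cx (ZMod n) := ⟨0, fun _ => rfl⟩

theorem Cx.zmod (n : ℕ) (b : ZMod n) : Cx.δ b = 0 := rfl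

/-- kill the value at the empty list -/
def nz {J B : Type*} [Zero B] (f : List J → B) : List J → B
  | [] => 0
  | x :: l => f (x :: l)

@[simp] theorem nz_nil {J B : Type*} [Zero B] (f : List J → B) : nz f [] = 0 := rfl
@[simp] theorem nz_cons {J B : Type*} [Zero B] (f : List J → B) (x : J) (l : List J) :
    nz f (x :: l) = f (x :: l) := rfl

theorem nz_of {J B : Type*} [Zero B] {f : List J → B} (h : f [] = 0) : nz f = f := by
  funext l; cases l with
  | nil => rw [nz_nil, h]
  | cons x l => rfl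

theorem nz_nz {J B : Type*} [Zero B] (f : List J → B) : nz (nz f) = nz f := nz_of rfl

namespace Co

variable {J J' J'' B B' B'' : Type*}

theorem ext {F G : Co J B} (h : ∀ l, F.f l = G.f l) : F = G := by
  cases F; cases G; congr; exact funext h

theorem f_inj : Function.Injective (Co.f : Co J B → List J → B) := fun _ _ h => ext (congrFun h)

section grp
variable [AddCommGroup B] [AddCommGroup B'] [AddCommGroup B'']

instance : Zero (Co J B) := ⟨⟨0⟩⟩
instance : Add (Co J B) := ⟨fun F G => ⟨F.f + G.f⟩⟩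
instance : Neg (Co J B) := ⟨fun F => ⟨-F.f⟩⟩
instance : Sub (Co J B) := ⟨fun F G => ⟨F.f - G.f⟩⟩
instance : SMul ℕ (Co J B) := ⟨fun n F => ⟨n • F.f⟩⟩
instance : SMul ℤ (Co J B) := ⟨fun n F => ⟨n • F.f⟩⟩

instance : AddCommGroup (Co J B) :=
  f_inj.addCommGroup _ rfl (fun _ _ => rfl) (fun _ => rfl) (fun _ _ => rfl) (fun _ _ => rfl)
    (fun _ _ => rfl)

@[simp] theorem zero_f (l : List J) : (0 : Co J B).f l = 0 := rfl
@[simp] theorem add_f (F G : Co J B) (l : List J) : (F + G).f l = F.f l + G.f l := rfl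
@[simp] theorem neg_f (F : Co J B) (l : List J) : (-F).f l = - F.f l := rfl
@[simp] theorem sub_f (F G : Co J B) (l : List J) : (F - G).f l = F.f l - G.f l := rfl
@[simp] theorem zsmul_f (n : ℤ) (F : Co J B) (l : List J) : (n • F).f l = n • F.f l := rfl

/-- evaluation -/
def ev (l : List J) : Co J B →+ B where
  toFun F := F.f l
  map_zero' := rfl
  map_add' _ _ := rfl

@[simp] theorem ev_apply (l : List J) (F : Co J B) : ev l F = F.f l := rfl

theorem sum_f {ι : Type*} (s : Finset ι) (F : ι → Co J B) (l : List J) :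
    (∑ i ∈ s, F i).f l = ∑ i ∈ s, (F i).f l := map_sum (ev l) F s

theorem dl_f (l : List J) (F : List J → Co J' B) (x : List J') :
    (dl l F).f x = dl l (fun l' => (F l').f x) := (dl_hom (ev x) l F).symm

theorem nz_add (F G : Co J B) : nz (F + G).f = fun l => nz F.f l + nz G.f l := by
  funext l; cases l <;> simp

variable [Cx B] [Cx B'] [Cx B'']

/-- total differential -/
def dlt : Co J B →+ Co J B where
  toFun F := ⟨fun l => dl l (nz F.f) + sg l.length • Cx.δ (nz F.f l)⟩
  map_zero' := by
    refine Co.ext fun l => ?_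
    have h : nz (0 : Co J B).f = fun _ => 0 := by funext l; cases l <;> rfl
    show dl l (nz (0 : Co J B).f) + sg l.length • Cx.δ (nz (0 : Co J B).f l) = 0
    rw [h]; simp
  map_add' F G := by
    refine Co.ext fun l => ?_
    show dl l (nz (F + G).f) + sg l.length • Cx.δ (nz (F + G).f l) = _
    rw [nz_add, dl_add, map_add, smul_add]
    show _ = (dl l (nz F.f) + sg l.length • Cx.δ (nz F.f l)) +
      (dl l (nz G.f) + sg l.length • Cx.δ (nz G.f l))
    abel

theorem dlt_f (F : Co J B) (l : List J) :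
    (dlt F).f l = dl l (nz F.f) + sg l.length • Cx.δ (nz F.f l) := rfl

@[simp] theorem dlt_nil (F : Co J B) : (dlt F).f [] = 0 := by simp [dlt_f]

theorem nz_dlt (F : Co J B) : nz (dlt F).f = (dlt F).f := nz_of (dlt_nil F)

theorem dlt_of {F : Co J B} (h : F.f [] = 0) (l : List J) :
    (dlt F).f l = dl l F.f + sg l.length • Cx.δ (F.f l) := by rw [dlt_f, nz_of h]

theorem dlt_dlt (F : Co J B) : dlt (dlt F) = 0 := by
  refine Co.ext fun l => ?_
  rw [dlt_f, nz_dlt]
  have e1 : dl l (dlt F).f = dl l (fun l' => dl l' (nz F.f)) +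
      dl l (fun l' => sg l'.length • Cx.δ (nz F.f l')) := by
    rw [← dl_add]; rfl
  rw [e1, dl_dl, dl_sg, dl_hom, dlt_f, map_add, map_zsmul, Cx.δδ, smul_zero, add_zero, zero_add,
    neg_smul, neg_add_cancel, zero_f]

instance : Cx (Co J B) := ⟨dlt, dlt_dlt⟩

theorem δ_eq (F : Co J B) : Cx.δ F = dlt F := rfl

theorem δ_of {F : Co J B} (h : F.f [] = 0) (l : List J) :
    (Cx.δ F).f l = dl l F.f + sg l.length • Cx.δ (F.f l) := dlt_of h l

@[simp] theorem δ_nil (F : Co J B) : (Cx.δ F).f [] = 0 := dlt_nil F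

end grp

section pull
variable [AddCommGroup B] [AddCommGroup B'] [AddCommGroup B'']

/-- pull back along `α : J → J'` and push the values along `ψ` -/
def pull (α : J → J') (ψ : B' →+ B) : Co J' B' →+ Co J B where
  toFun F := ⟨fun l => ψ (F.f (l.map α))⟩
  map_zero' := Co.ext fun _ => map_zero ψ
  map_add' _ _ := Co.ext fun _ => map_add ψ _ _

@[simp] theorem pull_f (α : J → J') (ψ : B' →+ B) (F : Co J' B') (l : List J) :
    (pull α ψ F).f l = ψ (F.f (l.map α)) := rfl

theorem nz_pull (α : J → J') (ψ : B' →+ B) (F : Co J' B') :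
    nz (pull α ψ F).f = fun l => ψ (nz F.f (l.map α)) := by
  funext l; cases l with
  | nil => simp
  | cons x l => rfl

theorem δ_pull [Cx B] [Cx B'] (α : J → J') (ψ : B' →+ B) (hψ : ∀ b, Cx.δ (ψ b) = ψ (Cx.δ b))
    (F : Co J' B') : Cx.δ (pull α ψ F) = pull α ψ (Cx.δ F) := by
  refine Co.ext fun l => ?_
  rw [pull_f, δ_eq, δ_eq, dlt_f, dlt_f, nz_pull, map_add, map_zsmul, hψ, List.length_map,
    dl_hom ψ, dl_map α l (nz F.f)]

/-- value `b` on one-element lists -/
def kap : B →+ Co J B where
  toFun b := ⟨fun l => if l.length = 1 then b else 0⟩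
  map_zero' := Co.ext fun l => by simp
  map_add' a b := Co.ext fun l => by
    simp only [add_f]; split_ifs <;> simp

theorem kap_f (b : B) (l : List J) : (kap (J := J) b).f l = if l.length = 1 then b else 0 := rfl

@[simp] theorem kap_nil (b : B) : (kap (J := J) b).f [] = 0 := rfl
@[simp] theorem kap_single (b : B) (x : J) : (kap (J := J) b).f [x] = b := rfl

theorem dl_kap (b : B) (l : List J) : dl l (kap (J := J) b).f = 0 := by
  rcases l with _ | ⟨x, _ | ⟨y, l⟩⟩
  · simp
  · simp [dl_cons]
  · rw [dl_cons, dl_cons]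
    have h : (fun l' => (kap (J := J) b).f (x :: y :: l')) = fun _ => 0 := by
      funext l'; simp [kap_f]
    rw [h, dl_zero, sub_zero]
    simp [kap_f]

theorem δ_kap [Cx B] (b : B) : Cx.δ (kap (J := J) b) = kap (Cx.δ b) := by
  refine Co.ext fun l => ?_
  rw [δ_of (kap_nil b), dl_kap, zero_add, kap_f, kap_f]
  split_ifs with h
  · rw [h]; simp [sg]
  · simp

theorem kap_injective [Nonempty J] : Function.Injective (kap (J := J) (B := B)) := by
  intro a b h
  obtain ⟨x⟩ := ‹Nonempty J›
  have := congrArg (fun F : Co J B => F.f [x]) h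
  simpa using this

theorem pull_kap (α : J → J') (ψ : B' →+ B) (b : B') : pull α ψ (kap b) = kap (ψ b) := by
  refine Co.ext fun l => ?_
  simp only [pull_f, kap_f, List.length_map]
  split_ifs <;> simp

end pull

section ring
variable [NonUnitalRing B] [NonUnitalRing B']

instance : Mul (Co J B) := ⟨fun F G => ⟨fun l => cupl l F.f G.f⟩⟩

instance : NonUnitalRing (Co J B) :=
  { (inferInstance : AddCommGroup (Co J B)), (inferInstance : Mul (Co J B)) with
    left_distrib := fun f g h => Co.ext fun l => cupl_add_right l f.f g.f h.f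
    right_distrib := fun f g h => Co.ext fun l => cupl_add_left l f.f g.f h.f
    zero_mul := fun f => Co.ext fun l => cupl_zero_left l f.f
    mul_zero := fun f => Co.ext fun l => cupl_zero_right l f.f
    mul_assoc := fun f g h => Co.ext fun l => cupl_assoc l f.f g.f h.f }

theorem mul_f (F G : Co J B) (l : List J) : (F * G).f l = cupl l F.f G.f := rfl

@[simp] theorem mul_nil (F G : Co J B) : (F * G).f [] = 0 := rfl

theorem pull_mul (α : J → J') (ψ : B' →+ B) (hψ : ∀ a b, ψ (a * b) = ψ a * ψ b) (F G : Co J' B') :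
    pull α ψ (F * G) = pull α ψ F * pull α ψ G := by
  refine Co.ext fun l => ?_
  rw [pull_f, mul_f, mul_f, ← cupl_map α l F.f G.f]
  have key : ∀ (l : List J) (f g : List J → B'), ψ (cupl l f g) =
      cupl l (fun l' => ψ (f l')) (fun l' => ψ (g l')) := by
    intro l
    induction l with
    | nil => intro f g; simp
    | cons x l ih => intro f g; rw [cupl_cons, cupl_cons, map_add, hψ, ih]
  rw [key]; rfl

theorem kap_mul (b : B) (G : Co J B) {l : List J} (hl : l ≠ []) :
    (kap b * G).f l = b * G.f l := by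
  cases l with
  | nil => exact absurd rfl hl
  | cons x l =>
    rw [mul_f, cupl_cons, kap_single]
    have : cupl l (fun l' => (kap (J := J) b).f (x :: l')) G.f = cupl l (fun _ => 0) G.f :=
      cupl_congr (fun y l' => by simp [kap_f]) (fun _ _ => rfl)
    rw [this, cupl_zero_left, add_zero]

theorem mul_kap (b : B) (G : Co J B) {l : List J} (hl : l ≠ []) :
    (G * kap b).f l = G.f l * b := by
  rw [mul_f]
  have key : ∀ (l : List J) (g : List J → B), l ≠ [] → cupl l g (kap (J := J) b).f = g l * b := by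
    intro l
    induction l with
    | nil => intro g h; exact absurd rfl h
    | cons x l ih =>
      intro g _
      rw [cupl_cons]
      cases l with
      | nil => simp
      | cons y l => rw [ih _ (by simp)]; simp [kap_f]
  exact key l G.f hl

theorem kap_mul_kap (a b : B) : kap (J := J) a * kap b = kap (a * b) := by
  refine Co.ext fun l => ?_
  cases l with
  | nil => rfl
  | cons x l =>
    rw [kap_mul _ _ (by simp), kap_f, kap_f]
    split_ifs <;> simp

end ring

end Co

/-- dg-rings of characteristic two (no signs, no units) -/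
class DG2 (B : Type*) [NonUnitalRing B] [Cx B] : Prop where
  two : ∀ b : B, b + b = 0
  leib : ∀ a b : B, Cx.δ (a * b) = Cx.δ a * b + a * Cx.δ b

instance : DG2 (ZMod 2) where
  two b := by revert b; decide
  leib a b := by simp [Cx.zmod]

theorem sub_eq_add_of_two {B : Type*} [AddCommGroup B] (two : ∀ b : B, b + b = 0) (a b : B) :
    a - b = a + b := by rw [sub_eq_iff_eq_add, add_assoc, two, add_zero]

theorem sg_smul_of_two {B : Type*} [AddCommGroup B] (two : ∀ b : B, b + b = 0) (n : ℕ) (b : B) :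
    sg n • b = b := by
  unfold sg
  rcases neg_one_pow_eq_or ℤ (n + 1) with h | h
  · rw [h, one_smul]
  · rw [h, neg_smul, one_smul, neg_eq_iff_add_eq_zero, two]

instance {J B : Type*} [NonUnitalRing B] [Cx B] [DG2 B] : DG2 (Co J B) where
  two b := Co.ext fun l => DG2.two (b.f l)
  leib F G := by
    refine Co.ext fun l => ?_
    have two := DG2.two (B := B)
    have hF : ∀ (h : Co J B) (l : List J), (Cx.δ h).f l = dl l (nz h.f) + Cx.δ (nz h.f l) := by
      intro h l
      rw [Co.δ_eq, Co.dlt_f, sg_smul_of_two two]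
    have e0 : nz (F * G).f = fun l => cupl l (nz F.f) (nz G.f) := by
      rw [nz_of (Co.mul_nil F G)]
      funext l
      rw [Co.mul_f]
      exact cupl_congr (fun _ _ => rfl) (fun _ _ => rfl)
    have e1 : (Cx.δ F * G : Co J B).f l =
        cupl l (fun l' => dl l' (nz F.f) + Cx.δ (nz F.f l')) (nz G.f) := by
      rw [Co.mul_f]
      exact cupl_congr (fun _ _ => hF F _) (fun _ _ => rfl)
    have e2 : (F * Cx.δ G : Co J B).f l =
        cupl l (nz F.f) (fun l' => dl l' (nz G.f) + Cx.δ (nz G.f l')) := by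
      rw [Co.mul_f]
      exact cupl_congr (fun _ _ => rfl) (fun _ _ => hF G _)
    rw [hF, e0, dl_cup two, Co.add_f, e1, e2, cupl_add_left, cupl_add_right,
      cupl_der (fun b => Cx.δ b) (map_zero _) (fun a b => map_add _ a b) DG2.leib]
    simp only [nz_nil, zero_mul, mul_zero, add_zero]
    abel

/-! ## the filtration lemma -/

/-- double complex lemma: lower the `d1`-level of a cochain whose coboundary has low level -/
theorem dc {E : Type*} [AddCommGroup E] (δ d1 : E →+ E) (hδδ : ∀ F, δ (δ F) = 0)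
    (c : ℕ → E →+ E) (P P' : AddSubgroup E) (k0 : ℕ)
    (hδP : ∀ H ∈ P', δ H ∈ P) (hcP : ∀ k, ∀ F ∈ P, c k F ∈ P)
    (htop : ∀ F K, (F ∈ P ∨ F ∈ P') → (∀ k > K, c k F = 0) → c (K + 1) (δ F) = d1 (c K F))
    (hcc : ∀ k F, c k (c k F) = c k F) (hcc' : ∀ j k F, j ≠ k → c j (c k F) = 0)
    (hex : ∀ k > k0, ∀ G ∈ P, c k G = G → d1 G = 0 → ∃ H ∈ P', c (k - 1) H = H ∧ d1 H = G)
    (K : ℕ) (F : E) (hF : F ∈ P) (hK : ∀ k > K, c k F = 0) (hδF : ∀ k > k0 + 1, c k (δ F) = 0) :
    ∃ F' ∈ P, ∃ H ∈ P', F = F' + δ H ∧ ∀ k > k0, c k F' = 0 := by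
  induction K generalizing F with
  | zero =>
    exact ⟨F, hF, 0, P'.zero_mem, by simp, fun k hk => hK k (by omega)⟩
  | succ K ih =>
    by_cases hKk : K + 1 ≤ k0
    · exact ⟨F, hF, 0, P'.zero_mem, by simp, fun k hk => hK k (by omega)⟩
    · have h1 : d1 (c (K + 1) F) = 0 := by
        rw [← htop F (K + 1) (Or.inl hF) hK]
        exact hδF _ (by omega)
      obtain ⟨H, hH, hcH, hdH⟩ := hex (K + 1) (by omega) (c (K + 1) F) (hcP _ _ hF) (hcc _ _) h1
      rw [Nat.add_sub_cancel] at hcH
      have hH0 : ∀ k > K, c k H = 0 := fun k hk => by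
        rw [← hcH]; exact hcc' _ _ _ (by omega)
      have hH1 : c (K + 1) (δ H) = c (K + 1) F := by
        rw [htop H K (Or.inr hH) hH0, hcH, hdH]
      have hH2 : ∀ k > K + 1, c k (δ H) = 0 := by
        intro k hk
        obtain ⟨j, rfl⟩ : ∃ j, k = j + 1 := ⟨k - 1, by omega⟩
        rw [htop H j (Or.inr hH) (fun i hi => hH0 i (by omega)), hH0 j (by omega), map_zero]
      obtain ⟨F', hF', H', hH', e, hF0⟩ := ih (F - δ H) (P.sub_mem hF (hδP H hH))
        (fun k hk => by
          rw [map_sub]
          rcases Nat.lt_or_ge (K + 1) k with h | h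
          · rw [hK k h, hH2 k h, sub_zero]
          · have : k = K + 1 := by omega
            rw [this, hH1, sub_self])
        (fun k hk => by rw [map_sub, hδδ, sub_zero]; exact hδF k hk)
      refine ⟨F', hF', H' + H, P'.add_mem hH' hH, ?_, hF0⟩
      rw [map_add, ← add_assoc, ← e]; abel

end Crest.Agent.R204.SQ803
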