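import Crest.Agent.R204.CrsX_718

/-!
# Row 204, leaf G4 (helper718): homogeneous cochains
-/

set_option autoImplicit false

namespace Crest.Agent.R204.Pont718

open EZ271 Finsupp

variable {R : Type} [CommRing R] {K L : SS}

/-- the cochain `a` is homogeneous of degree `m` -/
def IsDeg (m : ℕ) (a : Co R K) : Prop := ∀ (n : ℕ) (x : K.S n), n ≠ m → a (N.sx R x) = 0

theorem IsDeg.zero (m : ℕ) : IsDeg m (0 : Co R K) := fun _ _ _ => rfl

theorem IsDeg.add {m : ℕ} {a b : Co R K} (ha : IsDeg m a) (hb : IsDeg m b) : IsDeg m (a + b) :=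
  fun n x h => by rw [LinearMap.add_apply, ha n x h, hb n x h, add_zero]

theorem IsDeg.smul {m : ℕ} {a : Co R K} (r : R) (ha : IsDeg m a) : IsDeg m (r • a) :=
  fun n x h => by rw [LinearMap.smul_apply, ha n x h, smul_zero]

theorem IsDeg.sum {m : ℕ} {ι : Type*} (s : Finset ι) {a : ι → Co R K}
    (ha : ∀ i ∈ s, IsDeg m (a i)) : IsDeg m (∑ i ∈ s, a i) :=
  fun n x h => by
    rw [LinearMap.sum_apply]
    exact Finset.sum_eq_zero fun i hi => ha i hi n x h

theorem IsDeg.aug : IsDeg 0 (aug R (K := K)) := fun n x h => by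
  rcases n with _ | n
  · exact absurd rfl h
  · simp

theorem IsDeg.map {m : ℕ} {a : Co R L} (ha : IsDeg m a) (f : SS.Hom K L) :
    IsDeg m (a ∘ₗ N.map R f) := fun n x h => by
  rw [LinearMap.comp_apply, N.map_sx, ha n _ h]

theorem IsDeg.cup {p q : ℕ} {a b : Co R K} (ha : IsDeg p a) (hb : IsDeg q b) :
    IsDeg (p + q) (cup a b) := fun n x h => by
  rw [cup_sx]
  refine Finset.sum_eq_zero fun t ht => ?_
  rw [mem_ad] at ht
  by_cases h1 : t.1 = p
  · rw [hb _ _ (by omega), mul_zero]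
  · rw [ha _ _ h1, zero_mul]

theorem IsDeg.cup1_apply {p q : ℕ} {a b : Co R K} (ha : IsDeg p a) (hb : IsDeg q b) (n : ℕ) (x : K.S n)
    (h : n + 1 ≠ p + q) : cup1 a b (N.sx R x) = 0 := by
  rw [cup1_sx]
  refine Finset.sum_eq_zero fun t ht => Finset.sum_eq_zero fun s hs => ?_
  rw [mem_ad] at ht hs
  by_cases h1 : s.1 = q
  · rw [ha _ _ (by omega), zero_mul]
  · rw [hb _ _ h1, mul_zero]

theorem IsDeg.cup1 {p q m : ℕ} {a b : Co R K} (ha : IsDeg p a) (hb : IsDeg q b) (hm : m + 1 = p + q) :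
    IsDeg m (cup1 a b) := fun n x h => ha.cup1_apply hb n x (by omega)

theorem IsDeg.bd {m : ℕ} {a : Co R K} (ha : IsDeg m a) : IsDeg (m + 1) (a ∘ₗ N.bd R K) :=
  fun n x h => by
    rw [LinearMap.comp_apply]
    rcases n with _ | n
    · rw [bd_sx_zero, map_zero]
    · rw [bd_sx_succ, map_sum]
      refine Finset.sum_eq_zero fun i _ => ?_
      rw [map_smul, ha _ _ (by omega), smul_zero]

theorem IsDeg.sg {m : ℕ} {a : Co R K} (ha : IsDeg m a) : a ∘ₗ sg R = (-1 : R) ^ m • a := by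
  refine hom_ext fun n x => ?_
  rw [LinearMap.comp_apply, sg_sx, map_smul, LinearMap.smul_apply]
  by_cases h : n = m
  · subst h; rfl
  · rw [ha n x h, smul_zero, smul_zero]

theorem IsDeg.sg_even {m : ℕ} {a : Co R K} (ha : IsDeg m a) (hm : Even m) : a ∘ₗ EZ271.sg R = a := by
  rw [ha.sg, hm.neg_one_pow, one_smul]

theorem IsDeg.crs {p q : ℕ} {a : Co R K} {b : Co R L} (ha : IsDeg p a) (hb : IsDeg q b) :
    IsDeg (p + q) (crs a b) :=
  (ha.map _).cup (hb.map _)

/-- homogeneous chains are spanned by simplices -/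
theorem gr_eq_span (n : ℕ) : N.gr R K n = Submodule.span R (Set.range fun x : K.S n => N.sx R x) := by
  unfold N.gr Ch.gr
  rw [Submodule.map_span]
  congr 1
  ext c
  simp only [Set.mem_image, Set.mem_ofPred_eq, Set.mem_range, N.sx]
  constructor
  · rintro ⟨_, ⟨x, rfl⟩, rfl⟩
    exact ⟨x, rfl⟩
  · rintro ⟨x, rfl⟩
    exact ⟨_, ⟨x, rfl⟩, rfl⟩

theorem gr_induction {n : ℕ} {p : N R K → Prop} {c : N R K} (hc : c ∈ N.gr R K n) (h0 : p 0)
    (hadd : ∀ a b, p a → p b → p (a + b)) (hsmul : ∀ (r : R) a, p a → p (r • a))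
    (hsx : ∀ x : K.S n, p (N.sx R x)) : p c := by
  rw [gr_eq_span] at hc
  refine Submodule.span_induction (p := fun c _ => p c) ?_ h0 (fun a b _ _ => hadd a b)
    (fun r a _ => hsmul r a) hc
  rintro _ ⟨x, rfl⟩
  exact hsx x

theorem sx_mem_gr {n : ℕ} (x : K.S n) : N.sx R x ∈ N.gr R K n := by
  rw [gr_eq_span]
  exact Submodule.subset_span ⟨x, rfl⟩

theorem IsDeg.eval {m n : ℕ} {a : Co R K} (ha : IsDeg m a) {z : N R K} (hz : z ∈ N.gr R K n)
    (h : n ≠ m) : a z = 0 := by
  refine gr_induction (p := fun c => a c = 0) hz (map_zero _) ?_ ?_ ?_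
  · intro c d hc hd; rw [map_add, hc, hd, add_zero]
  · intro r c hc; rw [map_smul, hc, smul_zero]
  · intro x; exact ha n x h

theorem IsDeg.cup1_eval {p q n : ℕ} {a b : Co R K} (ha : IsDeg p a) (hb : IsDeg q b) {z : N R K}
    (hz : z ∈ N.gr R K n) (h : n + 1 ≠ p + q) : Pont718.cup1 a b z = 0 := by
  refine gr_induction (p := fun c => Pont718.cup1 a b c = 0) hz (map_zero _) ?_ ?_ ?_
  · intro c d hc hd; rw [map_add, hc, hd, add_zero]
  · intro r c hc; rw [map_smul, hc, smul_zero]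
  · intro x; exact ha.cup1_apply hb n x h

theorem bd_mem_gr {n : ℕ} {z : N R K} (hz : z ∈ N.gr R K (n + 1)) : N.bd R K z ∈ N.gr R K n := by
  refine gr_induction (p := fun c => N.bd R K c ∈ N.gr R K n) hz ?_ ?_ ?_ ?_
  · rw [map_zero]; exact Submodule.zero_mem _
  · intro c d hc hd; rw [map_add]; exact Submodule.add_mem _ hc hd
  · intro r c hc; rw [map_smul]; exact Submodule.smul_mem _ _ hc
  · intro x
    rw [bd_sx_succ]
    exact Submodule.sum_mem _ fun i _ => Submodule.smul_mem _ _ (sx_mem_gr _)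

theorem map_mem_gr (f : SS.Hom K L) {n : ℕ} {z : N R K} (hz : z ∈ N.gr R K n) :
    N.map R f z ∈ N.gr R L n := by
  refine gr_induction (p := fun c => N.map R f c ∈ N.gr R L n) hz ?_ ?_ ?_ ?_
  · rw [map_zero]; exact Submodule.zero_mem _
  · intro c d hc hd; rw [map_add]; exact Submodule.add_mem _ hc hd
  · intro r c hc; rw [map_smul]; exact Submodule.smul_mem _ _ hc
  · intro x
    rw [N.map_sx]; exact sx_mem_gr _

/-- degree of a cross product -/
theorem E_mem_gr : ∀ (n p q : ℕ) (_ : p + q = n), E R p q ∈ N.gr R ((SS.std p).prod (SS.std q)) n := by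
  have hc : ∀ {K : SS} (A : Cone K) {n : ℕ} {z : N R K}, z ∈ N.gr R K n → A.c R z ∈ N.gr R K (n + 1) := by
    intro K A n z hz
    refine gr_induction (p := fun c => A.c R c ∈ N.gr R K (n + 1)) hz ?_ ?_ ?_ ?_
    · rw [map_zero]; exact Submodule.zero_mem _
    · intro c d hc hd; rw [map_add]; exact Submodule.add_mem _ hc hd
    · intro r c hc; rw [map_smul]; exact Submodule.smul_mem _ _ hc
    · intro x; rw [Cone.c_sx]; exact sx_mem_gr _
  intro n
  induction n with
  | zero =>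
    intro p q h
    obtain rfl : p = 0 := by omega
    obtain rfl : q = 0 := by omega
    rw [E_zero_zero]; exact sx_mem_gr _
  | succ n ih =>
    intro p q h
    rcases p with _ | p <;> rcases q with _ | q
    · omega
    · rw [E_zero_succ]; exact hc _ (map_mem_gr _ (ih 0 q (by omega)))
    · rw [E_succ_zero]; exact hc _ (map_mem_gr _ (ih p 0 (by omega)))
    · rw [E_succ_succ]
      exact hc _ (Submodule.add_mem _ (map_mem_gr _ (ih p (q + 1) (by omega)))
        (Submodule.smul_mem _ _ (map_mem_gr _ (ih (p + 1) q (by omega)))))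

theorem cross_mem_gr {p q : ℕ} {X : N R K} {Y : N R L} (hX : X ∈ N.gr R K p) (hY : Y ∈ N.gr R L q) :
    cross R X Y ∈ N.gr R (K.prod L) (p + q) := by
  refine gr_induction (p := fun c => cross R c Y ∈ N.gr R (K.prod L) (p + q)) hX ?_ ?_ ?_ ?_
  · rw [map_zero]; exact Submodule.zero_mem _
  · intro c d hc hd; rw [map_add, LinearMap.add_apply]; exact Submodule.add_mem _ hc hd
  · intro r c hc; rw [map_smul, LinearMap.smul_apply]; exact Submodule.smul_mem _ _ hc
  · intro x
    refine gr_induction (p := fun c => cross R (N.sx R x) c ∈ N.gr R (K.prod L) (p + q)) hY ?_ ?_ ?_ ?_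
    · rw [map_zero]; exact Submodule.zero_mem _
    · intro c d hc hd; rw [map_add]; exact Submodule.add_mem _ hc hd
    · intro r c hc; rw [map_smul]; exact Submodule.smul_mem _ _ hc
    · intro y
      rw [cross_sx]
      exact map_mem_gr _ (E_mem_gr _ p q rfl)

end Crest.Agent.R204.Pont718
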