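import Crest.Agent.R204.HDegB_160
import Crest.Agent.R204.InstSp_194

/-!
# Row 204 (helper808): `π_n(S^n)` is generated by the degree one loop `iotaL n` (metric spheres)
-/

set_option autoImplicit false
set_option linter.unusedVariables false

noncomputable section

namespace Crest.Agent.R204.Deg808

open scoped Topology unitInterval Topology.Homotopy
open Crest.Agent.R204 Crest.Agent.R204.Freu297 Crest.Agent.R204.HDeg160 Crest.Agent.R204.Inst194

/-- the suspension data of the metric spheres -/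
def sd (n : ℕ) : SuspData (Sph n) (Sph (n + 1)) (pt n) (pt (n + 1)) where
  e := (sphDbl n).E (pt n : Sph n)
  e_zero y := by rw [(sphDbl n).E_zero (norm_pt n), pt_succ]
  e_one y := by rw [(sphDbl n).E_one, pt_succ]
  e_base t := by rw [← pt_succ]; exact (sphDbl n).E_base (norm_pt n) _ _

theorem sd_susp (n J : ℕ) (g : Ω^ (Fin J) (Sph n) (pt n)) : (sd n).susp g = Freu297.susp n J g := by
  ext t; rfl

/-- a path of generalized loops is a homotopy -/
theorem homotopic_of_path {N Z : Type*} [TopologicalSpace Z] {z : Z} {f g : Ω^ N Z z}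
    [LocallyCompactPair (N → I) Z]
    (H : C(I, Ω^ N Z z)) (h0 : H 0 = f) (h1 : H 1 = g) : GenLoop.Homotopic f g := by
  refine ⟨⟨⟨⟨fun p => H p.1 p.2, ?_⟩, ?_, ?_⟩, ?_⟩⟩
  · have hc : Continuous fun p : I × (N → I) => ((H p.1 : C(N → I, Z)), p.2) := by
      refine Continuous.prodMk ?_ continuous_snd
      exact continuous_subtype_val.comp (H.continuous.comp continuous_fst)
    exact (ContinuousEval.continuous_eval (F := C(N → I, Z))).comp hc
  · intro t
    show H 0 t = f t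
    rw [h0]
  · intro t
    show H 1 t = g t
    rw [h1]
  · intro s t ht
    show H s t = f t
    rw [GenLoop.boundary _ t ht, GenLoop.boundary _ t ht]

theorem susp_surj (n : ℕ) (f : Ω^ (Fin (n + 2)) (Sph (n + 2)) (pt (n + 2))) :
    ∃ g : Ω^ (Fin (n + 1)) (Sph (n + 1)) (pt (n + 1)),
      GenLoop.Homotopic ((sd (n + 1)).susp g) f := by
  obtain ⟨b, -, ⟨H⟩⟩ := step_loop (q := 0) (n := n + 1) (J := n + 1) (by omega)
    (ContinuousMap.const _ f) (by rintro x ⟨i, _⟩; exact i.elim0)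
  let x0 : Fin 0 → I := fun i => i.elim0
  refine ⟨b x0, ?_⟩
  refine (homotopic_of_path (f := f) (g := (sd (n + 1)).susp (b x0))
    ⟨fun s => H (s, x0), H.continuous.comp (by fun_prop)⟩ ?_ ?_).symm
  · show H (0, x0) = f
    rw [H.apply_zero]; rfl
  · show H (1, x0) = _
    rw [H.apply_one, sd_susp]; rfl

/-! ## dimension one -/

theorem f1_ext (v : EuclideanSpace ℝ (Fin 1)) : v = (v 0) • (EuclideanSpace.single 0 1 : EuclideanSpace ℝ (Fin 1)) := by
  ext i
  rw [Subsingleton.elim i 0]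
  simp

theorem npt_val : ((npt : Sph 0) : EuclideanSpace ℝ (Fin 1)) = -EuclideanSpace.single 0 1 := rfl

theorem pt0_val : ((pt 0 : Sph 0) : EuclideanSpace ℝ (Fin 1)) = EuclideanSpace.single 0 1 := rfl

theorem norm_smul_single (c : ℝ) :
    ‖c • (EuclideanSpace.single 0 1 : EuclideanSpace ℝ (Fin 1))‖ = |c| := by
  rw [norm_smul]; simp

theorem iota_lo (w : Fin 1 → I) (h : (w 0 : ℝ) ≤ 1 / 2) :
    iotaL 1 w = (sphDbl 0).lo ((1 - 4 * (w 0 : ℝ)) • EuclideanSpace.single 0 1) := by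
  show (sphDbl 0).E (pt 0 : Sph 0) (npt, w (Fin.last 0)) = _
  show (if ((w (Fin.last 0) : I) : ℝ) ≤ 1 / 2 then (sphDbl 0).lo _ else (sphDbl 0).up _) = _
  have e : Fin.last 0 = (0 : Fin 1) := rfl
  rw [e, if_pos h, npt_val, pt0_val]
  congr 1
  module

theorem iota_up (w : Fin 1 → I) (h : ¬ (w 0 : ℝ) ≤ 1 / 2) :
    iotaL 1 w = (sphDbl 0).up ((4 * (w 0 : ℝ) - 3) • EuclideanSpace.single 0 1) := by
  show (sphDbl 0).E (pt 0 : Sph 0) (npt, w (Fin.last 0)) = _
  show (if ((w (Fin.last 0) : I) : ℝ) ≤ 1 / 2 then (sphDbl 0).lo _ else (sphDbl 0).up _) = _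
  have e : Fin.last 0 = (0 : Fin 1) := rfl
  rw [e, if_neg h, npt_val, pt0_val]
  congr 1
  module

theorem single_inj {a b : ℝ} (h : a • (EuclideanSpace.single 0 1 : EuclideanSpace ℝ (Fin 1)) =
    b • EuclideanSpace.single 0 1) : a = b := by
  have := congrArg (fun v : EuclideanSpace ℝ (Fin 1) => v 0) h
  simpa using this

theorem iota_one_surj : Function.Surjective (iotaL 1) := by
  intro y
  have hc := (sphDbl 0).yc_le y
  set v := (sphDbl 0).yc y with hv
  have hv1 := f1_ext v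
  set c := v 0 with hcdef
  have hc1 : |c| ≤ 1 := by
    rw [← norm_smul_single, ← hv1]; exact hc
  obtain ⟨h1, h2⟩ := abs_le.1 hc1
  rcases le_total ((sphDbl 0).hc y) 0 with h | h
  · refine ⟨fun _ => ⟨(1 - c) / 4, by linarith, by linarith⟩, ?_⟩
    rw [iota_lo _ (by show (1 - c) / 4 ≤ 1 / 2; linarith)]
    show (sphDbl 0).lo ((1 - 4 * ((1 - c) / 4)) • EuclideanSpace.single 0 1) = y
    rw [show (1 - 4 * ((1 - c) / 4)) = c by ring, ← hv1, hv]
    exact (sphDbl 0).lo_yc y h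
  · by_cases h3 : c = -1
    · refine ⟨fun _ => ⟨1 / 2, by norm_num, by norm_num⟩, ?_⟩
      rw [iota_lo _ (by show (1 / 2 : ℝ) ≤ 1 / 2; norm_num)]
      show (sphDbl 0).lo ((1 - 4 * (1 / 2 : ℝ)) • EuclideanSpace.single 0 1) = y
      rw [show (1 - 4 * (1 / 2 : ℝ)) = c by rw [h3]; norm_num, ← hv1]
      rw [← (sphDbl 0).up_eq_lo (by rw [hv1, norm_smul_single, h3]; norm_num), hv]
      exact (sphDbl 0).up_yc y h
    · have h4 : -1 < c := lt_of_le_of_ne h1 (Ne.symm h3)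
      refine ⟨fun _ => ⟨(c + 3) / 4, by linarith, by linarith⟩, ?_⟩
      rw [iota_up _ (by show ¬ (c + 3) / 4 ≤ 1 / 2; intro h5; linarith)]
      show (sphDbl 0).up ((4 * ((c + 3) / 4) - 3) • EuclideanSpace.single 0 1) = y
      rw [show (4 * ((c + 3) / 4) - 3) = c by ring, ← hv1, hv]
      exact (sphDbl 0).up_yc y h

theorem yc_iota_lo (w : Fin 1 → I) (h : (w 0 : ℝ) ≤ 1 / 2) :
    (sphDbl 0).yc (iotaL 1 w) = (1 - 4 * (w 0 : ℝ)) • EuclideanSpace.single 0 1 := by
  have h0 := (w 0).2.1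
  rw [iota_lo w h]
  refine (sphDbl 0).yc_lo _ ?_
  rw [norm_smul_single, abs_le]
  constructor <;> linarith

theorem yc_iota_up (w : Fin 1 → I) (h : ¬ (w 0 : ℝ) ≤ 1 / 2) :
    (sphDbl 0).yc (iotaL 1 w) = (4 * (w 0 : ℝ) - 3) • EuclideanSpace.single 0 1 := by
  have h0 := (w 0).2.2
  rw [iota_up w h]
  refine (sphDbl 0).yc_up _ ?_
  rw [norm_smul_single, abs_le]
  constructor <;> linarith

theorem iota_one_inj_aux (x y : Fin 1 → I) (hx : (x 0 : ℝ) ≤ 1 / 2) (hy : ¬ (y 0 : ℝ) ≤ 1 / 2)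
    (h : iotaL 1 x = iotaL 1 y) : x 0 = 0 ∧ y 0 = 1 := by
  have h1 := yc_iota_lo x hx
  have h2 := yc_iota_up y hy
  rw [h] at h1
  have h3 := single_inj (h1.symm.trans h2)
  have e1 : (sphDbl 0).hc (iotaL 1 y) ≤ 0 := by
    rw [← h, iota_lo x hx]; exact (sphDbl 0).hc_lo _
  have e2 : 0 ≤ (sphDbl 0).hc (iotaL 1 y) := by
    rw [iota_up y hy]; exact (sphDbl 0).hc_up _
  have e3 := ((sphDbl 0).hc_eq _).1 (le_antisymm e1 e2)
  rw [h2, norm_smul_single] at e3
  have hx0 := (x 0).2.1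
  have hy1 := (y 0).2.2
  rcases abs_eq (zero_le_one) |>.1 e3 with e4 | e4
  · constructor
    · apply Subtype.ext; show (x 0 : ℝ) = 0; linarith
    · apply Subtype.ext; show (y 0 : ℝ) = 1; linarith
  · exfalso; apply hy; linarith

theorem iota_one_inj (x y : Fin 1 → I) (h : iotaL 1 x = iotaL 1 y) :
    x = y ∨ (x ∈ Cube.boundary (Fin 1) ∧ y ∈ Cube.boundary (Fin 1)) := by
  by_cases hx : (x 0 : ℝ) ≤ 1 / 2 <;> by_cases hy : (y 0 : ℝ) ≤ 1 / 2
  · left
    have h1 := yc_iota_lo x hx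
    have h2 := yc_iota_lo y hy
    rw [h] at h1
    have h3 := single_inj (h1.symm.trans h2)
    funext i
    rw [Subsingleton.elim i 0]
    apply Subtype.ext
    linarith
  · right
    obtain ⟨a, b⟩ := iota_one_inj_aux x y hx hy h
    exact ⟨⟨0, Or.inl a⟩, ⟨0, Or.inr b⟩⟩
  · right
    obtain ⟨a, b⟩ := iota_one_inj_aux y x hy hx h.symm
    exact ⟨⟨0, Or.inr b⟩, ⟨0, Or.inl a⟩⟩
  · left
    have h1 := yc_iota_up x hx
    have h2 := yc_iota_up y hy
    rw [h] at h1
    have h3 := single_inj (h1.symm.trans h2)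
    funext i
    rw [Subsingleton.elim i 0]
    apply Subtype.ext
    linarith

/-- **`π_n(S^n)` is generated by the class of `iotaL n`**, `n ≥ 1`. -/
theorem gen (n : ℕ) (g : Ω^ (Fin (n + 1)) (Sph (n + 1)) (pt (n + 1))) :
    ∃ D : ℤ, cls g = cls (iotaL (n + 1)) ^ D := by
  induction n with
  | zero => exact gen_one (iotaL 1) iota_one_surj iota_one_inj g
  | succ n ih =>
    have h := (sd (n + 1)).gen_step (iotaL (n + 1)) ih (susp_surj n) g
    rw [sd_susp] at h
    exact h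

end Crest.Agent.R204.Deg808
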