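import Mathlib
import Crest.Agent.R204.Diag_484
import Crest.Agent.R204.Ex7_837

/-!
# Row 204, block H, leaf DIAG (helper484): squares in the `K`-theory of a mapping cone

* `pdCone`, `smCone` : product and smash product of the mapping cone with itself (instances of
  helper837's `PD`, `Sm`);
* `sq_eq` : for a reduced class `x` of the mapping cone,
  `x * x = q^* G^* (res x ∧ res x)`.
-/

set_option autoImplicit false

open scoped unitInterval Topology Topology.Homotopy

noncomputable section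

namespace Crest.Agent.R204.Diag484

open Crest.Agent.R204.H472 Crest.Agent.R204.HopfMap484 Crest.Agent.R204.K357 Crest.Agent.R204.Ex837

variable {N : Type} {Y : Type} [TopologicalSpace Y] {y : Y}

/-- an element of the algebra of the mapping cone as a function on cell ⊔ base -/
def tot {f : GenLoop N Y y} (a : ConeAlg y f) : C(Zc N Y, ℂ) :=
  ⟨Sum.elim (a : C((N → I) × I, ℂ) × C(Y, ℂ)).1 (a : C((N → I) × I, ℂ) × C(Y, ℂ)).2, by fun_prop⟩

@[simp] theorem tot_inl {f : GenLoop N Y y} (a : ConeAlg y f) (p : (N → I) × I) :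
    tot a (Sum.inl p) = (a : C((N → I) × I, ℂ) × C(Y, ℂ)).1 p := rfl
@[simp] theorem tot_inr {f : GenLoop N Y y} (a : ConeAlg y f) (p : Y) :
    tot a (Sum.inr p) = (a : C((N → I) × I, ℂ) × C(Y, ℂ)).2 p := rfl

theorem tot_glue {f : GenLoop N Y y} (a : ConeAlg y f) {z z' : Zc N Y} (h : Glue f z z') :
    tot a z = tot a z' := by
  rcases z with p | p <;> rcases z' with q | q
  · exact h.elim
  · obtain ⟨x, t⟩ := p
    rcases h with ⟨h1, h2⟩ | ⟨h1, h2⟩ | ⟨h1, h2⟩
    · simp only at h1 h2; subst h1; subst h2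
      exact a.2.1 x
    · simp only at h1 h2
      rw [tot_inl, tot_inr, h2]
      exact a.2.2.1 x t h1
    · simp only at h1 h2
      rw [tot_inl, tot_inr, h1, h2]
      exact a.2.2.2 x
  · exact h.elim
  · exact h.elim

variable (f : GenLoop N Y y)

/-- pullback along the first projection -/
def ci1 : ConeAlg y f →ₐ[ℂ] CC f where
  toFun a := ⟨(tot a).comp ContinuousMap.fst, fun z z' w hz => ⟨tot_glue a hz, rfl⟩⟩
  map_one' := Subtype.ext (ContinuousMap.ext fun p => by rcases p with ⟨p | p, q⟩ <;> rfl)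
  map_mul' a b := Subtype.ext (ContinuousMap.ext fun p => by rcases p with ⟨p | p, q⟩ <;> rfl)
  map_zero' := Subtype.ext (ContinuousMap.ext fun p => by rcases p with ⟨p | p, q⟩ <;> rfl)
  map_add' a b := Subtype.ext (ContinuousMap.ext fun p => by rcases p with ⟨p | p, q⟩ <;> rfl)
  commutes' r := Subtype.ext (ContinuousMap.ext fun p => by rcases p with ⟨p | p, q⟩ <;> rfl)

/-- pullback along the second projection -/
def ci2 : ConeAlg y f →ₐ[ℂ] CC f where
  toFun a := ⟨(tot a).comp ContinuousMap.snd, fun z z' w hz => ⟨rfl, tot_glue a hz⟩⟩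
  map_one' := Subtype.ext (ContinuousMap.ext fun p => by rcases p with ⟨q, p | p⟩ <;> rfl)
  map_mul' a b := Subtype.ext (ContinuousMap.ext fun p => by rcases p with ⟨q, p | p⟩ <;> rfl)
  map_zero' := Subtype.ext (ContinuousMap.ext fun p => by rcases p with ⟨q, p | p⟩ <;> rfl)
  map_add' a b := Subtype.ext (ContinuousMap.ext fun p => by rcases p with ⟨q, p | p⟩ <;> rfl)
  commutes' r := Subtype.ext (ContinuousMap.ext fun p => by rcases p with ⟨q, p | p⟩ <;> rfl)

@[simp] theorem ci1_apply (a : ConeAlg y f) (p : Zc N Y × Zc N Y) :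
    ((ci1 f a : CC f) : C(Zc N Y × Zc N Y, ℂ)) p = tot a p.1 := rfl
@[simp] theorem ci2_apply (a : ConeAlg y f) (p : Zc N Y × Zc N Y) :
    ((ci2 f a : CC f) : C(Zc N Y × Zc N Y, ℂ)) p = tot a p.2 := rfl

theorem compat_r1 : Compat f (CC f)
    (⟨fun p => (Sum.inl p, Sum.inr y), by fun_prop⟩ : C((N → I) × I, Zc N Y × Zc N Y))
    (⟨fun p => (Sum.inr p, Sum.inr y), by fun_prop⟩ : C(Y, Zc N Y × Zc N Y)) where
  zero _ hh x := CC_left hh _ (glue_zero f x)
  bd _ hh _ t hx := CC_left hh _ (glue_bd f hx t)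
  one _ hh x := CC_left hh _ (glue_one f x)

theorem compat_r2 : Compat f (CC f)
    (⟨fun p => (Sum.inr y, Sum.inl p), by fun_prop⟩ : C((N → I) × I, Zc N Y × Zc N Y))
    (⟨fun p => (Sum.inr y, Sum.inr p), by fun_prop⟩ : C(Y, Zc N Y × Zc N Y)) where
  zero _ hh x := CC_right hh _ (glue_zero f x)
  bd _ hh _ t hx := CC_right hh _ (glue_bd f hx t)
  one _ hh x := CC_right hh _ (glue_one f x)

/-- restriction to the first axis -/
def cr1 : CC f →ₐ[ℂ] ConeAlg y f := toCone (CC f) _ _ (compat_r1 f)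
/-- restriction to the second axis -/
def cr2 : CC f →ₐ[ℂ] ConeAlg y f := toCone (CC f) _ _ (compat_r2 f)

/-- the product of the mapping cone with itself -/
def pdCone : PD ℂ (ConeAlg y f) (ConeAlg y f) (CC f) where
  e := ConeAlg.ev
  e' := ConeAlg.ev
  i1 := ci1 f
  i2 := ci2 f
  r1 := cr1 f
  r2 := cr2 f
  r1_i1 _ := rfl
  r2_i2 _ := rfl
  r1_i2 _ := rfl
  r2_i1 _ := rfl
  e_r _ := rfl

/-- the smash product of the mapping cone with itself -/
def smCone : (pdCone f).Sm (CW f) where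
  inc := incl f
  ev := (ContinuousMap.evalAlgHom ℂ ℂ (Sum.inr y, Sum.inr y)).comp (CW f).val
  r1_inc F := Subtype.ext (Prod.ext (ContinuousMap.ext fun _ => CW_base_right F.2 _)
    (ContinuousMap.ext fun _ => CW_base_right F.2 _))
  r2_inc F := Subtype.ext (Prod.ext (ContinuousMap.ext fun _ => CW_base_left F.2 _)
    (ContinuousMap.ext fun _ => CW_base_left F.2 _))
  inj' _ _ h := Subtype.ext (congrArg (fun F : CC f => (F : C(Zc N Y × Zc N Y, ℂ))) h)
  lift' F c h1 h2 := by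
    have e1 : ∀ z, (F : C(Zc N Y × Zc N Y, ℂ)) (z, Sum.inr y) = c := by
      rintro (p | p)
      · exact congrArg (fun a : ConeAlg y f => (a : C((N → I) × I, ℂ) × C(Y, ℂ)).1 p) h1
      · exact congrArg (fun a : ConeAlg y f => (a : C((N → I) × I, ℂ) × C(Y, ℂ)).2 p) h1
    have e2 : ∀ z, (F : C(Zc N Y × Zc N Y, ℂ)) (Sum.inr y, z) = c := by
      rintro (p | p)
      · exact congrArg (fun a : ConeAlg y f => (a : C((N → I) × I, ℂ) × C(Y, ℂ)).1 p) h2
      · exact congrArg (fun a : ConeAlg y f => (a : C((N → I) × I, ℂ) × C(Y, ℂ)).2 p) h2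
    have e3 : ∀ p ∈ wedge (Sum.inr y : Zc N Y) (Sum.inr y : Zc N Y),
        (F : C(Zc N Y × Zc N Y, ℂ)) p = c := by
      rintro ⟨z, w⟩ (h | h)
      · simp only at h; rw [h]; exact e2 w
      · simp only at h; rw [h]; exact e1 z
    exact ⟨⟨F, F.2, fun p hp q hq => by rw [e3 p hp, e3 q hq]⟩, rfl⟩

/-- restriction `C(C × C) → C(Y × Y)` -/
def rYY : CC f →ₐ[ℂ] C(Y × Y, ℂ) :=
  (ContinuousMap.compRightAlgHom ℂ ℂ
    (⟨fun p => (Sum.inr p.1, Sum.inr p.2), by fun_prop⟩ : C(Y × Y, Zc N Y × Zc N Y))).comp (CC f).val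

/-- `K0` of the mapping cone, as a commutative ring -/
abbrev KC (f : GenLoop N Y y) : Type := @K0 (ConeAlg y f) CommRing.toRing

/-- restriction to `Y` -/
def KC.res (x : KC f) : K0 C(Y, ℂ) :=
  K0.map (A := ConeAlg y f) (B := C(Y, ℂ)) (ConeAlg.res (f := f)).toRingHom x

/-- rank at the base point -/
def KC.ev (x : KC f) : K0 ℂ :=
  K0.map (A := ConeAlg y f) (B := ℂ) (ConeAlg.ev (f := f)).toRingHom x

/-- pullback along the collapse `C_f → S^{N+1}` -/
def KC.q (x₀ : N → I) (z : K0 (SA' N)) : KC f :=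
  K0.map (A := SA' N) (B := ConeAlg y f) (ConeAlg.q x₀ : SA' N →ₐ[ℂ] ConeAlg y f).toRingHom z

/-- pullback along the Hopf map -/
def KG (P : CoP (N → I) (Cube.boundary N)) (c : CoH Y y) (z : K0 (Smash y y)) : K0 (SA' N) :=
  K0.map (A := Smash y y) (B := SA' N) (Gstar P c f).toRingHom z

theorem resK_ev (x : KC f) : K0.map (pdC y y).e.toRingHom (KC.res f x) = KC.ev f x := by
  unfold KC.res KC.ev
  rw [← K0.map_comp]
  rfl

section abs

variable {A Pr S B Pr' S' Q : Type} [CommRing A] [CommRing Pr] [CommRing S] [CommRing B]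
  [CommRing Pr'] [CommRing S'] [CommRing Q] [Algebra ℂ A] [Algebra ℂ Pr] [Algebra ℂ S]
  [Algebra ℂ B] [Algebra ℂ Pr'] [Algebra ℂ S']

/-- naturality of the external square -/
theorem ext_nat_abs {D : PD ℂ A A Pr} (Z : D.Sm S) {D' : PD ℂ B B Pr'} (Z' : D'.Sm S')
    (ρ : A →+* B) (ρP : Pr →+* Pr') (ρS : S →+* S')
    (h1 : Z'.inc.toRingHom.comp ρS = ρP.comp Z.inc.toRingHom)
    (h2 : ρP.comp D.i1.toRingHom = D'.i1.toRingHom.comp ρ)
    (h3 : ρP.comp D.i2.toRingHom = D'.i2.toRingHom.comp ρ)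
    (h4 : Z'.ev.toRingHom.comp ρS = Z.ev.toRingHom)
    (h5 : D'.e.toRingHom.comp ρ = D.e.toRingHom)
    (h6 : D'.e'.toRingHom.comp ρ = D.e'.toRingHom)
    {x : K0 A} (hx : K0.map D.e.toRingHom x = 0) (hx' : K0.map D.e'.toRingHom x = 0) :
    K0.map ρS (Z.ext x x) = Z'.ext (K0.map ρ x) (K0.map ρ x) := by
  refine Z'.eq_ext ?_ ?_ ?_ ?_
  · rw [← K0.map_comp, h5]; exact hx
  · rw [← K0.map_comp, h6]; exact hx'
  · rw [← K0.map_comp, h1, K0.map_comp, Z.inc_ext hx hx', K0.map_mul', ← K0.map_comp,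
      ← K0.map_comp, h2, h3, K0.map_comp, K0.map_comp]
  · rw [← K0.map_comp, h4]; exact Z.ev_ext hx hx'

/-- the square as an external square pulled back along the diagonal -/
theorem sq_abs {D : PD ℂ A A Pr} (Z : D.Sm S)
    (δ : Pr →+* A) (d1 : δ.comp D.i1.toRingHom = RingHom.id A)
    (d2 : δ.comp D.i2.toRingHom = RingHom.id A)
    {x : K0 A} (hx : K0.map D.e.toRingHom x = 0) (hx' : K0.map D.e'.toRingHom x = 0) :
    K0.map δ (K0.map Z.inc.toRingHom (Z.ext x x)) = x * x := by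
  rw [Z.inc_ext hx hx', K0.map_mul', ← K0.map_comp, ← K0.map_comp, d1, d2, K0.map_id]

end abs

theorem hyp1 : (smC y y).inc.toRingHom.comp (Diag484.res f).toRingHom =
    (rYY f).toRingHom.comp (smCone f).inc.toRingHom := RingHom.ext fun _ => rfl
theorem hyp2 : (rYY f).toRingHom.comp (pdCone f).i1.toRingHom =
    (pdC y y).i1.toRingHom.comp (ConeAlg.res (f := f)).toRingHom := RingHom.ext fun _ => rfl
theorem hyp3 : (rYY f).toRingHom.comp (pdCone f).i2.toRingHom =
    (pdC y y).i2.toRingHom.comp (ConeAlg.res (f := f)).toRingHom := RingHom.ext fun _ => rfl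
theorem hyp4 : (smC y y).ev.toRingHom.comp (Diag484.res f).toRingHom =
    (smCone f).ev.toRingHom := RingHom.ext fun _ => rfl
theorem hyp5 : (pdC y y).e.toRingHom.comp (ConeAlg.res (f := f)).toRingHom =
    (pdCone f).e.toRingHom := RingHom.ext fun _ => rfl
theorem hyp6 : (pdC y y).e'.toRingHom.comp (ConeAlg.res (f := f)).toRingHom =
    (pdCone f).e'.toRingHom := RingHom.ext fun _ => rfl
theorem hyp7 : (Δ f).toRingHom.comp (pdCone f).i1.toRingHom = RingHom.id (ConeAlg y f) :=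
  RingHom.ext fun _ => rfl
theorem hyp8 : (Δ f).toRingHom.comp (pdCone f).i2.toRingHom = RingHom.id (ConeAlg y f) :=
  RingHom.ext fun _ => rfl


/-- **squares in the mapping cone**: `x * x = q^* G^* (res x ∧ res x)` -/
theorem sq_eq [CompactSpace Y] (P : CoP (N → I) (Cube.boundary N)) (c : CoH Y y) (x₀ : N → I)
    {x : KC f} (hx : KC.ev f x = 0) :
    x * x = KC.q f x₀ (KG f P c ((smC y y).ext (KC.res f x) (KC.res f x))) := by
  have e1 := ext_nat_abs (smCone f) (smC y y) (ConeAlg.res (f := f)).toRingHom (rYY f).toRingHom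
    (Diag484.res f).toRingHom (hyp1 f) (hyp2 f) (hyp3 f) (hyp4 f) (hyp5 f) (hyp6 f)
    (x := x) hx hx
  have e2 := sq_abs (smCone f) (Δ f).toRingHom (hyp7 f) (hyp8 f) (x := x) hx hx
  have e3 := diag_eq (f := f) P c x₀ ((smCone f).ext x x)
  have e4 : x * x = KC.q f x₀ (KG f P c (K0.map (Diag484.res f).toRingHom ((smCone f).ext x x))) :=
    e2.symm.trans e3
  exact e4.trans (congrArg (fun z => KC.q f x₀ (KG f P c z)) e1)

end Crest.Agent.R204.Diag484
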