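import Mathlib

/-!
# Dickson polynomials (row 204, leaf F3), part A

`A` a commutative `F₂`-algebra, `x : Fin r → A`.
`lin x v = ∑ v_i x_i`,  `dq x = ∏_v (T + lin x v)`, `dQ x j = coeff of T^(2^j)`.
-/

set_option autoImplicit false
set_option linter.unusedSectionVars false

namespace Crest.Agent.R204.Dickson91

open Polynomial

section General

variable {A : Type*} [CommRing A] [CharP A 2] [Algebra (ZMod 2) A]

/-- the linear form `∑ v_i x_i` -/
def lin {r : ℕ} (x : Fin r → A) (v : Fin r → ZMod 2) : A := ∑ i, v i • x i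

/-- the polynomial `∏_{v} (T + lin x v)` -/
noncomputable def dq {r : ℕ} (x : Fin r → A) : A[X] :=
  ∏ v : Fin r → ZMod 2, (X + C (lin x v))

/-- the Dickson coefficient: coefficient of `T^(2^j)` in `dq x` -/
noncomputable def dQ {r : ℕ} (x : Fin r → A) (j : ℕ) : A := (dq x).coeff (2 ^ j)

omit [CharP A 2] in
theorem lin_add {r : ℕ} (x : Fin r → A) (v w : Fin r → ZMod 2) :
    lin x (v + w) = lin x v + lin x w := by
  simp [lin, add_smul, Finset.sum_add_distrib]

omit [CharP A 2] in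
theorem lin_zero {r : ℕ} (x : Fin r → A) : lin x 0 = 0 := by
  simp [lin]

omit [CharP A 2] in
theorem lin_single {r : ℕ} (x : Fin r → A) (i : Fin r) : lin x (Pi.single i 1) = x i := by
  classical
  simp [lin, Pi.single_apply, ite_smul]

omit [CharP A 2] in
theorem lin_cons {r : ℕ} (x : Fin (r + 1) → A) (b : ZMod 2) (v : Fin r → ZMod 2) :
    lin x (Fin.cons b v) = b • x 0 + lin (Fin.tail x) v := by
  simp [lin, Fin.sum_univ_succ, Fin.tail]

omit [CharP A 2] in
theorem dq_succ' {r : ℕ} (x : Fin (r + 1) → A) :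
    dq x = dq (Fin.tail x) * (dq (Fin.tail x)).comp (X + C (x 0)) := by
  classical
  unfold dq
  rw [← (Fin.consEquiv (fun _ : Fin (r + 1) => ZMod 2)).prod_comp, Fintype.prod_prod_type]
  have h2 : (Finset.univ : Finset (ZMod 2)) = {0, 1} := by decide
  rw [h2, Finset.prod_insert (by decide), Finset.prod_singleton]
  congr 1
  · refine Finset.prod_congr rfl fun v _ => ?_
    simp [Fin.consEquiv, lin_cons]
  · rw [Polynomial.prod_comp]
    refine Finset.prod_congr rfl fun v _ => ?_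
    simp [Fin.consEquiv, lin_cons]
    ring

/-- additive polynomials with top coefficient `1` -/
def IsAdd (r : ℕ) (p : A[X]) (c : ℕ → A) : Prop :=
  (∀ j, r < j → c j = 0) ∧ c r = 1 ∧ p = ∑ j ∈ Finset.range (r + 1), C (c j) * X ^ (2 ^ j)

omit [CharP A 2] [Algebra (ZMod 2) A] in
theorem IsAdd.coeff {r : ℕ} {p : A[X]} {c : ℕ → A} (h : IsAdd r p c) (j : ℕ) :
    p.coeff (2 ^ j) = c j := by
  classical
  obtain ⟨h1, h2, h3⟩ := h
  rw [h3, finsetSum_coeff]
  simp only [coeff_C_mul, coeff_X_pow]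
  by_cases hj : j ≤ r
  · rw [Finset.sum_eq_single j]
    · simp
    · intro b _ hb
      rw [if_neg, mul_zero]
      intro h
      exact hb (Nat.pow_right_injective le_rfl h).symm
    · intro h
      exact absurd (Finset.mem_range.mpr (Nat.lt_succ_of_le hj)) h
  · rw [h1 j (not_le.mp hj)]
    apply Finset.sum_eq_zero
    intro b hb
    rw [if_neg, mul_zero]
    intro h
    have := Nat.pow_right_injective le_rfl h
    simp only [Finset.mem_range] at hb
    omega

omit [Algebra (ZMod 2) A] in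
theorem IsAdd.comp {r : ℕ} {p : A[X]} {c : ℕ → A} (h : IsAdd r p c) (a : A) :
    p.comp (X + C a) = p + C (p.eval a) := by
  obtain ⟨h1, h2, h3⟩ := h
  rw [h3]
  rw [← coe_compRingHom_apply, map_sum, eval_finsetSum, map_sum, ← Finset.sum_add_distrib]
  refine Finset.sum_congr rfl fun j _ => ?_
  simp only [coe_compRingHom_apply, mul_comp, C_comp, X_pow_comp, eval_mul, eval_C, eval_pow, eval_X, C_mul, C_pow]
  rw [add_pow_char_pow, mul_add]

/-- the recursion of the coefficients -/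
def dstep (c : ℕ → A) (a : A) : ℕ → A
  | 0 => a * c 0
  | (j + 1) => c j ^ 2 + a * c (j + 1)

omit [Algebra (ZMod 2) A] in
theorem IsAdd.step {r : ℕ} {p : A[X]} {c : ℕ → A} (h : IsAdd r p c) (a : A) :
    IsAdd (r + 1) (p * (p + C a)) (dstep c a) := by
  obtain ⟨h1, h2, h3⟩ := h
  refine ⟨?_, ?_, ?_⟩
  · intro j hj
    obtain ⟨j, rfl⟩ : ∃ i, j = i + 1 := ⟨j - 1, by omega⟩
    simp [dstep, h1 j (by omega), h1 (j + 1) (by omega)]
  · simp [dstep, h2, h1 (r + 1) (by omega)]
  · have e1 : p * (p + C a) = p ^ 2 + C a * p := by ring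
    rw [e1]
    have e2 : p ^ 2 = ∑ j ∈ Finset.range (r + 1), C (c j ^ 2) * X ^ (2 ^ (j + 1)) := by
      conv_lhs => rw [h3]
      rw [sum_pow_char]
      refine Finset.sum_congr rfl fun j _ => ?_
      rw [mul_pow, C_pow, ← pow_mul, pow_succ 2 j]
    have e3 : C a * p = ∑ j ∈ Finset.range (r + 1 + 1),
        C (a * c j) * X ^ (2 ^ j) := by
      rw [Finset.sum_range_succ _ (r + 1), h1 (r + 1) (by omega)]
      conv_lhs => rw [h3]
      rw [Finset.mul_sum]
      simp [mul_assoc]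
    rw [e2, e3, Finset.sum_range_succ' _ (r + 1), ← add_assoc, ← Finset.sum_add_distrib,
      Finset.sum_range_succ' _ (r + 1)]
    congr 1
    refine Finset.sum_congr rfl fun j _ => ?_
    simp only [dstep, C_add]
    ring

theorem isAdd_dq : ∀ {r : ℕ} (x : Fin r → A), ∃ c, IsAdd r (dq x) c := by
  intro r
  induction r with
  | zero =>
    intro x
    refine ⟨fun j => if j = 0 then 1 else 0, ?_, ?_, ?_⟩
    · intro j hj
      simp only [if_neg (by omega : j ≠ 0)]
    · simp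
    · simp [dq, lin]
  | succ r ih =>
    intro x
    obtain ⟨c, hc⟩ := ih (Fin.tail x)
    refine ⟨dstep c ((dq (Fin.tail x)).eval (x 0)), ?_⟩
    rw [dq_succ', hc.comp]
    exact hc.step _

theorem dq_isAdd {r : ℕ} (x : Fin r → A) : IsAdd r (dq x) (dQ x) := by
  obtain ⟨c, hc⟩ := isAdd_dq x
  have : dQ x = c := by
    funext j
    exact hc.coeff j
  rw [this]
  exact hc

theorem dq_eq {r : ℕ} (x : Fin r → A) :
    dq x = ∑ j ∈ Finset.range (r + 1), C (dQ x j) * X ^ (2 ^ j) := (dq_isAdd x).2.2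

theorem dQ_top {r : ℕ} (x : Fin r → A) : dQ x r = 1 := (dq_isAdd x).2.1

theorem dQ_gt {r : ℕ} (x : Fin r → A) {j : ℕ} (hj : r < j) : dQ x j = 0 := (dq_isAdd x).1 j hj

theorem dq_step {r : ℕ} (x : Fin (r + 1) → A) : dq x =
    dq (Fin.tail x) * (dq (Fin.tail x) + C ((dq (Fin.tail x)).eval (x 0))) := by
  rw [dq_succ', (dq_isAdd _).comp]

theorem dQ_rec {r : ℕ} (x : Fin (r + 1) → A) (j : ℕ) : dQ x j =
    dstep (dQ (Fin.tail x)) ((dq (Fin.tail x)).eval (x 0)) j := by
  have h := (dq_isAdd (Fin.tail x)).step ((dq (Fin.tail x)).eval (x 0))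
  rw [← dq_step] at h
  exact h.coeff j

theorem dQ_succ_zero {r : ℕ} (x : Fin (r + 1) → A) : dQ x 0 =
      (dq (Fin.tail x)).eval (x 0) * dQ (Fin.tail x) 0 := dQ_rec x 0

theorem dQ_succ_succ {r : ℕ} (x : Fin (r + 1) → A) (j : ℕ) : dQ x (j + 1) =
    dQ (Fin.tail x) j ^ 2 + (dq (Fin.tail x)).eval (x 0) * dQ (Fin.tail x) (j + 1) :=
  dQ_rec x (j + 1)

/-- value of `dq` -/
theorem dq_eval {r : ℕ} (x : Fin r → A) (a : A) :
    (dq x).eval a = ∑ j ∈ Finset.range (r + 1), dQ x j * a ^ (2 ^ j) := by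
  conv_lhs => rw [dq_eq]
  simp [eval_finsetSum]

omit [CharP A 2] in
theorem dq_eval_prod {r : ℕ} (x : Fin r → A) (a : A) :
    (dq x).eval a = ∏ v : Fin r → ZMod 2, (a + lin x v) := by
  simp [dq, eval_prod]

theorem dq_eval_zero {r : ℕ} (x : Fin r → A) : (dq x).eval 0 = 0 := by
  rw [dq_eval]
  simp

theorem dq_eval_add {r : ℕ} (x : Fin r → A) (a b : A) :
    (dq x).eval (a + b) = (dq x).eval a + (dq x).eval b := by
  simp only [dq_eval]
  rw [← Finset.sum_add_distrib]
  refine Finset.sum_congr rfl fun j _ => ?_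
  rw [add_pow_char_pow, mul_add]

/-- every linear form is a root -/
theorem dq_eval_lin {r : ℕ} (x : Fin r → A) (v : Fin r → ZMod 2) :
    (dq x).eval (lin x v) = 0 := by
  rw [dq_eval_prod]
  apply Finset.prod_eq_zero (Finset.mem_univ v)
  exact CharTwo.add_self_eq_zero _

theorem sum_dQ_lin {r : ℕ} (x : Fin r → A) (v : Fin r → ZMod 2) :
    ∑ j ∈ Finset.range (r + 1), dQ x j * lin x v ^ (2 ^ j) = 0 := by
  rw [← dq_eval, dq_eval_lin]

theorem sum_dQ_var {r : ℕ} (x : Fin r → A) (i : Fin r) :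
    ∑ j ∈ Finset.range (r + 1), dQ x j * x i ^ (2 ^ j) = 0 := by
  have := sum_dQ_lin x (Pi.single i 1)
  rwa [lin_single] at this

/-- `Q_0` is the product of the nonzero linear forms -/
theorem dQ_zero {r : ℕ} (x : Fin r → A) :
    dQ x 0 = ∏ v ∈ Finset.univ.erase (0 : Fin r → ZMod 2), lin x v := by
  classical
  have h : dq x = X * ∏ v ∈ Finset.univ.erase (0 : Fin r → ZMod 2), (X + C (lin x v)) := by
    unfold dq
    rw [← Finset.mul_prod_erase Finset.univ _ (Finset.mem_univ (0 : Fin r → ZMod 2))]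
    rw [lin_zero, C_0, add_zero]
  unfold dQ
  rw [h, pow_zero]
  have h1 : (X * ∏ v ∈ Finset.univ.erase (0 : Fin r → ZMod 2), (X + C (lin x v))).coeff (0 + 1) =
      (∏ v ∈ Finset.univ.erase (0 : Fin r → ZMod 2), (X + C (lin x v))).coeff 0 :=
    coeff_X_mul _ _
  rw [zero_add] at h1
  rw [h1, coeff_zero_eq_eval_zero, eval_prod]
  simp

/-! naturality -/

omit [CharP A 2] in
theorem lin_map {B : Type*} [CommRing B] [Algebra (ZMod 2) B] (φ : A →ₐ[ZMod 2] B)
    {r : ℕ} (x : Fin r → A) (v : Fin r → ZMod 2) :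
    lin (fun i => φ (x i)) v = φ (lin x v) := by
  simp [lin, map_sum]

theorem dq_map {B : Type*} [CommRing B] [Algebra (ZMod 2) B] (φ : A →ₐ[ZMod 2] B)
    {r : ℕ} (x : Fin r → A) :
    dq (fun i => φ (x i)) = (dq x).map (φ : A →+* B) := by
  simp only [dq, Polynomial.map_prod, lin_map]
  simp

theorem dQ_map {B : Type*} [CommRing B] [Algebra (ZMod 2) B] (φ : A →ₐ[ZMod 2] B)
    {r : ℕ} (x : Fin r → A) (j : ℕ) :
    dQ (fun i => φ (x i)) j = φ (dQ x j) := by
  simp only [dQ, dq_map, Polynomial.coeff_map]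
  rfl

end General

end Crest.Agent.R204.Dickson91
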