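import Crest.Agent.R204.DicksonA_91

/-!
# Dickson's theorem (row 204, leaf F3), part B
-/

set_option autoImplicit false
set_option linter.unusedSectionVars false

namespace Crest.Agent.R204.Dickson91

open MvPolynomial

/-- the polynomial ring `F₂[x_0..x_{r-1}]` -/
abbrev S (r : ℕ) := MvPolynomial (Fin r) (ZMod 2)

/-- the Dickson invariant `Q_{r,j}` -/
noncomputable def Q (r j : ℕ) : S r := dQ (X : Fin r → S r) j

/-- the transvection `x_i ↦ x_i + x_j` -/
noncomputable def tv {r : ℕ} (i j : Fin r) : S r →ₐ[ZMod 2] S r :=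
  aeval (fun k => if k = i then X i + X j else X k)

/-- invariance under all transvections -/
def Inv {r : ℕ} (f : S r) : Prop := ∀ i j : Fin r, i ≠ j → tv i j f = f

/-- restriction to `x_0 = 0` -/
noncomputable def res (m : ℕ) : S (m + 1) →ₐ[ZMod 2] S m :=
  aeval (Fin.cons 0 (X : Fin m → S m) : Fin (m + 1) → S m)

@[simp] theorem res_X_zero (m : ℕ) : res m (X 0) = 0 := by simp [res]
@[simp] theorem res_X_succ (m : ℕ) (i : Fin m) : res m (X i.succ) = X i := by simp [res]

theorem tv_X {r : ℕ} (i j k : Fin r) : tv i j (X k) = if k = i then X i + X j else X k := by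
  simp [tv]

/-! ### squares -/

theorem exists_sq {σ : Type*} (p : MvPolynomial σ (ZMod 2)) (h : ∀ i, pderiv i p = 0) :
    ∃ g : MvPolynomial σ (ZMod 2), p = g ^ 2 := by
  classical
  have hev : ∀ m, coeff m p ≠ 0 → ∀ i, Even (m i) := by
    intro m hm i
    by_contra hodd
    rw [Nat.not_even_iff_odd] at hodd
    have hle : Finsupp.single i 1 ≤ m := by
      intro k
      by_cases hk : i = k
      · subst hk
        rw [Finsupp.single_eq_same]
        exact hodd.pos
      · simp [hk]
    have h1 : (m - Finsupp.single i 1) + Finsupp.single i 1 = m := tsub_add_cancel_of_le hle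
    have h2 := congrArg (coeff (m - Finsupp.single i 1)) (h i)
    rw [coeff_pderiv, h1, coeff_zero] at h2
    have h3 : (((m - Finsupp.single i 1 : σ →₀ ℕ) i : ℕ) : ZMod 2) + 1 = 1 := by
      have h4 : ((m - Finsupp.single i 1 : σ →₀ ℕ) i : ℕ) = m i - 1 := by simp
      rw [h4]
      have h5 : Even (m i - 1) := by
        obtain ⟨k, hk⟩ := hodd
        exact ⟨k, by omega⟩
      have h6 : ((m i - 1 : ℕ) : ZMod 2) = 0 := by
        rw [ZMod.natCast_eq_zero_iff]
        exact h5.two_dvd
      rw [h6, zero_add]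
    rw [h3, mul_one] at h2
    exact hm h2
  refine ⟨∑ m ∈ p.support, monomial (m.mapRange (fun n => n / 2) (by simp)) 1, ?_⟩
  rw [sum_pow_char]
  conv_lhs => rw [p.as_sum]
  refine Finset.sum_congr rfl fun m hm => ?_
  have hm' : coeff m p ≠ 0 := by simpa using hm
  have h1 : coeff m p = 1 := by
    have : ∀ a : ZMod 2, a ≠ 0 → a = 1 := by decide
    exact this _ hm'
  rw [h1, monomial_pow, one_pow]
  have h2 : m = 2 • m.mapRange (fun n => n / 2) (by simp) := by
    ext i
    simp only [Finsupp.coe_smul, Pi.smul_apply, Finsupp.mapRange_apply, smul_eq_mul]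
    exact (Nat.two_mul_div_two_of_even (hev m hm' i)).symm
  conv_lhs => rw [h2]

/-- `F₂`-coefficients: `p(x^2) = p(x)^2` -/
theorem aeval_sq {σ : Type*} {A : Type*} [CommRing A] [Algebra (ZMod 2) A] [CharP A 2]
    (x : σ → A) (p : MvPolynomial σ (ZMod 2)) :
    aeval (fun i => x i ^ 2) p = (aeval x p) ^ 2 := by
  induction p using MvPolynomial.induction_on with
  | C a =>
    rw [← algebraMap_eq, AlgHom.commutes, AlgHom.commutes, ← map_pow]
    congr 1
    revert a
    decide
  | add p q hp hq => rw [map_add, map_add, hp, hq, add_pow_char]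
  | mul_X p i hp => rw [map_mul, map_mul, hp, aeval_X, aeval_X]; ring

/-! ### finSuccEquiv and the restriction -/

theorem coeff_zero_fse {m : ℕ} (f : S (m + 1)) :
    (finSuccEquiv (ZMod 2) m f).coeff 0 = res m f := by
  induction f using MvPolynomial.induction_on with
  | C a => simp [finSuccEquiv_apply, res]
  | add p q hp hq => rw [map_add, map_add, Polynomial.coeff_add, hp, hq]
  | mul_X p i hp =>
    rw [map_mul, map_mul, Polynomial.mul_coeff_zero, hp]
    congr 1
    refine Fin.cases ?_ (fun j => ?_) i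
    · rw [finSuccEquiv_X_zero]; simp
    · rw [finSuccEquiv_X_succ]; simp

theorem coeff_one_tv {m : ℕ} (k : Fin m) (f : S (m + 1)) :
    (finSuccEquiv (ZMod 2) m (tv k.succ 0 f)).coeff 1 =
      (finSuccEquiv (ZMod 2) m f).coeff 1 + pderiv k (res m f) ∧
    res m (tv k.succ 0 f) = res m f := by
  induction f using MvPolynomial.induction_on with
  | C a =>
    have : tv k.succ 0 (C a : S (m + 1)) = C a := by simp [tv]
    rw [this]
    simp [res, finSuccEquiv_apply]
  | add p q hp hq =>
    simp only [map_add, Polynomial.coeff_add]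
    rw [hp.1, hq.1, hp.2, hq.2]
    exact ⟨by ring, rfl⟩
  | mul_X p i hp =>
    have hX : (finSuccEquiv (ZMod 2) m (tv k.succ 0 (X i))).coeff 1 =
        (finSuccEquiv (ZMod 2) m (X i)).coeff 1 + pderiv k (res m (X i)) ∧
        res m (tv k.succ 0 (X i)) = res m (X i) := by
      rw [tv_X]
      refine Fin.cases ?_ (fun j => ?_) i
      · rw [if_neg (Fin.succ_ne_zero k).symm]
        simp
      · by_cases hj : j = k
        · subst hj
          rw [if_pos rfl, map_add, finSuccEquiv_X_succ, finSuccEquiv_X_zero]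
          simp
        · rw [if_neg (fun h => hj (Fin.succ_injective _ h))]
          simp [pderiv_X_of_ne hj]
    constructor
    · rw [map_mul, map_mul, map_mul, map_mul, Polynomial.mul_coeff_one, Polynomial.mul_coeff_one,
        coeff_zero_fse, coeff_zero_fse, coeff_zero_fse, coeff_zero_fse, hp.1, hp.2, hX.1, hX.2,
        Derivation.leibniz]
      simp only [smul_eq_mul]
      ring
    · rw [map_mul, map_mul, map_mul, hp.2, hX.2]

theorem pderiv_res_of_inv {m : ℕ} {f : S (m + 1)} (hf : Inv f) (k : Fin m) :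
    pderiv k (res m f) = 0 := by
  have h := (coeff_one_tv k f).1
  rw [hf _ _ (Fin.succ_ne_zero k)] at h
  exact (left_eq_add.mp h)

theorem res_tv_succ {m : ℕ} (i j : Fin m) (f : S (m + 1)) :
    res m (tv i.succ j.succ f) = tv i j (res m f) := by
  have : (res m).comp (tv i.succ j.succ) = (tv i j).comp (res m) := by
    apply MvPolynomial.algHom_ext
    intro k
    simp only [AlgHom.comp_apply, tv_X]
    refine Fin.cases ?_ (fun l => ?_) k
    · rw [if_neg (Fin.succ_ne_zero i).symm]
      simp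
    · by_cases hl : l = i
      · subst hl
        simp [tv_X]
      · rw [if_neg (fun h => hl (Fin.succ_injective _ h))]
        simp [tv_X, hl]
  exact DFunLike.congr_fun this f

theorem sq_inj {m : ℕ} {a b : S m} (h : a ^ 2 = b ^ 2) : a = b := by
  have h1 : (a + b) ^ 2 = 0 := by
    rw [add_pow_char, h]
    exact CharTwo.add_self_eq_zero _
  have h2 : a + b = 0 := by simpa using h1
  exact CharTwo.add_eq_zero.mp h2

theorem inv_of_sq {m : ℕ} {g : S m} (h : Inv (g ^ 2)) : Inv g := by
  intro i j hij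
  apply sq_inj
  rw [← map_pow]
  exact h i j hij

theorem exists_res_sq {m : ℕ} {f : S (m + 1)} (hf : Inv f) :
    ∃ g : S m, res m f = g ^ 2 ∧ Inv g := by
  obtain ⟨g, hg⟩ := exists_sq (res m f) (pderiv_res_of_inv hf)
  refine ⟨g, hg, inv_of_sq ?_⟩
  rw [← hg]
  intro i j hij
  rw [← res_tv_succ, hf _ _ (fun h => hij (Fin.succ_injective _ h))]

theorem X_dvd_of_res {m : ℕ} {f : S (m + 1)} (hf : res m f = 0) : (X 0 : S (m + 1)) ∣ f := by
  have h1 : Polynomial.X ∣ finSuccEquiv (ZMod 2) m f := by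
    rw [Polynomial.X_dvd_iff, coeff_zero_fse, hf]
  rw [← finSuccEquiv_X_zero] at h1
  exact (map_dvd_iff (finSuccEquiv (ZMod 2) m)).mp h1

/-! ### the Dickson polynomials are invariant -/

theorem lin_lin {A : Type*} [CommRing A] [Algebra (ZMod 2) A] {r : ℕ} (x : Fin r → A)
    (g : Matrix (Fin r) (Fin r) (ZMod 2)) (v : Fin r → ZMod 2) :
    lin (fun i => lin x (g i)) v = lin x (Matrix.vecMul v g) := by
  simp only [lin, Matrix.vecMul, dotProduct, Finset.smul_sum, Finset.sum_smul, smul_smul]
  rw [Finset.sum_comm]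

theorem dq_gl {A : Type*} [CommRing A] [Algebra (ZMod 2) A] {r : ℕ} (x : Fin r → A)
    (g : Matrix (Fin r) (Fin r) (ZMod 2)) (hg : IsUnit g) :
    dq (fun i => lin x (g i)) = dq x := by
  unfold dq
  simp only [lin_lin]
  have hb : Function.Bijective (fun v : Fin r → ZMod 2 => Matrix.vecMul v g) :=
    ⟨Matrix.vecMul_injective_iff_isUnit.mpr hg, Matrix.vecMul_surjective_iff_isUnit.mpr hg⟩
  exact hb.prod_comp (fun w => Polynomial.X + Polynomial.C (lin x w))

theorem dQ_gl {A : Type*} [CommRing A] [Algebra (ZMod 2) A] {r : ℕ} (x : Fin r → A)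
    (g : Matrix (Fin r) (Fin r) (ZMod 2)) (hg : IsUnit g) (j : ℕ) :
    dQ (fun i => lin x (g i)) j = dQ x j := by
  unfold dQ; rw [dq_gl x g hg]

/-- linear substitution by a matrix -/
noncomputable def gsub {r : ℕ} (g : Matrix (Fin r) (Fin r) (ZMod 2)) : S r →ₐ[ZMod 2] S r :=
  aeval (fun i => lin X (g i))

theorem gsub_Q {r : ℕ} (g : Matrix (Fin r) (Fin r) (ZMod 2)) (hg : IsUnit g) (j : ℕ) :
    gsub g (Q r j) = Q r j := by
  unfold Q
  rw [← dQ_map]
  have : (fun i => gsub g (X i)) = fun i => lin (X : Fin r → S r) (g i) := by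
    funext i; simp [gsub]
  rw [this, dQ_gl _ g hg]

theorem tv_eq_gsub {r : ℕ} {i j : Fin r} (hij : i ≠ j) :
    tv i j = gsub (Matrix.transvection i j 1) := by
  apply MvPolynomial.algHom_ext
  intro k
  rw [tv_X]
  simp only [gsub, aeval_X, lin, Matrix.transvection, Matrix.add_apply, add_smul,
    Finset.sum_add_distrib, Matrix.one_apply, Matrix.single_apply, ite_smul, one_smul, zero_smul]
  simp only [Finset.sum_ite_eq, Finset.mem_univ, if_true]
  by_cases hk : k = i
  · subst hk
    simp
  · rw [if_neg hk]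
    have hk' : ¬ (i = k) := fun h => hk h.symm
    simp [hk']

theorem tv_Q {r : ℕ} {i j : Fin r} (hij : i ≠ j) (l : ℕ) : tv i j (Q r l) = Q r l := by
  rw [tv_eq_gsub hij]
  apply gsub_Q
  rw [Matrix.isUnit_iff_isUnit_det, Matrix.det_transvection_of_ne i j hij]
  exact isUnit_one

theorem inv_Q (r l : ℕ) : Inv (Q r l) := fun _ _ hij => tv_Q hij l

theorem Inv.mul {r : ℕ} {f g : S r} (hf : Inv f) (hg : Inv g) : Inv (f * g) := by
  intro i j hij; rw [map_mul, hf i j hij, hg i j hij]

theorem Inv.add {r : ℕ} {f g : S r} (hf : Inv f) (hg : Inv g) : Inv (f + g) := by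
  intro i j hij; rw [map_add, hf i j hij, hg i j hij]

theorem Inv.smul {r : ℕ} {f : S r} (hf : Inv f) (c : ZMod 2) : Inv (c • f) := by
  intro i j hij; rw [map_smul, hf i j hij]

theorem Inv.pow {r : ℕ} {f : S r} (hf : Inv f) (n : ℕ) : Inv (f ^ n) := by
  intro i j hij; rw [map_pow, hf i j hij]

theorem Inv.zero {r : ℕ} : Inv (0 : S r) := by
  intro i j hij; rw [map_zero]

theorem Inv.one {r : ℕ} : Inv (1 : S r) := by
  intro i j hij; rw [map_one]

theorem Inv.prod {r : ℕ} {ι : Type*} (s : Finset ι) {f : ι → S r} (hf : ∀ i ∈ s, Inv (f i)) :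
    Inv (∏ i ∈ s, f i) := by
  intro i j hij
  rw [map_prod]
  exact Finset.prod_congr rfl fun k hk => hf k hk i j hij

theorem inv_of_mul {r : ℕ} {a f : S r} (ha : Inv a) (ha0 : a ≠ 0) (h : Inv (a * f)) : Inv f := by
  intro i j hij
  have h1 := h i j hij
  rw [map_mul, ha i j hij] at h1
  exact mul_left_cancel₀ ha0 h1

/-! ### restriction of the Dickson polynomials -/

theorem res_Q_zero (m : ℕ) : res m (Q (m + 1) 0) = 0 := by
  unfold Q
  rw [← dQ_map, dQ_succ_zero]
  simp only [res_X_zero, dq_eval_zero, zero_mul]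

theorem res_Q_succ (m j : ℕ) : res m (Q (m + 1) (j + 1)) = Q m j ^ 2 := by
  unfold Q
  rw [← dQ_map, dQ_succ_succ]
  simp only [res_X_zero, dq_eval_zero, zero_mul, add_zero]
  congr 2
  funext i
  simp [Fin.tail]

end Crest.Agent.R204.Dickson91
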