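import Crest.Agent.R204.DicksonC_91

/-!
# Dickson algebra (row 204, leaf F3), part D: adjacent generators; graded bases
-/

set_option autoImplicit false
set_option linter.unusedSectionVars false

namespace Crest.Agent.R204.Dickson91

open MvPolynomial

/-! ### adjacent generators -/

theorem rename_tv {r : ℕ} (π : Equiv.Perm (Fin r)) (i j : Fin r) (f : S r) :
    rename π (tv i j (rename π.symm f)) = tv (π i) (π j) f := by
  have : ((rename π : S r →ₐ[ZMod 2] S r).comp ((tv i j).comp (rename π.symm))) =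
      tv (π i) (π j) := by
    apply MvPolynomial.algHom_ext
    intro k
    simp only [AlgHom.comp_apply, rename_X, tv_X]
    by_cases hk : π.symm k = i
    · have : k = π i := by rw [← hk, Equiv.apply_symm_apply]
      rw [if_pos hk, if_pos this, map_add, rename_X, rename_X]
    · have : ¬ k = π i := by
        rintro rfl
        exact hk (by simp)
      rw [if_neg hk, if_neg this, rename_X, Equiv.apply_symm_apply]
  exact DFunLike.congr_fun this f

/-- invariance under adjacent swaps and one adjacent transvection implies `Inv` -/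
theorem inv_of_adjacent {r : ℕ} {f : S r}
    (hswap : ∀ i : Fin r, ∀ h : (i : ℕ) + 1 < r, rename (Equiv.swap i ⟨i + 1, h⟩) f = f)
    (htv : ∀ i : Fin r, ∀ h : (i : ℕ) + 1 < r, tv i ⟨i + 1, h⟩ f = f) : Inv f := by
  rcases r with _ | n
  · intro i; exact i.elim0
  have hperm : ∀ π : Equiv.Perm (Fin (n + 1)), rename π f = f := by
    intro π
    have hπ : π ∈ Submonoid.closure (Set.range fun i : Fin n ↦ Equiv.swap i.castSucc i.succ) := by
      rw [Equiv.Perm.mclosure_swap_castSucc_succ]; trivial
    induction hπ using Submonoid.closure_induction with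
    | mem x hx =>
      obtain ⟨i, rfl⟩ := hx
      exact hswap i.castSucc (by simp)
    | one => simp
    | mul x y _ _ hx hy =>
      rw [Equiv.Perm.coe_mul, ← rename_rename, hy, hx]
  intro i j hij
  rcases n with _ | n
  · exact absurd (Subsingleton.elim (α := Fin 1) i j) hij
  -- a permutation with `0 ↦ i`, `1 ↦ j`
  obtain ⟨π, h0, h1⟩ : ∃ π : Equiv.Perm (Fin (n + 1 + 1)), π 0 = i ∧ π 1 = j := by
    set σ := Equiv.swap (0 : Fin (n + 1 + 1)) i with hσ
    have hb : σ 1 ≠ i := by
      intro h
      have h2 : σ 1 = σ 0 := by rw [h, hσ, Equiv.swap_apply_left]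
      have := σ.injective h2
      exact absurd this (by simp)
    refine ⟨Equiv.swap (σ 1) j * σ, ?_, ?_⟩
    · rw [Equiv.Perm.mul_apply]
      have : σ 0 = i := by rw [hσ, Equiv.swap_apply_left]
      rw [this, Equiv.swap_apply_of_ne_of_ne hb.symm hij]
    · rw [Equiv.Perm.mul_apply, Equiv.swap_apply_left]
  rw [← h0, ← h1, ← rename_tv, hperm π.symm]
  have ht : tv (0 : Fin (n + 1 + 1)) 1 f = f := htv 0 (by simp)
  rw [ht, hperm π]

/-- the same with the other transvection -/
theorem inv_of_adjacent' {r : ℕ} {f : S r}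
    (hswap : ∀ i : Fin r, ∀ h : (i : ℕ) + 1 < r, rename (Equiv.swap i ⟨i + 1, h⟩) f = f)
    (htv : ∀ i : Fin r, ∀ h : (i : ℕ) + 1 < r, tv ⟨i + 1, h⟩ i f = f) : Inv f := by
  apply inv_of_adjacent hswap
  intro i h
  have h1 := rename_tv (Equiv.swap i ⟨i + 1, h⟩) ⟨i + 1, h⟩ i f
  rw [Equiv.symm_swap, hswap, htv, hswap, Equiv.swap_apply_right, Equiv.swap_apply_left] at h1
  exact h1.symm

/-- invariance under all permutations -/
theorem Inv.rename {r : ℕ} {f : S r} (hf : Inv f) (π : Equiv.Perm (Fin r)) :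
    MvPolynomial.rename π f = f := by
  rw [inv_iff] at hf
  have h : (MvPolynomial.rename π : S r →ₐ[ZMod 2] S r) =
      gsub (π.permMatrix (ZMod 2)) := by
    apply MvPolynomial.algHom_ext
    intro k
    have h2 : (π.permMatrix (ZMod 2)) k = Pi.single (π k) 1 := by
      ext j
      rw [Equiv.Perm.permMatrix, PEquiv.toMatrix_apply]
      simp [Pi.single_apply, eq_comm]
    simp only [gsub, rename_X, aeval_X]
    rw [h2, lin_single]
  rw [h]
  apply gsub_of_mem_D hf
  rw [Matrix.isUnit_iff_isUnit_det]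
  rw [Matrix.det_permutation]
  simp only [isUnit_iff_ne_zero]
  intro h3
  rcases Int.units_eq_one_or (Equiv.Perm.sign π) with h4 | h4 <;> rw [h4] at h3 <;> simp at h3

/-! ### graded bases -/

theorem Qmon_eq_aeval {r : ℕ} (a : Fin r →₀ ℕ) :
    Qmon (a : Fin r → ℕ) = aeval (fun j : Fin r => Q r j) (monomial a (1 : ZMod 2)) := by
  rw [aeval_monomial, map_one, one_mul, Finsupp.prod_fintype _ _ (by simp)]
  rfl

theorem linearIndependent_Qmon (r : ℕ) :
    LinearIndependent (ZMod 2) (fun a : Fin r → ℕ => (Qmon a : S r)) := by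
  have h1 : LinearIndependent (ZMod 2) (fun a : Fin r →₀ ℕ => (monomial a (1 : ZMod 2) : S r)) := by
    have := (basisMonomials (Fin r) (ZMod 2)).linearIndependent
    simpa using this
  have h2 := h1.map' ((aeval (fun j : Fin r => Q r j) : S r →ₐ[ZMod 2] S r).toLinearMap)
    (LinearMap.ker_eq_bot.mpr aeval_Q_inj)
  have h3 : (fun a : Fin r → ℕ => (Qmon a : S r)) =
      (((aeval (fun j : Fin r => Q r j) : S r →ₐ[ZMod 2] S r).toLinearMap) ∘
        (fun a : Fin r →₀ ℕ => (monomial a (1 : ZMod 2) : S r))) ∘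
        (Finsupp.equivFunOnFinite (α := Fin r) (M := ℕ)).symm := by
    funext a
    simp only [Function.comp_apply, AlgHom.toLinearMap_apply]
    rw [← Qmon_eq_aeval]
    rfl
  rw [h3]
  exact h2.comp _ (Equiv.injective _)

theorem Qmon_injective (r : ℕ) : Function.Injective (fun a : Fin r → ℕ => (Qmon a : S r)) :=
  (linearIndependent_Qmon r).injective

/-- `D r` is spanned by the monomials -/
theorem D_toSubmodule (r : ℕ) : Subalgebra.toSubmodule (D r) =
    Submodule.span (ZMod 2) (Set.range fun a : Fin r → ℕ => (Qmon a : S r)) := by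
  apply le_antisymm
  · intro f hf
    have hf' : f ∈ D r := hf
    have := dickson_aux r _ f ((inv_iff f).mpr hf') le_rfl
    refine Submodule.span_mono ?_ this
    rintro _ ⟨a, _, rfl⟩
    exact ⟨a, rfl⟩
  · rw [Submodule.span_le]
    rintro _ ⟨a, rfl⟩
    exact Qmon_mem_D a

/-- the submodule `M_k = Q_0^k D_r` (here as the span of the monomials with `k ≤ a_0`) -/
noncomputable def Mk (m k : ℕ) : Submodule (ZMod 2) (S (m + 1)) :=
  Submodule.span (ZMod 2) {f | ∃ a : Fin (m + 1) → ℕ, k ≤ a 0 ∧ Qmon a = f}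

theorem Q_pow_mul_Qmon {m : ℕ} (k : ℕ) (a : Fin (m + 1) → ℕ) :
    Q (m + 1) 0 ^ k * Qmon a = Qmon (k • (Pi.single 0 1) + a) := by
  rw [← Qmon_mul]
  congr 1
  classical
  unfold Qmon
  rw [Finset.prod_eq_single 0]
  · simp
  · intro b _ hb
    simp [Pi.single_eq_of_ne hb]
  · simp

theorem mem_Mk_iff {m k : ℕ} {f : S (m + 1)} :
    f ∈ Mk m k ↔ ∃ d ∈ D (m + 1), f = Q (m + 1) 0 ^ k * d := by
  constructor
  · intro hf
    induction hf using Submodule.span_induction with
    | mem x hx =>
      obtain ⟨a, ha, rfl⟩ := hx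
      refine ⟨Qmon (a - k • (Pi.single 0 1)), Qmon_mem_D _, ?_⟩
      rw [Q_pow_mul_Qmon]
      congr 1
      funext i
      simp only [Pi.add_apply, Pi.smul_apply, Pi.sub_apply, smul_eq_mul]
      by_cases hi : i = 0
      · subst hi; simp only [Pi.single_eq_same]; omega
      · rw [Pi.single_eq_of_ne hi]; simp
    | zero => exact ⟨0, Subalgebra.zero_mem _, by simp⟩
    | add x y _ _ hx hy =>
      obtain ⟨d, hd, rfl⟩ := hx
      obtain ⟨d', hd', rfl⟩ := hy
      exact ⟨d + d', Subalgebra.add_mem _ hd hd', by ring⟩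
    | smul c x _ hx =>
      obtain ⟨d, hd, rfl⟩ := hx
      exact ⟨c • d, Subalgebra.smul_mem _ hd c, by rw [mul_smul_comm]⟩
  · rintro ⟨d, hd, rfl⟩
    have hd' : d ∈ Subalgebra.toSubmodule (D (m + 1)) := hd
    rw [D_toSubmodule] at hd'
    induction hd' using Submodule.span_induction with
    | mem x hx =>
      obtain ⟨a, rfl⟩ := hx
      apply Submodule.subset_span
      refine ⟨k • (Pi.single 0 1) + a, ?_, (Q_pow_mul_Qmon k a).symm⟩
      simp
    | zero => rw [mul_zero]; exact Submodule.zero_mem _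
    | add x y hx' hy' hx hy =>
      rw [mul_add]
      rw [← D_toSubmodule] at hx' hy'
      exact Submodule.add_mem _ (hx hx') (hy hy')
    | smul c x hx' hx =>
      rw [mul_smul_comm]
      rw [← D_toSubmodule] at hx'
      exact Submodule.smul_mem _ _ (hx hx')

/-- invariants divisible by `x_0^k` are exactly `M_k` -/
theorem mem_Mk_iff_inv {m k : ℕ} {f : S (m + 1)} :
    f ∈ Mk m k ↔ Inv f ∧ (X 0) ^ k ∣ f := by
  rw [mem_Mk_iff]
  constructor
  · rintro ⟨d, hd, rfl⟩
    refine ⟨((inv_Q _ _).pow k).mul ((inv_iff d).mpr hd), ?_⟩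
    apply Dvd.dvd.mul_right
    apply pow_dvd_pow_of_dvd
    classical
    unfold Q
    rw [dQ_zero]
    have hmem : (Pi.single 0 1 : Fin (m + 1) → ZMod 2) ∈
        Finset.univ.erase (0 : Fin (m + 1) → ZMod 2) := by
      refine Finset.mem_erase.mpr ⟨?_, Finset.mem_univ _⟩
      intro h
      have := congrFun h 0
      simp at this
    have h := Finset.dvd_prod_of_mem
      (fun v : Fin (m + 1) → ZMod 2 => lin (X : Fin (m + 1) → S (m + 1)) v) hmem
    simpa only [lin_single] using h
  · rintro ⟨h1, h2⟩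
    exact exists_of_pow_dvd k h1 h2

/-- the degree `n` part of `M_k` is spanned by the monomials `Qmon a`, `k ≤ a_0`, `wt a = n` -/
theorem Mk_homog {m k n : ℕ} {f : S (m + 1)} (hf : f ∈ Mk m k) (hn : f.IsHomogeneous n) :
    f ∈ Submodule.span (ZMod 2) {g | ∃ a : Fin (m + 1) → ℕ, k ≤ a 0 ∧ wt a = n ∧ Qmon a = g} := by
  have h : ∀ f ∈ Mk m k, homogeneousComponent n f ∈ Submodule.span (ZMod 2)
      {g | ∃ a : Fin (m + 1) → ℕ, k ≤ a 0 ∧ wt a = n ∧ Qmon a = g} := by
    intro f hf
    induction hf using Submodule.span_induction with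
    | mem x hx =>
      obtain ⟨a, ha, rfl⟩ := hx
      by_cases hw : wt a = n
      · rw [homogeneousComponent_of_mem (Qmon_homog a), if_pos hw.symm]
        exact Submodule.subset_span ⟨a, ha, hw, rfl⟩
      · rw [homogeneousComponent_of_mem (Qmon_homog a), if_neg (fun h => hw h.symm)]
        exact Submodule.zero_mem _
    | zero => rw [map_zero]; exact Submodule.zero_mem _
    | add x y _ _ hx hy => rw [map_add]; exact Submodule.add_mem _ hx hy
    | smul c x _ hx => rw [map_smul]; exact Submodule.smul_mem _ _ hx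
  have h2 := h f hf
  rwa [homogeneousComponent_of_mem hn, if_pos rfl] at h2

/-- the degree `n` part of `D r` -/
theorem D_homog {r n : ℕ} {f : S r} (hf : f ∈ D r) (hn : f.IsHomogeneous n) :
    f ∈ Submodule.span (ZMod 2) {g | ∃ a : Fin r → ℕ, wt a = n ∧ Qmon a = g} := by
  have h : ∀ f ∈ Submodule.span (ZMod 2) (Set.range fun a : Fin r → ℕ => (Qmon a : S r)),
      homogeneousComponent n f ∈ Submodule.span (ZMod 2)
      {g | ∃ a : Fin r → ℕ, wt a = n ∧ Qmon a = g} := by
    intro f hf
    induction hf using Submodule.span_induction with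
    | mem x hx =>
      obtain ⟨a, rfl⟩ := hx
      by_cases hw : wt a = n
      · simp only
        rw [homogeneousComponent_of_mem (Qmon_homog a), if_pos hw.symm]
        exact Submodule.subset_span ⟨a, hw, rfl⟩
      · simp only
        rw [homogeneousComponent_of_mem (Qmon_homog a), if_neg (fun h => hw h.symm)]
        exact Submodule.zero_mem _
    | zero => rw [map_zero]; exact Submodule.zero_mem _
    | add x y _ _ hx hy => rw [map_add]; exact Submodule.add_mem _ hx hy
    | smul c x _ hx => rw [map_smul]; exact Submodule.smul_mem _ _ hx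
  rw [← D_toSubmodule] at h
  have h2 := h f hf
  rwa [homogeneousComponent_of_mem hn, if_pos rfl] at h2

end Crest.Agent.R204.Dickson91
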