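import Crest.Agent.R204.DicksonD_91

/-!
# Dickson algebra (row 204, leaf F3), part E: the total Steenrod square
-/

set_option autoImplicit false
set_option linter.unusedSectionVars false

namespace Crest.Agent.R204.Dickson91

section General

open Polynomial

variable {A : Type*} [CommRing A] [CharP A 2] [Algebra (ZMod 2) A]

omit [CharP A 2] in
theorem lin_smul {r : ℕ} (t : A) (x : Fin r → A) (v : Fin r → ZMod 2) :
    lin (fun i => t * x i) v = t * lin x v := by
  simp [lin, Finset.mul_sum]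

omit [CharP A 2] in
theorem dq_smul_eval {r : ℕ} (t : A) (x : Fin r → A) (a : A) :
    (dq (fun i => t * x i)).eval (t * a) = t ^ (2 ^ r) * (dq x).eval a := by
  rw [dq_eval_prod, dq_eval_prod]
  simp only [lin_smul, ← mul_add, Finset.prod_mul_distrib]
  simp

theorem dQ_smul : ∀ {r : ℕ} (t : A) (x : Fin r → A) (j : ℕ),
    dQ (fun i => t * x i) j = t ^ (2 ^ r - 2 ^ j) * dQ x j := by
  intro r
  induction r with
  | zero =>
    intro t x j
    rcases Nat.eq_zero_or_pos j with rfl | hj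
    · rw [dQ_top, dQ_top]; simp
    · rw [dQ_gt _ hj, dQ_gt _ hj, mul_zero]
  | succ r ih =>
    intro t x j
    have htail : Fin.tail (fun i => t * x i) = fun i => t * Fin.tail x i := rfl
    rcases j with _ | j
    · rw [dQ_succ_zero, dQ_succ_zero x, htail, dq_smul_eval, ih]
      have h1 : 2 ^ (r + 1) - 2 ^ 0 = 2 ^ r + (2 ^ r - 2 ^ 0) := by
        have : 1 ≤ 2 ^ r := Nat.one_le_two_pow
        rw [pow_succ]; omega
      rw [h1, pow_add]
      ring
    · rw [dQ_succ_succ, dQ_succ_succ x, htail, dq_smul_eval, ih, ih, mul_add]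
      congr 1
      · rw [mul_pow, ← pow_mul, Nat.sub_mul, ← pow_succ, ← pow_succ]
      · by_cases hj : j + 1 ≤ r
        · have h1 : 2 ^ (r + 1) - 2 ^ (j + 1) = 2 ^ r + (2 ^ r - 2 ^ (j + 1)) := by
            have : 2 ^ (j + 1) ≤ 2 ^ r := Nat.pow_le_pow_right (by norm_num) hj
            rw [pow_succ 2 r]; omega
          rw [h1, pow_add]
          ring
        · rw [dQ_gt _ (not_le.mp hj)]
          ring

omit [Algebra (ZMod 2) A] [CharP A 2] in
theorem coeff_addpoly (n : ℕ) (c : ℕ → A) (i : ℕ) :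
    (∑ j ∈ Finset.range n, C (c j) * X ^ (2 ^ j)).coeff (2 ^ i) = if i < n then c i else 0 := by
  rw [finsetSum_coeff]
  simp only [coeff_C_mul, coeff_X_pow]
  by_cases hi : i < n
  · rw [if_pos hi, Finset.sum_eq_single i]
    · simp
    · intro b _ hb
      rw [if_neg, mul_zero]
      intro h
      exact hb (Nat.pow_right_injective le_rfl h).symm
    · intro h
      exact absurd (Finset.mem_range.mpr hi) h
  · rw [if_neg hi]
    apply Finset.sum_eq_zero
    intro b hb
    rw [if_neg, mul_zero]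
    intro h
    have := Nat.pow_right_injective le_rfl h
    rw [Finset.mem_range] at hb
    omega

omit [Algebra (ZMod 2) A] [CharP A 2] in
theorem coeff_addpoly_zero (n : ℕ) (c : ℕ → A) :
    (∑ j ∈ Finset.range n, C (c j) * X ^ (2 ^ (j + 1))).coeff (2 ^ 0) = 0 := by
  rw [finsetSum_coeff]
  simp only [coeff_C_mul, coeff_X_pow]
  apply Finset.sum_eq_zero
  intro b hb
  rw [if_neg, mul_zero]
  intro h
  have := Nat.pow_right_injective le_rfl h
  omega

omit [Algebra (ZMod 2) A] [CharP A 2] in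
theorem coeff_addpoly_succ (n : ℕ) (c : ℕ → A) (i : ℕ) :
    (∑ j ∈ Finset.range n, C (c j) * X ^ (2 ^ (j + 1))).coeff (2 ^ (i + 1)) =
      if i < n then c i else 0 := by
  rw [finsetSum_coeff]
  simp only [coeff_C_mul, coeff_X_pow]
  by_cases hi : i < n
  · rw [if_pos hi, Finset.sum_eq_single i]
    · simp
    · intro b _ hb
      rw [if_neg, mul_zero]
      intro h
      have := Nat.pow_right_injective le_rfl h
      omega
    · intro h
      exact absurd (Finset.mem_range.mpr hi) h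
  · rw [if_neg hi]
    apply Finset.sum_eq_zero
    intro b hb
    rw [if_neg, mul_zero]
    intro h
    have := Nat.pow_right_injective le_rfl h
    rw [Finset.mem_range] at hb
    omega

/-- `s_t = ∑_a Q_a t^{2^r - 2^a}` -/
noncomputable def sT {r : ℕ} (t : A) (x : Fin r → A) : A :=
  ∑ a ∈ Finset.range (r + 1), dQ x a * t ^ (2 ^ r - 2 ^ a)

/-- `∏_v (1 + t (u + ℓ_v)) = s_t + t^{2^r} q(u)` -/
theorem prod_one_add {r : ℕ} (t : A) (x : Fin r → A) (u : A) :
    ∏ v : Fin r → ZMod 2, (1 + t * (u + lin x v)) = sT t x + t ^ (2 ^ r) * (dq x).eval u := by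
  have h1 : ∏ v : Fin r → ZMod 2, (1 + t * (u + lin x v)) =
      (dq (fun i => t * x i)).eval (1 + t * u) := by
    rw [dq_eval_prod]
    refine Finset.prod_congr rfl fun v _ => ?_
    rw [lin_smul]; ring
  rw [h1, dq_eval_add, dq_smul_eval, dq_eval]
  congr 1
  unfold sT
  refine Finset.sum_congr rfl fun a _ => ?_
  rw [dQ_smul]
  ring

theorem lin_sq {r : ℕ} (x : Fin r → A) (v : Fin r → ZMod 2) :
    lin (fun i => x i ^ 2) v = lin x v ^ 2 := by
  unfold lin
  rw [sum_pow_char]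
  refine Finset.sum_congr rfl fun i _ => ?_
  have hc : ∀ a : ZMod 2, a ^ 2 = a := by decide
  rw [_root_.smul_pow, hc]

theorem lin_sqT {r : ℕ} (t : A) (x : Fin r → A) (v : Fin r → ZMod 2) :
    lin (fun i => x i + t * x i ^ 2) v = lin x v + t * lin x v ^ 2 := by
  rw [← lin_sq, ← lin_smul]
  simp [lin, smul_add, Finset.sum_add_distrib]

/-- the key product formula -/
theorem dq_sqT_eval {r : ℕ} (t : A) (x : Fin r → A) (u : A) :
    (dq (fun i => x i + t * x i ^ 2)).eval (u + t * u ^ 2) =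
      (dq x).eval u * (sT t x + t ^ (2 ^ r) * (dq x).eval u) := by
  rw [← prod_one_add, dq_eval_prod, dq_eval_prod, ← Finset.prod_mul_distrib]
  refine Finset.prod_congr rfl fun v _ => ?_
  rw [lin_sqT]
  have h2 : (u + lin x v) ^ 2 = u ^ 2 + lin x v ^ 2 := add_pow_char _ _ _
  calc u + t * u ^ 2 + (lin x v + t * lin x v ^ 2) =
      (u + lin x v) + t * (u ^ 2 + lin x v ^ 2) := by ring
    _ = (u + lin x v) + t * (u + lin x v) ^ 2 := by rw [h2]
    _ = _ := by ring

/-- recursion for the total square of the Dickson invariants -/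
theorem dQ_sqT_rec {r : ℕ} (t : A) (x : Fin r → A) :
    dQ (fun i => x i + t * x i ^ 2) 0 = sT t x * dQ x 0 ∧
    ∀ j, dQ (fun i => x i + t * x i ^ 2) (j + 1) + t ^ (2 ^ j) *
      dQ (fun i => x i + t * x i ^ 2) j = sT t x * dQ x (j + 1) + t ^ (2 ^ r) * dQ x j ^ 2 := by
  -- work in `A[U]`
  set y : Fin r → A := fun i => x i + t * x i ^ 2 with hy
  let φ : A →ₐ[ZMod 2] A[X] := (Polynomial.CAlgHom (R := A) (A := A)).restrictScalars (ZMod 2)
  have hφ : ∀ a, φ a = C a := fun a => rfl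
  have h1 := dq_sqT_eval (φ t) (fun i => φ (x i)) (X : A[X])
  have hyφ : (fun i => φ (x i) + φ t * φ (x i) ^ 2) = fun i => φ (y i) := by
    funext i; rw [hy]; simp
  rw [hyφ] at h1
  have hs : sT (φ t) (fun i => φ (x i)) = C (sT t x) := by
    unfold sT
    rw [map_sum]
    refine Finset.sum_congr rfl fun a _ => ?_
    rw [dQ_map, hφ, hφ, C_mul, C_pow]
  have he : ∀ (z : Fin r → A) (u : A[X]), (dq (fun i => φ (z i))).eval u =
      ∑ j ∈ Finset.range (r + 1), C (dQ z j) * u ^ (2 ^ j) := by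
    intro z u
    rw [dq_eval]
    refine Finset.sum_congr rfl fun a _ => ?_
    rw [dQ_map, hφ]
  rw [he y, he x, hs] at h1
  -- left side
  have hL : ∑ j ∈ Finset.range (r + 1), C (dQ y j) * ((X : A[X]) + φ t * X ^ 2) ^ (2 ^ j) =
      (∑ j ∈ Finset.range (r + 1), C (dQ y j) * X ^ (2 ^ j)) +
      ∑ j ∈ Finset.range (r + 1), C (t ^ (2 ^ j) * dQ y j) * X ^ (2 ^ (j + 1)) := by
    rw [← Finset.sum_add_distrib]
    refine Finset.sum_congr rfl fun j _ => ?_
    rw [add_pow_char_pow, mul_pow, hφ, ← pow_mul, ← pow_succ', C_mul, C_pow]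
    ring
  have hR : (∑ j ∈ Finset.range (r + 1), C (dQ x j) * (X : A[X]) ^ (2 ^ j)) *
      (C (sT t x) + φ t ^ (2 ^ r) * ∑ j ∈ Finset.range (r + 1), C (dQ x j) * X ^ (2 ^ j)) =
      (∑ j ∈ Finset.range (r + 1), C (sT t x * dQ x j) * X ^ (2 ^ j)) +
      ∑ j ∈ Finset.range (r + 1), C (t ^ (2 ^ r) * dQ x j ^ 2) * X ^ (2 ^ (j + 1)) := by
    rw [mul_add]
    congr 1
    · rw [mul_comm, Finset.mul_sum]
      refine Finset.sum_congr rfl fun j _ => ?_
      rw [C_mul]; ring
    · have e2 : (∑ j ∈ Finset.range (r + 1), C (dQ x j) * (X : A[X]) ^ (2 ^ j)) ^ 2 =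
          ∑ j ∈ Finset.range (r + 1), C (dQ x j ^ 2) * X ^ (2 ^ (j + 1)) := by
        rw [sum_pow_char]
        refine Finset.sum_congr rfl fun j _ => ?_
        rw [mul_pow, C_pow, ← pow_mul, pow_succ 2 j]
      calc _ = φ t ^ (2 ^ r) * (∑ j ∈ Finset.range (r + 1), C (dQ x j) * (X : A[X]) ^ (2 ^ j)) ^ 2 := by
            ring
        _ = _ := by
            rw [e2, Finset.mul_sum]
            refine Finset.sum_congr rfl fun j _ => ?_
            simp only [hφ, C_mul, C_pow]
            ring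
  rw [hL, hR] at h1
  have hz : ∀ (z : Fin r → A) (i : ℕ), (if i < r + 1 then dQ z i else 0) = dQ z i := by
    intro z i
    split_ifs with h
    · rfl
    · rw [dQ_gt _ (by omega)]
  constructor
  · have h2 := congrArg (fun p => p.coeff (2 ^ 0)) h1
    simp only [coeff_add] at h2
    rw [coeff_addpoly, coeff_addpoly_zero, coeff_addpoly, coeff_addpoly_zero, if_pos (by omega),
      if_pos (by omega), add_zero, add_zero] at h2
    exact h2
  · intro j
    have h2 := congrArg (fun p => p.coeff (2 ^ (j + 1))) h1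
    simp only [coeff_add] at h2
    rw [coeff_addpoly, coeff_addpoly_succ, coeff_addpoly, coeff_addpoly_succ] at h2
    have e1 : (if j < r + 1 then t ^ 2 ^ j * dQ y j else 0) = t ^ 2 ^ j * dQ y j := by
      rw [← mul_ite_zero, hz]
    have e2 : (if j < r + 1 then t ^ 2 ^ r * dQ x j ^ 2 else 0) = t ^ 2 ^ r * dQ x j ^ 2 := by
      split_ifs with h
      · rfl
      · rw [dQ_gt x (by omega)]; ring
    have e3 : (if j + 1 < r + 1 then sT t x * dQ x (j + 1) else 0) = sT t x * dQ x (j + 1) := by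
      rw [← mul_ite_zero, hz]
    rw [hz, e1, e2, e3] at h2
    exact h2

/-- **total Steenrod square of the Dickson invariants** (algebra form) -/
theorem dQ_sqT {r : ℕ} (t : A) (x : Fin r → A) : ∀ j ≤ r,
    dQ (fun i => x i + t * x i ^ 2) j =
      sT t x * (∑ b ∈ Finset.range (j + 1), dQ x b * t ^ (2 ^ j - 2 ^ b)) +
      ∑ b ∈ Finset.range j, dQ x b ^ 2 * t ^ (2 ^ r + 2 ^ j - 2 ^ (b + 1)) := by
  intro j
  obtain ⟨h0, hs⟩ := dQ_sqT_rec t x
  induction j with
  | zero => intro _; rw [h0]; simp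
  | succ j ih =>
    intro hj
    have h := hs j
    rw [ih (by omega)] at h
    have h2 : dQ (fun i => x i + t * x i ^ 2) (j + 1) =
        sT t x * dQ x (j + 1) + t ^ (2 ^ r) * dQ x j ^ 2 + t ^ (2 ^ j) *
        (sT t x * (∑ b ∈ Finset.range (j + 1), dQ x b * t ^ (2 ^ j - 2 ^ b)) +
          ∑ b ∈ Finset.range j, dQ x b ^ 2 * t ^ (2 ^ r + 2 ^ j - 2 ^ (b + 1))) := by
      rw [← h, add_assoc, CharTwo.add_self_eq_zero, add_zero]
    rw [h2, Finset.sum_range_succ _ (j + 1), Finset.sum_range_succ (fun b =>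
      dQ x b ^ 2 * t ^ (2 ^ r + 2 ^ (j + 1) - 2 ^ (b + 1))) j]
    have e1 : ∑ b ∈ Finset.range (j + 1), dQ x b * t ^ (2 ^ (j + 1) - 2 ^ b) =
        t ^ (2 ^ j) * ∑ b ∈ Finset.range (j + 1), dQ x b * t ^ (2 ^ j - 2 ^ b) := by
      rw [Finset.mul_sum]
      refine Finset.sum_congr rfl fun b hb => ?_
      rw [Finset.mem_range] at hb
      have : 2 ^ b ≤ 2 ^ j := Nat.pow_le_pow_right (by norm_num) (by omega)
      have h3 : 2 ^ (j + 1) - 2 ^ b = 2 ^ j + (2 ^ j - 2 ^ b) := by rw [pow_succ]; omega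
      rw [h3, pow_add]; ring
    have e2 : ∑ b ∈ Finset.range j, dQ x b ^ 2 * t ^ (2 ^ r + 2 ^ (j + 1) - 2 ^ (b + 1)) =
        t ^ (2 ^ j) * ∑ b ∈ Finset.range j, dQ x b ^ 2 * t ^ (2 ^ r + 2 ^ j - 2 ^ (b + 1)) := by
      rw [Finset.mul_sum]
      refine Finset.sum_congr rfl fun b hb => ?_
      rw [Finset.mem_range] at hb
      have : 2 ^ (b + 1) ≤ 2 ^ j := Nat.pow_le_pow_right (by norm_num) (by omega)
      have hr1 : 0 < 2 ^ r := Nat.two_pow_pos r
      have h3 : 2 ^ r + 2 ^ (j + 1) - 2 ^ (b + 1) = 2 ^ j + (2 ^ r + 2 ^ j - 2 ^ (b + 1)) := by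
        have hj2 : 2 ^ (j + 1) = 2 ^ j + 2 ^ j := by rw [pow_succ]; ring
        generalize 2 ^ (b + 1) = B at *
        generalize 2 ^ (j + 1) = J' at *
        generalize 2 ^ j = J at *
        generalize 2 ^ r = R at *
        omega
      rw [h3, pow_add]; ring
    rw [e1, e2]
    have h4 : 2 ^ r + 2 ^ (j + 1) - 2 ^ (j + 1) = 2 ^ r := Nat.add_sub_cancel _ _
    have h5 : 2 ^ (j + 1) - 2 ^ (j + 1) = 0 := Nat.sub_self _
    rw [h4, h5]
    ring

end General

section Sq

open MvPolynomial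

/-- the (graded) total Steenrod square on `F₂[x]`: `x ↦ x + T x²` -/
noncomputable def sqT {σ : Type*} : MvPolynomial σ (ZMod 2) →ₐ[ZMod 2]
    Polynomial (MvPolynomial σ (ZMod 2)) :=
  aeval (fun i => Polynomial.C (X i) + Polynomial.X * Polynomial.C (X i) ^ 2)

@[simp] theorem sqT_X {σ : Type*} (i : σ) : sqT (X i : MvPolynomial σ (ZMod 2)) =
    Polynomial.C (X i) + Polynomial.X * Polynomial.C (X i) ^ 2 := by
  simp [sqT]

/-- the Steenrod square `Sq^a` on `F₂[x]` -/
noncomputable def Sq {σ : Type*} (a : ℕ) : MvPolynomial σ (ZMod 2) →ₗ[ZMod 2]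
    MvPolynomial σ (ZMod 2) where
  toFun f := (sqT f).coeff a
  map_add' f g := by simp
  map_smul' c f := by simp

theorem Sq_apply {σ : Type*} (a : ℕ) (f : MvPolynomial σ (ZMod 2)) : Sq a f = (sqT f).coeff a := rfl

/-- **total Steenrod square of the Dickson invariants** -/
theorem sqT_Q {r j : ℕ} (hj : j ≤ r) : sqT (Q r j) =
    (∑ a ∈ Finset.range (r + 1), Polynomial.C (Q r a) * Polynomial.X ^ (2 ^ r - 2 ^ a)) *
      (∑ b ∈ Finset.range (j + 1), Polynomial.C (Q r b) * Polynomial.X ^ (2 ^ j - 2 ^ b)) +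
      ∑ b ∈ Finset.range j, Polynomial.C (Q r b) ^ 2 *
        Polynomial.X ^ (2 ^ r + 2 ^ j - 2 ^ (b + 1)) := by
  let φ : S r →ₐ[ZMod 2] Polynomial (S r) :=
    (Polynomial.CAlgHom (R := S r) (A := S r)).restrictScalars (ZMod 2)
  have hφ : ∀ a, φ a = Polynomial.C a := fun a => rfl
  have h := dQ_sqT (Polynomial.X : Polynomial (S r)) (fun i => φ (X i)) j hj
  have h1 : sqT (Q r j) = dQ (fun i => φ (X i) + Polynomial.X * φ (X i) ^ 2) j := by
    unfold Q
    rw [← dQ_map]
    congr 1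
    funext i
    rw [sqT_X, hφ]
  have hb : ∀ b, dQ (fun i => φ (X i)) b = Polynomial.C (Q r b) := fun b => dQ_map φ X b
  rw [h1, h]
  simp only [sT, hb]

/-! ### basic properties of `Sq` -/

theorem Sq_zero {σ : Type*} (f : MvPolynomial σ (ZMod 2)) : Sq 0 f = f := by
  rw [Sq_apply]
  induction f using MvPolynomial.induction_on with
  | C a => simp [sqT]
  | add p q hp hq => rw [map_add, Polynomial.coeff_add, hp, hq]
  | mul_X p i hp => rw [map_mul, Polynomial.mul_coeff_zero, hp]; simp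

/-- Cartan formula -/
theorem Sq_mul {σ : Type*} (a : ℕ) (f g : MvPolynomial σ (ZMod 2)) :
    Sq a (f * g) = ∑ p ∈ Finset.HasAntidiagonal.antidiagonal a, Sq p.1 f * Sq p.2 g := by
  simp only [Sq_apply, map_mul, Polynomial.coeff_mul]

/-- naturality under linear substitutions -/
theorem sqT_gsub {r : ℕ} (g : Matrix (Fin r) (Fin r) (ZMod 2)) (f : S r) :
    sqT (gsub g f) = (sqT f).map (gsub g : S r →+* S r) := by
  let ψ : Polynomial (S r) →ₐ[ZMod 2] Polynomial (S r) := Polynomial.mapAlgHom (gsub g)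
  have h : sqT.comp (gsub g) = ψ.comp sqT := by
    apply MvPolynomial.algHom_ext
    intro i
    simp only [AlgHom.comp_apply, sqT_X, gsub, aeval_X, ψ]
    have h1 : sqT (lin (X : Fin r → S r) (g i)) = lin (fun k => sqT (X k : S r)) (g i) :=
      (lin_map _ _ _).symm
    rw [h1]
    simp only [sqT_X]
    rw [lin_sqT]
    have h2 : lin (fun k => Polynomial.C (X k : S r)) (g i) = Polynomial.C (lin X (g i)) := by
      unfold lin
      rw [map_sum]
      refine Finset.sum_congr rfl fun k _ => ?_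
      rw [Polynomial.smul_C]
    rw [h2]
    simp
  have := DFunLike.congr_fun h f
  simpa [ψ] using this

theorem Sq_gsub {r : ℕ} (g : Matrix (Fin r) (Fin r) (ZMod 2)) (a : ℕ) (f : S r) :
    Sq a (gsub g f) = gsub g (Sq a f) := by
  rw [Sq_apply, Sq_apply, sqT_gsub, Polynomial.coeff_map]
  rfl

/-- the Dickson algebra is stable under `Sq^a` -/
theorem Sq_mem_D {r : ℕ} {f : S r} (hf : f ∈ D r) (a : ℕ) : Sq a f ∈ D r := by
  rw [← gl_inv_iff]
  intro g hg
  rw [← Sq_gsub, gsub_of_mem_D hf g hg]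

/-- `M_k` is stable under `Sq^a` -/
theorem Sq_mem_Mk {m k : ℕ} {f : S (m + 1)} (hf : f ∈ Mk m k) (a : ℕ) : Sq a f ∈ Mk m k := by
  rw [mem_Mk_iff] at hf ⊢
  obtain ⟨d, hd, rfl⟩ := hf
  -- total square of `Q_0`
  set s : Polynomial (S (m + 1)) := ∑ a ∈ Finset.range (m + 1 + 1),
    Polynomial.C (Q (m + 1) a) * Polynomial.X ^ (2 ^ (m + 1) - 2 ^ a) with hs
  have h0 : sqT (Q (m + 1) 0) = Polynomial.C (Q (m + 1) 0) * s := by
    rw [sqT_Q (Nat.zero_le _), ← hs, Finset.sum_range_zero, add_zero, Finset.sum_range_one,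
      Nat.sub_self, pow_zero, mul_one, mul_comm]
  have h1 : sqT (Q (m + 1) 0 ^ k * d) = Polynomial.C (Q (m + 1) 0 ^ k) * (s ^ k * sqT d) := by
    rw [map_mul, map_pow, h0, mul_pow, Polynomial.C_pow, mul_assoc]
  refine ⟨(s ^ k * sqT d).coeff a, ?_, ?_⟩
  · -- coefficients in `D`
    have hsub : ∀ n, s.coeff n ∈ D (m + 1) := by
      intro n
      rw [hs, Polynomial.finsetSum_coeff]
      apply Subalgebra.sum_mem
      intro i _
      rw [Polynomial.coeff_C_mul, Polynomial.coeff_X_pow]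
      split_ifs
      · rw [mul_one]; exact Q_mem_D _ _
      · rw [mul_zero]; exact Subalgebra.zero_mem _
    have hmul : ∀ p q : Polynomial (S (m + 1)), (∀ n, p.coeff n ∈ D (m + 1)) →
        (∀ n, q.coeff n ∈ D (m + 1)) → ∀ n, (p * q).coeff n ∈ D (m + 1) := by
      intro p q hp hq n
      rw [Polynomial.coeff_mul]
      exact Subalgebra.sum_mem _ fun x _ => Subalgebra.mul_mem _ (hp _) (hq _)
    have hpow : ∀ k n, (s ^ k).coeff n ∈ D (m + 1) := by
      intro k
      induction k with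
      | zero =>
        intro n
        rw [pow_zero, Polynomial.coeff_one]
        split_ifs
        · exact Subalgebra.one_mem _
        · exact Subalgebra.zero_mem _
      | succ k ih => rw [pow_succ]; exact hmul _ _ ih hsub
    exact hmul _ _ (hpow k) (fun n => Sq_mem_D hd n) a
  · rw [Sq_apply, h1, Polynomial.coeff_C_mul]

end Sq

end Crest.Agent.R204.Dickson91
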