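import Crest.Agent.R204.CoBM_596
import Crest.Agent.R204.SqCartan_898
import Crest.Agent.R204.Spec_114

set_option autoImplicit false

/-!
# Row 204, leaf S3: the dual Bullett--Macdonald identity for the dual Steenrod squares, unconditional
-/

noncomputable section

namespace Crest.Agent.R204.Adem596

theorem cartan_Sq252 (K : SS) : Cartan K := fun a x y => C6898.Sq_cr BZ498.BZ K a x y

theorem sqB_Sq252 : SqB := fun i b => C6898.Sq252_aZ i b

/-- the dual Bullett--Macdonald identity, in the form of `Spine_693` -/
theorem coBM_Sq252 (K : SS) : Spine693.CoBM (Sq252.Sq K) := coBM (cartan_Sq252 K) sqB_Sq252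

/-- the dual Bullett--Macdonald identity, in the form of `Spec_114` -/
theorem dualBM_Sq252 (K : SS) : Spec114.Tower.DualBM (Sq252.Sq K) := by
  intro n i hi y
  have h := LinearMap.congr_fun (coBM_Sq252 K n i hi) y
  simpa only [LinearMap.sum_apply, LinearMap.smul_apply, LinearMap.comp_apply, Spine693.bmc] using h

end Crest.Agent.R204.Adem596
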