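import Crest.Agent.R204.EZAW_271

/-!
# Row 204, A1s (helper766): the cross product is a strict map of coalgebras

`cop (cross a b) = Φ (cop a) (cop b)`, `Φ (a₁ ⊗ a₂) (b₁ ⊗ b₂) = ± cross a₁ b₁ ⊗ cross a₂ b₂`, sign
`(-1)^{|a₂||b₁|}`, over any commutative ring; sign-free form over `F2`; explicit form on simplices.
-/

set_option autoImplicit false

noncomputable section

namespace Crest.Agent.R204.EZCop766

open Finsupp TensorProduct EZ271

variable {R : Type} [CommRing R]

theorem cop_sg {K : SS} (z : N R K) :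
    cop R (sg R z) = TensorProduct.map (sg R) (sg R) (cop R z) := by
  have : cop R ∘ₗ sg R = TensorProduct.map (sg R) (sg R) ∘ₗ cop R (K := K) := by
    refine hom_ext fun n x => ?_
    simp only [LinearMap.comp_apply, sg_sx, map_smul, cop_sx, map_sum, TensorProduct.map_tmul,
      Finset.smul_sum]
    refine Finset.sum_congr rfl fun a ha => ?_
    rw [Finset.mem_range] at ha
    rw [TensorProduct.smul_tmul_smul, ← pow_add]
    congr 2
    omega
  exact LinearMap.congr_fun this z

/-- iterated sign operator -/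
def sgp (R : Type) [CommRing R] {K : SS} (p : ℕ) : N R K →ₗ[R] N R K := (sg R) ^ p

theorem sgp_sx {K : SS} (p : ℕ) {n : ℕ} (x : K.S n) :
    sgp R p (N.sx R x) = ((-1 : R) ^ (n * p)) • N.sx R x := by
  induction p with
  | zero => simp [sgp]
  | succ p ih =>
    have : sgp R (p + 1) (N.sx R x) = sg R (sgp R p (N.sx R x)) := by
      simp only [sgp, pow_succ', Module.End.mul_apply]
    rw [this, ih, map_smul, sg_sx, smul_smul, ← pow_add]
    congr 2

/-- the graded twist -/
def tw {K L : SS} : N R K →ₗ[R] N R L →ₗ[R] N R L ⊗[R] N R K :=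
  liftN (fun p x => ((TensorProduct.mk R (N R L) (N R K)).flip (N.sx R x)) ∘ₗ sgp R p)
    (fun n j y => by
      rw [N.sx_dgn]
      ext b
      simp)

theorem tw_sx {K L : SS} {p : ℕ} (x : K.S p) (b : N R L) :
    tw (N.sx R x) b = sgp R p b ⊗ₜ[R] N.sx R x := by
  rw [tw, liftN_sx]
  rfl

theorem tw_sx_sx {K L : SS} {p q : ℕ} (x : K.S p) (y : L.S q) :
    tw (N.sx R x) (N.sx R y) = ((-1 : R) ^ (p * q)) • (N.sx R y ⊗ₜ[R] N.sx R x) := by
  rw [tw_sx, sgp_sx, TensorProduct.smul_tmul', mul_comm]

theorem tw_map {K L K' L' : SS} (g : SS.Hom K K') (h : SS.Hom L L') (a : N R K) (b : N R L) :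
    tw (N.map R g a) (N.map R h b) = TensorProduct.map (N.map R h) (N.map R g) (tw a b) := by
  have : (tw (R := R) (K := K') (L := L')).compl₁₂ (N.map R g) (N.map R h) =
      (tw (K := K) (L := L)).compr₂ (TensorProduct.map (N.map R h) (N.map R g)) := by
    refine bilin_ext R fun p x q y => ?_
    simp only [LinearMap.compl₁₂_apply, LinearMap.compr₂_apply, N.map_sx, tw_sx_sx, map_smul,
      TensorProduct.map_tmul]
  exact LinearMap.congr_fun₂ this a b

theorem tw_c_right {K L : SS} (B : Cone L) (a : N R K) (b : N R L) :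
    tw a (B.c R b) = TensorProduct.map (B.c R) LinearMap.id (tw (sg R a) b) := by
  have : (tw (R := R) (K := K) (L := L)).compl₂ (B.c R) =
      ((tw (K := K) (L := L)) ∘ₗ sg R).compr₂ (TensorProduct.map (B.c R) LinearMap.id) := by
    refine bilin_ext R fun p x q y => ?_
    simp only [LinearMap.compl₂_apply, LinearMap.compr₂_apply, LinearMap.comp_apply, Cone.c_sx,
      sg_sx, map_smul, LinearMap.smul_apply, tw_sx_sx, TensorProduct.map_tmul, LinearMap.id_apply,
      smul_smul]
    rw [← pow_add]
    congr 2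
    ring
  exact LinearMap.congr_fun₂ this a b

theorem tw_vertex_right {K L : SS} (a : N R K) (v : L.S 0) :
    tw a (N.sx R v) = N.sx R v ⊗ₜ[R] a := by
  have : (tw (R := R) (K := K) (L := L)).flip (N.sx R v) = TensorProduct.mk R _ _ (N.sx R v) := by
    refine hom_ext fun p x => ?_
    simp only [LinearMap.flip_apply, tw_sx_sx, TensorProduct.mk_apply, mul_zero, pow_zero, one_smul]
  exact LinearMap.congr_fun this a

theorem tw_vertex_left {K L : SS} (v : K.S 0) (b : N R L) :
    tw (N.sx R v) b = b ⊗ₜ[R] N.sx R v := by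
  rw [tw_sx]; rfl

/-- the product of two chain tensors -/
def Phi {K L : SS} : (N R K ⊗[R] N R K) →ₗ[R] (N R L ⊗[R] N R L) →ₗ[R]
    N R (K.prod L) ⊗[R] N R (K.prod L) :=
  TensorProduct.lift (LinearMap.mk₂ R (fun a₁ a₂ =>
      (TensorProduct.lift (LinearMap.mk₂ R (fun b₁ b₂ =>
        TensorProduct.map (cross R a₁) ((cross R).flip b₂) (tw a₂ b₁))
        (fun b b' c => by rw [map_add, map_add]) (fun r b c => by rw [map_smul, map_smul])
        (fun b c c' => by rw [map_add, TensorProduct.map_add_right]; rfl)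
        (fun r b c => by rw [map_smul, TensorProduct.map_smul_right]; rfl)) :
      (N R L ⊗[R] N R L) →ₗ[R] N R (K.prod L) ⊗[R] N R (K.prod L)))
    (fun a a' c => by
      refine TensorProduct.ext' fun b₁ b₂ => ?_
      simp only [TensorProduct.lift.tmul, LinearMap.mk₂_apply, LinearMap.add_apply, map_add,
        TensorProduct.map_add_left])
    (fun r a c => by
      refine TensorProduct.ext' fun b₁ b₂ => ?_
      simp only [TensorProduct.lift.tmul, LinearMap.mk₂_apply, LinearMap.smul_apply, map_smul,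
        TensorProduct.map_smul_left])
    (fun a c c' => by
      refine TensorProduct.ext' fun b₁ b₂ => ?_
      simp only [TensorProduct.lift.tmul, LinearMap.mk₂_apply, LinearMap.add_apply, map_add])
    (fun r a c => by
      refine TensorProduct.ext' fun b₁ b₂ => ?_
      simp only [TensorProduct.lift.tmul, LinearMap.mk₂_apply, LinearMap.smul_apply, map_smul]))

theorem Phi_tmul {K L : SS} (a₁ a₂ : N R K) (b₁ b₂ : N R L) :
    Phi (a₁ ⊗ₜ[R] a₂) (b₁ ⊗ₜ[R] b₂) =
      TensorProduct.map (cross R a₁) ((cross R).flip b₂) (tw a₂ b₁) := by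
  rw [Phi, TensorProduct.lift.tmul, LinearMap.mk₂_apply, TensorProduct.lift.tmul, LinearMap.mk₂_apply]

/-- on simplices -/
theorem Phi_sx {K L : SS} {p q : ℕ} (a₁ : N R K) (x : K.S p) (y : L.S q) (b₂ : N R L) :
    Phi (a₁ ⊗ₜ[R] N.sx R x) (N.sx R y ⊗ₜ[R] b₂) =
      ((-1 : R) ^ (p * q)) • (cross R a₁ (N.sx R y) ⊗ₜ[R] cross R (N.sx R x) b₂) := by
  rw [Phi_tmul, tw_sx_sx, map_smul, TensorProduct.map_tmul]
  rfl

theorem map_map_tmul {M M' N₁ N₁' P P' : Type*} [AddCommGroup M] [AddCommGroup M'] [AddCommGroup N₁]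
    [AddCommGroup N₁'] [AddCommGroup P] [AddCommGroup P'] [Module R M] [Module R M'] [Module R N₁]
    [Module R N₁'] [Module R P] [Module R P'] (f : M →ₗ[R] N₁) (f' : M' →ₗ[R] N₁') (g : N₁ →ₗ[R] P)
    (g' : N₁' →ₗ[R] P') (t : M ⊗[R] M') :
    TensorProduct.map g g' (TensorProduct.map f f' t) =
      TensorProduct.map (g ∘ₗ f) (g' ∘ₗ f') t := by
  rw [TensorProduct.map_comp]; rfl

theorem Phi_map {K L K' L' : SS} (g : SS.Hom K K') (h : SS.Hom L L') (t : N R K ⊗[R] N R K)
    (u : N R L ⊗[R] N R L) :
    Phi (TensorProduct.map (N.map R g) (N.map R g) t) (TensorProduct.map (N.map R h) (N.map R h) u) =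
      TensorProduct.map (N.map R (SS.prodMap g h)) (N.map R (SS.prodMap g h)) (Phi t u) := by
  induction t using TensorProduct.induction_on with
  | zero => simp
  | add x y hx hy => simp only [map_add, LinearMap.add_apply, hx, hy]
  | tmul a₁ a₂ =>
    induction u using TensorProduct.induction_on with
    | zero => simp
    | add x y hx hy => simp only [map_add, hx, hy]
    | tmul b₁ b₂ =>
      rw [TensorProduct.map_tmul, TensorProduct.map_tmul, Phi_tmul, Phi_tmul, tw_map, map_map_tmul,
        map_map_tmul]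
      congr 2
      · refine LinearMap.ext fun b => ?_
        simp only [LinearMap.comp_apply, map_cross]
      · refine LinearMap.ext fun b => ?_
        simp only [LinearMap.comp_apply, LinearMap.flip_apply, map_cross]

section steps

variable {K L : SS} (A : Cone K) (B : Cone L)

theorem step_i (t : N R K ⊗[R] N R K) (b : N R L) :
    TensorProduct.map ((A.prod B).c R) LinearMap.id (Phi t (N.sx R B.bot ⊗ₜ[R] b)) =
      Phi (TensorProduct.map (A.c R) LinearMap.id t) (N.sx R B.bot ⊗ₜ[R] b) := by
  induction t using TensorProduct.induction_on with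
  | zero => simp
  | add x y hx hy => simp only [map_add, LinearMap.add_apply, hx, hy]
  | tmul a₁ a₂ =>
    rw [TensorProduct.map_tmul, Phi_tmul, Phi_tmul, LinearMap.id_apply, tw_vertex_right,
      TensorProduct.map_tmul, TensorProduct.map_tmul, TensorProduct.map_tmul, cross_c_bot]
    rfl

theorem step_ii (a : N R K) (u : N R L ⊗[R] N R L) :
    TensorProduct.map ((A.prod B).c R) LinearMap.id (Phi (N.sx R A.bot ⊗ₜ[R] sg R a) u) =
      Phi (N.sx R A.bot ⊗ₜ[R] a) (TensorProduct.map (B.c R) LinearMap.id u) := by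
  induction u using TensorProduct.induction_on with
  | zero => simp
  | add x y hx hy => simp only [map_add, hx, hy]
  | tmul b₁ b₂ =>
    rw [TensorProduct.map_tmul, Phi_tmul, Phi_tmul, LinearMap.id_apply, tw_c_right, map_map_tmul,
      map_map_tmul]
    congr 2
    refine LinearMap.ext fun b => ?_
    simp only [LinearMap.comp_apply, cross_bot_c]

theorem step_iii (t : N R K ⊗[R] N R K) (u : N R L ⊗[R] N R L) :
    TensorProduct.map ((A.prod B).c R) LinearMap.id
      (Phi t (TensorProduct.map (B.c R) LinearMap.id u) +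
        Phi (TensorProduct.map (sg R ∘ₗ A.c R) (sg R) t) u) =
      Phi (TensorProduct.map (A.c R) LinearMap.id t) (TensorProduct.map (B.c R) LinearMap.id u) := by
  induction t using TensorProduct.induction_on with
  | zero => simp
  | add x y hx hy =>
    simp only [map_add, LinearMap.add_apply] at hx hy ⊢
    rw [← hx, ← hy]; abel
  | tmul a₁ a₂ =>
    induction u using TensorProduct.induction_on with
    | zero => simp
    | add x y hx hy =>
      simp only [map_add] at hx hy ⊢
      rw [← hx, ← hy]; abel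
    | tmul b₁ b₂ =>
      simp only [TensorProduct.map_tmul, Phi_tmul, LinearMap.id_apply, tw_c_right, map_map_tmul,
        LinearMap.comp_apply, map_add, LinearMap.id_comp, LinearMap.comp_id]
      rw [← LinearMap.add_apply, ← TensorProduct.map_add_left]
      congr 2
      refine LinearMap.ext fun b => ?_
      simp only [LinearMap.comp_apply, LinearMap.add_apply, cross_c_c, map_add]

end steps

/-- THE CROSS PRODUCT IS A STRICT COALGEBRA MAP -/
theorem cop_cross {K L : SS} (a : N R K) (b : N R L) :
    cop R (cross R a b) = Phi (cop R a) (cop R b) := by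
  refine ind2 R (M := fun K L => N R (K.prod L) ⊗[R] N R (K.prod L)) (fun K L =>
    (cross R (K := K) (L := L)).compr₂ (cop R)) (fun K L =>
      (Phi (K := K) (L := L)).compl₁₂ (cop R) (cop R)) ?_ ?_ ?_ ?_ ?_ K L a b
  · intro K L K' L' g h a b hab
    simp only [LinearMap.compr₂_apply, LinearMap.compl₁₂_apply] at hab ⊢
    rw [← map_cross, cop_map, hab, cop_map, cop_map, Phi_map]
  · intro K L A B
    simp only [LinearMap.compr₂_apply, LinearMap.compl₁₂_apply]
    rw [cross_bot, cop_bot, cop_bot, cop_bot, Phi_tmul, tw_vertex_right, TensorProduct.map_tmul,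
      LinearMap.flip_apply, cross_bot]
  · intro K L A B a h
    simp only [LinearMap.compr₂_apply, LinearMap.compl₁₂_apply] at h ⊢
    rw [cross_c_bot, cop_c, h, cop_bot, step_i, cop_c, map_add, LinearMap.add_apply, Phi_tmul,
      tw_vertex_right, TensorProduct.map_tmul, LinearMap.flip_apply, cross_bot, cross_c_bot]
  · intro K L A B b h
    simp only [LinearMap.compr₂_apply, LinearMap.compl₁₂_apply] at h ⊢
    rw [cross_bot_c, cop_c, h, cop_bot, cop_c, map_add, Phi_tmul, tw_vertex_right,
      TensorProduct.map_tmul, LinearMap.flip_apply, cross_bot, cross_bot_c, ← step_ii]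
    simp only [sg_sx, pow_zero, one_smul]
  · intro K L A B a b h1 _ h2
    simp only [LinearMap.compr₂_apply, LinearMap.compl₁₂_apply] at h1 h2 ⊢
    rw [cross_c_c, cop_c, ← cross_c_c, map_add (cop R), h1, h2, cop_sg, cop_c R A a, cop_c R B b,
      map_add (TensorProduct.map (sg R) (sg R)), TensorProduct.map_tmul, map_map_tmul]
    simp only [map_add, LinearMap.add_apply, sg_sx, pow_zero, one_smul, LinearMap.comp_id]
    rw [← step_iii, ← step_ii, ← step_i, map_add, Phi_tmul (N.sx R A.bot) (A.c R a),
      tw_vertex_right, TensorProduct.map_tmul, LinearMap.flip_apply, cross_bot]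
    simp only [map_add, step_i]
    abel

/-- explicit form on simplices: sum over the cuts, with sign -/
theorem cop_cross_sx {K L : SS} {p q : ℕ} (x : K.S p) (y : L.S q) :
    cop R (cross R (N.sx R x) (N.sx R y)) =
      ∑ i ∈ Finset.range (p + 1), ∑ j ∈ Finset.range (q + 1), ((-1 : R) ^ ((p - i) * j)) •
        (cross R (N.sx R (K.act (front i p) x)) (N.sx R (L.act (front j q) y)) ⊗ₜ[R]
          cross R (N.sx R (K.act (back (p - i) p) x)) (N.sx R (L.act (back (q - j) q) y))) := by
  rw [cop_cross, cop_sx R x, cop_sx R y, map_sum, Finset.sum_comm]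
  refine Finset.sum_congr rfl fun j _ => ?_
  rw [map_sum, LinearMap.sum_apply]
  refine Finset.sum_congr rfl fun i _ => ?_
  exact Phi_sx _ _ _ _

/-! ## sign-free form over `F2` -/

theorem sg_F2 {K : SS} (a : N F2 K) : sg F2 a = a := by
  have : sg F2 = (LinearMap.id : N F2 K →ₗ[F2] N F2 K) := by
    refine hom_ext fun n x => ?_
    have h : (-1 : F2) = 1 := by decide
    rw [sg_sx, h, one_pow, one_smul]; rfl
  exact LinearMap.congr_fun this a

theorem sgp_F2 {K : SS} (p : ℕ) (a : N F2 K) : sgp F2 p a = a := by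
  have h : sg F2 = (1 : Module.End F2 (N F2 K)) := LinearMap.ext sg_F2
  rw [sgp, h, one_pow]; rfl

theorem tw_F2 {K L : SS} (a : N F2 K) (b : N F2 L) : tw a b = b ⊗ₜ[F2] a := by
  have : tw (R := F2) (K := K) (L := L) = (TensorProduct.mk F2 _ _).flip := by
    refine hom_ext fun p x => ?_
    refine LinearMap.ext fun b => ?_
    rw [tw_sx, sgp_F2]; rfl
  exact LinearMap.congr_fun₂ this a b

theorem Phi_F2 {K L : SS} (a₁ a₂ : N F2 K) (b₁ b₂ : N F2 L) :
    Phi (a₁ ⊗ₜ[F2] a₂) (b₁ ⊗ₜ[F2] b₂) = cross F2 a₁ b₁ ⊗ₜ[F2] cross F2 a₂ b₂ := by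
  rw [Phi_tmul, tw_F2, TensorProduct.map_tmul]; rfl

theorem Phi_eq_F2 {K L : SS} (t : N F2 K ⊗[F2] N F2 K) (u : N F2 L ⊗[F2] N F2 L) :
    Phi t u = TensorProduct.map (TensorProduct.lift (cross F2)) (TensorProduct.lift (cross F2))
      (TensorProduct.tensorTensorTensorComm F2 _ _ _ _ (t ⊗ₜ[F2] u)) := by
  induction t using TensorProduct.induction_on with
  | zero => simp
  | add x y hx hy => simp only [map_add, LinearMap.add_apply, hx, hy, TensorProduct.add_tmul]
  | tmul a₁ a₂ =>
    induction u using TensorProduct.induction_on with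
    | zero => simp
    | add x y hx hy => simp only [map_add, hx, hy, TensorProduct.tmul_add]
    | tmul b₁ b₂ =>
      rw [Phi_F2, TensorProduct.tensorTensorTensorComm_tmul, TensorProduct.map_tmul,
        TensorProduct.lift.tmul, TensorProduct.lift.tmul]

theorem cop_cross_F2 {K L : SS} (a : N F2 K) (b : N F2 L) :
    cop F2 (cross F2 a b) =
      TensorProduct.map (TensorProduct.lift (cross F2)) (TensorProduct.lift (cross F2))
        (TensorProduct.tensorTensorTensorComm F2 _ _ _ _ (cop F2 a ⊗ₜ[F2] cop F2 b)) := by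
  rw [cop_cross, Phi_eq_F2]

end Crest.Agent.R204.EZCop766
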