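import Crest.Agent.R204.DC_803

/-!
# The model `E = Co J (Co X (Co Y R))`, its gradings and contractions (row 204, leaf G5; helper803)
-/

set_option autoImplicit false
set_option linter.unusedSectionVars false

namespace Crest.Agent.R204.SQ803

open Co

/-- sign `(-1)^((a-1)(b-1))` -/
def sw (a b : ℕ) : ℤ := (-1) ^ ((a + 1) * (b + 1))

theorem sw_comm (a b : ℕ) : sw a b = sw b a := by unfold sw; rw [mul_comm]
theorem sw_mul_self (a b : ℕ) : sw a b * sw a b = 1 := by
  unfold sw; rw [← pow_add, ← two_mul, pow_mul]; simp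
theorem sw_succ (a b : ℕ) : sw a (b + 1) = sw a b * sg a := by
  unfold sw sg; rw [← pow_add]; congr 1
theorem sw_succ' (a b : ℕ) : sw a b = sw a (b + 1) * sg a := by
  rw [sw_succ, mul_assoc, sg_mul_self, mul_one]

section S

variable {X Y R : Type*} [AddCommGroup R] [Cx R]

/-- normalised value -/
def vv (s : Co X (Co Y R)) (x : List X) (y : List Y) : R := nz (nz s.f x).f y

@[simp] theorem vv_nil_left (s : Co X (Co Y R)) (y : List Y) : vv s [] y = 0 := by
  unfold vv; cases y <;> rfl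
@[simp] theorem vv_nil_right (s : Co X (Co Y R)) (x : List X) : vv s x [] = 0 := rfl
@[simp] theorem vv_cons (s : Co X (Co Y R)) (a : X) (x : List X) (b : Y) (y : List Y) :
    vv s (a :: x) (b :: y) = (s.f (a :: x)).f (b :: y) := rfl

theorem vv_add (s t : Co X (Co Y R)) (x : List X) (y : List Y) :
    vv (s + t) x y = vv s x y + vv t x y := by
  rcases x with _ | ⟨a, x⟩ <;> rcases y with _ | ⟨b, y⟩ <;> simp

theorem vv_zero (x : List X) (y : List Y) : vv (0 : Co X (Co Y R)) x y = 0 := by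
  rcases x with _ | ⟨a, x⟩ <;> rcases y with _ | ⟨b, y⟩ <;> simp

/-- vanishing at empty lists -/
def NzS (s : Co X (Co Y R)) : Prop := s.f [] = 0 ∧ ∀ x, (s.f x).f [] = 0

theorem NzS.vv {s : Co X (Co Y R)} (h : NzS s) (x : List X) (y : List Y) :
    vv s x y = (s.f x).f y := by
  rcases x with _ | ⟨a, x⟩
  · rw [vv_nil_left, h.1]; rfl
  · rcases y with _ | ⟨b, y⟩
    · rw [vv_nil_right, h.2]
    · rfl

theorem NzS.ext {s t : Co X (Co Y R)} (hs : NzS s) (ht : NzS t)
    (h : ∀ a x b y, (s.f (a :: x)).f (b :: y) = (t.f (a :: x)).f (b :: y)) : s = t := by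
  refine Co.ext fun x => Co.ext fun y => ?_
  rcases x with _ | ⟨a, x⟩
  · rw [hs.1, ht.1]
  · rcases y with _ | ⟨b, y⟩
    · rw [hs.2, ht.2]
    · exact h a x b y

theorem NzS.add {s t : Co X (Co Y R)} (hs : NzS s) (ht : NzS t) : NzS (s + t) :=
  ⟨by rw [add_f, hs.1, ht.1, add_zero], fun x => by rw [add_f, add_f, hs.2, ht.2, add_zero]⟩

theorem NzS.zero : NzS (0 : Co X (Co Y R)) := ⟨rfl, fun _ => rfl⟩

theorem NzS.neg {s : Co X (Co Y R)} (hs : NzS s) : NzS (-s) :=
  ⟨by rw [neg_f, hs.1, neg_zero], fun x => by rw [neg_f, neg_f, hs.2, neg_zero]⟩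

theorem NzS.zsmul {s : Co X (Co Y R)} (hs : NzS s) (n : ℤ) : NzS (n • s) :=
  ⟨by rw [zsmul_f, hs.1, smul_zero], fun x => by rw [zsmul_f, zsmul_f, hs.2, smul_zero]⟩

theorem NzS.nz {s : Co X (Co Y R)} (h : NzS s) : SQ803.nz s.f = s.f := nz_of h.1

theorem NzS.nz' {s : Co X (Co Y R)} (h : NzS s) (x : List X) : SQ803.nz (s.f x).f = (s.f x).f :=
  nz_of (h.2 x)

/-- the differential of `S` on normalised cochains -/
theorem NzS.δ_f {s : Co X (Co Y R)} (h : NzS s) (x : List X) (y : List Y) :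
    ((Cx.δ s).f x).f y = dl x (fun x' => (s.f x').f y) +
      sg x.length • (dl y (s.f x).f + sg y.length • Cx.δ ((s.f x).f y)) := by
  rw [δ_of h.1, add_f, dl_f, zsmul_f, δ_of (h.2 x)]

theorem NzS.δ {s : Co X (Co Y R)} (h : NzS s) : NzS (Cx.δ s) := by
  refine ⟨δ_nil s, fun x => ?_⟩
  rw [h.δ_f, dl_eq_zero fun x' _ => h.2 x', h.2 x]
  simp

/-- swap of the two variables, with Koszul sign; kills values at empty lists -/
def Tn : Co X (Co Y R) →+ Co Y (Co X R) where
  toFun s := ⟨fun y => ⟨fun x => sw x.length y.length • vv s x y⟩⟩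
  map_zero' := by
    refine Co.ext fun y => Co.ext fun x => ?_
    show sw x.length y.length • vv (0 : Co X (Co Y R)) x y = 0
    rw [vv_zero, smul_zero]
  map_add' s t := by
    refine Co.ext fun y => Co.ext fun x => ?_
    show sw x.length y.length • vv (s + t) x y = _ • vv s x y + _ • vv t x y
    rw [vv_add, smul_add]

theorem Tn_f (s : Co X (Co Y R)) (x : List X) (y : List Y) :
    ((Tn s).f y).f x = sw x.length y.length • vv s x y := rfl

theorem Tn_nz (s : Co X (Co Y R)) : NzS (Tn s) := by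
  refine ⟨Co.ext fun x => ?_, fun y => ?_⟩
  · rw [Tn_f, vv_nil_right, smul_zero]; rfl
  · rw [Tn_f, vv_nil_left, smul_zero]

theorem Tn_Tn {s : Co X (Co Y R)} (h : NzS s) : Tn (Tn s) = s := by
  refine Co.ext fun x => Co.ext fun y => ?_
  rw [Tn_f, (Tn_nz s).vv, Tn_f, smul_smul, sw_comm, sw_mul_self, one_smul, h.vv]

end S

section Sn

variable {X Y : Type*} {n : ℕ}

theorem NzS.δ_fz {s : Co X (Co Y (ZMod n))} (h : NzS s) (x : List X) (y : List Y) :
    ((Cx.δ s).f x).f y = dl x (fun x' => (s.f x').f y) + sg x.length • dl y (s.f x).f := by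
  rw [h.δ_f, Cx.zmod, smul_zero, add_zero]

/-- normalisation of an element of `S` -/
def nn (s : Co X (Co Y (ZMod n))) : Co X (Co Y (ZMod n)) := ⟨fun x => ⟨fun y => vv s x y⟩⟩

theorem nn_nz (s : Co X (Co Y (ZMod n))) : NzS (nn s) :=
  ⟨Co.ext fun y => by show vv s [] y = 0; simp, fun x => by show vv s x [] = 0; simp⟩

theorem vv_δ (s : Co X (Co Y (ZMod n))) (x : List X) (y : List Y) :
    vv (Cx.δ s) x y = ((Cx.δ (nn s)).f x).f y := by
  rcases x with _ | ⟨a, x⟩
  · rw [vv_nil_left, (nn_nz s).δ.1]; rfl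
  · rcases y with _ | ⟨b, y⟩
    · rw [vv_nil_right, (nn_nz s).δ.2]
    · rw [vv_cons, (nn_nz s).δ_fz, δ_eq, dlt_f, add_f, dl_f, zsmul_f, δ_eq, dlt_f, Cx.zmod,
        smul_zero, add_zero]
      congr 1

theorem Tn_δ (s : Co X (Co Y (ZMod n))) : Cx.δ (Tn s) = Tn (Cx.δ s) := by
  refine Co.ext fun y => Co.ext fun x => ?_
  rw [Tn_f, vv_δ, (Tn_nz s).δ_fz, (nn_nz s).δ_fz, smul_add]
  have e1 : dl y (fun y' => ((Tn s).f y').f x) =
      (sw x.length y.length * sg x.length) • dl y (fun y' => vv s x y') := by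
    rw [← zsmulAddGroupHom_apply, ← dl_hom]
    refine dl_congr fun y' hy' => ?_
    rw [Tn_f, zsmulAddGroupHom_apply, ← hy', ← sw_succ']
  have e2 : dl x ((Tn s).f y).f =
      (sw x.length y.length * sg y.length) • dl x (fun x' => vv s x' y) := by
    rw [← zsmulAddGroupHom_apply, ← dl_hom]
    refine dl_congr fun x' hx' => ?_
    rw [Tn_f, zsmulAddGroupHom_apply, ← hx', sw_comm, sw_comm _ y.length, ← sw_succ']
  rw [e1, e2, smul_smul, smul_smul, mul_comm (sg y.length), mul_assoc _ (sg y.length),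
    sg_mul_self, mul_one, add_comm]
  rfl

/-- the contraction of `S` with base points `c1`, `c2` -/
def hA (c1 : X) (c2 : Y) (s : Co X (Co Y (ZMod n))) : Co X (Co Y (ZMod n)) :=
  ⟨fun x => ⟨fun y => if x = [] ∨ y = [] then 0 else
    (s.f (c1 :: x)).f y + if x.length = 1 then (s.f [c1]).f (c2 :: y) else 0⟩⟩

theorem hA_cons (c1 : X) (c2 : Y) (s : Co X (Co Y (ZMod n))) (a : X) (x : List X) (b : Y)
    (y : List Y) : ((hA c1 c2 s).f (a :: x)).f (b :: y) = (s.f (c1 :: a :: x)).f (b :: y) +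
      if x = [] then (s.f [c1]).f (c2 :: b :: y) else 0 := by
  simp [hA]

theorem hA_nz (c1 : X) (c2 : Y) (s : Co X (Co Y (ZMod n))) : NzS (hA c1 c2 s) :=
  ⟨Co.ext fun y => by simp [hA], fun x => by simp [hA]⟩

theorem hA_spec (c1 : X) (c2 : Y) {s : Co X (Co Y (ZMod n))} (hs : NzS s) (hδ : Cx.δ s = 0)
    (h0 : (s.f [c1]).f [c2] = 0) : Cx.δ (hA c1 c2 s) = s := by
  refine (hA_nz c1 c2 s).δ.ext hs fun a x b y => ?_
  rw [(hA_nz c1 c2 s).δ_fz]
  have k1 := contr c1 (a :: x) (fun x' => (s.f x').f (b :: y))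
  have d1 := hs.δ_fz (c1 :: a :: x) (b :: y)
  rw [hδ] at d1
  have e1 : dl (a :: x) (fun x' => ((hA c1 c2 s).f x').f (b :: y)) =
      dl (a :: x) (fun x' => (s.f (c1 :: x')).f (b :: y)) -
        if x = [] then (s.f [c1]).f (b :: y) else 0 := by
    have : dl (a :: x) (fun x' => ((hA c1 c2 s).f x').f (b :: y)) =
        dl (a :: x) (fun x' => (s.f (c1 :: x')).f (b :: y)) -
          dl (a :: x) (fun x' => if x' = [] then (s.f [c1]).f (b :: y) else 0) +
          dl (a :: x) (kap (J := X) ((s.f [c1]).f (c2 :: b :: y))).f := by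
      rw [← dl_sub, ← dl_add]
      refine dl_congr fun x' _ => ?_
      rcases x' with _ | ⟨a', x'⟩
      · simp [hA]
      · rw [hA_cons, kap_f]; simp
    rw [this, dl_kap, add_zero]
    congr 1
    rw [dl_cons]
    simp
  have e2 : sg (a :: x).length • dl (b :: y) ((hA c1 c2 s).f (a :: x)).f =
      sg (a :: x).length • dl (b :: y) (s.f (c1 :: a :: x)).f +
        if x = [] then (s.f [c1]).f (b :: y) else 0 := by
    have : dl (b :: y) ((hA c1 c2 s).f (a :: x)).f =
        dl (b :: y) (s.f (c1 :: a :: x)).f +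
          dl (b :: y) (fun y' => if x = [] then (if y' = [] then 0 else (s.f [c1]).f (c2 :: y')) else 0) := by
      rw [← dl_add]
      refine dl_congr fun y' _ => ?_
      rcases y' with _ | ⟨b', y'⟩
      · rw [(hA_nz c1 c2 s).2, hs.2]; simp
      · rw [hA_cons]; simp
    rw [this, smul_add]
    congr 1
    by_cases hx : x = []
    · subst hx
      simp only [if_true, List.length_cons, List.length_nil]
      have hsg : sg (0 + 1) = 1 := by simp [sg]
      rw [hsg, one_smul]
      have k2 := contr c2 (b :: y) (s.f [c1]).f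
      have d2 := hs.δ_fz [c1] (c2 :: b :: y)
      rw [hδ] at d2
      simp only [zero_f, dl_cons c1 [], dl_nil, sub_zero, hs.1, List.length_cons, List.length_nil,
        hsg, one_smul, zero_add] at d2
      rw [← d2, zero_add] at k2
      have : dl (b :: y) (fun y' => if y' = [] then 0 else (s.f [c1]).f (c2 :: y')) =
          dl (b :: y) (fun y' => (s.f [c1]).f (c2 :: y')) -
          dl (b :: y) (fun y' => if y' = [] then (s.f [c1]).f [c2] else 0) := by
        rw [← dl_sub]
        refine dl_congr fun y' _ => ?_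
        rcases y' with _ | ⟨b', y'⟩ <;> simp
      rw [this, ← k2, h0]
      simp
    · simp [hx]
  rw [e1, e2]
  simp only [zero_f] at d1
  rw [List.length_cons, sg_succ] at d1
  rw [k1]
  have : dl (c1 :: a :: x) (fun x' => (s.f x').f (b :: y)) =
      sg (a :: x).length • dl (b :: y) (s.f (c1 :: a :: x)).f := by
    have h := d1.symm
    rw [neg_smul] at h
    exact add_neg_eq_zero.1 h
  rw [this]
  abel

end Sn

end Crest.Agent.R204.SQ803
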