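import Crest.Agent.R204.Defs

/-!
# Row 204, leaf A-EXC (helper406): barycentric subdivision on tuples

`EX X` : the simplicial set with `n`-simplices all `(n+1)`-tuples of points of `X`.
For a barycentre function `β` we define the subdivision operator `sd` and the homotopy `tt` on
`Ch R (EX X)`:  `bd ∘ sd = sd ∘ bd`, `bd ∘ tt + tt ∘ bd = id - sd`, `sd` kills degenerate chains, `tt`
preserves them.
-/

set_option autoImplicit false

namespace Crest.Agent.R204.Exc406

open Finsupp

/-- the simplicial set of all tuples of points of `X` -/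
abbrev EX (X : Type) : SS where
  S n := Fin (n + 1) → X
  act f v := v ∘ f
  act_id _ := rfl
  act_comp _ _ _ := rfl

/-- functoriality of `EX` -/
def EX.map {X X' : Type} (g : X → X') : SS.Hom (EX X) (EX X') :=
  ⟨fun _ v => g ∘ v, fun _ _ => rfl⟩

theorem EX_act {X : Type} {m n : ℕ} (f : Op m n) (v : Fin (n + 1) → X) :
    (EX X).act f v = v ∘ f := rfl

theorem EX_map_app {X X' : Type} (g : X → X') (n : ℕ) (v : Fin (n + 1) → X) :
    (EX.map g).app n v = g ∘ v := rfl

section aug

variable (R : Type) [CommRing R] (K : SS)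

/-- augmentation -/
noncomputable def aug : Ch R K →ₗ[R] R :=
  Finsupp.linearCombination R (fun t : K.T => if t.1 = 0 then (1 : R) else 0)

variable {R K}

@[simp] theorem aug_single_zero (x : K.S 0) (r : R) : aug R K (single ⟨0, x⟩ r) = r := by
  simp [aug]

@[simp] theorem aug_single_succ {n : ℕ} (x : K.S (n + 1)) (r : R) :
    aug R K (single ⟨n + 1, x⟩ r) = 0 := by
  simp [aug]

theorem aug_bd (c : Ch R K) : aug R K (Ch.bd R K c) = 0 := by
  induction c using Finsupp.induction_linear with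
  | zero => simp
  | add f g hf hg => simp only [map_add, hf, hg, add_zero]
  | single t r =>
    obtain ⟨n, x⟩ := t
    rcases n with _ | _ | n
    · simp
    · rw [Ch.bd_single_succ, map_sum, Fin.sum_univ_two]
      simp
    · rw [Ch.bd_single_succ, map_sum]
      exact Finset.sum_eq_zero fun i _ => aug_single_succ _ _

theorem aug_map {L : SS} (f : SS.Hom K L) (c : Ch R K) : aug R L (Ch.map R f c) = aug R K c := by
  induction c using Finsupp.induction_linear with
  | zero => simp
  | add f g hf hg => simp only [map_add, hf, hg]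
  | single t r =>
    obtain ⟨n, x⟩ := t
    rw [Ch.map_single]
    rcases n with _ | n
    · rw [aug_single_zero, aug_single_zero]
    · rw [aug_single_succ, aug_single_succ]

/-- projection to the chains of degree `n` -/
noncomputable def proj (R : Type) [CommRing R] (K : SS) (n : ℕ) : Ch R K →ₗ[R] Ch R K :=
  Finsupp.linearCombination R (fun t : K.T => if t.1 = n then single t (1 : R) else 0)

theorem proj_single (n : ℕ) (t : K.T) (r : R) :
    proj R K n (single t r) = if t.1 = n then single t r else 0 := by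
  rw [proj, Finsupp.linearCombination_single]
  split_ifs <;> simp

theorem proj_bd_single (n : ℕ) (x : K.S (n + 1)) (r : R) :
    proj R K n (Ch.bd R K (single ⟨n + 1, x⟩ r)) = Ch.bd R K (single ⟨n + 1, x⟩ r) := by
  rw [Ch.bd_single_succ, map_sum]
  refine Finset.sum_congr rfl fun i _ => ?_
  rw [proj_single, if_pos rfl]

theorem single_mem_Dg {t : K.T} (h : Ch.IsDgn K t) (r : R) : single t r ∈ Ch.Dg R K := by
  have : (single t r : Ch R K) = r • single t 1 := by simp
  rw [this]
  exact Submodule.smul_mem _ _ (Submodule.subset_span ⟨t, h, rfl⟩)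

/-- a linear map killing all degenerate `n`-simplices kills the boundary of every degenerate
`(n+1)`-simplex -/
theorem kill_bd {M : Type*} [AddCommGroup M] [Module R M] (φ : Ch R K →ₗ[R] M) (n : ℕ)
    (hφ : ∀ x : K.S n, Ch.IsDgn K ⟨n, x⟩ → φ (single ⟨n, x⟩ 1) = 0)
    (x : K.S (n + 1)) (hx : Ch.IsDgn K ⟨n + 1, x⟩) (r : R) :
    φ (Ch.bd R K (single ⟨n + 1, x⟩ r)) = 0 := by
  have h1 : Ch.Dg R K ≤ LinearMap.ker (φ ∘ₗ proj R K n) := by
    refine Submodule.span_le.2 ?_
    rintro _ ⟨⟨m, y⟩, ht, rfl⟩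
    simp only [SetLike.mem_coe, LinearMap.mem_ker, LinearMap.comp_apply]
    rw [proj_single]
    by_cases h : m = n
    · subst h
      rw [if_pos rfl]
      exact hφ y ht
    · rw [if_neg h, map_zero]
  have h2 := h1 (Ch.bd_mem_Dg (single_mem_Dg hx r))
  rw [LinearMap.mem_ker, LinearMap.comp_apply, proj_bd_single] at h2
  exact h2

end aug

section cone

variable (R : Type) [CommRing R] {X : Type}

/-- the cone operator -/
noncomputable def cone (b : X) : Ch R (EX X) →ₗ[R] Ch R (EX X) :=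
  Finsupp.lmapDomain R R
    (fun t : (EX X).T => (⟨t.1 + 1, (Fin.cons b t.2 : Fin (t.1 + 2) → X)⟩ : (EX X).T))

variable {R}

theorem cone_single (b : X) (n : ℕ) (v : Fin (n + 1) → X) (r : R) :
    cone R b (single ⟨n, v⟩ r) = single ⟨n + 1, (Fin.cons b v : Fin (n + 2) → X)⟩ r := by
  simp only [cone, Finsupp.lmapDomain_apply, Finsupp.mapDomain_single]

theorem cons_face_zero (b : X) {n : ℕ} (v : Fin (n + 1) → X) :
    (Fin.cons b v : Fin (n + 2) → X) ∘ (Op.face (0 : Fin (n + 2))) = v := by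
  funext a
  have : (Op.face (0 : Fin (n + 2)) a : Fin (n + 2)) = a.succ := by
    ext; rw [Ch.face_val]; simp
  simp [this]

theorem cons_face_succ (b : X) {n : ℕ} (v : Fin (n + 2) → X) (i : Fin (n + 2)) :
    (Fin.cons b v : Fin (n + 3) → X) ∘ (Op.face i.succ) =
      (Fin.cons b (v ∘ Op.face i) : Fin (n + 2) → X) := by
  funext a
  refine Fin.cases ?_ (fun a => ?_) a
  · have : (Op.face i.succ (0 : Fin (n + 2)) : Fin (n + 3)) = 0 := by
      ext; rw [Ch.face_val]; simp
    simp [this]
  · have : (Op.face i.succ a.succ : Fin (n + 3)) = (Op.face i a).succ := by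
      ext; rw [Ch.face_val, Fin.val_succ, Fin.val_succ, Fin.val_succ, Ch.face_val]
      split_ifs <;> omega
    simp [this]

theorem bd_cone (b : X) (c : Ch R (EX X)) :
    Ch.bd R (EX X) (cone R b c) = c - cone R b (Ch.bd R (EX X) c)
      - aug R (EX X) c • single ⟨0, (fun _ => b : Fin 1 → X)⟩ 1 := by
  induction c using Finsupp.induction_linear with
  | zero => simp
  | add f g hf hg => simp only [map_add, hf, hg, add_smul]; abel
  | single t r =>
    obtain ⟨n, v⟩ := t
    rw [cone_single, Ch.bd_single_succ]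
    rcases n with _ | n
    · rw [Ch.bd_single_zero, map_zero, sub_zero, aug_single_zero, Fin.sum_univ_two]
      dsimp only
      rw [cons_face_zero]
      have : (Fin.cons b v : Fin 2 → X) ∘ (Op.face (1 : Fin 2)) = (fun _ => b : Fin 1 → X) := by
        funext a
        have : (Op.face (1 : Fin 2) a : Fin 2) = 0 := by
          ext; rw [Ch.face_val]; simp
        simp [this]
      rw [this]
      simp [sub_eq_add_neg]
    · rw [aug_single_succ, zero_smul, sub_zero, Fin.sum_univ_succ, Ch.bd_single_succ, map_sum]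
      dsimp only
      rw [cons_face_zero, sub_eq_add_neg, ← Finset.sum_neg_distrib]
      simp only [Fin.val_zero, pow_zero, mul_one]
      congr 1
      refine Finset.sum_congr rfl fun i _ => ?_
      rw [cons_face_succ, cone_single, Fin.val_succ, pow_succ, ← Finsupp.single_neg]
      congr 1
      ring

theorem aug_cone (b : X) (c : Ch R (EX X)) : aug R (EX X) (cone R b c) = 0 := by
  induction c using Finsupp.induction_linear with
  | zero => simp
  | add f g hf hg => simp only [map_add, hf, hg, add_zero]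
  | single t r =>
    obtain ⟨n, v⟩ := t
    rw [cone_single, aug_single_succ]

theorem map_cone {X' : Type} (g : X → X') (b : X) (c : Ch R (EX X)) :
    Ch.map R (EX.map g) (cone R b c) = cone R (g b) (Ch.map R (EX.map g) c) := by
  induction c using Finsupp.induction_linear with
  | zero => simp
  | add f g hf hg => simp only [map_add, hf, hg]
  | single t r =>
    obtain ⟨n, v⟩ := t
    rw [cone_single, Ch.map_single, Ch.map_single, cone_single]
    congr 2
    funext a
    refine Fin.cases ?_ (fun a => ?_) a <;> simp [EX_map_app]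

theorem cons_dgn (b : X) {n : ℕ} (v : Fin (n + 1) → X) (j : Fin (n + 1)) :
    (Fin.cons b (v ∘ Op.dgn j) : Fin (n + 3) → X) =
      (Fin.cons b v : Fin (n + 2) → X) ∘ Op.dgn j.succ := by
  funext a
  refine Fin.cases ?_ (fun a => ?_) a
  · have : (Op.dgn j.succ (0 : Fin (n + 3)) : Fin (n + 2)) = 0 := by
      ext; rw [Ch.dgn_val]; simp
    simp [this]
  · have : (Op.dgn j.succ a.succ : Fin (n + 2)) = (Op.dgn j a).succ := by
      ext; rw [Ch.dgn_val, Fin.val_succ, Fin.val_succ, Fin.val_succ, Ch.dgn_val]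
      split_ifs <;> omega
    simp [this]

theorem cone_isDgn (b : X) {n : ℕ} (v : Fin (n + 1) → X) (h : Ch.IsDgn (EX X) ⟨n, v⟩) :
    Ch.IsDgn (EX X) ⟨n + 1, (Fin.cons b v : Fin (n + 2) → X)⟩ := by
  rcases n with _ | n
  · exact h.elim
  · obtain ⟨j, y, hy⟩ := h
    refine ⟨j.succ, (Fin.cons b y : Fin (n + 2) → X), ?_⟩
    rw [EX_act] at hy ⊢
    rw [hy, cons_dgn]

theorem cone_mem_Dg (b : X) {c : Ch R (EX X)} (hc : c ∈ Ch.Dg R (EX X)) :
    cone R b c ∈ Ch.Dg R (EX X) := by
  have : Ch.Dg R (EX X) ≤ (Ch.Dg R (EX X)).comap (cone R b) := by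
    refine Submodule.span_le.2 ?_
    rintro _ ⟨⟨n, v⟩, hv, rfl⟩
    rw [SetLike.mem_coe, Submodule.mem_comap, cone_single]
    exact single_mem_Dg (cone_isDgn b v hv) 1
  exact this hc

end cone

section sd

variable (R : Type) [CommRing R] {X : Type} (β : ∀ n, (Fin (n + 1) → X) → X)

/-- subdivision of one tuple -/
noncomputable def sdv : ∀ n, (Fin (n + 1) → X) → Ch R (EX X)
  | 0, v => single ⟨0, v⟩ 1
  | n + 1, v => ∑ i : Fin (n + 2), ((-1 : R) ^ (i : ℕ)) • cone R (β (n + 1) v) (sdv n (v ∘ Op.face i))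

/-- subdivision -/
noncomputable def sd : Ch R (EX X) →ₗ[R] Ch R (EX X) :=
  Finsupp.linearCombination R (fun t : (EX X).T => sdv R β t.1 t.2)

/-- homotopy on one tuple -/
noncomputable def ttv : ∀ n, (Fin (n + 1) → X) → Ch R (EX X)
  | 0, _ => 0
  | n + 1, v => cone R (β (n + 1) v)
      (single ⟨n + 1, v⟩ 1 - ∑ i : Fin (n + 2), ((-1 : R) ^ (i : ℕ)) • ttv n (v ∘ Op.face i))

/-- the homotopy -/
noncomputable def tt : Ch R (EX X) →ₗ[R] Ch R (EX X) :=
  Finsupp.linearCombination R (fun t : (EX X).T => ttv R β t.1 t.2)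

variable {R}

theorem sd_single (n : ℕ) (v : Fin (n + 1) → X) (r : R) :
    sd R β (single ⟨n, v⟩ r) = r • sdv R β n v := by
  rw [sd, Finsupp.linearCombination_single]

theorem tt_single (n : ℕ) (v : Fin (n + 1) → X) (r : R) :
    tt R β (single ⟨n, v⟩ r) = r • ttv R β n v := by
  rw [tt, Finsupp.linearCombination_single]

theorem sdv_succ (n : ℕ) (v : Fin (n + 2) → X) :
    sdv R β (n + 1) v = cone R (β (n + 1) v) (sd R β (Ch.bd R (EX X) (single ⟨n + 1, v⟩ 1))) := by
  rw [Ch.bd_single_succ, map_sum, map_sum, sdv]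
  refine Finset.sum_congr rfl fun i _ => ?_
  rw [sd_single, map_smul, one_mul, EX_act]

theorem ttv_succ (n : ℕ) (v : Fin (n + 2) → X) :
    ttv R β (n + 1) v = cone R (β (n + 1) v)
      (single ⟨n + 1, v⟩ 1 - tt R β (Ch.bd R (EX X) (single ⟨n + 1, v⟩ 1))) := by
  rw [Ch.bd_single_succ, map_sum, ttv]
  congr 2
  refine Finset.sum_congr rfl fun i _ => ?_
  rw [tt_single, one_mul, EX_act]

/-- two linear maps agreeing on `n`-simplices agree on the boundary of an `(n+1)`-simplex -/
theorem eq_on_bd {K : SS} {M : Type*} [AddCommGroup M] [Module R M] (φ ψ : Ch R K →ₗ[R] M) (n : ℕ)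
    (h : ∀ x : K.S n, φ (single ⟨n, x⟩ 1) = ψ (single ⟨n, x⟩ 1)) (x : K.S (n + 1)) (r : R) :
    φ (Ch.bd R K (single ⟨n + 1, x⟩ r)) = ψ (Ch.bd R K (single ⟨n + 1, x⟩ r)) := by
  rw [Ch.bd_single_succ, map_sum, map_sum]
  refine Finset.sum_congr rfl fun i _ => ?_
  have h1 : ∀ (y : K.S n) (s : R), (single ⟨n, y⟩ s : Ch R K) = s • single ⟨n, y⟩ 1 := by
    intro y s; simp
  rw [h1, map_smul, map_smul, h]

/-- two linear maps agreeing on all simplices are equal -/
theorem ch_ext {K : SS} {M : Type*} [AddCommGroup M] [Module R M] (φ ψ : Ch R K →ₗ[R] M)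
    (h : ∀ n (x : K.S n), φ (single ⟨n, x⟩ 1) = ψ (single ⟨n, x⟩ 1)) (c : Ch R K) : φ c = ψ c := by
  have : φ = ψ := by
    refine Finsupp.lhom_ext' fun t => LinearMap.ext_ring ?_
    obtain ⟨n, x⟩ := t
    exact h n x
  rw [this]

theorem aug_sd (c : Ch R (EX X)) : aug R (EX X) (sd R β c) = aug R (EX X) c := by
  refine ch_ext ((aug R (EX X)) ∘ₗ sd R β) (aug R (EX X)) (fun n v => ?_) c
  rw [LinearMap.comp_apply, sd_single, one_smul]
  rcases n with _ | n
  · rw [sdv]
  · rw [sdv_succ, aug_cone, aug_single_succ]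

theorem bd_sdv (n : ℕ) : ∀ v : Fin (n + 1) → X,
    Ch.bd R (EX X) (sdv R β n v) = sd R β (Ch.bd R (EX X) (single ⟨n, v⟩ 1)) := by
  induction n with
  | zero => intro v; rw [sdv, Ch.bd_single_zero, map_zero]
  | succ n ih =>
    intro v
    rw [sdv_succ, bd_cone, aug_sd, aug_bd, zero_smul, sub_zero]
    have h := eq_on_bd (K := EX X) ((Ch.bd R (EX X)) ∘ₗ sd R β) (sd R β ∘ₗ (Ch.bd R (EX X))) n
      (fun w => by
        rw [LinearMap.comp_apply, LinearMap.comp_apply, sd_single, one_smul]
        exact ih w) v 1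
    rw [LinearMap.comp_apply, LinearMap.comp_apply, Ch.bd_bd, map_zero] at h
    rw [h, map_zero, sub_zero]

theorem bd_sd (c : Ch R (EX X)) : Ch.bd R (EX X) (sd R β c) = sd R β (Ch.bd R (EX X) c) := by
  refine ch_ext ((Ch.bd R (EX X)) ∘ₗ sd R β) (sd R β ∘ₗ (Ch.bd R (EX X))) (fun n v => ?_) c
  rw [LinearMap.comp_apply, LinearMap.comp_apply, sd_single, one_smul, bd_sdv]

theorem aug_tt (c : Ch R (EX X)) : aug R (EX X) (tt R β c) = 0 := by
  refine ch_ext ((aug R (EX X)) ∘ₗ tt R β) 0 (fun n v => ?_) c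
  rw [LinearMap.comp_apply, tt_single, one_smul, LinearMap.zero_apply]
  rcases n with _ | n
  · rw [ttv, map_zero]
  · rw [ttv_succ, aug_cone]

theorem bd_ttv (n : ℕ) : ∀ v : Fin (n + 1) → X,
    Ch.bd R (EX X) (ttv R β n v) =
      single ⟨n, v⟩ 1 - tt R β (Ch.bd R (EX X) (single ⟨n, v⟩ 1)) - sdv R β n v := by
  induction n with
  | zero => intro v; rw [ttv, sdv, Ch.bd_single_zero, map_zero, map_zero]; simp
  | succ n ih =>
    intro v
    rw [ttv_succ, bd_cone, map_sub (aug R (EX X)), aug_tt, aug_single_succ, sub_zero, zero_smul,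
      sub_zero, map_sub (Ch.bd R (EX X))]
    have h := eq_on_bd (K := EX X) ((Ch.bd R (EX X)) ∘ₗ tt R β)
      (LinearMap.id - tt R β ∘ₗ (Ch.bd R (EX X)) - sd R β) n
      (fun w => by
        simp only [LinearMap.comp_apply, LinearMap.sub_apply, LinearMap.id_apply]
        rw [tt_single, one_smul, sd_single, one_smul]
        exact ih w) v 1
    simp only [LinearMap.comp_apply, LinearMap.sub_apply, LinearMap.id_apply, Ch.bd_bd, map_zero,
      sub_zero] at h
    rw [h, sub_sub_cancel, sdv_succ]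

theorem bd_tt (c : Ch R (EX X)) :
    Ch.bd R (EX X) (tt R β c) = c - tt R β (Ch.bd R (EX X) c) - sd R β c := by
  have := ch_ext ((Ch.bd R (EX X)) ∘ₗ tt R β)
    (LinearMap.id - tt R β ∘ₗ (Ch.bd R (EX X)) - sd R β) (fun n v => ?_) c
  · simpa only [LinearMap.comp_apply, LinearMap.sub_apply, LinearMap.id_apply] using this
  · simp only [LinearMap.comp_apply, LinearMap.sub_apply, LinearMap.id_apply]
    rw [tt_single, one_smul, bd_ttv, sd_single, one_smul]

theorem sdv_dgn (n : ℕ) : ∀ v : Fin (n + 1) → X, Ch.IsDgn (EX X) ⟨n, v⟩ → sdv R β n v = 0 := by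
  induction n with
  | zero => intro v h; exact h.elim
  | succ n ih =>
    intro v h
    rw [sdv_succ, kill_bd (sd R β) n (fun w hw => by rw [sd_single, one_smul, ih w hw]) v h,
      map_zero]

theorem sd_Dg {c : Ch R (EX X)} (hc : c ∈ Ch.Dg R (EX X)) : sd R β c = 0 := by
  have : Ch.Dg R (EX X) ≤ LinearMap.ker (sd R β) := by
    refine Submodule.span_le.2 ?_
    rintro _ ⟨⟨n, v⟩, hv, rfl⟩
    rw [SetLike.mem_coe, LinearMap.mem_ker, sd_single, sdv_dgn β n v hv, smul_zero]
  exact this hc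

theorem ttv_dgn (n : ℕ) : ∀ v : Fin (n + 1) → X, Ch.IsDgn (EX X) ⟨n, v⟩ →
    ttv R β n v ∈ Ch.Dg R (EX X) := by
  induction n with
  | zero => intro v h; exact h.elim
  | succ n ih =>
    intro v h
    rw [ttv_succ]
    refine cone_mem_Dg _ (Submodule.sub_mem _ (single_mem_Dg h 1) ?_)
    have := kill_bd ((Submodule.mkQ (Ch.Dg R (EX X))) ∘ₗ tt R β) n (fun w hw => by
      rw [LinearMap.comp_apply, tt_single, one_smul]
      exact (Submodule.Quotient.mk_eq_zero _).2 (ih w hw)) v h 1
    rw [LinearMap.comp_apply] at this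
    exact (Submodule.Quotient.mk_eq_zero _).1 this

theorem tt_Dg {c : Ch R (EX X)} (hc : c ∈ Ch.Dg R (EX X)) : tt R β c ∈ Ch.Dg R (EX X) := by
  have : Ch.Dg R (EX X) ≤ (Ch.Dg R (EX X)).comap (tt R β) := by
    refine Submodule.span_le.2 ?_
    rintro _ ⟨⟨n, v⟩, hv, rfl⟩
    rw [SetLike.mem_coe, Submodule.mem_comap, tt_single]
    exact Submodule.smul_mem _ _ (ttv_dgn β n v hv)
  exact this hc

variable {X' : Type} (β' : ∀ n, (Fin (n + 1) → X') → X') (g : X → X')
  (hg : ∀ n v, g (β n v) = β' n (g ∘ v))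

include hg

theorem map_sdv (n : ℕ) : ∀ v : Fin (n + 1) → X,
    Ch.map R (EX.map g) (sdv R β n v) = sdv R β' n (g ∘ v) := by
  induction n with
  | zero => intro v; rw [sdv, sdv, Ch.map_single, EX_map_app]
  | succ n ih =>
    intro v
    rw [sdv, sdv, map_sum]
    refine Finset.sum_congr rfl fun i _ => ?_
    rw [map_smul, map_cone, ih, hg]
    rfl

theorem map_sd (c : Ch R (EX X)) :
    Ch.map R (EX.map g) (sd R β c) = sd R β' (Ch.map R (EX.map g) c) := by
  refine ch_ext (Ch.map R (EX.map g) ∘ₗ sd R β) (sd R β' ∘ₗ Ch.map R (EX.map g)) (fun n v => ?_) c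
  rw [LinearMap.comp_apply, LinearMap.comp_apply, sd_single, one_smul, map_sdv β β' g hg,
    Ch.map_single, sd_single, one_smul, EX_map_app]

theorem map_ttv (n : ℕ) : ∀ v : Fin (n + 1) → X,
    Ch.map R (EX.map g) (ttv R β n v) = ttv R β' n (g ∘ v) := by
  induction n with
  | zero => intro v; rw [ttv, ttv, map_zero]
  | succ n ih =>
    intro v
    rw [ttv, ttv, map_cone, map_sub, map_sum, Ch.map_single, hg, EX_map_app]
    congr 2
    refine Finset.sum_congr rfl fun i _ => ?_
    rw [map_smul, ih]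
    rfl

theorem map_tt (c : Ch R (EX X)) :
    Ch.map R (EX.map g) (tt R β c) = tt R β' (Ch.map R (EX.map g) c) := by
  refine ch_ext (Ch.map R (EX.map g) ∘ₗ tt R β) (tt R β' ∘ₗ Ch.map R (EX.map g)) (fun n v => ?_) c
  rw [LinearMap.comp_apply, LinearMap.comp_apply, tt_single, one_smul, map_ttv β β' g hg,
    Ch.map_single, tt_single, one_smul, EX_map_app]

end sd

end Crest.Agent.R204.Exc406
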