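import Crest.Agent.R204.ExcA_406

/-!
# Row 204, leaf A-EXC (helper406): subdivision on presheaves on topological simplices

`TK` : simplicial sets on which all continuous maps between standard simplices act (`Sing Y`, small
simplices, ...).  Every such `K` carries natural operators `Sd`, `Tt` on `Ch R K` and `N R K`.
-/

set_option autoImplicit false

namespace Crest.Agent.R204.Exc406

open Finsupp

/-- topological standard simplex -/
abbrev D (n : ℕ) : Type := stdSimplex ℝ (Fin (n + 1))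

/-- map of topological simplices induced by a monotone map -/
noncomputable def smap {m n : ℕ} (f : Op m n) : C(D m, D n) :=
  ⟨stdSimplex.map f, stdSimplex.continuous_map f⟩

theorem map_apply {m n : ℕ} (f : Fin (m + 1) → Fin (n + 1)) (t : D m) (k : Fin (n + 1)) :
    (stdSimplex.map f t : D n) k = ∑ j, if f j = k then t j else 0 := by
  classical
  rw [stdSimplex.map_coe, FunOnFinite.linearMap_apply_apply, Finset.sum_filter]

/-! ## affine simplices -/

theorem aff_mem {n q : ℕ} (v : Fin (q + 1) → D n) (t : D q) :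
    (fun k => ∑ i, t i * v i k) ∈ stdSimplex ℝ (Fin (n + 1)) := by
  constructor
  · intro k
    exact Finset.sum_nonneg fun i _ => mul_nonneg (stdSimplex.zero_le t i) (stdSimplex.zero_le (v i) k)
  · rw [Finset.sum_comm]
    have : ∀ i, ∑ k, t i * v i k = t i := by
      intro i
      rw [← Finset.mul_sum, stdSimplex.sum_eq_one, mul_one]
    simp only [this]
    exact stdSimplex.sum_eq_one t

/-- the affine simplex with vertices `v` -/
noncomputable def aff {n q : ℕ} (v : Fin (q + 1) → D n) : C(D q, D n) where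
  toFun t := ⟨fun k => ∑ i, t i * v i k, aff_mem v t⟩
  continuous_toFun := by
    refine Continuous.subtype_mk (continuous_pi fun k => ?_) _
    refine continuous_finsetSum _ fun i _ => ?_
    refine Continuous.mul ?_ continuous_const
    exact (continuous_apply i).comp continuous_subtype_val

theorem aff_apply {n q : ℕ} (v : Fin (q + 1) → D n) (t : D q) (k : Fin (n + 1)) :
    aff v t k = ∑ i, t i * v i k := rfl

theorem D_ext {n : ℕ} {s t : D n} (h : ∀ k, s k = t k) : s = t :=
  stdSimplex.ext (funext h)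

theorem aff_comp_smap {n q m : ℕ} (v : Fin (q + 1) → D n) (f : Op m q) :
    (aff v).comp (smap f) = aff (v ∘ f) := by
  ext t : 1
  refine D_ext fun k => ?_
  show aff v (stdSimplex.map f t) k = aff (v ∘ f) t k
  rw [aff_apply, aff_apply]
  simp only [map_apply, Finset.sum_mul, ite_mul, zero_mul]
  rw [Finset.sum_comm]
  refine Finset.sum_congr rfl fun j _ => ?_
  rw [Finset.sum_ite_eq]
  simp

theorem aff_comp_aff {n q m : ℕ} (v : Fin (q + 1) → D n) (u : Fin (m + 1) → D q) :
    (aff v).comp (aff u) = aff (aff v ∘ u) := by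
  ext t : 1
  refine D_ext fun k => ?_
  show aff v (aff u t) k = aff (aff v ∘ u) t k
  rw [aff_apply, aff_apply]
  simp only [aff_apply, Function.comp_apply, Finset.sum_mul, Finset.mul_sum]
  rw [Finset.sum_comm]
  refine Finset.sum_congr rfl fun i _ => Finset.sum_congr rfl fun j _ => by ring

/-- the tuple of vertices -/
noncomputable def vtx (n : ℕ) : Fin (n + 1) → D n := fun i => stdSimplex.vertex i

theorem vtx_apply (n : ℕ) (i k : Fin (n + 1)) : vtx n i k = if k = i then 1 else 0 := by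
  show (Pi.single i 1 : Fin (n + 1) → ℝ) k = _
  rw [Pi.single_apply]

theorem aff_vtx (n : ℕ) : aff (vtx n) = ContinuousMap.id (D n) := by
  ext t : 1
  refine D_ext fun k => ?_
  rw [aff_apply]
  simp only [vtx_apply, mul_ite, mul_one, mul_zero]
  rw [Finset.sum_ite_eq]
  simp

theorem aff_comp_vtx {n q : ℕ} (v : Fin (q + 1) → D n) : (aff v) ∘ vtx q = v := by
  funext i
  refine D_ext fun k => ?_
  rw [Function.comp_apply, aff_apply]
  simp only [vtx_apply, ite_mul, one_mul, zero_mul]
  rw [Finset.sum_ite_eq']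
  simp

theorem smap_eq_aff {m n : ℕ} (f : Op m n) : smap f = aff (vtx n ∘ f) := by
  rw [← aff_comp_smap, aff_vtx, ContinuousMap.id_comp]

/-! ## barycentres -/

theorem bary_mem {n q : ℕ} (v : Fin (q + 1) → D n) :
    (fun k => (∑ i, v i k) / ((q : ℝ) + 1)) ∈ stdSimplex ℝ (Fin (n + 1)) := by
  have hq : (0 : ℝ) < (q : ℝ) + 1 := by positivity
  constructor
  · intro k
    exact div_nonneg (Finset.sum_nonneg fun i _ => stdSimplex.zero_le (v i) k) hq.le
  · rw [← Finset.sum_div, Finset.sum_comm, div_eq_one_iff_eq hq.ne']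
    simp only [stdSimplex.sum_eq_one]
    simp

/-- barycentre -/
noncomputable def bary (n q : ℕ) (v : Fin (q + 1) → D n) : D n :=
  ⟨fun k => (∑ i, v i k) / ((q : ℝ) + 1), bary_mem v⟩

theorem bary_apply (n q : ℕ) (v : Fin (q + 1) → D n) (k : Fin (n + 1)) :
    bary n q v k = (∑ i, v i k) / ((q : ℝ) + 1) := rfl

theorem aff_bary {n q m : ℕ} (v : Fin (q + 1) → D n) (u : Fin (m + 1) → D q) :
    aff v (bary q m u) = bary n m (aff v ∘ u) := by
  refine D_ext fun k => ?_
  rw [aff_apply, bary_apply]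
  simp only [bary_apply, Function.comp_apply, aff_apply]
  rw [Finset.sum_comm, Finset.sum_div]
  refine Finset.sum_congr rfl fun i _ => ?_
  rw [← Finset.sum_mul]
  ring

/-! ## presheaves on topological simplices -/

/-- simplicial sets with an action of all continuous maps between topological simplices -/
structure TK where
  K : SS
  tact : ∀ {m n : ℕ}, C(D m, D n) → K.S n → K.S m
  tact_comp : ∀ {l m n : ℕ} (f : C(D l, D m)) (g : C(D m, D n)) (x : K.S n),
    tact (g.comp f) x = tact f (tact g x)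
  tact_map : ∀ {m n : ℕ} (f : Op m n) (x : K.S n), tact (smap f) x = K.act f x

namespace TK

theorem tact_id (L : TK) {n : ℕ} (x : L.K.S n) : L.tact (ContinuousMap.id (D n)) x = x := by
  have h : (ContinuousMap.id (D n)) = smap (OrderHom.id : Op n n) := by
    ext t : 1
    refine D_ext fun k => ?_
    show t k = (stdSimplex.map _ t : D n) k
    rw [map_apply]
    simp
  rw [h, L.tact_map, L.K.act_id]

/-- maps -/
structure Hom (L M : TK) where
  hom : SS.Hom L.K M.K
  tnat : ∀ {m n : ℕ} (f : C(D m, D n)) (x : L.K.S n),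
    hom.app m (L.tact f x) = M.tact f (hom.app n x)

/-- the map from the singular set of a simplex -/
noncomputable def yo (L : TK) {n : ℕ} (x : L.K.S n) : SS.Hom (SS.Sing (D n)) L.K :=
  ⟨fun _ τ => L.tact τ x, fun f τ => (L.tact_comp (smap f) τ x).trans (L.tact_map f _)⟩

theorem yo_app (L : TK) {n m : ℕ} (x : L.K.S n) (τ : C(D m, D n)) :
    (L.yo x).app m τ = L.tact τ x := rfl

end TK

/-- the singular set as a `TK` -/
noncomputable def TSing (Y : Type) [TopologicalSpace Y] : TK where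
  K := SS.Sing Y
  tact f σ := ContinuousMap.comp σ f
  tact_comp _ _ _ := rfl
  tact_map _ _ := rfl

/-- maps of singular sets -/
noncomputable def TSingMap {Y Z : Type} [TopologicalSpace Y] [TopologicalSpace Z] (f : C(Y, Z)) :
    TK.Hom (TSing Y) (TSing Z) :=
  ⟨SS.SingMap f, fun _ _ => rfl⟩

/-- affine simplices as a simplicial map -/
noncomputable def affHom (n : ℕ) : SS.Hom (EX (D n)) (SS.Sing (D n)) :=
  ⟨fun _ v => aff v, fun f v => (aff_comp_smap v f).symm⟩

/-- the composite `EX (D n) → Sing (D n) → L` for a simplex `x` -/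
noncomputable def chr (L : TK) {n : ℕ} (x : L.K.S n) : SS.Hom (EX (D n)) L.K :=
  (L.yo x).comp (affHom n)

theorem chr_app (L : TK) {n q : ℕ} (x : L.K.S n) (v : Fin (q + 1) → D n) :
    (chr L x).app q v = L.tact (aff v) x := rfl

theorem chr_vtx (L : TK) {n : ℕ} (x : L.K.S n) : (chr L x).app n (vtx n) = x := by
  rw [chr_app, aff_vtx, L.tact_id]

theorem map_comp' {R : Type} [CommRing R] {K L M : SS} (f : SS.Hom K L) (g : SS.Hom L M)
    (c : Ch R K) : Ch.map R (g.comp f) c = Ch.map R g (Ch.map R f c) := by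
  refine ch_ext (Ch.map R (g.comp f)) (Ch.map R g ∘ₗ Ch.map R f) (fun n x => ?_) c
  rw [LinearMap.comp_apply, Ch.map_single, Ch.map_single, Ch.map_single]
  rfl

/-- a `β`-natural operator on tuples -/
structure NatOp (R : Type) [CommRing R] where
  φ : ∀ n : ℕ, Ch R (EX (D n)) →ₗ[R] Ch R (EX (D n))
  nat : ∀ {m n : ℕ} (v : Fin (m + 1) → D n) (c : Ch R (EX (D m))),
    Ch.map R (EX.map (aff v)) (φ m c) = φ n (Ch.map R (EX.map (aff v)) c)

namespace NatOp

variable {R : Type} [CommRing R] (Φ : NatOp R)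

/-- the induced operator on `Ch R L` -/
noncomputable def op (L : TK) : Ch R L.K →ₗ[R] Ch R L.K :=
  Finsupp.linearCombination R
    (fun t : L.K.T => Ch.map R (chr L t.2) (Φ.φ t.1 (single ⟨t.1, vtx t.1⟩ 1)))

theorem op_single (L : TK) {n : ℕ} (x : L.K.S n) (r : R) :
    Φ.op L (single ⟨n, x⟩ r) = r • Ch.map R (chr L x) (Φ.φ n (single ⟨n, vtx n⟩ 1)) := by
  rw [op, Finsupp.linearCombination_single]

theorem chr_tact (L : TK) {m n : ℕ} (x : L.K.S n) (v : Fin (m + 1) → D n) :
    chr L (L.tact (aff v) x) = (chr L x).comp (EX.map (aff v)) := by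
  refine SS.Hom.ext (funext fun q => funext fun u => ?_)
  show L.tact (aff u) (L.tact (aff v) x) = L.tact (aff (aff v ∘ u)) x
  rw [← L.tact_comp, aff_comp_aff]

/-- the operator commutes with the characteristic maps -/
theorem op_chr (L : TK) {n : ℕ} (x : L.K.S n) (c : Ch R (EX (D n))) :
    Φ.op L (Ch.map R (chr L x) c) = Ch.map R (chr L x) (Φ.φ n c) := by
  refine ch_ext (Φ.op L ∘ₗ Ch.map R (chr L x)) (Ch.map R (chr L x) ∘ₗ Φ.φ n) (fun m v => ?_) c
  rw [LinearMap.comp_apply, LinearMap.comp_apply, Ch.map_single, op_single, one_smul, chr_app,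
    chr_tact, map_comp', Φ.nat, Ch.map_single]
  have : (EX.map (aff v)).app m (vtx m) = v := aff_comp_vtx v
  rw [this]

theorem single_eq (L : TK) {n : ℕ} (x : L.K.S n) :
    (single ⟨n, x⟩ 1 : Ch R L.K) = Ch.map R (chr L x) (single ⟨n, vtx n⟩ 1) := by
  rw [Ch.map_single, chr_vtx]

/-- naturality -/
theorem op_map {L M : TK} (F : TK.Hom L M) (c : Ch R L.K) :
    Φ.op M (Ch.map R F.hom c) = Ch.map R F.hom (Φ.op L c) := by
  refine ch_ext (Φ.op M ∘ₗ Ch.map R F.hom) (Ch.map R F.hom ∘ₗ Φ.op L) (fun n x => ?_) c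
  rw [LinearMap.comp_apply, LinearMap.comp_apply, Ch.map_single, op_single, one_smul, op_single,
    one_smul, ← map_comp']
  have : chr M (F.hom.app n x) = F.hom.comp (chr L x) := by
    refine SS.Hom.ext (funext fun q => funext fun u => ?_)
    exact (F.tnat (aff u) x).symm
  rw [this]

end NatOp

theorem isDgn_map {K L : SS} (f : SS.Hom K L) {n : ℕ} {x : K.S n} (h : Ch.IsDgn K ⟨n, x⟩) :
    Ch.IsDgn L ⟨n, f.app n x⟩ := by
  rcases n with _ | n
  · exact h.elim
  · obtain ⟨j, y, hy⟩ := h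
    exact ⟨j, f.app n y, by rw [hy, f.nat]⟩

variable (R : Type) [CommRing R]

/-- subdivision as a natural operator -/
noncomputable def SdOp : NatOp R where
  φ n := sd R (bary n)
  nat v c := map_sd (bary _) (bary _) (aff v) (fun _ u => aff_bary v u) c

/-- the homotopy as a natural operator -/
noncomputable def TtOp : NatOp R where
  φ n := tt R (bary n)
  nat v c := map_tt (bary _) (bary _) (aff v) (fun _ u => aff_bary v u) c

/-- subdivision on `Ch R L` -/
noncomputable def Sd (L : TK) : Ch R L.K →ₗ[R] Ch R L.K := (SdOp R).op L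
/-- homotopy on `Ch R L` -/
noncomputable def Tt (L : TK) : Ch R L.K →ₗ[R] Ch R L.K := (TtOp R).op L

variable {R}

theorem bd_Sd (L : TK) (c : Ch R L.K) : Ch.bd R L.K (Sd R L c) = Sd R L (Ch.bd R L.K c) := by
  refine ch_ext (Ch.bd R L.K ∘ₗ Sd R L) (Sd R L ∘ₗ Ch.bd R L.K) (fun n x => ?_) c
  rw [LinearMap.comp_apply, LinearMap.comp_apply, NatOp.single_eq L x, Sd, NatOp.op_chr,
    ← Ch.map_bd, ← Ch.map_bd, NatOp.op_chr]
  congr 1
  exact bd_sd (bary n) _

theorem bd_Tt (L : TK) (c : Ch R L.K) :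
    Ch.bd R L.K (Tt R L c) = c - Tt R L (Ch.bd R L.K c) - Sd R L c := by
  have := ch_ext (Ch.bd R L.K ∘ₗ Tt R L) (LinearMap.id - Tt R L ∘ₗ Ch.bd R L.K - Sd R L)
    (fun n x => ?_) c
  · simpa only [LinearMap.comp_apply, LinearMap.sub_apply, LinearMap.id_apply] using this
  · simp only [LinearMap.comp_apply, LinearMap.sub_apply, LinearMap.id_apply]
    rw [NatOp.single_eq L x, Tt, Sd, NatOp.op_chr, ← Ch.map_bd, ← Ch.map_bd, NatOp.op_chr,
      NatOp.op_chr, ← map_sub, ← map_sub]
    congr 1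
    exact bd_tt (bary n) _

theorem Sd_Dg (L : TK) {c : Ch R L.K} (hc : c ∈ Ch.Dg R L.K) : Sd R L c = 0 := by
  have : Ch.Dg R L.K ≤ LinearMap.ker (Sd R L) := by
    refine Submodule.span_le.2 ?_
    rintro _ ⟨⟨n, x⟩, hx, rfl⟩
    rw [SetLike.mem_coe, LinearMap.mem_ker]
    rcases n with _ | n
    · exact hx.elim
    · obtain ⟨j, y, rfl⟩ := hx
      have h1 : (single ⟨n + 1, L.K.act (Op.dgn j) y⟩ 1 : Ch R L.K) =
          Ch.map R (chr L y) (single ⟨n + 1, vtx n ∘ Op.dgn j⟩ 1) := by
        rw [Ch.map_single, chr_app, ← smap_eq_aff, L.tact_map]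
      rw [h1, Sd, NatOp.op_chr]
      have h2 : (SdOp R).φ n (single ⟨n + 1, vtx n ∘ Op.dgn j⟩ 1) = 0 :=
        sd_Dg (bary n) (single_mem_Dg (Ch.isDgn_act (EX (D n)) j (vtx n)) 1)
      rw [h2, map_zero]
  exact this hc

theorem Tt_Dg (L : TK) {c : Ch R L.K} (hc : c ∈ Ch.Dg R L.K) : Tt R L c ∈ Ch.Dg R L.K := by
  have : Ch.Dg R L.K ≤ (Ch.Dg R L.K).comap (Tt R L) := by
    refine Submodule.span_le.2 ?_
    rintro _ ⟨⟨n, x⟩, hx, rfl⟩
    rw [SetLike.mem_coe, Submodule.mem_comap]
    rcases n with _ | n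
    · exact hx.elim
    · obtain ⟨j, y, rfl⟩ := hx
      have h1 : (single ⟨n + 1, L.K.act (Op.dgn j) y⟩ 1 : Ch R L.K) =
          Ch.map R (chr L y) (single ⟨n + 1, vtx n ∘ Op.dgn j⟩ 1) := by
        rw [Ch.map_single, chr_app, ← smap_eq_aff, L.tact_map]
      rw [h1, Tt, NatOp.op_chr]
      exact Ch.map_mem_Dg _ (tt_Dg (bary n) (single_mem_Dg (Ch.isDgn_act (EX (D n)) j (vtx n)) 1))
  exact this hc

/-! ## operators on normalised chains -/

/-- subdivision on normalised chains -/
noncomputable def SdN (L : TK) : N R L.K →ₗ[R] N R L.K :=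
  Submodule.mapQ _ _ (Sd R L) (fun _ hc => by
    rw [Submodule.mem_comap, Sd_Dg L hc]; exact Submodule.zero_mem _)

/-- homotopy on normalised chains -/
noncomputable def TtN (L : TK) : N R L.K →ₗ[R] N R L.K :=
  Submodule.mapQ _ _ (Tt R L) (fun _ hc => Tt_Dg L hc)

theorem SdN_mk (L : TK) (c : Ch R L.K) :
    SdN L (Submodule.Quotient.mk c : N R L.K) = Submodule.Quotient.mk (Sd R L c) := rfl

theorem TtN_mk (L : TK) (c : Ch R L.K) :
    TtN L (Submodule.Quotient.mk c : N R L.K) = Submodule.Quotient.mk (Tt R L c) := rfl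

theorem bd_SdN (L : TK) (c : N R L.K) : N.bd R L.K (SdN L c) = SdN L (N.bd R L.K c) := by
  obtain ⟨c, rfl⟩ := Submodule.Quotient.mk_surjective _ c
  rw [SdN_mk, N.bd_mk, N.bd_mk, SdN_mk, bd_Sd]

theorem bd_TtN (L : TK) (c : N R L.K) :
    N.bd R L.K (TtN L c) = c - TtN L (N.bd R L.K c) - SdN L c := by
  obtain ⟨c, rfl⟩ := Submodule.Quotient.mk_surjective _ c
  rw [TtN_mk, N.bd_mk, N.bd_mk, TtN_mk, SdN_mk, bd_Tt]
  rfl

theorem SdN_map {L M : TK} (F : TK.Hom L M) (c : N R L.K) :
    SdN M (N.map R F.hom c) = N.map R F.hom (SdN L c) := by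
  obtain ⟨c, rfl⟩ := Submodule.Quotient.mk_surjective _ c
  rw [N.map_mk, SdN_mk, SdN_mk, N.map_mk, Sd, NatOp.op_map]
  rfl

theorem SdN_iterate_map {L M : TK} (F : TK.Hom L M) (k : ℕ) (c : N R L.K) :
    (SdN M)^[k] (N.map R F.hom c) = N.map R F.hom ((SdN L)^[k] c) := by
  induction k generalizing c with
  | zero => rfl
  | succ k ih => rw [Function.iterate_succ_apply, Function.iterate_succ_apply, SdN_map, ih]

theorem bd_SdN_iterate (L : TK) (k : ℕ) (c : N R L.K) :
    N.bd R L.K ((SdN L)^[k] c) = (SdN L)^[k] (N.bd R L.K c) := by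
  induction k generalizing c with
  | zero => rfl
  | succ k ih => rw [Function.iterate_succ_apply, Function.iterate_succ_apply, ih, bd_SdN]

theorem SdN_iterate_zero (L : TK) (k : ℕ) : (SdN L)^[k] (0 : N R L.K) = 0 := by
  induction k with
  | zero => rfl
  | succ k ih => rw [Function.iterate_succ_apply, map_zero, ih]

/-- iterated subdivision does not change the class of a cycle -/
theorem SdN_iterate_cycle (L : TK) (k : ℕ) (z : N R L.K) (hz : N.bd R L.K z = 0) :
    ∃ w, z - (SdN L)^[k] z = N.bd R L.K w := by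
  induction k with
  | zero => exact ⟨0, by simp⟩
  | succ k ih =>
    obtain ⟨w, hw⟩ := ih
    refine ⟨w + TtN L ((SdN L)^[k] z), ?_⟩
    rw [map_add, ← hw, bd_TtN, bd_SdN_iterate, hz, Function.iterate_succ_apply', SdN_iterate_zero,
      map_zero]
    abel

end Crest.Agent.R204.Exc406
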