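import Crest.Agent.R204.ExcB_406

/-!
# Row 204, leaf A-EXC (helper406): the small simplices theorem

`small`: if `P` is a sub-presheaf of the `TK` `L` such that every simplex of `L` has a `δ > 0` with
`(∀ a b, dist (τ a) (τ b) < δ) → τ^* x ∈ P`, then `H R P → H R L` is bijective.
-/

set_option autoImplicit false

namespace Crest.Agent.R204.Exc406

open Finsupp

/-! ## degenerate chains and injectivity on normalised chains -/

theorem mem_Dg_iff {R : Type} [CommRing R] {K : SS} (c : Ch R K) :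
    c ∈ Ch.Dg R K ↔ ∀ t, c t ≠ 0 → Ch.IsDgn K t := by
  have h : Ch.Dg R K = Finsupp.supported R R {t | Ch.IsDgn K t} := by
    rw [Finsupp.supported_eq_span_single, Ch.Dg]
    congr 1
    ext c
    simp only [Set.mem_ofPred_eq, Set.mem_image]
    constructor
    · rintro ⟨t, ht, rfl⟩; exact ⟨t, ht, rfl⟩
    · rintro ⟨t, ht, rfl⟩; exact ⟨t, ht, rfl⟩
  rw [h, Finsupp.mem_supported]
  constructor
  · intro h t ht
    exact h (by simpa using ht)
  · intro h t ht
    exact h t (by simpa using ht)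

theorem isDgn_of_map {K L : SS} (f : SS.Hom K L) (hf : ∀ n, Function.Injective (f.app n)) {n : ℕ}
    {x : K.S n} (h : Ch.IsDgn L ⟨n, f.app n x⟩) : Ch.IsDgn K ⟨n, x⟩ := by
  rcases n with _ | n
  · exact h.elim
  · obtain ⟨j, y, hy⟩ := h
    refine ⟨j, K.act (Op.face j.castSucc) x, hf _ ?_⟩
    rw [f.nat, f.nat, hy, ← L.act_comp (Op.face j.castSucc) (Op.dgn j),
      Ch.face_dgn_eq _ _ (Or.inl rfl), L.act_id]

theorem map_inj {R : Type} [CommRing R] {K L : SS} (f : SS.Hom K L)
    (hf : ∀ n, Function.Injective (f.app n)) : Function.Injective (N.map R f) := by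
  have hinj : Function.Injective (fun t : K.T => (⟨t.1, f.app t.1 t.2⟩ : L.T)) := by
    rintro ⟨n, x⟩ ⟨m, y⟩ h
    simp only [Sigma.mk.injEq] at h
    obtain ⟨rfl, h⟩ := h
    rw [heq_eq_eq] at h
    rw [hf _ h]
  rw [injective_iff_map_eq_zero]
  intro c
  obtain ⟨c, rfl⟩ := Submodule.Quotient.mk_surjective _ c
  rw [N.map_mk]
  intro h
  rw [Submodule.Quotient.mk_eq_zero, mem_Dg_iff] at h
  rw [Submodule.Quotient.mk_eq_zero, mem_Dg_iff]
  rintro ⟨n, x⟩ hx
  refine isDgn_of_map f hf (h ⟨n, f.app n x⟩ ?_)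
  have : Ch.map R f c ⟨n, f.app n x⟩ = c ⟨n, x⟩ := by
    rw [Ch.map, Finsupp.lmapDomain_apply]
    exact Finsupp.mapDomain_apply hinj c ⟨n, x⟩
  rw [this]
  exact hx

/-! ## mesh estimates -/

section mesh

variable {R : Type} [CommRing R] {X : Type} [PseudoMetricSpace X] (β : ∀ n, (Fin (n + 1) → X) → X)

/-- span of the tuples of length `q+1` with a property -/
noncomputable def spn (R : Type) [CommRing R] {X : Type} (q : ℕ) (S : (Fin (q + 1) → X) → Prop) :
    Submodule R (Ch R (EX X)) :=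
  Submodule.span R {c | ∃ w, S w ∧ c = single ⟨q, w⟩ 1}

theorem spn_mono {X : Type} {q : ℕ} {S S' : (Fin (q + 1) → X) → Prop} (h : ∀ w, S w → S' w) :
    spn R q S ≤ spn R q S' := by
  refine Submodule.span_mono ?_
  rintro _ ⟨w, hw, rfl⟩
  exact ⟨w, h w hw, rfl⟩

theorem spn_map {X : Type} {q q' : ℕ} {S : (Fin (q + 1) → X) → Prop}
    {S' : (Fin (q' + 1) → X) → Prop}
    (φ : Ch R (EX X) →ₗ[R] Ch R (EX X)) (h : ∀ w, S w → φ (single ⟨q, w⟩ 1) ∈ spn R q' S')
    {c : Ch R (EX X)} (hc : c ∈ spn R q S) : φ c ∈ spn R q' S' := by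
  have : spn R q S ≤ (spn R q' S').comap φ := by
    refine Submodule.span_le.2 ?_
    rintro _ ⟨w, hw, rfl⟩
    exact h w hw
  exact this hc

/-- `w` lies in the ball hull of `v` -/
def Cv {p q : ℕ} (v : Fin (p + 1) → X) (w : Fin (q + 1) → X) : Prop :=
  ∀ (x : X) (r : ℝ), (∀ i, dist x (v i) ≤ r) → ∀ j, dist x (w j) ≤ r

/-- mesh bound -/
def Mesh {q : ℕ} (d : ℝ) (w : Fin (q + 1) → X) : Prop := ∀ i j, dist (w i) (w j) ≤ d

/-- hypotheses on the barycentre function -/
structure BHyp : Prop where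
  conv : ∀ q (v : Fin (q + 1) → X) (x : X) (r : ℝ), (∀ i, dist x (v i) ≤ r) → dist x (β q v) ≤ r
  mid : ∀ q (v : Fin (q + 1) → X) (d : ℝ), Mesh d v → ∀ i, dist (β q v) (v i) ≤ (q : ℝ) / (q + 1) * d

variable {β}

theorem sdv_mem (hβ : BHyp β) (q : ℕ) : ∀ (v : Fin (q + 1) → X) (d : ℝ), Mesh d v →
    sdv R β q v ∈ spn R q (fun w => Cv v w ∧ Mesh ((q : ℝ) / (q + 1) * d) w) := by
  induction q with
  | zero =>
    intro v d _
    refine Submodule.subset_span ⟨v, ⟨fun x r h j => h j, fun i j => ?_⟩, rfl⟩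
    obtain rfl : i = j := Fin.ext (by omega)
    rw [dist_self]
    simp
  | succ q ih =>
    intro v d hd
    have hd0 : 0 ≤ d := dist_nonneg.trans (hd 0 0)
    rw [sdv]
    refine Submodule.sum_mem _ fun i _ => Submodule.smul_mem _ _ ?_
    refine spn_map (cone R (β (q + 1) v)) ?_ (ih (v ∘ Op.face i) d (fun a b => hd _ _))
    rintro w ⟨h1, h2⟩
    rw [cone_single]
    refine Submodule.subset_span ⟨_, ⟨?_, ?_⟩, rfl⟩
    · intro x r h j
      refine Fin.cases ?_ (fun j => ?_) j
      · exact hβ.conv _ v x r h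
      · exact h1 x r (fun i => h _) j
    · have h3 : (q : ℝ) / (q + 1) * d ≤ ((q + 1 : ℕ) : ℝ) / ((q + 1 : ℕ) + 1) * d := by
        refine mul_le_mul_of_nonneg_right ?_ hd0
        push_cast
        rw [div_le_div_iff₀ (by positivity) (by positivity)]
        nlinarith
      have h4 : ∀ j, dist (β (q + 1) v) (w j) ≤ ((q + 1 : ℕ) : ℝ) / ((q + 1 : ℕ) + 1) * d :=
        fun j => h1 _ _ (fun a => hβ.mid _ v d hd _) j
      have h5 : 0 ≤ ((q + 1 : ℕ) : ℝ) / ((q + 1 : ℕ) + 1) * d := by positivity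
      intro a b
      refine Fin.cases ?_ (fun a => ?_) a
      · refine Fin.cases ?_ (fun b => ?_) b
        · rw [dist_self]; exact h5
        · exact h4 b
      · refine Fin.cases ?_ (fun b => ?_) b
        · rw [dist_comm]; exact h4 a
        · exact (h2 a b).trans h3

theorem Cv.trans {p q r : ℕ} {u : Fin (p + 1) → X} {v : Fin (q + 1) → X} {w : Fin (r + 1) → X}
    (h : Cv u v) (h' : Cv v w) : Cv u w := fun x s hs => h' x s (h x s hs)

theorem sd_iterate_mem (hβ : BHyp β) (q : ℕ) (v : Fin (q + 1) → X) (d : ℝ) (hd : Mesh d v) (k : ℕ) :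
    (sd R β)^[k] (single ⟨q, v⟩ 1) ∈
      spn R q (fun w => Cv v w ∧ Mesh (((q : ℝ) / (q + 1)) ^ k * d) w) := by
  induction k with
  | zero =>
    refine Submodule.subset_span ⟨v, ⟨fun x r h => h, ?_⟩, rfl⟩
    simpa using hd
  | succ k ih =>
    rw [Function.iterate_succ_apply']
    refine spn_map (sd R β) ?_ ih
    rintro w ⟨h1, h2⟩
    rw [sd_single, one_smul]
    refine spn_mono ?_ (sdv_mem hβ q w _ h2)
    rintro u ⟨h3, h4⟩
    refine ⟨h1.trans h3, ?_⟩
    rw [pow_succ', mul_assoc]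
    exact h4

end mesh

/-! ## the standard simplex -/

theorem dist_D_le {n : ℕ} (p q : D n) (r : ℝ) (hr : 0 ≤ r) :
    dist p q ≤ r ↔ ∀ i, |p i - q i| ≤ r := by
  rw [Subtype.dist_eq, dist_pi_le_iff hr]
  rfl

theorem aff_conv {n q : ℕ} (v : Fin (q + 1) → D n) (x : D n) (r : ℝ) (h : ∀ i, dist x (v i) ≤ r)
    (t : D q) : dist x (aff v t) ≤ r := by
  have hr : 0 ≤ r := dist_nonneg.trans (h 0)
  rw [dist_D_le _ _ _ hr]
  intro k
  rw [aff_apply]
  have h1 : x k = ∑ i, t i * x k := by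
    rw [← Finset.sum_mul, stdSimplex.sum_eq_one, one_mul]
  rw [h1, ← Finset.sum_sub_distrib]
  refine (Finset.abs_sum_le_sum_abs _ _).trans ?_
  have h2 : r = ∑ i, t i * r := by
    rw [← Finset.sum_mul, stdSimplex.sum_eq_one, one_mul]
  rw [h2]
  refine Finset.sum_le_sum fun i _ => ?_
  rw [← mul_sub, abs_mul, abs_of_nonneg (stdSimplex.zero_le t i)]
  exact mul_le_mul_of_nonneg_left ((dist_D_le _ _ _ hr).1 (h i) k) (stdSimplex.zero_le t i)

theorem aff_mesh {n q : ℕ} (w : Fin (q + 1) → D n) (d : ℝ) (h : Mesh d w) (a b : D q) :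
    dist (aff w a) (aff w b) ≤ d := by
  refine aff_conv w _ d (fun i => ?_) b
  rw [dist_comm]
  exact aff_conv w _ d (fun j => h i j) a

theorem bary_eq_aff {n q : ℕ} (v : Fin (q + 1) → D n) :
    bary n q v = aff v (bary q q (vtx q)) := by
  rw [aff_bary, aff_comp_vtx]

theorem bhyp (n : ℕ) : BHyp (bary n) where
  conv q v x r h := by
    rw [bary_eq_aff]
    exact aff_conv v x r h _
  mid q v d hd i := by
    have hd0 : 0 ≤ d := dist_nonneg.trans (hd 0 0)
    have hq : (0 : ℝ) < (q : ℝ) + 1 := by positivity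
    rw [dist_D_le _ _ _ (by positivity)]
    intro k
    rw [bary_apply]
    have h1 : (∑ j, v j k) / ((q : ℝ) + 1) - v i k = (∑ j, (v j k - v i k)) / ((q : ℝ) + 1) := by
      rw [Finset.sum_sub_distrib]
      simp only [Finset.sum_const, Finset.card_univ, Fintype.card_fin, nsmul_eq_mul]
      push_cast
      field_simp
    rw [h1, abs_div, abs_of_pos hq, div_le_iff₀ hq]
    have h2 : ∑ j, |v j k - v i k| ≤ (q : ℝ) * d := by
      rw [← Finset.add_sum_erase _ _ (Finset.mem_univ i), sub_self, abs_zero, zero_add]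
      have h3 : ∑ j ∈ Finset.univ.erase i, |v j k - v i k| ≤ ∑ j ∈ Finset.univ.erase i, d :=
        Finset.sum_le_sum fun j _ => (dist_D_le _ _ _ hd0).1 (hd j i) k
      refine h3.trans ?_
      rw [Finset.sum_const, Finset.card_erase_of_mem (Finset.mem_univ i), Finset.card_univ,
        Fintype.card_fin, nsmul_eq_mul]
      simp
    refine (Finset.abs_sum_le_sum_abs _ _).trans (h2.trans (le_of_eq ?_))
    field_simp

theorem mesh_vtx (n : ℕ) : Mesh 1 (vtx n) := by
  intro i j
  rw [dist_D_le _ _ _ zero_le_one]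
  intro k
  rw [vtx_apply, vtx_apply]
  split_ifs <;> simp

/-! ## sub-presheaves -/

/-- a sub-presheaf of a `TK` -/
structure TSub (L : TK) where
  P : ∀ n, L.K.S n → Prop
  closed : ∀ {m n : ℕ} (f : C(D m, D n)) (x : L.K.S n), P n x → P m (L.tact f x)

namespace TSub

variable {L : TK} (P : TSub L)

theorem act_mem {m n : ℕ} (f : Op m n) (x : L.K.S n) (h : P.P n x) : P.P m (L.K.act f x) := by
  rw [← L.tact_map]; exact P.closed _ x h

/-- the sub-presheaf as a `TK` -/
def tk : TK where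
  K :=
    { S := fun n => {x : L.K.S n // P.P n x}
      act := fun f x => ⟨L.K.act f x.1, P.act_mem f x.1 x.2⟩
      act_id := fun x => Subtype.ext (L.K.act_id x.1)
      act_comp := fun f g x => Subtype.ext (L.K.act_comp f g x.1) }
  tact f x := ⟨L.tact f x.1, P.closed f x.1 x.2⟩
  tact_comp f g x := Subtype.ext (L.tact_comp f g x.1)
  tact_map f x := Subtype.ext (L.tact_map f x.1)

/-- the inclusion -/
def incl : TK.Hom P.tk L := ⟨⟨fun _ x => x.1, fun _ _ => rfl⟩, fun _ _ => rfl⟩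

theorem incl_inj (n : ℕ) : Function.Injective (P.incl.hom.app n) := Subtype.val_injective

theorem N_incl_inj (R : Type) [CommRing R] : Function.Injective (N.map R P.incl.hom) :=
  map_inj _ P.incl_inj

end TSub

theorem Sd_iterate_chr {R : Type} [CommRing R] (L : TK) {n : ℕ} (x : L.K.S n) (k : ℕ) :
    (Sd R L)^[k] (single ⟨n, x⟩ 1) =
      Ch.map R (chr L x) ((sd R (bary n))^[k] (single ⟨n, vtx n⟩ 1)) := by
  induction k with
  | zero => rw [Function.iterate_zero, Function.iterate_zero, id, id, NatOp.single_eq L x]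
  | succ k ih =>
    rw [Function.iterate_succ_apply', Function.iterate_succ_apply', ih, Sd, NatOp.op_chr]
    rfl

theorem SdN_iterate_mk {R : Type} [CommRing R] (L : TK) (c : Ch R L.K) (k : ℕ) :
    (SdN L)^[k] (Submodule.Quotient.mk c : N R L.K) = Submodule.Quotient.mk ((Sd R L)^[k] c) := by
  induction k with
  | zero => rfl
  | succ k ih => rw [Function.iterate_succ_apply', Function.iterate_succ_apply', ih, SdN_mk]

/-- density condition: sufficiently small singular simplices of a simplex of `L` lie in `P` -/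
def Dense (L : TK) (P : TSub L) : Prop :=
  ∀ n (x : L.K.S n), ∃ δ : ℝ, 0 < δ ∧ ∀ m (τ : C(D m, D n)),
    (∀ a b, dist (τ a) (τ b) < δ) → P.P m (L.tact τ x)

theorem SdN_iterate_add {R : Type} [CommRing R] (L : TK) (k : ℕ) (a b : N R L.K) :
    (SdN L)^[k] (a + b) = (SdN L)^[k] a + (SdN L)^[k] b := by
  induction k with
  | zero => rfl
  | succ k ih => rw [Function.iterate_succ_apply', Function.iterate_succ_apply',
      Function.iterate_succ_apply', ih, map_add]

theorem SdN_iterate_smul {R : Type} [CommRing R] (L : TK) (k : ℕ) (r : R) (a : N R L.K) :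
    (SdN L)^[k] (r • a) = r • (SdN L)^[k] a := by
  induction k with
  | zero => rfl
  | succ k ih => rw [Function.iterate_succ_apply', Function.iterate_succ_apply', ih, map_smul]

/-- every chain becomes small after finitely many subdivisions -/
theorem exists_small {R : Type} [CommRing R] (L : TK) (P : TSub L) (hP : Dense L P) (c : N R L.K) :
    ∃ k₀, ∀ k, k₀ ≤ k → (SdN L)^[k] c ∈ LinearMap.range (N.map R P.incl.hom) := by
  obtain ⟨c, rfl⟩ := Submodule.Quotient.mk_surjective _ c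
  induction c using Finsupp.induction_linear with
  | zero =>
    refine ⟨0, fun k _ => ?_⟩
    rw [Submodule.Quotient.mk_zero, SdN_iterate_zero]
    exact Submodule.zero_mem _
  | add f g hf hg =>
    obtain ⟨k1, h1⟩ := hf
    obtain ⟨k2, h2⟩ := hg
    refine ⟨max k1 k2, fun k hk => ?_⟩
    rw [Submodule.Quotient.mk_add, SdN_iterate_add]
    exact Submodule.add_mem _ (h1 k (le_of_max_le_left hk)) (h2 k (le_of_max_le_right hk))
  | single t r =>
    obtain ⟨n, x⟩ := t
    obtain ⟨δ, hδ, hx⟩ := hP n x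
    have hlim : Filter.Tendsto (fun k : ℕ => ((n : ℝ) / (n + 1)) ^ k * 1) Filter.atTop (nhds 0) := by
      simp only [mul_one]
      refine tendsto_pow_atTop_nhds_zero_of_lt_one (by positivity) ?_
      rw [div_lt_one (by positivity)]
      linarith
    obtain ⟨k₀, hk₀⟩ := (hlim.eventually (gt_mem_nhds hδ)).exists_forall_of_atTop
    refine ⟨k₀, fun k hk => ?_⟩
    have h1 : (single ⟨n, x⟩ r : Ch R L.K) = r • single ⟨n, x⟩ 1 := by simp
    rw [h1, Submodule.Quotient.mk_smul, SdN_iterate_smul, SdN_iterate_mk, Sd_iterate_chr]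
    refine Submodule.smul_mem _ _ ?_
    have h2 := sd_iterate_mem (R := R) (bhyp n) n (vtx n) 1 (mesh_vtx n) k
    have h3 : spn R n (fun w => Cv (vtx n) w ∧ Mesh (((n : ℝ) / (n + 1)) ^ k * 1) w) ≤
        (LinearMap.range (N.map R P.incl.hom)).comap
          ((Submodule.mkQ (Ch.Dg R L.K)) ∘ₗ Ch.map R (chr L x)) := by
      refine Submodule.span_le.2 ?_
      rintro _ ⟨w, ⟨_, hw⟩, rfl⟩
      rw [SetLike.mem_coe, Submodule.mem_comap, LinearMap.comp_apply, Ch.map_single, chr_app]
      have h4 : P.P n (L.tact (aff w) x) :=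
        hx n (aff w) (fun a b => (aff_mesh w _ hw a b).trans_lt (hk₀ k hk))
      exact ⟨N.sx R (K := P.tk.K) (⟨L.tact (aff w) x, h4⟩ : P.tk.K.S n), N.map_sx _ _⟩
    exact h3 h2

/-- **small simplices theorem** -/
theorem small (R : Type) [CommRing R] (L : TK) (P : TSub L) (hP : Dense L P) :
    Function.Bijective (H.map R P.incl.hom) := by
  constructor
  · rw [injective_iff_map_eq_zero]
    intro a ha
    obtain ⟨z, hz, rfl⟩ := Hd.mk_surj _ a
    rw [H.map, Hd.map_mk, Hd.mk_eq_zero] at ha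
    obtain ⟨w, hw⟩ := ha
    obtain ⟨k, hk⟩ := exists_small L P hP w
    obtain ⟨w', hw'⟩ := hk k le_rfl
    have h1 : N.bd R P.tk.K w' = (SdN P.tk)^[k] z := by
      apply P.N_incl_inj R
      have := LinearMap.congr_fun (N.map_bd (R := R) P.incl.hom) w'
      rw [LinearMap.comp_apply, LinearMap.comp_apply] at this
      rw [this, hw', bd_SdN_iterate, hw, SdN_iterate_map]
    obtain ⟨u, hu⟩ := SdN_iterate_cycle P.tk k z hz
    rw [Hd.mk_eq_zero]
    refine ⟨u + w', ?_⟩
    rw [map_add, h1, ← hu]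
    abel
  · intro a
    obtain ⟨z, hz, rfl⟩ := Hd.mk_surj _ a
    obtain ⟨k, hk⟩ := exists_small L P hP z
    obtain ⟨z', hz'⟩ := hk k le_rfl
    have h1 : N.bd R P.tk.K z' = 0 := by
      apply P.N_incl_inj R
      have := LinearMap.congr_fun (N.map_bd (R := R) P.incl.hom) z'
      rw [LinearMap.comp_apply, LinearMap.comp_apply] at this
      rw [this, hz', bd_SdN_iterate, hz, SdN_iterate_zero, map_zero]
    refine ⟨Hd.mk _ z' h1, ?_⟩
    rw [H.map, Hd.map_mk, Hd.mk_eq_mk]
    obtain ⟨u, hu⟩ := SdN_iterate_cycle L k z hz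
    refine ⟨-u, ?_⟩
    rw [map_neg, ← hu, hz']
    abel

end Crest.Agent.R204.Exc406
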