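import Crest.Agent.R204.ExcD_406
import Crest.Agent.R204.SpecA_334

/-!
# Row 204, leaf A8a (helper406): open covers and Mayer-Vietoris for spaces
-/

set_option autoImplicit false

namespace Crest.Agent.R204.Exc406

open Finsupp Function Topology

/-! ## simplices subordinate to a family of sets -/

section cov

variable {Y : Type} [TopologicalSpace Y] (𝒰 : Set (Set Y))

/-- simplices contained in a member of `𝒰` -/
noncomputable def cov : TSub (TSing Y) where
  P n σ := ∃ U ∈ 𝒰, ∀ t : D n, (show C(D n, Y) from σ) t ∈ U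
  closed f _ h := by
    obtain ⟨U, hU, h⟩ := h
    exact ⟨U, hU, fun t => h (f t)⟩

theorem cov_dense (h : ∀ y, ∃ U ∈ 𝒰, U ∈ 𝓝 y) : Dense (TSing Y) (cov 𝒰) := by
  intro n σ
  have hc : (Set.univ : Set (D n)) ⊆ ⋃ U : 𝒰, (show C(D n, Y) from σ) ⁻¹' (interior U.1) := by
    intro t _
    obtain ⟨U, hU, ht⟩ := h ((show C(D n, Y) from σ) t)
    exact Set.mem_iUnion.2 ⟨⟨U, hU⟩, mem_interior_iff_mem_nhds.2 ht⟩
  obtain ⟨δ, hδ, hδ'⟩ := lebesgue_number_lemma_of_metric (s := (Set.univ : Set (D n)))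
    (c := fun U : 𝒰 => (show C(D n, Y) from σ) ⁻¹' (interior U.1)) isCompact_univ
    (fun U => isOpen_interior.preimage (show C(D n, Y) from σ).continuous) hc
  refine ⟨δ, hδ, fun m τ hτ => ?_⟩
  obtain ⟨U, hU⟩ := hδ' (τ (vtx m 0)) (Set.mem_univ _)
  refine ⟨U.1, U.2, fun t => ?_⟩
  have h1 : τ t ∈ Metric.ball (τ (vtx m 0)) δ := hτ t (vtx m 0)
  exact interior_subset (hU h1)

/-- **small simplices** for a family of sets whose interiors cover -/
theorem small_cover (R : Type) [CommRing R] (h : ∀ y, ∃ U ∈ 𝒰, U ∈ 𝓝 y) :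
    Bijective (H.map R (cov 𝒰).incl.hom) := small R (TSing Y) (cov 𝒰) (cov_dense 𝒰 h)

end cov

/-! ## homology of a product of complexes -/

section prodHd

variable {R M M' : Type*} [CommRing R] [AddCommGroup M] [Module R M] [AddCommGroup M'] [Module R M']
  (d : M →ₗ[R] M) (d' : M' →ₗ[R] M')

/-- `H(M × M') → H(M) × H(M')` -/
def prodHd : Hd (d.prodMap d') →ₗ[R] Hd d × Hd d' :=
  (Hd.map (LinearMap.fst R M M') (by ext <;> simp)).prod (Hd.map (LinearMap.snd R M M') (by ext <;> simp))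

theorem prodHd_mk (z : M × M') (hz : d.prodMap d' z = 0) (h1 : d z.1 = 0) (h2 : d' z.2 = 0) :
    prodHd d d' (Hd.mk _ z hz) = (Hd.mk d z.1 h1, Hd.mk d' z.2 h2) :=
  rfl

theorem prodHd_bijective : Bijective (prodHd d d') := by
  constructor
  · rw [injective_iff_map_eq_zero]
    intro u hu
    obtain ⟨z, hz, rfl⟩ := Hd.mk_surj _ u
    have h1 : d z.1 = 0 := congrArg Prod.fst hz
    have h2 : d' z.2 = 0 := congrArg Prod.snd hz
    rw [prodHd_mk _ _ _ _ h1 h2, Prod.mk_eq_zero, Hd.mk_eq_zero, Hd.mk_eq_zero] at hu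
    obtain ⟨⟨w, hw⟩, w', hw'⟩ := hu
    rw [Hd.mk_eq_zero]
    exact ⟨(w, w'), Prod.ext hw hw'⟩
  · rintro ⟨u, u'⟩
    obtain ⟨z, hz, rfl⟩ := Hd.mk_surj _ u
    obtain ⟨z', hz', rfl⟩ := Hd.mk_surj _ u'
    exact ⟨Hd.mk _ (z, z') (Prod.ext hz hz'), rfl⟩

end prodHd

theorem N_map_comp {R : Type} [CommRing R] {K L M : SS} (f : SS.Hom K L) (g : SS.Hom L M)
    (x : N R K) : N.map R (g.comp f) x = N.map R g (N.map R f x) := by
  obtain ⟨c, rfl⟩ := Submodule.Quotient.mk_surjective _ x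
  rw [N.map_mk, N.map_mk, N.map_mk, map_comp']

theorem H_map_comp {R : Type} [CommRing R] {K L M : SS} (f : SS.Hom K L) (g : SS.Hom L M)
    (u : H R K) : H.map R (g.comp f) u = H.map R g (H.map R f u) := by
  obtain ⟨z, hz, rfl⟩ := Hd.mk_surj _ u
  rw [H.map, H.map, H.map, Hd.map_mk, Hd.map_mk, Hd.map_mk]
  congr 1
  exact N_map_comp f g z

theorem N_map_bd_apply {R : Type} [CommRing R] {K L : SS} (f : SS.Hom K L) (x : N R K) :
    N.map R f (N.bd R K x) = N.bd R L (N.map R f x) :=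
  LinearMap.congr_fun (N.map_bd (R := R) f) x

/-! ## abstract Mayer-Vietoris -/

section abstractMV

variable {K0 K1 K2 L M : SS} {i : SS.Hom K0 K1} {j : SS.Hom K0 K2} {k : SS.Hom K1 L}
  {l : SS.Hom K2 L}

/-- Mayer-Vietoris for a union `L` of two simplicial subsets and a homology isomorphism `f : L → M` -/
theorem mv_abstract (R : Type) [CommRing R] (sq : MVSq i j k l) (f : SS.Hom L M)
    (hfi : ∀ n, Injective (f.app n)) (hs : Bijective (H.map R f)) :
    ∃ δ : H R M →ₗ[R] H R K0,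
    Exact ((H.map R i).prod (-H.map R j)) ((H.map R (f.comp k)).coprod (H.map R (f.comp l))) ∧
    Exact ((H.map R (f.comp k)).coprod (H.map R (f.comp l))) δ ∧
    Exact δ ((H.map R i).prod (-H.map R j)) ∧
    (∀ n, ∀ x ∈ H.gr R M (n + 1), δ x ∈ H.gr R K0 n) ∧
    (∀ x ∈ H.gr R M 0, δ x = 0) ∧
    (∀ (a : N R K1) (b : N R K2) (c : N R K0) (z : N R M) (hc : N.bd R K0 c = 0)
      (hz : N.bd R M z = 0), N.map R i c = N.bd R K1 a → N.map R j c = -N.bd R K2 b →
      N.map R (f.comp k) a + N.map R (f.comp l) b = z →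
      δ (Hd.mk (N.bd R M) z hz) = Hd.mk _ c hc) := by
  have hfN := map_inj (R := R) f hfi
  set e := LinearEquiv.ofBijective (H.map R f) hs with he
  have heu : ∀ u, e u = H.map R f u := fun u => rfl
  have ses := mv_ses R sq
  set pr := LinearEquiv.ofBijective (prodHd (N.bd R K1) (N.bd R K2))
    (prodHd_bijective _ _) with hpr
  -- the two comparison identities
  have hF : ∀ u, pr (Hd.map _ ses.hf u) = ((H.map R i).prod (-H.map R j)) u := by
    intro u
    obtain ⟨z, hz, rfl⟩ := Hd.mk_surj _ u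
    rfl
  have hG : ∀ u, e (Hd.map _ ses.hg u) =
      ((H.map R (f.comp k)).coprod (H.map R (f.comp l))) (pr u) := by
    intro u
    obtain ⟨z, hz, rfl⟩ := Hd.mk_surj _ u
    have h1 : N.bd R K1 z.1 = 0 := congrArg Prod.fst hz
    have h2 : N.bd R K2 z.2 = 0 := congrArg Prod.snd hz
    rw [heu, Hd.map_mk]
    show H.map R f _ = H.map R (f.comp k) (Hd.mk _ z.1 h1) + H.map R (f.comp l) (Hd.mk _ z.2 h2)
    rw [H_map_comp, H_map_comp, ← map_add]
    rfl
  have ex1 := HA498.exact_fg ses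
  have ex2 := HA498.exact_gδ ses
  have ex3 := HA498.exact_δf ses
  refine ⟨HA498.delta ses ∘ₗ e.symm.toLinearMap, ?_, ?_, ?_, ?_, ?_, ?_⟩
  · intro v
    obtain ⟨u, rfl⟩ := pr.surjective v
    rw [← hG]
    have h0 : e (Hd.map _ ses.hg u) = 0 ↔ Hd.map _ ses.hg u = 0 := e.map_eq_zero_iff
    rw [h0, ex1 u]
    constructor
    · rintro ⟨w, rfl⟩
      exact ⟨w, (hF w).symm⟩
    · rintro ⟨w, hw⟩
      exact ⟨w, pr.injective ((hF w).trans hw)⟩
  · intro v
    obtain ⟨u, rfl⟩ := e.surjective v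
    rw [LinearMap.comp_apply, LinearEquiv.coe_coe, LinearEquiv.symm_apply_apply, ex2 u]
    constructor
    · rintro ⟨w, rfl⟩
      exact ⟨pr w, (hG w).symm⟩
    · rintro ⟨w, hw⟩
      obtain ⟨w, rfl⟩ := pr.surjective w
      exact ⟨w, e.injective ((hG w).trans hw)⟩
  · intro v
    have h1 : ((H.map R i).prod (-H.map R j)) v = 0 ↔ Hd.map _ ses.hf v = 0 := by
      rw [← hF]
      exact pr.map_eq_zero_iff
    rw [h1, ex3 v]
    constructor
    · rintro ⟨w, rfl⟩
      exact ⟨e w, by rw [LinearMap.comp_apply, LinearEquiv.coe_coe, LinearEquiv.symm_apply_apply]⟩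
    · rintro ⟨w, rfl⟩
      exact ⟨e.symm w, rfl⟩
  · intro n x hx
    obtain ⟨u, rfl⟩ := e.surjective x
    rw [LinearMap.comp_apply, LinearEquiv.coe_coe, LinearEquiv.symm_apply_apply]
    have hu : u ∈ H.gr R L (n + 1) := H_mem_gr_of_map _ hs.1 hx
    refine HA498.delta_mem (p'' := N.gr R L (n + 1))
      (p := (N.gr R K1 (n + 1)).prod (N.gr R K2 (n + 1)))
      (q := (N.gr R K1 n).prod (N.gr R K2 n))
      (q' := N.gr R K0 n) ses ?_ ?_ ?_ hu
    · intro z hz
      obtain ⟨⟨a, b⟩, hab⟩ := ses.surj z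
      refine ⟨(prN R _ (n + 1) a, prN R _ (n + 1) b), ⟨prN_mem_gr _ _, prN_mem_gr _ _⟩, ?_⟩
      show N.map R k (prN R _ (n + 1) a) + N.map R l (prN R _ (n + 1) b) = z
      rw [← prN_map, ← prN_map, ← map_add, ← (mem_gr_iff (n + 1) z).1 hz, ← hab]
      rfl
    · rintro ⟨a, b⟩ ⟨ha, hb⟩
      exact ⟨bd_mem_gr n ha, bd_mem_gr n hb⟩
    · rintro y ⟨hy, _⟩
      exact mem_gr_of_map i (map_inj i sq.hi) hy
  · intro x hx
    obtain ⟨u, rfl⟩ := e.surjective x
    rw [LinearMap.comp_apply, LinearEquiv.coe_coe, LinearEquiv.symm_apply_apply, ex2 u]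
    have hu : u ∈ H.gr R L 0 := H_mem_gr_of_map _ hs.1 hx
    rw [HA498.H_gr_eq, HA498.mem_grHd] at hu
    obtain ⟨z, hz, hz', rfl⟩ := hu
    obtain ⟨⟨a, b⟩, hab⟩ := ses.surj z
    refine ⟨Hd.mk _ (prN R _ 0 a, prN R _ 0 b) (Prod.ext (bd_prN_zero _) (bd_prN_zero _)), ?_⟩
    rw [Hd.map_mk, Hd.mk_eq_mk]
    refine ⟨0, ?_⟩
    rw [map_zero]
    show 0 = N.map R k (prN R _ 0 a) + N.map R l (prN R _ 0 b) - z
    rw [← prN_map, ← prN_map, ← map_add]
    have : N.map R k a + N.map R l b = z := hab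
    rw [this, (mem_gr_iff 0 z).1 hz, sub_self]
  · intro a b c z hc hz ha hb hab
    have hz' : N.bd R L (N.map R k a + N.map R l b) = 0 := by
      apply hfN
      rw [N_map_bd_apply, map_zero, map_add, ← N_map_comp, ← N_map_comp, hab, hz]
    have h4 : e.symm (Hd.mk (N.bd R M) z hz) = Hd.mk _ (N.map R k a + N.map R l b) hz' := by
      rw [LinearEquiv.symm_apply_eq, heu, H.map, Hd.map_mk, Hd.mk_eq_mk]
      refine ⟨0, ?_⟩
      rw [map_zero, map_add, ← N_map_comp, ← N_map_comp, hab, sub_self]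
    rw [LinearMap.comp_apply, LinearEquiv.coe_coe, h4]
    refine HA498.delta_mk' ses _ hz' (a, b) c hc ?_ rfl
    refine Prod.ext ha ?_
    show -(N.map R j c) = N.bd R _ b
    rw [hb, neg_neg]

end abstractMV

/-! ## Mayer-Vietoris -/

section MV

variable {Y : Type} [TopologicalSpace Y] (U V : Set Y)

/-- simplices of a subspace as small simplices -/
noncomputable def subHom {𝒰 : Set (Set Y)} (U : Set Y) (hU : U ∈ 𝒰) :
    SS.Hom (SS.Sing U) (cov 𝒰).tk.K where
  app n σ := ⟨(SS.SingMap (SpecA.inc U)).app n σ,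
    U, hU, fun t => ((show C(D n, U) from σ) t).2⟩
  nat _ _ := rfl

theorem incl_subHom {𝒰 : Set (Set Y)} (U : Set Y) (hU : U ∈ 𝒰) :
    SS.Hom.comp (cov 𝒰).incl.hom (subHom U hU) = SS.SingMap (SpecA.inc U) := rfl

theorem SingMap_inj {X Z : Type} [TopologicalSpace X] [TopologicalSpace Z] (f : C(X, Z))
    (hf : Injective f) (n : ℕ) : Injective ((SS.SingMap f).app n) := by
  intro σ τ h
  have h' : ∀ t : D n, f ((show C(D n, X) from σ) t) = f ((show C(D n, X) from τ) t) :=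
    fun t => congrArg (fun ρ : C(D n, Z) => ρ t) h
  exact ContinuousMap.ext fun t => hf (h' t)

theorem subHom_inj {𝒰 : Set (Set Y)} (U : Set Y) (hU : U ∈ 𝒰) (n : ℕ) :
    Injective ((subHom U hU).app n) := by
  intro σ τ h
  exact SingMap_inj (SpecA.inc U) Subtype.val_injective n (congrArg Subtype.val h)

theorem mvSq : MVSq (K0 := SS.Sing (U ∩ V : Set Y)) (K1 := SS.Sing U) (K2 := SS.Sing V)
    (L := (cov {U, V}).tk.K)
    (SS.SingMap (SpecA.inc₂ (Set.inter_subset_left : U ∩ V ⊆ U)))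
    (SS.SingMap (SpecA.inc₂ (Set.inter_subset_right : U ∩ V ⊆ V)))
    (subHom U (by simp)) (subHom V (by simp)) where
  hi := SingMap_inj _ (Set.inclusion_injective (Set.inter_subset_left : U ∩ V ⊆ U))
  hk := subHom_inj _ _
  hl := subHom_inj _ _
  comm _ _ := rfl
  cap n x y h := by
    have h' : ∀ t : D n, (((show C(D n, U) from x) t : U) : Y) = ((show C(D n, V) from y) t : V) :=
      fun t => congrArg (fun ρ => (show C(D n, Y) from ρ) t) (congrArg Subtype.val h)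
    refine ⟨(⟨fun t : D n => ⟨((show C(D n, U) from x) t : Y),
      ((show C(D n, U) from x) t).2, by rw [h' t]; exact ((show C(D n, V) from y) t).2⟩, ?_⟩ :
      C(D n, (U ∩ V : Set Y))), ?_⟩
    · exact Continuous.subtype_mk
        (continuous_subtype_val.comp (show C(D n, U) from x).continuous) _
    · exact ContinuousMap.ext fun t => rfl
  cup n x := by
    obtain ⟨σ, W, hW, h⟩ := x
    simp only [Set.mem_insert_iff, Set.mem_singleton_iff] at hW
    rcases hW with rfl | rfl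
    · refine Or.inl ⟨(⟨fun t : D n => ⟨(show C(D n, Y) from σ) t, h t⟩, ?_⟩ : C(D n, W)), ?_⟩
      · exact Continuous.subtype_mk (show C(D n, Y) from σ).continuous _
      · exact Subtype.ext (ContinuousMap.ext fun t => rfl)
    · refine Or.inr ⟨(⟨fun t : D n => ⟨(show C(D n, Y) from σ) t, h t⟩, ?_⟩ : C(D n, W)), ?_⟩
      · exact Continuous.subtype_mk (show C(D n, Y) from σ).continuous _
      · exact Subtype.ext (ContinuousMap.ext fun t => rfl)

/-- **Mayer-Vietoris**, any coefficients, for two sets whose interiors cover -/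
theorem mayerVietoris (R : Type) [CommRing R] (hUV : ∀ y, U ∈ 𝓝 y ∨ V ∈ 𝓝 y) :
    ∃ δ : H R (SS.Sing Y) →ₗ[R] H R (SS.Sing (U ∩ V : Set Y)),
    Exact ((H.map R (SS.SingMap (SpecA.inc₂ (Set.inter_subset_left : U ∩ V ⊆ U)))).prod
        (-H.map R (SS.SingMap (SpecA.inc₂ (Set.inter_subset_right : U ∩ V ⊆ V)))))
      ((H.map R (SS.SingMap (SpecA.inc U))).coprod (H.map R (SS.SingMap (SpecA.inc V)))) ∧
    Exact ((H.map R (SS.SingMap (SpecA.inc U))).coprod (H.map R (SS.SingMap (SpecA.inc V)))) δ ∧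
    Exact δ ((H.map R (SS.SingMap (SpecA.inc₂ (Set.inter_subset_left : U ∩ V ⊆ U)))).prod
        (-H.map R (SS.SingMap (SpecA.inc₂ (Set.inter_subset_right : U ∩ V ⊆ V))))) ∧
    (∀ n, ∀ x ∈ H.gr R (SS.Sing Y) (n + 1), δ x ∈ H.gr R (SS.Sing (U ∩ V : Set Y)) n) ∧
    (∀ x ∈ H.gr R (SS.Sing Y) 0, δ x = 0) ∧
    (∀ (a : N R (SS.Sing U)) (b : N R (SS.Sing V)) (c : N R (SS.Sing (U ∩ V : Set Y)))
      (z : N R (SS.Sing Y)) (hc : N.bd R _ c = 0) (hz : N.bd R _ z = 0),
      N.map R (SS.SingMap (SpecA.inc₂ (Set.inter_subset_left : U ∩ V ⊆ U))) c = N.bd R _ a →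
      N.map R (SS.SingMap (SpecA.inc₂ (Set.inter_subset_right : U ∩ V ⊆ V))) c = -N.bd R _ b →
      N.map R (SS.SingMap (SpecA.inc U)) a + N.map R (SS.SingMap (SpecA.inc V)) b = z →
      δ (Hd.mk (N.bd R (SS.Sing Y)) z hz) = Hd.mk _ c hc) := by
  have hs : Bijective (H.map R (cov {U, V}).incl.hom) := by
    refine small_cover {U, V} R fun y => ?_
    rcases hUV y with h | h
    · exact ⟨U, by simp, h⟩
    · exact ⟨V, by simp, h⟩
  exact mv_abstract R (mvSq U V) (cov {U, V}).incl.hom (cov {U, V}).incl_inj hs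

/-- `SpecA.MayerVietoris` -/
theorem specA_mayerVietoris : SpecA.MayerVietoris := by
  intro Y _ U V hU hV hc
  obtain ⟨δ, h1, h2, h3, h4, h5, _⟩ := mayerVietoris U V F2 (fun y => by
    have : y ∈ U ∪ V := by rw [hc]; trivial
    rcases this with h | h
    · exact Or.inl (hU.mem_nhds h)
    · exact Or.inr (hV.mem_nhds h))
  have hneg : ∀ {M : Type} [AddCommGroup M] [Module F2 M] (x : M), -x = x := by
    intro M _ _ x
    have h : (1 : F2) + 1 = 0 := by decide
    have : x + x = 0 := by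
      have := congrArg (fun r : F2 => r • x) h
      simpa [add_smul] using this
    exact neg_eq_of_add_eq_zero_left this
  have hn : (-H.map F2 (SS.SingMap (SpecA.inc₂ (Set.inter_subset_right : U ∩ V ⊆ V)))) =
      H.map F2 (SS.SingMap (SpecA.inc₂ (Set.inter_subset_right : U ∩ V ⊆ V))) := by
    refine LinearMap.ext fun x => ?_
    exact hneg (M := H F2 (SS.Sing V)) _
  rw [hn] at h1 h3
  exact ⟨δ, h1, h2, h3, h4, h5⟩

end MV

end Crest.Agent.R204.Exc406
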