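import Crest.Agent.R204.FA_550

/-!
# Row 204, block F: elementary facts on `Sq r a` (helper693)
`Sq r 0 = id`, `Sq r 1 = del r 1`, instability and the top square.
-/

set_option autoImplicit false

noncomputable section

namespace Crest.Agent.R204.FAel693

open MvPolynomial Crest.Agent.R204.FA550

/-! ### coefficient 0 and 1 -/

theorem coeff_zero_SQgen {r j : ℕ} (h : j < r) : (SQgen r j).coeff 0 = Q r j := by
  have h2 : (2:ℕ) ^ j < 2 ^ r := Nat.pow_lt_pow_right (by norm_num) h
  have hA : (∑ b ∈ Finset.range (j + 1),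
      (Polynomial.X : Polynomial (D r)) ^ (2 ^ j - 2 ^ b) * Polynomial.C (Q r b)).coeff 0 = Q r j := by
    rw [Polynomial.finsetSum_coeff, Finset.sum_eq_single j]
    · simp
    · intro b hb hne
      have hb' : b < j := by have := Finset.mem_range.1 hb; omega
      have : (2:ℕ) ^ b < 2 ^ j := Nat.pow_lt_pow_right (by norm_num) hb'
      rw [Polynomial.coeff_X_pow_mul', if_neg (by omega)]
    · intro hh; simp at hh
  have hB : (∑ a ∈ Finset.Ioc j r,
      (Polynomial.X : Polynomial (D r)) ^ (2 ^ r - 2 ^ a) * Polynomial.C (Q r a)).coeff 0 = 1 := by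
    rw [Polynomial.finsetSum_coeff, Finset.sum_eq_single r]
    · simp
    · intro a ha hne
      have ha' : a < r := by have := Finset.mem_Ioc.1 ha; omega
      have : (2:ℕ) ^ a < 2 ^ r := Nat.pow_lt_pow_right (by norm_num) ha'
      rw [Polynomial.coeff_X_pow_mul', if_neg (by omega)]
    · intro hh; simp at hh; omega
  rw [SQgen, Polynomial.coeff_add, Polynomial.mul_coeff_zero, Polynomial.mul_coeff_zero, hA, hB,
    Polynomial.coeff_X_pow, if_neg (by omega)]
  simp

theorem Sq_zero (r : ℕ) : Sq r 0 = LinearMap.id := by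
  have key : ((Polynomial.constantCoeff (R := D r)).comp (SQ r).toRingHom) = RingHom.id (D r) := by
    apply MvPolynomial.ringHom_ext
    · intro a
      have h1 : (C a : D r) = algebraMap (ZMod 2) (D r) a := rfl
      simp only [RingHom.comp_apply, RingHom.id_apply, AlgHom.toRingHom_eq_coe, RingHom.coe_coe]
      rw [h1, AlgHom.commutes]
      simp [Polynomial.algebraMap_apply]
    · intro i
      simp only [RingHom.comp_apply, RingHom.id_apply, AlgHom.toRingHom_eq_coe, RingHom.coe_coe]
      rw [← Q_coe i, SQ_Q i.2]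
      exact coeff_zero_SQgen i.2
  ext x
  have := RingHom.congr_fun key
  exact congrArg (coeff _) (this _)

theorem coeff_one_SQgen {r j : ℕ} (h : j < r) : (SQgen r j).coeff 1 = del r 1 (Q r j) := by
  have h2 : (2:ℕ) ^ j < 2 ^ r := Nat.pow_lt_pow_right (by norm_num) h
  have hA0 : (∑ b ∈ Finset.range (j + 1),
      (Polynomial.X : Polynomial (D r)) ^ (2 ^ j - 2 ^ b) * Polynomial.C (Q r b)).coeff 0 = Q r j := by
    rw [Polynomial.finsetSum_coeff, Finset.sum_eq_single j]
    · simp
    · intro b hb hne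
      have hb' : b < j := by have := Finset.mem_range.1 hb; omega
      have : (2:ℕ) ^ b < 2 ^ j := Nat.pow_lt_pow_right (by norm_num) hb'
      rw [Polynomial.coeff_X_pow_mul', if_neg (by omega)]
    · intro hh; simp at hh
  have hA1 : (∑ b ∈ Finset.range (j + 1),
      (Polynomial.X : Polynomial (D r)) ^ (2 ^ j - 2 ^ b) * Polynomial.C (Q r b)).coeff 1 =
      if j = 1 then Q r 0 else 0 := by
    rw [Polynomial.finsetSum_coeff]
    split_ifs with hj
    · subst hj
      rw [Finset.sum_eq_single 0]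
      · rw [Polynomial.coeff_X_pow_mul', if_pos (by norm_num)]; norm_num
      · intro b hb hne
        have hb' : b = 1 := by have := Finset.mem_range.1 hb; omega
        subst hb'
        rw [Polynomial.coeff_X_pow_mul']; norm_num
      · intro hh; simp at hh
    · refine Finset.sum_eq_zero fun b hb => ?_
      have hb' := Finset.mem_range.1 hb
      rw [Polynomial.coeff_X_pow_mul']
      rcases Nat.lt_or_ge b j with hlt | hge
      · have h3 : (2:ℕ) ^ (b + 1) ≤ 2 ^ j := Nat.pow_le_pow_right (by norm_num) hlt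
        rw [pow_succ] at h3
        by_cases hb0 : b = 0
        · subst hb0
          have h4 : (2:ℕ) ^ 2 ≤ 2 ^ j := Nat.pow_le_pow_right (by norm_num) (by omega)
          rw [if_neg (by norm_num at h4 ⊢; omega)]
        · have h4 : (2:ℕ) ^ 1 ≤ 2 ^ b := Nat.pow_le_pow_right (by norm_num) (by omega)
          rw [if_neg (by norm_num at h4 ⊢; omega)]
      · have : b = j := by omega
        subst this
        simp only [Nat.sub_self]
        rw [if_pos (by omega), Polynomial.coeff_C, if_neg (by omega)]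
  have hB0 : (∑ a ∈ Finset.Ioc j r,
      (Polynomial.X : Polynomial (D r)) ^ (2 ^ r - 2 ^ a) * Polynomial.C (Q r a)).coeff 0 = 1 := by
    rw [Polynomial.finsetSum_coeff, Finset.sum_eq_single r]
    · simp
    · intro a ha hne
      have ha' : a < r := by have := Finset.mem_Ioc.1 ha; omega
      have : (2:ℕ) ^ a < 2 ^ r := Nat.pow_lt_pow_right (by norm_num) ha'
      rw [Polynomial.coeff_X_pow_mul', if_neg (by omega)]
    · intro hh; simp at hh; omega
  have hB1 : (∑ a ∈ Finset.Ioc j r,
      (Polynomial.X : Polynomial (D r)) ^ (2 ^ r - 2 ^ a) * Polynomial.C (Q r a)).coeff 1 = 0 := by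
    rw [Polynomial.finsetSum_coeff]
    refine Finset.sum_eq_zero fun a ha => ?_
    have ha' := Finset.mem_Ioc.1 ha
    rw [Polynomial.coeff_X_pow_mul']
    rcases Nat.lt_or_ge a r with hlt | hge
    · have h3 : (2:ℕ) ^ (a + 1) ≤ 2 ^ r := Nat.pow_le_pow_right (by norm_num) hlt
      have h4 : (2:ℕ) ^ 1 ≤ 2 ^ a := Nat.pow_le_pow_right (by norm_num) (by omega)
      rw [pow_succ] at h3
      rw [if_neg (by norm_num at h4 ⊢; omega)]
    · have : a = r := by omega
      subst this
      simp only [Nat.sub_self]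
      rw [if_pos (by omega), Polynomial.coeff_C, if_neg (by omega)]
  rw [SQgen, Polynomial.coeff_add, Polynomial.mul_coeff_one (∑ b ∈ Finset.range (j + 1), _),
    hA0, hA1, hB0, hB1, mul_zero, mul_one, zero_add, ← map_pow,
    Polynomial.coeff_X_pow_mul']
  rcases Nat.lt_or_ge 1 r with h1 | h1
  · rw [del0_Q h1 h.le]
    have h3 : (2:ℕ) ^ (j + 1) ≤ 2 ^ r := Nat.pow_le_pow_right (by norm_num) h
    have h4 : (2:ℕ) ^ 2 ≤ 2 ^ r := Nat.pow_le_pow_right (by norm_num) h1
    rw [pow_succ] at h3
    rw [if_neg (by norm_num at h4; omega), zero_add]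
  · have hr : r = 1 := by omega
    subst hr
    have hj : j = 0 := by omega
    subst hj
    rw [delr_Q (by omega)]
    norm_num
    rw [← map_pow, Polynomial.coeff_C_zero, sq]

theorem Sq_one {r : ℕ} (x : D r) : Sq r 1 x = del r 1 x := by
  have h0 : ∀ y : D r, (SQ r y).coeff 0 = y := fun y => LinearMap.congr_fun (Sq_zero r) y
  induction x using MvPolynomial.induction_on with
  | C a =>
    have h1 : (C a : D r) = algebraMap (ZMod 2) (D r) a := rfl
    rw [h1, Derivation.map_algebraMap, Sq_apply, AlgHom.commutes]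
    rw [Polynomial.algebraMap_apply, Polynomial.coeff_C, if_neg (by omega)]
  | add p q hp hq => rw [map_add, map_add, hp, hq]
  | mul_X p i hp =>
    rw [Derivation.leibniz, smul_eq_mul, smul_eq_mul, Sq_apply, map_mul, Polynomial.mul_coeff_one,
      h0, h0, ← Sq_apply, ← Sq_apply, hp]
    have : Sq r 1 (X i) = del r 1 (X i) := by
      rw [Sq_apply, ← Q_coe i, SQ_Q i.2, coeff_one_SQgen i.2]
    rw [this]; ring

/-! ### instability and the top square -/

/-- `SQ g` has `T`-degree `≤ n` with top coefficient `g^2` -/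
def Unst {r : ℕ} (g : D r) (n : ℕ) : Prop := (SQ r g).natDegree ≤ n ∧ (SQ r g).coeff n = g ^ 2

theorem unst_Q {r j : ℕ} (h : j < r) : Unst (Q r j) (2 ^ r - 2 ^ j) := by
  have h2 : (2:ℕ) ^ (j + 1) ≤ 2 ^ r := Nat.pow_le_pow_right (by norm_num) h
  have h1 := Nat.one_le_two_pow (n := j)
  rw [pow_succ] at h2
  have hA : (∑ b ∈ Finset.range (j + 1),
      (Polynomial.X : Polynomial (D r)) ^ (2 ^ j - 2 ^ b) * Polynomial.C (Q r b)).natDegree ≤
        2 ^ j - 1 := by
    refine Polynomial.natDegree_sum_le_of_forall_le _ _ fun b hb => ?_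
    have := Nat.one_le_two_pow (n := b)
    rw [mul_comm]
    exact (Polynomial.natDegree_C_mul_X_pow_le _ _).trans (by omega)
  have hB : (∑ a ∈ Finset.Ioc j r,
      (Polynomial.X : Polynomial (D r)) ^ (2 ^ r - 2 ^ a) * Polynomial.C (Q r a)).natDegree ≤
        2 ^ r - 2 * 2 ^ j := by
    refine Polynomial.natDegree_sum_le_of_forall_le _ _ fun a ha => ?_
    have ha' := Finset.mem_Ioc.1 ha
    have h3 : (2:ℕ) ^ (j + 1) ≤ 2 ^ a := Nat.pow_le_pow_right (by norm_num) (by omega)
    rw [pow_succ] at h3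
    rw [mul_comm]
    exact (Polynomial.natDegree_C_mul_X_pow_le _ _).trans (by omega)
  have hAB := Polynomial.natDegree_mul_le_of_le hA hB
  have hlt : 2 ^ j - 1 + (2 ^ r - 2 * 2 ^ j) < 2 ^ r - 2 ^ j := by omega
  constructor
  · rw [SQ_Q h, SQgen]
    refine Polynomial.natDegree_add_le_of_degree_le ?_ (hAB.trans hlt.le)
    rw [← map_pow, mul_comm]
    exact Polynomial.natDegree_C_mul_X_pow_le _ _
  · rw [SQ_Q h, SQgen, Polynomial.coeff_add, Polynomial.coeff_eq_zero_of_natDegree_lt
      (lt_of_le_of_lt hAB hlt), add_zero, ← map_pow, Polynomial.coeff_X_pow_mul', if_pos le_rfl,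
      Nat.sub_self, Polynomial.coeff_C_zero]

theorem unst_mul {r : ℕ} {g h : D r} {m n : ℕ} (hg : Unst g m) (hh : Unst h n) :
    Unst (g * h) (m + n) := by
  refine ⟨?_, ?_⟩
  · rw [map_mul]; exact Polynomial.natDegree_mul_le_of_le hg.1 hh.1
  · rw [map_mul, Polynomial.coeff_mul_add_eq_of_natDegree_le hg.1 hh.1, hg.2, hh.2]; ring

theorem unst_one (r : ℕ) : Unst (1 : D r) 0 := by
  refine ⟨by simp, by simp⟩

theorem unst_pow {r : ℕ} {g : D r} {m : ℕ} (hg : Unst g m) (k : ℕ) : Unst (g ^ k) (k * m) := by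
  induction k with
  | zero => simpa using unst_one r
  | succ k ih => rw [pow_succ, Nat.add_mul, one_mul]; exact unst_mul ih hg

theorem unst_monomial {r : ℕ} (s : Fin r →₀ ℕ) :
    Unst (monomial s 1 : D r) (Finsupp.weight (wt r) s) := by
  have key : ∀ (t : Finset (Fin r)), Unst (∏ i ∈ t, (X i : D r) ^ s i) (∑ i ∈ t, s i * wt r i) := by
    intro t
    induction t using Finset.induction_on with
    | empty => simpa using unst_one r
    | insert a t ha ih =>
      rw [Finset.prod_insert ha, Finset.sum_insert ha]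
      refine unst_mul (unst_pow ?_ _) ih
      rw [← Q_coe a]; exact unst_Q a.2
  have h := key Finset.univ
  have e1 : (monomial s 1 : D r) = ∏ i, (X i : D r) ^ s i := by
    rw [monomial_eq, C_1, one_mul, Finsupp.prod_fintype]
    intro i; simp
  have e2 : Finsupp.weight (wt r) s = ∑ i, s i * wt r i := by
    rw [Finsupp.weight_apply, Finsupp.sum_fintype]
    · rfl
    · intro i; simp
  rw [e1, e2]; exact h

theorem unst {r : ℕ} {g : D r} {n : ℕ} (hg : IsWeightedHomogeneous (wt r) g n) : Unst g n := by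
  induction hg using IsWeightedHomogeneous.induction_on with
  | zero => exact ⟨by simp, by simp⟩
  | add p q hp hq h1 h2 =>
    refine ⟨?_, ?_⟩
    · rw [map_add]; exact Polynomial.natDegree_add_le_of_degree_le h1.1 h2.1
    · rw [map_add, Polynomial.coeff_add, h1.2, h2.2, CharTwo.add_sq]
  | monomial d a hd =>
    have ha : a = 0 ∨ a = 1 := by
      revert a; decide
    rcases ha with rfl | rfl
    · rw [map_zero]; exact ⟨by simp, by simp⟩
    · rw [← hd]; exact unst_monomial d

theorem Sq_instab {r : ℕ} {g : D r} {n a : ℕ} (hg : IsWeightedHomogeneous (wt r) g n) (h : n < a) :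
    Sq r a g = 0 :=
  Polynomial.coeff_eq_zero_of_natDegree_lt (lt_of_le_of_lt (unst hg).1 h)

theorem Sq_top {r : ℕ} {g : D r} {n : ℕ} (hg : IsWeightedHomogeneous (wt r) g n) :
    Sq r n g = g ^ 2 := (unst hg).2

end Crest.Agent.R204.FAel693
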