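import Crest.Agent.R204.FCone_330
import Crest.Agent.R204.FactSph_478

/-!
# Row 204, block E (helper330): `FactCone` for a tower of loop structures

`factCone_of` : `Spec114.Sph.FactCone` for 478's `mkSph X A h0 sub`, when `X.H k` is (linearly
identified with) `H F2 (Sing (P k))`, `P k` is a loop space of `P (k+1)` (`LoopStr`), the square in
`X.H k` is the Pontryagin square for `muH`, `X.σ` is `LoopStr.sigma`, the coproduct is `ezd.cop` and
the classes `h0 α` are classes of spherical simplices.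
-/

set_option autoImplicit false

noncomputable section

namespace Crest.Agent.R204.FCone330

open Sus330 Cone330 Cofib670 EZ847 Spec114 FactSph478
open Sus330.LoopStr (cY bv)
open scoped TensorProduct

/-- a spherical class from 478's `scl` -/
theorem sphCls_scl {K : SS} {b : K.S 0} {e : ℕ} (x : K.S (e + 1)) (hx : IsSph b x) :
    SphCls b (e + 1) (SphSS478.scl x hx) := ⟨x, hx, _, rfl⟩

section tower

variable (X : Tower) (A : Type) (h0 : A → X.H 0) (sub : A → A → A) {D d : ℕ}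
  (P : ℕ → Type) [∀ k, TopologicalSpace (P k)] (g : ∀ k, P k)
  (Λ : ∀ k, k ≤ D + 1 → LoopStr (P k) (P (k + 1)) (g k) (g (k + 1)))
  (e : ∀ k, X.H k ≃ₗ[F2] H F2 (SS.Sing (P k)))

include Λ in
theorem sphCls_hk (hs : ∀ k (h : k ≤ D + 1) (y : X.H k), e (k + 1) (X.σ k y) = (Λ k h).sigma (e k y))
    {y : X.H 0} (hy : SphCls (K := SS.Sing (P 0)) (cY (g 0) 0) d (e 0 y)) :
    ∀ k ≤ D + 2, SphCls (K := SS.Sing (P k)) (cY (g k) 0) (d + k) (e k (hk X y k)) := by
  intro k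
  induction k with
  | zero => intro _; exact hy
  | succ k ih =>
    intro hk'
    show SphCls _ (d + k + 1) (e (k + 1) (X.σ k (hk X y k)))
    rw [hs k (by omega)]
    exact (ih (by omega)).sigma _

/-- **block E**: `FactCone` -/
theorem factCone_of (hσ : X.FactSigma D)
    (hgr : ∀ k ≤ D + 2, ∀ (t : ℕ) (y : X.H k), y ∈ X.gr k t ↔ e k y ∈ H.gr F2 _ t)
    (hmul : ∀ k (h : k ≤ D + 1) (ξ : X.H k),
      e k (ξ * ξ) = H.map F2 (Λ k h).muH (ezd.cr _ _ (e k ξ ⊗ₜ e k ξ)))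
    (hs : ∀ k (h : k ≤ D + 1) (y : X.H k), e (k + 1) (X.σ k y) = (Λ k h).sigma (e k y))
    (hΔ : ∀ k ≤ D + 2, ∀ s : X.H k, ezd.cop _ (e k s) =
      vtx (K := SS.Sing (P k)) (cY (g k) 0) ⊗ₜ e k s + e k s ⊗ₜ vtx (K := SS.Sing (P k)) (cY (g k) 0) →
      s ∈ X.prim k)
    (S : StPkg) (hcop : ∀ K, S.cop K = ezd.cop K) (hBM : ∀ K, Tower.DualBM (S.Sq K))
    (hSq : ∀ k ≤ D + 2, ∀ (a : ℕ) (y : X.H k), e k (X.Sq k a y) = S.Sq _ a (e k y))
    (hsph : ∀ α, SphCls (K := SS.Sing (P 0)) (cY (g 0) 0) d (e 0 (h0 α))) :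
    (mkSph X A h0 sub).FactCone D d := by
  intro k hk1 hkd α m ξ hm h2m hξ hprim hkill hsq hz
  have hk' : k ≤ D + 1 := by omega
  have hy := sphCls_hk X P g Λ e hs (hsph α) k (by omega)
  rw [← h2m] at hy
  have hsqk : ∀ a, 1 ≤ a → S.Sq _ a ((Λ k hk').sigma (e k ξ)) = 0 := by
    intro a ha
    rw [← hs, ← hSq (k + 1) (by omega), ← (hσ k hk').2.2.2.1, hkill a ha, map_zero, map_zero]
  have hh : (mkSph X A h0 sub).h k α = hk X (h0 α) k := rfl
  have hh1 : (mkSph X A h0 sub).h (k + 1) α = X.σ k (hk X (h0 α) k) := rfl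
  rw [hh] at hsq
  rw [hh1] at hz
  obtain ⟨E, i1, i2, SE, ι, τ, a1, a2, a3, a4, a5, a6⟩ :=
    fcone_step S hcop hBM (Λ k hk') hm ((hgr k (by omega) m ξ).1 hξ) hsqk hy
      (by rw [hsq, hmul k hk']) (by rw [← hs, hz, map_zero])
  refine ⟨E, i1, i2, SE, ι ∘ₗ (e (k + 1)).toLinearMap, τ, a1, a2, a3.comp (e (k + 1)).injective, ?_,
    ?_, ?_⟩
  · intro a y
    show SE a (ι (e (k + 1) y)) = ι (e (k + 1) (X.Sq (k + 1) a y))
    rw [a4, hSq (k + 1) (by omega)]
  · intro a ha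
    obtain ⟨s, s1, s2, s3⟩ := a5 a ha
    refine ⟨(e (k + 1)).symm s, ⟨hΔ (k + 1) (by omega) _ ?_, ?_⟩, ?_⟩
    · rw [LinearEquiv.apply_symm_apply]; exact s1
    · exact (hgr (k + 1) (by omega) _ _).2 (by rw [LinearEquiv.apply_symm_apply]; exact s2)
    · rw [LinearMap.comp_apply, LinearEquiv.coe_coe, LinearEquiv.apply_symm_apply]; exact s3
  · rw [LinearMap.comp_apply, LinearEquiv.coe_coe, hs k hk']; exact a6

end tower

end Crest.Agent.R204.FCone330
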