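import Crest.Agent.R204.CopLem2_330
import Crest.Agent.R204.AdjC_330
import Crest.Agent.R204.EZInst_847
import Crest.Agent.R204.Cofib_670
import Crest.Agent.R204.Spec_114

/-!
# Row 204, block E (helper330): FactCone, one stage, for an arbitrary loop structure

* `ezd_cop_mk`  : from the chain level coproduct to 847's `ezd.cop`
* `SphCls`      : classes of spherical simplices; `SphCls.sigma`
* `fcone_step`  : the existential of `Spec114.Sph.FactCone`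
-/

set_option autoImplicit false

noncomputable section

namespace Crest.Agent.R204.FCone330

open Sus330 Cone330 Cofib670 EZ847
open EZ271 (cross cop aw crossT)
open Sus330.LoopStr (cY bv)
open scoped TensorProduct

/-! ## coproduct on homology from the coproduct on chains -/

section cop
variable {K : SS}

theorem mk_add_mk {R M : Type} [CommRing R] [AddCommGroup M] [Module R M] {d : M →ₗ[R] M} {z z' : M}
    (hz : d z = 0) (hz' : d z' = 0) :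
    Hd.mk d z hz + Hd.mk d z' hz' = Hd.mk d (z + z') (by rw [map_add, hz, hz', add_zero]) := rfl

theorem aw_diag (z : N F2 K) : aw F2 (N.map F2 (SS.diag K) z) = cop F2 z := by
  rw [aw, LinearMap.comp_apply, EZ271.cop_map, ← LinearMap.comp_apply, ← TensorProduct.map_comp]
  have h1 : N.map F2 (SS.fst K K) ∘ₗ N.map F2 (SS.diag K) = LinearMap.id :=
    LinearMap.ext fun c => by
      rw [LinearMap.comp_apply, ← Coalg847.nMap_comp]
      exact Coalg847.nMap_id c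
  have h2 : N.map F2 (SS.snd K K) ∘ₗ N.map F2 (SS.diag K) = LinearMap.id :=
    LinearMap.ext fun c => by
      rw [LinearMap.comp_apply, ← Coalg847.nMap_comp]
      exact Coalg847.nMap_id c
  rw [h1, h2, TensorProduct.map_id, LinearMap.id_apply]

/-- `ezd.cop` of a class from the coproduct of the cycle -/
theorem ezd_cop_mk {z b s : N F2 K} (hz : N.bd F2 K z = 0) (hb : N.bd F2 K b = 0)
    (hs : N.bd F2 K s = 0) (h : cop F2 z = b ⊗ₜ z + z ⊗ₜ b + s ⊗ₜ s) :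
    ezd.cop K (Hd.mk _ z hz) = Hd.mk _ b hb ⊗ₜ Hd.mk _ z hz + Hd.mk _ z hz ⊗ₜ Hd.mk _ b hb +
      Hd.mk _ s hs ⊗ₜ Hd.mk _ s hs := by
  apply (ezd.cr K K).injective
  have key := EZ271.hEZ_homotopy F2 (N.map F2 (SS.diag K) z)
  have hzz : N.bd F2 _ (N.map F2 (SS.diag K) z) = 0 := by
    rw [← EZ271.map_bd', hz, map_zero]
  rw [hzz, map_zero, add_zero, aw_diag, h, map_add, map_add, EZ271.crossT_tmul,
    EZ271.crossT_tmul, EZ271.crossT_tmul] at key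
  rw [ezd.cr_cop, map_add, map_add, ezd.cr_mk, ezd.cr_mk, ezd.cr_mk, Coalg847.hMap_mk,
    mk_add_mk, mk_add_mk, eq_comm, Hd.mk_eq_mk]
  exact ⟨EZ271.hEZ F2 (N.map F2 (SS.diag K) z), key⟩

end cop

/-! ## classes of spherical simplices -/

/-- the class of a spherical simplex of dimension `n` -/
def SphCls {K : SS} (b : K.S 0) (n : ℕ) (y : H F2 K) : Prop :=
  ∃ (a : K.S n) (_ : IsSph b a) (hz : N.bd F2 K (N.sx F2 a) = 0), y = Hd.mk _ (N.sx F2 a) hz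

variable {P Y : Type} [TopologicalSpace P] [TopologicalSpace Y] {g0 : P} {y0 : Y}

theorem sub_eq_add_F2 {M : Type*} [AddCommGroup M] [Module F2 M] (x y : M) : x - y = x + y := by
  rw [sub_eq_add_neg, neg_eq_self_F2]

/-- spherical classes go to spherical classes under the loop suspension -/
theorem SphCls.sigma' (Λ : LoopStr P Y g0 y0) {n : ℕ} {y : H F2 (SS.Sing P)}
    (h : SphCls (K := SS.Sing P) (cY g0 0) n y) :
    ∃ (x : (SS.Sing Y).S (n + 1)) (a' : (SS.Sing P).S n) (_ : IsSph (K := SS.Sing Y) (cY y0 0) x)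
      (_ : IsSph (K := SS.Sing P) (cY g0 0) a') (ha : N.bd F2 _ (N.sx F2 a') = 0)
      (hx : N.bd F2 _ (N.sx F2 x) = 0),
      Λ.sig F2 (N.sx F2 a') = N.sx F2 x ∧ y = Hd.mk _ (N.sx F2 a') ha ∧
      Λ.sigma y = Hd.mk _ (N.sx F2 x) hx := by
  obtain ⟨a, has, hz, rfl⟩ := h
  obtain ⟨x, a', hx, ha', hsig, hw⟩ := Λ.exists_adj_chain a has
  obtain ⟨w, _, hw⟩ := hw F2
  have ha0 : N.bd F2 _ (N.sx F2 a') = 0 := by
    have h1 : N.bd F2 _ (N.bd F2 _ w) = 0 := N.bd_bd w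
    rw [hw, map_sub, hz, sub_zero] at h1
    exact h1
  have hx0 : N.bd F2 _ (N.sx F2 x) = 0 := by
    rw [← hsig F2, Λ.bd_sig F2, ha0, map_zero, neg_zero]
  have he : Hd.mk _ (N.sx F2 a) hz = Hd.mk _ (N.sx F2 a') ha0 := by
    rw [eq_comm, Hd.mk_eq_mk]
    exact ⟨w, hw⟩
  refine ⟨x, a', hx, ha', ha0, hx0, hsig F2, he, ?_⟩
  rw [he, Λ.sigma_mk]
  congr 1
  exact hsig F2

theorem SphCls.sigma (Λ : LoopStr P Y g0 y0) {n : ℕ} {y : H F2 (SS.Sing P)}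
    (h : SphCls (K := SS.Sing P) (cY g0 0) n y) :
    SphCls (K := SS.Sing Y) (cY y0 0) (n + 1) (Λ.sigma y) := by
  obtain ⟨x, a', hx, ha', ha0, hx0, hsig, he, hs⟩ := h.sigma' Λ
  exact ⟨x, hx, hx0, hs⟩

/-! ## one stage of `FactCone` -/

/-- **block E for one loop structure**: `a` spherical of dimension `2m` in `P = ΩY` with
`[a] = ξ * ξ`, adjoint class zero. -/
theorem fcone_step (S : StPkg) (hcop : ∀ K, S.cop K = ezd.cop K)
    (hBM : ∀ K, Spec114.Tower.DualBM (S.Sq K)) (Λ : LoopStr P Y g0 y0) {m : ℕ} (hm : 1 ≤ m)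
    {ξ : H F2 (SS.Sing P)} (hξ : ξ ∈ H.gr F2 _ m)
    (hSq : ∀ a, 1 ≤ a → S.Sq _ a (Λ.sigma ξ) = 0)
    {y : H F2 (SS.Sing P)} (hy : SphCls (K := SS.Sing P) (cY g0 0) (2 * m) y)
    (hyy : y = H.map F2 Λ.muH (ezd.cr _ _ (ξ ⊗ₜ ξ))) (h0 : Λ.sigma y = 0) :
    ∃ (E : Type) (_ : AddCommGroup E) (_ : Module F2 E) (SE : ℕ → (E →ₗ[F2] E))
      (ι : H F2 (SS.Sing Y) →ₗ[F2] E) (τ : E),
      Spec114.Tower.DualBM SE ∧ (∀ y : E, SE 0 y = y) ∧ Function.Injective ι ∧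
      (∀ (a : ℕ) (y : H F2 (SS.Sing Y)), SE a (ι y) = ι (S.Sq _ a y)) ∧
      (∀ a, 1 ≤ a → ∃ s : H F2 (SS.Sing Y),
        ezd.cop _ s = vtx (K := SS.Sing Y) (cY y0 0) ⊗ₜ s + s ⊗ₜ vtx (K := SS.Sing Y) (cY y0 0) ∧
        s ∈ H.gr F2 _ (2 * m + 2 - a) ∧ SE a τ = ι s) ∧
      SE (m + 1) τ = ι (Λ.sigma ξ) := by
  obtain ⟨x, a', hx, ha', ha0, hx0, hsig, hya, hs⟩ := hy.sigma' Λ
  -- a homogeneous cycle for `ξ`
  obtain ⟨z, hz, hzgr, rfl⟩ := mem_H_gr.1 hξ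
  -- the boundary of `x`
  rw [hs, Hd.mk_eq_zero] at h0
  obtain ⟨v, hv⟩ := h0
  -- the product relation
  have hmu : N.bd F2 _ (N.map F2 Λ.muH (cross F2 z z)) = 0 := by
    rw [← EZ271.map_bd', EZ271.bd_cross, hz]
    simp
  have hrel : Hd.mk _ (N.map F2 Λ.muH (cross F2 z z)) hmu = Hd.mk _ (N.sx F2 a') ha0 := by
    rw [← hya, hyy, ezd.cr_mk, Coalg847.hMap_mk]
    rfl
  have hg1 : N.map F2 Λ.muH (cross F2 z z) ∈ N.gr F2 _ (2 * m) :=
    Sus330.map_mem_gr F2 _ (mem_gr_congr F2 (by omega) (Sus330.cross_mem_gr F2 hzgr hzgr))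
  have hg2 : N.sx F2 a' ∈ N.gr F2 _ (2 * m) := Sus330.mem_gr_sx F2 a'
  obtain ⟨w, hwgr, hw⟩ := (Gr334.mk_gr_eq_mk hg1 hg2).1 hrel
  rw [sub_eq_add_F2] at hw
  have hsz : N.bd F2 _ (Λ.sig F2 z) = 0 := by rw [Λ.bd_sig F2, hz, map_zero, neg_zero]
  have hT0 := Λ.bd_T hx hz (aug_of_mem_gr hm hzgr) hsig hw
  have hTgr := Λ.T_mem_gr hx hzgr hwgr
  have hb0 : N.bd F2 _ (bv y0) = 0 := Coalg847.bd_vertex _
  have hc := Λ.cop_T hx z w
  have hcopT := ezd_cop_mk hT0 (b := N.map F2 (incl hx) (bv y0))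
    (s := N.map F2 (incl hx) (Λ.sig F2 z)) (by rw [← EZ271.map_bd', hb0, map_zero])
    (by rw [← EZ271.map_bd', hsz, map_zero]) hc
  obtain ⟨hinj, c, h1, h2, h3, h4, h5⟩ := cofib S m hx hv (η := Hd.mk _ (Λ.sig F2 z) hsz)
    (by rw [← Λ.sigma_mk z hz]; exact hSq) hT0 hTgr (Λ.coef_T hx z w) (by rw [hcop]; exact hcopT)
  refine ⟨H F2 (Cone (SS.Sing Y) (cY y0 0) x hx), inferInstance, inferInstance, S.Sq _,
    H.map F2 (incl hx), Hd.mk _ _ hT0, hBM _, S.Sq_zero _, hinj, fun a y => S.Sq_nat _ a y,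
    fun a ha => ⟨c a, ?_, ?_, h1 a ha⟩, ?_⟩
  · rw [← hcop]; exact h2 a ha
  · rcases le_or_gt a (2 * m + 1) with h | h
    · exact h3 a ha h
    · rw [h4 a h]; exact zero_mem _
  · rw [h1 (m + 1) (by omega), h5, Λ.sigma_mk]

end Crest.Agent.R204.FCone330
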