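import Crest.Agent.R204.SigQ_265
import Crest.Agent.R204.Sigma2_88

/-!
# Row 204, C7 (helper265): `σ T_i = T_i σ`, `σ Q_{i+1} = Q_i σ`: abstract and for `Ω^(n+1) Z = Ω Ω^n Z`
-/

set_option autoImplicit false

noncomputable section

open scoped Topology unitInterval Topology.Homotopy

namespace Crest.Agent.R204.SigQ265

open SS EZ271 ThetaSS265 SingAct265 C5265 ThAlg265 Ops265
open DK742 (proj Invo orb AltSS proj_g proj_surj orbDesc orbDesc_proj N_map_proj_surj N_map_g_proj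
  orbMap)
open Sigma88 (oS io Ends sgN sgN_apply sgH bd_sgN sgH_mk)

variable {M : ℕ} {P Y : SS} {e : Hom ((std 1).prod P) Y}

/-- **`σ T_i = T_i σ`**, abstract form -/
theorem sgH_T {A : ThAlg M P} {B : ThAlg M Y} {y : Y.S 0} (h : Ends e y)
    (hS : ∀ (n : ℕ) (θ : (std 1).S n) (g : (EM M).S n) (x x' : P.S n),
      e.app n (θ, A.Th.app n ((proj (invD M P)).app n (g, (x, x')))) =
        B.Th.app n ((proj (invD M Y)).app n (g, (e.app n (θ, x), e.app n (θ, x')))))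
    (i : ℕ) (x : H F2 P) : sgH h (T A i x) = T B i (sgH h x) := by
  by_cases hi : i ≤ M
  · obtain ⟨z, hz, rfl⟩ := Hd.mk_surj _ x
    rw [Ops265.T, Ops265.T, C5T557.TT_of_le A.Th i hi, C5T557.TT_of_le B.Th i hi, C5T557.opT_mk, sgH_mk, sgH_mk,
      C5T557.opT_mk]
    congr 1
    refine Sigma88.spectator lsw_cross _ _ ?_ _ _
    intro n θ b x
    obtain ⟨g, rfl⟩ := proj_surj (invEM M) _ b
    exact hS n θ g x x
  · rw [Ops265.T, Ops265.T, C5T557.TT, C5T557.TT, dif_neg hi, dif_neg hi]; simp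

section gen

variable {Z : Type} [TopologicalSpace Z] {z₀ : Z}

/-- strict spectator law for `Θ` -/
theorem evH_Theta {M n : ℕ} (k : Fin (M + 1) ↪ Fin n) (q : ℕ) (θ : (SS.std 1).S q)
    (g : (EM M).S q) (x x' : (SS.Sing (Ω^ (Fin (n + 1)) Z z₀)).S q) :
    (Sus330.genLoop (Z := Z) (z₀ := z₀) n).evH.app q
        (θ, (Theta (k.trans Fin.castSuccEmb)).app q
          ((proj ((invEM M).prod (Invo.swap _))).app q (g, (x, x')))) =
      (Theta k).app q ((proj ((invEM M).prod (Invo.swap _))).app q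
        (g, ((Sus330.genLoop (Z := Z) (z₀ := z₀) n).evH.app q (θ, x),
          (Sus330.genLoop (Z := Z) (z₀ := z₀) n).evH.app q (θ, x')))) :=
  evSS_thetaSS k (mkS (bar θ) (continuous_bar θ)) g x x'

/-- **`σ Q_{i+1} = Q_i σ`** for `Ω^(n+1) Z → Ω^n Z` -/
theorem sigH_Q {M n : ℕ} (k : Fin (M + 1) ↪ Fin n)
    (m : Hom ((Sing (Om (Fin n) Z z₀)).prod (Sing (Om (Fin n) Z z₀))) (Sing (Om (Fin n) Z z₀)))
    (m' : Hom ((Sing (Om (Fin (n + 1)) Z z₀)).prod (Sing (Om (Fin (n + 1)) Z z₀)))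
      (Sing (Om (Fin (n + 1)) Z z₀))) {i : ℕ} (hi : i + 2 ≤ M)
    (x : H F2 (Sing (Om (Fin (n + 1)) Z z₀))) :
    Sigma88.sigH (Sus330.genLoop n) (Q (omAlg (k.trans Fin.castSuccEmb) m') (i + 1) x) =
      Q (omAlg k m) i (Sigma88.sigH (Sus330.genLoop n) x) :=
  sgH_Q (A := omAlg (k.trans Fin.castSuccEmb) m') (B := omAlg k m) (omAlg_oneLaw k m)
    (Sigma88.ends _) (fun q θ g x x' => evH_Theta k q θ g x x') hi x

/-- **`σ T_i = T_i σ`** for `Ω^(n+1) Z → Ω^n Z` -/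
theorem sigH_T {M n : ℕ} (k : Fin (M + 1) ↪ Fin n)
    (m : Hom ((Sing (Om (Fin n) Z z₀)).prod (Sing (Om (Fin n) Z z₀))) (Sing (Om (Fin n) Z z₀)))
    (m' : Hom ((Sing (Om (Fin (n + 1)) Z z₀)).prod (Sing (Om (Fin (n + 1)) Z z₀)))
      (Sing (Om (Fin (n + 1)) Z z₀))) (i : ℕ) (x : H F2 (Sing (Om (Fin (n + 1)) Z z₀))) :
    Sigma88.sigH (Sus330.genLoop n) (T (omAlg (k.trans Fin.castSuccEmb) m') i x) =
      T (omAlg k m) i (Sigma88.sigH (Sus330.genLoop n) x) :=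
  sgH_T (A := omAlg (k.trans Fin.castSuccEmb) m') (B := omAlg k m)
    (Sigma88.ends _) (fun q θ g x x' => evH_Theta k q θ g x x') i x

end gen

end Crest.Agent.R204.SigQ265
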