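import Crest.Agent.R204.Inst_194
import Crest.Agent.R204.SigQI_265

/-!
# Row 204, C7 (helper88): `FactSigma` for the concrete tower `p.tower` of `Inst_194`
-/

set_option autoImplicit false
set_option linter.style.haveILetI false

noncomputable section

open scoped _root_.Topology _root_.unitInterval _root_.Topology.Homotopy TensorProduct

namespace Crest.Agent.R204.FSig88

open Sus330 Coalg847 EZ847 Inst194 Cubes735 Hopf450 Sigma88
open HspSS696 (mulS eS ptS)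

theorem sigma_eq {P Y : Type} [TopologicalSpace P] [TopologicalSpace Y] {g0 : P} {y0 : Y}
    (Λ : LoopStr P Y g0 y0) : Λ.sigma = sigH Λ := rfl

/-- `Sq_a` commutes with every suspension given by `e : Δ¹ × P → Y` with constant ends -/
def SigSq : Prop := ∀ (P Y : SS) (e : SS.Hom ((SS.std 1).prod P) Y) (y : Y.S 0)
  (h : Ends e y) (a : ℕ) (x : H F2 P), sgH h (Sq252.Sq P a x) = Sq252.Sq Y a (sgH h x)

section step

variable {Z : Type} [TopologicalSpace Z] {z₀ : Z} {M a b : ℕ}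

/-- the clauses of `FactSigma` which involve two consecutive stages -/
structure StepSig (D : ℕ) (hM : 1 ≤ M) (ha : M + 1 ≤ a) (hb : M + 1 ≤ b)
    (sg : H F2 (SS.Sing (Ω^ (Fin a) Z z₀)) →ₗ[F2] H F2 (SS.Sing (Ω^ (Fin b) Z z₀))) : Prop where
  deg : ∀ t, ∀ y ∈ H.gr F2 (SS.Sing (Ω^ (Fin a) Z z₀)) t,
    sg y ∈ H.gr F2 (SS.Sing (Ω^ (Fin b) Z z₀)) (t + 1)
  prim : letI := (hmonA hM hb : HMon (SS.Sing (Ω^ (Fin b) Z z₀))).ring EE
    letI := (hmonA hM hb : HMon (SS.Sing (Ω^ (Fin b) Z z₀))).alg EE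
    ∀ y : H F2 (SS.Sing (Ω^ (Fin a) Z z₀)),
    (hmonA hM hb : HMon (SS.Sing (Ω^ (Fin b) Z z₀))).copA EE (sg y) =
      sg y ⊗ₜ[F2] 1 + 1 ⊗ₜ[F2] sg y
  mul : letI := (hmonA hM ha : HMon (SS.Sing (Ω^ (Fin a) Z z₀))).ring EE
    letI := (hmonA hM ha : HMon (SS.Sing (Ω^ (Fin a) Z z₀))).alg EE
    ∀ y z : H F2 (SS.Sing (Ω^ (Fin a) Z z₀)), sg (y * z) =
      (hmonA hM ha : HMon (SS.Sing (Ω^ (Fin a) Z z₀))).epsA EE y • sg z +
        (hmonA hM ha : HMon (SS.Sing (Ω^ (Fin a) Z z₀))).epsA EE z • sg y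
  sq : ∀ (i : ℕ) (y : H F2 (SS.Sing (Ω^ (Fin a) Z z₀))),
    sg (Sq252.Sq _ i y) = Sq252.Sq _ i (sg y)
  t : ∀ i ≤ D + 1, ∀ y : H F2 (SS.Sing (Ω^ (Fin a) Z z₀)),
    sg (Ops265.T (thA ha) i y) = Ops265.T (thA hb) i (sg y)
  q : ∀ i, i + 1 ≤ D + 1 → ∀ y : H F2 (SS.Sing (Ω^ (Fin a) Z z₀)),
    sg (Ops265.Q (thA ha) (i + 1) y) = Ops265.Q (thA hb) i (sg y)

theorem stepSig_succ {D : ℕ} (hM : 1 ≤ M) (ha : M + 1 ≤ b + 1) (hb : M + 1 ≤ b)
    (hS : SigSq) (hD : D + 2 ≤ M) :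
    StepSig (Z := Z) (z₀ := z₀) D hM ha hb (genLoop (Z := Z) (z₀ := z₀) b).sigma where
  deg t y hy := sigH_mem_gr (genLoop (Z := Z) (z₀ := z₀) b) hy
  prim y := cop_sigH (genLoop (Z := Z) (z₀ := z₀) b) ezd y
  mul y z := by
    haveI : Nontrivial (Fin (b + 1)) := Fin.nontrivial_iff_two_le.2 (two_le hM ha)
    exact sigH_mulS HtpInv334.homotopyInv ezd (Hsp696.halves (i0 ha)) y z
  sq i y := hS _ _ _ _ (ends (genLoop (Z := Z) (z₀ := z₀) b)) i y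
  t i _ y := SigQ265.sigH_T (emb hb) (mu0 hb) (mu0 ha) i y
  q i hi y := SigQ265.sigH_Q (emb hb) (mu0 hb) (mu0 ha) (by omega) y

theorem stepSig {D : ℕ} (h : a = b + 1) (hM : 1 ≤ M) (ha : M + 1 ≤ a) (hb : M + 1 ≤ b)
    (hS : SigSq) (hD : D + 2 ≤ M) :
    StepSig (Z := Z) (z₀ := z₀) D hM ha hb (loopC (Z := Z) (z₀ := z₀) h).sigma := by
  subst h
  exact stepSig_succ hM ha hb hS hD

end step

/-- **FactSigma** -/
theorem factSigma_of (p : Par) (hS : SigSq) {D : ℕ} (hD : D + 2 ≤ p.M) (hK : D + 2 ≤ p.K) :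
    p.tower.FactSigma D := by
  intro k hk
  have hlt : k < p.K := by omega
  have hs : StepSig (Z := Freu297.Sph (p.J0 + p.K)) (z₀ := Freu297.pt (p.J0 + p.K)) D p.hM
      (p.hc k) (p.hc (k + 1)) (p.sig k) := by
    rw [show p.sig k = (loopX p.J0 hlt).sigma from dif_pos hlt]
    exact stepSig (cd_succ hlt) p.hM (p.hc k) (p.hc (k + 1)) hS hD
  exact ⟨hs.deg, hs.prim, hs.mul, hs.sq, hs.t, hs.q, rfl⟩

end Crest.Agent.R204.FSig88
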