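import Crest.Agent.R204.StageOm_114

/-!
# Row 204, FactX (helper76): `FactX` from `FactSq`, `FactSigma` and vertex facts; vertex facts of the
stages of 114.
-/

set_option autoImplicit false

noncomputable section

namespace Crest.Agent.R204.FXT76

open Spec114 Stage114 TensorProduct Hopf450 Coalg847 EZ847 ThAlg265 SS Cubes735
open scoped TensorProduct

/-- `FactX` from the vertex facts at `k = 0` -/
theorem factX_of (X : Tower) (D : ℕ) (hSq : X.FactSq D) (hσ : X.FactSigma D)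
    (h0 : X.x 0 ∈ X.gr 0 0) (hΔ : X.Δ 0 (X.x 0) = X.x 0 ⊗ₜ[F2] X.x 0) (hi : X.xinv ∈ X.gr 0 0)
    (hΔi : X.Δ 0 X.xinv = X.xinv ⊗ₜ[F2] X.xinv) (hmul : X.x 0 * X.xinv = 1) : X.FactX D := by
  refine ⟨?_, ?_, hΔ, hi, hΔi, hmul⟩
  · intro k hk
    induction k with
    | zero =>
      refine ⟨h0, fun a ha => ?_⟩
      exact (hSq 0 hk).2.2.1 a 0 _ h0 (by omega)
    | succ k ih =>
      obtain ⟨h1, h2⟩ := ih (by omega)
      have hs := hσ k (by omega)
      rw [← hs.2.2.2.2.2.2]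
      refine ⟨hs.1 k _ h1, fun a ha => ?_⟩
      rw [← hs.2.2.2.1, h2 a ha, map_zero]
  · intro k hk1 hk
    obtain ⟨k, rfl⟩ : ∃ m, k = m + 1 := ⟨k - 1, by omega⟩
    have hs := hσ k (by omega)
    rw [← hs.2.2.2.2.2.2]
    exact hs.2.1 _

section stage

variable {M : ℕ} {K : SS} (A : ThAlg M K) (P : HMon K)
  (Sq : ℕ → (Crest.Agent.R204.H F2 K →ₗ[F2] Crest.Agent.R204.H F2 K))

theorem stage_vtx_gr (v : K.S 0) : (vtx v : (stage A P Sq).H) ∈ (stage A P Sq).gr 0 := vtx_mem_gr v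

theorem stage_vtx_Δ (v : K.S 0) : (stage A P Sq).Δ (vtx v : (stage A P Sq).H) =
    (vtx v : (stage A P Sq).H) ⊗ₜ[F2] (vtx v : (stage A P Sq).H) := ezd.cop_vtx v

end stage

section om

variable {J Z : Type} [Finite J] [Nontrivial J] [DecidableEq J] [TopologicalSpace Z] {z₀ : Z} {M : ℕ}

theorem stOm_vtx_inv (k : Fin (M + 1) ↪ J) (c : BoxConf (Fin 2) J) (S : SqAll) (i : J)
    (v : (Sing (HspSS696.Om J Z z₀)).S 0) :
    (show (stOm Z z₀ k c S).H from vtx v) *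
      (show (stOm Z z₀ k c S).H from vtx ((HspSS696.invS i).app 0 v)) = 1 :=
  omMon_vtx_inv ezd i c v

end om

end Crest.Agent.R204.FXT76
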