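import Crest.Agent.R204.InstSp_194
import Crest.Agent.R204.AdjC_330
import Crest.Agent.R204.SphSS_478
import Crest.Agent.R204.HDegA_160
import Crest.Agent.R204.EZHtp_271
import Crest.Agent.R204.HZ_76
import Crest.Agent.R204.CompOm_696

/-!
# Row 204, FactX (helper76): the fundamental classes `x_k`

* `desc` : a spherical simplex `x` of `Y` is `σ` of a spherical simplex of the loop space (exactly);
* `sigma_vcl_mul` : `σ [g h] = σ [g] + σ [h]` on vertex classes;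
* `sph_class` : every spherical class of dimension `k` in `H_k(X_k)` is a multiple of `x_k`.
-/

set_option autoImplicit false

noncomputable section

namespace Crest.Agent.R204.FX76

open scoped Topology unitInterval Topology.Homotopy
open Crest.Agent.R204 Crest.Agent.R204.Cone330 Crest.Agent.R204.Sus330 Crest.Agent.R204.SphSS478

section loop

variable {P Y : Type} [TopologicalSpace P] [TopologicalSpace Y] {g0 : P} {y0 : Y}
variable (Λ : LoopStr P Y g0 y0)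

/-- piecewise linear adjoint downwards -/
theorem desc {q : ℕ} (x : (SS.Sing Y).S (q + 1)) (hx : IsSph (K := SS.Sing Y) (LoopStr.cY y0 0) x) :
    ∃ a : (SS.Sing P).S q, IsSph (K := SS.Sing P) (LoopStr.cY g0 0) a ∧
      ∀ (R : Type) [CommRing R], Λ.sig R (N.sx R a) = N.sx R x := by
  have hx' := (isSph_iff y0 x).1 hx
  let F : C(I × Dl q, Y) := ⟨fun p => sg x (qP p), (sg x).continuous.comp continuous_qP⟩
  have hF0 : ∀ t, F (0, t) = y0 := by
    intro u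
    show sg x (qP (0, u)) = y0
    rw [← qB_left]
    exact hx' _ (qB_zero_mem u)
  have hF1 : ∀ t, F (1, t) = y0 := by
    intro u
    show sg x (qP (1, u)) = y0
    rw [← qB_right]
    exact hx' _ (qB_one_mem u)
  obtain ⟨G, hG⟩ := Λ.curry F hF0 hF1
  let a : C(Dl q, P) := G
  refine ⟨a, (isSph_iff g0 _).2 ?_, fun R _ => Λ.sig_adj R a x (fun s u => hG s u)⟩
  intro u hu
  refine Λ.inj _ _ fun s => ?_
  refine (hG s u).trans ?_
  rw [Λ.ev_base]
  have := mix_mem 1 s hu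
  rw [mix_one] at this
  exact hx' _ this

theorem sigma_scl {q : ℕ} {x : (SS.Sing Y).S (q + 2)} {a : (SS.Sing P).S (q + 1)}
    (hx : IsSph (K := SS.Sing Y) (LoopStr.cY y0 0) x) (ha : IsSph (K := SS.Sing P) (LoopStr.cY g0 0) a)
    (h : Λ.sig F2 (N.sx F2 a) = N.sx F2 x) : Λ.sigma (scl a ha) = scl x hx := by
  unfold scl
  rw [LoopStr.sigma_mk]
  exact Hd.mk_eq_mk.2 ⟨0, by rw [map_zero, h, sub_self]⟩

theorem sigma_vcl {x : (SS.Sing Y).S 1} {a : (SS.Sing P).S 0}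
    (hx : IsSph (K := SS.Sing Y) (LoopStr.cY y0 0) x)
    (h : Λ.sig F2 (N.sx F2 a) = N.sx F2 x) : Λ.sigma (vcl a) = scl x hx := by
  unfold scl vcl
  rw [LoopStr.sigma_mk]
  exact Hd.mk_eq_mk.2 ⟨0, by rw [map_zero, h, sub_self]⟩

/-- the constant simplex -/
abbrev cP (g : P) (q : ℕ) : (SS.Sing P).S q := ContinuousMap.const _ g

theorem sig_vertex (R : Type) [CommRing R] (g : P) : Λ.sig R (N.sx R (K := SS.Sing P) (cP g 0)) =
    N.sx R (Λ.evH.app 1 ((OrderHom.id : Op 1 1), cP g 1)) := by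
  rw [LoopStr.sig_apply, HtpInv334.cross_vertex, N.map_sx, N.map_sx]
  rfl

theorem bd_sH_const (R : Type) [CommRing R] (g h : P) :
    N.bd R _ (N.sx R (Λ.sH.app 2 ((OrderHom.id : Op 2 2), (cP g 2, cP h 2)))) =
      Λ.sig R (N.sx R (cP h 0)) - Λ.sig R (N.sx R (cP (Λ.mul (g, h)) 0)) +
        Λ.sig R (N.sx R (cP g 0)) := by
  rw [EZ271.bd_sx_succ, Fin.sum_univ_three, sig_vertex, sig_vertex, sig_vertex]
  have e : ∀ i : Fin 3, (SS.Sing Y).act (Op.face i) (Λ.sH.app 2 ((OrderHom.id : Op 2 2), (cP g 2, cP h 2))) =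
      Λ.sH.app 1 ((stdMap (Op.face i)).app 1 (OrderHom.id : Op 1 1), (cP g 1, cP h 1)) := by
    intro i
    exact (Λ.sH.nat (Op.face i) _).symm
  rw [e, e, e, Λ.sH_face_zero, Λ.sH_face_one, Λ.sH_face_two]
  have e2 : Λ.muH.app 1 (cP g 1, cP h 1) = cP (Λ.mul (g, h)) 1 := rfl
  rw [e2]
  simp only [Fin.val_zero, pow_zero, one_smul, Fin.val_one, pow_one, neg_smul, Fin.val_two,
    even_two, Even.neg_pow, one_pow]
  abel

theorem sigma_vcl_mul (g h : P) :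
    Λ.sigma (vcl (K := SS.Sing P) (cP (Λ.mul (g, h)) 0)) =
      Λ.sigma (vcl (K := SS.Sing P) (cP g 0)) + Λ.sigma (vcl (K := SS.Sing P) (cP h 0)) := by
  unfold vcl
  rw [LoopStr.sigma_mk, LoopStr.sigma_mk, LoopStr.sigma_mk]
  rw [eq_comm, ← sub_eq_zero]
  change Hd.mk _ (Λ.sig F2 (N.sx F2 (cP g 0)) + Λ.sig F2 (N.sx F2 (cP h 0)) -
    Λ.sig F2 (N.sx F2 (cP (Λ.mul (g, h)) 0))) _ = 0
  refine Hd.mk_eq_zero.2 ⟨_, (bd_sH_const Λ F2 g h).trans ?_⟩
  abel

end loop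

/-! ## vertex classes -/

section vertex

variable {P : Type} [TopologicalSpace P]

theorem vcl_joined {g h : P} (hj : Joined g h) :
    vcl (K := SS.Sing P) (cP g 0) = vcl (K := SS.Sing P) (cP h 0) := by
  obtain ⟨γ⟩ := hj
  unfold vcl
  refine (Hd.mk_eq_mk.2 ⟨N.sx F2 (HZ76.pathS γ), ?_⟩).symm
  exact HZ76.bd_pathS F2 γ

theorem vcl_mem_gr {K : SS} (v : K.S 0) : vcl v ∈ H.gr F2 K 0 :=
  ⟨⟨N.sx F2 v, _⟩, ⟨_, Submodule.subset_span ⟨v, rfl⟩, rfl⟩, rfl⟩

end vertex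

section genLoop

variable {Z : Type} [TopologicalSpace Z] {z₀ : Z}

theorem transAt_last {b : ℕ} (f g : Ω^ (Fin (b + 1)) Z z₀) :
    GenLoop.transAt (Fin.last b) f g = (genLoop b).mul (f, g) := by
  refine (genLoop b).inj _ _ fun s => ?_
  rw [LoopStr.ev_mul]
  refine GenLoop.ext _ _ fun c => ?_
  show Cubes735.ev s (GenLoop.transAt (Fin.last b) f g) c =
    (if (s : ℝ) ≤ 1 / 2 then Cubes735.ev (dblL s) f else Cubes735.ev (dblR s) g : Ω^ (Fin b) Z z₀) c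
  rw [Cubes735.ev_apply]
  show (if ((Fin.snoc (α := fun _ => I) c s (Fin.last b) : I) : ℝ) ≤ 1 / 2 then
      f (Function.update (Fin.snoc (α := fun _ => I) c s) (Fin.last b) (Set.projIcc 0 1 zero_le_one
        (2 * ((Fin.snoc (α := fun _ => I) c s (Fin.last b) : I) : ℝ)))) else
      g (Function.update (Fin.snoc (α := fun _ => I) c s) (Fin.last b) (Set.projIcc 0 1 zero_le_one
        (2 * ((Fin.snoc (α := fun _ => I) c s (Fin.last b) : I) : ℝ) - 1)))) = _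
  rw [Fin.snoc_last, Fin.update_snoc_last, Fin.update_snoc_last]
  have hs0 := s.2.1
  have hs1 := s.2.2
  split_ifs with h
  · rw [Cubes735.ev_apply]
    congr 2
    refine Subtype.ext ?_
    show max 0 (min 1 (2 * (s : ℝ))) = min (2 * (s : ℝ)) 1
    rw [min_comm, max_eq_right (le_min (by linarith) zero_le_one)]
  · rw [Cubes735.ev_apply]
    congr 2
    refine Subtype.ext ?_
    show max 0 (min 1 (2 * (s : ℝ) - 1)) = max (2 * (s : ℝ) - 1) 0
    rw [min_eq_right (by linarith), max_comm]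

theorem zsmul_F2 {M : Type*} [AddCommGroup M] [Module F2 M] (D : ℤ) (x : M) :
    D • x = 0 ∨ D • x = x := by
  rcases Int.even_or_odd' D with ⟨c, rfl | rfl⟩
  · left
    rw [mul_comm, mul_smul, two_zsmul, SphSS478.add_self_F2, smul_zero]
  · right
    rw [add_smul, one_smul, mul_comm, mul_smul, two_zsmul, SphSS478.add_self_F2, smul_zero, zero_add]

theorem additive_F2 {A : Type*} [AddCommGroup A] [Module F2 A] {N : Type*} [DecidableEq N] [Nonempty N]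
    {Y : Type*} [TopologicalSpace Y] {y : Y} (i : N) (φ : Ω^ N Y y → A)
    (hinv : ∀ f g, GenLoop.Homotopic f g → φ f = φ g)
    (hadd : ∀ f g, φ (GenLoop.transAt i f g) = φ f + φ g)
    (ι g : Ω^ N Y y) (D : ℤ) (h : HDeg160.cls g = HDeg160.cls ι ^ D) :
    φ g = 0 ∨ φ g = φ ι := by
  rw [HDeg160.additive_degree i φ hinv hadd ι g D h]
  exact zsmul_F2 D _

theorem sigma_vcl_pow {a b : ℕ} [Nonempty (Fin a)] (h : a = b + 1) (ι g : Ω^ (Fin a) Z z₀) (D : ℤ)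
    (hD : HDeg160.cls g = HDeg160.cls ι ^ D) :
    (Inst194.loopC h).sigma (vcl (K := SS.Sing _) (cP g 0)) = 0 ∨
      (Inst194.loopC h).sigma (vcl (K := SS.Sing _) (cP g 0)) =
        (Inst194.loopC h).sigma (vcl (K := SS.Sing _) (cP ι 0)) := by
  subst h
  refine additive_F2 (Fin.last b)
    (fun g => (Inst194.loopC rfl).sigma (vcl (K := SS.Sing _) (cP g 0))) ?_ ?_ ι g D hD
  · intro f g hfg
    show (Inst194.loopC rfl).sigma _ = (Inst194.loopC rfl).sigma _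
    rw [vcl_joined (Comp696.joined_of_homotopic hfg)]
  · intro f g
    rw [transAt_last]
    exact sigma_vcl_mul (genLoop b) f g

end genLoop

/-! ## spherical classes -/

section sph

variable {P Y : Type} [TopologicalSpace P] [TopologicalSpace Y] {g0 : P} {y0 : Y}

theorem vertex_eq (a : (SS.Sing P).S 0) : ∃ g : P, a = cP g 0 := by
  refine ⟨sg a (stdSimplex.vertex 0), ?_⟩
  refine ContinuousMap.ext fun t => ?_
  have : t = stdSimplex.vertex 0 := Subsingleton.elim _ _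
  rw [this]; rfl

/-- `y` is the class of a spherical `k`-simplex (`k = 0` : of a vertex) -/
def SphCl (y0 : Y) : ℕ → H F2 (SS.Sing Y) → Prop
  | 0, y => ∃ g : Y, y = vcl (K := SS.Sing Y) (cP g 0)
  | k + 1, y => ∃ (a : (SS.Sing Y).S (k + 1)) (ha : IsSph (K := SS.Sing Y) (LoopStr.cY y0 0) a), y = scl a ha

theorem SphCl.mem_gr : ∀ {k : ℕ} {y : H F2 (SS.Sing Y)}, SphCl y0 k y → y ∈ H.gr F2 (SS.Sing Y) k
  | 0, _, ⟨_, h⟩ => h ▸ vcl_mem_gr _
  | _ + 1, _, ⟨_, _, h⟩ => h ▸ scl_mem_gr _ _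

variable (Λ : LoopStr P Y g0 y0)

theorem SphCl.exists_desc : ∀ {k : ℕ} {y : H F2 (SS.Sing Y)}, SphCl y0 (k + 1) y →
    ∃ z : H F2 (SS.Sing P), SphCl g0 k z ∧ Λ.sigma z = y
  | 0, _, ⟨x, hx, h⟩ => by
    obtain ⟨a, -, hσ⟩ := desc Λ x hx
    refine ⟨vcl a, ?_, ?_⟩
    · obtain ⟨g, rfl⟩ := vertex_eq a
      exact ⟨g, rfl⟩
    · rw [h]
      exact sigma_vcl Λ hx (hσ F2)
  | k + 1, _, ⟨x, hx, h⟩ => by
    obtain ⟨a, ha, hσ⟩ := desc Λ x hx
    refine ⟨scl a ha, ⟨a, ha, rfl⟩, ?_⟩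
    rw [h]
    exact sigma_scl Λ hx ha (hσ F2)

theorem SphCl.sigma : ∀ {k : ℕ} {z : H F2 (SS.Sing P)}, SphCl g0 k z →
    SphCl y0 (k + 1) (Λ.sigma z)
  | 0, _, ⟨g, h⟩ => by
    obtain ⟨x, a', hx, -, hσ, hw⟩ := Λ.exists_adj_chain (cP (P := P) g 0) isSph_zero
    refine ⟨x, hx, ?_⟩
    obtain ⟨w, -, hw⟩ := hw F2
    rw [← sigma_vcl Λ hx (hσ F2), h]
    congr 1
    unfold vcl
    exact (Hd.mk_eq_mk.2 ⟨w, hw⟩).symm
  | k + 1, _, ⟨a, ha, h⟩ => by
    obtain ⟨x, a', hx, ha', hσ, hw⟩ := Λ.exists_adj_chain a ha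
    refine ⟨x, hx, ?_⟩
    obtain ⟨w, -, hw⟩ := hw F2
    rw [← sigma_scl Λ hx ha' (hσ F2), h]
    congr 1
    unfold scl
    exact (Hd.mk_eq_mk.2 ⟨w, hw⟩).symm

theorem SphCl.map {f : C(P, Y)} (hf : f g0 = y0) : ∀ {k : ℕ} {z : H F2 (SS.Sing P)}, SphCl g0 k z →
    SphCl y0 k (H.map F2 (SS.SingMap f) z)
  | 0, _, ⟨g, h⟩ => ⟨f g, by rw [h, map_vcl]; rfl⟩
  | k + 1, _, ⟨a, ha, h⟩ => by
    have h0 : (SS.SingMap f).app 0 (LoopStr.cY g0 0) = LoopStr.cY y0 0 := by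
      refine ContinuousMap.ext fun t => ?_
      exact hf
    refine ⟨(SS.SingMap f).app (k + 1) a, h0 ▸ ha.map (SS.SingMap f), ?_⟩
    rw [h]
    exact map_scl (SS.SingMap f) h0 ha

end sph

/-! ## the concrete tower -/

section tower

open Inst194 Freu297

/-- `π_n(S^n)` is generated by `ι_n` -/
def Gen (n : ℕ) : Prop := ∀ [Nonempty (Fin n)] (g : Ω^ (Fin n) (Sph n) (pt n)),
  ∃ D : ℤ, HDeg160.cls g = HDeg160.cls (iotaL n) ^ D

variable (J0 K : ℕ)

/-- the fundamental classes -/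
def xk : (k : ℕ) → H F2 (XS J0 K k)
  | 0 => vcl (K := XS J0 K 0) (cP (P := XT J0 K 0) (iotaL (J0 + K)) 0)
  | k + 1 => if h : k < K then (loopX J0 h).sigma (xk k) else 0

theorem xk_zero : xk J0 K 0 = vcl (K := XS J0 K 0) (cP (P := XT J0 K 0) (iotaL (J0 + K)) 0) := rfl

theorem xk_succ {k : ℕ} (h : k < K) : xk J0 K (k + 1) = (loopX J0 h).sigma (xk J0 K k) := dif_pos h

/-- `x_k` is spherical, `k ≤ K` -/
theorem xk_sph : ∀ {k : ℕ}, k ≤ K → SphCl (GenLoop.const : XT J0 K k) k (xk J0 K k)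
  | 0, _ => ⟨_, rfl⟩
  | k + 1, h => by
    rw [xk_succ J0 K h]
    exact (xk_sph (by omega : k ≤ K)).sigma (loopX J0 h)

theorem gen_zero (hgen : Gen (J0 + K)) (g : XT J0 K 0) (hne : Nonempty (Fin (cd J0 K 0))) :
    ∃ D : ℤ, HDeg160.cls g = HDeg160.cls (iotaL (J0 + K) : XT J0 K 0) ^ D := @hgen hne g

theorem sigma_zero (h : 0 < K) (g : XT J0 K 0) [hne : Nonempty (Fin (cd J0 K 0))] (D : ℤ)
    (hD : HDeg160.cls g = HDeg160.cls (iotaL (J0 + K) : XT J0 K 0) ^ D) :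
    (loopX J0 h).sigma (vcl (K := SS.Sing _) (cP g 0)) = 0 ∨
      (loopX J0 h).sigma (vcl (K := SS.Sing _) (cP g 0)) = (loopX J0 h).sigma (xk J0 K 0) :=
  sigma_vcl_pow (cd_succ h) _ g D hD

/-- all spherical classes of dimension `k` of `X_k` are `0` or `x_k` -/
def AllSph (k : ℕ) : Prop := ∀ y : H F2 (XS J0 K k), SphCl (GenLoop.const : XT J0 K k) k y →
  y = 0 ∨ y = xk J0 K k

theorem allSph_one (h : 0 < K) (hgen : Gen (J0 + K)) : AllSph J0 K 1 := by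
  intro y hy
  obtain ⟨z, hz, hzy⟩ := hy.exists_desc (loopX J0 h)
  obtain ⟨g, hg⟩ := hz
  have hne : Nonempty (Fin (cd J0 K 0)) := ⟨⟨0, by simp only [cd]; omega⟩⟩
  obtain ⟨D, hD⟩ := gen_zero J0 K hgen g hne
  rw [← hzy, xk_succ J0 K h, hg]
  exact sigma_zero J0 K h g D hD

theorem exists_desc_X {k : ℕ} (h : k < K) (y : H F2 (XS J0 K (k + 1)))
    (hy : SphCl (GenLoop.const : XT J0 K (k + 1)) (k + 1) y) :
    ∃ z : H F2 (XS J0 K k), SphCl (GenLoop.const : XT J0 K k) k z ∧ (loopX J0 h).sigma z = y :=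
  SphCl.exists_desc (loopX J0 h) hy

theorem sigma_zero_or {k : ℕ} (h : k < K) (z : H F2 (XS J0 K k)) (hz : z = 0 ∨ z = xk J0 K k) :
    (loopX J0 h).sigma z = 0 ∨ (loopX J0 h).sigma z = xk J0 K (k + 1) := by
  rcases hz with hz | hz
  · left; rw [hz]; exact LinearMap.map_zero _
  · right; rw [hz, xk_succ J0 K h]

theorem AllSph.succ {k : ℕ} (h : k < K) (ih : AllSph J0 K k) : AllSph J0 K (k + 1) := by
  intro y hy
  obtain ⟨z, hz, hzy⟩ := exists_desc_X J0 K h y hy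
  have := sigma_zero_or J0 K h z (ih z hz)
  rw [hzy] at this
  exact this

/-- every spherical class of dimension `k` of `X_k`, `1 ≤ k ≤ K`, is `0` or `x_k` -/
theorem sph_class (hgen : Gen (J0 + K)) {k : ℕ} (h1 : 1 ≤ k) (h2 : k ≤ K) : AllSph J0 K k := by
  induction k, h1 using Nat.le_induction with
  | base => exact allSph_one J0 K h2 hgen
  | succ k hk ih => exact (ih (by omega)).succ J0 K (by omega)

end tower

end Crest.Agent.R204.FX76
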