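import Crest.Agent.R204.Psi_596

set_option autoImplicit false

/-!
# Row 204, leaf S3 / P6: the natural `Z/2 × Z/2`-family `ψ_{ij} : N K → (N K)^{⊗ 4}` and its symmetry.
-/

namespace Crest.Agent.R204.Adem596

open Finsupp TensorProduct
open Crest.Agent.R204.AM596
open Crest.Agent.R204.DK742 (gE alt AltSS)
open Crest.Agent.R204.SS (EG EGmap)

section four

variable {A B : Type*} [AddCommGroup A] [Module F2 A] [AddCommGroup B] [Module F2 B]

/-- fourth tensor power -/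
abbrev T4 (A : Type*) [AddCommGroup A] [Module F2 A] : Type _ := (A ⊗[F2] A) ⊗[F2] (A ⊗[F2] A)

/-- swap of the outer factors -/
noncomputable def t1 (A : Type*) [AddCommGroup A] [Module F2 A] : T4 A →ₗ[F2] T4 A :=
  (TensorProduct.comm F2 (A ⊗[F2] A) (A ⊗[F2] A)).toLinearMap

/-- swap of both inner pairs -/
noncomputable def t2 (A : Type*) [AddCommGroup A] [Module F2 A] : T4 A →ₗ[F2] T4 A :=
  TensorProduct.map (TensorProduct.comm F2 A A).toLinearMap (TensorProduct.comm F2 A A).toLinearMap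

/-- middle four interchange -/
noncomputable def sig (A : Type*) [AddCommGroup A] [Module F2 A] : T4 A →ₗ[F2] T4 A :=
  (TensorProduct.tensorTensorTensorComm F2 A A A A).toLinearMap

/-- fourth power of a map -/
noncomputable def map4 (f : A →ₗ[F2] B) : T4 A →ₗ[F2] T4 B :=
  TensorProduct.map (TensorProduct.map f f) (TensorProduct.map f f)

/-- differential -/
noncomputable def d4 (d : A →ₗ[F2] A) : T4 A →ₗ[F2] T4 A := CT.dT (CT.dT d d) (CT.dT d d)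

/-- functional -/
noncomputable def aug4 (u : A →ₗ[F2] F2) : T4 A →ₗ[F2] F2 := CT.augT (CT.augT u u) (CT.augT u u)

@[simp] theorem t1_tmul (a b c e : A) : t1 A ((a ⊗ₜ b) ⊗ₜ (c ⊗ₜ e)) = (c ⊗ₜ e) ⊗ₜ (a ⊗ₜ b) := rfl
@[simp] theorem t2_tmul (a b c e : A) : t2 A ((a ⊗ₜ b) ⊗ₜ (c ⊗ₜ e)) = (b ⊗ₜ a) ⊗ₜ (e ⊗ₜ c) := rfl
@[simp] theorem sig_tmul (a b c e : A) : sig A ((a ⊗ₜ b) ⊗ₜ (c ⊗ₜ e)) = (a ⊗ₜ c) ⊗ₜ (b ⊗ₜ e) := rfl
@[simp] theorem map4_tmul (f : A →ₗ[F2] B) (a b c e : A) :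
    map4 f ((a ⊗ₜ b) ⊗ₜ (c ⊗ₜ e)) = (f a ⊗ₜ f b) ⊗ₜ (f c ⊗ₜ f e) := rfl
@[simp] theorem d4_tmul (d : A →ₗ[F2] A) (a b c e : A) :
    d4 d ((a ⊗ₜ b) ⊗ₜ (c ⊗ₜ e)) = (d a ⊗ₜ b + a ⊗ₜ d b) ⊗ₜ (c ⊗ₜ e) +
      (a ⊗ₜ b) ⊗ₜ (d c ⊗ₜ e + c ⊗ₜ d e) := by
  rw [d4, CT.dT_tmul, CT.dT_tmul, CT.dT_tmul]
@[simp] theorem aug4_tmul (u : A →ₗ[F2] F2) (a b c e : A) :
    aug4 u ((a ⊗ₜ b) ⊗ₜ (c ⊗ₜ e)) = (u a * u b) * (u c * u e) := by
  rw [aug4, CT.augT_tmul, CT.augT_tmul, CT.augT_tmul]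

theorem T4_ext {M : Type*} [AddCommGroup M] [Module F2 M] {f g : T4 A →ₗ[F2] M}
    (h : ∀ a b c e : A, f ((a ⊗ₜ b) ⊗ₜ (c ⊗ₜ e)) = g ((a ⊗ₜ b) ⊗ₜ (c ⊗ₜ e))) (x : T4 A) :
    f x = g x := by
  refine CT.tens_ext (fun p q => ?_) x
  induction p using TensorProduct.induction_on with
  | zero => simp
  | tmul a b =>
    induction q using TensorProduct.induction_on with
    | zero => simp
    | tmul c e => exact h a b c e
    | add p q hp hq => rw [tmul_add, map_add, map_add, hp, hq]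
  | add p q hp hq => rw [add_tmul, map_add, map_add, hp, hq]

theorem t1_t1 (x : T4 A) : t1 A (t1 A x) = x :=
  T4_ext (f := t1 A ∘ₗ t1 A) (g := LinearMap.id) (fun a b c e => by simp) x
theorem t2_t2 (x : T4 A) : t2 A (t2 A x) = x :=
  T4_ext (f := t2 A ∘ₗ t2 A) (g := LinearMap.id) (fun a b c e => by simp) x
theorem t1_t2 (x : T4 A) : t1 A (t2 A x) = t2 A (t1 A x) :=
  T4_ext (f := t1 A ∘ₗ t2 A) (g := t2 A ∘ₗ t1 A) (fun a b c e => by simp) x
theorem sig_t1 (x : T4 A) : sig A (t1 A x) = t2 A (sig A x) :=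
  T4_ext (f := sig A ∘ₗ t1 A) (g := t2 A ∘ₗ sig A) (fun a b c e => by simp) x
theorem sig_t2 (x : T4 A) : sig A (t2 A x) = t1 A (sig A x) :=
  T4_ext (f := sig A ∘ₗ t2 A) (g := t1 A ∘ₗ sig A) (fun a b c e => by simp) x
theorem map4_t1 (f : A →ₗ[F2] B) (x : T4 A) : map4 f (t1 A x) = t1 B (map4 f x) :=
  T4_ext (f := map4 f ∘ₗ t1 A) (g := t1 B ∘ₗ map4 f) (fun a b c e => by simp) x
theorem map4_t2 (f : A →ₗ[F2] B) (x : T4 A) : map4 f (t2 A x) = t2 B (map4 f x) :=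
  T4_ext (f := map4 f ∘ₗ t2 A) (g := t2 B ∘ₗ map4 f) (fun a b c e => by simp) x
theorem map4_sig (f : A →ₗ[F2] B) (x : T4 A) : map4 f (sig A x) = sig B (map4 f x) :=
  T4_ext (f := map4 f ∘ₗ sig A) (g := sig B ∘ₗ map4 f) (fun a b c e => by simp) x
theorem d4_t1 (d : A →ₗ[F2] A) (x : T4 A) : d4 d (t1 A x) = t1 A (d4 d x) :=
  T4_ext (f := d4 d ∘ₗ t1 A) (g := t1 A ∘ₗ d4 d) (fun a b c e => by
    simp [tmul_add, add_tmul]; abel) x
theorem d4_t2 (d : A →ₗ[F2] A) (x : T4 A) : d4 d (t2 A x) = t2 A (d4 d x) :=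
  T4_ext (f := d4 d ∘ₗ t2 A) (g := t2 A ∘ₗ d4 d) (fun a b c e => by
    simp [tmul_add, add_tmul]; abel) x
theorem d4_sig (d : A →ₗ[F2] A) (x : T4 A) : d4 d (sig A x) = sig A (d4 d x) :=
  T4_ext (f := d4 d ∘ₗ sig A) (g := sig A ∘ₗ d4 d) (fun a b c e => by
    simp [tmul_add, add_tmul]; abel) x
theorem aug4_t1 (u : A →ₗ[F2] F2) (x : T4 A) : aug4 u (t1 A x) = aug4 u x :=
  T4_ext (f := aug4 u ∘ₗ t1 A) (g := aug4 u) (fun a b c e => by simp; ring) x
theorem aug4_t2 (u : A →ₗ[F2] F2) (x : T4 A) : aug4 u (t2 A x) = aug4 u x :=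
  T4_ext (f := aug4 u ∘ₗ t2 A) (g := aug4 u) (fun a b c e => by simp; ring) x
theorem aug4_sig (u : A →ₗ[F2] F2) (x : T4 A) : aug4 u (sig A x) = aug4 u x :=
  T4_ext (f := aug4 u ∘ₗ sig A) (g := aug4 u) (fun a b c e => by simp; ring) x
theorem aug4_map4 (u : B →ₗ[F2] F2) (f : A →ₗ[F2] B) (x : T4 A) :
    aug4 u (map4 f x) = aug4 (u ∘ₗ f) x :=
  T4_ext (f := aug4 u ∘ₗ map4 f) (g := aug4 (u ∘ₗ f)) (fun a b c e => by simp) x
theorem aug4_d4 (u : A →ₗ[F2] F2) (d : A →ₗ[F2] A) (h : ∀ x, u (d x) = 0) (x : T4 A) :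
    aug4 u (d4 d x) = 0 :=
  T4_ext (f := aug4 u ∘ₗ d4 d) (g := 0) (fun a b c e => by simp [tmul_add, add_tmul, h]) x

theorem d4_map4 (f : A →ₗ[F2] B) (d : A →ₗ[F2] A) (d' : B →ₗ[F2] B) (h : ∀ x, f (d x) = d' (f x))
    (x : T4 A) : d4 d' (map4 f x) = map4 f (d4 d x) :=
  T4_ext (f := d4 d' ∘ₗ map4 f) (g := map4 f ∘ₗ d4 d) (fun a b c e => by
    simp [tmul_add, add_tmul, h]) x

end four

variable (D : PhiData)

theorem PhiData.d (K : SS) (i : ℕ) (x : N F2 K) : CT.dT (N.bd F2 K) (N.bd F2 K) (D.Phi K i x) =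
    D.Phi K i (N.bd F2 K x) +
      low (TensorProduct.comm F2 (N F2 K) (N F2 K)).toLinearMap (fun i => D.Phi K i x) i := by
  rcases i with _ | i
  · rw [D.d_zero, low, add_zero]
  · rw [D.d_succ, low]; rfl

/-- `ψ_{ij}(x) = (θ ⊗ θ)(Φ_i(e_j × x))` -/
noncomputable def psi (K : SS) (i j : ℕ) : N F2 K →ₗ[F2] T4 (N F2 K) :=
  TensorProduct.map (th D K) (th D K) ∘ₗ D.Phi ((EG (ZMod 2)).prod K) i ∘ₗ
    EZ271.cross F2 (ee j 0)

theorem psi_apply (K : SS) (i j : ℕ) (x : N F2 K) : psi D K i j x =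
    TensorProduct.map (th D K) (th D K) (D.Phi ((EG (ZMod 2)).prod K) i
      (EZ271.cross F2 (ee j 0) x)) := rfl

theorem map_map_tens {A B C : Type*} [AddCommGroup A] [Module F2 A] [AddCommGroup B] [Module F2 B]
    [AddCommGroup C] [Module F2 C] (f : A →ₗ[F2] B) (g : B →ₗ[F2] C) (x : A ⊗[F2] A) :
    TensorProduct.map g g (TensorProduct.map f f x) = TensorProduct.map (g ∘ₗ f) (g ∘ₗ f) x :=
  CT.tens_ext (f := TensorProduct.map g g ∘ₗ TensorProduct.map f f)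
    (g := TensorProduct.map (g ∘ₗ f) (g ∘ₗ f)) (fun a b => by simp) x

theorem psi_nat {K L : SS} (f : SS.Hom K L) (i j : ℕ) (x : N F2 K) :
    map4 (N.map F2 f) (psi D K i j x) = psi D L i j (N.map F2 f x) := by
  rw [psi_apply, psi_apply, map4, map_map_tens]
  have e1 : TensorProduct.map (N.map F2 f) (N.map F2 f) ∘ₗ th D K =
      th D L ∘ₗ N.map F2 (SS.prodMap (SS.Hom.id (EG (ZMod 2))) f) :=
    LinearMap.ext fun z => th_nat D f z
  have e2 : EZ271.cross F2 (ee j 0) (N.map F2 f x) =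
      N.map F2 (SS.prodMap (SS.Hom.id (EG (ZMod 2))) f) (EZ271.cross F2 (ee j 0) x) := by
    rw [EZ271.map_cross, EZ271.map_idHom]
  rw [e1, ← map_map_tens, D.nat, e2]

theorem bd_cross_ee (K : SS) (j : ℕ) (x : N F2 K) :
    N.bd F2 _ (EZ271.cross F2 (ee j 0) x) = EZ271.cross F2 (ee j 0) (N.bd F2 K x) +
      low (N.map F2 (gK K)) (fun j => EZ271.cross F2 (ee j 0) x) j := by
  rw [EZ271.bd_cross, sg_F2, LinearMap.id_apply, add_comm]
  congr 1
  rcases j with _ | j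
  · rw [bd_ee_zero, map_zero, LinearMap.zero_apply, low]
  · have h1 : ee j (0 + 1) = N.map F2 gE.g (ee j 0) := (g_ee j 0).symm
    rw [bd_ee_succ, map_add, LinearMap.add_apply, low, h1, gK, EZ271.map_cross, EZ271.map_idHom]
    exact add_comm _ _

theorem map_low {M M' : Type*} [AddCommGroup M] [Module F2 M] [AddCommGroup M'] [Module F2 M']
    (f : M →ₗ[F2] M') (t : M →ₗ[F2] M) (t' : M' →ₗ[F2] M') (h : ∀ x, f (t x) = t' (f x))
    (v : ℕ → M) (i : ℕ) : f (low t v i) = low t' (fun i => f (v i)) i := by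
  rcases i with _ | i
  · simp [low]
  · simp [low, h]

theorem psi_d (K : SS) (i j : ℕ) (x : N F2 K) : d4 (N.bd F2 K) (psi D K i j x) =
    psi D K i j (N.bd F2 K x) + (low (t1 (N F2 K)) (fun i => psi D K i j x) i +
      low (t2 (N F2 K)) (fun j => psi D K i j x) j) := by
  have e1 : d4 (N.bd F2 K) (psi D K i j x) = TensorProduct.map (th D K) (th D K)
      (CT.dT (N.bd F2 _) (N.bd F2 _) (D.Phi ((EG (ZMod 2)).prod K) i
        (EZ271.cross F2 (ee j 0) x))) := by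
    rw [psi_apply]
    refine CT.tens_ext (f := d4 (N.bd F2 K) ∘ₗ TensorProduct.map (th D K) (th D K))
      (g := TensorProduct.map (th D K) (th D K) ∘ₗ CT.dT (N.bd F2 _) (N.bd F2 _))
      (fun a b => ?_) _
    simp only [LinearMap.comp_apply, TensorProduct.map_tmul, d4, CT.dT_tmul, map_add, th_bd]
  have hlow2 : D.Phi ((EG (ZMod 2)).prod K) i
      (low (N.map F2 (gK K)) (fun j => EZ271.cross F2 (ee j 0) x) j) =
      low (TensorProduct.map (N.map F2 (gK K)) (N.map F2 (gK K)))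
        (fun j => D.Phi ((EG (ZMod 2)).prod K) i (EZ271.cross F2 (ee j 0) x)) j :=
    map_low _ _ _ (fun z => (D.nat (gK K) i z).symm) _ j
  have h3 : TensorProduct.map (th D K) (th D K)
      (low (TensorProduct.comm F2 _ _).toLinearMap
        (fun i => D.Phi ((EG (ZMod 2)).prod K) i (EZ271.cross F2 (ee j 0) x)) i) =
      low (t1 (N F2 K)) (fun i => psi D K i j x) i :=
    map_low _ _ _ (fun z => (comm_map _ _).symm) _ i
  have h4 : TensorProduct.map (th D K) (th D K)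
      (low (TensorProduct.map (N.map F2 (gK K)) (N.map F2 (gK K)))
        (fun j => D.Phi ((EG (ZMod 2)).prod K) i (EZ271.cross F2 (ee j 0) x)) j) =
      low (t2 (N F2 K)) (fun j => psi D K i j x) j := by
    refine map_low (M := N F2 ((EG (ZMod 2)).prod K) ⊗[F2] N F2 ((EG (ZMod 2)).prod K))
      (M' := T4 (N F2 K)) _ _ (t2 (N F2 K)) (fun z => ?_) _ j
    rw [map_map_tens, t2, map_map_tens]
    have : th D K ∘ₗ N.map F2 (gK K) =
        (TensorProduct.comm F2 (N F2 K) (N F2 K)).toLinearMap ∘ₗ th D K :=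
      LinearMap.ext fun z => th_g D K z
    rw [this]
  rw [e1, D.d, bd_cross_ee, map_add, map_add, map_add, hlow2, h3, h4, add_assoc]
  exact congrArg _ (add_comm _ _)

theorem psi_aug (K : SS) (i j : ℕ) (x : N F2 K) :
    aug4 (EZ271.aug F2) (psi D K i j x) = if i = 0 ∧ j = 0 then EZ271.aug F2 x else 0 := by
  have e1 : aug4 (EZ271.aug F2) (psi D K i j x) = CT.augT (EZ271.aug F2) (EZ271.aug F2)
      (D.Phi ((EG (ZMod 2)).prod K) i (EZ271.cross F2 (ee j 0) x)) := by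
    rw [psi_apply]
    refine CT.tens_ext (f := aug4 (EZ271.aug F2) ∘ₗ TensorProduct.map (th D K) (th D K))
      (g := CT.augT (EZ271.aug F2) (EZ271.aug F2)) (fun a b => ?_) _
    simp only [LinearMap.comp_apply, TensorProduct.map_tmul, aug4, CT.augT_tmul, th_aug]
  rw [e1]
  rcases i with _ | i
  · rw [D.aug_zero, EZ271.aug_cross]
    rcases j with _ | j
    · rw [aug_ee_zero, one_mul, if_pos ⟨rfl, rfl⟩]
    · rw [aug_ee_succ, zero_mul, if_neg (by simp)]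
  · rw [D.aug_succ, if_neg (by simp)]

/-! ## the two families -/

/-- the target -/
noncomputable abbrev C4 : CT := CT.tensor (CT.tensor CT.std CT.std) (CT.tensor CT.std CT.std)

/-- outer swap -/
noncomputable def inv1 : Inv C4 where
  t n := t1 (N F2 (SS.std n))
  t_t n x := t1_t1 x
  map_t f x := map4_t1 (N.map F2 (EZ271.stdMap f)) x
  d_t n x := d4_t1 (N.bd F2 (SS.std n)) x
  aug_t n x := aug4_t1 (EZ271.aug F2) x

/-- inner swaps -/
noncomputable def inv2 : Inv C4 where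
  t n := t2 (N F2 (SS.std n))
  t_t n x := t2_t2 x
  map_t f x := map4_t2 (N.map F2 (EZ271.stdMap f)) x
  d_t n x := d4_t2 (N.bd F2 (SS.std n)) x
  aug_t n x := aug4_t2 (EZ271.aug F2) x

/-- the cells of `Z/2 × Z/2` -/
noncomputable def X4 : Cells C4 (ℕ × ℕ) := cellsV inv1 inv2 (fun _ x => t1_t2 x)

/-- the family `ψ` -/
noncomputable def fam1 : NFam C4 X4 where
  Θ p n := psi D (SS.std n) p.1 p.2
  nat p _ _ f z := psi_nat D (EZ271.stdMap f) p.1 p.2 z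
  eq p n z := psi_d D (SS.std n) p.1 p.2 z

theorem sig_psi_d (K : SS) (i j : ℕ) (x : N F2 K) : d4 (N.bd F2 K) (sig _ (psi D K j i x)) =
    sig _ (psi D K j i (N.bd F2 K x)) + (low (t1 (N F2 K)) (fun i => sig _ (psi D K j i x)) i +
      low (t2 (N F2 K)) (fun j => sig _ (psi D K j i x)) j) := by
  rw [d4_sig, psi_d, map_add, map_add, map_low (sig _) (t1 _) (t2 _) sig_t1,
      map_low (sig _) (t2 _) (t1 _) sig_t2]
  exact congrArg _ (add_comm _ _)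

/-- the family `σ ψ^T` -/
noncomputable def fam2 : NFam C4 X4 where
  Θ p n := sig (N F2 (SS.std n)) ∘ₗ psi D (SS.std n) p.2 p.1
  nat p _ _ f z := by
    change map4 (N.map F2 (EZ271.stdMap f)) (sig _ (psi D _ p.2 p.1 z)) = _
    rw [map4_sig, psi_nat]; rfl
  eq p n z := sig_psi_d D (SS.std n) p.1 p.2 z

theorem r_act_aux {K : SS} (u : N F2 K →ₗ[F2] F2) {m n : ℕ} (α : Op m n) (x : K.S n)
    (y : T4 (N F2 (SS.std m))) : aug4 (u ∘ₗ N.map F2 (K.yo (K.act α x))) y =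
      aug4 (u ∘ₗ N.map F2 (K.yo x)) (map4 (N.map F2 (EZ271.stdMap α)) y) := by
  rw [aug4_map4, EZ271.yo_act]
  congr 2
  refine LinearMap.ext fun z => ?_
  simp only [LinearMap.comp_apply, EZ271.map_map]

theorem r_d_aux {K : SS} (u : N F2 K →ₗ[F2] F2) (hu : ∀ x, u (N.bd F2 K x) = 0) {n : ℕ}
    (x : K.S n) (y : T4 (N F2 (SS.std n))) :
    aug4 (u ∘ₗ N.map F2 (K.yo x)) (d4 (N.bd F2 (SS.std n)) y) = 0 := by
  refine aug4_d4 _ (N.bd F2 _) (fun z => ?_) y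
  rw [LinearMap.comp_apply, EZ271.map_bd', hu]

theorem r_L_aux {K : SS} (u : N F2 K →ₗ[F2] F2) {n : ℕ} (x : K.S n)
    (h : ℕ × ℕ → T4 (N F2 (SS.std n))) (i j : ℕ) :
    aug4 (u ∘ₗ N.map F2 (K.yo x)) (low (t1 _) (fun i => h (i, j)) i +
      low (t2 _) (fun j => h (i, j)) j) = 0 := by
  have h1 : ∀ (k i : ℕ), aug4 (u ∘ₗ N.map F2 (K.yo x)) (low (t1 _) (fun i => h (i, k)) i) = 0 := by
    intro k i
    rcases i with _ | i
    · simp [low]
    · rw [low, map_add, aug4_t1, add_self]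
  have h2 : ∀ (k j : ℕ), aug4 (u ∘ₗ N.map F2 (K.yo x)) (low (t2 _) (fun j => h (k, j)) j) = 0 := by
    intro k j
    rcases j with _ | j
    · simp [low]
    · rw [low, map_add, aug4_t2, add_self]
  rw [map_add, h1, h2, add_zero]

/-- the realisation by a cocycle `u` -/
noncomputable def real4 {K : SS} (u : N F2 K →ₗ[F2] F2) (hu : ∀ x, u (N.bd F2 K x) = 0) :
    Real C4 K F2 where
  d := 0
  r x := aug4 (u ∘ₗ N.map F2 (K.yo x))
  r_act α x y := r_act_aux u α x y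
  r_d x y := r_d_aux u hu x y

theorem aug4_psi_sx {K : SS} (u : N F2 K →ₗ[F2] F2) (i j : ℕ) {n : ℕ} (x : K.S n) :
    aug4 u (psi D K i j (N.sx F2 x)) = aug4 (u ∘ₗ N.map F2 (K.yo x))
      (psi D (SS.std n) i j (N.sx F2 (K := SS.std n) (OrderHom.id : Op n n))) := by
  rw [← aug4_map4, psi_nat, N.map_sx, EZ271.yo_iota]

/-- THE SYMMETRY -/
theorem aug4_psi_symm {K : SS} (u : N F2 K →ₗ[F2] F2) (hu : ∀ x, u (N.bd F2 K x) = 0)
    (i j : ℕ) (x : N F2 K) (hx : N.bd F2 K x = 0) :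
    aug4 u (psi D K i j x) = aug4 u (psi D K j i x) := by
  have key := (real4 u hu).uniq_lam (fam1 D).fam (fam2 D).fam (fun p n => by
      change aug4 (EZ271.aug F2) (psi D _ p.1 p.2 _) =
        aug4 (EZ271.aug F2) (sig _ (psi D _ p.2 p.1 _))
      rw [aug4_sig, psi_aug, psi_aug]
      simp only [and_comm])
    (fun p n x h => r_L_aux u x h p.1 p.2) rfl (i, j) x hx
  have e1 : (real4 u hu).out ((fam1 D).fam.v (i, j)) ((fam1 D).fam.dgn (i, j)) =
      aug4 u ∘ₗ psi D K i j := by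
    refine EZ271.hom_ext fun n x => ?_
    rw [Real.out_sx, LinearMap.comp_apply, aug4_psi_sx]
    rfl
  have e2 : (real4 u hu).out ((fam2 D).fam.v (i, j)) ((fam2 D).fam.dgn (i, j)) =
      aug4 u ∘ₗ psi D K j i := by
    refine EZ271.hom_ext fun n x => ?_
    rw [Real.out_sx, LinearMap.comp_apply, aug4_psi_sx]
    exact aug4_sig _ _
  rw [e1, e2] at key
  exact key

end Crest.Agent.R204.Adem596
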