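import Crest.Agent.R204.Spec_114
import Mathlib.RingTheory.MvPolynomial.WeightedHomogeneous
import Mathlib.Data.Finset.Finsupp
import Mathlib.Data.Set.Finite.List

/-!
# Row 204, block G (helper718): finiteness of the homology of the base component in a range, from
`FactPoly0`
-/

set_option autoImplicit false

namespace Crest.Agent.R204.FinBase718

open Spec114 Spec114.Tower

theorem length_le_wdeg (k : ℕ) : ∀ I : List ℕ, (∀ i ∈ I, 1 ≤ i) → I.length ≤ wdeg k I
  | [], _ => by simp [wdeg]
  | i :: I, h => by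
    have h1 := length_le_wdeg k I (fun j hj => h j (List.mem_cons_of_mem _ hj))
    have h2 := h i List.mem_cons_self
    simp only [wdeg, List.foldr_cons, List.length_cons] at h1 ⊢
    omega

theorem mem_le_wdeg (k : ℕ) : ∀ (I : List ℕ) (i : ℕ), i ∈ I → i ≤ wdeg k I
  | j :: I, i, h => by
    simp only [wdeg, List.foldr_cons]
    rcases List.mem_cons.1 h with rfl | h
    · omega
    · have h1 := mem_le_wdeg k I i h
      simp only [wdeg] at h1
      omega

theorem wd_finite (k t : ℕ) : {I : List ℕ | (∀ i ∈ I, 1 ≤ i) ∧ wdeg k I ≤ t}.Finite := by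
  refine Set.Finite.subset ((List.finite_length_le (Fin (t + 1)) t).image (List.map Fin.val)) ?_
  rintro I ⟨h1, h2⟩
  refine ⟨I.pmap (fun i (hi : i < t + 1) => (⟨i, hi⟩ : Fin (t + 1)))
    (fun i hi => by have := mem_le_wdeg k I i hi; omega), ?_, ?_⟩
  · show List.length _ ≤ t
    rw [List.length_pmap]
    exact (length_le_wdeg k I h1).trans h2
  · rw [List.map_pmap]
    simp

theorem wd0_pos (I : Wd0) : 0 < wdeg 0 I.1.1 := by
  have h1 := length_le_wdeg 0 I.1.1 I.1.2.2
  have h2 : I.1.1.length ≠ 0 := fun h => I.2 (List.length_eq_zero_iff.1 h)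
  omega

theorem wd0_finite (t : ℕ) : {I : Wd0 | wdeg 0 I.1.1 ≤ t}.Finite := by
  refine Set.Finite.of_finite_image (f := fun I : Wd0 => I.1.1) ?_ ?_
  · refine (wd_finite 0 t).subset ?_
    rintro _ ⟨I, hI, rfl⟩
    exact ⟨I.1.2.2, hI⟩
  · intro I _ J _ h
    exact Subtype.ext (Subtype.ext h)

theorem finite_wh {σ R : Type} [CommRing R] (w : σ → ℕ) (hpos : ∀ i, 0 < w i) (t : ℕ)
    (hfin : {i | w i ≤ t}.Finite) :
    Module.Finite R (MvPolynomial.weightedHomogeneousSubmodule R w t) := by
  classical
  have hS : ({d : σ →₀ ℕ | Finsupp.weight w d = t} : Set (σ →₀ ℕ)).Finite := by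
    refine Set.Finite.subset (Finset.finite_toSet
      (Finset.finsupp hfin.toFinset (fun _ => Finset.range (t + 1)))) ?_
    intro d hd
    have hd' : Finsupp.weight w d = t := hd
    have hle : ∀ i ∈ d.support, d i * w i ≤ t := by
      intro i hi
      rw [Finsupp.weight_apply, Finsupp.sum] at hd'
      rw [← hd']
      exact Finset.single_le_sum (f := fun i => d i • w i) (fun _ _ => Nat.zero_le _) hi
    rw [Finset.mem_coe, Finset.mem_finsupp_iff]
    refine ⟨?_, ?_⟩
    · intro i hi
      rw [Set.Finite.mem_toFinset]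
      have h1 := hle i hi
      have h2 : 0 < d i := Nat.pos_of_ne_zero (Finsupp.mem_support_iff.1 hi)
      have h3 : w i ≤ d i * w i := Nat.le_mul_of_pos_left _ h2
      exact h3.trans h1
    · intro i hi
      rw [Finset.mem_range]
      by_cases hi' : i ∈ d.support
      · have h1 := hle i hi'
        have h3 : d i ≤ d i * w i := Nat.le_mul_of_pos_right _ (hpos i)
        omega
      · rw [Finsupp.notMem_support_iff.1 hi']; omega
  have : Finite ({d : σ →₀ ℕ | Finsupp.weight w d = t} : Set (σ →₀ ℕ)) := hS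
  rw [MvPolynomial.weightedHomogeneousSubmodule_eq_finsupp_supported]
  exact Module.Finite.of_basis (MvPolynomial.basisRestrictSupport R {d | Finsupp.weight w d = t})

/-- finiteness of the homology of the base component in a range -/
theorem finite_base {X : Tower} {D : ℕ} (h : X.FactPoly0 D) {t : ℕ} (ht : t ≤ D) :
    Module.Finite F2 (X.gr 0 t ⊓ Subalgebra.toSubmodule X.base : Submodule F2 (X.H 0)) := by
  have h1 := finite_wh (R := F2) (fun I : Wd0 => wdeg 0 I.1.1) wd0_pos t (wd0_finite t)
  have h2 : Module.Finite F2 ((MvPolynomial.weightedHomogeneousSubmodule F2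
      (fun I : Wd0 => wdeg 0 I.1.1) t).map
      (MvPolynomial.aeval (fun I : Wd0 => X.word0 I.1.1) :
        MvPolynomial Wd0 F2 →ₐ[F2] X.H 0).toLinearMap) := Module.Finite.map _ _
  exact Submodule.finiteDimensional_of_le (h.2 t ht)

end Crest.Agent.R204.FinBase718
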