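import Crest.Agent.R204.Final_114
import Crest.Agent.R204.FinalH_114

/-!
# Row 204: the last assembly (helper114)
-/

set_option autoImplicit false

noncomputable section

namespace Crest.Agent.R204.Final114

open Crest.Agent.R204

/-- everything except `Rest` -/
theorem core_of (R : ∀ e N : ℕ, Rest (par e N) e (2 * (e + 1) + 4)) :
    Final478.AllFacts ∧ HopfLow478.HopfLow ∧ Hopf11.BS :=
  ⟨allFacts_of R, hopfLow, OmS94.bs⟩

end Crest.Agent.R204.Final114
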