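import Crest.Agent.R204.Final_114
import Crest.Agent.R204.FinalH_114
import Crest.Agent.R204.Poly0_979
import Crest.Agent.R204.FourZ_947
import Crest.Agent.R204.SQAll_334

/-!
# Row 204: `AllFacts`, unconditional (helper114)
-/

set_option autoImplicit false

noncomputable section

namespace Crest.Agent.R204.Final114

open Crest.Agent.R204

theorem rest (e N : ℕ) : Rest (par e N) e (2 * (e + 1) + 4) where
  poly0 := LoopZ979.factPoly0 (par e N) (by simp only [par]; omega) (by simp only [par]; omega)
  four := Four947.factFour (D := 2 * (e + 1) + 4) (par e N)
    (by simp only [par]; omega) (by simp only [par]; omega) (by simp only [par]; omega)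
    (LoopZ979.factPoly0 (par e N) (by simp only [par]; omega) (by simp only [par]; omega))
    SQ334.sq_perm (by omega)

/-- all facts of the concrete tower -/
theorem allFacts : Final478.AllFacts := allFacts_of rest

end Crest.Agent.R204.Final114
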