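import Crest.Agent.R204.InstHopf_478
import Crest.Agent.R204.Core_737
import Crest.Agent.R204.ConnE_747
import Crest.Agent.R204.Sph_94d
import Crest.Agent.R204.Norm_76
import Crest.Agent.R204.SusMap_478

/-!
# Row 204 (helper478): the final assembly

`AllFacts` = the facts of `Spec114` for the concrete tower with arbitrarily many loop coordinates.
From `AllFacts`, `HopfLow`, `BS` the exact statements S0314 and S0315 follow.
-/

set_option autoImplicit false
set_option linter.style.haveILetI false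

noncomputable section

namespace Crest.Agent.R204.Final478

open scoped TensorProduct _root_.Topology _root_.Topology.Homotopy
open Crest.Agent.R204 Spec114 Cone330 SphSS478 FactSph478 Inst194 Freu297 Sus330 HopfLow478 Hopf11
  InstSph478

/-- **all the facts for the concrete tower**, arbitrarily large sphere dimension -/
def AllFacts : Prop := ∀ e N : ℕ, ∃ (p : Par) (D : ℕ), N ≤ p.n ∧ e + 1 ≤ D ∧ e + 1 ≤ p.K ∧
  Facts p.tower (pSph p e) D (e + 1)

theorem vanish (hA : AllFacts) (HL : HopfLow) (hBS : BS) (e N : ℕ) (h1 : e + 1 ≠ 1)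
    (h3 : e + 1 ≠ 3) (h7 : e + 1 ≠ 7) (hj : ∀ j : ℕ, e + 1 + 2 ≠ 2 ^ j) :
    ∃ p : Par, N ≤ p.n ∧ ∀ (a : (p.S 0).S (e + 1))
      (ha : IsSph (K := p.S 0) HspSS696.eS a), scl a ha = 0 := by
  obtain ⟨p, D, hN, hD, hK, hF⟩ := hA e N
  refine ⟨p, hN, fun a ha => ?_⟩
  exact Thm3Glue.core314 p.tower (pSph p e) D (e + 1) hF (factHopf HL hBS p hF.poly hD hK)
    h1 h3 h7 hj ⟨a, ha⟩

theorem unique (hA : AllFacts) (HL : HopfLow) (hBS : BS) (e N : ℕ) :
    ∃ p : Par, N ≤ p.n ∧ ∀ (a b : (p.S 0).S (e + 1))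
      (ha : IsSph (K := p.S 0) HspSS696.eS a) (hb : IsSph (K := p.S 0) HspSS696.eS b),
        scl a ha = 0 ∨ scl b hb = 0 ∨ scl a ha = scl b hb := by
  obtain ⟨p, D, hN, hD, hK, hF⟩ := hA e N
  refine ⟨p, hN, fun a b ha hb => ?_⟩
  exact Thm3Glue.core315' p.tower (pSph p e) D (e + 1) hF (factHopf HL hBS p hF.poly hD hK)
    ⟨a, ha⟩ ⟨b, hb⟩

theorem huge314 (hA : AllFacts) (HL : HopfLow) (hBS : BS) : SusMap478.Huge314 := by
  intro e h1 h3 h7 hj N
  obtain ⟨p, hN, h⟩ := vanish hA HL hBS e N h1 h3 h7 hj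
  refine ⟨p.n, hN, pt p.n, fun a ha => ?_⟩
  exact h a (FactSph478.isSph_iff.1 ha)

theorem huge315 (hA : AllFacts) (HL : HopfLow) (hBS : BS) : SusMap478.Huge315 := by
  intro e N
  obtain ⟨p, hN, h⟩ := unique hA HL hBS e N
  refine ⟨p.n, hN, pt p.n, fun a b ha hb => ?_⟩
  exact h a b (FactSph478.isSph_iff.1 ha) (FactSph478.isSph_iff.1 hb)

theorem core314 (hA : AllFacts) (HL : HopfLow) (hBS : BS) : Red478.Core314 :=
  SusMap478.core314_of_huge Conn747.stab (huge314 hA HL hBS)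

theorem core315 (hA : AllFacts) (HL : HopfLow) (hBS : BS) : Red478.Core315 :=
  SusMap478.core315_of_huge Conn747.stab (huge315 hA HL hBS)

/-- **S0314** from the three remaining inputs -/
theorem s0314 (hA : AllFacts) (HL : HopfLow) (hBS : BS)
    (d n : ℕ) (hd : 0 < d) (h1 : d ≠ 1) (h3 : d ≠ 3) (h7 : d ≠ 7) (hK : ∀ j : ℕ, d + 2 ≠ 2 ^ j)
    (hn : d + 2 ≤ n)
    (x : Metric.sphere (0 : EuclideanSpace ℝ (Fin (n + 1))) 1)
    (s : Metric.sphere (0 : EuclideanSpace ℝ (Fin (d + 1))) 1)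
    (f : C(Metric.sphere (0 : EuclideanSpace ℝ (Fin (d + 1))) 1,
      GenLoop (Fin n) (Metric.sphere (0 : EuclideanSpace ℝ (Fin (n + 1))) 1) x))
    (hf : f s = GenLoop.const) :
    ((AlgebraicTopology.singularHomologyFunctor (ModuleCat.{0} (ZMod 2)) d).obj
        (ModuleCat.of (ZMod 2) (ZMod 2))).map (TopCat.ofHom f) = 0 :=
  Red478.s0314_of dgAcyclic Sph94.spheres (core314 hA HL hBS) d n hd h1 h3 h7 hK hn x s f hf

/-- **S0315** from the three remaining inputs -/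
theorem s0315 (hA : AllFacts) (HL : HopfLow) (hBS : BS)
    (d n : ℕ) (hd : 0 < d) (hn : d + 2 ≤ n)
    (x : Metric.sphere (0 : EuclideanSpace ℝ (Fin (n + 1))) 1)
    (s : Metric.sphere (0 : EuclideanSpace ℝ (Fin (d + 1))) 1)
    (f g : C(Metric.sphere (0 : EuclideanSpace ℝ (Fin (d + 1))) 1,
      GenLoop (Fin n) (Metric.sphere (0 : EuclideanSpace ℝ (Fin (n + 1))) 1) x))
    (hf : f s = GenLoop.const) (hg : g s = GenLoop.const) :
    ((AlgebraicTopology.singularHomologyFunctor (ModuleCat.{0} (ZMod 2)) d).obj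
        (ModuleCat.of (ZMod 2) (ZMod 2))).map (TopCat.ofHom f) = 0 ∨
    ((AlgebraicTopology.singularHomologyFunctor (ModuleCat.{0} (ZMod 2)) d).obj
        (ModuleCat.of (ZMod 2) (ZMod 2))).map (TopCat.ofHom g) = 0 ∨
    ((AlgebraicTopology.singularHomologyFunctor (ModuleCat.{0} (ZMod 2)) d).obj
        (ModuleCat.of (ZMod 2) (ZMod 2))).map (TopCat.ofHom f) =
      ((AlgebraicTopology.singularHomologyFunctor (ModuleCat.{0} (ZMod 2)) d).obj
        (ModuleCat.of (ZMod 2) (ZMod 2))).map (TopCat.ofHom g) :=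
  Red478.s0315_of dgAcyclic Sph94.spheres (core315 hA HL hBS) d n hd hn x s f g hf hg

end Crest.Agent.R204.Final478
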