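import Crest.Agent.R204.SqCartan_898
import Crest.Agent.R204.Cofib_670

/-!
# Row 204, block S/E (helper898): the `StPkg` of helper670 for `Sq252.Sq` and `EZ847.ezd`
-/

set_option autoImplicit false

noncomputable section

namespace Crest.Agent.R204.C6898

open SS TensorProduct Coalg847 EZ271 EZ847
open Finset.HasAntidiagonal (antidiagonal mem_antidiagonal)

/-- the Steenrod package -/
def stPkg : Cofib670.StPkg where
  cop K := Ez.cop K
  cop_nat f y := Ez.cop_nat f y
  Sq K a := Sq252.Sq K a
  Sq_nat f a y := (Sq252.Sq_map f a y).symm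
  Sq_zero _ y := Sq252.Sq_zero y
  Sq_deg K n a y hy := by
    have := Sq252.Sq_mem_gr (l := a) hy
    rwa [Nat.add_sub_cancel] at this
  Sq_unst _ _ _ _ hy h := Sq252.Sq_unst hy h
  cartan _ a y := cop_Sq252 a y
  topSq K n y hy u := by
    rw [top_Sq u hy]
    generalize Ez.cop K y = t
    induction t with
    | zero => simp
    | add a b ha hb => simp only [map_add, ha, hb]
    | tmul a b => rfl

end Crest.Agent.R204.C6898
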