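import Crest.Agent.R204.InstSph_478
import Crest.Agent.R204.FConeT_330
import Crest.Agent.R204.StPkg_898
import Crest.Agent.R204.DualBM_596
import Crest.Agent.R204.Sigma2_88

/-!
# Row 204, block E (helper478): `FactCone` for the concrete tower
-/

set_option autoImplicit false
set_option linter.style.haveILetI false

noncomputable section

namespace Crest.Agent.R204.InstSph478

open scoped TensorProduct _root_.Topology _root_.unitInterval _root_.Topology.Homotopy
open Crest.Agent.R204 Spec114 Cone330 SphSS478 FactSph478 Inst194 Freu297 Sus330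

theorem map_mu0_loopC {M a b : ℕ} {Z : Type} [TopologicalSpace Z] {z₀ : Z} (h : a = b + 1)
    (hM : 1 ≤ M) (ha : M + 1 ≤ a) :
    H.map F2 (mu0 ha : SS.Hom ((SS.Sing (Ω^ (Fin a) Z z₀)).prod (SS.Sing (Ω^ (Fin a) Z z₀)))
      (SS.Sing (Ω^ (Fin a) Z z₀))) = H.map F2 (loopC (Z := Z) (z₀ := z₀) h).muH := by
  subst h
  haveI : Nontrivial (Fin (b + 1)) := Fin.nontrivial_iff_two_le.2 (two_le hM ha)
  exact Sigma88.map_mulS HtpInv334.homotopyInv (Hsp696.halves (i0 ha))

/-- **FactCone for the concrete tower** -/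
theorem factCone (p : Par) {D e : ℕ} (hσ : p.tower.FactSigma D) (hK : D + 2 ≤ p.K) :
    (pSph p e).FactCone D (e + 1) := by
  have hlt : ∀ k, k ≤ D + 1 → k < p.K := fun k hk => by omega
  refine FCone330.factCone_of p.tower (Asph (p.S 0) HspSS696.eS e) (fun α => scl α.1 α.2) _
    (fun k => p.X k) (fun k => GenLoop.const) (fun k hk => loopX p.J0 (hlt k hk))
    (fun k => LinearEquiv.refl F2 _) hσ (fun k _ t y => Iff.rfl) ?_ ?_ ?_ C6898.stPkg
    (fun K => rfl) (fun K => Adem596.dualBM_Sq252 K) (fun k _ a y => rfl) ?_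
  · intro k hk ξ
    exact congrArg (fun f : H F2 ((p.S k).prod (p.S k)) →ₗ[F2] H F2 (p.S k) =>
      f (EZ847.ezd.cr (p.S k) (p.S k) (ξ ⊗ₜ[F2] ξ))) (map_mu0_loopC (cd_succ (hlt k hk)) p.hM (p.hc k))
  · intro k hk y
    exact congrArg (fun f : H F2 (p.S k) →ₗ[F2] H F2 (p.S (k + 1)) => f y)
      (dif_pos (hlt k hk) : p.sig k = _)
  · intro k _ s hs
    exact hs.trans (add_comm _ _)
  · intro α
    exact FCone330.sphCls_scl α.1 α.2

end Crest.Agent.R204.InstSph478
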