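import Crest.Agent.R204.Sigma2_88
import Crest.Agent.R204.SqCartan_898

/-!
# Row 204, FactSigma (helper194): `σ Sq^a_* = Sq^a_* σ`

`circ = Δ¹/∂Δ¹`; a map `e : Δ¹ × P → Y` whose two ends are the constant map factors through
`circ × P`, and `σ x = e'_* (c × x)` with `c ∈ H_1(circ)`.  Now the external Cartan formula.
-/

set_option autoImplicit false

noncomputable section

open scoped TensorProduct

namespace Crest.Agent.R204.SigSq194

open Coalg847 EZ271
open Sigma88 (Ends sgH sgH_mk sgN sgN_apply cst oS bd_sgN)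

/-- constant operators are identified -/
def cRel (n : ℕ) (α β : Op n 1) : Prop := (∃ i, α = cst n i) ∧ (∃ i, β = cst n i)

theorem cst_comp {m n : ℕ} (f : Op m n) (i : Fin 2) : (cst n i).comp f = cst m i := rfl

/-- `Δ¹/∂Δ¹` -/
def circ : SS where
  S n := Quot (cRel n)
  act {m n} f := Quot.map (fun α : Op n 1 => α.comp f) (by
    rintro α β ⟨⟨i, rfl⟩, ⟨j, rfl⟩⟩
    exact ⟨⟨i, cst_comp f i⟩, ⟨j, cst_comp f j⟩⟩)
  act_id x := by
    induction x using Quot.ind
    rfl
  act_comp f g x := by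
    induction x using Quot.ind
    rfl

/-- the quotient map -/
def cq : SS.Hom (SS.std 1) circ := ⟨fun _ α => Quot.mk _ α, fun _ _ => rfl⟩

theorem cq_cst (n : ℕ) (i j : Fin 2) : cq.app n (oS (cst n i)) = cq.app n (oS (cst n j)) :=
  Quot.sound ⟨⟨i, rfl⟩, ⟨j, rfl⟩⟩

/-- the factorisation -/
def fac {P Y : SS} {e : SS.Hom ((SS.std 1).prod P) Y} {y : Y.S 0} (h : Ends e y) :
    SS.Hom (circ.prod P) Y where
  app n x := Quot.lift (fun α : Op n 1 => e.app n (oS α, x.2)) (by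
    rintro α β ⟨⟨i, rfl⟩, ⟨j, rfl⟩⟩
    have key : ∀ i : Fin 2, e.app n (oS (cst n i), x.2) = (SS.constHom P Y y).app n x.2 := by
      intro i
      fin_cases i
      · exact h.zero n x.2
      · exact h.one n x.2
    show e.app n (oS (cst n i), x.2) = e.app n (oS (cst n j), x.2)
    rw [key, key]) x.1
  nat {m n} f x := by
    obtain ⟨c, x⟩ := x
    induction c using Quot.ind with
    | mk α => exact e.nat f (oS α, x)

theorem fac_comp {P Y : SS} {e : SS.Hom ((SS.std 1).prod P) Y} {y : Y.S 0} (h : Ends e y) :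
    (fac h).comp (SS.prodMap cq (SS.Hom.id P)) = e := rfl

/-- the fundamental cycle of the circle -/
def cz : N F2 circ := N.map F2 cq (Sigma88.io F2 1)

theorem bd_cz : N.bd F2 _ cz = 0 := by
  rw [cz, ← map_bd', Sigma88.bd_io, map_sum, Fin.sum_univ_two]
  simp only [map_smul]
  have h0 : N.map F2 cq (N.sx F2 (oS (Op.face (0 : Fin 2)))) = N.sx F2 (cq.app 0 (oS (cst 0 1))) := by
    refine (N.map_sx _ _).trans ?_
    congr 2
    refine OrderHom.ext _ _ (funext fun a => ?_)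
    fin_cases a; rfl
  have h1 : N.map F2 cq (N.sx F2 (oS (Op.face (1 : Fin 2)))) = N.sx F2 (cq.app 0 (oS (cst 0 0))) := by
    refine (N.map_sx _ _).trans ?_
    congr 2
    refine OrderHom.ext _ _ (funext fun a => ?_)
    fin_cases a; rfl
  rw [h0, h1, cq_cst 0 0 1]
  simp only [Fin.val_zero, Fin.val_one, pow_zero, pow_one, one_smul, neg_one_smul, add_neg_cancel]

/-- the class of the circle -/
def cc : H F2 circ := Hd.mk _ cz bd_cz

theorem cc_mem : cc ∈ H.gr F2 circ 1 :=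
  mk_mem_gr _ (nMap_mem_gr _ (Sigma88.sx_mem_gr _))

theorem sgN_eq {P Y : SS} {e : SS.Hom ((SS.std 1).prod P) Y} {y : Y.S 0} (h : Ends e y)
    (z : N F2 P) : sgN e z = N.map F2 (fac h) (cross F2 cz z) := by
  have h1 : cross F2 cz z = N.map F2 (SS.prodMap cq (SS.Hom.id P)) (cross F2 (Sigma88.io F2 1) z) := by
    rw [map_cross, map_idHom]
    rfl
  rw [h1, map_map, fac_comp]
  rfl

/-- `σ x = e'_* (c × x)` -/
theorem sgH_eq {P Y : SS} {e : SS.Hom ((SS.std 1).prod P) Y} {y : Y.S 0} (h : Ends e y)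
    (x : H F2 P) : sgH h x = H.map F2 (fac h) (EZ847.ezd.cr circ P (cc ⊗ₜ x)) := by
  obtain ⟨z, hz, rfl⟩ := Hd.mk_surj _ x
  rw [cc, EZData.cr_mk, sgH_mk, hMap_mk]
  congr 1
  exact sgN_eq h z

theorem Sq_cc (a : ℕ) (ha : 1 ≤ a) : Sq252.Sq circ a cc = 0 :=
  Sq252.Sq_unst cc_mem (by omega)

/-- **`σ Sq^a_* = Sq^a_* σ`** -/
theorem sgH_Sq {P Y : SS} {e : SS.Hom ((SS.std 1).prod P) Y} {y : Y.S 0} (h : Ends e y)
    (a : ℕ) (x : H F2 P) : sgH h (Sq252.Sq P a x) = Sq252.Sq Y a (sgH h x) := by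
  rw [sgH_eq h x, ← Sq252.Sq_map, C6898.Sq_cr, map_sum, sgH_eq h]
  rw [Finset.sum_eq_single (0, a)]
  · rw [Sq252.Sq_zero]
  · rintro ⟨i, j⟩ hij hne
    have hi : 1 ≤ i := by
      rw [Finset.HasAntidiagonal.mem_antidiagonal] at hij
      simp only at hij
      rcases Nat.eq_zero_or_pos i with rfl | hp
      · refine (hne ?_).elim
        rw [Prod.mk.injEq]
        exact ⟨rfl, by omega⟩
      · exact hp
    rw [Sq_cc i hi, TensorProduct.zero_tmul, map_zero, map_zero]
  · intro hn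
    refine (hn ?_).elim
    rw [Finset.HasAntidiagonal.mem_antidiagonal]
    exact Nat.zero_add a

end Crest.Agent.R204.SigSq194
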