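import Crest.Agent.R204.InstF_114
import Crest.Agent.R204.SigQI_265
import Crest.Agent.R204.SigSq_194

/-!
# Row 204 (helper194): `FactSigma` for the concrete tower
-/

set_option autoImplicit false
set_option linter.style.haveILetI false

noncomputable section

namespace Crest.Agent.R204.Inst194

open scoped _root_.Topology _root_.Topology.Homotopy TensorProduct
open Crest.Agent.R204 Crest.Agent.R204.Freu297 Crest.Agent.R204.Sus330
open Crest.Agent.R204.HspSS696 (mulS eS ptS)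
open Crest.Agent.R204.Hsp696 (halves)
open Crest.Agent.R204.ThAlg265 (ThAlg SH omAlg omAlg_oneLaw)
open Crest.Agent.R204.Hopf450 (HMon)
open Crest.Agent.R204.Coalg847 (vtx eps)

/-! ## one loop structure -/

section one

variable {P Y : Type} [TopologicalSpace P] [TopologicalSpace Y] {g0 : P} {y0 : Y}
  (Λ : LoopStr P Y g0 y0)

theorem sigma_eq_sigH (y : H F2 (SS.Sing P)) : Λ.sigma y = Sigma88.sigH Λ y := rfl

theorem sigma_gr {t : ℕ} {y : H F2 (SS.Sing P)} (hy : y ∈ H.gr F2 _ t) :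
    Λ.sigma y ∈ H.gr F2 (SS.Sing Y) (t + 1) := Sigma88.sigH_mem_gr Λ hy

theorem sigma_cop (y : H F2 (SS.Sing P)) : EE.cop _ (Λ.sigma y) =
    Λ.sigma y ⊗ₜ vtx (Sigma88.bV Y y0) + vtx (Sigma88.bV Y y0) ⊗ₜ Λ.sigma y :=
  Sigma88.cop_sigH Λ EE y

theorem sigma_Sq (a : ℕ) (y : H F2 (SS.Sing P)) :
    Λ.sigma (Sq252.Sq _ a y) = Sq252.Sq _ a (Λ.sigma y) :=
  SigSq194.sgH_Sq (Sigma88.ends Λ) a y

end one

/-! ## `Ω^a Z → Ω^b Z`, `a = b + 1` -/

section two

variable {Z : Type} [TopologicalSpace Z] {z₀ : Z} {M a b : ℕ}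

theorem bV_eq_eS {b : ℕ} : (Sigma88.bV (Ω^ (Fin b) Z z₀) GenLoop.const :
    (SS.Sing (Ω^ (Fin b) Z z₀)).S 0) = eS := rfl

theorem loopC_mul (hM : 1 ≤ M) (h : a = b + 1) (ha : M + 1 ≤ a)
    (y z : H F2 (SS.Sing (Ω^ (Fin a) Z z₀))) :
    (loopC h).sigma ((hmonA hM ha).mulL EE y z) =
      eps _ y • (loopC h).sigma z + eps _ z • (loopC h).sigma y := by
  subst h
  haveI : Nontrivial (Fin (b + 1)) := Fin.nontrivial_iff_two_le.2 (two_le hM ha)
  exact Sigma88.sigH_mulS HtpInv334.homotopyInv EE (halves (i0 ha)) y z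

theorem loopC_T (h : a = b + 1) (ha : M + 1 ≤ a) (hb : M + 1 ≤ b) (i : ℕ)
    (y : H F2 (SS.Sing (Ω^ (Fin a) Z z₀))) :
    (loopC h).sigma (Ops265.T (thA ha) i y) = Ops265.T (thA hb) i ((loopC h).sigma y) := by
  subst h
  have key := SigQ265.sigH_T (Z := Z) (z₀ := z₀) (emb hb) (mu0 hb) (mu0 ha) i y
  rw [← emb_castSucc hb ha] at key
  exact key

theorem loopC_Q (h : a = b + 1) (ha : M + 1 ≤ a) (hb : M + 1 ≤ b) {i : ℕ} (hi : i + 2 ≤ M)
    (y : H F2 (SS.Sing (Ω^ (Fin a) Z z₀))) :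
    (loopC h).sigma (Ops265.Q (thA ha) (i + 1) y) = Ops265.Q (thA hb) i ((loopC h).sigma y) := by
  subst h
  have key := SigQ265.sigH_Q (Z := Z) (z₀ := z₀) (emb hb) (mu0 hb) (mu0 ha) hi y
  rw [← emb_castSucc hb ha] at key
  exact key

end two

/-! ## the tower -/

namespace Par

variable (p : Par) {D : ℕ}

theorem sig_of_lt {k : ℕ} (h : k < p.K) (y : H F2 (p.S k)) :
    p.sig k y = (loopX p.J0 h).sigma y := by
  rw [sig, dif_pos h]

/-- **FactSigma** -/
theorem factSigma (hM : D + 2 ≤ p.M) (hK : D + 2 ≤ p.K) : p.tower.FactSigma D := by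
  intro k hk
  have h : k < p.K := by omega
  refine ⟨?_, ?_, ?_, ?_, ?_, ?_, rfl⟩
  · intro t y hy
    show p.sig k y ∈ _
    rw [sig_of_lt p h]
    exact sigma_gr _ hy
  · intro y
    show EE.cop _ (p.sig k y) = p.sig k y ⊗ₜ[F2] vtx eS + vtx eS ⊗ₜ[F2] p.sig k y
    rw [sig_of_lt p h]
    exact sigma_cop _ y
  · intro y z
    show p.sig k ((p.N k).mulL EE y z) = eps _ y • p.sig k z + eps _ z • p.sig k y
    rw [sig_of_lt p h, sig_of_lt p h, sig_of_lt p h]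
    exact loopC_mul p.hM (cd_succ h) (p.hc k) y z
  · intro a y
    show p.sig k (Sq252.Sq _ a y) = Sq252.Sq _ a (p.sig k y)
    rw [sig_of_lt p h, sig_of_lt p h]
    exact sigma_Sq _ a y
  · intro i _ y
    show p.sig k (Ops265.T (p.A k) i y) = Ops265.T (p.A (k + 1)) i (p.sig k y)
    rw [sig_of_lt p h, sig_of_lt p h]
    exact loopC_T (cd_succ h) (p.hc k) (p.hc (k + 1)) i y
  · intro i hi y
    show p.sig k (Ops265.Q (p.A k) (i + 1) y) = Ops265.Q (p.A (k + 1)) i (p.sig k y)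
    rw [sig_of_lt p h, sig_of_lt p h]
    exact loopC_Q (cd_succ h) (p.hc k) (p.hc (k + 1)) (by omega) y

end Par

end Crest.Agent.R204.Inst194
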