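import Crest.Agent.R204.InstSig_194
import Crest.Agent.R204.FXT_76
import Crest.Agent.R204.Hopf4i_450

/-!
# Row 204 (helper194): `FactX` for the concrete tower
-/

set_option autoImplicit false
set_option linter.style.haveILetI false

noncomputable section

namespace Crest.Agent.R204.Inst194

open scoped _root_.Topology _root_.Topology.Homotopy TensorProduct
open Crest.Agent.R204 Crest.Agent.R204.Freu297 Crest.Agent.R204.Sus330
open Crest.Agent.R204.HspSS696 (mulS eS ptS invS)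
open Crest.Agent.R204.Hsp696 (halves)
open Crest.Agent.R204.Hopf450 (HMon)
open Crest.Agent.R204.Coalg847 (vtx eps)

section

variable {Z : Type} [TopologicalSpace Z] {z₀ : Z} {M a : ℕ}

theorem hmonA_vtx_inv (hM : 1 ≤ M) (ha : M + 1 ≤ a) (v : Ω^ (Fin a) Z z₀) :
    (hmonA hM ha).mulL EE (vtx (ptS v : (SS.Sing (Ω^ (Fin a) Z z₀)).S 0))
      (vtx (ptS (GenLoop.symmAt (i0 ha) v) : (SS.Sing (Ω^ (Fin a) Z z₀)).S 0)) = vtx eS := by
  haveI : Nontrivial (Fin a) := Fin.nontrivial_iff_two_le.2 (two_le hM ha)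
  have h := Hopf450.omMon_vtx_inv (z₀ := z₀) EE (i0 ha) (halves (i0 ha)) (ptS v)
  exact h

end

namespace Par

variable (p : Par) {D : ℕ}

theorem x0_gr : p.tower.x 0 ∈ p.tower.gr 0 0 := Coalg847.vtx_mem_gr _

theorem xinv_gr : p.tower.xinv ∈ p.tower.gr 0 0 := Coalg847.vtx_mem_gr _

theorem x0_cop : p.tower.Δ 0 (p.tower.x 0) = p.tower.x 0 ⊗ₜ[F2] p.tower.x 0 := by
  show EE.cop _ (p.x 0) = p.x 0 ⊗ₜ[F2] p.x 0
  exact EE.cop_vtx _

theorem xinv_cop : p.tower.Δ 0 p.tower.xinv = p.tower.xinv ⊗ₜ[F2] p.tower.xinv := by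
  show EE.cop _ p.xinv = p.xinv ⊗ₜ[F2] p.xinv
  exact EE.cop_vtx _

theorem x0_xinv : p.tower.x 0 * p.tower.xinv = 1 := by
  show (p.N 0).mulL EE (p.x 0) p.xinv = vtx eS
  exact hmonA_vtx_inv p.hM (p.hc 0) (iotaL p.n)

/-- **FactX** -/
theorem factX (hM : D + 2 ≤ p.M) (hK : D + 2 ≤ p.K) : p.tower.FactX D :=
  FXT76.factX_of p.tower D (p.factSq D) (p.factSigma hM hK) p.x0_gr p.x0_cop p.xinv_gr
    p.xinv_cop p.x0_xinv

end Par

end Crest.Agent.R204.Inst194
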