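import Crest.Agent.R204.PolyU_979
import Crest.Agent.R204.InstX_194

/-!
# Row 204, leaf B7: `FactPoly` for the concrete tower, no hypotheses
-/

set_option autoImplicit false

noncomputable section

namespace Crest.Agent.R204.PolyU979

open Crest.Agent.R204 Spec114 Inst194

/-- **loop space theorem on the concrete tower**, `k ≥ 1`, no hypotheses -/
theorem factPoly' (p : Par) {D : ℕ} (hM : D + 2 ≤ p.M) (hK : D + 2 ≤ p.K) : p.tower.FactPoly D :=
  factPoly p hM hK (p.factX hM hK)

end Crest.Agent.R204.PolyU979
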