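import Crest.Agent.R204.InstF_114
import Crest.Agent.R204.InstSig_194
import Crest.Agent.R204.DualBM_596
import Crest.Agent.R204.Final_478
import Crest.Agent.R204.InstCone_478
import Crest.Agent.R204.PolyV_979
import Crest.Agent.R204.InstBase_194
import Crest.Agent.R204.BSInst_94
import Crest.Agent.R204.InstX_194

/-!
# Row 204: assembly of the facts of the concrete tower (helper114)

`pSph p e` (478) : the spherical classes of stem `e + 1` of the concrete tower `p.tower` (194).
`Rest p e D` : the facts on `p.tower` which are not yet unconditional.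
`allFacts_of` : `Final478.AllFacts` from `Rest`.
-/

set_option autoImplicit false
set_option linter.style.haveILetI false

noncomputable section

namespace Crest.Agent.R204.Final114

open Crest.Agent.R204 Spec114 Inst194 FactSph478 SphSS478 Freu297 InstSph478
open scoped TensorProduct

/-- the facts on `p.tower` which are still hypotheses -/
structure Rest (p : Par) (e D : ℕ) : Prop where
  poly0 : p.tower.FactPoly0 D
  four : (pSph p e).FactFour (e + 1)

/-- all facts -/
theorem facts {p : Par} {e D : ℕ} (hD : 2 * (e + 1) + 4 ≤ D) (hM : D + 3 ≤ p.M)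
    (hJ : 2 * (p.M + 1) ≤ p.J0) (hK : D + 2 ≤ p.K) (R : Rest p e D) :
    Facts p.tower (pSph p e) D (e + 1) where
  d_pos := by omega
  dD := hD
  gr := p.factGr D
  eps := p.factEps D
  delta := p.factDelta D
  sq := p.factSq D
  bm := p.factBM D Adem596.dualBM_Sq252
  t := p.factT (by omega)
  t0 := p.factT0 D
  gl2 := p.factGL2 (by omega) hJ
  q := p.factQ (by omega)
  f13 := p.fact13 (by omega)
  sigma := p.factSigma (by omega) hK
  x := p.factX (by omega) hK
  base := p.factBase D
  poly := PolyU979.factPoly' p (by omega) hK
  poly0 := R.poly0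
  sph := factSph p (p.factSigma (by omega) hK)
  cone := InstSph478.factCone p (p.factSigma (by omega) hK) hK
  four := R.four

/-- the parameters; `J0 ≥ 16 (M + 1)` -/
def par (e N : ℕ) : Par where
  M := 2 * (e + 1) + 4 + 3
  J0 := 16 * (2 * (e + 1) + 4 + 3 + 1) + N
  K := 2 * (e + 1) + 4 + 2
  hM := by omega
  hJ := by omega

theorem allFacts_of (R : ∀ e N : ℕ, Rest (par e N) e (2 * (e + 1) + 4)) : Final478.AllFacts := by
  intro e N
  refine ⟨par e N, 2 * (e + 1) + 4, ?_, by omega, ?_, ?_⟩
  · simp only [Par.n, par]; omega
  · simp only [par]; omega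
  · exact facts le_rfl le_rfl (by simp only [par]; omega) le_rfl (R e N)

end Crest.Agent.R204.Final114
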