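import Crest.Agent.R204.PontF_718
import Crest.Agent.R204.Bock_888
import Crest.Agent.R204.X0_947

/-!
# Row 204, block G, FactFour part 1 (helper947): from a spherical class `ξ · ξ` to the data
`z, c, A_N` of the transport theorem.
-/

set_option autoImplicit false

noncomputable section

namespace Crest.Agent.R204.Four947

open Crest.Agent.R204 SS Coef947 Prd328 Pont718

theorem four_core {X : SS} (μ : SS.Hom (X.prod X) X) (e₀ : X.S 0)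
    (hμ1 : ∀ x : H F2 X, H.map F2 μ (crossH F2 x (vt F2 e₀)) = x)
    (hμ2 : ∀ x : H F2 X, H.map F2 μ (crossH F2 (vt F2 e₀) x) = x)
    (h0 : ∀ x ∈ H.gr F2 X 0, ∃ r : F2, x = r • vt F2 e₀)
    {e m : ℕ} (hm : 0 < m) (hm2 : Even m) (he : e + 1 = 2 * m)
    (ξ : H F2 X) (hξ : ξ ∈ H.gr F2 X m) (hSq : Sq252.Sq X 1 ξ = 0)
    (hprim : H.map F2 (SS.diag X) ξ = crossH F2 ξ (vt F2 e₀) + crossH F2 (vt F2 e₀) ξ)
    (hfin : ∀ i, 0 < i → i < m → Module.Finite F2 (H.gr F2 X i))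
    (w : X.S (e + 1))
    (hw : ∀ i : Fin (e + 2), X.act (Op.face i) w =
      X.act (⟨fun _ => 0, fun _ _ _ => le_rfl⟩ : Op e 0) e₀)
    (hw2 : N.bd F2 X (N.sx F2 w) = 0)
    (hrel : Hd.mk (N.bd F2 X) (N.sx F2 w) hw2 = H.map F2 μ (crossH F2 ξ ξ)) :
    ∃ (z : H (ZMod 4) X) (c : H F2 X) (A : ∀ N : ℕ, H (ZMod (2 ^ N)) X),
      z ∈ H.gr (ZMod 4) X m ∧ coH (rho 4 2 (by norm_num)) X z = ξ ∧ c ∈ H.gr F2 X (2 * m) ∧
      (∀ N, A N ∈ H.gr (ZMod (2 ^ N)) X (2 * m)) ∧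
      (∀ (N : ℕ) (h : 4 ∣ 2 ^ N), coH (rho (2 ^ N) 4 h) _ (A N) =
        H.map (ZMod 4) μ (crossH (ZMod 4) z z) + coH (inj 2 4 2 rfl) _ c) ∧
      Sq252.Sq X m c = ξ := by
  have he1 : 1 ≤ e := by omega
  obtain ⟨z, hz, hzξ⟩ := Bock888.exists_lift4 X hξ hSq
  have hbd : ∀ (R : Type) [CommRing R], N.bd R X (N.sx R w) = 0 := fun R _ => sph_bd he1 w e₀ hw
  have hgr : ∀ (R : Type) [CommRing R], Hd.mk (N.bd R X) (N.sx R w) (hbd R) ∈ H.gr R X (2 * m) := by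
    intro R _
    rw [← he]
    exact Gr334.mk_mem_gr (Gr334.sx_mem_gr w) (hbd R)
  have hzz : H.map (ZMod 4) μ (crossH (ZMod 4) z z) ∈ H.gr (ZMod 4) X (2 * m) := by
    have := crossH_mem_gr (ZMod 4) hz hz
    rw [← two_mul] at this
    exact Gr334.H_map_mem_gr _ this
  have hd0 : coH (rho 4 2 (by norm_num)) X
      (Hd.mk (N.bd (ZMod 4) X) (N.sx (ZMod 4) w) (hbd (ZMod 4)) -
        H.map (ZMod 4) μ (crossH (ZMod 4) z z)) = 0 := by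
    rw [map_sub, coH_map, coH_crossH_mul _ (rho_mul 4 2 (by norm_num)), hzξ, ← hrel, coH_mk,
      sub_eq_zero]
    exact mk_congr _ _ (coN_sx _ w (map_one (ZMod.castHom (by norm_num : 2 ∣ 4) (ZMod 2))))
  obtain ⟨c, hc, hcc⟩ := coH_inj_exact_gr 2 4 2 rfl (by norm_num) (by norm_num)
    (Submodule.sub_mem _ (hgr (ZMod 4)) hzz) hd0
  have hrel4 : Hd.mk (N.bd (ZMod 4) X) (N.sx (ZMod 4) w) (hbd (ZMod 4)) =
      H.map (ZMod 4) μ (crossH (ZMod 4) z z) + coH (inj 2 4 2 rfl) X c := by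
    rw [hcc]; abel
  refine ⟨z, c, fun k => Hd.mk _ (N.sx (ZMod (2 ^ k)) w) (hbd _), hz, hzξ, hc, fun k => hgr _,
    fun k h => ?_, ?_⟩
  · rw [← hrel4, coH_mk]
    exact mk_congr _ _ (coN_sx _ w (map_one (ZMod.castHom h (ZMod 4))))
  · rw [← Rk_zero_eq_Sq hc]
    have := pont hm hm2 he μ e₀ (fun x _ => hμ1 x) (fun x _ => hμ2 x) h0 hfin z hz
      (by rw [hzξ]; exact hprim) w hw (hbd (ZMod 4)) c hc hrel4
    rw [this, hzξ]

end Crest.Agent.R204.Four947
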