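import Crest.Agent.R204.GlueB_114
import Mathlib.RingTheory.MvPolynomial.WeightedHomogeneous
import Mathlib.Data.Set.Finite.List

/-!
# Row 204, block G, FactFour part 2 (helper947): consequences of `FactPoly0`:
finiteness of the homology of the base component and injectivity of squaring on it.
-/

set_option autoImplicit false

noncomputable section

namespace Crest.Agent.R204.Four947

open Crest.Agent.R204 Spec114 Glue114 MvPolynomial

theorem length_le_wdeg {I : List ℕ} (h : ∀ i ∈ I, 1 ≤ i) : I.length ≤ Tower.wdeg 0 I := by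
  induction I with
  | nil => simp
  | cons i I ih =>
    rw [wdeg_cons, List.length_cons]
    have h1 := ih (fun j hj => h j (List.mem_cons_of_mem _ hj))
    have h2 := h i (List.mem_cons_self ..)
    omega

/-- finitely many words of bounded degree -/
theorem finite_wd0 (t : ℕ) : {I : Tower.Wd0 | Tower.wdeg 0 I.1.1 ≤ t}.Finite := by
  have h1 : ({L : List (Fin (t + 1)) | L.length ≤ t}).Finite := List.finite_length_le _ _
  have h2 := h1.image (List.map (fun i : Fin (t + 1) => (i : ℕ)))
  have hinj : Function.Injective (fun I : Tower.Wd0 => I.1.1) := fun I J h =>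
    Subtype.ext (Subtype.ext h)
  refine Set.Finite.of_finite_image (h2.subset ?_) hinj.injOn
  rintro _ ⟨I, hI, rfl⟩
  have hI' : Tower.wdeg 0 I.1.1 ≤ t := hI
  refine ⟨I.1.1.pmap (fun i (h : i < t + 1) => (⟨i, h⟩ : Fin (t + 1))) (fun i hi => ?_), ?_, ?_⟩
  · have := mem_le_wdeg (k := 0) hi
    omega
  · show (List.pmap _ _ _).length ≤ t
    rw [List.length_pmap]
    exact (length_le_wdeg I.1.2.2).trans hI'
  · rw [List.map_pmap]
    simp

theorem one_le_wdeg (I : Tower.Wd0) : 1 ≤ Tower.wdeg 0 I.1.1 := by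
  obtain ⟨⟨I, h1, h2⟩, h3⟩ := I
  have h4 := length_le_wdeg h2
  have h5 : I.length ≠ 0 := fun h => h3 (List.length_eq_zero_iff.1 h)
  show 1 ≤ Tower.wdeg 0 I
  omega

/-- finitely many exponents of a given weight -/
theorem finite_expo (t : ℕ) :
    {s : Tower.Wd0 →₀ ℕ | Finsupp.weight (fun I : Tower.Wd0 => Tower.wdeg 0 I.1.1) s = t}.Finite := by
  classical
  set F := (finite_wd0 t).toFinset with hF
  refine (Set.finite_Iic (Finsupp.indicator F (fun _ _ => t))).subset ?_
  intro s hs I
  have hs' : Finsupp.weight (fun I : Tower.Wd0 => Tower.wdeg 0 I.1.1) s = t := hs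
  rw [Finsupp.weight_apply, Finsupp.sum] at hs'
  by_cases h0 : s I = 0
  · rw [h0]; exact Nat.zero_le _
  have h1 : s I • Tower.wdeg 0 I.1.1 ≤ t := by
    rw [← hs']
    exact Finset.single_le_sum (f := fun I => s I • Tower.wdeg 0 I.1.1) (fun _ _ => Nat.zero_le _)
      (Finsupp.mem_support_iff.2 h0)
  rw [smul_eq_mul] at h1
  have h2 := one_le_wdeg I
  have h3 : I ∈ F := by
    rw [hF, Set.Finite.mem_toFinset]
    show Tower.wdeg 0 I.1.1 ≤ t
    exact (Nat.le_mul_of_pos_left _ (Nat.pos_of_ne_zero h0)).trans h1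
  rw [Finsupp.indicator_of_mem h3]
  exact (Nat.le_mul_of_pos_right _ h2).trans h1

theorem finite_wh (t : ℕ) : Module.Finite F2
    (weightedHomogeneousSubmodule F2 (fun I : Tower.Wd0 => Tower.wdeg 0 I.1.1) t) := by
  rw [weightedHomogeneousSubmodule_eq_finsupp_supported]
  have := (finite_expo t).to_subtype
  exact Module.Finite.of_basis (basisRestrictSupport F2
    {d | Finsupp.weight (fun I : Tower.Wd0 => Tower.wdeg 0 I.1.1) d = t})

variable {X : Tower} {D : ℕ}

/-- the base component is of finite type -/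
theorem finite_base (h : X.FactPoly0 D) {t : ℕ} (ht : t ≤ D) :
    Module.Finite F2 ↥(X.gr 0 t ⊓ Subalgebra.toSubmodule X.base) := by
  have := finite_wh t
  have h1 : Module.Finite F2 ((weightedHomogeneousSubmodule F2
      (fun I : Tower.Wd0 => Tower.wdeg 0 I.1.1) t).map
        (MvPolynomial.aeval (fun I : Tower.Wd0 => X.word0 I.1.1) :
          MvPolynomial Tower.Wd0 F2 →ₐ[F2] X.H 0).toLinearMap) := Module.Finite.map _ _
  exact Submodule.finiteDimensional_of_le (h.2 t ht)

/-- squaring is injective on the base component -/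
theorem sq_eq_zero (h : X.FactPoly0 D) {t : ℕ} (ht : 2 * t ≤ D) {ζ : X.H 0} (hζ : ζ ∈ X.gr 0 t)
    (hb : ζ ∈ X.base) (h0 : ζ * ζ = 0) : ζ = 0 := by
  obtain ⟨p, hp, hpζ⟩ := h.2 t (by omega) ⟨hζ, hb⟩
  have hpζ' : MvPolynomial.aeval (fun I : Tower.Wd0 => X.word0 I.1.1) p = ζ := hpζ
  have h1 : p * p ∈ weightedHomogeneousSubmodule F2
      (fun I : Tower.Wd0 => Tower.wdeg 0 I.1.1) (t + t) := IsWeightedHomogeneous.mul hp hp
  have h2 := h.1 (t + t) (by omega) (p * p) h1 (by rw [map_mul, hpζ', h0])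
  have h3 : p = 0 := by
    rcases mul_eq_zero.1 h2 with h | h <;> exact h
  rw [← hpζ', h3, map_zero]

end Crest.Agent.R204.Four947
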