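import Crest.Agent.R204.X0_947
import Crest.Agent.R204.KTr_103
import Crest.Agent.R204.EZInst_847
import Crest.Agent.R204.CompOps_696
import Crest.Agent.R204.Cone_330

/-!
# Row 204, block G, FactFour part 3 (helper947): cross products vs the Kuenneth isomorphism,
primitivity on the base component, injectivity of translations.
-/

set_option autoImplicit false
set_option linter.unusedSectionVars false

open scoped Topology unitInterval Topology.Homotopy TensorProduct

noncomputable section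

namespace Crest.Agent.R204.Four947

open Crest.Agent.R204 SS Comp696 SingAct265 Cubes735 Prd328 X0947 KTr103
open Crest.Agent.R204.ThAlg265 (SH)
open Crest.Agent.R204.HspSS696 hiding Om
open Crest.Agent.R204.HspSS696 (Om)

theorem cr_eq {K L : SS} (x : H F2 K) (y : H F2 L) : EZ847.ezd.cr K L (x ⊗ₜ y) = crossH F2 x y := by
  obtain ⟨a, ha, rfl⟩ := Hd.mk_surj _ x
  obtain ⟨b, hb, rfl⟩ := Hd.mk_surj _ y
  rw [Coalg847.EZData.cr_mk, crossH_mk]
  rfl

theorem vtx_eq {K : SS} (v : K.S 0) : Coalg847.vtx v = vt F2 v := rfl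

/-- primitivity in terms of the diagonal -/
theorem diag_of_cop {K : SS} {e : K.S 0} {x : H F2 K}
    (h : EZ847.ezd.cop K x = x ⊗ₜ[F2] Coalg847.vtx e + Coalg847.vtx e ⊗ₜ[F2] x) :
    H.map F2 (SS.diag K) x = crossH F2 x (vt F2 e) + crossH F2 (vt F2 e) x := by
  rw [← EZ847.ezd.cr_cop, h, map_add, cr_eq, cr_eq]
  rfl

variable {J : Type} [Finite J] [DecidableEq J] [Nontrivial J] {Z : Type} [TopologicalSpace Z] {z₀ : Z}

/-- primitivity descends to the base component -/
theorem cop_of_in (x : H F2 (X0 J Z z₀))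
    (h : EZ847.ezd.cop _ (H.map F2 inX0 x) = H.map F2 inX0 x ⊗ₜ[F2] Coalg847.vtx eS +
      Coalg847.vtx eS ⊗ₜ[F2] H.map F2 inX0 x) :
    EZ847.ezd.cop _ x = x ⊗ₜ[F2] Coalg847.vtx e0 + Coalg847.vtx e0 ⊗ₜ[F2] x := by
  have hin := in_injective (J := J) (Z := Z) (z₀ := z₀) F2
  have hi2 : Function.Injective (TensorProduct.map (H.map F2 (inX0 (J := J) (Z := Z) (z₀ := z₀)))
      (H.map F2 (inX0 (J := J) (Z := Z) (z₀ := z₀)))) :=
    TensorProduct.map_injective_of_flat_flat _ _ hin hin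
  apply hi2
  rw [← EZ847.ezd.cop_nat, h, map_add, TensorProduct.map_tmul, TensorProduct.map_tmul,
    Coalg847.hMap_vtx]
  rfl

theorem diag_of_in (x : H F2 (X0 J Z z₀))
    (h : EZ847.ezd.cop _ (H.map F2 inX0 x) = H.map F2 inX0 x ⊗ₜ[F2] Coalg847.vtx eS +
      Coalg847.vtx eS ⊗ₜ[F2] H.map F2 inX0 x) :
    H.map F2 (SS.diag _) x = crossH F2 x (vt F2 e0) + crossH F2 (vt F2 e0) x :=
  diag_of_cop (cop_of_in x h)

/-- vertices in the same component are homologous -/
theorem vt_eq_of_cOm (R : Type) [CommRing R] (v w : (Sing (Om J Z z₀)).S 0)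
    (h : (cOm J Z z₀).app 0 v = (cOm J Z z₀).app 0 w) : vt R v = vt R w := by
  have h1 : cls (SingAct265.ev v (stdSimplex.vertex 0)) =
      cls (SingAct265.ev w (stdSimplex.vertex 0)) := h
  obtain ⟨γ⟩ := cls_eq_iff.1 h1
  have h2 := HZ76.bd_pathS R γ
  have h3 : HZ76.vtx (SingAct265.ev v (stdSimplex.vertex 0)) = v := HZ76.vtx_ev _
  have h4 : HZ76.vtx (SingAct265.ev w (stdSimplex.vertex 0)) = w := HZ76.vtx_ev _
  rw [h3, h4] at h2
  exact (Hd.mk_eq_mk.2 ⟨_, h2⟩).symm

/-- right translations are injective in homology -/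
theorem tr_inj (c : BoxConf (Fin 2) J) (p : (Sing (Om J Z z₀)).S 0)
    (x : H F2 (Sing (Om J Z z₀))) (h : H.map F2 (tr (mulS c) p) x = 0) : x = 0 := by
  obtain ⟨i⟩ : Nonempty J := inferInstance
  set q := (invS i).app 0 p with hq
  have h1 := LinearMap.congr_fun ((tr_tr (SH.of' (mulS_assoc c)) p q).map_eq
    HtpInv334.homotopyInv F2) x
  rw [← Prd328.map_comp, h, map_zero] at h1
  have h2 : H.map F2 (tr (mulS c) ((mulS c).app 0 (p, q))) x =
      H.map F2 (mulS c) (crossH F2 x (vt F2 ((mulS c).app 0 (p, q)))) := KD.map_tr F2 _ x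
  have h3 : vt F2 ((mulS c).app 0 (p, q)) = vt F2 (eS : (Sing (Om J Z z₀)).S 0) := by
    apply vt_eq_of_cOm
    rw [cOm_mulS, hq, cOm_invS, mul_inv_cancel]
    rfl
  rw [h2, h3, mulS_unitR] at h1
  exact h1.symm

end Crest.Agent.R204.Four947
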