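import Crest.Agent.R204.Spec_114
import Crest.Agent.R204.Spine_693

/-!
# Row 204: glue `Spec114.Facts → Spine693.Tower`, part A: the data (helper114)
-/

set_option autoImplicit false

noncomputable section

namespace Crest.Agent.R204.Glue114

open Spec114 TensorProduct
open scoped TensorProduct

variable (X : Spec114.Tower)

/-- primitives of `X_k` -/
abbrev P (k : ℕ) : Type := X.prim k

/-- degree `i` part; for `k = 0` inside the base component -/
def grB : ∀ k : ℕ, ℕ → Submodule F2 (X.H k)
  | 0, i => X.gr 0 i ⊓ Subalgebra.toSubmodule X.base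
  | k + 1, i => X.gr (k + 1) i

/-- homogeneous primitives -/
def deg (k i : ℕ) : Submodule F2 (P X k) := (grB X k i).comap (X.prim k).subtype

theorem mem_deg {k i : ℕ} {x : P X k} : x ∈ deg X k i ↔ (x : X.H k) ∈ grB X k i := Iff.rfl

theorem grB_le (k i : ℕ) : grB X k i ≤ X.gr k i := by
  cases k with
  | zero => exact inf_le_left
  | succ k => exact le_rfl

theorem grB_pos {k : ℕ} (hk : 1 ≤ k) (i : ℕ) : grB X k i = X.gr k i := by
  cases k with
  | zero => omega
  | succ k => rfl

theorem mem_grB_zero {i : ℕ} {x : X.H 0} : x ∈ grB X 0 i ↔ x ∈ X.gr 0 i ∧ x ∈ X.base := Iff.rfl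

variable {X}

theorem two_smul_zero {M : Type} [AddCommGroup M] [Module F2 M] (x : M) : x + x = 0 := by
  have : ((2 : F2)) • x = 0 := by
    have h : (2 : F2) = 0 := by decide
    rw [h, zero_smul]
  rwa [two_smul] at this

/-- squares of primitives are primitive -/
theorem sq_mem_prim {k : ℕ} {y : X.H k} (hy : y ∈ X.prim k) : y * y ∈ X.prim k := by
  rw [Tower.mem_prim] at hy ⊢
  rw [map_mul, hy, add_mul, mul_add, mul_add]
  simp only [Algebra.TensorProduct.tmul_mul_tmul, mul_one, one_mul]
  have := two_smul_zero (y ⊗ₜ[F2] y : X.H k ⊗[F2] X.H k)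
  rw [add_assoc, ← add_assoc (y ⊗ₜ[F2] y), this, zero_add]

theorem add_mul_self' {R : Type} [CommRing R] [Algebra F2 R] (a b : R) :
    (a + b) * (a + b) = a * a + b * b := by
  have := two_smul_zero (a * b)
  calc (a + b) * (a + b) = a * a + b * b + (a * b + a * b) := by ring
    _ = _ := by rw [this, add_zero]

theorem smul_sq {R : Type} [CommRing R] [Algebra F2 R] (c : F2) (a : R) :
    (c • a) * (c • a) = c • (a * a) := by
  rw [smul_mul_smul_comm]
  congr 1
  revert c; decide

variable (X)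

/-- Frobenius on primitives -/
def frob (k : ℕ) : P X k →ₗ[F2] P X k where
  toFun x := ⟨(x : X.H k) * x, sq_mem_prim x.2⟩
  map_add' x y := Subtype.ext (add_mul_self' _ _)
  map_smul' c x := Subtype.ext (smul_sq _ _)

@[simp] theorem coe_frob (k : ℕ) (x : P X k) : ((frob X k x : P X k) : X.H k) = (x : X.H k) * x := rfl

open Classical in
/-- dual Steenrod operations on primitives (zero if they do not preserve primitives) -/
def Sq (k a : ℕ) : P X k →ₗ[F2] P X k :=
  if h : ∀ y ∈ X.prim k, X.Sq k a y ∈ X.prim k then (X.Sq k a).restrict h else 0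

open Classical in
/-- loop suspension on primitives -/
def sig (k : ℕ) : P X k →ₗ[F2] P X (k + 1) :=
  if h : ∀ y ∈ X.prim k, X.σ k y ∈ X.prim (k + 1) then (X.σ k).restrict h else 0

variable {X}

/-- `Sq` preserves primitives -/
theorem Sq_mem_prim {D : ℕ} (hsq : X.FactSq D) {k : ℕ} (hk : k ≤ D + 2) (a : ℕ) :
    ∀ y ∈ X.prim k, X.Sq k a y ∈ X.prim k := by
  obtain ⟨h0, _, hinst, _, hΔ⟩ := hsq k hk
  intro y hy
  rw [Tower.mem_prim] at hy ⊢
  rw [hΔ, hy]
  have h1 : ∀ b, 1 ≤ b → X.Sq k b 1 = 0 := by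
    intro b hb
    have := (hsq k hk).2.2.2.1
    have key : ∀ b, 1 ≤ b → X.Sq k b 1 = 0 := by
      intro b
      induction b using Nat.strong_induction_on with
      | _ b ih =>
        intro hb
        have e := this b 1 1
        rw [mul_one] at e
        have hb' : (0, b) ∈ Finset.HasAntidiagonal.antidiagonal b := by
          rw [Finset.HasAntidiagonal.mem_antidiagonal]; simp
        have hb'' : (b, 0) ∈ (Finset.HasAntidiagonal.antidiagonal b).erase (0, b) := by
          rw [Finset.mem_erase, Finset.HasAntidiagonal.mem_antidiagonal]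
          exact ⟨by intro h; injection h; omega, by simp⟩
        rw [← Finset.add_sum_erase _ _ hb', ← Finset.add_sum_erase _ _ hb''] at e
        rw [Finset.sum_eq_zero] at e
        · simp only [h0, one_mul, mul_one, add_zero] at e
          rw [two_smul_zero] at e
          exact e
        · rintro ⟨p, q⟩ hpq
          simp only [Finset.mem_erase, Finset.HasAntidiagonal.mem_antidiagonal, ne_eq,
            Prod.mk.injEq, not_and] at hpq
          obtain ⟨h1', h2', h3'⟩ := hpq
          have hp : 1 ≤ p := by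
            rcases Nat.eq_zero_or_pos p with rfl | hp
            · exact absurd (by omega) (h2' rfl)
            · exact hp
          have hp' : p < b := by
            rcases Nat.lt_or_ge p b with h | h
            · exact h
            · exact absurd (by omega) (h1' (by omega))
          rw [ih p hp' hp, zero_mul]
    exact key b hb
  simp only [map_add, TensorProduct.map_tmul, Finset.sum_add_distrib]
  congr 1
  · rw [Finset.sum_eq_single (a, 0)]
    · rw [h0]
    · rintro ⟨p, q⟩ hpq hne
      rw [Finset.HasAntidiagonal.mem_antidiagonal] at hpq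
      simp only at hpq
      have : 1 ≤ q := by
        rcases Nat.eq_zero_or_pos q with rfl | hq
        · exact absurd (by simp; omega) hne
        · exact hq
      simp only [h1 q this, TensorProduct.tmul_zero]
    · intro h
      exact absurd (by rw [Finset.HasAntidiagonal.mem_antidiagonal]; simp) h
  · rw [Finset.sum_eq_single (0, a)]
    · rw [h0]
    · rintro ⟨p, q⟩ hpq hne
      rw [Finset.HasAntidiagonal.mem_antidiagonal] at hpq
      simp only at hpq
      have : 1 ≤ p := by
        rcases Nat.eq_zero_or_pos p with rfl | hq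
        · exact absurd (by simp; omega) hne
        · exact hq
      simp only [h1 p this, TensorProduct.zero_tmul]
    · intro h
      exact absurd (by rw [Finset.HasAntidiagonal.mem_antidiagonal]; simp) h

theorem Sq_one {D : ℕ} (hsq : X.FactSq D) {k : ℕ} (hk : k ≤ D + 2) {b : ℕ} (hb : 1 ≤ b)
    (hgr : (1 : X.H k) ∈ X.gr k 0) : X.Sq k b 1 = 0 :=
  (hsq k hk).2.2.1 b 0 1 hgr (by omega)

theorem coe_Sq {D : ℕ} (hsq : X.FactSq D) {k : ℕ} (hk : k ≤ D + 2) (a : ℕ) (x : P X k) :
    ((Sq X k a x : P X k) : X.H k) = X.Sq k a x := by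
  rw [Sq, dif_pos (Sq_mem_prim hsq hk a)]; rfl

theorem coe_sig {D : ℕ} (hσ : X.FactSigma D) {k : ℕ} (hk : k ≤ D + 1) (x : P X k) :
    ((sig X k x : P X (k + 1)) : X.H (k + 1)) = X.σ k x := by
  rw [sig, dif_pos (fun y _ => (hσ k hk).2.1 y)]; rfl

/-! ## spherical families -/

/-- families of Hurewicz images -/
def SphSet (S : Spec114.Sph X) (d : ℕ) : Set (∀ k, P X k) :=
  {h | ∃ α : S.A, ∀ k ≤ d + 1, ((h k : P X k) : X.H k) = S.h k α}

/-! ## T1, T2 (degrees, Frobenius) -/

theorem frob_deg {D : ℕ} (hgr : X.FactGr D) {k : ℕ} (hk : k ≤ D + 2) (i : ℕ) (x : P X k)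
    (hx : x ∈ deg X k i) : frob X k x ∈ deg X k (2 * i) := by
  rw [mem_deg] at hx ⊢
  rw [coe_frob]
  have h := (hgr k hk).2.2 i i x x (grB_le X k i hx) (grB_le X k i hx)
  rw [← two_mul] at h
  cases k with
  | zero => exact ⟨h, X.base.mul_mem hx.2 hx.2⟩
  | succ k => exact h

theorem sig_deg {D : ℕ} (hσ : X.FactSigma D) {k : ℕ} (hk : k ≤ D + 1) (i : ℕ) (x : P X k)
    (hx : x ∈ deg X k i) : sig X k x ∈ deg X (k + 1) (i + 1) := by
  rw [mem_deg] at hx ⊢
  rw [coe_sig hσ hk]
  exact (hσ k hk).1 i x (grB_le X k i hx)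

theorem Sq_deg {D : ℕ} (hsq : X.FactSq D) (hb : X.FactBase D) {k : ℕ} (hk : k ≤ D + 2) (i : ℕ)
    (x : P X k) (hx : x ∈ deg X k i) (a : ℕ) : Sq X k a x ∈ deg X k (i - a) := by
  rw [mem_deg] at hx ⊢
  rw [coe_Sq hsq hk]
  have h := (hsq k hk).2.1 a i x (grB_le X k i hx)
  cases k with
  | zero => exact ⟨h, hb.2 a _ hx.2⟩
  | succ k => exact h

theorem frob_Sq {D : ℕ} (hsq : X.FactSq D) {k : ℕ} (hk : k ≤ D + 2) (a : ℕ) (x : P X k) :
    Sq X k (2 * a) (frob X k x) = frob X k (Sq X k a x) := by
  apply Subtype.ext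
  rw [coe_Sq hsq hk, coe_frob, coe_frob, coe_Sq hsq hk, (hsq k hk).2.2.2.1]
  have hmem : (a, a) ∈ Finset.HasAntidiagonal.antidiagonal (2 * a) := by
    rw [Finset.HasAntidiagonal.mem_antidiagonal]; simp only; omega
  rw [← Finset.add_sum_erase _ _ hmem]
  rw [add_eq_left]
  refine Finset.sum_involution (fun p _ => (p.2, p.1)) ?_ ?_ ?_ ?_
  · rintro ⟨p, q⟩ _
    simp only
    rw [mul_comm (X.Sq k q _)]
    exact two_smul_zero _
  · rintro ⟨p, q⟩ hpq _ h
    simp only [Finset.mem_erase, ne_eq, Finset.HasAntidiagonal.mem_antidiagonal,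
      Prod.mk.injEq, not_and] at hpq h
    exact hpq.1 (by omega) (by omega)
  · rintro ⟨p, q⟩ hpq
    simp only [Finset.mem_erase, ne_eq, Finset.HasAntidiagonal.mem_antidiagonal,
      Prod.mk.injEq, not_and] at hpq ⊢
    exact ⟨fun h1 h2 => hpq.1 (by omega) (by omega), by omega⟩
  · rintro ⟨p, q⟩ _; rfl

end Crest.Agent.R204.Glue114
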