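import Crest.Agent.R204.StageC_114
import Crest.Agent.R204.GL2D_735
import Crest.Agent.R204.Hopf4i_450

/-!
# Row 204: the stage `Sing (Ω^J Z)` (helper114)
-/

set_option autoImplicit false
set_option linter.style.haveILetI false

noncomputable section

namespace Crest.Agent.R204.Stage114

open Spec114 TensorProduct Hopf450 Coalg847 EZ847 ThAlg265 SS Cubes735
open scoped TensorProduct

/-- (P4) for all simplicial sets -/
def P4All (S : SqAll) : Prop := ∀ (M : ℕ) (K : SS) (i t : ℕ) (hi : i ≤ M), 1 ≤ i → i + 1 ≤ M →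
  ∀ y ∈ Crest.Agent.R204.H.gr F2 K t, OpsHopf557.P4At M K (S.Sq K) i t hi y

variable {J Z : Type} [Finite J] [Nontrivial J] [TopologicalSpace Z] {z₀ : Z} {M : ℕ}

/-- the stage `Sing (Ω^J Z)`; `k` = the coordinates used by `Θ`, `c` = configuration for the
product -/
def stOm (Z : Type) [TopologicalSpace Z] (z₀ : Z) (k : Fin (M + 1) ↪ J) (c : BoxConf (Fin 2) J)
    (S : SqAll) : Stage :=
  stage (omAlg k (HspSS696.mulS c) : ThAlg M (Sing (HspSS696.Om J Z z₀))) (omMon c) (S.Sq _)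

theorem stOm_facts {k k' : Fin (M + 1) ↪ J} (hd : ∀ x y, k x ≠ k' y) (c : BoxConf (Fin 2) J)
    (S : SqAll) (h4 : P4All S) {D : ℕ} (hD : D + 2 ≤ M) : (stOm Z z₀ k c S).Facts D :=
  stageFacts _ _ S rfl rfl (omAlg_oneLaw k _) (GL2735.omAlg_Vertex k c) hD
    (fun i hi h1 h2 t y hy => h4 M _ i t hi h1 (by omega) y hy)
    (fun i j hij y => GL2735.omAlg_gl2 hd (HspSS696.mulS c) (by omega) y)

end Crest.Agent.R204.Stage114
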