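import Crest.Agent.R204.Inst_194
import Crest.Agent.R204.StageOm_114
import Crest.Agent.R204.P4c_742
import Crest.Agent.R204.SqCartan_898

/-!
# Row 204: the one-stage facts for the concrete tower `p.tower` of `Inst_194` (helper114)
-/

set_option autoImplicit false
set_option linter.style.haveILetI false

noncomputable section

namespace Crest.Agent.R204.Inst194

namespace Par

open Stage114

variable (p : Par) (D : ℕ)

theorem factGr : p.tower.FactGr D :=
  fun k _ => stage_gr (p.A k) (p.N k) (Sq252.Sq (p.S k))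

theorem factEps : p.tower.FactEps D :=
  fun k _ => stage_eps (p.A k) (p.N k) (Sq252.Sq (p.S k))

theorem factDelta : p.tower.FactDelta D :=
  fun k _ => stage_delta (p.A k) (p.N k) (Sq252.Sq (p.S k))

/-- the vertex law -/
theorem vertexA (k : ℕ) : (p.A k).Vertex := by
  haveI : Nontrivial (Fin (cd p.J0 p.K k)) := Fin.nontrivial_iff_two_le.2 (two_le p.hM (p.hc k))
  exact GL2735.omAlg_Vertex _ _

theorem factT0 : p.tower.FactT0 D :=
  fun k _ => stage_t0 (p.A k) (p.N k) (Sq252.Sq (p.S k)) (p.vertexA k) rfl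

theorem factQ {D : ℕ} (hD : D + 2 ≤ p.M) : p.tower.FactQ D :=
  fun k _ => stage_q (p.A k) (p.N k) (Sq252.Sq (p.S k)) (p.vertexA k) rfl hD

theorem fact13 {D : ℕ} (hD : D + 2 ≤ p.M) : p.tower.Fact13 D :=
  fun k _ => stage_f13 (p.A k) (p.N k) (Sq252.Sq (p.S k)) (by omega)
    (fun i _ _ h2 _ _ hy => P4.p4At (K := p.S k) (i := i) (by omega) hy)

/-- the second block of `M + 1` coordinates -/
def emb' {M j : ℕ} (h : 2 * (M + 1) ≤ j) : Fin (M + 1) ↪ Fin j :=
  ⟨fun i => ⟨M + 1 + i, by have := i.2; omega⟩, fun a b hab => by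
    have := congrArg Fin.val hab
    simp only at this
    exact Fin.ext (by omega)⟩

theorem emb_ne_emb' {M j : ℕ} (h1 : M + 1 ≤ j) (h : 2 * (M + 1) ≤ j) (x y : Fin (M + 1)) :
    emb h1 x ≠ emb' h y := by
  intro hxy
  have := congrArg Fin.val hxy
  have hx := x.2
  simp only [emb_val, emb', Function.Embedding.coeFn_mk] at this
  omega

theorem factGL2 {D : ℕ} (hD : D + 1 ≤ p.M) (hJ : 2 * (p.M + 1) ≤ p.J0) : p.tower.FactGL2 D := by
  intro k _ i j hij y
  have h2 : 2 * (p.M + 1) ≤ cd p.J0 p.K k := by simp only [cd]; omega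
  exact GL2735.omAlg_gl2 (emb_ne_emb' (p.hc k) h2) _ (by omega) y

/-! ## Steenrod operations -/

/-- the Steenrod package without the Adem relations -/
def sqMost : SqMost where
  toSqSys := C6898.sqSys
  zero _ x := Sq252.Sq_zero x
  mem_gr _ _ _ _ hx := Sq252.Sq_mem_gr hx
  unst _ _ _ _ hx h := Sq252.Sq_unst hx h

theorem factSq : p.tower.FactSq D := fun k _ => stage_sq (p.A k) (p.N k) sqMost

theorem factT {D : ℕ} (hD : D + 1 ≤ p.M) : p.tower.FactT D :=
  fun k _ => stage_tf (p.A k) (p.N k) sqMost (thA_oneLaw _) rfl (D := D) hD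

/-- Adem relations -/
theorem factBM (h : ∀ K : SS, Spec114.Tower.DualBM (Sq252.Sq K)) : p.tower.FactBM D :=
  fun k _ => h (p.S k)

end Par

end Crest.Agent.R204.Inst194
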