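import Crest.Agent.R204.Inst_194
import Crest.Agent.R204.FactSph_478
import Crest.Agent.R204.Hopf11c_478
import Crest.Agent.R204.CompB_696
import Crest.Agent.R204.CompOps_696

/-!
# Row 204, SP3 (helper478): spherical classes in the concrete tower

`pSph p e : Sph p.tower` = the spherical classes of dimension `e + 1`; `FactSph` for them.
-/

set_option autoImplicit false
set_option linter.style.haveILetI false

noncomputable section

namespace Crest.Agent.R204.InstSph478

open scoped TensorProduct Topology unitInterval Topology.Homotopy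
open Crest.Agent.R204 Spec114 Cone330 SphSS478 FactSph478 Inst194 Freu297 Sus330
open Crest.Agent.R204.HspSS696 (mulS eS ptS mulS_base mulS_unit_left mulS_unit_right)
open Crest.Agent.R204.Hsp696 (halves)

/-- primitivity with the coproduct of an `EZData` -/
theorem cop_scl {K : SS} {b : K.S 0} {e : ℕ} (x : K.S (e + 1)) (hx : IsSph b x) :
    EZ847.ezd.cop K (scl x hx) =
      scl x hx ⊗ₜ[F2] Coalg847.vtx b + Coalg847.vtx b ⊗ₜ[F2] scl x hx :=
  scl_prim (EZ847.ezd.cop (Sp e)) (EZ847.ezd.cop K) (Coalg847.eps (Sp e)) (Coalg847.eps_vtx _)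
    (fun _ hy => Coalg847.eps_gr (Nat.succ_ne_zero e) hy) (EZ847.ezd.eps_cop) (EZ847.ezd.cop_eps)
    (EZ847.ezd.cop_mem_gr (fun K => Gr334.isInternal_H F2 K) (scl_mem_gr _ _)) x hx
    (fun y => EZ847.ezd.cop_nat (clas x hx) y)

theorem sq_scl {K : SS} {b : K.S 0} {e a : ℕ} (ha : 1 ≤ a) (x : K.S (e + 1)) (hx : IsSph b x) :
    Sq252.Sq K a (scl x hx) = 0 :=
  scl_sq ha (Sq252.Sq (Sp e) a) (Sq252.Sq K a) (fun _ hy => Sq252.Sq_mem_gr hy)
    (fun h _ hy => Sq252.Sq_unst hy h) x hx (fun y => (Sq252.Sq_map (clas x hx) a y).symm)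

variable (p : Par)

/-- the spherical classes of the tower -/
def pSph (e : ℕ) : Sph p.tower :=
  mkSph p.tower (Asph (p.S 0) eS e) (fun α => scl α.1 α.2)
    (mulA (mu0 (p.hc 0)) (mulS_base (halves (i0 (p.hc 0)))))

theorem pSph_h0 (e : ℕ) (α : Asph (p.S 0) eS e) : (pSph p e).h 0 α = scl α.1 α.2 := rfl

theorem pSph_succ (e k : ℕ) (α : Asph (p.S 0) eS e) :
    (pSph p e).h (k + 1) α = p.sig k ((pSph p e).h k α) := rfl

theorem pSph_prim (e : ℕ) (α : Asph (p.S 0) eS e) : (pSph p e).h 0 α ∈ p.tower.prim 0 :=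
  cop_scl α.1 α.2

theorem pSph_base (e : ℕ) (α : Asph (p.S 0) eS e) : (pSph p e).h 0 α ∈ p.tower.base := by
  haveI : Nontrivial (Fin (cd p.J0 p.K 0)) := Fin.nontrivial_iff_two_le.2 (two_le p.hM (p.hc 0))
  have h := Comp696.sph_mem F2 α.1 (fun i => IsSph.face α.2 i) (bd_sph α.2)
  exact h

theorem factSph {D e : ℕ} (hσ : p.tower.FactSigma D) : (pSph p e).FactSph D (e + 1) :=
  factSph_mk hσ (fun α => scl_mem_gr α.1 α.2) (pSph_prim p e)
    (fun α _ ha => sq_scl ha α.1 α.2)
    (fun α β => scl_mulS (halves (i0 (p.hc 0))) α β) (pSph_base p e)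

end Crest.Agent.R204.InstSph478
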