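import Crest.Agent.R204.EZF2_271
import Crest.Agent.R204.EZSym_847
import Crest.Agent.R204.Coalg_847a
import Crest.Agent.R204.Gr_334

/-!
# Row 204, block A-EZ (helper271): Künneth surjectivity on cycles, over `F2`, with degrees.
-/

set_option autoImplicit false

namespace Crest.Agent.R204.EZ271

open TensorProduct

variable {K L : SS}

theorem tD_eq_dT : Coalg847.tD (N.bd F2 K) (N.bd F2 L) = QC134.dT (N.bd F2 K) (N.bd F2 L) := by
  refine TensorProduct.ext' fun x y => ?_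
  simp [QC134.dT]

/-- every cycle of the tensor product is a sum of products of cycles, up to a boundary -/
theorem tensor_cycle (z : N F2 K ⊗[F2] N F2 L) (hz : QC134.dT (N.bd F2 K) (N.bd F2 L) z = 0) :
    ∃ u, z + QC134.dT (N.bd F2 K) (N.bd F2 L) u ∈
      Submodule.span F2 {t | ∃ (a : N F2 K) (b : N F2 L), N.bd F2 K a = 0 ∧ N.bd F2 L b = 0 ∧
        t = a ⊗ₜ[F2] b} := by
  rw [← tD_eq_dT] at hz ⊢
  obtain ⟨t, ht⟩ := (Coalg847.kun (N.bd F2 K) (N.bd F2 L) N.bd_bd N.bd_bd).surjective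
    (Hd.mk _ z hz)
  have key : ∀ t : H F2 K ⊗[F2] H F2 L, ∃ (v : N F2 K ⊗[F2] N F2 L)
      (hv : Coalg847.tD (N.bd F2 K) (N.bd F2 L) v = 0),
      v ∈ Submodule.span F2 {t | ∃ (a : N F2 K) (b : N F2 L), N.bd F2 K a = 0 ∧ N.bd F2 L b = 0 ∧
        t = a ⊗ₜ[F2] b} ∧
      Coalg847.kun (N.bd F2 K) (N.bd F2 L) N.bd_bd N.bd_bd t = Hd.mk _ v hv := by
    intro t
    induction t with
    | zero => exact ⟨0, map_zero _, Submodule.zero_mem _, by rw [map_zero]; rfl⟩
    | add x y hx hy =>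
      obtain ⟨v, hv, h1, h2⟩ := hx
      obtain ⟨v', hv', h1', h2'⟩ := hy
      refine ⟨v + v', by rw [map_add, hv, hv', add_zero], Submodule.add_mem _ h1 h1', ?_⟩
      rw [map_add, h2, h2']; rfl
    | tmul x y =>
      obtain ⟨a, ha, rfl⟩ := Hd.mk_surj _ x
      obtain ⟨b, hb, rfl⟩ := Hd.mk_surj _ y
      exact ⟨a ⊗ₜ b, Coalg847.tD_mk ha hb, Submodule.subset_span ⟨a, b, ha, hb, rfl⟩,
        Coalg847.kun_mk _ _ _ _ a ha b hb⟩
  obtain ⟨v, hv, h1, h2⟩ := key t
  rw [ht, Hd.mk_eq_mk] at h2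
  obtain ⟨u, hu⟩ := h2
  refine ⟨u, ?_⟩
  rw [hu, QC134.sub_eq', ← add_assoc, QC134.add_self', zero_add]
  exact h1

open Gr334 in
theorem prN_cross (m : ℕ) (a : N F2 K) (b : N F2 L) :
    prN F2 (K.prod L) m (cross F2 a b) =
      ∑ p ∈ Finset.HasAntidiagonal.antidiagonal m, cross F2 (prN F2 K p.1 a) (prN F2 L p.2 b) := by
  have h : (cross F2 (K := K) (L := L)).compr₂ (prN F2 (K.prod L) m) =
      ∑ p ∈ Finset.HasAntidiagonal.antidiagonal m,
        (cross F2 (K := K) (L := L)).compl₁₂ (prN F2 K p.1) (prN F2 L p.2) := by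
    refine bilin_ext F2 fun p x q y => ?_
    simp only [LinearMap.compr₂_apply, LinearMap.sum_apply, LinearMap.compl₁₂_apply]
    have h1 : cross F2 (N.sx F2 x) (N.sx F2 y) ∈ N.gr F2 (K.prod L) (p + q) :=
      EZ847.cross_mem_gr F2 (sx_mem_gr x) (sx_mem_gr y)
    by_cases e : p + q = m
    · subst e
      rw [prN_of_mem h1, Finset.sum_eq_single (p, q)]
      · rw [prN_sx_self, prN_sx_self]
      · rintro ⟨i, j⟩ hij hne
        by_cases hi : p = i
        · subst hi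
          have : q ≠ j := fun h => hne (by rw [h])
          rw [prN_sx_ne this, map_zero]
        · rw [prN_sx_ne hi, map_zero, LinearMap.zero_apply]
      · intro hn
        exact absurd (Finset.HasAntidiagonal.mem_antidiagonal.2 (rfl : (p, q).1 + (p, q).2 = p + q)) hn
    · rw [prN_of_mem_ne e h1]
      symm
      refine Finset.sum_eq_zero fun r hr => ?_
      rw [Finset.HasAntidiagonal.mem_antidiagonal] at hr
      by_cases hi : p = r.1
      · have : q ≠ r.2 := fun h => e (by omega)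
        rw [prN_sx_ne this, map_zero]
      · rw [prN_sx_ne hi, map_zero, LinearMap.zero_apply]
  have := LinearMap.congr_fun (LinearMap.congr_fun h a) b
  simpa [LinearMap.sum_apply] using this

/-- products of homogeneous cycles -/
def CrSet (K L : SS) (m : ℕ) : Set (N F2 (K.prod L)) :=
  {t | ∃ (p q : ℕ) (a : N F2 K) (b : N F2 L), p + q = m ∧ a ∈ N.gr F2 K p ∧ b ∈ N.gr F2 L q ∧
    N.bd F2 K a = 0 ∧ N.bd F2 L b = 0 ∧ t = cross F2 a b}

open Gr334 in
/-- **Künneth surjectivity**, span form -/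
theorem cross_surj_span (m : ℕ) (w : N F2 (K.prod L)) (hw : w ∈ N.gr F2 (K.prod L) m)
    (h0 : N.bd F2 (K.prod L) w = 0) :
    ∃ b ∈ N.gr F2 (K.prod L) (m + 1), w + N.bd F2 _ b ∈ Submodule.span F2 (CrSet K L m) := by
  obtain ⟨z, w', hz, hzw⟩ := (qi_crossT (K := K) (L := L)).surj w h0
  obtain ⟨u, hu⟩ := tensor_cycle z hz
  have hS : ∀ t ∈ Submodule.span F2 {t | ∃ (a : N F2 K) (b : N F2 L), N.bd F2 K a = 0 ∧
      N.bd F2 L b = 0 ∧ t = a ⊗ₜ[F2] b},
      prN F2 (K.prod L) m (crossT F2 t) ∈ Submodule.span F2 (CrSet K L m) := by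
    intro t ht
    refine Submodule.span_induction (p := fun t _ => prN F2 (K.prod L) m (crossT F2 t) ∈
      Submodule.span F2 (CrSet K L m)) ?_ ?_ ?_ ?_ ht
    · rintro _ ⟨a, b, ha, hb, rfl⟩
      rw [crossT_tmul, prN_cross]
      refine Submodule.sum_mem _ fun r hr => Submodule.subset_span ?_
      rw [Finset.HasAntidiagonal.mem_antidiagonal] at hr
      exact ⟨r.1, r.2, _, _, hr, prN_mem _ _, prN_mem _ _, bd_prN_eq_zero ha _, bd_prN_eq_zero hb _, rfl⟩
    · simp only [map_zero]; exact Submodule.zero_mem _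
    · intro x y _ _ hx hy; simp only [map_add]; exact Submodule.add_mem _ hx hy
    · intro r x _ hx; simp only [map_smul]; exact Submodule.smul_mem _ _ hx
  have h1 := hS _ hu
  rw [map_add, (qi_crossT (K := K) (L := L)).comm, map_add, prN_bd] at h1
  have h2 : w = prN F2 _ m (crossT F2 z) + N.bd F2 _ (prN F2 _ (m + 1) w') := by
    have := congrArg (prN F2 (K.prod L) m) hzw
    rwa [prN_of_mem hw, map_add, prN_bd] at this
  refine ⟨prN F2 _ (m + 1) (crossT F2 u) + prN F2 _ (m + 1) w',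
    Submodule.add_mem _ (prN_mem _ _) (prN_mem _ _), ?_⟩
  have h3 : w + N.bd F2 _ (prN F2 _ (m + 1) (crossT F2 u) + prN F2 _ (m + 1) w') =
      prN F2 _ m (crossT F2 z) + N.bd F2 _ (prN F2 _ (m + 1) (crossT F2 u)) := by
    conv_lhs => rw [h2]
    rw [map_add]
    have := QC134.add_self' (N.bd F2 (K.prod L) (prN F2 _ (m + 1) w'))
    calc _ = prN F2 _ m (crossT F2 z) + N.bd F2 _ (prN F2 _ (m + 1) (crossT F2 u)) +
        (N.bd F2 (K.prod L) (prN F2 _ (m + 1) w') + N.bd F2 (K.prod L) (prN F2 _ (m + 1) w')) := by abel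
      _ = _ := by rw [this, add_zero]
  rw [h3]; exact h1

/-- **Künneth surjectivity**: a homogeneous cycle of a product is homologous to a sum of products of
homogeneous cycles. -/
theorem cross_surj (K L : SS) (m : ℕ) (w : N F2 (K.prod L)) (hw : w ∈ N.gr F2 (K.prod L) m)
    (h0 : N.bd F2 (K.prod L) w = 0) :
    ∃ (s : ℕ) (Y : Fin s → N F2 K) (Z : Fin s → N F2 L) (p q : Fin s → ℕ),
      (∀ i, p i + q i = m ∧ Y i ∈ N.gr F2 K (p i) ∧ Z i ∈ N.gr F2 L (q i) ∧
        N.bd F2 K (Y i) = 0 ∧ N.bd F2 L (Z i) = 0) ∧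
      ∃ b ∈ N.gr F2 (K.prod L) (m + 1), w + ∑ i, cross F2 (Y i) (Z i) = N.bd F2 _ b := by
  obtain ⟨b, hb, h⟩ := cross_surj_span m w hw h0
  obtain ⟨s, f, g, hs⟩ := Submodule.mem_span_set'.1 h
  choose p q Y Z h1 h2 h3 h4 h5 h6 using fun i => (g i).2
  refine ⟨s, fun i => f i • Y i, Z, p, q, fun i => ⟨h1 i, Submodule.smul_mem _ _ (h2 i), h3 i, ?_, h5 i⟩,
    b, hb, ?_⟩
  · rw [map_smul, h4 i, smul_zero]
  · have : ∑ i, cross F2 (f i • Y i) (Z i) = w + N.bd F2 _ b := by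
      rw [← hs]
      refine Finset.sum_congr rfl fun i _ => ?_
      rw [h6 i, map_smul, LinearMap.smul_apply]
    rw [this, ← add_assoc, QC134.add_self', zero_add]

end Crest.Agent.R204.EZ271
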