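import Crest.Agent.R204.KDec_810
import Crest.Agent.R204.KSurj_271

/-!
# Row 204, leaf G4 (helper810): Kuenneth decomposition, unconditional form

`decomp'` = `KDec810.decomp` with 271's `cross_surj`, hypotheses `h0`, `hfin` at the level of homology.
-/

set_option autoImplicit false

namespace Crest.Agent.R204.KDec810

open EZ271 Pont718 Gr334

variable {K L X : SS}

theorem add_mem_range_iff {z w : N F2 X} (hz : N.bd F2 X z = 0) (hw : N.bd F2 X w = 0) :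
    z + w ∈ LinearMap.range (N.bd F2 X) ↔ Hd.mk (N.bd F2 X) z hz = Hd.mk (N.bd F2 X) w hw := by
  rw [Hd.mk_eq_mk, f2_sub]; rfl

/-- a finite generating family of `H_i` at chain level -/
theorem hfin_of_H (i : ℕ) (h : Module.Finite F2 (H.gr F2 X i)) :
    ∃ (s : ℕ) (g : Fin s → N F2 X), (∀ j, g j ∈ N.gr F2 X i ∧ N.bd F2 X (g j) = 0) ∧
      ∀ z ∈ N.gr F2 X i, N.bd F2 X z = 0 → ∃ r : Fin s → F2,
        z + ∑ j, r j • g j ∈ LinearMap.range (N.bd F2 X) := by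
  classical
  let b := Module.finBasis F2 (H.gr F2 X i)
  have hb : ∀ j, ∃ z ∈ N.gr F2 X i, ∃ hz, (b j : H F2 X) = Hd.mk (N.bd F2 X) z hz :=
    fun j => mem_H_gr.1 (b j).2
  choose g hg1 hg2 hg3 using hb
  refine ⟨_, g, fun j => ⟨hg1 j, hg2 j⟩, fun z hz hz' => ?_⟩
  let c : H.gr F2 X i := ⟨Hd.mk (N.bd F2 X) z hz', mk_mem_gr hz hz'⟩
  refine ⟨fun j => b.repr c j, ?_⟩
  have hs : N.bd F2 X (∑ j, b.repr c j • g j) = 0 := by
    rw [map_sum]
    exact Finset.sum_eq_zero fun j _ => by rw [map_smul, hg2, smul_zero]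
  rw [add_mem_range_iff hz' hs]
  have h1 := congrArg Subtype.val (b.sum_repr c)
  rw [AddSubmonoidClass.coe_finsetSum] at h1
  refine h1.symm.trans ?_
  have h2 : ∀ j, ((b.repr c j • b j : H.gr F2 X i) : H F2 X) =
      b.repr c j • Hd.mk (N.bd F2 X) (g j) (hg2 j) := fun j => by
    rw [← hg3]; rfl
  rw [Finset.sum_congr rfl fun j _ => h2 j]
  have h3 : ∀ j, b.repr c j • Hd.mk (N.bd F2 X) (g j) (hg2 j) =
      Hd.mk (N.bd F2 X) (b.repr c j • g j) (by rw [map_smul, hg2, smul_zero]) := fun j => rfl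
  rw [Finset.sum_congr rfl fun j _ => h3 j]
  exact (mk_sum (R := F2) Finset.univ (fun j => b.repr c j • g j)
    (fun j => by rw [map_smul, hg2, smul_zero]) hs).symm

/-- `H_0` generated by the class of a vertex, at chain level -/
theorem h0_of_H (e : X.S 0)
    (h : ∀ x ∈ H.gr F2 X 0, ∃ r : F2, x = r • Hd.mk (N.bd F2 X) (N.sx F2 e) (Gr334.bd_sx_zero e)) :
    ∀ z ∈ N.gr F2 X 0, ∃ r : F2, z + r • N.sx F2 e ∈ LinearMap.range (N.bd F2 X) := by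
  intro z hz
  have hz' : N.bd F2 X z = 0 := bd_gr_zero hz
  obtain ⟨r, hr⟩ := h _ (mk_mem_gr hz hz')
  have he : N.bd F2 X (r • N.sx F2 e) = 0 := by rw [map_smul, Gr334.bd_sx_zero, smul_zero]
  exact ⟨r, (add_mem_range_iff hz' he).2 hr⟩

/-- **Kuenneth decomposition**, unconditional form -/
theorem decomp' (e : X.S 0) {m : ℕ} (hm : 0 < m) (V : Co F2 (X.prod X)) (hVd : IsDeg m V)
    (hVc : V ∘ₗ N.bd F2 (X.prod X) = 0) (U : Co F2 X) (hUd : IsDeg m U) (hUc : U ∘ₗ N.bd F2 X = 0)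
    (hV1 : ∀ y ∈ N.gr F2 X m, N.bd F2 X y = 0 → V (cross F2 y (N.sx F2 e)) = U y)
    (hV2 : ∀ y ∈ N.gr F2 X m, N.bd F2 X y = 0 → V (cross F2 (N.sx F2 e) y) = U y)
    (h0 : ∀ x ∈ H.gr F2 X 0, ∃ r : F2,
      x = r • Hd.mk (N.bd F2 X) (N.sx F2 e) (Gr334.bd_sx_zero e))
    (hfin : ∀ i, 0 < i → i < m → Module.Finite F2 (H.gr F2 X i)) :
    ∃ (s : ℕ) (x y : Fin s → Co F2 X) (p q : Fin s → ℕ) (b : Co F2 (X.prod X)),
      (∀ i, 0 < p i ∧ 0 < q i ∧ p i + q i = m ∧ IsDeg (p i) (x i) ∧ IsDeg (q i) (y i) ∧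
        x i ∘ₗ N.bd F2 X = 0 ∧ y i ∘ₗ N.bd F2 X = 0) ∧ IsDeg (m - 1) b ∧
      V = crs U (aug F2) + crs (aug F2) U + ∑ i, crs (x i) (y i) + b ∘ₗ N.bd F2 (X.prod X) := by
  refine decomp e hm V hVd hVc U hUd hUc hV1 hV2 ?_ (h0_of_H e h0) fun i hi hi' =>
    hfin_of_H i (hfin i hi hi')
  intro w hw hw'
  obtain ⟨s, Y, Z, p, q, h1, b, -, hb⟩ := cross_surj X X m w hw hw'
  exact ⟨s, Y, Z, p, q, h1, b, hb.symm⟩

end Crest.Agent.R204.KDec810
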