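import Crest.Agent.R204.PontH_718
import Crest.Agent.R204.KDec2_810
import Crest.Agent.R204.Bock_947

/-!
# Row 204, leaf G4 (helper718): main theorem of 8.6 in homology.

`A₂ = z·z + i c` spherical (simplex with constant faces), `ρ z` primitive, `m` even ⟹
`Sq^m_* c = Rk X 0 c = ρ z`.
-/

set_option autoImplicit false

namespace Crest.Agent.R204.Pont718

open EZ271 Coef947 Sq252 Phi252 DK742 TensorProduct Prd328

variable {K L X : SS}

/-- functionals of degree `m` separate classes of degree `m` -/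
theorem H_ext_gr {m : ℕ} {x y : H F2 K} (hx : x ∈ H.gr F2 K m) (hy : y ∈ H.gr F2 K m)
    (h : ∀ (u : Co F2 K) (hu : ∀ x, u (N.bd F2 K x) = 0), IsDeg m u →
      uH _ u hu x = uH _ u hu y) : x = y := by
  obtain ⟨a, ha, ha', rfl⟩ := Gr334.mem_H_gr.1 hx
  obtain ⟨b, hb, hb', rfl⟩ := Gr334.mem_H_gr.1 hy
  refine Hd_ext (bdd K) fun u hu => ?_
  have hu' : ∀ x, (u ∘ₗ Gr334.prN F2 K m) (N.bd F2 K x) = 0 := fun x => by
    rw [LinearMap.comp_apply, Gr334.prN_bd, hu]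
  have hd : IsDeg m (u ∘ₗ Gr334.prN F2 K m) := fun n x hn => by
    rw [LinearMap.comp_apply, Gr334.prN_sx_ne hn, map_zero]
  have := h _ hu' hd
  rw [uH_mk, uH_mk, LinearMap.comp_apply, LinearMap.comp_apply, Gr334.prN_of_mem ha,
    Gr334.prN_of_mem hb] at this
  exact this

/-- **VPair**, (b1) -/
theorem Rk_eq_of_cup {m : ℕ} {c z : N F2 K} (hc : c ∈ N.gr F2 K (2 * m)) (hc' : N.bd F2 K c = 0)
    (hz : z ∈ N.gr F2 K m) (hz' : N.bd F2 K z = 0)
    (h : ∀ u : Co F2 K, IsDeg m u → u ∘ₗ N.bd F2 K = 0 → cup u u c = u z) :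
    Rk K 0 (Hd.mk _ c hc') = Hd.mk _ z hz' := by
  have hcg := Gr334.mk_mem_gr hc hc'
  refine H_ext_gr (Rk_mem_gr (by omega) hcg) (Gr334.mk_mem_gr hz hz') fun u hu hd => ?_
  rw [uH_Rk, uH_mk, uu_eq_pf, ← cup_eq_pf]
  exact h u hd (LinearMap.ext hu)

/-- **VPair**, (b2) -/
theorem Rk_eq_zero_of_cup {m : ℕ} {c : N F2 K} (hc : c ∈ N.gr F2 K (2 * m)) (hc' : N.bd F2 K c = 0)
    (h : ∀ u : Co F2 K, IsDeg m u → u ∘ₗ N.bd F2 K = 0 → cup u u c = 0) :
    Rk K 0 (Hd.mk _ c hc') = 0 := by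
  have := Rk_eq_of_cup hc hc' (Submodule.zero_mem (N.gr F2 K m)) (map_zero _)
    (fun u hd hu => by rw [h u hd hu, map_zero])
  rw [this]
  exact Hd.mk_eq_zero.2 ⟨0, map_zero _⟩

/-- `Rk 0 = Sq^m_*` in degree `2m` -/
theorem Rk_zero_eq_Sq {m : ℕ} {x : H F2 K} (hx : x ∈ H.gr F2 K (2 * m)) : Rk K 0 x = Sq K m x :=
  Rk_eq_Sq hx rfl

/-- boundary of a simplex with constant faces -/
theorem sph_bd {R : Type} [CommRing R] {k : ℕ} (hk : 1 ≤ k) (A : X.S (k + 1)) (e : X.S 0)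
    (hA : ∀ i : Fin (k + 2), X.act (Op.face i) A = X.act (⟨fun _ => 0, fun _ _ _ => le_rfl⟩ : Op k 0) e) :
    N.bd R X (N.sx R A) = 0 := by
  rw [EZ271.bd_sx_succ]
  refine Finset.sum_eq_zero fun i _ => ?_
  rw [hA, sx_act_eq_zero _ _ 0 hk rfl, smul_zero]

/-- `a ∪ b` is the pull-back of `a × b` along the diagonal -/
theorem cup_eq_crs (a b : Co F2 K) : cup a b = crs a b ∘ₗ N.map F2 (SS.diag K) := by
  unfold crs
  rw [cup_map]
  have h1 : (a ∘ₗ N.map F2 (SS.fst K K)) ∘ₗ N.map F2 (SS.diag K) = a := by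
    refine LinearMap.ext fun w => ?_
    rw [LinearMap.comp_apply, LinearMap.comp_apply, EZ271.map_map]
    exact congrArg a (Phi252.map_id w)
  have h2 : (b ∘ₗ N.map F2 (SS.snd K K)) ∘ₗ N.map F2 (SS.diag K) = b := by
    refine LinearMap.ext fun w => ?_
    rw [LinearMap.comp_apply, LinearMap.comp_apply, EZ271.map_map]
    exact congrArg b (Phi252.map_id w)
  rw [h1, h2]

theorem cocycle_eq {u : Co F2 K} (hu : u ∘ₗ N.bd F2 K = 0) {z z' : N F2 K} (hz : N.bd F2 K z = 0)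
    (hz' : N.bd F2 K z' = 0) (h : Hd.mk (N.bd F2 K) z hz = Hd.mk (N.bd F2 K) z' hz') : u z = u z' := by
  rw [Hd.mk_eq_mk] at h
  obtain ⟨w, hw⟩ := h
  have := LinearMap.congr_fun hu w
  rw [LinearMap.comp_apply, hw, map_sub, LinearMap.zero_apply] at this
  exact sub_eq_zero.1 this

/-- **8.6, homology form** -/
theorem pont {m k : ℕ} (hm : 0 < m) (hm2 : Even m) (hk : k + 1 = 2 * m)
    (μ : SS.Hom (X.prod X) X) (e : X.S 0)
    (hμ1 : ∀ x ∈ H.gr F2 X m, H.map F2 μ (crossH F2 x (vt F2 e)) = x)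
    (hμ2 : ∀ x ∈ H.gr F2 X m, H.map F2 μ (crossH F2 (vt F2 e) x) = x)
    (h0 : ∀ x ∈ H.gr F2 X 0, ∃ r : F2, x = r • vt F2 e)
    (hfin : ∀ i, 0 < i → i < m → Module.Finite F2 (H.gr F2 X i))
    (z : H (ZMod 4) X) (hz : z ∈ H.gr (ZMod 4) X m)
    (hprim : H.map F2 (SS.diag X) (coH (Coef947.rho 4 2 (by norm_num)) X z) =
      crossH F2 (coH (Coef947.rho 4 2 (by norm_num)) X z) (vt F2 e) +
      crossH F2 (vt F2 e) (coH (Coef947.rho 4 2 (by norm_num)) X z))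
    (A : X.S (k + 1))
    (hA : ∀ i : Fin (k + 2), X.act (Op.face i) A = X.act (⟨fun _ => 0, fun _ _ _ => le_rfl⟩ : Op k 0) e)
    (hA' : N.bd (ZMod 4) X (N.sx (ZMod 4) A) = 0)
    (c : H F2 X) (hc : c ∈ H.gr F2 X (2 * m))
    (hrel : Hd.mk (N.bd (ZMod 4) X) (N.sx (ZMod 4) A) hA' =
      H.map (ZMod 4) μ (crossH (ZMod 4) z z) + coH (inj 2 4 2 rfl) X c) :
    Rk X 0 c = coH (Coef947.rho 4 2 (by norm_num)) X z := by
  rw [Bock947.rho_eq_c42] at *
  rw [Bock947.inj_eq_dblf] at hrel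
  obtain ⟨z, hzg, hz', rfl⟩ := Gr334.mem_H_gr.1 hz
  obtain ⟨c, hcg, hc', rfl⟩ := Gr334.mem_H_gr.1 hc
  have hrz : N.bd F2 X (rho X z) = 0 := by rw [← rho_bd, hz', map_zero]
  have hez : N.bd F2 X (N.sx F2 e) = 0 := EZ271.bd_sx_zero F2 e
  have hrgr : rho X z ∈ N.gr F2 X m := coN_mem_gr _ hzg
  rw [coH_mk] at hprim ⊢
  -- primitivity at chain level
  have hP : PrimCycle X m z := by
    refine ⟨hzg, hz', fun p q a b hp hq hpq ha hb ha' hb' => ?_⟩
    rw [cup_eq_crs, LinearMap.comp_apply]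
    have h1 := KDec810.crs_cocycle ha' hb'
    have hd1 : N.bd F2 _ (cross F2 (rho X z) (N.sx F2 e)) = 0 := by
      rw [bd_cross, hrz, hez, map_zero, map_zero, LinearMap.zero_apply, add_zero]
    have hd2 : N.bd F2 _ (cross F2 (N.sx F2 e) (rho X z)) = 0 := by
      rw [bd_cross, hrz, hez, map_zero, map_zero, LinearMap.zero_apply, add_zero]
    have h2 := cocycle_eq h1 (z := N.map F2 (SS.diag X) (rho X z))
      (z' := cross F2 (rho X z) (N.sx F2 e) + cross F2 (N.sx F2 e) (rho X z))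
      (by rw [← EZ271.map_bd', hrz, map_zero]) (by rw [map_add, hd1, hd2, add_zero]) hprim
    rw [h2, map_add, crs_cross, crs_cross, ha _ _ (by omega : 0 ≠ p), hb _ _ (by omega : 0 ≠ q)]
    simp
  -- relation at chain level
  obtain ⟨w, hw⟩ : ∃ w, N.bd Z4 X w = N.sx Z4 A - (N.map Z4 μ (cross Z4 z z) + inc X c) := by
    have hd : N.bd Z4 X (N.map Z4 μ (cross Z4 z z) + inc X c) = 0 := by
      rw [map_add, ← EZ271.map_bd', bd_cross, hz', ← coN_bd, hc']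
      simp
    exact (Hd.mk_eq_mk (hz := hA') (hz' := hd)).1 hrel
  have hrel' : N.sx Z4 A = N.map Z4 μ (cross Z4 z z) + inc X c + N.bd Z4 X w := by
    rw [hw]; abel
  refine Rk_eq_of_cup hcg hc' hrgr hrz fun U hU hU' => ?_
  refine pont_of_dec hm hm2 hk μ e hP A hA c w hrel' U hU hU' ?_
  refine KDec810.decomp' e hm (U ∘ₗ N.map F2 μ) (hU.map μ) ?_ U hU hU' ?_ ?_ ?_ hfin
  · refine LinearMap.ext fun w => ?_
    rw [LinearMap.comp_apply, LinearMap.comp_apply, EZ271.map_bd']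
    exact LinearMap.congr_fun hU' _
  · intro y hy hy'
    have hd1 : N.bd F2 _ (cross F2 y (N.sx F2 e)) = 0 := by
      rw [bd_cross, hy', hez, map_zero, map_zero, LinearMap.zero_apply, add_zero]
    exact cocycle_eq hU' (by rw [← EZ271.map_bd', hd1, map_zero]) hy'
      (hμ1 _ (Gr334.mk_mem_gr hy hy'))
  · intro y hy hy'
    have hd1 : N.bd F2 _ (cross F2 (N.sx F2 e) y) = 0 := by
      rw [bd_cross, hy', hez, map_zero, map_zero, LinearMap.zero_apply, add_zero]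
    exact cocycle_eq hU' (by rw [← EZ271.map_bd', hd1, map_zero]) hy'
      (hμ2 _ (Gr334.mk_mem_gr hy hy'))
  · intro x hx
    exact h0 x hx

end Crest.Agent.R204.Pont718
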