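import Crest.Agent.R204.GAsm_947
import Crest.Agent.R204.PontF_718
import Crest.Agent.R204.SQT_334

/-!
# Row 204, block G: `V = Sq^m_*` satisfies the hypotheses `VOp m` (helper947)
-/

set_option autoImplicit false

namespace Crest.Agent.R204.VInst947

open Crest.Agent.R204 SS Coef947 Corr328 Fs348 Prd328 GAsm947 Pont718

theorem bock {K : SS} {m : ℕ} (hm2 : Even m) (x : H F2 K) (hx : x ∈ H.gr F2 K (2 * m))
    (h : coH (inj 2 4 2 rfl) K x = 0) : Sq252.Sq K m x = 0 := by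
  rw [← Rk_zero_eq_Sq hx]
  obtain ⟨c, hc, hc', rfl⟩ := Gr334.mem_H_gr.1 hx
  rw [coH_mk, Hd.mk_eq_zero] at h
  obtain ⟨w, hw⟩ := h
  refine Rk_eq_zero_of_cup hc hc' fun u hu hu' => ?_
  refine Bock947.cup_bock hm2 u hu hu' c w ?_
  rw [hw, Bock947.inj_eq_dblf]

theorem sq (hperm : ∀ w, SQ803.SQ (Equiv.Perm (Fin w))) {m : ℕ} (hm : 0 < m) (U : Type) (w k : ℕ)
    (h : 2 ∣ 2 ^ k) (hw : w.factorial < 2 ^ k) (x : H (ZMod (2 ^ k)) (Fs U w))
    (hx : x ∈ H.gr (ZMod (2 ^ k)) (Fs U w) (2 * m)) :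
    Sq252.Sq _ m (coH (rho (2 ^ k) 2 h) _ x) = 0 := by
  have hk : 0 < k := by
    rcases Nat.eq_zero_or_pos k with rfl | h0
    · norm_num at h
    · exact h0
  obtain ⟨c, hc, hc', rfl⟩ := Gr334.mem_H_gr.1 hx
  rw [← Rk_zero_eq_Sq (coH_mem_gr _ hx), coH_mk]
  refine Rk_eq_zero_of_cup (coN_mem_gr _ hc) _ fun u hu hu' => ?_
  exact SQG334.sqFs hperm hk (fun hd => absurd (Nat.le_of_dvd (Nat.factorial_pos w) hd) (by omega))
    U hm u hu' hu c hc'

/-- the instance -/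
theorem vop (hperm : ∀ w, SQ803.SQ (Equiv.Perm (Fin w))) {m : ℕ} (hm : 0 < m) (hm2 : Even m) :
    VOp m (fun K => Sq252.Sq K m) where
  nat f x _ := (Sq252.Sq_map f m x).symm
  corr c x hx := by exact TrV947.Sq_corr c m hx
  bock K x hx h := bock hm2 x hx h
  sq U w k h hw x hx := sq hperm hm U w k h hw x hx

theorem vgr {m : ℕ} (K : SS) (x : H F2 K) (hx : x ∈ H.gr F2 K (2 * m)) :
    Sq252.Sq K m x ∈ H.gr F2 K m := by
  have := Sq252.Sq_mem_gr (l := m) hx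
  have e : 2 * m - m = m := by omega
  rwa [e] at this

end Crest.Agent.R204.VInst947
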