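import Crest.Agent.R204.FourA_947
import Crest.Agent.R204.FourB_947
import Crest.Agent.R204.FourC_947
import Crest.Agent.R204.VInst_947
import Crest.Agent.R204.InstSph_478
import Crest.Agent.R204.InstF_114
import Crest.Agent.R204.GlueA_114

/-!
# Row 204, block G (helper947): **`FactFour`** for the concrete tower
-/

set_option autoImplicit false
set_option linter.unusedSectionVars false
set_option linter.style.haveILetI false

open scoped Topology unitInterval Topology.Homotopy TensorProduct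

noncomputable section

namespace Crest.Agent.R204.Four947

open Crest.Agent.R204 SS Coef947 Comp696 Prd328 X0947 KTr103 Spec114 Cone330 SphSS478 FactSph478
  Inst194 Freu297 Sus330 InstSph478 Cubes735
open Crest.Agent.R204.HspSS696 (mulS eS ptS)
open Crest.Agent.R204.Hsp696 (halves)

section gen

variable {J : Type} [Finite J] [DecidableEq J] [Nontrivial J] {Z : Type} [TopologicalSpace Z] {z₀ : Z}

/-- **block G on `Ω^J Z`**: the class `ξ` of the base component with `ξ · ξ` spherical is zero -/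
theorem four_om (c : BoxConf (Fin 2) J) {U : Type} {eU : U ⊕ U ↪ U} {M D : ℕ}
    {g : HomotopyGroup J Z z₀}
    (K : KD U eU M D (Sing (HspSS696.Om J Z z₀)) (HomotopyGroup J Z z₀) (mulS c) (cOm J Z z₀) g)
    {v m e : ℕ} (hm : 0 < m) (hm2 : Even m) (he : e + 1 = 2 * m) (hD : 2 * m + 1 ≤ D)
    (hv : 2 * (2 * m + 1) ≤ v) (B : (Fs348.Fs U v).S 0)
    (hperm : ∀ w, SQ803.SQ (Equiv.Perm (Fin w)))
    (hfin : ∀ i, 0 < i → i < m → Module.Finite F2 (H.gr F2 (X0 J Z z₀) i))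
    (w : (Sing (HspSS696.Om J Z z₀)).S (e + 1)) (hw : IsSph eS w)
    (ξ : H F2 (Sing (HspSS696.Om J Z z₀))) (hξ : ξ ∈ H.gr F2 _ m) (hξ' : ξ ∈ Hc F2 (cOm J Z z₀) 1)
    (hSq : Sq252.Sq _ 1 ξ = 0)
    (hprim : EZ847.ezd.cop _ ξ = ξ ⊗ₜ[F2] Coalg847.vtx eS + Coalg847.vtx eS ⊗ₜ[F2] ξ)
    (hrel : scl w hw = H.map F2 (mulS c) (crossH F2 ξ ξ)) : ξ = 0 := by
  obtain ⟨x, rfl⟩ := hξ'
  have hx : x ∈ H.gr F2 (X0 J Z z₀) m := (mem_gr_iff F2 x).1 hξ
  have hwc : (cOm J Z z₀).app (e + 1) w = 1 := by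
    refine act_const_mem (cOm J Z z₀) (Op.face 0) w 1 ?_
    rw [hw.face 0]
    have : base (Sing (HspSS696.Om J Z z₀)) eS e = (Sing (HspSS696.Om J Z z₀)).act
        (⟨fun _ => 0, fun _ _ _ => le_rfl⟩ : Op e 0) eS := rfl
    rw [this, (cOm J Z z₀).nat]
    rfl
  set w0 : (X0 J Z z₀).S (e + 1) := fmk (cOm J Z z₀) 1 w hwc with hw0
  have hw0f : ∀ i : Fin (e + 2), (X0 J Z z₀).act (Op.face i) w0 =
      (X0 J Z z₀).act (⟨fun _ => 0, fun _ _ _ => le_rfl⟩ : Op e 0) e0 := fun i =>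
    Subtype.ext (hw.face i)
  have hbd : N.bd F2 (X0 J Z z₀) (N.sx F2 w0) = 0 := Pont718.sph_bd (by omega) w0 e0 hw0f
  have hin := in_injective (J := J) (Z := Z) (z₀ := z₀) F2
  have hSq0 : Sq252.Sq (X0 J Z z₀) 1 x = 0 := by
    apply hin
    rw [map_zero, Sq252.Sq_map]
    exact hSq
  have hrel0 : Hd.mk (N.bd F2 (X0 J Z z₀)) (N.sx F2 w0) hbd =
      H.map F2 (X0947.mu0 c) (crossH F2 x x) := by
    apply hin
    rw [map_mu0, ← hrel, H_map_mk]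
    exact mk_congr _ _ (N.map_sx _ _)
  obtain ⟨z, c', A, hz, hzx, hc', hA, h4, hV⟩ := four_core (X0947.mu0 c) e0 (mu0_unitR F2 c)
    (mu0_unitL F2 c) (gr_zero F2) hm hm2 he x hx hSq0 (diag_of_in x hprim) hfin w0 hw0f hbd hrel0
  have hVV : (fun K => Sq252.Sq K m : ∀ K : SS, H F2 K →ₗ[F2] H F2 K) _ (H.map F2 (inX0 (J := J)
      (Z := Z) (z₀ := z₀)) c') =
      coH (rho 4 2 (by norm_num)) _ (H.map (ZMod 4) inX0 z) := by
    show Sq252.Sq _ m (H.map F2 inX0 c') = _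
    rw [← Sq252.Sq_map, hV, coH_map, hzx]
  have h4' : ∀ (k : ℕ) (h : 4 ∣ 2 ^ k), coH (rho (2 ^ k) 4 h) _
      (H.map (ZMod (2 ^ k)) (inX0 (J := J) (Z := Z) (z₀ := z₀)) (A k)) =
      H.map (ZMod 4) (mulS c) (crossH (ZMod 4) (H.map (ZMod 4) inX0 z) (H.map (ZMod 4) inX0 z)) +
        coH (inj 2 4 2 rfl) _ (H.map F2 inX0 c') := fun k h => by
    refine (coH_map (rho (2 ^ k) 4 h) inX0 (A k)).trans ?_
    refine (congrArg (H.map (ZMod 4) inX0) (h4 k h)).trans ?_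
    refine (map_add _ _ _).trans ?_
    exact congrArg₂ (· + ·) (map_mu0 (ZMod 4) c z z) (coH_map (inj 2 4 2 rfl) inX0 c').symm
  have hcm : ∀ (n : ℕ) (x y : (Sing (HspSS696.Om J Z z₀)).S n), (cOm J Z z₀).app n ((mulS c).app n (x, y)) =
      (cOm J Z z₀).app n x * (cOm J Z z₀).app n y := fun n x y => cOm_mulS c x y
  have k1 := @KD.final U eU M D (Sing (HspSS696.Om J Z z₀)) (HomotopyGroup J Z z₀) _ (mulS c) (cOm J Z z₀) g K
    (fun K => Sq252.Sq K m) m (VInst947.vop hperm hm hm2) VInst947.vgr hm hD v hv B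
  have k2 := k1 hcm
  have k3 := k2 (fun p y _ h => tr_inj c p y h)
  have k4 := k3 (H.map (ZMod 4) inX0 z) (Gr334.H_map_mem_gr _ hz) ⟨z, rfl⟩
  have k5 := k4 (H.map F2 inX0 c') (Gr334.H_map_mem_gr _ hc') ⟨c', rfl⟩
  have k6 := k5 (fun k => H.map (ZMod (2 ^ k)) inX0 (A k)) (fun k => Gr334.H_map_mem_gr _ (hA k))
    (fun k => ⟨A k, rfl⟩)
  have key := k6 h4' hVV
  rw [coH_map, hzx] at key
  exact key

end gen

/-! ## the concrete tower -/

variable (p : Par)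

theorem mulL_cr {K : SS} (M : Hopf450.HMon K) (x y : H F2 K) : M.mulL EE x y =
    H.map F2 M.mu (crossH F2 x y) := by
  rw [Hopf450.HMon.mulL_apply, cr_eq]

theorem mulL_eq (x y : H F2 (p.S 0)) : (p.N 0).mulL EE x y =
    H.map F2 (mulS (halves (i0 (p.hc 0)))) (crossH F2 x y) := mulL_cr (p.N 0) x y

theorem mul_eq (x y : p.tower.H 0) : (x * y : p.tower.H 0) = H.map F2 (mulS (halves (i0 (p.hc 0))))
    (crossH F2 (K := p.S 0) (L := p.S 0) x y) := mulL_eq p x y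

theorem factFour_of {D : ℕ} (hpoly : p.tower.FactPoly0 D) {e : ℕ} (hD : e + 1 ≤ D)
    (hperm : ∀ w, SQ803.SQ (Equiv.Perm (Fin w))) [Nontrivial (Fin (cd p.J0 p.K 0))]
    {U : Type} {eU : U ⊕ U ↪ U} {M' D' : ℕ}
    {g : HomotopyGroup (Fin (cd p.J0 p.K 0)) (Sph (p.J0 + p.K)) (pt (p.J0 + p.K))}
    (K : KD U eU M' D' (Sing (HspSS696.Om (Fin (cd p.J0 p.K 0)) (Sph (p.J0 + p.K)) (pt (p.J0 + p.K))))
      (HomotopyGroup (Fin (cd p.J0 p.K 0)) (Sph (p.J0 + p.K)) (pt (p.J0 + p.K)))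
      (mulS (halves (i0 (p.hc 0)))) (cOm (Fin (cd p.J0 p.K 0)) (Sph (p.J0 + p.K)) (pt (p.J0 + p.K))) g)
    (hD' : e + 2 ≤ D') {v : ℕ} (hv : 2 * (e + 2) ≤ v) (B : (Fs348.Fs U v).S 0) :
    (pSph p e).FactFour (e + 1) := by
  intro α l ζ hl hle hζ hb hprim hsq hα
  have hsqF := p.factSq D 0 (Nat.zero_le _)
  have hξgr : ζ * ζ ∈ p.tower.gr 0 (2 * l) := by
    have := (p.factGr D 0 (Nat.zero_le _)).2.2 l l ζ ζ hζ hζ
    rwa [← two_mul] at this
  have hξb : ζ * ζ ∈ p.tower.base := mul_mem hb hb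
  have hξp : ζ * ζ ∈ p.tower.prim 0 := Glue114.sq_mem_prim hprim
  have hξs : p.tower.Sq 0 1 (ζ * ζ) = 0 := by
    rw [hsqF.2.2.2.1 1 ζ ζ, Finset.Nat.sum_antidiagonal_succ, Finset.Nat.antidiagonal_zero,
      Finset.sum_singleton]
    show p.tower.Sq 0 0 ζ * p.tower.Sq 0 1 ζ + p.tower.Sq 0 1 ζ * p.tower.Sq 0 0 ζ = 0
    rw [hsq 1 le_rfl, mul_zero, zero_mul, add_zero]
  have hα' : scl α.1 α.2 = H.map F2 (mulS (halves (i0 (p.hc 0))))
      (crossH F2 (K := p.S 0) (L := p.S 0) (ζ * ζ) (ζ * ζ)) := by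
    have h1 : (pSph p e).h 0 α = (ζ * ζ) * (ζ * ζ) := by rw [hα]; ring
    exact h1.trans (mul_eq p (ζ * ζ) (ζ * ζ))
  have hfin : ∀ i, 0 < i → i < 2 * l → Module.Finite F2 (H.gr F2
      (X0 (Fin (cd p.J0 p.K 0)) (Sph (p.J0 + p.K)) (pt (p.J0 + p.K))) i) := by
    intro i _ hi
    have h1 := finite_base hpoly (t := i) (by omega)
    have hm : ∀ x ∈ H.gr F2 (X0 (Fin (cd p.J0 p.K 0)) (Sph (p.J0 + p.K)) (pt (p.J0 + p.K))) i,
        H.map F2 inX0 x ∈ (p.tower.gr 0 i ⊓ Subalgebra.toSubmodule p.tower.base :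
          Submodule F2 (p.tower.H 0)) := fun x hx => ⟨(mem_gr_iff F2 x).2 hx, x, rfl⟩
    let f : H.gr F2 (X0 (Fin (cd p.J0 p.K 0)) (Sph (p.J0 + p.K)) (pt (p.J0 + p.K))) i →ₗ[F2]
        ↥(p.tower.gr 0 i ⊓ Subalgebra.toSubmodule p.tower.base : Submodule F2 (p.tower.H 0)) :=
      (H.map F2 inX0).restrict hm
    refine Module.Finite.of_injective f ?_
    intro x y hxy
    exact Subtype.ext (in_injective F2 (congrArg Subtype.val hxy))
  have hξ0 : ζ * ζ = 0 := four_om (halves (i0 (p.hc 0))) K (v := v) (m := 2 * l) (e := e)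
    (by omega) (even_two_mul l) (by omega) (by omega) (by omega) B hperm hfin α.1 α.2
    (ζ * ζ) hξgr hξb hξs hξp hα'
  exact sq_eq_zero hpoly (by omega) hζ hb hξ0

end Crest.Agent.R204.Four947
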