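import Crest.Agent.R204.GAsm_947

/-!
# Row 204, block G: transport from the base component `X₀` of `Ω^n S^n` to the thread model
(helper947)

`Kap` : zigzags `Fs U v ← K1 → X₀`, `Fs U (v+v) ← K2 → X₀` which are isomorphisms in
`H_j(;F2)`, `j ≤ 2m+1`, compatible with products (any coefficients).
`final` : `ρ z = 0` for the data `z, c, A_N` on `X₀`.
-/

set_option autoImplicit false

namespace Crest.Agent.R204.KTr947

open Crest.Agent.R204 SS Coef947 Corr328 Fs348 Prd328 GAsm947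

/-- bijective on `H_j(;F2)` -/
def Bij (K L : SS) (f : SS.Hom K L) (j : ℕ) : Prop :=
  (∀ x ∈ H.gr F2 K j, H.map F2 f x = 0 → x = 0) ∧
  (∀ y ∈ H.gr F2 L j, ∃ x ∈ H.gr F2 K j, H.map F2 f x = y)

theorem Bij.pow_inj {K L : SS} {f : SS.Hom K L} {j : ℕ} (h : Bij K L f j) (h' : Bij K L f (j + 1))
    (k : ℕ) : ∀ x ∈ H.gr (ZMod (2 ^ (k + 1))) K j, H.map (ZMod (2 ^ (k + 1))) f x = 0 → x = 0 :=
  (inj_surj_pow f j h.1 h'.2 k).1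

theorem Bij.pow_surj {K L : SS} {f : SS.Hom K L} {j : ℕ} (h : Bij K L f j) (h' : Bij K L f (j + 1))
    (k : ℕ) : ∀ y ∈ H.gr (ZMod (2 ^ (k + 1))) L (j + 1), ∃ x ∈ H.gr (ZMod (2 ^ (k + 1))) K (j + 1),
      H.map (ZMod (2 ^ (k + 1))) f x = y :=
  (inj_surj_pow f j h.1 h'.2 k).2

/-- comparison data -/
structure Kap (U : Type) (e : U ⊕ U ↪ U) (X : SS) (mu : SS.Hom (X.prod X) X) (e₀ : X.S 0)
    (v m : ℕ) where
  K1 : SS
  K2 : SS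
  i1 : SS.Hom K1 (Fs U v)
  i2 : SS.Hom K2 (Fs U (v + v))
  k1 : SS.Hom K1 X
  k2 : SS.Hom K2 X
  B : K1.S 0
  hi1 : ∀ j ≤ 2 * m + 1, Bij _ _ i1 j
  hi2 : ∀ j ≤ 2 * m + 1, Bij _ _ i2 j
  hk1 : ∀ j ≤ 2 * m + 1, Bij _ _ k1 j
  hk2 : ∀ j ≤ 2 * m + 1, Bij _ _ k2 j
  mul : ∀ (R : Type) [CommRing R] (p q : ℕ), p + q ≤ 2 * m → ∀ x ∈ H.gr R K1 p,
    ∀ y ∈ H.gr R K1 q, ∀ w ∈ H.gr R K2 (p + q),
    H.map R i2 w = prd R e rfl (H.map R i1 x) (H.map R i1 y) →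
    H.map R k2 w = H.map R mu (crossH R (H.map R k1 x) (H.map R k1 y))
  vB : vt F2 (k1.app 0 B) = vt F2 e₀
  unit : ∀ x : H F2 X, H.map F2 mu (crossH F2 x (vt F2 e₀)) = x

variable {U : Type} {e : U ⊕ U ↪ U} {X : SS} {mu : SS.Hom (X.prod X) X} {e₀ : X.S 0} {v m : ℕ}

/-- **transport of the final argument** -/
theorem final {V : ∀ K : SS, H F2 K →ₗ[F2] H F2 K} (hV : VOp m V)
    (hVgr : ∀ (K : SS) (x : H F2 K), x ∈ H.gr F2 K (2 * m) → V K x ∈ H.gr F2 K m) (hm : 0 < m)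
    (κ : Kap U e X mu e₀ v m)
    (z : H (ZMod 4) X) (hz : z ∈ H.gr (ZMod 4) X m)
    (c : H F2 X) (hc : c ∈ H.gr F2 X (2 * m))
    (A : ∀ N : ℕ, H (ZMod (2 ^ N)) X) (hA : ∀ N, A N ∈ H.gr (ZMod (2 ^ N)) X (2 * m))
    (h4 : ∀ (N : ℕ) (h : 4 ∣ 2 ^ N), coH (rho (2 ^ N) 4 h) _ (A N) =
      H.map (ZMod 4) mu (crossH (ZMod 4) z z) + coH (inj 2 4 2 rfl) _ c)
    (hVc : V X c = coH (rho 4 2 (by norm_num)) _ z) :
    coH (rho 4 2 (by norm_num)) _ z = 0 := by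
  obtain ⟨m', rfl⟩ : ∃ m', m = m' + 1 := ⟨m - 1, by omega⟩
  -- lift `z`
  obtain ⟨x1, hx1, hx1'⟩ : ∃ x ∈ H.gr (ZMod 4) κ.K1 (m' + 1), H.map (ZMod 4) κ.k1 x = z :=
    (κ.hk1 m' (by omega)).pow_surj (κ.hk1 (m' + 1) (by omega)) 1 z hz
  -- lift `c`
  obtain ⟨c2, hc2, hc2'⟩ := (κ.hk2 (2 * (m' + 1)) (by omega)).2 c hc
  -- lift `A`
  have hA' : ∀ N, ∃ a ∈ H.gr (ZMod (2 ^ N)) κ.K2 (2 * (m' + 1)),
      1 ≤ N → H.map (ZMod (2 ^ N)) κ.k2 a = A N := by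
    intro N
    rcases N with _ | N
    · exact ⟨0, Submodule.zero_mem _, fun h => by omega⟩
    · obtain ⟨a, ha, ha'⟩ := (κ.hk2 (2 * m' + 1) (by omega)).pow_surj
        (κ.hk2 (2 * m' + 1 + 1) (by omega)) N (A (N + 1)) (hA (N + 1))
      exact ⟨a, ha, fun _ => ha'⟩
  choose A2 hA2 hA2' using hA'
  have hz1 : H.map (ZMod 4) κ.i1 x1 ∈ H.gr (ZMod 4) (Fs U v) (m' + 1) := Gr334.H_map_mem_gr _ hx1
  -- the product
  obtain ⟨w, hw, hw'⟩ : ∃ x ∈ H.gr (ZMod 4) κ.K2 (2 * (m' + 1)), H.map (ZMod 4) κ.i2 x =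
      prd (ZMod 4) e rfl (H.map (ZMod 4) κ.i1 x1) (H.map (ZMod 4) κ.i1 x1) :=
    (κ.hi2 (2 * m' + 1) (by omega)).pow_surj (κ.hi2 (2 * m' + 1 + 1) (by omega)) 1 _
      (by
        have := prd_mem_gr (ZMod 4) e (rfl : v + v = v + v) hz1 hz1
        have e1 : m' + 1 + (m' + 1) = 2 * m' + 1 + 1 := by omega
        rwa [e1] at this)
  have hkw : H.map (ZMod 4) κ.k2 w = H.map (ZMod 4) mu (crossH (ZMod 4) z z) := by
    have e1 : m' + 1 + (m' + 1) = 2 * (m' + 1) := by omega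
    rw [κ.mul (ZMod 4) (m' + 1) (m' + 1) (by omega) x1 hx1 x1 hx1 w (by rwa [e1]) hw', hx1']
  have h4' : ∀ (N : ℕ) (h : 4 ∣ 2 ^ N), coH (rho (2 ^ N) 4 h) _ (A2 N) =
      w + coH (inj 2 4 2 rfl) _ c2 := by
    intro N h
    have hN : 1 ≤ N := by
      rcases N with _ | N
      · norm_num at h
      · omega
    have h0 : H.map (ZMod 4) κ.k2 (coH (rho (2 ^ N) 4 h) _ (A2 N) -
        (w + coH (inj 2 4 2 rfl) _ c2)) = 0 := by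
      rw [map_sub, map_add, ← coH_map, ← coH_map, hA2' N hN, hkw, hc2', h4 N h, sub_self]
    have h1 := (κ.hk2 (2 * (m' + 1)) (by omega)).pow_inj (κ.hk2 (2 * (m' + 1) + 1) (by omega)) 1 _
      (Submodule.sub_mem _ (coH_mem_gr _ (hA2 N)) (Submodule.add_mem _ hw (coH_mem_gr _ hc2))) h0
    exact sub_eq_zero.1 h1
  -- the value of `V`
  have hr1 : coH (rho 4 2 (by norm_num)) _ x1 ∈ H.gr F2 κ.K1 (m' + 1) := coH_mem_gr _ hx1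
  obtain ⟨u, hu, hu'⟩ : ∃ x ∈ H.gr F2 κ.K2 (m' + 1 + 0), H.map F2 κ.i2 x =
      prd F2 e rfl (H.map F2 κ.i1 (coH (rho 4 2 (by norm_num)) _ x1))
        (H.map F2 κ.i1 (vt F2 κ.B)) :=
    (κ.hi2 (m' + 1 + 0) (by omega)).2 _ (prd_mem_gr F2 e rfl (Gr334.H_map_mem_gr _ hr1)
      (Gr334.H_map_mem_gr _ (vt_mem_gr F2 _)))
  have hku : H.map F2 κ.k2 u = coH (rho 4 2 (by norm_num)) _ z := by
    rw [κ.mul F2 (m' + 1) 0 (by omega) _ hr1 _ (vt_mem_gr F2 _) u hu hu', map_vt, κ.vB, κ.unit,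
      ← coH_map, hx1']
  have hVu : V κ.K2 c2 = u := by
    have h0 : H.map F2 κ.k2 (V κ.K2 c2 - u) = 0 := by
      rw [map_sub, ← hV.nat κ.k2 c2 hc2, hc2', hVc, hku, sub_self]
    exact sub_eq_zero.1 ((κ.hk2 (m' + 1) (by omega)).1 _ (Submodule.sub_mem _ (hVgr _ _ hc2) hu) h0)
  -- conclusion
  have key := core e hV hm (κ.i1.app 0 κ.B) (H.map (ZMod 4) κ.i1 x1) hz1
    (H.map F2 κ.i2 c2) (Gr334.H_map_mem_gr _ hc2)
    (fun N => H.map (ZMod (2 ^ N)) κ.i2 (A2 N)) (fun N => Gr334.H_map_mem_gr _ (hA2 N))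
    (fun N h => by
      rw [coH_map, h4' N h, map_add, hw', coH_map])
    (by
      rw [hV.nat κ.i2 c2 hc2, hVu, hu', map_vt, coH_map])
  have h2 : coH (rho 4 2 (by norm_num)) _ x1 = 0 := by
    refine (κ.hi1 (m' + 1) (by omega)).1 _ hr1 ?_
    rw [← coH_map]
    exact key
  rw [← hx1', coH_map, h2, map_zero]

end Crest.Agent.R204.KTr947
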