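import Crest.Agent.R204.FourI_947
import Crest.Agent.R204.KTr_947

/-!
# Row 204, block G (helper947): `FactFour` for the concrete tower, from the comparison data
`KTr947.Kap` for the base component `X0`
-/

set_option autoImplicit false
set_option linter.unusedSectionVars false
set_option linter.style.haveILetI false

open scoped Topology unitInterval Topology.Homotopy TensorProduct

noncomputable section

namespace Crest.Agent.R204.Four947

open Crest.Agent.R204 SS Coef947 Comp696 Prd328 X0947 KTr103 Spec114 Cone330 SphSS478 FactSph478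
  Inst194 Freu297 Sus330 InstSph478 Cubes735
open Crest.Agent.R204.HspSS696 (mulS eS ptS)
open Crest.Agent.R204.Hsp696 (halves)

section gen

variable {J : Type} [Finite J] [DecidableEq J] [Nontrivial J] {Z : Type} [TopologicalSpace Z] {z₀ : Z}

/-- **block G on `Ω^J Z`**: the class `ξ` of the base component with `ξ · ξ` spherical is zero -/
theorem four_kap (c : BoxConf (Fin 2) J) {U : Type} {eU : U ⊕ U ↪ U}
    {v m e : ℕ} (K : KTr947.Kap U eU (X0 J Z z₀) (X0947.mu0 c) e0 v m)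
    (hm : 0 < m) (hm2 : Even m) (he : e + 1 = 2 * m)
    (hperm : ∀ w, SQ803.SQ (Equiv.Perm (Fin w)))
    (hfin : ∀ i, 0 < i → i < m → Module.Finite F2 (H.gr F2 (X0 J Z z₀) i))
    (w : (Sing (HspSS696.Om J Z z₀)).S (e + 1)) (hw : IsSph eS w)
    (ξ : H F2 (Sing (HspSS696.Om J Z z₀))) (hξ : ξ ∈ H.gr F2 _ m) (hξ' : ξ ∈ Hc F2 (cOm J Z z₀) 1)
    (hSq : Sq252.Sq _ 1 ξ = 0)
    (hprim : EZ847.ezd.cop _ ξ = ξ ⊗ₜ[F2] Coalg847.vtx eS + Coalg847.vtx eS ⊗ₜ[F2] ξ)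
    (hrel : scl w hw = H.map F2 (mulS c) (crossH F2 ξ ξ)) : ξ = 0 := by
  obtain ⟨x, rfl⟩ := hξ'
  have hx : x ∈ H.gr F2 (X0 J Z z₀) m := (mem_gr_iff F2 x).1 hξ
  have hwc : (cOm J Z z₀).app (e + 1) w = 1 := by
    refine act_const_mem (cOm J Z z₀) (Op.face 0) w 1 ?_
    rw [hw.face 0]
    have : base (Sing (HspSS696.Om J Z z₀)) eS e = (Sing (HspSS696.Om J Z z₀)).act
        (⟨fun _ => 0, fun _ _ _ => le_rfl⟩ : Op e 0) eS := rfl
    rw [this, (cOm J Z z₀).nat]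
    rfl
  set w0 : (X0 J Z z₀).S (e + 1) := fmk (cOm J Z z₀) 1 w hwc with hw0
  have hw0f : ∀ i : Fin (e + 2), (X0 J Z z₀).act (Op.face i) w0 =
      (X0 J Z z₀).act (⟨fun _ => 0, fun _ _ _ => le_rfl⟩ : Op e 0) e0 := fun i =>
    Subtype.ext (hw.face i)
  have hbd : N.bd F2 (X0 J Z z₀) (N.sx F2 w0) = 0 := Pont718.sph_bd (by omega) w0 e0 hw0f
  have hin := in_injective (J := J) (Z := Z) (z₀ := z₀) F2
  have hSq0 : Sq252.Sq (X0 J Z z₀) 1 x = 0 := by
    apply hin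
    rw [map_zero, Sq252.Sq_map]
    exact hSq
  have hrel0 : Hd.mk (N.bd F2 (X0 J Z z₀)) (N.sx F2 w0) hbd =
      H.map F2 (X0947.mu0 c) (crossH F2 x x) := by
    apply hin
    rw [map_mu0, ← hrel, H_map_mk]
    exact mk_congr _ _ (N.map_sx _ _)
  obtain ⟨z, c', A, hz, hzx, hc', hA, h4, hV⟩ := four_core (X0947.mu0 c) e0 (mu0_unitR F2 c)
    (mu0_unitL F2 c) (gr_zero F2) hm hm2 he x hx hSq0 (diag_of_in x hprim) hfin w0 hw0f hbd hrel0
  have key := KTr947.final (V := fun K => Sq252.Sq K m) (VInst947.vop hperm hm hm2) VInst947.vgr hm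
    K z hz c' hc' A hA h4 (hV.trans hzx.symm)
  rw [hzx] at key
  rw [key, map_zero]

end gen

/-! ## the concrete tower -/

variable (p : Par)

theorem factFour_kap {D : ℕ} (hpoly : p.tower.FactPoly0 D) {e : ℕ} (hD : e + 1 ≤ D)
    (hperm : ∀ w, SQ803.SQ (Equiv.Perm (Fin w))) [Nontrivial (Fin (cd p.J0 p.K 0))]
    (kap : ∀ m, 0 < m → e + 1 = 2 * m → ∃ (U : Type) (eU : U ⊕ U ↪ U) (v : ℕ),
      Nonempty (KTr947.Kap U eU (X0 (Fin (cd p.J0 p.K 0)) (Sph (p.J0 + p.K)) (pt (p.J0 + p.K)))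
        (X0947.mu0 (halves (i0 (p.hc 0)))) e0 v m)) :
    (pSph p e).FactFour (e + 1) := by
  intro α l ζ hl hle hζ hb hprim hsq hα
  have hsqF := p.factSq D 0 (Nat.zero_le _)
  have hξgr : ζ * ζ ∈ p.tower.gr 0 (2 * l) := by
    have := (p.factGr D 0 (Nat.zero_le _)).2.2 l l ζ ζ hζ hζ
    rwa [← two_mul] at this
  have hξb : ζ * ζ ∈ p.tower.base := mul_mem hb hb
  have hξp : ζ * ζ ∈ p.tower.prim 0 := Glue114.sq_mem_prim hprim
  have hξs : p.tower.Sq 0 1 (ζ * ζ) = 0 := by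
    rw [hsqF.2.2.2.1 1 ζ ζ, Finset.Nat.sum_antidiagonal_succ, Finset.Nat.antidiagonal_zero,
      Finset.sum_singleton]
    show p.tower.Sq 0 0 ζ * p.tower.Sq 0 1 ζ + p.tower.Sq 0 1 ζ * p.tower.Sq 0 0 ζ = 0
    rw [hsq 1 le_rfl, mul_zero, zero_mul, add_zero]
  have hα' : scl α.1 α.2 = H.map F2 (mulS (halves (i0 (p.hc 0))))
      (crossH F2 (K := p.S 0) (L := p.S 0) (ζ * ζ) (ζ * ζ)) := by
    have h1 : (pSph p e).h 0 α = (ζ * ζ) * (ζ * ζ) := by rw [hα]; ring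
    exact h1.trans (mul_eq p (ζ * ζ) (ζ * ζ))
  have hfin : ∀ i, 0 < i → i < 2 * l → Module.Finite F2 (H.gr F2
      (X0 (Fin (cd p.J0 p.K 0)) (Sph (p.J0 + p.K)) (pt (p.J0 + p.K))) i) := by
    intro i _ hi
    have h1 := finite_base hpoly (t := i) (by omega)
    have hm : ∀ x ∈ H.gr F2 (X0 (Fin (cd p.J0 p.K 0)) (Sph (p.J0 + p.K)) (pt (p.J0 + p.K))) i,
        H.map F2 inX0 x ∈ (p.tower.gr 0 i ⊓ Subalgebra.toSubmodule p.tower.base :
          Submodule F2 (p.tower.H 0)) := fun x hx => ⟨(mem_gr_iff F2 x).2 hx, x, rfl⟩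
    let f : H.gr F2 (X0 (Fin (cd p.J0 p.K 0)) (Sph (p.J0 + p.K)) (pt (p.J0 + p.K))) i →ₗ[F2]
        ↥(p.tower.gr 0 i ⊓ Subalgebra.toSubmodule p.tower.base : Submodule F2 (p.tower.H 0)) :=
      (H.map F2 inX0).restrict hm
    refine Module.Finite.of_injective f ?_
    intro x y hxy
    exact Subtype.ext (in_injective F2 (congrArg Subtype.val hxy))
  obtain ⟨U, eU, v, ⟨K⟩⟩ := kap (2 * l) (by omega) (by omega)
  have hξ0 : ζ * ζ = 0 := four_kap (halves (i0 (p.hc 0))) K (e := e)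
    (by omega) (even_two_mul l) (by omega) hperm hfin α.1 α.2
    (ζ * ζ) hξgr hξb hξs hξp hα'
  exact sq_eq_zero hpoly (by omega) hζ hb hξ0

end Crest.Agent.R204.Four947
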