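import Mathlib

/-!
Row 204, block H: tools for Freudenthal surjectivity.
* `exists_lipschitz_approx`: continuous maps from a compact metric space to a finite dimensional
  normed space are uniformly approximated by Lipschitz maps.
* `exists_generic`: for a Lipschitz map `g : (ι → ℝ) × ℝ → F`, `card ι + 2 < 2 dim F`, there are
  arbitrarily small `A B : F` such that `g (x, t₁) + A + t₁ • B = 0` and
  `g (x, t₂) + A + t₂ • B = 0` imply `t₁ = t₂`.
-/

open Set Metric Module
open scoped unitInterval Topology NNReal ENNReal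

namespace Crest.Agent.R204.Freu297

/-- subalgebra of Lipschitz functions on a compact metric space -/
def lipAlg (X : Type*) [PseudoMetricSpace X] [CompactSpace X] : Subalgebra ℝ C(X, ℝ) where
  carrier := {f | ∃ K : ℝ≥0, LipschitzWith K f}
  mul_mem' := by
    rintro f g ⟨K, hK⟩ ⟨L, hL⟩
    refine ⟨‖f‖₊ * L + ‖g‖₊ * K, LipschitzWith.of_dist_le_mul fun x y => ?_⟩
    have h1 : dist (f x) (f y) ≤ K * dist x y := hK.dist_le_mul x y
    have h2 : dist (g x) (g y) ≤ L * dist x y := hL.dist_le_mul x y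
    have h3 : ‖f x‖ ≤ ‖f‖ := f.norm_coe_le_norm x
    have h4 : ‖g y‖ ≤ ‖g‖ := g.norm_coe_le_norm y
    rw [Real.dist_eq] at *
    simp only [ContinuousMap.coe_mul, Pi.mul_apply]
    have : f x * g x - f y * g y = f x * (g x - g y) + (f x - f y) * g y := by ring
    rw [this]
    calc |f x * (g x - g y) + (f x - f y) * g y|
        ≤ |f x| * |g x - g y| + |f x - f y| * |g y| := by
          refine (abs_add_le _ _).trans ?_
          rw [abs_mul, abs_mul]
      _ ≤ ‖f‖ * (L * dist x y) + (K * dist x y) * ‖g‖ := by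
          rw [Real.norm_eq_abs] at h3 h4
          gcongr
      _ = _ := by push_cast; ring
  add_mem' := by
    rintro f g ⟨K, hK⟩ ⟨L, hL⟩
    exact ⟨K + L, hK.add hL⟩
  algebraMap_mem' := by
    intro r
    exact ⟨0, LipschitzWith.const (α := X) r⟩

theorem exists_lipschitz_approx_real {X : Type*} [MetricSpace X] [CompactSpace X]
    (f : C(X, ℝ)) {ε : ℝ} (hε : 0 < ε) :
    ∃ g : X → ℝ, (∃ K : ℝ≥0, LipschitzWith K g) ∧ ∀ x, |g x - f x| < ε := by
  have hsep : (lipAlg X).SeparatesPoints := by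
    intro x y hxy
    refine ⟨fun z => dist z x, ⟨⟨fun z => dist z x, by fun_prop⟩, ⟨1, ?_⟩, rfl⟩, ?_⟩
    · exact LipschitzWith.dist_left x
    · simp [hxy, eq_comm]
  obtain ⟨⟨g, hg⟩, hgf⟩ := ContinuousMap.exists_mem_subalgebra_near_continuousMap_of_separatesPoints
    (lipAlg X) hsep f ε hε
  refine ⟨g, hg, fun x => ?_⟩
  have := (g - f).norm_coe_le_norm x
  simp only [ContinuousMap.coe_sub, Pi.sub_apply, Real.norm_eq_abs] at this
  exact lt_of_le_of_lt this hgf

theorem exists_lipschitz_approx {X : Type*} [MetricSpace X] [CompactSpace X]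
    {F : Type*} [NormedAddCommGroup F] [NormedSpace ℝ F] [FiniteDimensional ℝ F]
    (f : X → F) (hf : Continuous f) {ε : ℝ} (hε : 0 < ε) :
    ∃ g : X → F, (∃ K : ℝ≥0, LipschitzWith K g) ∧ ∀ x, ‖g x - f x‖ < ε := by
  classical
  let e : F ≃L[ℝ] (Fin (finrank ℝ F) → ℝ) := ContinuousLinearEquiv.ofFinrankEq (by simp)
  set C : ℝ := ‖(e.symm : (Fin (finrank ℝ F) → ℝ) →L[ℝ] F)‖ with hC
  have hC0 : 0 ≤ C := norm_nonneg _
  have key : ∀ i : Fin (finrank ℝ F), ∃ g : X → ℝ, (∃ K : ℝ≥0, LipschitzWith K g) ∧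
      ∀ x, |g x - e (f x) i| < ε / (C + 1) := fun i =>
    exists_lipschitz_approx_real ⟨fun x => e (f x) i, by fun_prop⟩ (by positivity)
  choose g hg hgf using key
  choose K hK using hg
  refine ⟨fun x => e.symm (fun i => g i x), ?_, fun x => ?_⟩
  · have h1 : LipschitzWith (Finset.univ.sup K) (fun x => (fun i => g i x)) := by
      refine LipschitzWith.of_dist_le_mul fun x y => ?_
      rw [dist_pi_le_iff (by positivity)]
      intro i
      refine ((hK i).dist_le_mul x y).trans ?_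
      gcongr
      exact Finset.le_sup (f := K) (Finset.mem_univ i)
    exact ⟨_, e.symm.lipschitz.comp h1⟩
  · have h2 : e.symm (fun i => g i x) - f x = e.symm ((fun i => g i x) - e (f x)) := by
      rw [map_sub]; simp
    rw [h2]
    have h3 : ‖(fun i => g i x) - e (f x)‖ ≤ ε / (C + 1) := by
      rw [pi_norm_le_iff_of_nonneg (by positivity)]
      intro i
      rw [Real.norm_eq_abs]
      exact (hgf i x).le
    calc ‖e.symm ((fun i => g i x) - e (f x))‖
        ≤ C * ‖(fun i => g i x) - e (f x)‖ :=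
          (e.symm : (Fin (finrank ℝ F) → ℝ) →L[ℝ] F).le_opNorm _
      _ ≤ C * (ε / (C + 1)) := by gcongr
      _ < ε := by
          rw [mul_div_assoc', div_lt_iff₀ (by positivity)]
          nlinarith

/-- the map recovering `(A, B)` from `t₁, t₂, A + t₁ B, A + t₂ B`. -/
noncomputable def recAB (F : Type*) [NormedAddCommGroup F] [NormedSpace ℝ F]
    (z : (ℝ × ℝ) × (F × F)) : F × F :=
  ((z.1.2 - z.1.1)⁻¹ • (z.1.2 • z.2.1 - z.1.1 • z.2.2), (z.1.2 - z.1.1)⁻¹ • (z.2.2 - z.2.1))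

theorem recAB_eq {F : Type*} [NormedAddCommGroup F] [NormedSpace ℝ F] (t₁ t₂ : ℝ) (h : t₁ ≠ t₂)
    (A B : F) : recAB F ((t₁, t₂), (A + t₁ • B, A + t₂ • B)) = (A, B) := by
  have h' : t₂ - t₁ ≠ 0 := sub_ne_zero.2 (Ne.symm h)
  unfold recAB
  ext1
  · simp only
    have : t₂ • (A + t₁ • B) - t₁ • (A + t₂ • B) = (t₂ - t₁) • A := by
      rw [smul_add, smul_add, smul_smul, smul_smul, mul_comm t₂ t₁, sub_smul]; abel
    rw [this, smul_smul, inv_mul_cancel₀ h', one_smul]
  · simp only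
    have : A + t₂ • B - (A + t₁ • B) = (t₂ - t₁) • B := by
      rw [sub_smul]; abel
    rw [this, smul_smul, inv_mul_cancel₀ h', one_smul]

theorem recAB_contDiffOn {F : Type*} [NormedAddCommGroup F] [NormedSpace ℝ F] :
    ContDiffOn ℝ 1 (recAB F) {z | z.1.1 ≠ z.1.2} := by
  unfold recAB
  have h1 : ContDiffOn ℝ 1 (fun z : (ℝ × ℝ) × (F × F) => (z.1.2 - z.1.1)⁻¹) {z | z.1.1 ≠ z.1.2} := by
    refine ContDiffOn.inv (by fun_prop) ?_
    intro z hz
    exact sub_ne_zero.2 (Ne.symm hz)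
  refine ContDiffOn.prodMk ?_ ?_
  · exact h1.smul (by fun_prop)
  · exact h1.smul (by fun_prop)

theorem exists_generic {ι : Type*} [Fintype ι] {F : Type*} [NormedAddCommGroup F] [NormedSpace ℝ F]
    [FiniteDimensional ℝ F] (hcard : Fintype.card ι + 2 < 2 * finrank ℝ F)
    (g : (ι → ℝ) × ℝ → F) {K : ℝ≥0} (hg : LipschitzWith K g) {ε : ℝ} (hε : 0 < ε) :
    ∃ A B : F, ‖A‖ < ε ∧ ‖B‖ < ε ∧ ∀ (x : ι → ℝ) (t₁ t₂ : ℝ),
      g (x, t₁) + A + t₁ • B = 0 → g (x, t₂) + A + t₂ • B = 0 → t₁ = t₂ := by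
  classical
  -- the Lipschitz map
  let Φ : (ι → ℝ) × (ℝ × ℝ) → (ℝ × ℝ) × (F × F) :=
    fun w => ((w.2.1, w.2.2), (-g (w.1, w.2.1), -g (w.1, w.2.2)))
  have hΦ : LipschitzWith (max 1 K) Φ := by
    have e1 : LipschitzWith 1 (fun w : (ι → ℝ) × (ℝ × ℝ) => (w.2.1, w.2.2)) :=
      LipschitzWith.prod_snd
    have e2 : LipschitzWith K (fun w : (ι → ℝ) × (ℝ × ℝ) => -g (w.1, w.2.1)) := by
      have : LipschitzWith (K * max 1 1) (fun w : (ι → ℝ) × (ℝ × ℝ) => g (w.1, w.2.1)) :=
        hg.comp (LipschitzWith.prod_fst.prodMk (by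
          have := (LipschitzWith.prod_fst (α := ℝ) (β := ℝ)).comp
            (LipschitzWith.prod_snd (α := ι → ℝ) (β := ℝ × ℝ))
          rw [one_mul] at this
          exact this))
      rw [max_self, mul_one] at this
      exact this.neg
    have e3 : LipschitzWith K (fun w : (ι → ℝ) × (ℝ × ℝ) => -g (w.1, w.2.2)) := by
      have : LipschitzWith (K * max 1 1) (fun w : (ι → ℝ) × (ℝ × ℝ) => g (w.1, w.2.2)) :=
        hg.comp (LipschitzWith.prod_fst.prodMk (by
          have := (LipschitzWith.prod_snd (α := ℝ) (β := ℝ)).comp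
            (LipschitzWith.prod_snd (α := ι → ℝ) (β := ℝ × ℝ))
          rw [one_mul] at this
          exact this))
      rw [max_self, mul_one] at this
      exact this.neg
    have := e1.prodMk (e2.prodMk e3)
    simpa using this
  have hdim : dimH (range Φ) ≤ (Fintype.card ι + 2 : ℕ) := by
    refine hΦ.dimH_range_le.trans ?_
    rw [Real.dimH_univ_eq_finrank]
    simp
  let S₁ : Set ((ℝ × ℝ) × (F × F)) := {z | z.1.1 < z.1.2}
  let S₂ : Set ((ℝ × ℝ) × (F × F)) := {z | z.1.2 < z.1.1}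
  have hS₁ : Convex ℝ S₁ := by
    intro a ha b hb s t hs ht hst
    simp only [S₁, mem_ofPred_eq] at *
    show s * a.1.1 + t * b.1.1 < s * a.1.2 + t * b.1.2
    rcases hs.eq_or_lt with h | h
    · have : t = 1 := by linarith
      subst this; rw [← h]; linarith
    · nlinarith
  have hS₂ : Convex ℝ S₂ := by
    intro a ha b hb s t hs ht hst
    simp only [S₂, mem_ofPred_eq] at *
    show s * a.1.2 + t * b.1.2 < s * a.1.1 + t * b.1.1
    rcases hs.eq_or_lt with h | h
    · have : t = 1 := by linarith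
      subst this; rw [← h]; linarith
    · nlinarith
  let Bad : Set (F × F) := recAB F '' (range Φ ∩ S₁) ∪ recAB F '' (range Φ ∩ S₂)
  have hBad : dimH Bad ≤ (Fintype.card ι + 2 : ℕ) := by
    rw [dimH_union]
    refine max_le ?_ ?_
    · refine (ContDiffOn.dimH_image_le (s := S₁) (recAB_contDiffOn.mono ?_) hS₁
        inter_subset_right).trans ((dimH_mono inter_subset_left).trans hdim)
      intro z hz; exact (ne_of_lt hz)
    · refine (ContDiffOn.dimH_image_le (s := S₂) (recAB_contDiffOn.mono ?_) hS₂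
        inter_subset_right).trans ((dimH_mono inter_subset_left).trans hdim)
      intro z hz; exact (ne_of_gt hz)
  have hdense : Dense Badᶜ := by
    apply dense_compl_of_dimH_lt_finrank
    refine hBad.trans_lt ?_
    rw [Module.finrank_prod]
    exact_mod_cast (by omega : Fintype.card ι + 2 < finrank ℝ F + finrank ℝ F)
  obtain ⟨⟨A, B⟩, hAB, hmem⟩ := hdense.exists_dist_lt (0 : F × F) hε
  refine ⟨A, B, ?_, ?_, ?_⟩
  · rw [dist_comm, dist_zero_right] at hmem
    exact (norm_fst_le (A, B)).trans_lt hmem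
  · rw [dist_comm, dist_zero_right] at hmem
    exact (norm_snd_le (A, B)).trans_lt hmem
  · intro x t₁ t₂ h1 h2
    by_contra hne
    apply hAB
    have e1 : -g (x, t₁) = A + t₁ • B := by
      rw [neg_eq_iff_add_eq_zero, ← add_assoc]; exact h1
    have e2 : -g (x, t₂) = A + t₂ • B := by
      rw [neg_eq_iff_add_eq_zero, ← add_assoc]; exact h2
    have hr : recAB F (Φ (x, (t₁, t₂))) = (A, B) := by
      simp only [Φ]
      rw [e1, e2]
      exact recAB_eq t₁ t₂ hne A B
    rcases lt_or_gt_of_ne hne with h | h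
    · exact Or.inl ⟨Φ (x, (t₁, t₂)), ⟨⟨_, rfl⟩, h⟩, hr⟩
    · exact Or.inr ⟨Φ (x, (t₁, t₂)), ⟨⟨_, rfl⟩, h⟩, hr⟩

end Crest.Agent.R204.Freu297
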