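import Crest.Agent.R204.FreuA_297

/-!
Row 204, block H: one suspension step of Freudenthal surjectivity.
-/

open Set Metric Module
open scoped unitInterval Topology NNReal ENNReal

namespace Crest.Agent.R204.Freu297

/-- A space `Y` glued from two unit discs of `F` along the unit sphere. -/
structure Dbl (F : Type*) [NormedAddCommGroup F] [NormedSpace ℝ F] (Y : Type*)
    [TopologicalSpace Y] where
  yc : C(Y, F)
  hc : C(Y, ℝ)
  up : C(F, Y)
  lo : C(F, Y)
  yc_le : ∀ y, ‖yc y‖ ≤ 1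
  hc_eq : ∀ y, hc y = 0 ↔ ‖yc y‖ = 1
  up_yc : ∀ y, 0 ≤ hc y → up (yc y) = y
  lo_yc : ∀ y, hc y ≤ 0 → lo (yc y) = y
  yc_up : ∀ v, ‖v‖ ≤ 1 → yc (up v) = v
  yc_lo : ∀ v, ‖v‖ ≤ 1 → yc (lo v) = v
  hc_up : ∀ v, 0 ≤ hc (up v)
  hc_lo : ∀ v, hc (lo v) ≤ 0

theorem homotopicRel_mk {X Y : Type*} [TopologicalSpace X] [TopologicalSpace Y] {f₀ f₁ : C(X, Y)}
    {S : Set X} (H : I × X → Y) (hH : Continuous H) (h0 : ∀ x, H (0, x) = f₀ x)
    (h1 : ∀ x, H (1, x) = f₁ x) (hS : ∀ t, ∀ x ∈ S, H (t, x) = f₀ x) :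
    f₀.HomotopicRel f₁ S :=
  ⟨{ toFun := H
     continuous_toFun := hH
     map_zero_left := h0
     map_one_left := h1
     prop' := fun t x hx => hS t x hx }⟩

/-- boundary of the cube `(ι → I) × I` -/
def Bd (ι : Type*) : Set ((ι → I) × I) := {z | z.1 ∈ Cube.boundary ι ∨ z.2 = 0 ∨ z.2 = 1}

variable {F : Type*} [NormedAddCommGroup F] [NormedSpace ℝ F] {Y : Type*} [TopologicalSpace Y]

namespace Dbl

variable (D : Dbl F Y)

theorem up_eq_lo {v : F} (hv : ‖v‖ = 1) : D.up v = D.lo v := by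
  have h1 : D.yc (D.up v) = v := D.yc_up v hv.le
  have h2 : D.hc (D.up v) = 0 := by rw [D.hc_eq, h1, hv]
  have h3 := D.lo_yc (D.up v) h2.le
  rw [h1] at h3
  exact h3.symm

theorem yc_up_base {v : F} (hv : ‖v‖ = 1) : D.yc (D.up v) = v := D.yc_up v hv.le

theorem hc_up_base {v : F} (hv : ‖v‖ = 1) : D.hc (D.up v) = 0 := by
  rw [D.hc_eq, D.yc_up_base hv, hv]

/-- the suspension map: `y ↦` loop through `y`, as a map on `sphere × I` -/
noncomputable def E (x0 : F) : C(sphere (0 : F) 1 × I, Y) where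
  toFun z := if (z.2 : ℝ) ≤ 1 / 2 then D.lo (x0 + (2 * (z.2 : ℝ)) • ((z.1 : F) - x0))
    else D.up (x0 + (2 - 2 * (z.2 : ℝ)) • ((z.1 : F) - x0))
  continuous_toFun := by
    refine Continuous.if_le (by fun_prop) (by fun_prop) (by fun_prop) (by fun_prop) ?_
    rintro ⟨⟨y, hy⟩, t⟩ ht
    have hy' : ‖y‖ = 1 := by simpa using hy
    simp only at ht ⊢
    rw [ht]
    norm_num
    exact (D.up_eq_lo hy').symm

theorem E_base {x0 : F} (hx0 : ‖x0‖ = 1) (t : I) (h : x0 ∈ sphere (0 : F) 1) :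
    D.E x0 (⟨x0, h⟩, t) = D.up x0 := by
  show (if (t : ℝ) ≤ 1 / 2 then D.lo (x0 + (2 * (t : ℝ)) • (x0 - x0))
    else D.up (x0 + (2 - 2 * (t : ℝ)) • (x0 - x0))) = _
  rw [sub_self, smul_zero, smul_zero, add_zero, D.up_eq_lo hx0]
  split_ifs <;> rfl

theorem E_zero {x0 : F} (hx0 : ‖x0‖ = 1) (y : sphere (0 : F) 1) :
    D.E x0 (y, 0) = D.up x0 := by
  show (if ((0 : I) : ℝ) ≤ 1 / 2 then D.lo (x0 + (2 * ((0 : I) : ℝ)) • ((y : F) - x0))
    else D.up (x0 + (2 - 2 * ((0 : I) : ℝ)) • ((y : F) - x0))) = _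
  rw [if_pos (by norm_num)]
  simp [D.up_eq_lo hx0]

theorem E_one {x0 : F} (y : sphere (0 : F) 1) :
    D.E x0 (y, 1) = D.up x0 := by
  show (if ((1 : I) : ℝ) ≤ 1 / 2 then D.lo (x0 + (2 * ((1 : I) : ℝ)) • ((y : F) - x0))
    else D.up (x0 + (2 - 2 * ((1 : I) : ℝ)) • ((y : F) - x0))) = _
  rw [if_neg (by norm_num)]
  simp

end Dbl

/-- compactness: a continuous function, positive on a compact set, is bounded below. -/
theorem exists_pos_le_of_compact {X : Type*} [TopologicalSpace X] {K : Set X} (hK : IsCompact K)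
    {f : X → ℝ} (hf : Continuous f) (hpos : ∀ x ∈ K, 0 < f x) : ∃ δ > 0, ∀ x ∈ K, δ ≤ f x := by
  rcases K.eq_empty_or_nonempty with rfl | hne
  · exact ⟨1, one_pos, by simp⟩
  · obtain ⟨x, hx, hmin⟩ := hK.exists_isMinOn hne hf.continuousOn
    exact ⟨f x, hpos x hx, fun y hy => hmin hy⟩

theorem isClosed_exists_snd {X : Type*} [TopologicalSpace X] {S : Set (X × I)} (hS : IsClosed S) :
    IsClosed {x : X | ∃ t, (x, t) ∈ S} := by
  have : {x : X | ∃ t, (x, t) ∈ S} = Prod.fst '' S := by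
    ext x; constructor
    · rintro ⟨t, ht⟩; exact ⟨_, ht, rfl⟩
    · rintro ⟨⟨a, t⟩, ht, rfl⟩; exact ⟨t, ht⟩
  rw [this]
  exact isClosedMap_fst_of_compactSpace S hS

/-- Main lemma: after a homotopy rel boundary, the part `t ≤ τ x` of the cube goes to the lower disc
and the part `τ x ≤ t` to the upper disc. -/
theorem separate {ι : Type*} [Fintype ι] [FiniteDimensional ℝ F] (D : Dbl F Y)
    {x0 : F} (hx0 : ‖x0‖ = 1) (hcard : Fintype.card ι + 2 < 2 * finrank ℝ F)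
    (f : C((ι → I) × I, Y)) (hf : ∀ z ∈ Bd ι, f z = D.up x0) :
    ∃ (τ : C(ι → I, I)) (g : C((ι → I) × I, Y)), (∀ z ∈ Bd ι, g z = D.up x0) ∧
      f.HomotopicRel g (Bd ι) ∧ ∀ (x : ι → I) (t : I),
        (t ≤ τ x → D.hc (g (x, t)) ≤ 0) ∧ (τ x ≤ t → 0 ≤ D.hc (g (x, t))) := by
  classical
  obtain ⟨g₀, ⟨K, hK⟩, hg₀⟩ := exists_lipschitz_approx (fun z => D.yc (f z)) (by fun_prop)
    (ε := 1 / 8) (by norm_num)
  -- extended Lipschitz function
  let pr : (ι → ℝ) × ℝ → (ι → I) × I :=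
    fun w => (fun i => projIcc 0 1 zero_le_one (w.1 i), projIcc 0 1 zero_le_one w.2)
  have hpr : LipschitzWith 1 pr := by
    have e1 : LipschitzWith 1 (fun w : (ι → ℝ) × ℝ =>
        (fun i => projIcc (0 : ℝ) 1 zero_le_one (w.1 i) : ι → I)) := by
      refine LipschitzWith.of_dist_le_mul fun a b => ?_
      rw [dist_pi_le_iff (by positivity)]
      intro i
      refine ((LipschitzWith.projIcc zero_le_one).dist_le_mul (a.1 i) (b.1 i)).trans ?_
      gcongr
      exact (dist_le_pi_dist a.1 b.1 i).trans (le_max_left _ _)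
    have e2 : LipschitzWith 1 (fun w : (ι → ℝ) × ℝ => projIcc (0 : ℝ) 1 zero_le_one w.2) := by
      have := (LipschitzWith.projIcc (zero_le_one (α := ℝ))).comp
        (LipschitzWith.prod_snd (α := ι → ℝ) (β := ℝ))
      rw [one_mul] at this
      exact this
    have := e1.prodMk e2
    rw [max_self] at this
    exact this
  have hpr_coe : ∀ z : (ι → I) × I, pr (fun i => (z.1 i : ℝ), (z.2 : ℝ)) = z := by
    intro z
    simp only [pr, projIcc_val]
  obtain ⟨A, B, hA, hB, hAB⟩ := exists_generic hcard (fun w => g₀ (pr w)) (hK.comp hpr)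
    (ε := 1 / 16) (by norm_num)
  have hg₀c : Continuous g₀ := hK.continuous
  -- notation
  let u : (ι → I) × I → F := fun z => D.yc (f z)
  have hu : Continuous u := by fun_prop
  have hu1 : ∀ z, ‖u z‖ ≤ 1 := fun z => D.yc_le _
  let w : (ι → I) × I → F := fun z => g₀ z - u z + A + (z.2 : ℝ) • B
  have hw : Continuous w := by fun_prop
  have hwn : ∀ z, ‖w z‖ < 1 / 4 := by
    intro z
    have h1 : ‖(z.2 : ℝ) • B‖ ≤ ‖B‖ := by
      rw [norm_smul, Real.norm_eq_abs, abs_of_nonneg z.2.2.1]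
      exact mul_le_of_le_one_left (norm_nonneg _) z.2.2.2
    calc ‖w z‖ ≤ ‖g₀ z - u z‖ + ‖A‖ + ‖(z.2 : ℝ) • B‖ := norm_add₃_le
      _ < 1 / 8 + 1 / 16 + 1 / 16 := by
        have := hg₀ z
        have h2 : ‖(z.2 : ℝ) • B‖ < 1 / 16 := lt_of_le_of_lt h1 hB
        have h3 : ‖g₀ z - u z‖ < 1 / 8 := this
        linarith
      _ = 1 / 4 := by norm_num
  let ρ : (ι → I) × I → ℝ := fun z => min 1 (2 * (1 - ‖u z‖))
  have hρ : Continuous ρ := by fun_prop
  have hρ0 : ∀ z, 0 ≤ ρ z := fun z => le_min zero_le_one (by have := hu1 z; linarith)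
  have hρ1 : ∀ z, ρ z ≤ 1 := fun z => min_le_left _ _
  have hρz : ∀ z, ‖u z‖ = 1 → ρ z = 0 := by
    intro z hz; simp [ρ, hz]
  have hρo : ∀ z, ‖u z‖ ≤ 1 / 2 → ρ z = 1 := by
    intro z hz; simp only [ρ]; rw [min_eq_left]; linarith
  let us : ℝ → (ι → I) × I → F := fun s z => u z + (s * ρ z) • w z
  have husc : Continuous (fun p : ℝ × ((ι → I) × I) => us p.1 p.2) := by fun_prop
  have hus_of : ∀ s z, ‖u z‖ = 1 → us s z = u z := by
    intro s z hz; simp [us, hρz z hz]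
  have hus0 : ∀ z, us 0 z = u z := by intro z; simp [us]
  -- zeros of u'
  have hzero : ∀ z, us 1 z = 0 → g₀ z + A + (z.2 : ℝ) • B = 0 ∧ ‖u z‖ < 1 := by
    intro z hz
    have h1 : ‖u z‖ = ‖(1 * ρ z) • w z‖ := by
      have : u z = -((1 * ρ z) • w z) := eq_neg_of_add_eq_zero_left hz
      rw [this, norm_neg]
    have h2 : ‖u z‖ < 1 / 4 := by
      rw [h1, norm_smul, one_mul, Real.norm_eq_abs, abs_of_nonneg (hρ0 z)]
      exact lt_of_le_of_lt (mul_le_of_le_one_left (norm_nonneg _) (hρ1 z)) (hwn z)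
    have h3 : ρ z = 1 := hρo z (by linarith)
    refine ⟨?_, by linarith⟩
    have h4 : u z + w z = 0 := by simpa [us, h3] using hz
    have h5 : u z + w z = g₀ z + A + (z.2 : ℝ) • B := by simp only [w]; abel
    rw [← h5, h4]
  have hsep : ∀ (x : ι → I) (t₁ t₂ : I), us 1 (x, t₁) = 0 → us 1 (x, t₂) = 0 → t₁ = t₂ := by
    intro x t₁ t₂ h1 h2
    have e1 := (hzero _ h1).1
    have e2 := (hzero _ h2).1
    have := hAB (fun i => (x i : ℝ)) t₁ t₂
      (by have h := hpr_coe (x, t₁); simp only at h; rw [h]; exact e1)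
      (by have h := hpr_coe (x, t₂); simp only at h; rw [h]; exact e2)
    exact Subtype.ext this
  let h : (ι → I) × I → ℝ := fun z => D.hc (f z)
  have hh : Continuous h := by fun_prop
  have hh0 : ∀ z, h z = 0 ↔ ‖u z‖ = 1 := fun z => D.hc_eq _
  have hus1c : Continuous (us 1) := husc.comp (by fun_prop : Continuous (fun z => ((1 : ℝ), z)))
  let Zp : Set (ι → I) := {x | ∃ t, (x, t) ∈ {z | us 1 z = 0 ∧ 0 ≤ h z}}
  let Zm : Set (ι → I) := {x | ∃ t, (x, t) ∈ {z | us 1 z = 0 ∧ h z ≤ 0}}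
  have hZp : IsClosed Zp := isClosed_exists_snd
    ((isClosed_eq hus1c continuous_const).inter (isClosed_le continuous_const hh))
  have hZm : IsClosed Zm := isClosed_exists_snd
    ((isClosed_eq hus1c continuous_const).inter (isClosed_le hh continuous_const))
  have hdisj : Disjoint Zp Zm := by
    rw [Set.disjoint_left]
    rintro x ⟨t₁, h1, h1'⟩ ⟨t₂, h2, h2'⟩
    have := hsep x t₁ t₂ h1 h2
    subst this
    have h3 : h (x, t₁) = 0 := le_antisymm h2' h1'
    rw [hh0] at h3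
    exact absurd h3 (ne_of_lt (hzero _ h1).2)
  obtain ⟨τ₀, hτ0, hτ1, hτI⟩ := exists_continuous_zero_one_of_isClosed hZp hZm hdisj
  let τ : C(ι → I, I) := ⟨fun x => ⟨τ₀ x, hτI x⟩, by fun_prop⟩
  have hbdu : ∀ z ∈ Bd ι, u z = x0 := by
    intro z hz
    simp only [u, hf z hz]
    exact D.yc_up_base hx0
  have hne_bd : ∀ z ∈ Bd ι, us 1 z ≠ 0 := by
    intro z hz h0
    have := (hzero z h0).2
    rw [hbdu z hz, hx0] at this
    exact lt_irrefl _ this
  obtain ⟨δ₁, hδ₁, hδ₁'⟩ := exists_pos_le_of_compact (K := {z : (ι → I) × I | z.2 ≤ τ z.1 ∧ 0 ≤ h z})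
    (IsClosed.isCompact ((isClosed_le (by fun_prop) (by fun_prop)).inter
      (isClosed_le continuous_const hh))) (f := fun z => ‖us 1 z‖) hus1c.norm (by
      rintro ⟨x, t⟩ ⟨h1, h2⟩
      rw [norm_pos_iff]
      intro h0
      have hx : x ∈ Zp := ⟨t, h0, h2⟩
      have h3 : τ x = 0 := Subtype.ext (show τ₀ x = 0 by simpa using hτ0 hx)
      simp only [h3] at h1
      have h4 : t = 0 := le_antisymm h1 (unitInterval.nonneg' )
      exact hne_bd (x, t) (Or.inr (Or.inl h4)) h0)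
  obtain ⟨δ₂, hδ₂, hδ₂'⟩ := exists_pos_le_of_compact (K := {z : (ι → I) × I | τ z.1 ≤ z.2 ∧ h z ≤ 0})
    (IsClosed.isCompact ((isClosed_le (by fun_prop) (by fun_prop)).inter
      (isClosed_le hh continuous_const))) (f := fun z => ‖us 1 z‖) hus1c.norm (by
      rintro ⟨x, t⟩ ⟨h1, h2⟩
      rw [norm_pos_iff]
      intro h0
      have hx : x ∈ Zm := ⟨t, h0, h2⟩
      have h3 : τ x = 1 := Subtype.ext (show τ₀ x = 1 by simpa using hτ1 hx)
      simp only [h3] at h1
      have h4 : t = 1 := le_antisymm (unitInterval.le_one') h1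
      exact hne_bd (x, t) (Or.inr (Or.inr h4)) h0)
  let δ : ℝ := min 1 (min δ₁ δ₂)
  have hδ : 0 < δ := by positivity
  have hδ1 : δ ≤ 1 := min_le_left _ _
  have hδδ₁ : δ ≤ δ₁ := (min_le_right _ _).trans (min_le_left _ _)
  have hδδ₂ : δ ≤ δ₂ := (min_le_right _ _).trans (min_le_right _ _)
  let κ : ℝ → ℝ := fun s => 1 - s * (1 - δ)
  have hκ : ∀ s : I, 0 < κ s ∧ κ s ≤ 1 := by
    intro s
    have h1 := s.2.1
    have h2 := s.2.2
    constructor
    · simp only [κ]; nlinarith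
    · simp only [κ]; nlinarith
  let V : I × ((ι → I) × I) → F := fun p => (max (κ p.1) ‖us p.1 p.2‖)⁻¹ • us p.1 p.2
  have hmax : ∀ p : I × ((ι → I) × I), 0 < max (κ p.1) ‖us p.1 p.2‖ :=
    fun p => lt_max_of_lt_left (hκ p.1).1
  have hus' : Continuous (fun p : I × ((ι → I) × I) => us p.1 p.2) :=
    husc.comp (by fun_prop : Continuous (fun p : I × ((ι → I) × I) => ((p.1 : ℝ), p.2)))
  have hV : Continuous V := by
    refine Continuous.smul (Continuous.inv₀ ?_ fun p => (hmax p).ne') hus'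
    exact (by fun_prop : Continuous (fun p : I × ((ι → I) × I) => κ p.1)).max hus'.norm
  have hV1 : ∀ p, ‖V p‖ ≤ 1 := by
    intro p
    simp only [V, norm_smul, norm_inv, Real.norm_eq_abs, abs_of_pos (hmax p)]
    rw [inv_mul_le_iff₀ (hmax p), mul_one]
    exact le_max_right _ _
  have hVof : ∀ (s : I) z, ‖u z‖ = 1 → V (s, z) = u z := by
    intro s z hz
    simp only [V]
    rw [hus_of _ z hz, hz, max_eq_right (hκ s).2]
    simp
  have hV0 : ∀ z, V (0, z) = u z := by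
    intro z
    have : κ ((0 : I) : ℝ) = 1 := by simp [κ]
    simp only [V]
    rw [this]
    simp only [Icc.coe_zero, hus0]
    rw [max_eq_left (hu1 z)]
    simp
  let H : I × ((ι → I) × I) → Y := fun p => if 0 ≤ h p.2 then D.up (V p) else D.lo (V p)
  have hH : Continuous H := by
    refine Continuous.if_le (by fun_prop) (by fun_prop) continuous_const (by fun_prop) ?_
    intro p hp
    have h1 : ‖u p.2‖ = 1 := (hh0 _).1 hp.symm
    have h2 : V p = u p.2 := hVof p.1 p.2 h1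
    rw [h2]
    exact D.up_eq_lo h1
  have hH0 : ∀ z, H (0, z) = f z := by
    intro z
    simp only [H, hV0]
    split_ifs with h1
    · exact D.up_yc _ h1
    · exact D.lo_yc _ (not_le.1 h1).le
  have hHbd : ∀ (s : I), ∀ z ∈ Bd ι, H (s, z) = f z := by
    intro s z hz
    have h1 : ‖u z‖ = 1 := by rw [hbdu z hz, hx0]
    simp only [H, hVof s z h1]
    split_ifs with h1
    · exact D.up_yc _ h1
    · exact D.lo_yc _ (not_le.1 h1).le
  let g : C((ι → I) × I, Y) := ⟨fun z => H (1, z), by fun_prop⟩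
  have hκ1 : κ ((1 : I) : ℝ) = δ := by simp [κ]
  have hV1' : ∀ z, δ ≤ ‖us 1 z‖ → ‖V (1, z)‖ = 1 := by
    intro z hz
    simp only [V]
    rw [hκ1]
    simp only [Icc.coe_one]
    rw [max_eq_right hz, norm_smul, norm_inv, norm_norm]
    exact inv_mul_cancel₀ (by linarith)
  refine ⟨τ, g, ?_, homotopicRel_mk H hH hH0 (fun _ => rfl) hHbd, ?_⟩
  · intro z hz
    show H (1, z) = _
    rw [hHbd 1 z hz, hf z hz]
  · intro x t
    constructor
    · intro ht
      show D.hc (H (1, (x, t))) ≤ 0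
      simp only [H]
      split_ifs with h1
      · have h2 : δ ≤ ‖us 1 (x, t)‖ := hδδ₁.trans (hδ₁' (x, t) ⟨ht, h1⟩)
        rw [D.hc_up_base (hV1' _ h2)]
      · exact D.hc_lo _
    · intro ht
      show 0 ≤ D.hc (H (1, (x, t)))
      simp only [H]
      split_ifs with h1
      · exact D.hc_up _
      · have h2 : δ ≤ ‖us 1 (x, t)‖ := hδδ₂.trans (hδ₂' (x, t) ⟨ht, (not_le.1 h1).le⟩)
        rw [← D.up_eq_lo (hV1' _ h2), D.hc_up_base (hV1' _ h2)]

end Crest.Agent.R204.Freu297
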