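import Crest.Agent.R204.FreuB_297

/-!
Row 204, block H: the suspension step of Freudenthal surjectivity, final form `Dbl.step`.
-/

open Set Metric Module
open scoped unitInterval Topology NNReal ENNReal

namespace Crest.Agent.R204.Freu297

variable {F : Type*} [NormedAddCommGroup F] [NormedSpace ℝ F] {Y : Type*} [TopologicalSpace Y]

theorem Dbl.straighten {ι : Type*} (D : Dbl F Y) {x0 : F} (hx0 : ‖x0‖ = 1)
    (τ : C(ι → I, I)) (g : C((ι → I) × I, Y)) (hg : ∀ z ∈ Bd ι, g z = D.up x0)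
    (hτ : ∀ (x : ι → I) (t : I),
        (t ≤ τ x → D.hc (g (x, t)) ≤ 0) ∧ (τ x ≤ t → 0 ≤ D.hc (g (x, t)))) :
    ∃ b : C(ι → I, sphere (0 : F) 1), (∀ x ∈ Cube.boundary ι, (b x : F) = x0) ∧
      g.HomotopicRel ((D.E x0).comp (b.prodMap (ContinuousMap.id I))) (Bd ι) := by
  classical
  have hb1 : ∀ x : ι → I, ‖D.yc (g (x, τ x))‖ = 1 := by
    intro x
    rw [← D.hc_eq]
    exact le_antisymm ((hτ x (τ x)).1 le_rfl) ((hτ x (τ x)).2 le_rfl)
  let b : C(ι → I, sphere (0 : F) 1) :=
    ⟨fun x => ⟨D.yc (g (x, τ x)), by simpa using hb1 x⟩, by fun_prop⟩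
  have hb : ∀ x, (b x : F) = D.yc (g (x, τ x)) := fun _ => rfl
  have hgy : ∀ z ∈ Bd ι, D.yc (g z) = x0 := by
    intro z hz; rw [hg z hz]; exact D.yc_up_base hx0
  have hbbd : ∀ x ∈ Cube.boundary ι, (b x : F) = x0 := fun x hx => hgy _ (Or.inl hx)
  refine ⟨b, hbbd, ?_⟩
  -- real-parameter version of g
  let g' : (ι → I) × ℝ → Y := fun p => g (p.1, projIcc 0 1 zero_le_one p.2)
  have hg' : Continuous g' := by
    have : Continuous (fun p : (ι → I) × ℝ => (p.1, projIcc (0 : ℝ) 1 zero_le_one p.2)) :=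
      continuous_fst.prodMk (continuous_projIcc.comp continuous_snd)
    exact g.continuous.comp this
  have hg'I : ∀ (x : ι → I) (t : I), g' (x, (t : ℝ)) = g (x, t) := by
    intro x t; simp only [g', projIcc_val]
  -- θ
  let θ : (ι → I) × I → ℝ := fun z => if (z.2 : ℝ) ≤ 1 / 2 then 2 * (z.2 : ℝ) * (τ z.1 : ℝ)
    else (τ z.1 : ℝ) + (2 * (z.2 : ℝ) - 1) * (1 - (τ z.1 : ℝ))
  have hθ : Continuous θ := by
    refine Continuous.if_le (by fun_prop) (by fun_prop) (by fun_prop) (by fun_prop) ?_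
    rintro ⟨x, t⟩ ht
    simp only at ht ⊢
    rw [ht]; ring
  have hθI : ∀ z, 0 ≤ θ z ∧ θ z ≤ 1 := by
    rintro ⟨x, t⟩
    have h1 := (τ x).2.1
    have h2 := (τ x).2.2
    have h3 := t.2.1
    have h4 := t.2.2
    simp only [θ]
    split_ifs with h
    · constructor
      · positivity
      · nlinarith
    · have h' : (1 : ℝ) / 2 < t := not_le.1 h
      constructor
      · nlinarith
      · nlinarith
  have hθlo : ∀ x (t : I), (t : ℝ) ≤ 1 / 2 → θ (x, t) ≤ τ x := by
    intro x t h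
    have h1 := (τ x).2.1
    simp only [θ]
    rw [if_pos h]
    nlinarith
  have hθhi : ∀ x (t : I), 1 / 2 ≤ (t : ℝ) → (τ x : ℝ) ≤ θ (x, t) := by
    intro x t h
    have h1 := (τ x).2.2
    simp only [θ]
    split_ifs with h'
    · have : (t : ℝ) = 1 / 2 := le_antisymm h' h
      rw [this]; linarith
    · nlinarith
  have hθ0 : ∀ x, θ (x, 0) = 0 := by
    intro x; simp only [θ]; rw [if_pos (by norm_num)]; simp
  have hθ1 : ∀ x, θ (x, 1) = 1 := by
    intro x; simp only [θ]; rw [if_neg (by norm_num)]; simp; ring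
  -- reparametrised map
  let g2 : C((ι → I) × I, Y) := ⟨fun z => g' (z.1, θ z), hg'.comp (by fun_prop)⟩
  have hg2 : ∀ z, g2 z = g' (z.1, θ z) := fun _ => rfl
  have step1 : g.HomotopicRel g2 (Bd ι) := by
    refine homotopicRel_mk
      (fun p => g' (p.2.1, (1 - (p.1 : ℝ)) * (p.2.2 : ℝ) + (p.1 : ℝ) * θ p.2)) ?_ ?_ ?_ ?_
    · exact hg'.comp (by fun_prop)
    · rintro ⟨x, t⟩
      simp [hg'I]
    · rintro ⟨x, t⟩
      simp [hg2]
    · rintro s ⟨x, t⟩ (hx | hx | hx)
      · have e : ∀ r : I, g (x, r) = D.up x0 := fun r => hg (x, r) (Or.inl hx)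
        show g (x, projIcc 0 1 zero_le_one _) = g (x, t)
        rw [e, e]
      · simp only at hx
        subst hx
        simp only [hθ0]
        simp [g']
      · simp only at hx
        subst hx
        simp only [hθ1]
        simp only [Icc.coe_one]
        rw [show (1 - (s : ℝ)) * 1 + (s : ℝ) * 1 = ((1 : I) : ℝ) by simp]
        rw [hg'I]
  refine step1.trans ?_
  -- straight line homotopy
  let P : I × ((ι → I) × I) → F := fun p =>
    (1 - (p.1 : ℝ)) • D.yc (g2 p.2) + (p.1 : ℝ) • (x0 + (2 * (p.2.2 : ℝ)) • ((b p.2.1 : F) - x0))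
  let Q : I × ((ι → I) × I) → F := fun p =>
    (1 - (p.1 : ℝ)) • D.yc (g2 p.2) +
      (p.1 : ℝ) • (x0 + (2 - 2 * (p.2.2 : ℝ)) • ((b p.2.1 : F) - x0))
  have hbc : Continuous (fun x => (b x : F)) := by fun_prop
  have hP : Continuous P := by fun_prop
  have hQ : Continuous Q := by fun_prop
  have hg2half : ∀ x (t : I), (t : ℝ) = 1 / 2 → g2 (x, t) = g (x, τ x) := by
    intro x t ht
    rw [hg2]
    have : θ (x, t) = τ x := le_antisymm (hθlo x t ht.le) (hθhi x t ht.ge)
    simp only [this]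
    exact hg'I x _
  have hmem : ∀ z, ∃ t' : I, (t' : ℝ) = θ z ∧ g2 z = g (z.1, t') := by
    intro z
    refine ⟨⟨θ z, hθI z⟩, rfl, ?_⟩
    rw [hg2, ← hg'I]
  refine homotopicRel_mk
    (fun p => if (p.2.2 : ℝ) ≤ 1 / 2 then D.lo (P p) else D.up (Q p)) ?_ ?_ ?_ ?_
  · refine Continuous.if_le (by fun_prop) (by fun_prop) (by fun_prop) (by fun_prop) ?_
    rintro ⟨s, x, t⟩ ht
    simp only at ht
    have h1 : P (s, x, t) = b x := by
      simp only [P]
      rw [hg2half x t ht, ← hb, ht]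
      norm_num
      rw [← add_smul]; simp
    have h2 : Q (s, x, t) = b x := by
      simp only [Q]
      rw [hg2half x t ht, ← hb, ht]
      norm_num
      rw [← add_smul]; simp
    rw [h1, h2]
    exact (D.up_eq_lo (by rw [hb]; exact hb1 x)).symm
  · rintro ⟨x, t⟩
    have h1 : P (0, x, t) = D.yc (g2 (x, t)) := by simp [P]
    have h2 : Q (0, x, t) = D.yc (g2 (x, t)) := by simp [Q]
    rw [h1, h2]
    obtain ⟨t', ht', e⟩ := hmem (x, t)
    simp only at e
    split_ifs with h
    · refine D.lo_yc _ ?_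
      rw [e]
      refine (hτ x t').1 ?_
      rw [← Subtype.coe_le_coe, ht']
      exact hθlo x t h
    · refine D.up_yc _ ?_
      rw [e]
      refine (hτ x t').2 ?_
      rw [← Subtype.coe_le_coe, ht']
      exact hθhi x t (not_le.1 h).le
  · rintro ⟨x, t⟩
    have h1 : P (1, x, t) = x0 + (2 * (t : ℝ)) • ((b x : F) - x0) := by simp [P]
    have h2 : Q (1, x, t) = x0 + (2 - 2 * (t : ℝ)) • ((b x : F) - x0) := by simp [Q]
    rw [h1, h2]
    rfl
  · rintro s ⟨x, t⟩ hz
    have hbz : g2 (x, t) = D.up x0 := by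
      rcases hz with hx | hx | hx
      · exact hg _ (Or.inl hx)
      · simp only at hx; subst hx
        rw [hg2]; simp only [hθ0]
        have := hg'I x 0
        simp only [Icc.coe_zero] at this
        rw [this, hg _ (Or.inr (Or.inl rfl))]
      · simp only at hx; subst hx
        rw [hg2]; simp only [hθ1]
        have := hg'I x 1
        simp only [Icc.coe_one] at this
        rw [this, hg _ (Or.inr (Or.inr rfl))]
    have hyc : D.yc (g2 (x, t)) = x0 := by rw [hbz]; exact D.yc_up_base hx0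
    rw [hbz]
    have hs : ∀ v : F, v = x0 → (1 - (s : ℝ)) • x0 + (s : ℝ) • v = x0 := by
      intro v hv; rw [hv, ← add_smul]; simp
    rcases hz with hx | hx | hx
    · have hbx : (b x : F) = x0 := hbbd x hx
      have h1 : P (s, x, t) = x0 := by
        simp only [P]; rw [hyc, hbx]; exact hs _ (by simp)
      have h2 : Q (s, x, t) = x0 := by
        simp only [Q]; rw [hyc, hbx]; exact hs _ (by simp)
      rw [h1, h2]
      split_ifs
      · exact (D.up_eq_lo hx0).symm
      · rfl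
    · simp only at hx; subst hx
      have h1 : P (s, x, 0) = x0 := by
        simp only [P]; rw [hyc]; exact hs _ (by simp)
      rw [h1, if_pos (by norm_num)]
      exact (D.up_eq_lo hx0).symm
    · simp only at hx; subst hx
      have h2 : Q (s, x, 1) = x0 := by
        simp only [Q]; rw [hyc]; exact hs _ (by simp)
      rw [h2, if_neg (by norm_num)]

/-- **Freudenthal step**. If `card ι + 2 < 2 dim F` (i.e. `card ι ≤ 2 m - 1`, `m + 1 = dim F`), every
map of `(ι → I) × I` into the "suspension" `Y` of `S(F)`, constant on the boundary, is homotopic rel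
boundary to `(x, t) ↦ E (b x) t` for some `b : (ι → I) → S(F)` constant on the boundary. -/
theorem Dbl.step {ι : Type*} [Fintype ι] [FiniteDimensional ℝ F] (D : Dbl F Y)
    {x0 : F} (hx0 : ‖x0‖ = 1) (hcard : Fintype.card ι + 2 < 2 * finrank ℝ F)
    (f : C((ι → I) × I, Y)) (hf : ∀ z ∈ Bd ι, f z = D.up x0) :
    ∃ b : C(ι → I, sphere (0 : F) 1), (∀ x ∈ Cube.boundary ι, (b x : F) = x0) ∧
      f.HomotopicRel ((D.E x0).comp (b.prodMap (ContinuousMap.id I))) (Bd ι) := by
  obtain ⟨τ, g, hg, hfg, hτ⟩ := separate D hx0 hcard f hf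
  obtain ⟨b, hb, hgb⟩ := D.straighten hx0 τ g hg hτ
  exact ⟨b, hb, hfg.trans hgb⟩

end Crest.Agent.R204.Freu297
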