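import Crest.Agent.R204.FreuC_297

/-!
Row 204, block H: Freudenthal surjectivity for the metric spheres of `EuclideanSpace ℝ (Fin (n+1))`
and Mathlib's `GenLoop`.
-/

open Set Metric Module
open scoped unitInterval Topology NNReal ENNReal

namespace Crest.Agent.R204.Freu297

/-- the unit `n`-sphere as in S0314 / S0315 -/
abbrev Sph (n : ℕ) : Type := Metric.sphere (0 : EuclideanSpace ℝ (Fin (n + 1))) 1

/-- append a coordinate -/
noncomputable def snocE {n : ℕ} (v : EuclideanSpace ℝ (Fin n)) (h : ℝ) :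
    EuclideanSpace ℝ (Fin (n + 1)) :=
  WithLp.toLp 2 (Fin.snoc (α := fun _ => ℝ) v h)

/-- forget the last coordinate -/
noncomputable def initE {n : ℕ} (v : EuclideanSpace ℝ (Fin (n + 1))) : EuclideanSpace ℝ (Fin n) :=
  WithLp.toLp 2 (fun i => v (Fin.castSucc i))

@[simp] theorem snocE_castSucc {n : ℕ} (v : EuclideanSpace ℝ (Fin n)) (h : ℝ) (i : Fin n) :
    snocE v h (Fin.castSucc i) = v i := by simp [snocE]

@[simp] theorem snocE_last {n : ℕ} (v : EuclideanSpace ℝ (Fin n)) (h : ℝ) :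
    snocE v h (Fin.last n) = h := by simp [snocE]

@[simp] theorem initE_apply {n : ℕ} (v : EuclideanSpace ℝ (Fin (n + 1))) (i : Fin n) :
    initE v i = v (Fin.castSucc i) := rfl

theorem snocE_initE {n : ℕ} (v : EuclideanSpace ℝ (Fin (n + 1))) :
    snocE (initE v) (v (Fin.last n)) = v := by
  ext i
  refine Fin.lastCases ?_ (fun j => ?_) i
  · simp
  · simp

theorem initE_snocE {n : ℕ} (v : EuclideanSpace ℝ (Fin n)) (h : ℝ) : initE (snocE v h) = v := by
  ext i; simp

theorem norm_snocE_sq {n : ℕ} (v : EuclideanSpace ℝ (Fin n)) (h : ℝ) :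
    ‖snocE v h‖ ^ 2 = ‖v‖ ^ 2 + h ^ 2 := by
  rw [EuclideanSpace.real_norm_sq_eq, EuclideanSpace.real_norm_sq_eq, Fin.sum_univ_castSucc]
  simp

theorem norm_sq_eq_init {n : ℕ} (v : EuclideanSpace ℝ (Fin (n + 1))) :
    ‖v‖ ^ 2 = ‖initE v‖ ^ 2 + (v (Fin.last n)) ^ 2 := by
  conv_lhs => rw [← snocE_initE v]
  exact norm_snocE_sq _ _

theorem continuous_snocE {n : ℕ} :
    Continuous (fun p : EuclideanSpace ℝ (Fin n) × ℝ => snocE p.1 p.2) := by
  refine (PiLp.continuous_toLp 2 _).comp ?_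
  refine continuous_pi fun i => ?_
  refine Fin.lastCases ?_ (fun j => ?_) i
  · simpa using continuous_snd
  · simp only [Fin.snoc_castSucc]
    fun_prop

theorem continuous_initE {n : ℕ} :
    Continuous (fun v : EuclideanSpace ℝ (Fin (n + 1)) => initE v) := by
  refine (PiLp.continuous_toLp 2 _).comp ?_
  fun_prop

/-- radial retraction to the unit ball -/
noncomputable def clamp {F : Type*} [NormedAddCommGroup F] [NormedSpace ℝ F] (v : F) : F :=
  (max 1 ‖v‖)⁻¹ • v

section clamp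
variable {F : Type*} [NormedAddCommGroup F] [NormedSpace ℝ F]

theorem clamp_of_le {v : F} (hv : ‖v‖ ≤ 1) : clamp v = v := by
  simp [clamp, max_eq_left hv]

theorem norm_clamp_le (v : F) : ‖clamp v‖ ≤ 1 := by
  have h : 0 < max 1 ‖v‖ := lt_max_of_lt_left one_pos
  rw [clamp, norm_smul, norm_inv, Real.norm_eq_abs, abs_of_pos h, inv_mul_le_iff₀ h, mul_one]
  exact le_max_right _ _

theorem continuous_clamp : Continuous (clamp : F → F) := by
  refine Continuous.smul (Continuous.inv₀ (by fun_prop) fun v => ?_) continuous_id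
  exact (lt_max_of_lt_left one_pos).ne'

end clamp

theorem norm_snocE_one {n : ℕ} (v : EuclideanSpace ℝ (Fin n)) (hv : ‖v‖ ≤ 1) (ε : ℝ)
    (hε : ε ^ 2 = 1) : ‖snocE v (ε * √(1 - ‖v‖ ^ 2))‖ = 1 := by
  have h1 : 0 ≤ 1 - ‖v‖ ^ 2 := by nlinarith [norm_nonneg v]
  have h2 : ‖snocE v (ε * √(1 - ‖v‖ ^ 2))‖ ^ 2 = 1 := by
    rw [norm_snocE_sq, mul_pow, hε, Real.sq_sqrt h1]; ring
  have h3 : 0 ≤ ‖snocE v (ε * √(1 - ‖v‖ ^ 2))‖ := norm_nonneg _
  nlinarith

/-- The metric sphere `S^{m+1}` as a double of the unit ball of `ℝ^{m+1}`. -/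
noncomputable def sphDbl (m : ℕ) : Dbl (EuclideanSpace ℝ (Fin (m + 1))) (Sph (m + 1)) where
  yc := ⟨fun y => initE y.1, continuous_initE.comp continuous_subtype_val⟩
  hc := ⟨fun y => y.1 (Fin.last _), by fun_prop⟩
  up := ⟨fun v => ⟨snocE (clamp v) (1 * √(1 - ‖clamp v‖ ^ 2)), by
      simpa using norm_snocE_one (clamp v) (norm_clamp_le v) 1 (by norm_num)⟩, by
    refine Continuous.subtype_mk ?_ _
    exact continuous_snocE.comp (continuous_clamp.prodMk
      (continuous_const.mul (continuous_const.sub (continuous_clamp.norm.pow 2)).sqrt))⟩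
  lo := ⟨fun v => ⟨snocE (clamp v) (-1 * √(1 - ‖clamp v‖ ^ 2)), by
      simpa using norm_snocE_one (clamp v) (norm_clamp_le v) (-1) (by norm_num)⟩, by
    refine Continuous.subtype_mk ?_ _
    exact continuous_snocE.comp (continuous_clamp.prodMk
      (continuous_const.mul (continuous_const.sub (continuous_clamp.norm.pow 2)).sqrt))⟩
  yc_le := by
    rintro ⟨y, hy⟩
    have hy' : ‖y‖ = 1 := by simpa using hy
    have := norm_sq_eq_init y
    show ‖initE y‖ ≤ 1
    rw [hy'] at this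
    nlinarith [norm_nonneg (initE y), sq_nonneg (y (Fin.last _))]
  hc_eq := by
    rintro ⟨y, hy⟩
    have hy' : ‖y‖ = 1 := by simpa using hy
    have := norm_sq_eq_init y
    rw [hy'] at this
    show y (Fin.last _) = 0 ↔ ‖initE y‖ = 1
    constructor
    · intro h
      rw [h] at this
      nlinarith [norm_nonneg (initE y)]
    · intro h
      rw [h] at this
      have h2 : (y (Fin.last _)) ^ 2 = 0 := by linarith
      exact pow_eq_zero_iff (two_ne_zero) |>.1 h2
  up_yc := by
    rintro ⟨y, hy⟩ hh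
    have hy' : ‖y‖ = 1 := by simpa using hy
    have h0 := norm_sq_eq_init y
    rw [hy'] at h0
    have h1 : ‖initE y‖ ≤ 1 := by
      nlinarith [norm_nonneg (initE y), sq_nonneg (y (Fin.last _))]
    apply Subtype.ext
    show snocE (clamp (initE y)) (1 * √(1 - ‖clamp (initE y)‖ ^ 2)) = y
    rw [clamp_of_le h1]
    have h2 : √(1 - ‖initE y‖ ^ 2) = y (Fin.last _) := by
      rw [show 1 - ‖initE y‖ ^ 2 = (y (Fin.last _)) ^ 2 by linarith]
      exact Real.sqrt_sq hh
    rw [h2, one_mul]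
    exact snocE_initE y
  lo_yc := by
    rintro ⟨y, hy⟩ hh
    have hy' : ‖y‖ = 1 := by simpa using hy
    have h0 := norm_sq_eq_init y
    rw [hy'] at h0
    have h1 : ‖initE y‖ ≤ 1 := by
      nlinarith [norm_nonneg (initE y), sq_nonneg (y (Fin.last _))]
    apply Subtype.ext
    show snocE (clamp (initE y)) (-1 * √(1 - ‖clamp (initE y)‖ ^ 2)) = y
    rw [clamp_of_le h1]
    have h2 : √(1 - ‖initE y‖ ^ 2) = -y (Fin.last _) := by
      rw [show 1 - ‖initE y‖ ^ 2 = (-y (Fin.last _)) ^ 2 by rw [neg_sq]; linarith]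
      exact Real.sqrt_sq (by have : y (Fin.last _) ≤ 0 := hh; linarith)
    rw [h2, neg_one_mul, neg_neg]
    exact snocE_initE y
  yc_up := by
    intro v hv
    show initE (snocE (clamp v) (1 * √(1 - ‖clamp v‖ ^ 2))) = v
    rw [initE_snocE, clamp_of_le hv]
  yc_lo := by
    intro v hv
    show initE (snocE (clamp v) (-1 * √(1 - ‖clamp v‖ ^ 2))) = v
    rw [initE_snocE, clamp_of_le hv]
  hc_up := by
    intro v
    show 0 ≤ snocE (clamp v) (1 * √(1 - ‖clamp v‖ ^ 2)) (Fin.last _)
    rw [snocE_last, one_mul]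
    exact Real.sqrt_nonneg _
  hc_lo := by
    intro v
    show snocE (clamp v) (-1 * √(1 - ‖clamp v‖ ^ 2)) (Fin.last _) ≤ 0
    rw [snocE_last]
    have := Real.sqrt_nonneg (1 - ‖clamp v‖ ^ 2)
    linarith

/-- base point `(1, 0, …, 0)` of the sphere -/
noncomputable def pt (n : ℕ) : Sph n := ⟨EuclideanSpace.single 0 1, by simp⟩

theorem pt_succ (m : ℕ) : (sphDbl m).up ((pt m : Sph m) : EuclideanSpace ℝ (Fin (m + 1))) =
    pt (m + 1) := by
  have h1 : ‖((pt m : Sph m) : EuclideanSpace ℝ (Fin (m + 1)))‖ = 1 := by simp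
  apply Subtype.ext
  show snocE (clamp ((pt m : Sph m) : EuclideanSpace ℝ (Fin (m + 1)))) (1 * √(1 - ‖clamp _‖ ^ 2)) = _
  rw [clamp_of_le h1.le, h1]
  ext i
  refine Fin.lastCases ?_ (fun j => ?_) i
  · simp [pt]
  · rw [snocE_castSucc]
    simp only [pt, PiLp.single_apply]
    by_cases h : j = 0
    · subst h
      rw [if_pos rfl, if_pos Fin.castSucc_zero]
    · rw [if_neg h, if_neg (fun h' => h (Fin.castSucc_injective _ (h'.trans Fin.castSucc_zero.symm)))]

theorem norm_pt (n : ℕ) : ‖((pt n : Sph n) : EuclideanSpace ℝ (Fin (n + 1)))‖ = 1 := by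
  simp

/-- currying into `GenLoop` -/
noncomputable def curryLoop {T X : Type*} [TopologicalSpace T] [TopologicalSpace X] {x : X}
    {J : Type*} (Φ : C(T × (J → I), X)) (h : ∀ t, ∀ w ∈ Cube.boundary J, Φ (t, w) = x) :
    C(T, GenLoop J X x) where
  toFun t := ⟨Φ.curry t, fun w hw => h t w hw⟩
  continuous_toFun := Continuous.subtype_mk Φ.curry.continuous _

/-- loop coordinate suspension `Ω^J S^n → Ω^{J+1} S^{n+1}` -/
noncomputable def susp (n J : ℕ) :
    C(GenLoop (Fin J) (Sph n) (pt n), GenLoop (Fin (J + 1)) (Sph (n + 1)) (pt (n + 1))) :=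
  curryLoop ⟨fun p => (sphDbl n).E (pt n : Sph n) (p.1 (Fin.init p.2), p.2 (Fin.last J)), by
      have h1 : Continuous (fun p : GenLoop (Fin J) (Sph n) (pt n) × (Fin (J + 1) → I) =>
          (p.1 (Fin.init p.2) : Sph n)) := by
        have : Continuous (fun p : GenLoop (Fin J) (Sph n) (pt n) × (Fin (J + 1) → I) =>
            (p.1, (Fin.init p.2 : Fin J → I))) :=
          continuous_fst.prodMk (continuous_pi fun i => by
            show Continuous fun p : GenLoop (Fin J) (Sph n) (pt n) × (Fin (J + 1) → I) =>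
              p.2 (Fin.castSucc i)
            fun_prop)
        exact continuous_eval.comp this
      exact ((sphDbl n).E _).continuous.comp (h1.prodMk (by fun_prop))⟩ (by
    rintro β w ⟨i, hi⟩
    show (sphDbl n).E _ (β (Fin.init w), w (Fin.last J)) = _
    refine Fin.lastCases (motive := fun i => w i = 0 ∨ w i = 1 → _) ?_ (fun j => ?_) i hi
    · rintro (h | h)
      · rw [h, (sphDbl n).E_zero (norm_pt n), pt_succ]
      · rw [h, (sphDbl n).E_one, pt_succ]
    · intro h
      have h1 : β (Fin.init w) = pt n := β.2 _ ⟨j, h⟩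
      rw [h1]
      rw [← pt_succ]
      exact (sphDbl n).E_base (norm_pt n) _ _)

theorem susp_apply (n J : ℕ) (β : GenLoop (Fin J) (Sph n) (pt n)) (w : Fin (J + 1) → I) :
    susp n J β w = (sphDbl n).E (pt n : Sph n) (β (Fin.init w), w (Fin.last J)) := rfl

theorem susp_const (n J : ℕ) : susp n J GenLoop.const = GenLoop.const := by
  apply GenLoop.ext
  intro w
  rw [susp_apply]
  show (sphDbl n).E _ (pt n, w (Fin.last J)) = pt (n + 1)
  rw [← pt_succ]
  exact (sphDbl n).E_base (norm_pt n) _ _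

/-- `S^m → Ω^0 S^m` -/
noncomputable def toLoop0 (m : ℕ) : C(Sph m, GenLoop (Fin 0) (Sph m) (pt m)) where
  toFun y := ⟨ContinuousMap.const _ y, by rintro w ⟨i, _⟩; exact i.elim0⟩
  continuous_toFun := Continuous.subtype_mk ContinuousMap.continuous_const' _

/-- the iterated suspension map `S^m → Ω^J S^{m+J}` -/
noncomputable def EJ (m : ℕ) : (J : ℕ) → C(Sph m, GenLoop (Fin J) (Sph (m + J)) (pt (m + J)))
  | 0 => toLoop0 m
  | J + 1 => (susp (m + J) J).comp (EJ m J)

theorem EJ_pt (m J : ℕ) : EJ m J (pt m) = GenLoop.const := by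
  induction J with
  | zero => rfl
  | succ J ih =>
    show susp (m + J) J (EJ m J (pt m)) = _
    rw [ih, susp_const]

theorem step_loop {q n J : ℕ} (hq : q + J + 2 < 2 * (n + 1))
    (a : C(Fin q → I, GenLoop (Fin (J + 1)) (Sph (n + 1)) (pt (n + 1))))
    (ha : ∀ x ∈ Cube.boundary (Fin q), a x = GenLoop.const) :
    ∃ b : C(Fin q → I, GenLoop (Fin J) (Sph n) (pt n)),
      (∀ x ∈ Cube.boundary (Fin q), b x = GenLoop.const) ∧
      a.HomotopicRel ((susp n J).comp b) (Cube.boundary (Fin q)) := by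
  classical
  let D := sphDbl n
  -- uncurried map
  have hsn : Continuous (fun z : ((Fin q ⊕ Fin J) → I) × I =>
      (Fin.snoc (α := fun _ => I) (fun j => z.1 (Sum.inr j)) z.2 : Fin (J + 1) → I)) := by
    refine continuous_pi fun i => ?_
    refine Fin.lastCases ?_ (fun j => ?_) i
    · simp only [Fin.snoc_last]; fun_prop
    · simp only [Fin.snoc_castSucc]; fun_prop
  let A : C(((Fin q ⊕ Fin J) → I) × I, Sph (n + 1)) :=
    ⟨fun z => a (fun i => z.1 (Sum.inl i))
      (Fin.snoc (α := fun _ => I) (fun j => z.1 (Sum.inr j)) z.2), by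
      have h1 : Continuous (fun z : ((Fin q ⊕ Fin J) → I) × I => a (fun i => z.1 (Sum.inl i))) :=
        a.continuous.comp (by fun_prop)
      exact continuous_eval.comp (h1.prodMk hsn)⟩
  have hA : ∀ z ∈ Bd (Fin q ⊕ Fin J), A z = D.up ((pt n : Sph n) : EuclideanSpace ℝ (Fin (n + 1))) := by
    rintro ⟨z, t⟩ hz
    rw [pt_succ]
    show a (fun i => z (Sum.inl i)) (Fin.snoc (α := fun _ => I) (fun j => z (Sum.inr j)) t) = _
    rcases hz with ⟨i, hi⟩ | hz | hz
    · rcases i with i | j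
      · rw [ha _ ⟨i, hi⟩]; rfl
      · refine (a _).2 _ ⟨Fin.castSucc j, ?_⟩
        rw [Fin.snoc_castSucc]; exact hi
    · refine (a _).2 _ ⟨Fin.last J, ?_⟩
      rw [Fin.snoc_last]; exact Or.inl hz
    · refine (a _).2 _ ⟨Fin.last J, ?_⟩
      rw [Fin.snoc_last]; exact Or.inr hz
  obtain ⟨b₀, hb₀, ⟨H⟩⟩ := D.step (norm_pt n) (ι := Fin q ⊕ Fin J) (by simpa using hq) A hA
  have hsum : Continuous (fun p : (Fin q → I) × (Fin J → I) =>
      (Sum.elim p.1 p.2 : (Fin q ⊕ Fin J) → I)) := by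
    refine continuous_pi fun i => ?_
    rcases i with i | j
    · simp only [Sum.elim_inl]; fun_prop
    · simp only [Sum.elim_inr]; fun_prop
  let b : C(Fin q → I, GenLoop (Fin J) (Sph n) (pt n)) :=
    curryLoop ⟨fun p => b₀ (Sum.elim p.1 p.2), b₀.continuous.comp hsum⟩ (by
      rintro x w ⟨j, hj⟩
      exact Subtype.ext (hb₀ _ ⟨Sum.inr j, hj⟩))
  have hb : ∀ x w, b x w = b₀ (Sum.elim x w) := fun _ _ => rfl
  refine ⟨b, ?_, ?_⟩
  · rintro x ⟨i, hi⟩
    apply GenLoop.ext
    intro w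
    exact Subtype.ext (hb₀ _ ⟨Sum.inl i, hi⟩)
  · -- the homotopy
    have hinit : Continuous (fun w : Fin (J + 1) → I => (Fin.init w : Fin J → I)) :=
      continuous_pi fun i => by
        show Continuous fun w : Fin (J + 1) → I => w (Fin.castSucc i)
        fun_prop
    have hc1 : Continuous (fun p : (I × (Fin q → I)) × (Fin (J + 1) → I) =>
        (p.1.1, ((Sum.elim p.1.2 (Fin.init p.2) : (Fin q ⊕ Fin J) → I), p.2 (Fin.last J)))) := by
      refine (by fun_prop : Continuous (fun p : (I × (Fin q → I)) × (Fin (J + 1) → I) =>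
        p.1.1)).prodMk (Continuous.prodMk ?_ (by fun_prop))
      exact hsum.comp ((by fun_prop : Continuous (fun p : (I × (Fin q → I)) × (Fin (J + 1) → I) =>
        p.1.2)).prodMk (hinit.comp continuous_snd))
    have hHbd : ∀ (s : I) (x : Fin q → I) (w : Fin (J + 1) → I), w ∈ Cube.boundary (Fin (J + 1)) →
        ((Sum.elim x (Fin.init w) : (Fin q ⊕ Fin J) → I), w (Fin.last J)) ∈ Bd (Fin q ⊕ Fin J) := by
      rintro s x w ⟨i, hi⟩
      refine Fin.lastCases (motive := fun i => w i = 0 ∨ w i = 1 → _) ?_ (fun j => ?_) i hi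
      · intro h; exact Or.inr h
      · intro h; exact Or.inl ⟨Sum.inr j, h⟩
    let G : C(I × (Fin q → I), GenLoop (Fin (J + 1)) (Sph (n + 1)) (pt (n + 1))) :=
      curryLoop ⟨fun p => H (p.1.1, ((Sum.elim p.1.2 (Fin.init p.2) : (Fin q ⊕ Fin J) → I),
        p.2 (Fin.last J))), H.continuous.comp hc1⟩ (by
        rintro ⟨s, x⟩ w hw
        show H (s, _) = _
        rw [H.eq_fst s (hHbd s x w hw), hA _ (hHbd s x w hw), pt_succ])
    have hG : ∀ s x w, G (s, x) w = H (s, ((Sum.elim x (Fin.init w) : (Fin q ⊕ Fin J) → I),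
        w (Fin.last J))) := fun _ _ _ => rfl
    have hAa : ∀ (x : Fin q → I) (w : Fin (J + 1) → I),
        A ((Sum.elim x (Fin.init w) : (Fin q ⊕ Fin J) → I), w (Fin.last J)) = a x w := by
      intro x w
      show a x (Fin.snoc (α := fun _ => I) (Fin.init w) (w (Fin.last J))) = a x w
      rw [Fin.snoc_init_self]
    refine homotopicRel_mk (fun p => G p) G.continuous ?_ ?_ ?_
    · intro x
      apply GenLoop.ext; intro w
      rw [hG, H.apply_zero, hAa]
    · intro x
      apply GenLoop.ext; intro w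
      rw [hG, H.apply_one]
      rfl
    · rintro s x ⟨i, hi⟩
      apply GenLoop.ext; intro w
      rw [hG, H.eq_fst s (Or.inl ⟨Sum.inl i, hi⟩), hAa]

/-- **Freudenthal surjectivity** (iterated form): for `q ≤ 2m - 1`, every based map
`(I^q, ∂) → Ω^J S^{m+J}` is homotopic rel boundary to `E_J ∘ f` for some `f : (I^q, ∂) → S^m`. -/
theorem freudenthal {q m : ℕ} (hq : q + 1 ≤ 2 * m) : ∀ (J : ℕ)
    (a : C(Fin q → I, GenLoop (Fin J) (Sph (m + J)) (pt (m + J)))),
    (∀ x ∈ Cube.boundary (Fin q), a x = GenLoop.const) →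
    ∃ f : C(Fin q → I, Sph m), (∀ x ∈ Cube.boundary (Fin q), f x = pt m) ∧
      a.HomotopicRel ((EJ m J).comp f) (Cube.boundary (Fin q)) := by
  intro J
  induction J with
  | zero =>
    intro a ha
    let f : C(Fin q → I, Sph m) := ⟨fun x => a x (fun i => i.elim0), by
      exact (continuous_eval_const (F := GenLoop (Fin 0) (Sph m) (pt m))
        (fun i : Fin 0 => i.elim0)).comp a.continuous⟩
    refine ⟨f, ?_, ?_⟩
    · intro x hx
      show a x _ = _
      rw [ha x hx]; rfl
    · have : (EJ m 0).comp f = a := by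
        ext1 x
        apply GenLoop.ext; intro w
        show a x _ = a x w
        congr 1
        ext i; exact i.elim0
      rw [this]
      exact ContinuousMap.HomotopicRel.refl _
  | succ J ih =>
    intro a ha
    obtain ⟨b, hb, hab⟩ := step_loop (n := m + J) (by omega) a ha
    obtain ⟨f, hf, hbf⟩ := ih b hb
    refine ⟨f, hf, hab.trans ?_⟩
    obtain ⟨H⟩ := hbf
    exact ⟨H.compContinuousMap (susp (m + J) J)⟩

end Crest.Agent.R204.Freu297
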