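import Crest.Agent.R204.FreuR_297

/-!
Row 204: relative Freudenthal step for `susp n J : Ω^J S^n → Ω^{J+1} S^{n+1}` on cubes of loops.
-/

open Set Metric Module
open scoped unitInterval Topology NNReal ENNReal

namespace Crest.Agent.R204.Freu297

theorem half_mem : (1 / 2 : ℝ) ∈ I := by constructor <;> norm_num

theorem E_injective {F : Type*} [NormedAddCommGroup F] [NormedSpace ℝ F] {Y : Type*}
    [TopologicalSpace Y] (D : Dbl F Y) {x0 : F} (hx0 : ‖x0‖ = 1) {y y' : sphere (0 : F) 1}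
    (h : D.E x0 (y, ⟨1 / 2, half_mem⟩) = D.E x0 (y', ⟨1 / 2, half_mem⟩)) : y = y' := by
  have h1 := D.yc_E_le hx0 y ⟨1 / 2, half_mem⟩ le_rfl
  have h2 := D.yc_E_le hx0 y' ⟨1 / 2, half_mem⟩ le_rfl
  rw [h] at h1
  rw [h1] at h2
  apply Subtype.ext
  simpa using h2

theorem susp_injective (n J : ℕ) : Function.Injective (susp n J) := by
  intro β β' h
  apply GenLoop.ext
  intro w
  have h1 : susp n J β (Fin.snoc (α := fun _ => I) w ⟨1 / 2, half_mem⟩) =
      susp n J β' (Fin.snoc (α := fun _ => I) w ⟨1 / 2, half_mem⟩) := by rw [h]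
  rw [susp_apply, susp_apply, Fin.init_snoc, Fin.snoc_last] at h1
  exact E_injective (sphDbl n) (norm_pt n) h1

theorem step_loop_rel {q n J : ℕ} (hq : q + J + 2 < 2 * (n + 1))
    (a : C(Fin q → I, GenLoop (Fin (J + 1)) (Sph (n + 1)) (pt (n + 1))))
    (ha : ∀ x ∈ Cube.boundary (Fin q), a x ∈ Set.range (susp n J)) :
    ∃ b : C(Fin q → I, GenLoop (Fin J) (Sph n) (pt n)),
      a.HomotopicRel ((susp n J).comp b) (Cube.boundary (Fin q)) := by
  classical
  let D := sphDbl n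
  have hsn : Continuous (fun z : ((Fin q ⊕ Fin J) → I) × I =>
      (Fin.snoc (α := fun _ => I) (fun j => z.1 (Sum.inr j)) z.2 : Fin (J + 1) → I)) := by
    refine continuous_pi fun i => ?_
    refine Fin.lastCases ?_ (fun j => ?_) i
    · simp only [Fin.snoc_last]; fun_prop
    · simp only [Fin.snoc_castSucc]; fun_prop
  let A : C(((Fin q ⊕ Fin J) → I) × I, Sph (n + 1)) :=
    ⟨fun z => a (fun i => z.1 (Sum.inl i))
      (Fin.snoc (α := fun _ => I) (fun j => z.1 (Sum.inr j)) z.2), by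
      have h1 : Continuous (fun z : ((Fin q ⊕ Fin J) → I) × I => a (fun i => z.1 (Sum.inl i))) :=
        a.continuous.comp (by fun_prop)
      exact continuous_eval.comp (h1.prodMk hsn)⟩
  have hAv : ∀ z t, A (z, t) = a (fun i => z (Sum.inl i))
      (Fin.snoc (α := fun _ => I) (fun j => z (Sum.inr j)) t) := fun _ _ => rfl
  have hAr : ∀ (z : (Fin q ⊕ Fin J) → I) (j : Fin J), (z (Sum.inr j) = 0 ∨ z (Sum.inr j) = 1) →
      ∀ t, A (z, t) = D.E (pt n : Sph n) (pt n, t) := by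
    intro z j hj t
    rw [hAv, D.E_base (norm_pt n), pt_succ]
    refine (a _).2 _ ⟨Fin.castSucc j, ?_⟩
    rw [Fin.snoc_castSucc]; exact hj
  have hbd : ∀ z ∈ Cube.boundary (Fin q ⊕ Fin J), ∃ y : Sph n, ∀ t,
      A (z, t) = D.E (pt n : Sph n) (y, t) := by
    rintro z ⟨i | j, hi⟩
    · obtain ⟨β, hβ⟩ := ha (fun i => z (Sum.inl i)) ⟨i, hi⟩
      refine ⟨β (fun j => z (Sum.inr j)), fun t => ?_⟩
      rw [hAv, ← hβ, susp_apply, Fin.init_snoc, Fin.snoc_last]
    · exact ⟨pt n, hAr z j hi⟩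
  have h0 : ∀ z, A (z, 0) = D.up ((pt n : Sph n) : EuclideanSpace ℝ (Fin (n + 1))) := by
    intro z
    rw [hAv, pt_succ]
    refine (a _).2 _ ⟨Fin.last J, ?_⟩
    rw [Fin.snoc_last]; exact Or.inl rfl
  have h1 : ∀ z, A (z, 1) = D.up ((pt n : Sph n) : EuclideanSpace ℝ (Fin (n + 1))) := by
    intro z
    rw [hAv, pt_succ]
    refine (a _).2 _ ⟨Fin.last J, ?_⟩
    rw [Fin.snoc_last]; exact Or.inr rfl
  obtain ⟨b₀, ⟨H⟩⟩ := D.step_rel (norm_pt n) (ι := Fin q ⊕ Fin J) (by simpa using hq) A hbd h0 h1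
  have hb₀ : ∀ z t, (z, t) ∈ Bd (Fin q ⊕ Fin J) → A (z, t) = D.E (pt n : Sph n) (b₀ z, t) := by
    intro z t hz
    have e1 := H.eq_fst 1 hz
    have e2 := H.apply_one (z, t)
    rw [e1] at e2
    exact e2
  have hb₀r : ∀ (z : (Fin q ⊕ Fin J) → I) (j : Fin J), (z (Sum.inr j) = 0 ∨ z (Sum.inr j) = 1) →
      b₀ z = pt n := by
    intro z j hj
    have e1 := hb₀ z ⟨1 / 2, half_mem⟩ (Or.inl ⟨Sum.inr j, hj⟩)
    rw [hAr z j hj] at e1
    exact (E_injective D (norm_pt n) e1).symm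
  have hsum : Continuous (fun p : (Fin q → I) × (Fin J → I) =>
      (Sum.elim p.1 p.2 : (Fin q ⊕ Fin J) → I)) := by
    refine continuous_pi fun i => ?_
    rcases i with i | j
    · simp only [Sum.elim_inl]; fun_prop
    · simp only [Sum.elim_inr]; fun_prop
  let b : C(Fin q → I, GenLoop (Fin J) (Sph n) (pt n)) :=
    curryLoop ⟨fun p => b₀ (Sum.elim p.1 p.2), b₀.continuous.comp hsum⟩ (by
      rintro x w ⟨j, hj⟩
      exact hb₀r _ j hj)
  refine ⟨b, ?_⟩
  have hinit : Continuous (fun w : Fin (J + 1) → I => (Fin.init w : Fin J → I)) :=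
    continuous_pi fun i => by
      show Continuous fun w : Fin (J + 1) → I => w (Fin.castSucc i)
      fun_prop
  have hc1 : Continuous (fun p : (I × (Fin q → I)) × (Fin (J + 1) → I) =>
      (p.1.1, ((Sum.elim p.1.2 (Fin.init p.2) : (Fin q ⊕ Fin J) → I), p.2 (Fin.last J)))) := by
    refine (by fun_prop : Continuous (fun p : (I × (Fin q → I)) × (Fin (J + 1) → I) =>
      p.1.1)).prodMk (Continuous.prodMk ?_ (by fun_prop))
    exact hsum.comp ((by fun_prop : Continuous (fun p : (I × (Fin q → I)) × (Fin (J + 1) → I) =>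
      p.1.2)).prodMk (hinit.comp continuous_snd))
  have hHbd : ∀ (x : Fin q → I) (w : Fin (J + 1) → I), w ∈ Cube.boundary (Fin (J + 1)) →
      ((Sum.elim x (Fin.init w) : (Fin q ⊕ Fin J) → I), w (Fin.last J)) ∈ Bd (Fin q ⊕ Fin J) := by
    rintro x w ⟨i, hi⟩
    refine Fin.lastCases (motive := fun i => w i = 0 ∨ w i = 1 → _) ?_ (fun j => ?_) i hi
    · intro h; exact Or.inr h
    · intro h; exact Or.inl ⟨Sum.inr j, h⟩
  have hAa : ∀ (x : Fin q → I) (w : Fin (J + 1) → I),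
      A ((Sum.elim x (Fin.init w) : (Fin q ⊕ Fin J) → I), w (Fin.last J)) = a x w := by
    intro x w
    show a x (Fin.snoc (α := fun _ => I) (Fin.init w) (w (Fin.last J))) = a x w
    rw [Fin.snoc_init_self]
  let G : C(I × (Fin q → I), GenLoop (Fin (J + 1)) (Sph (n + 1)) (pt (n + 1))) :=
    curryLoop ⟨fun p => H (p.1.1, ((Sum.elim p.1.2 (Fin.init p.2) : (Fin q ⊕ Fin J) → I),
      p.2 (Fin.last J))), H.continuous.comp hc1⟩ (by
      rintro ⟨s, x⟩ w hw
      show H (s, _) = _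
      rw [H.eq_fst s (hHbd x w hw), hAa]
      exact (a x).2 w hw)
  have hG : ∀ s x w, G (s, x) w = H (s, ((Sum.elim x (Fin.init w) : (Fin q ⊕ Fin J) → I),
      w (Fin.last J))) := fun _ _ _ => rfl
  refine homotopicRel_mk (fun p => G p) G.continuous ?_ ?_ ?_
  · intro x
    apply GenLoop.ext; intro w
    rw [hG, H.apply_zero, hAa]
  · intro x
    apply GenLoop.ext; intro w
    rw [hG, H.apply_one]
    rfl
  · rintro s x ⟨i, hi⟩
    apply GenLoop.ext; intro w
    rw [hG, H.eq_fst s (Or.inl ⟨Sum.inl i, hi⟩), hAa]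

end Crest.Agent.R204.Freu297
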