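import Crest.Agent.R204.Tr_348

/-!
# Strict model for the nerve of the groupoid of `v`-element subsets of `U` (row 204, block G)

An `n`-simplex of `Fs U v` is a finite set `A` of functions `[n] → U` with `|A| = v` all of whose
coordinate projections are injective.  Simplicial operators act by precomposition.
-/

set_option autoImplicit false

namespace Crest.Agent.R204.Fs348

open Finsupp Tr348

open Classical in
/-- reindex a finite set of paths -/
noncomputable def re {U : Type} {m n : ℕ} (f : Fin (m + 1) → Fin (n + 1))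
    (A : Finset (Fin (n + 1) → U)) : Finset (Fin (m + 1) → U) := A.image (fun g => g ∘ f)

/-- all coordinate projections are injective -/
def CI {U : Type} {n : ℕ} (A : Finset (Fin (n + 1) → U)) : Prop :=
  ∀ i, Set.InjOn (fun f : Fin (n + 1) → U => f i) (A : Set (Fin (n + 1) → U))

section basic

variable {U : Type} {l m n : ℕ}

theorem mem_re {f : Fin (m + 1) → Fin (n + 1)} {A : Finset (Fin (n + 1) → U)}
    {g : Fin (m + 1) → U} : g ∈ re f A ↔ ∃ a ∈ A, a ∘ f = g := by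
  simp [re]

theorem re_id (A : Finset (Fin (n + 1) → U)) : re id A = A := by
  ext g; simp [mem_re]

theorem re_comp (f : Fin (l + 1) → Fin (m + 1)) (g : Fin (m + 1) → Fin (n + 1))
    (A : Finset (Fin (n + 1) → U)) : re (g ∘ f) A = re f (re g A) := by
  ext h
  simp only [mem_re]
  constructor
  · rintro ⟨a, ha, rfl⟩; exact ⟨a ∘ g, ⟨a, ha, rfl⟩, rfl⟩
  · rintro ⟨_, ⟨a, ha, rfl⟩, rfl⟩; exact ⟨a, ha, rfl⟩

theorem re_mono (f : Fin (m + 1) → Fin (n + 1)) {A B : Finset (Fin (n + 1) → U)} (h : A ⊆ B) :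
    re f A ⊆ re f B := by
  intro g hg
  obtain ⟨a, ha, rfl⟩ := mem_re.1 hg
  exact mem_re.2 ⟨a, h ha, rfl⟩

theorem CI.mono {A B : Finset (Fin (n + 1) → U)} (hB : CI B) (h : A ⊆ B) : CI A :=
  fun i => (hB i).mono (by exact_mod_cast h)

/-- precomposition is injective on a set with injective coordinates -/
theorem CI.injOn {A : Finset (Fin (n + 1) → U)} (hA : CI A) (f : Fin (m + 1) → Fin (n + 1)) :
    Set.InjOn (fun g : Fin (n + 1) → U => g ∘ f) (A : Set (Fin (n + 1) → U)) := by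
  intro a ha b hb h
  exact hA (f 0) ha hb (congrFun h 0)

theorem CI.re {A : Finset (Fin (n + 1) → U)} (hA : CI A) (f : Fin (m + 1) → Fin (n + 1)) :
    CI (re f A) := by
  intro i a ha b hb h
  obtain ⟨a, ha', rfl⟩ := mem_re.1 ha
  obtain ⟨b, hb', rfl⟩ := mem_re.1 hb
  have : a = b := hA (f i) ha' hb' h
  rw [this]

theorem CI.card_re {A : Finset (Fin (n + 1) → U)} (hA : CI A) (f : Fin (m + 1) → Fin (n + 1)) :
    (Fs348.re f A).card = A.card := by
  classical
  unfold Fs348.re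
  rw [Finset.card_image_of_injOn (hA.injOn f)]

/-- subsets of `re f A` are exactly the `re f T`, `T ⊆ A` -/
theorem exists_sub_re {A : Finset (Fin (n + 1) → U)} (f : Fin (m + 1) → Fin (n + 1))
    {T' : Finset (Fin (m + 1) → U)} (h : T' ⊆ re f A) : ∃ T ⊆ A, re f T = T' := by
  classical
  refine ⟨A.filter (fun a => a ∘ f ∈ T'), Finset.filter_subset _ _, ?_⟩
  ext g
  rw [mem_re]
  constructor
  · rintro ⟨a, ha, rfl⟩
    exact (Finset.mem_filter.1 ha).2
  · intro hg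
    obtain ⟨a, ha, rfl⟩ := mem_re.1 (h hg)
    exact ⟨a, Finset.mem_filter.2 ⟨ha, hg⟩, rfl⟩

theorem CI.re_inj {A : Finset (Fin (n + 1) → U)} (hA : CI A) (f : Fin (m + 1) → Fin (n + 1))
    {T T' : Finset (Fin (n + 1) → U)} (hT : T ⊆ A) (hT' : T' ⊆ A)
    (h : Fs348.re f T = Fs348.re f T') : T = T' := by
  have key : ∀ {T T' : Finset (Fin (n + 1) → U)}, T ⊆ A → T' ⊆ A →
      Fs348.re f T = Fs348.re f T' → T ⊆ T' := by
    intro T T' hT hT' h a ha
    have : a ∘ f ∈ Fs348.re f T' := by rw [← h]; exact mem_re.2 ⟨a, ha, rfl⟩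
    obtain ⟨b, hb, hab⟩ := mem_re.1 this
    have : b = a := hA.injOn f (hT' hb) (hT ha) hab
    rwa [← this]
  exact Finset.Subset.antisymm (key hT hT' h) (key hT' hT h.symm)

end basic

/-- the strict model of `N(v-element subsets of U)` -/
noncomputable def Fs (U : Type) (v : ℕ) : SS where
  S n := {A : Finset (Fin (n + 1) → U) // CI A ∧ A.card = v}
  act f A := ⟨re f A.1, A.2.1.re f, by rw [A.2.1.card_re, A.2.2]⟩
  act_id A := Subtype.ext (re_id A.1)
  act_comp f g A := Subtype.ext (re_comp f g A.1)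

/-- pairs `T ⊆ A`, `|T| = a`, `|A| = v` -/
noncomputable def Ps (U : Type) (v a : ℕ) : SS where
  S n := {A : Finset (Fin (n + 1) → U) × Finset (Fin (n + 1) → U) //
    CI A.1 ∧ A.1.card = v ∧ A.2 ⊆ A.1 ∧ A.2.card = a}
  act f A := ⟨(re f A.1.1, re f A.1.2), A.2.1.re f, by rw [A.2.1.card_re, A.2.2.1],
    re_mono f A.2.2.2.1, by rw [(A.2.1.mono A.2.2.2.1).card_re, A.2.2.2.2]⟩
  act_id A := Subtype.ext (Prod.ext (re_id A.1.1) (re_id A.1.2))
  act_comp f g A := Subtype.ext (Prod.ext (re_comp f g A.1.1) (re_comp f g A.1.2))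

/-- forget the subset -/
noncomputable def Ps.big (U : Type) (v a : ℕ) : SS.Hom (Ps U v a) (Fs U v) :=
  ⟨fun _ A => ⟨A.1.1, A.2.1, A.2.2.1⟩, fun _ _ => rfl⟩

/-- the subset -/
noncomputable def Ps.small (U : Type) (v a : ℕ) : SS.Hom (Ps U v a) (Fs U a) :=
  ⟨fun _ A => ⟨A.1.2, A.2.1.mono A.2.2.2.1, A.2.2.2.2⟩, fun _ _ => rfl⟩

theorem Ps.big_fin (U : Type) (v a : ℕ) {n : ℕ} (A : (Fs U v).S n) :
    {y : (Ps U v a).S n | (Ps.big U v a).app n y = A}.Finite := by
  classical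
  refine Set.Finite.of_injOn (f := fun y : (Ps U v a).S n => y.1.2)
    (t := ((Finset.powersetCard a A.1 : Finset _) : Set _)) ?_ ?_ (Finset.finite_toSet _)
  · rintro ⟨⟨B, T⟩, hB⟩ h
    have e1 : B = A.1 := congrArg Subtype.val h
    exact Finset.mem_coe.2 (Finset.mem_powersetCard.2 ⟨e1 ▸ hB.2.2.1, hB.2.2.2⟩)
  · rintro ⟨⟨B, T⟩, hB⟩ h ⟨⟨B', T'⟩, hB'⟩ h' e
    have e1 : B = A.1 := congrArg Subtype.val h
    have e2 : B' = A.1 := congrArg Subtype.val h'
    exact Subtype.ext (Prod.ext (e1.trans e2.symm) e)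

theorem Ps.big_cov (U : Type) (v a : ℕ) : Cov (Ps.big U v a) where
  bij := by
    intro m n f A
    refine ⟨?_, ?_, ?_⟩
    · rintro y rfl; rfl
    · rintro ⟨⟨B, T⟩, hB⟩ h1 ⟨⟨B', T'⟩, hB'⟩ h2 e
      have e1 : B = A.1 := congrArg Subtype.val h1
      have e2 : B' = A.1 := congrArg Subtype.val h2
      subst e1
      simp only [Set.mem_ofPred_eq] at h2
      have e3 : T = T' := by
        have := congrArg (fun z => z.1.2) e
        exact A.2.1.re_inj f hB.2.2.1 (e2 ▸ hB'.2.2.1) this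
      subst e3
      exact Subtype.ext (Prod.ext e2.symm rfl)
    · rintro ⟨⟨B', T'⟩, hB'⟩ h
      have e1 : B' = re f A.1 := congrArg Subtype.val h
      obtain ⟨T, hT, hT'⟩ := exists_sub_re (A := A.1) f (T' := T') (e1 ▸ hB'.2.2.1)
      refine ⟨⟨(A.1, T), A.2.1, A.2.2, hT, ?_⟩, rfl, ?_⟩
      · rw [← (A.2.1.mono hT).card_re f, hT']; exact hB'.2.2.2
      · exact Subtype.ext (Prod.ext e1.symm hT')
  fin := fun A => Ps.big_fin U v a A

theorem Ps.card_fib (U : Type) (v a : ℕ) {n : ℕ} (A : (Fs U v).S n) :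
    ((Ps.big_cov U v a).fib A).card = v.choose a := by
  classical
  have hc : (Finset.powersetCard a A.1).card = v.choose a := by
    rw [Finset.card_powersetCard, A.2.2]
  rw [← hc]
  refine Finset.card_bij (fun y _ => y.1.2) ?_ ?_ ?_
  · rintro ⟨⟨B, T⟩, hB⟩ h
    have e1 : B = A.1 := congrArg Subtype.val ((Ps.big_cov U v a).mem_fib.1 h)
    exact Finset.mem_powersetCard.2 ⟨e1 ▸ hB.2.2.1, hB.2.2.2⟩
  · rintro ⟨⟨B, T⟩, hB⟩ h ⟨⟨B', T'⟩, hB'⟩ h' e
    have e1 : B = A.1 := congrArg Subtype.val ((Ps.big_cov U v a).mem_fib.1 h)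
    have e2 : B' = A.1 := congrArg Subtype.val ((Ps.big_cov U v a).mem_fib.1 h')
    exact Subtype.ext (Prod.ext (e1.trans e2.symm) e)
  · intro T hT
    rw [Finset.mem_powersetCard] at hT
    exact ⟨⟨(A.1, T), A.2.1, A.2.2, hT.1, hT.2⟩, (Ps.big_cov U v a).mem_fib.2 rfl, rfl⟩

end Crest.Agent.R204.Fs348
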