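import Crest.Agent.R204.TrV_947
import Crest.Agent.R204.RkCartan_888
import Crest.Agent.R204.Sq2_252

/-!
# Row 204, block G: `Rk` and `Sq` commute with correspondences (transfers) (helper947)
-/

set_option autoImplicit false

namespace Crest.Agent.R204.TrV947

open Finsupp Crest.Agent.R204 SS Corr328 Q888

variable {L K : SS} (c : Corr L K)

/-- correspondences commute with `R_k` -/
theorem Rk_corr (k : ℕ) {n : ℕ} {x : H F2 L} (hx : x ∈ H.gr F2 L n) :
    Sq252.Rk K k (c.h F2 x) = c.h F2 (Sq252.Rk L k x) := by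
  have h := coef_corr c (isCoef L) (isCoef K) 1 le_rfl (k + 1) hx
  rwa [cf_s_Rk K 1 le_rfl, cf_s_Rk L 1 le_rfl, if_pos (by omega), if_pos (by omega),
    Nat.add_sub_cancel] at h

/-- correspondences commute with `Sq^l_*` -/
theorem Sq_corr (l : ℕ) {n : ℕ} {x : H F2 L} (hx : x ∈ H.gr F2 L n) :
    Sq252.Sq K l (c.h F2 x) = c.h F2 (Sq252.Sq L l x) := by
  by_cases h : 2 * l ≤ n
  · rw [Sq252.Sq_apply hx h, Sq252.Sq_apply (c.h_mem_gr F2 hx) h, Rk_corr c _ hx]
  · rw [Sq252.Sq_unst hx (by omega), Sq252.Sq_unst (c.h_mem_gr F2 hx) (by omega), map_zero]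

end Crest.Agent.R204.TrV947
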