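import Crest.Agent.R204.Prd_328
import Crest.Agent.R204.Tors_947
import Crest.Agent.R204.TrV2_947

/-!
# Row 204, block G: the final argument in the thread model (helper947)

`V = Sq^m_*` on degree `2 m`.  Input: `ẑ ∈ H_m(Fs U v; Z/4)`, `ĉ ∈ H_{2m}(Fs U 2v; F_2)`,
`Â_N ∈ H_{2m}(Fs U 2v; Z/2^N)` with `ρ Â_N = ẑ·ẑ + i ĉ` and `V ĉ = ρ ẑ · [v]`.
Output: `ρ ẑ = 0`.
-/

set_option autoImplicit false

namespace Crest.Agent.R204.GAsm947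

open Crest.Agent.R204 SS Coef947 Corr328 Fs348 Prd328

/-- what is used about `V = Sq^m_*` on degree `2 m` -/
structure VOp (m : ℕ) (V : ∀ K : SS, H F2 K →ₗ[F2] H F2 K) : Prop where
  nat : ∀ {K L : SS} (f : SS.Hom K L) (x : H F2 K), x ∈ H.gr F2 K (2 * m) →
    V L (H.map F2 f x) = H.map F2 f (V K x)
  corr : ∀ {L K : SS} (c : Corr L K) (x : H F2 L), x ∈ H.gr F2 L (2 * m) →
    V K (c.h F2 x) = c.h F2 (V L x)
  bock : ∀ (K : SS) (x : H F2 K), x ∈ H.gr F2 K (2 * m) → coH (inj 2 4 2 rfl) K x = 0 → V K x = 0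
  sq : ∀ (U : Type) (w N : ℕ) (h : 2 ∣ 2 ^ N), w.factorial < 2 ^ N →
    ∀ x ∈ H.gr (ZMod (2 ^ N)) (Fs U w) (2 * m), V _ (coH (rho (2 ^ N) 2 h) _ x) = 0

section

variable {U : Type} (e : U ⊕ U ↪ U) {m v : ℕ}

/-- step (3): the transfer of `ẑ·ẑ` -/
theorem tau_sq (hm : 0 < m) (z : H (ZMod 4) (Fs U v)) (hz : z ∈ H.gr (ZMod 4) (Fs U v) m) (w : ℕ)
    (hw : ∀ a < w, tau F2 U v a (coH (rho 4 2 (by norm_num)) _ z) = 0) :
    tau (ZMod 4) U (v + v) w (prd (ZMod 4) e rfl z z) = 0 := by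
  rw [tau_prd]
  refine Finset.sum_eq_zero ?_
  rintro ⟨⟨a, b⟩, hab⟩ -
  have hab' : a + b = w := Finset.HasAntidiagonal.mem_antidiagonal.1 hab
  show prd (ZMod 4) e _ (tau (ZMod 4) U v a z) (tau (ZMod 4) U v b z) = 0
  rcases Nat.eq_zero_or_pos a with rfl | ha
  · rw [tau_zero (ZMod 4) hm.ne' hz, map_zero, LinearMap.zero_apply]
  rcases Nat.eq_zero_or_pos b with rfl | hb
  · rw [tau_zero (ZMod 4) hm.ne' hz, map_zero]
  have key : ∀ a, a < w → ∃ x, coH (inj 2 4 2 rfl) _ x = tau (ZMod 4) U v a z := by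
    intro a ha
    refine (coH_inj_exact 2 4 2 rfl (by norm_num) (by norm_num) _).1 ?_
    rw [coH_tau]
    exact hw a ha
  obtain ⟨x, hx⟩ := key a (by omega)
  obtain ⟨y, hy⟩ := key b (by omega)
  rw [← hx, ← hy, inj_prd e 2 4 2 rfl (by norm_num)]
  have h0 : coH (rho 4 2 (by norm_num)) (Fs U b) (coH (inj 2 4 2 rfl) _ y) = 0 :=
    (coH_inj_exact 2 4 2 rfl (by norm_num) (by norm_num) _).2 ⟨y, rfl⟩
  rw [h0, map_zero, map_zero]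

/-- **the final argument** -/
theorem core {V : ∀ K : SS, H F2 K →ₗ[F2] H F2 K} (hV : VOp m V) (hm : 0 < m)
    (B : (Fs U v).S 0) (z : H (ZMod 4) (Fs U v)) (hz : z ∈ H.gr (ZMod 4) (Fs U v) m)
    (c : H F2 (Fs U (v + v))) (hc : c ∈ H.gr F2 (Fs U (v + v)) (2 * m))
    (A : ∀ N : ℕ, H (ZMod (2 ^ N)) (Fs U (v + v)))
    (hA : ∀ N, A N ∈ H.gr (ZMod (2 ^ N)) (Fs U (v + v)) (2 * m))
    (h4 : ∀ (N : ℕ) (h : 4 ∣ 2 ^ N), coH (rho (2 ^ N) 4 h) _ (A N) =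
      prd (ZMod 4) e rfl z z + coH (inj 2 4 2 rfl) _ c)
    (hVc : V _ c = prd F2 e rfl (coH (rho 4 2 (by norm_num)) _ z) (vt F2 B)) :
    coH (rho 4 2 (by norm_num)) _ z = 0 := by
  by_contra hne
  set ξ := coH (rho 4 2 (by norm_num)) _ z with hξ
  have hex : ∃ w, tau F2 U v w ξ ≠ 0 := ⟨v, by rw [tau_self]; exact hne⟩
  classical
  set w := Nat.find hex with hw
  have hw0 : tau F2 U v w ξ ≠ 0 := Nat.find_spec hex
  have hlt : ∀ a < w, tau F2 U v a ξ = 0 := fun a ha => not_not.1 (Nat.find_min hex ha)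
  -- large exponent
  obtain ⟨N, hN⟩ : ∃ N : ℕ, w.factorial < 2 ^ N := ⟨_, Nat.lt_two_pow_self⟩
  have hN1 : 1 ≤ N := by
    rcases Nat.eq_zero_or_pos N with rfl | h
    · have := Nat.factorial_pos w
      simp at hN; omega
    · exact h
  have hd2 : (2 : ℕ) ∣ 2 ^ N := dvd_pow_self 2 (by omega)
  have hd4 : (4 : ℕ) ∣ 2 ^ (N + 1) := by
    rw [pow_succ, show (4 : ℕ) = 2 * 2 from rfl]
    exact Nat.mul_dvd_mul hd2 (dvd_refl 2)
  have hd2' : (2 : ℕ) ∣ 2 ^ (N + 1) := dvd_pow_self 2 (by omega)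
  set a := tau (ZMod (2 ^ (N + 1))) U (v + v) w (A (N + 1)) with ha
  have ha4 : coH (rho (2 ^ (N + 1)) 4 hd4) _ a = coH (inj 2 4 2 rfl) _ (tau F2 U (v + v) w c) := by
    rw [ha, coH_tau, h4, map_add, tau_sq e hm z hz w hlt, zero_add, coH_tau]
  have ha2 : coH (rho (2 ^ (N + 1)) 2 hd2') _ a = 0 := by
    have h1 := coH_comp (rho (2 ^ (N + 1)) 4 hd4) (rho 4 2 (by norm_num)) (rho (2 ^ (N + 1)) 2 hd2')
      (fun r => (rho_rho _ _ _ hd4 (by norm_num) r).symm) a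
    rw [← h1, ha4]
    exact (coH_inj_exact 2 4 2 rfl (by norm_num) (by norm_num) _).2 ⟨_, rfl⟩
  have hagr : a ∈ H.gr (ZMod (2 ^ (N + 1))) (Fs U w) (2 * m) :=
    (sbV U (v + v) w).h_mem_gr _ (hA _)
  obtain ⟨A', hA', hA''⟩ := coH_inj_exact_gr (2 ^ N) (2 ^ (N + 1)) 2 (pow_succ 2 N) hd2' (by norm_num)
    hagr ha2
  -- `i (ρ A') = i (τ_w c)`
  have h5 : coH (inj 2 4 2 rfl) _ (coH (rho (2 ^ N) 2 hd2) _ A') =
      coH (inj 2 4 2 rfl) _ (tau F2 U (v + v) w c) := by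
    rw [← ha4, ← hA'']
    have e1 := coH_comp (inj (2 ^ N) (2 ^ (N + 1)) 2 (pow_succ 2 N)) (rho (2 ^ (N + 1)) 4 hd4)
      ((inj 2 4 2 rfl).comp (rho (2 ^ N) 2 hd2))
      (fun r => (rho_inj_comm (2 ^ N) (2 ^ (N + 1)) 2 2 4 (pow_succ 2 N) rfl hd2 hd4 r).symm) A'
    have e2 := coH_comp (rho (2 ^ N) 2 hd2) (inj 2 4 2 rfl)
      ((inj 2 4 2 rfl).comp (rho (2 ^ N) 2 hd2)) (fun r => rfl) A'
    rw [e1, e2]
  have h6 : V _ (coH (rho (2 ^ N) 2 hd2) _ A' - tau F2 U (v + v) w c) = 0 := by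
    refine hV.bock _ _ (Submodule.sub_mem _ (coH_mem_gr _ hA') ((sbV U (v + v) w).h_mem_gr _ hc)) ?_
    rw [map_sub, h5, sub_self]
  rw [map_sub, hV.sq U w N hd2 hN A' hA', zero_sub, neg_eq_zero] at h6
  apply hw0
  have h7 : V _ (tau F2 U (v + v) w c) = tau F2 U (v + v) w (V _ c) := hV.corr (sbV U (v + v) w) c hc
  rw [h7, hVc, tau_prd_vt F2 e rfl w ξ B hlt] at h6
  exact h6

end

end Crest.Agent.R204.GAsm947
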