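import Crest.Agent.R204.T_803

/-!
# The group of good classes (row 204, leaf G5; helper803)
-/

set_option autoImplicit false
set_option linter.unusedSectionVars false

namespace Crest.Agent.R204.SQ803

open Co

section cf
variable {J B B' B'' : Type*} [AddCommGroup B] [AddCommGroup B']

/-- change of coefficients -/
def cf (ψ : B' →+ B) : Co J B' →+ Co J B := pull id ψ

@[simp] theorem cf_f (ψ : B' →+ B) (F : Co J B') (l : List J) : (cf ψ F).f l = ψ (F.f l) := by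
  show ψ (F.f (l.map id)) = _
  rw [List.map_id]

theorem δ_cf [Cx B] [Cx B'] (ψ : B' →+ B) (hψ : ∀ b, Cx.δ (ψ b) = ψ (Cx.δ b)) (F : Co J B') :
    Cx.δ (cf ψ F) = cf ψ (Cx.δ F) := δ_pull _ _ hψ F

theorem cf_kap (ψ : B' →+ B) (b : B') : cf ψ (kap (J := J) b) = kap (ψ b) := pull_kap _ _ _

theorem tm_cf (e : J → Bool) (ψ : B' →+ B) (F : Co J B') : tm e (cf ψ F) = cf ψ (tm e F) :=
  tm_pull e ψ F

end cf

section rho
variable {J X Y : Type*} [Group X] [Group Y] [MulAction (X × Y) J] {N : ℕ}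

/-- reduction mod 2 -/
def rho (hN : 0 < N) : ZMod (2 ^ N) →+ ZMod 2 :=
  (ZMod.castHom (dvd_pow_self 2 hN.ne') (ZMod 2)).toAddMonoidHom

theorem rho_apply (hN : 0 < N) (a : ZMod (2 ^ N)) : rho hN a = a.cast := rfl

theorem rho_mul (hN : 0 < N) (a b : ZMod (2 ^ N)) : rho hN (a * b) = rho hN a * rho hN b :=
  map_mul (ZMod.castHom (dvd_pow_self 2 hN.ne') (ZMod 2)) a b

/-- reduction on `S` -/
def rhoS (hN : 0 < N) : Co X (Co Y (ZMod (2 ^ N))) →+ Co X (Co Y (ZMod 2)) := cf (cf (rho hN))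

/-- reduction on `E` -/
def rhoE (hN : 0 < N) : Co J (Co X (Co Y (ZMod (2 ^ N)))) →+ Co J (Co X (Co Y (ZMod 2))) :=
  cf (rhoS hN)

theorem rhoS_f (hN : 0 < N) (s : Co X (Co Y (ZMod (2 ^ N)))) (x : List X) (y : List Y) :
    ((rhoS hN s).f x).f y = rho hN ((s.f x).f y) := by
  unfold rhoS; rw [cf_f, cf_f]

theorem rhoE_f (hN : 0 < N) (F : Co J (Co X (Co Y (ZMod (2 ^ N))))) (l : List J) (x : List X)
    (y : List Y) : (((rhoE hN F).f l).f x).f y = rho hN (((F.f l).f x).f y) := by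
  unfold rhoE; rw [cf_f, rhoS_f]

theorem δ_rhoS (hN : 0 < N) (s : Co X (Co Y (ZMod (2 ^ N)))) : Cx.δ (rhoS hN s) = rhoS hN (Cx.δ s) :=
  δ_cf _ (fun b => δ_cf _ (fun b => by rw [Cx.zmod, Cx.zmod, map_zero]) b) s

theorem δ_rhoE (hN : 0 < N) (F : Co J (Co X (Co Y (ZMod (2 ^ N))))) :
    Cx.δ (rhoE hN F) = rhoE hN (Cx.δ F) := δ_cf _ (fun b => δ_rhoS hN b) F

theorem rhoE_io (hN : 0 < N) (f : Co J (ZMod (2 ^ N))) :
    rhoE hN (io (X := X) (Y := Y) f) = io (cf (rho hN) f) := by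
  refine Co.ext fun l => Co.ext fun x => Co.ext fun y => ?_
  rw [rhoE_f, io_f, io_f, cf_f, kap_f, kap_f]
  split_ifs
  · rw [kap_f, kap_f]; split_ifs
    · rfl
    · exact map_zero _
  · exact map_zero _

theorem rhoE_kap (hN : 0 < N) (s : Co X (Co Y (ZMod (2 ^ N)))) :
    rhoE (J := J) hN (kap s) = kap (rhoS hN s) := cf_kap _ _

theorem rhoS_crs (hN : 0 < N) (a : List X → ZMod (2 ^ N)) (b : List Y → ZMod (2 ^ N)) :
    rhoS hN (crs a b) = crs (fun l => rho hN (a l)) (fun l => rho hN (b l)) := by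
  refine Co.ext fun x => Co.ext fun y => ?_
  rw [rhoS_f, crs_f, crs_f, rho_mul]

theorem rhoE_QA (hN : 0 < N) {F : Co J (Co X (Co Y (ZMod (2 ^ N))))} (hF : F ∈ QA J X Y (2 ^ N)) :
    rhoE hN F ∈ QA J X Y 2 := by
  refine ⟨⟨?_, fun l => ⟨?_, fun x => ?_⟩⟩, ?_, fun g => ?_⟩
  · refine Co.ext fun x => Co.ext fun y => ?_
    rw [rhoE_f, hF.1.1]; exact map_zero _
  · refine Co.ext fun y => ?_
    rw [rhoE_f, (hF.1.2 l).1]; exact map_zero _
  · rw [rhoE_f, (hF.1.2 l).2]; exact map_zero _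
  · obtain ⟨K, hK⟩ := hF.2.1
    exact ⟨K, fun l x y h => by rw [rhoE_f, hK l x y h]; exact map_zero _⟩
  · refine Co.ext fun l => Co.ext fun x => Co.ext fun y => ?_
    have := congrArg (fun F => ((F.f l).f x).f y) (hF.2.2 g)
    rw [aA_f, aS_f, rhoE_f, rhoE_f]
    exact congrArg _ this

end rho

theorem rhoE_QB {J X : Type*} [Group X] [MulAction (X × X) J] {N : ℕ} (hN : 0 < N) {W : Sig J X}
    {F : Co J (Co X (Co X (ZMod (2 ^ N))))} (hF : F ∈ QB W (2 ^ N)) : rhoE hN F ∈ QB W 2 := by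
  refine ⟨rhoE_QA hN hF.1, Co.ext fun l => Co.ext fun x => Co.ext fun y => ?_⟩
  have := congrArg (fun F => ((F.f l).f x).f y) hF.2
  simp only [aT_f, Tn_f] at this
  rw [aT_f, Tn_f, ((rhoE_QA hN hF.1).1.2 _).vv, rhoE_f, rhoE_f, ← this, (hF.1.1.2 _).vv, map_zsmul]

/-! ## the abstract argument -/

section good
variable {J X Y : Type*} [Group X] [Group Y] [MulAction (X × Y) J] {N : ℕ}

/-- hypotheses of the abstract argument -/
structure GH (hN : 0 < N) (Q : AddSubgroup (Co J (Co X (Co Y (ZMod 2)))))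
    (Fq : AddSubgroup (Co J (ZMod 2))) (QR : AddSubgroup (Co J (Co X (Co Y (ZMod (2 ^ N))))))
    (FR : AddSubgroup (Co J (ZMod (2 ^ N)))) : Prop where
  δQ : ∀ F ∈ Q, Cx.δ F ∈ Q
  mulQ : ∀ F ∈ Q, ∀ G ∈ Q, F * G ∈ Q
  ioQ : ∀ f ∈ Fq, io f ∈ Q
  red2 : ∀ F ∈ Q, (∀ k > 2, cS k (Cx.δ F) = 0) → ∃ f ∈ Fq, ∃ H ∈ Q, F = io f + Cx.δ H
  redR : ∀ F ∈ QR, (∀ k > 2, cS k (Cx.δ F) = 0) → ∃ f ∈ FR, ∃ H ∈ QR, F = io f + Cx.δ H
  δF : ∀ f ∈ Fq, Cx.δ f ∈ Fq
  mulF : ∀ f ∈ Fq, ∀ g ∈ Fq, f * g ∈ Fq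
  cupoF : ∀ f ∈ Fq, ∀ g ∈ Fq, (⟨fun l => cupo l f.f g.f⟩ : Co J (ZMod 2)) ∈ Fq
  nzF : ∀ f ∈ Fq, f.f [] = 0
  rhoQ : ∀ F ∈ QR, rhoE hN F ∈ Q
  rhoF : ∀ f ∈ FR, cf (rho hN) f ∈ Fq

theorem cS_io (k : ℕ) (hk : 2 < k) {n : ℕ} (f : Co J (ZMod n)) : cS k (io (X := X) (Y := Y) f) = 0 := by
  refine Co.ext fun l => Co.ext fun x => Co.ext fun y => ?_
  rw [cS_f, cSS_f, io_f, kap_f]
  split_ifs with h1 h2
  · rw [kap_f, if_neg (by omega)]; rfl
  · rfl
  · rfl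

theorem sum_zero2 {B : Type*} [AddCommGroup B] (two : ∀ b : B, b + b = 0) {a b : B} (h : a + b = 0) :
    a = b := by rw [← add_zero a, ← two b, ← add_assoc, h, zero_add]

variable {hN : 0 < N} {Q : AddSubgroup (Co J (Co X (Co Y (ZMod 2))))}
    {Fq : AddSubgroup (Co J (ZMod 2))} {QR : AddSubgroup (Co J (Co X (Co Y (ZMod (2 ^ N)))))}
    {FR : AddSubgroup (Co J (ZMod (2 ^ N)))}

theorem GH.inj (G : GH hN Q Fq QR FR) {f : Co J (ZMod 2)} {H : Co J (Co X (Co Y (ZMod 2)))}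
    (hH : H ∈ Q) (h : io f = Cx.δ H) : ∃ v ∈ Fq, f = Cx.δ v := by
  obtain ⟨v, hv, H', hH', e⟩ := G.red2 H hH fun k hk => by rw [← h, cS_io k hk]
  refine ⟨v, hv, io_inj (X := X) (Y := Y) ?_⟩
  rw [h, e, map_add, Cx.δδ, add_zero, δ_io]

theorem δ_Co_f (f : Co J (ZMod 2)) (hf : f.f [] = 0) (l : List J) : (Cx.δ f).f l = dl l f.f := by
  rw [δ_of hf, Cx.zmod, smul_zero, add_zero]

/-- cup products of cocycles commute up to a coboundary -/
theorem cup_comm' {f g : Co J (ZMod 2)} (hf : f.f [] = 0) (hg : g.f [] = 0) (df : Cx.δ f = 0)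
    (dg : Cx.δ g = 0) : f * g + g * f = Cx.δ (⟨fun l => cupo l f.f g.f⟩ : Co J (ZMod 2)) := by
  refine Co.ext fun l => ?_
  have hf' : (fun l' => dl l' f.f) = fun _ => 0 := by
    funext l'; rw [← δ_Co_f f hf, df]; rfl
  have hg' : (fun l' => dl l' g.f) = fun _ => 0 := by
    funext l'; rw [← δ_Co_f g hg, dg]; rfl
  rw [δ_Co_f _ rfl]
  have h := dl_cupo (DG2.two (B := ZMod 2)) l f.f g.f hg
  have z1 : ∀ (l : List J) (g : List J → ZMod 2), cupo l (fun _ => 0) g = 0 := by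
    intro l
    induction l with
    | nil => intro g; rfl
    | cons x l ih => intro g; rw [cupo_cons, cupl_zero_right, ih, add_zero]
  have z2 : ∀ (l : List J) (f : List J → ZMod 2), cupo l f (fun _ => 0) = 0 := by
    intro l
    induction l with
    | nil => intro g; rfl
    | cons x l ih => intro g; rw [cupo_cons, cupl_zero_left, ih, add_zero]
  rw [hf', hg', z1, z2, zero_add, zero_add] at h
  rw [h]; rfl

/-- the square of a cocycle in the class of a lift -/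
def SqL (hN : 0 < N) (Fq : AddSubgroup (Co J (ZMod 2))) (FR : AddSubgroup (Co J (ZMod (2 ^ N))))
    (f : Co J (ZMod 2)) : Prop :=
  ∃ Y ∈ FR, Cx.δ Y = 0 ∧ ∃ v ∈ Fq, f * f = cf (rho hN) Y + Cx.δ v

theorem Co_two (f : Co J (ZMod 2)) : f + f = 0 := DG2.two f

theorem neg_eq_self2 {B : Type*} [AddCommGroup B] (two : ∀ b : B, b + b = 0) (b : B) : -b = b :=
  neg_eq_of_add_eq_zero_left (two b)

theorem SqL.add (G : GH hN Q Fq QR FR) {f g : Co J (ZMod 2)} (hf : f ∈ Fq) (hg : g ∈ Fq)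
    (df : Cx.δ f = 0) (dg : Cx.δ g = 0) (sf : SqL hN Fq FR f) (sg : SqL hN Fq FR g) :
    SqL hN Fq FR (f + g) := by
  obtain ⟨Y, hY, dY, v, hv, e⟩ := sf
  obtain ⟨Y', hY', dY', v', hv', e'⟩ := sg
  refine ⟨Y + Y', FR.add_mem hY hY', by rw [map_add, dY, dY', add_zero],
    v + v' + ⟨fun l => cupo l f.f g.f⟩, Fq.add_mem (Fq.add_mem hv hv') (G.cupoF f hf g hg), ?_⟩
  rw [map_add, map_add, map_add, ← cup_comm' (G.nzF f hf) (G.nzF g hg) df dg, add_mul, mul_add, mul_add,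
    e, e']
  abel

theorem SqL.coh (G : GH hN Q Fq QR FR) {f g w : Co J (ZMod 2)} (hf : f ∈ Fq)
    (df : Cx.δ f = 0) (hw : w ∈ Fq) (e : g = f + Cx.δ w) (sf : SqL hN Fq FR f) :
    SqL hN Fq FR g := by
  obtain ⟨Y, hY, dY, v, hv, ef⟩ := sf
  refine ⟨Y, hY, dY, v + f * w + w * f + w * Cx.δ w, Fq.add_mem (Fq.add_mem (Fq.add_mem hv
    (G.mulF f hf w hw)) (G.mulF w hw f hf)) (G.mulF w hw _ (G.δF w hw)), ?_⟩
  rw [map_add, map_add, map_add, DG2.leib, DG2.leib, DG2.leib, df, Cx.δδ, e, add_mul, mul_add, mul_add,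
    ef]
  simp only [zero_mul, mul_zero, add_zero, zero_add]
  abel

/-- the group of good classes -/
def GG (hN : 0 < N) (Q : AddSubgroup (Co J (Co X (Co Y (ZMod 2)))))
    (Fq : AddSubgroup (Co J (ZMod 2))) (FR : AddSubgroup (Co J (ZMod (2 ^ N))))
    (F : Co J (Co X (Co Y (ZMod 2)))) : Prop :=
  ∃ f ∈ Fq, Cx.δ f = 0 ∧ (∃ H ∈ Q, F = io f + Cx.δ H) ∧ SqL hN Fq FR f

theorem GG.zero : GG hN Q Fq FR (0 : Co J (Co X (Co Y (ZMod 2)))) := by
  refine ⟨0, Fq.zero_mem, map_zero _, ⟨0, Q.zero_mem, by rw [map_zero, map_zero, add_zero]⟩, 0,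
    FR.zero_mem, map_zero _, 0, Fq.zero_mem, by rw [map_zero, map_zero, add_zero, mul_zero]⟩

theorem GG.add (G : GH hN Q Fq QR FR) {F F' : Co J (Co X (Co Y (ZMod 2)))} (h : GG hN Q Fq FR F)
    (h' : GG hN Q Fq FR F') : GG hN Q Fq FR (F + F') := by
  obtain ⟨f, hf, df, ⟨H, hH, e⟩, s⟩ := h
  obtain ⟨f', hf', df', ⟨H', hH', e'⟩, s'⟩ := h'
  exact ⟨f + f', Fq.add_mem hf hf', by rw [map_add, df, df', add_zero], ⟨H + H', Q.add_mem hH hH', by
    rw [e, e', map_add, map_add]; abel⟩, s.add G hf hf' df df' s'⟩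

theorem GG.bd (F : Co J (Co X (Co Y (ZMod 2)))) (hF : F ∈ Q) : GG hN Q Fq FR (Cx.δ F) := by
  refine ⟨0, Fq.zero_mem, map_zero _, ⟨F, hF, by rw [map_zero, zero_add]⟩, 0,
    FR.zero_mem, map_zero _, 0, Fq.zero_mem, by rw [map_zero, map_zero, add_zero, mul_zero]⟩

/-- a cocycle whose square is the reduction of a cocycle modulo coboundaries is good -/
theorem GG.of_sq (G : GH hN Q Fq QR FR) {F : Co J (Co X (Co Y (ZMod 2)))} (hF : F ∈ Q)
    (dF : Cx.δ F = 0) {Z : Co J (Co X (Co Y (ZMod (2 ^ N))))} (hZ : Z ∈ QR) (dZ : Cx.δ Z = 0)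
    {K : Co J (Co X (Co Y (ZMod 2)))} (hK : K ∈ Q) (e : F * F = rhoE hN Z + Cx.δ K) :
    GG hN Q Fq FR F := by
  have two := DG2.two (B := Co J (Co X (Co Y (ZMod 2))))
  obtain ⟨f, hf, H, hH, e1⟩ := G.red2 F hF fun k _ => by rw [dF, map_zero]
  obtain ⟨U, hU, H', hH', e2⟩ := G.redR Z hZ fun k _ => by rw [dZ, map_zero]
  have df : Cx.δ f = 0 := by
    refine io_inj (X := X) (Y := Y) ?_
    rw [map_zero, ← δ_io]
    have : io f = F - Cx.δ H := by rw [e1]; abel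
    rw [this, map_sub, dF, Cx.δδ, sub_zero]
  have dU : Cx.δ U = 0 := by
    refine io_inj (X := X) (Y := Y) ?_
    rw [map_zero, ← δ_io]
    have : io U = Z - Cx.δ H' := by rw [e2]; abel
    rw [this, map_sub, dZ, Cx.δδ, sub_zero]
  refine ⟨f, hf, df, ⟨H, hH, e1⟩, U, hU, dU, ?_⟩
  have hiof : io f ∈ Q := G.ioQ f hf
  -- `io (f * f) = F * F + δ ..`
  have e3 : io (f * f + cf (rho hN) U) =
      Cx.δ (K + rhoE hN H' + (F * H + H * F + H * Cx.δ H)) := by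
    have a1 : io f = F + Cx.δ H := by
      rw [e1, add_assoc, two, add_zero]
    have a2 : io (cf (rho hN) U) = rhoE hN Z + Cx.δ (rhoE hN H') := by
      have a3 : io U = Z - Cx.δ H' := by rw [e2]; abel
      rw [← rhoE_io, δ_rhoE, a3, map_sub, sub_eq_add_neg, neg_eq_self2 two]
    rw [map_add, io_mul, a1, a2]
    simp only [map_add, DG2.leib, dF, Cx.δδ, add_mul, mul_add, e, zero_mul, mul_zero, add_zero,
      zero_add]
    have t := two (rhoE hN Z)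
    calc _ = (rhoE hN Z + rhoE hN Z) + (Cx.δ K + Cx.δ (rhoE hN H') +
        (F * Cx.δ H + Cx.δ H * F + Cx.δ H * Cx.δ H)) := by abel
      _ = _ := by rw [t, zero_add]
  obtain ⟨v, hv, ev⟩ := G.inj (Q.add_mem (Q.add_mem hK (G.rhoQ _ hH')) (Q.add_mem (Q.add_mem
    (G.mulQ _ hF _ hH) (G.mulQ _ hH _ hF)) (G.mulQ _ hH _ (G.δQ _ hH)))) e3
  exact ⟨v, hv, by rw [← ev, add_comm (f * f), ← add_assoc, Co_two, zero_add]⟩

/-- conclusion for a cocycle on `J` -/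
theorem GG.concl (G : GH hN Q Fq QR FR) {u : Co J (ZMod 2)} (hu : u ∈ Fq)
    (h : GG hN Q Fq FR (io (X := X) (Y := Y) u)) : SqL hN Fq FR u := by
  obtain ⟨f, hf, df, ⟨H, hH, e⟩, s⟩ := h
  have h1 : io (X := X) (Y := Y) (u + f) = Cx.δ H := by
    have two := DG2.two (B := Co J (Co X (Co Y (ZMod 2))))
    rw [map_add, e, add_comm, ← add_assoc, two, zero_add]
  obtain ⟨w, hw, ew⟩ := G.inj hH h1
  exact s.coh G hf df hw (by rw [← ew, add_comm u, ← add_assoc, Co_two, zero_add])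

end good

/-- from `SqL` to the conclusion of `SQ` (projection to homogeneous components) -/
theorem SqL.out {J : Type*} {N : ℕ} {hN : 0 < N} {Fq : AddSubgroup (Co J (ZMod 2))}
    {FR : AddSubgroup (Co J (ZMod (2 ^ N)))} (hF : ∀ f ∈ Fq, f.f [] = 0) (hR : ∀ f ∈ FR, f.f [] = 0)
    {u : Co J (ZMod 2)} {m : ℕ} (hu : ∀ l, u.f l ≠ 0 → l.length = m + 1) (h : SqL hN Fq FR u) :
    ∃ (Y : List J → ZMod (2 ^ N)) (v : List J → ZMod 2) (Y' : Co J (ZMod (2 ^ N)))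
      (v' : Co J (ZMod 2)),
      Y' ∈ FR ∧ v' ∈ Fq ∧ (Y = fun l => if l.length = 2 * m + 1 then Y'.f l else 0) ∧
      (v = fun l => if l.length = 2 * m then v'.f l else 0) ∧
      (∀ l, Y l ≠ 0 → l.length = 2 * m + 1) ∧ (∀ l, dl l Y = 0) ∧
      (∀ l, v l ≠ 0 → l.length = 2 * m) ∧ v [] = 0 ∧ ∀ l, cupl l u.f u.f = (Y l).cast + dl l v := by
  obtain ⟨Y', hY', dY', v', hv', e⟩ := h
  refine ⟨_, _, Y', v', hY', hv', rfl, rfl, fun l hl => ?_, fun l => ?_, fun l hl => ?_, ?_, fun l => ?_⟩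
  · by_contra hc; exact hl (if_neg hc)
  · by_cases hl : l.length = 2 * m + 2
    · have h1 : dl l (fun l => if l.length = 2 * m + 1 then Y'.f l else 0) = dl l Y'.f :=
        dl_congr fun l' hl' => if_pos (by omega)
      have h2 := congrArg (fun F => F.f l) dY'
      simp only [δ_of (hR _ hY'), Cx.zmod, smul_zero, add_zero] at h2
      rw [h1, h2]; rfl
    · exact dl_eq_zero fun l' hl' => if_neg (by omega)
  · by_contra hc; exact hl (if_neg hc)
  · show (if ([] : List J).length = 2 * m then v'.f [] else 0) = 0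
    rw [hF _ hv']; simp
  · by_cases hl : l.length = 2 * m + 1
    · have h1 : dl l (fun l => if l.length = 2 * m then v'.f l else 0) = dl l v'.f :=
        dl_congr fun l' hl' => if_pos (by omega)
      have h2 := congrArg (fun F => F.f l) e
      rw [add_f, cf_f, δ_Co_f _ (hF _ hv')] at h2
      rw [h1, if_pos hl]
      exact h2
    · have h1 : dl l (fun l => if l.length = 2 * m then v'.f l else 0) = 0 :=
        dl_eq_zero fun l' hl' => if_neg (by omega)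
      rw [h1, if_neg hl]
      rw [add_zero]
      have h3 : cupl l u.f u.f = 0 := cupl_eq_zero (fun x => x) rfl (fun _ _ => rfl) fun a b hab => by
        by_cases h : u.f a = 0
        · rw [h, zero_mul]
        · have h4 := hu a h
          by_cases h' : u.f b = 0
          · rw [h', mul_zero]
          · have h5 := hu b h'
            omega
      rw [h3]
      exact (map_zero (rho hN)).symm

end Crest.Agent.R204.SQ803
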