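import Crest.Agent.R204.C1_735

/-!
Row 204, block C (helper761): the universal homotopy between families of little cubes
living in disjoint sets of coordinates.
-/

set_option autoImplicit false

open scoped Topology unitInterval Topology.Homotopy
open Set

noncomputable section

namespace Crest.Agent.R204.Htpy761

open Crest.Agent.R204.Cubes735

variable {F A A' J : Type*}

/-! ### clamps -/

/-- clamp to `[0,1]` -/
def cl (t : ℝ) : ℝ := max 0 (min 1 t)

lemma cl_nonneg (t : ℝ) : 0 ≤ cl t := le_max_left _ _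
lemma cl_le_one (t : ℝ) : cl t ≤ 1 := max_le zero_le_one (min_le_left _ _)
lemma cl_of_nonpos {t : ℝ} (h : t ≤ 0) : cl t = 0 := by
  unfold cl; rw [min_eq_right (by linarith), max_eq_left h]
lemma cl_of_one_le {t : ℝ} (h : 1 ≤ t) : cl t = 1 := by
  unfold cl; rw [min_eq_left h, max_eq_right zero_le_one]
lemma cl_of_mem {t : ℝ} (h0 : 0 ≤ t) (h1 : t ≤ 1) : cl t = t := by
  unfold cl; rw [min_eq_right h1, max_eq_right h0]
@[fun_prop] lemma continuous_cl : Continuous cl := by unfold cl; fun_prop

/-! ### the product of all side lengths -/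

/-- centre -/
def ctr (c : BoxConf F A) (v : F) (j : A) : ℝ := c.a v j + c.r v j / 2

/-- the product of all side lengths -/
def vol [Finite F] [Finite A] (c : BoxConf F A) : ℝ :=
  letI := Fintype.ofFinite F
  letI := Fintype.ofFinite A
  ∏ v : F, ∏ j : A, c.r v j

lemma r_le_one (c : BoxConf F A) (v : F) (j : A) : c.r v j ≤ 1 := by
  linarith [c.a_nonneg v j, c.add_le v j]

section
variable [Finite F] [Finite A] [Finite A']

lemma vol_pos (c : BoxConf F A) : 0 < vol c :=
  Finset.prod_pos fun v _ => Finset.prod_pos fun j _ => c.r_pos v j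

lemma vol_le_one (c : BoxConf F A) : vol c ≤ 1 :=
  Finset.prod_le_one (fun v _ => Finset.prod_nonneg fun j _ => (c.r_pos v j).le)
    fun v _ => Finset.prod_le_one (fun j _ => (c.r_pos v j).le) fun j _ => r_le_one c v j

lemma vol_le (c : BoxConf F A) (v : F) (j : A) : vol c ≤ c.r v j := by
  classical
  let _ := Fintype.ofFinite F
  let _ := Fintype.ofFinite A
  have h1 : (∏ j : A, c.r v j) ≤ c.r v j := by
    rw [← Finset.mul_prod_erase _ _ (Finset.mem_univ j)]
    refine mul_le_of_le_one_right (c.r_pos v j).le ?_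
    exact Finset.prod_le_one (fun j _ => (c.r_pos v j).le) fun j _ => r_le_one c v j
  refine le_trans ?_ h1
  show (∏ v : F, ∏ j : A, c.r v j) ≤ _
  rw [← Finset.mul_prod_erase _ _ (Finset.mem_univ v)]
  refine mul_le_of_le_one_right (Finset.prod_nonneg fun j _ => (c.r_pos v j).le) ?_
  exact Finset.prod_le_one (fun v _ => Finset.prod_nonneg fun j _ => (c.r_pos v j).le)
    fun v _ => Finset.prod_le_one (fun j _ => (c.r_pos v j).le) fun j _ => r_le_one c v j

lemma continuous_vol : Continuous (vol : BoxConf F A → ℝ) := by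
  unfold vol
  exact continuous_finsetProd _ fun v _ => continuous_finsetProd _ fun j _ =>
    BoxConf.continuous_r v j

lemma vol_relabel {F' : Type*} [Finite F'] (c : BoxConf F A) (e : F' ≃ F) :
    vol (c.relabel e) = vol c := by
  let _ := Fintype.ofFinite F
  let _ := Fintype.ofFinite F'
  let _ := Fintype.ofFinite A
  show (∏ v : F', ∏ j : A, c.r (e v) j) = ∏ v : F, ∏ j : A, c.r v j
  exact e.prod_comp (fun v => ∏ j : A, c.r v j)

end

/-! ### extension by full coordinates -/

open Classical in
/-- piecewise function on `J`: `f` on `range ι`, `f'` on `range ι'`, `z` elsewhere -/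
def pw (ι : A ↪ J) (ι' : A' ↪ J) (f : A → ℝ) (f' : A' → ℝ) (z : ℝ) : J → ℝ :=
  Function.extend ι f (Function.extend ι' f' fun _ => z)

section pw
variable {ι : A ↪ J} {ι' : A' ↪ J} (hd : ∀ x y, ι x ≠ ι' y)
variable {f : A → ℝ} {f' : A' → ℝ} {z : ℝ}

lemma pw_left (x : A) : pw ι ι' f f' z (ι x) = f x := ι.injective.extend_apply _ _ _

include hd in
lemma pw_right (y : A') : pw ι ι' f f' z (ι' y) = f' y := by
  unfold pw
  rw [Function.extend_apply' _ _ _ (by rintro ⟨x, hx⟩; exact hd x y hx)]
  exact ι'.injective.extend_apply _ _ _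

lemma pw_off {j : J} (h1 : ∀ x, ι x ≠ j) (h2 : ∀ y, ι' y ≠ j) : pw ι ι' f f' z j = z := by
  unfold pw
  rw [Function.extend_apply' _ _ _ (by rintro ⟨x, hx⟩; exact h1 x hx),
    Function.extend_apply' _ _ _ (by rintro ⟨x, hx⟩; exact h2 x hx)]

/-- case distinction for `J` -/
lemma pw_cases (ι : A ↪ J) (ι' : A' ↪ J) (j : J) :
    (∃ x, ι x = j) ∨ (∃ y, ι' y = j) ∨ ((∀ x, ι x ≠ j) ∧ ∀ y, ι' y ≠ j) := by
  by_cases h1 : ∃ x, ι x = j
  · exact Or.inl h1
  · by_cases h2 : ∃ y, ι' y = j
    · exact Or.inr (Or.inl h2)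
    · push Not at h1 h2
      exact Or.inr (Or.inr ⟨h1, h2⟩)

end pw

/-! ### the homotopy -/

section hty

variable [Finite F] [Finite A] [Finite A']

/-- common small half width -/
def rho (c : BoxConf F A) (c' : BoxConf F A') : ℝ := vol c * vol c' / 4

lemma rho_pos (c : BoxConf F A) (c' : BoxConf F A') : 0 < rho c c' := by
  unfold rho
  have := vol_pos c
  have := vol_pos c'
  positivity

lemma rho_le_left (c : BoxConf F A) (c' : BoxConf F A') (v : F) (j : A) :
    rho c c' ≤ c.r v j / 4 := by
  unfold rho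
  have h1 := vol_pos c
  have h2 := vol_le_one c'
  have h3 := vol_le c v j
  have : vol c * vol c' ≤ vol c := mul_le_of_le_one_right h1.le h2
  linarith

lemma rho_le_right (c : BoxConf F A) (c' : BoxConf F A') (v : F) (j : A') :
    rho c c' ≤ c'.r v j / 4 := by
  unfold rho
  have h1 := vol_pos c'
  have h2 := vol_le_one c
  have h3 := vol_le c' v j
  have : vol c * vol c' ≤ vol c' := mul_le_of_le_one_left h1.le h2
  linarith

lemma rho_le (c : BoxConf F A) (c' : BoxConf F A') : rho c c' ≤ 1 / 4 := by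
  unfold rho
  have h1 := vol_pos c
  have h2 := vol_le_one c'
  have h3 := vol_le_one c
  have : vol c * vol c' ≤ vol c := mul_le_of_le_one_right h1.le h2
  linarith

/-- centre of the moving box in a coordinate of the first kind -/
def gam (s : ℝ) (c : BoxConf F A) (v : F) (x : A) : ℝ :=
  1 / 2 + (1 - cl (3 * s - 1)) * (ctr c v x - 1 / 2)

/-- centre of the moving box in a coordinate of the second kind -/
def gam' (s : ℝ) (c' : BoxConf F A') (v : F) (y : A') : ℝ :=
  1 / 2 + cl (3 * s - 1) * (ctr c' v y - 1 / 2)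

/-- half width, first kind -/
def hw (s : ℝ) (c : BoxConf F A) (c' : BoxConf F A') (v : F) (x : A) : ℝ :=
  rho c c' + cl (1 - 3 * s) * (c.r v x / 2 - rho c c') + cl (3 * s - 2) * (1 / 2 - rho c c')

/-- half width, second kind -/
def hw' (s : ℝ) (c : BoxConf F A) (c' : BoxConf F A') (v : F) (y : A') : ℝ :=
  rho c c' + cl (1 - 3 * s) * (1 / 2 - rho c c') + cl (3 * s - 2) * (c'.r v y / 2 - rho c c')

variable (ι : A ↪ J) (ι' : A' ↪ J)

/-- the lower corners -/
def htyA (s : ℝ) (c : BoxConf F A) (c' : BoxConf F A') (v : F) : J → ℝ :=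
  pw ι ι' (fun x => gam s c v x - hw s c c' v x) (fun y => gam' s c' v y - hw' s c c' v y) 0

/-- the side lengths -/
def htyR (s : ℝ) (c : BoxConf F A) (c' : BoxConf F A') (v : F) : J → ℝ :=
  pw ι ι' (fun x => 2 * hw s c c' v x) (fun y => 2 * hw' s c c' v y) 1

/-- the three phases -/
lemma phases (s : ℝ) : (cl (3 * s - 1) = 0 ∧ cl (3 * s - 2) = 0) ∨
    (cl (3 * s - 1) = 1 ∧ cl (1 - 3 * s) = 0) ∨ (cl (1 - 3 * s) = 0 ∧ cl (3 * s - 2) = 0) := by
  rcases le_total (3 * s) 1 with h | h
  · left; exact ⟨cl_of_nonpos (by linarith), cl_of_nonpos (by linarith)⟩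
  · rcases le_total (3 * s) 2 with h' | h'
    · right; right; exact ⟨cl_of_nonpos (by linarith), cl_of_nonpos (by linarith)⟩
    · right; left; exact ⟨cl_of_one_le (by linarith), cl_of_nonpos (by linarith)⟩

lemma hw_pos (s : ℝ) (c : BoxConf F A) (c' : BoxConf F A') (v : F) (x : A) :
    0 < hw s c c' v x := by
  have h1 := rho_pos c c'
  have h2 := rho_le_left c c' v x
  have h3 := rho_le c c'
  have h4 := cl_nonneg (1 - 3 * s)
  have h5 := cl_nonneg (3 * s - 2)
  have h6 : 0 ≤ c.r v x / 2 - rho c c' := by linarith [c.r_pos v x]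
  have h7 : 0 ≤ 1 / 2 - rho c c' := by linarith
  unfold hw
  positivity

lemma hw'_pos (s : ℝ) (c : BoxConf F A) (c' : BoxConf F A') (v : F) (y : A') :
    0 < hw' s c c' v y := by
  have h1 := rho_pos c c'
  have h2 := rho_le_right c c' v y
  have h3 := rho_le c c'
  have h4 := cl_nonneg (1 - 3 * s)
  have h5 := cl_nonneg (3 * s - 2)
  have h6 : 0 ≤ c'.r v y / 2 - rho c c' := by linarith [c'.r_pos v y]
  have h7 : 0 ≤ 1 / 2 - rho c c' := by linarith
  unfold hw'
  positivity

/-- inside the unit interval, first kind -/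
lemma box_left (s : ℝ) (c : BoxConf F A) (c' : BoxConf F A') (v : F) (x : A) :
    0 ≤ gam s c v x - hw s c c' v x ∧ gam s c v x + hw s c c' v x ≤ 1 := by
  have h1 := rho_pos c c'
  have h2 := rho_le_left c c' v x
  have h3 := rho_le c c'
  have h4 := cl_nonneg (1 - 3 * s)
  have h5 := cl_nonneg (3 * s - 2)
  have h4' := cl_le_one (1 - 3 * s)
  have h5' := cl_le_one (3 * s - 2)
  have h6 := cl_nonneg (3 * s - 1)
  have h6' := cl_le_one (3 * s - 1)
  have hr := c.r_pos v x
  have ha := c.a_nonneg v x
  have hb := c.add_le v x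
  unfold gam hw ctr
  rcases phases s with ⟨e1, e2⟩ | ⟨e1, e2⟩ | ⟨e1, e2⟩
  · rw [e1, e2]
    constructor <;> nlinarith
  · rw [e1, e2]
    constructor <;> nlinarith
  · rw [e1, e2]
    constructor <;> nlinarith

/-- inside the unit interval, second kind -/
lemma box_right (s : ℝ) (c : BoxConf F A) (c' : BoxConf F A') (v : F) (y : A') :
    0 ≤ gam' s c' v y - hw' s c c' v y ∧ gam' s c' v y + hw' s c c' v y ≤ 1 := by
  have h1 := rho_pos c c'
  have h2 := rho_le_right c c' v y
  have h3 := rho_le c c'
  have h4 := cl_nonneg (1 - 3 * s)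
  have h5 := cl_nonneg (3 * s - 2)
  have h4' := cl_le_one (1 - 3 * s)
  have h5' := cl_le_one (3 * s - 2)
  have h6 := cl_nonneg (3 * s - 1)
  have h6' := cl_le_one (3 * s - 1)
  have hr := c'.r_pos v y
  have ha := c'.a_nonneg v y
  have hb := c'.add_le v y
  unfold gam' hw' ctr
  rcases phases s with ⟨e1, e2⟩ | ⟨e1, e2⟩ | ⟨e1, e2⟩
  · rw [e1, e2]
    constructor <;> nlinarith
  · rw [e1, e2]
    constructor <;> nlinarith
  · rw [e1, e2]
    constructor <;> nlinarith

/-- separation, first kind, as long as the parameter is at most `1/2` -/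
lemma sep_left {s : ℝ} (hs : cl (3 * s - 1) ≤ 1 / 2) (c : BoxConf F A) (c' : BoxConf F A')
    {v w : F} {x : A} (h : c.a v x + c.r v x ≤ c.a w x) :
    gam s c v x + hw s c c' v x ≤ gam s c w x - hw s c c' w x := by
  have h1 := rho_pos c c'
  have h2 := rho_le_left c c' v x
  have h2' := rho_le_left c c' w x
  have h3 := rho_le c c'
  have h4 := cl_nonneg (1 - 3 * s)
  have h4' := cl_le_one (1 - 3 * s)
  have h6 := cl_nonneg (3 * s - 1)
  have hr := c.r_pos v x
  have hr' := c.r_pos w x
  unfold gam hw ctr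
  rcases phases s with ⟨e1, e2⟩ | ⟨e1, e2⟩ | ⟨e1, e2⟩
  · rw [e1, e2]
    nlinarith
  · rw [e1] at hs
    norm_num at hs
  · rw [e1, e2]
    nlinarith

/-- separation, second kind, as long as the parameter is at least `1/2` -/
lemma sep_right {s : ℝ} (hs : 1 / 2 ≤ cl (3 * s - 1)) (c : BoxConf F A) (c' : BoxConf F A')
    {v w : F} {y : A'} (h : c'.a v y + c'.r v y ≤ c'.a w y) :
    gam' s c' v y + hw' s c c' v y ≤ gam' s c' w y - hw' s c c' w y := by
  have h1 := rho_pos c c'
  have h2 := rho_le_right c c' v y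
  have h2' := rho_le_right c c' w y
  have h3 := rho_le c c'
  have h5 := cl_nonneg (3 * s - 2)
  have h5' := cl_le_one (3 * s - 2)
  have h6 := cl_le_one (3 * s - 1)
  have hr := c'.r_pos v y
  have hr' := c'.r_pos w y
  unfold gam' hw' ctr
  rcases phases s with ⟨e1, e2⟩ | ⟨e1, e2⟩ | ⟨e1, e2⟩
  · rw [e1] at hs
    norm_num at hs
  · rw [e1, e2]
    nlinarith
  · rw [e1, e2]
    nlinarith

variable {ι ι'}

/-- The universal homotopy between `c` (placed along `ι`) and `c'` (placed along `ι'`), where the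
ranges of `ι` and `ι'` are disjoint. -/
def hty (hd : ∀ x y, ι x ≠ ι' y) (s : ℝ) (c : BoxConf F A) (c' : BoxConf F A') : BoxConf F J :=
  BoxConf.mk' (htyA ι ι' s c c') (htyR ι ι' s c c')
    (fun v j => by
      rcases pw_cases ι ι' j with ⟨x, rfl⟩ | ⟨y, rfl⟩ | ⟨h1, h2⟩
      · have h1 := hw_pos s c c' v x
        have h2 := box_left s c c' v x
        simp only [htyA, htyR, pw_left]
        refine ⟨h2.1, by linarith, by linarith [h2.2]⟩
      · have h1 := hw'_pos s c c' v y
        have h2 := box_right s c c' v y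
        simp only [htyA, htyR, pw_right hd]
        refine ⟨h2.1, by linarith, by linarith [h2.2]⟩
      · simp only [htyA, htyR, pw_off h1 h2]
        norm_num)
    (fun v w hvw => by
      rcases le_total (cl (3 * s - 1)) (1 / 2) with hs | hs
      · obtain ⟨x, hx⟩ := c.sep hvw
        refine ⟨ι x, ?_⟩
        simp only [htyA, htyR, pw_left]
        rcases hx with hx | hx
        · left; linarith [sep_left hs c c' hx]
        · right; linarith [sep_left hs c c' hx]
      · obtain ⟨y, hy⟩ := c'.sep hvw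
        refine ⟨ι' y, ?_⟩
        simp only [htyA, htyR, pw_right hd]
        rcases hy with hy | hy
        · left; linarith [sep_right hs c c' hy]
        · right; linarith [sep_right hs c c' hy])

end hty

/-- placing a configuration along `ι`, all other coordinates being full -/
def place (ι : A ↪ J) (c : BoxConf F A) : BoxConf F J :=
  BoxConf.mk' (fun v => Function.extend ι (c.a v) fun _ => 0)
    (fun v => Function.extend ι (c.r v) fun _ => 1)
    (fun v j => by
      by_cases h : ∃ x, ι x = j
      · obtain ⟨x, rfl⟩ := h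
        rw [ι.injective.extend_apply, ι.injective.extend_apply]
        exact ⟨c.a_nonneg v x, c.r_pos v x, c.add_le v x⟩
      · rw [Function.extend_apply' _ _ _ h, Function.extend_apply' _ _ _ h]
        norm_num)
    (fun v w hvw => by
      obtain ⟨x, hx⟩ := c.sep hvw
      refine ⟨ι x, ?_⟩
      simp only [ι.injective.extend_apply]
      exact hx)

lemma place_a (ι : A ↪ J) (c : BoxConf F A) (v : F) (j : J) :
    (place ι c).a v j = Function.extend ι (c.a v) (fun _ => 0) j := rfl
lemma place_r (ι : A ↪ J) (c : BoxConf F A) (v : F) (j : J) :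
    (place ι c).r v j = Function.extend ι (c.r v) (fun _ => 1) j := rfl

lemma place_relabel {F' : Type*} (ι : A ↪ J) (c : BoxConf F A) (e : F' ≃ F) :
    place ι (c.relabel e) = (place ι c).relabel e := rfl

section hty

variable [Finite F] [Finite A] [Finite A'] {ι : A ↪ J} {ι' : A' ↪ J}

lemma hty_a (hd : ∀ x y, ι x ≠ ι' y) (s : ℝ) (c : BoxConf F A) (c' : BoxConf F A') (v : F)
    (j : J) : (hty hd s c c').a v j =
      pw ι ι' (fun x => gam s c v x - hw s c c' v x) (fun y => gam' s c' v y - hw' s c c' v y) 0 j :=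
  rfl
lemma hty_r (hd : ∀ x y, ι x ≠ ι' y) (s : ℝ) (c : BoxConf F A) (c' : BoxConf F A') (v : F)
    (j : J) : (hty hd s c c').r v j =
      pw ι ι' (fun x => 2 * hw s c c' v x) (fun y => 2 * hw' s c c' v y) 1 j := rfl

@[simp] lemma cl_neg_one : cl (-1) = 0 := cl_of_nonpos (by norm_num)
@[simp] lemma cl_neg_two : cl (-2) = 0 := cl_of_nonpos (by norm_num)
@[simp] lemma cl_one : cl 1 = 1 := cl_of_one_le (by norm_num)
@[simp] lemma cl_two : cl 2 = 1 := cl_of_one_le (by norm_num)
@[simp] lemma cl_zero : cl 0 = 0 := cl_of_nonpos (by norm_num)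

/-- start of the homotopy -/
lemma hty_of_nonpos (hd : ∀ x y, ι x ≠ ι' y) {s : ℝ} (hs : s ≤ 0) (c : BoxConf F A)
    (c' : BoxConf F A') : hty hd s c c' = place ι c := by
  have e1 : cl (3 * s - 1) = 0 := cl_of_nonpos (by linarith)
  have e2 : cl (3 * s - 2) = 0 := cl_of_nonpos (by linarith)
  have e3 : cl (1 - 3 * s) = 1 := cl_of_one_le (by linarith)
  ext v j
  · rw [hty_a, place_a]
    rcases pw_cases ι ι' j with ⟨x, rfl⟩ | ⟨y, rfl⟩ | ⟨h1, h2⟩
    · rw [pw_left, ι.injective.extend_apply]
      simp only [gam, hw, ctr, e1, e2, e3]; ring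
    · rw [pw_right hd, Function.extend_apply' _ _ _ (by rintro ⟨x, hx⟩; exact hd x y hx)]
      simp only [gam', hw', ctr, e1, e2, e3]; ring
    · rw [pw_off h1 h2, Function.extend_apply' _ _ _ (by rintro ⟨x, hx⟩; exact h1 x hx)]
  · rw [hty_r, place_r]
    rcases pw_cases ι ι' j with ⟨x, rfl⟩ | ⟨y, rfl⟩ | ⟨h1, h2⟩
    · rw [pw_left, ι.injective.extend_apply]
      simp only [hw, e2, e3]; ring
    · rw [pw_right hd, Function.extend_apply' _ _ _ (by rintro ⟨x, hx⟩; exact hd x y hx)]
      simp only [hw', e2, e3]; ring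
    · rw [pw_off h1 h2, Function.extend_apply' _ _ _ (by rintro ⟨x, hx⟩; exact h1 x hx)]

/-- end of the homotopy -/
lemma hty_of_one_le (hd : ∀ x y, ι x ≠ ι' y) {s : ℝ} (hs : 1 ≤ s) (c : BoxConf F A)
    (c' : BoxConf F A') : hty hd s c c' = place ι' c' := by
  have e1 : cl (3 * s - 1) = 1 := cl_of_one_le (by linarith)
  have e2 : cl (3 * s - 2) = 1 := cl_of_one_le (by linarith)
  have e3 : cl (1 - 3 * s) = 0 := cl_of_nonpos (by linarith)
  ext v j
  · rw [hty_a, place_a]
    rcases pw_cases ι ι' j with ⟨x, rfl⟩ | ⟨y, rfl⟩ | ⟨h1, h2⟩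
    · rw [pw_left, Function.extend_apply' _ _ _ (by rintro ⟨y, hy⟩; exact hd x y hy.symm)]
      simp only [gam, hw, ctr, e1, e2, e3]; ring
    · rw [pw_right hd, ι'.injective.extend_apply]
      simp only [gam', hw', ctr, e1, e2, e3]; ring
    · rw [pw_off h1 h2, Function.extend_apply' _ _ _ (by rintro ⟨x, hx⟩; exact h2 x hx)]
  · rw [hty_r, place_r]
    rcases pw_cases ι ι' j with ⟨x, rfl⟩ | ⟨y, rfl⟩ | ⟨h1, h2⟩
    · rw [pw_left, Function.extend_apply' _ _ _ (by rintro ⟨y, hy⟩; exact hd x y hy.symm)]
      simp only [hw, e2, e3]; ring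
    · rw [pw_right hd, ι'.injective.extend_apply]
      simp only [hw', e2, e3]; ring
    · rw [pw_off h1 h2, Function.extend_apply' _ _ _ (by rintro ⟨x, hx⟩; exact h2 x hx)]

@[simp] lemma hty_zero (hd : ∀ x y, ι x ≠ ι' y) (c : BoxConf F A) (c' : BoxConf F A') :
    hty hd 0 c c' = place ι c := hty_of_nonpos hd le_rfl c c'

@[simp] lemma hty_one (hd : ∀ x y, ι x ≠ ι' y) (c : BoxConf F A) (c' : BoxConf F A') :
    hty hd 1 c c' = place ι' c' := hty_of_one_le hd le_rfl c c'

/-- naturality of the homotopy under relabelling -/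
lemma hty_relabel {F' : Type*} [Finite F'] (hd : ∀ x y, ι x ≠ ι' y) (s : ℝ) (c : BoxConf F A)
    (c' : BoxConf F A') (e : F' ≃ F) :
    hty hd s (c.relabel e) (c'.relabel e) = (hty hd s c c').relabel e := by
  have hr : rho (c.relabel e) (c'.relabel e) = rho c c' := by
    unfold rho; rw [vol_relabel, vol_relabel]
  ext v j
  · have h1 : ((hty hd s c c').relabel e).a v j = (hty hd s c c').a (e v) j := rfl
    rw [h1, hty_a, hty_a]
    congr 1
    · funext x; simp only [hw, hr]; rfl
    · funext x; simp only [hw', hr]; rfl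
  · have h1 : ((hty hd s c c').relabel e).r v j = (hty hd s c c').r (e v) j := rfl
    rw [h1, hty_r, hty_r]
    congr 1
    · funext x; simp only [hw, hr]; rfl
    · funext x; simp only [hw', hr]; rfl

/-- joint continuity of the homotopy -/
theorem continuous_hty {P : Type*} [TopologicalSpace P] (hd : ∀ x y, ι x ≠ ι' y) {s : P → ℝ}
    {c : P → BoxConf F A} {c' : P → BoxConf F A'} (hs : Continuous s) (hc : Continuous c)
    (hc' : Continuous c') : Continuous fun p => hty hd (s p) (c p) (c' p) := by
  have hca : ∀ v x, Continuous fun p => (c p).a v x := fun v x =>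
    (BoxConf.continuous_a v x).comp hc
  have hcr : ∀ v x, Continuous fun p => (c p).r v x := fun v x =>
    (BoxConf.continuous_r v x).comp hc
  have hca' : ∀ v x, Continuous fun p => (c' p).a v x := fun v x =>
    (BoxConf.continuous_a v x).comp hc'
  have hcr' : ∀ v x, Continuous fun p => (c' p).r v x := fun v x =>
    (BoxConf.continuous_r v x).comp hc'
  have hrho : Continuous fun p => rho (c p) (c' p) := by
    unfold rho
    exact ((continuous_vol.comp hc).mul (continuous_vol.comp hc')).div_const _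
  have hhw : ∀ v x, Continuous fun p => hw (s p) (c p) (c' p) v x := by
    intro v x
    have := hcr v x
    unfold hw
    fun_prop
  have hhw' : ∀ v x, Continuous fun p => hw' (s p) (c p) (c' p) v x := by
    intro v x
    have := hcr' v x
    unfold hw'
    fun_prop
  have hg : ∀ v x, Continuous fun p => gam (s p) (c p) v x := by
    intro v x
    have h1 := hca v x
    have h2 := hcr v x
    unfold gam ctr
    fun_prop
  have hg' : ∀ v x, Continuous fun p => gam' (s p) (c' p) v x := by
    intro v x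
    have h1 := hca' v x
    have h2 := hcr' v x
    unfold gam' ctr
    fun_prop
  refine BoxConf.continuous_mk (fun v j => ?_) (fun v j => ?_)
  · simp only [hty_a]
    rcases pw_cases ι ι' j with ⟨x, rfl⟩ | ⟨y, rfl⟩ | ⟨h1, h2⟩
    · simp only [pw_left]; exact (hg v x).sub (hhw v x)
    · simp only [pw_right hd]; exact (hg' v y).sub (hhw' v y)
    · simp only [pw_off h1 h2]; exact continuous_const
  · simp only [hty_r]
    rcases pw_cases ι ι' j with ⟨x, rfl⟩ | ⟨y, rfl⟩ | ⟨h1, h2⟩
    · simp only [pw_left]; exact continuous_const.mul (hhw v x)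
    · simp only [pw_right hd]; exact continuous_const.mul (hhw' v y)
    · simp only [pw_off h1 h2]; exact continuous_const

end hty

/-- continuity of `place` -/
lemma continuous_place {P : Type*} [TopologicalSpace P] (ι : A ↪ J) {c : P → BoxConf F A}
    (hc : Continuous c) : Continuous fun p => place ι (c p) := by
  refine BoxConf.continuous_mk (fun v j => ?_) (fun v j => ?_)
  · show Continuous fun p => Function.extend ι ((c p).a v) (fun _ => (0 : ℝ)) j
    by_cases h : ∃ x, ι x = j
    · obtain ⟨x, rfl⟩ := h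
      simp only [ι.injective.extend_apply]
      exact (BoxConf.continuous_a v x).comp hc
    · simp only [Function.extend_apply' _ _ _ h]
      exact continuous_const
  · show Continuous fun p => Function.extend ι ((c p).r v) (fun _ => (1 : ℝ)) j
    by_cases h : ∃ x, ι x = j
    · obtain ⟨x, rfl⟩ := h
      simp only [ι.injective.extend_apply]
      exact (BoxConf.continuous_r v x).comp hc
    · simp only [Function.extend_apply' _ _ _ h]
      exact continuous_const

/-! ### two families in the same coordinates -/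

section hty2

variable [Finite F] [Finite A] {ι ι' : A ↪ J}

open Classical in
/-- Two families of boxes in the coordinates `ι` are homotopic, using a second disjoint copy `ι'`
of the coordinates. -/
def hty2 (hd : ∀ x y, ι x ≠ ι' y) (s : ℝ) (c c' : BoxConf F A) : BoxConf F J :=
  if s ≤ 1 / 2 then hty hd (2 * s) c c' else hty hd (2 - 2 * s) c' c'

@[simp] lemma hty2_zero (hd : ∀ x y, ι x ≠ ι' y) (c c' : BoxConf F A) :
    hty2 hd 0 c c' = place ι c := by
  unfold hty2
  rw [if_pos (by norm_num)]
  exact hty_of_nonpos hd (by norm_num) c c'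

@[simp] lemma hty2_one (hd : ∀ x y, ι x ≠ ι' y) (c c' : BoxConf F A) :
    hty2 hd 1 c c' = place ι c' := by
  unfold hty2
  rw [if_neg (by norm_num)]
  exact hty_of_nonpos hd (by norm_num) c' c'

lemma hty2_relabel {F' : Type*} [Finite F'] (hd : ∀ x y, ι x ≠ ι' y) (s : ℝ)
    (c c' : BoxConf F A) (e : F' ≃ F) :
    hty2 hd s (c.relabel e) (c'.relabel e) = (hty2 hd s c c').relabel e := by
  unfold hty2
  split_ifs <;> exact hty_relabel hd _ _ _ e

theorem continuous_hty2 {P : Type*} [TopologicalSpace P] (hd : ∀ x y, ι x ≠ ι' y) {s : P → ℝ}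
    {c c' : P → BoxConf F A} (hs : Continuous s) (hc : Continuous c)
    (hc' : Continuous c') : Continuous fun p => hty2 hd (s p) (c p) (c' p) := by
  unfold hty2
  refine Continuous.if_le ?_ ?_ hs continuous_const ?_
  · exact continuous_hty hd (by fun_prop) hc hc'
  · exact continuous_hty hd (by fun_prop) hc' hc'
  · intro p hp
    rw [hty_of_one_le hd (by linarith), hty_of_one_le hd (by linarith)]

end hty2

/-! ### consequences for the operations -/

section mu

variable {Z : Type*} [TopologicalSpace Z] {z₀ : Z} [Finite F] [Finite A] [Finite A'] [Finite J]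

/-- ANY two families of little cubes in disjoint sets of coordinates act by homotopic maps. -/
theorem exists_homotopy {P : Type*} [TopologicalSpace P] {ι : A ↪ J} {ι' : A' ↪ J}
    (hd : ∀ x y, ι x ≠ ι' y) {c : P → BoxConf F A} {c' : P → BoxConf F A'}
    (hc : Continuous c) (hc' : Continuous c') {x : P → F → Ω^ J Z z₀} (hx : Continuous x) :
    Continuous fun q : ℝ × P => mu (hty hd q.1 (c q.2) (c' q.2)) (x q.2) :=
  continuous_mu (continuous_hty hd continuous_fst (hc.comp continuous_snd)
    (hc'.comp continuous_snd)) (hx.comp continuous_snd)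

/-- ANY two families of little cubes in the same coordinates act by homotopic maps, if there is a
second disjoint copy of the coordinates. -/
theorem exists_homotopy2 {P : Type*} [TopologicalSpace P] {ι ι' : A ↪ J}
    (hd : ∀ x y, ι x ≠ ι' y) {c c' : P → BoxConf F A}
    (hc : Continuous c) (hc' : Continuous c') {x : P → F → Ω^ J Z z₀} (hx : Continuous x) :
    Continuous fun q : ℝ × P => mu (hty2 hd q.1 (c q.2) (c' q.2)) (x q.2) :=
  continuous_mu (continuous_hty2 hd continuous_fst (hc.comp continuous_snd)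
    (hc'.comp continuous_snd)) (hx.comp continuous_snd)

end mu

end Crest.Agent.R204.Htpy761
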