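import Crest.Agent.R204.GL2A_735
import Crest.Agent.R204.ThetaSS_265
import Crest.Agent.R204.Htpy_761

/-!
# Row 204, block C, leaf C8 (helper735): simplicial homotopies for `Ψ ∘ (1 × Ψ)`

* `Psi2 k : (BM × BM) × Sing X → Sing X`;
* `htpySwap : Psi2 ∘ (swap × 1) ≃ Psi2`;
* `htpyTrans : Psi2 ∘ (φ × 1) ≃ Psi2 ∘ (incl × 1)` on `(BM M × BM M) × Sing X`, `φ (x, y) = (x, x + y)`.
-/

set_option autoImplicit false
set_option linter.unusedSectionVars false

open scoped Topology Topology.Homotopy

noncomputable section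

namespace Crest.Agent.R204.GL2735

open SS SingAct265 Cubes735 DK742 ThetaSS265 Htpy761

/-! ### maps out of `orb × orb × X` -/

section lift2

variable {K L X Y : SS} (τ : Invo K) (τ' : Invo L)

/-- maps out of `(K/τ × L/τ') × X` -/
def lift2 (f : Hom ((K.prod L).prod X) Y)
    (h1 : ∀ (n : ℕ) (g : K.S n) (h : L.S n) (x : X.S n),
      f.app n ((τ.g.app n g, h), x) = f.app n ((g, h), x))
    (h2 : ∀ (n : ℕ) (g : K.S n) (h : L.S n) (x : X.S n),
      f.app n ((g, τ'.g.app n h), x) = f.app n ((g, h), x)) :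
    Hom (((orb K τ).prod (orb L τ')).prod X) Y where
  app n p := Quotient.liftOn₂ (s₁ := τ.rel n) (s₂ := τ'.rel n) p.1.1 p.1.2
    (fun g h => f.app n ((g, h), p.2)) (by
      intro a b a' b' ha hb
      rcases ha with rfl | rfl <;> rcases hb with rfl | rfl
      · rfl
      · exact (h2 n _ _ _).symm
      · exact (h1 n _ _ _).symm
      · show f.app n ((a, b), p.2) = f.app n ((τ.g.app n a, τ'.g.app n b), p.2)
        rw [h1, h2])
  nat a p := by
    obtain ⟨⟨x, y⟩, z⟩ := p
    obtain ⟨g, rfl⟩ := proj_surj τ _ x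
    obtain ⟨h, rfl⟩ := proj_surj τ' _ y
    exact f.nat a ((g, h), z)

theorem lift2_proj (f : Hom ((K.prod L).prod X) Y) (h1) (h2) (n : ℕ) (g : K.S n) (h : L.S n)
    (x : X.S n) : (lift2 τ τ' f h1 h2).app n (((proj τ).app n g, (proj τ').app n h), x) =
      f.app n ((g, h), x) := rfl

end lift2

/-! ### the general homotopy -/

section gen

variable {J Z A S : Type} [Finite J] [Finite A] [Finite S] [TopologicalSpace Z] {z₀ : Z}
variable {K L : SS} (τ : Invo K) (τ' : Invo L)

/-- the homotopy on the covering -/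
def htyHom {ι ι' : A ↪ J} (hd : ∀ x y, ι x ≠ ι' y) (c c' : Hom (K.prod L) (Sing (BoxConf S A))) :
    Hom ((K.prod L).prod ((Sing (Om J Z z₀)).prod (std 1))) (Sing (Om J Z z₀)) where
  app n p := mkS (fun t => mu (hty2 hd (bar p.2.2 t : ℝ) (ev (c.app n p.1) t) (ev (c'.app n p.1) t))
      (fun _ : S => ev p.2.1 t))
    (continuous_mu (continuous_hty2 hd (continuous_subtype_val.comp (continuous_bar _))
      (continuous_ev _) (continuous_ev _)) (continuous_pi fun _ => continuous_ev _))
  nat f p := by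
    refine sing_ext fun t => ?_
    have key : ∀ (b b' : unitInterval) (c₁ c₁' c₂ c₂' : BoxConf S A) (y : S → Om J Z z₀),
        b = b' → c₁ = c₁' → c₂ = c₂' →
        mu (hty2 hd (b : ℝ) c₁ c₂) y = mu (hty2 hd (b' : ℝ) c₁' c₂') y := by
      rintro b _ c₁ _ c₂ _ y rfl rfl rfl
      rfl
    exact key _ _ _ _ _ _ _ (bar_comp f p.2.2 t) (congrArg (fun σ => SingAct265.ev σ t) (c.nat f p.1))
      (congrArg (fun σ => SingAct265.ev σ t) (c'.nat f p.1))

theorem mu_const_relabel (d : BoxConf S J) (e : S ≃ S) (x : Om J Z z₀) :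
    mu (d.relabel e) (fun _ => x) = mu d (fun _ => x) := mu_relabel d e (fun _ => x)

theorem place_eq_extend (ι : A ↪ J) (c : BoxConf S A) : place ι c = c.extend ι := rfl

/-- homotopic actions from two equivariant families of boxes -/
def htpyGen {ι ι' : A ↪ J} (hd : ∀ x y, ι x ≠ ι' y) (c c' : Hom (K.prod L) (Sing (BoxConf S A)))
    (e1 e2 : S ≃ S)
    (hc1 : ∀ (n : ℕ) (g : K.S n) (h : L.S n) t, ev (c.app n (τ.g.app n g, h)) t =
      (ev (c.app n (g, h)) t).relabel e1)
    (hc2 : ∀ (n : ℕ) (g : K.S n) (h : L.S n) t, ev (c.app n (g, τ'.g.app n h)) t =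
      (ev (c.app n (g, h)) t).relabel e2)
    (hc1' : ∀ (n : ℕ) (g : K.S n) (h : L.S n) t, ev (c'.app n (τ.g.app n g, h)) t =
      (ev (c'.app n (g, h)) t).relabel e1)
    (hc2' : ∀ (n : ℕ) (g : K.S n) (h : L.S n) t, ev (c'.app n (g, τ'.g.app n h)) t =
      (ev (c'.app n (g, h)) t).relabel e2)
    (f f' : Hom (((orb K τ).prod (orb L τ')).prod (Sing (Om J Z z₀))) (Sing (Om J Z z₀)))
    (hf : ∀ (n : ℕ) (g : K.S n) (h : L.S n) (x : (Sing (Om J Z z₀)).S n) t,
      ev (f.app n (((proj τ).app n g, (proj τ').app n h), x)) t =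
        mu ((ev (c.app n (g, h)) t).extend ι) (fun _ => ev x t))
    (hf' : ∀ (n : ℕ) (g : K.S n) (h : L.S n) (x : (Sing (Om J Z z₀)).S n) t,
      ev (f'.app n (((proj τ).app n g, (proj τ').app n h), x)) t =
        mu ((ev (c'.app n (g, h)) t).extend ι) (fun _ => ev x t)) :
    Htpy f f' where
  h := (lift2 τ τ' (htyHom (Z := Z) (z₀ := z₀) hd c c') (by
        intro n g h x
        refine sing_ext fun t => ?_
        show mu (hty2 hd (bar x.2 t : ℝ) (ev (c.app n (τ.g.app n g, h)) t)
          (ev (c'.app n (τ.g.app n g, h)) t)) _ = _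
        rw [hc1, hc1', hty2_relabel, mu_const_relabel]
        rfl) (by
        intro n g h x
        refine sing_ext fun t => ?_
        show mu (hty2 hd (bar x.2 t : ℝ) (ev (c.app n (g, τ'.g.app n h)) t)
          (ev (c'.app n (g, τ'.g.app n h)) t)) _ = _
        rw [hc2, hc2', hty2_relabel, mu_const_relabel]
        rfl)).comp
      (⟨fun _ p => (p.1.1, (p.1.2, p.2)), fun _ _ => rfl⟩ :
        Hom ((((orb K τ).prod (orb L τ')).prod (Sing (Om J Z z₀))).prod (std 1))
          (((orb K τ).prod (orb L τ')).prod ((Sing (Om J Z z₀)).prod (std 1))))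
  zero n p := by
    obtain ⟨⟨x, y⟩, z⟩ := p
    obtain ⟨g, rfl⟩ := proj_surj τ _ x
    obtain ⟨h, rfl⟩ := proj_surj τ' _ y
    refine sing_ext fun t => ?_
    rw [hf]
    show mu (hty2 hd (bar (cst n 0) t : ℝ) _ _) _ = _
    rw [bar_cst_zero, show ((0 : unitInterval) : ℝ) = 0 from rfl, hty2_zero, place_eq_extend]
  one n p := by
    obtain ⟨⟨x, y⟩, z⟩ := p
    obtain ⟨g, rfl⟩ := proj_surj τ _ x
    obtain ⟨h, rfl⟩ := proj_surj τ' _ y
    refine sing_ext fun t => ?_
    rw [hf']
    show mu (hty2 hd (bar (cst n 1) t : ℝ) _ _) _ = _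
    rw [bar_cst_one, show ((1 : unitInterval) : ℝ) = 1 from rfl, hty2_one, place_eq_extend]

end gen

/-! ### iterates of `Ψ` -/

section psi2

variable {J Z : Type} [Finite J] [TopologicalSpace Z] {z₀ : Z} {M : ℕ}

/-- `Ψ ∘ (1 × Ψ)` -/
def Psi2 (k : Fin (M + 1) ↪ J) :
    Hom (((BM M).prod (BM M)).prod (Sing (Om J Z z₀))) (Sing (Om J Z z₀)) :=
  (Psi k).comp (⟨fun n p => (p.1.1, (Psi k).app n (p.1.2, p.2)), fun f p =>
      Prod.ext rfl ((Psi k).nat f (p.1.2, p.2))⟩ :
      Hom (((BM M).prod (BM M)).prod (Sing (Om J Z z₀))) ((BM M).prod (Sing (Om J Z z₀))))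

/-- index set of the four boxes -/
abbrev Four : Type := Σ _ : Bool, Bool

/-- the four boxes -/
def four (e₁ e₂ : NZ (Fin (M + 1))) : BoxConf Four (Fin (M + 1)) :=
  (thetaConf e₁).comp (fun _ => thetaConf e₂)

theorem continuous_four {P : Type} [TopologicalSpace P] {e₁ e₂ : P → NZ (Fin (M + 1))}
    (h₁ : Continuous e₁) (h₂ : Continuous e₂) : Continuous fun p => four (e₁ p) (e₂ p) := by
  have h1 : Continuous fun p => thetaConf (e₁ p) := continuous_thetaConf.comp h₁
  have h2 : Continuous fun p => thetaConf (e₂ p) := continuous_thetaConf.comp h₂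
  refine BoxConf.continuous_mk (fun v j => ?_) (fun v j => ?_)
  · show Continuous fun p => (thetaConf (e₁ p)).a v.1 j +
      (thetaConf (e₁ p)).r v.1 j * (thetaConf (e₂ p)).a v.2 j
    exact ((BoxConf.continuous_a _ _).comp h1).add
      (((BoxConf.continuous_r _ _).comp h1).mul ((BoxConf.continuous_a _ _).comp h2))
  · show Continuous fun p => (thetaConf (e₁ p)).r v.1 j * (thetaConf (e₂ p)).r v.2 j
    exact ((BoxConf.continuous_r _ _).comp h1).mul ((BoxConf.continuous_r _ _).comp h2)

/-- product of permutations -/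
def pe (a b : Bool ≃ Bool) : Four ≃ Four where
  toFun v := ⟨a v.1, b v.2⟩
  invFun v := ⟨a.symm v.1, b.symm v.2⟩
  left_inv v := by simp
  right_inv v := by simp

theorem four_neg_left (e₁ e₂ : NZ (Fin (M + 1))) :
    four (-e₁) e₂ = (four e₁ e₂).relabel (pe Equiv.boolNot (Equiv.refl Bool)) := by
  unfold four
  rw [thetaConf_neg]
  rfl

theorem four_neg_right (e₁ e₂ : NZ (Fin (M + 1))) :
    four e₁ (-e₂) = (four e₁ e₂).relabel (pe (Equiv.refl Bool) Equiv.boolNot) := by
  unfold four
  rw [thetaConf_neg]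
  rfl

theorem relabel_relabel {F F' F'' A : Type} (c : BoxConf F A) (e : F' ≃ F) (e' : F'' ≃ F') :
    (c.relabel e).relabel e' = c.relabel (e'.trans e) := rfl

/-- the families of boxes attached to a pair of simplices -/
def fourS {P : SS} (g h : Hom P (EM M)) : Hom P (Sing (BoxConf Four (Fin (M + 1)))) where
  app n p := mkS (fun t => four (ev ((nz M).app n (g.app n p)) t) (ev ((nz M).app n (h.app n p)) t))
    (continuous_four (continuous_ev _) (continuous_ev _))
  nat f p := by
    refine sing_ext fun t => ?_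
    show four (ev ((nz M).app _ (g.app _ (P.act f p))) t) (ev ((nz M).app _ (h.app _ (P.act f p))) t)
      = _
    rw [g.nat, h.nat, (nz M).nat, (nz M).nat]
    rfl

/-- relabelled families -/
def relS {P : SS} {F F' A : Type} (c : Hom P (Sing (BoxConf F A))) (e : F' ≃ F) :
    Hom P (Sing (BoxConf F' A)) where
  app n p := mkS (fun t => (ev (c.app n p) t).relabel e) (by
    refine BoxConf.continuous_mk (fun v j => ?_) (fun v j => ?_)
    · exact (BoxConf.continuous_a (e v) j).comp (continuous_ev _)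
    · exact (BoxConf.continuous_r (e v) j).comp (continuous_ev _))
  nat f p := by
    refine sing_ext fun t => ?_
    show (ev (c.app _ (P.act f p)) t).relabel e = _
    rw [c.nat]; rfl

theorem ev_Psi2 (k : Fin (M + 1) ↪ J) {n : ℕ} (g h : (EM M).S n) (x : (Sing (Om J Z z₀)).S n)
    (t : stdSimplex ℝ (Fin (n + 1))) :
    ev ((Psi2 k).app n (((proj (invEM M)).app n g, (proj (invEM M)).app n h), x)) t =
      mu ((four (ev ((nz M).app n g) t) (ev ((nz M).app n h) t)).extend k) (fun _ => ev x t) := by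
  show ev ((Psi k).app n ((proj (invEM M)).app n g, (Psi k).app n ((proj (invEM M)).app n h, x))) t
    = _
  rw [Psi_proj, Psi_proj, ev_psiSS, ev_psiSS, psi_psi]
  rfl

theorem nz_neg' {n : ℕ} (g : (EM M).S n) (t : stdSimplex ℝ (Fin (n + 1))) :
    ev ((nz M).app n ((invEM M).g.app n g)) t = - ev ((nz M).app n g) t := nz_neg M g t

/-- swapping the two factors of the index set -/
def swapFour : Four ≃ Four where
  toFun v := ⟨v.2, v.1⟩
  invFun v := ⟨v.2, v.1⟩
  left_inv _ := rfl
  right_inv _ := rfl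

/-- swap of the two factors -/
def swapB (X : SS) (M : ℕ) : Hom (((BM M).prod (BM M)).prod X) (((BM M).prod (BM M)).prod X) :=
  SS.prodMap (SS.swap _ _) (Hom.id X)

/-- **`Ψ₂` is symmetric up to homotopy** -/
def htpySwap {k k' : Fin (M + 1) ↪ J} (hd : ∀ x y, k x ≠ k' y) :
    Htpy (Psi2 (Z := Z) (z₀ := z₀) k) ((Psi2 k).comp (swapB _ M)) :=
  htpyGen (invEM M) (invEM M) hd
    (fourS (SS.fst (EM M) (EM M)) (SS.snd (EM M) (EM M)))
    (relS (fourS (SS.snd (EM M) (EM M)) (SS.fst (EM M) (EM M))) swapFour)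
    (pe Equiv.boolNot (Equiv.refl Bool)) (pe (Equiv.refl Bool) Equiv.boolNot)
    (fun n g h t => by
      show four (ev ((nz M).app n ((invEM M).g.app n g)) t) _ = _
      rw [nz_neg', four_neg_left]; rfl)
    (fun n g h t => by
      show four _ (ev ((nz M).app n ((invEM M).g.app n h)) t) = _
      rw [nz_neg', four_neg_right]; rfl)
    (fun n g h t => by
      show (four _ (ev ((nz M).app n ((invEM M).g.app n g)) t)).relabel swapFour = _
      rw [nz_neg', four_neg_right]; rfl)
    (fun n g h t => by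
      show (four (ev ((nz M).app n ((invEM M).g.app n h)) t) _).relabel swapFour = _
      rw [nz_neg', four_neg_left]; rfl)
    _ _
    (fun n g h x t => ev_Psi2 k g h x t)
    (fun n g h x t => by
      show ev ((Psi2 k).app n (((proj (invEM M)).app n h, (proj (invEM M)).app n g), x)) t = _
      rw [ev_Psi2, ← mu_const_relabel _ swapFour]
      rfl)

end psi2

/-! ### the transvection -/

section trans

/-- sums of skeletal simplices -/
theorem isSk_add {M M' : ℕ} (hM : M + M ≤ M') {n : ℕ} {x y : EZ2.S n} (hx : IsSk M EZ2 x)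
    (hy : IsSk M EZ2 y) : IsSk M' EZ2 (fun i => x i + y i : EZ2.S n) := by
  classical
  obtain ⟨p, hp, f, u, rfl⟩ := hx
  obtain ⟨q, hq, f', v, rfl⟩ := hy
  let s : Op n (p + q) := ⟨fun i => ⟨(f i : ℕ) + f' i, by
    have h1 := (f i).2
    have h2 := (f' i).2
    omega⟩, fun i j hij => by
      have h1 : ((f i : Fin _) : ℕ) ≤ f j := f.monotone hij
      have h2 : ((f' i : Fin _) : ℕ) ≤ f' j := f'.monotone hij
      show (f i : ℕ) + f' i ≤ (f j : ℕ) + f' j
      omega⟩
  have hs : ∀ i j, s i = s j → u (f i) + v (f' i) = u (f j) + v (f' j) := by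
    intro i j hij
    have h0 : (f i : ℕ) + f' i = (f j : ℕ) + f' j := congrArg Fin.val hij
    have h1 : f i = f j ∧ f' i = f' j := by
      rcases le_total i j with h | h
      · have h1 : ((f i : Fin _) : ℕ) ≤ f j := f.monotone h
        have h2 : ((f' i : Fin _) : ℕ) ≤ f' j := f'.monotone h
        exact ⟨Fin.ext (by omega), Fin.ext (by omega)⟩
      · have h1 : ((f j : Fin _) : ℕ) ≤ f i := f.monotone h
        have h2 : ((f' j : Fin _) : ℕ) ≤ f' i := f'.monotone h
        exact ⟨Fin.ext (by omega), Fin.ext (by omega)⟩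
    rw [h1.1, h1.2]
  refine ⟨p + q, by omega, s,
    fun l => if h : ∃ i, s i = l then u (f h.choose) + v (f' h.choose) else 0, ?_⟩
  funext i
  show u (f i) + v (f' i) = if h : ∃ j, s j = s i then u (f h.choose) + v (f' h.choose) else 0
  have hex : ∃ j, s j = s i := ⟨i, rfl⟩
  rw [dif_pos hex]
  exact hs _ _ hex.choose_spec.symm

variable {M M' : ℕ}

/-- addition on skeleta -/
def addEM (hM : M + M ≤ M') : Hom ((EM M).prod (EM M)) (EM M') :=
  ⟨fun _ x => ⟨fun i => x.1.1 i + x.2.1 i, isSk_add hM x.1.2 x.2.2⟩, fun _ _ => rfl⟩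

/-- inclusion of skeleta -/
def inE (hM : M ≤ M') : Hom (EM M) (EM M') := skMono hM EZ2

/-- inclusion of skeleta of the classifying space -/
def inB (hM : M ≤ M') : Hom (BM M) (BM M') :=
  orbMap (invEM M) (invEM M') (inE hM) (fun _ _ => rfl)

/-- addition on skeleta of the classifying space -/
def addBM (hM : M + M ≤ M') : Hom ((BM M).prod (BM M)) (BM M') where
  app n p := Quotient.liftOn₂ (s₁ := (invEM M).rel n) (s₂ := (invEM M).rel n) p.1 p.2
    (fun g h => (proj (invEM M')).app n ((addEM hM).app n (g, h))) (by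
      have e1 : ∀ g h : (EM M).S n, (addEM hM).app n ((invEM M).g.app n g, h) =
          (invEM M').g.app n ((addEM hM).app n (g, h)) := by
        intro g h
        refine Subtype.ext (funext fun i => ?_)
        show g.1 i + 1 + h.1 i = g.1 i + h.1 i + 1
        ring
      have e2 : ∀ g h : (EM M).S n, (addEM hM).app n (g, (invEM M).g.app n h) =
          (invEM M').g.app n ((addEM hM).app n (g, h)) := by
        intro g h
        refine Subtype.ext (funext fun i => ?_)
        show g.1 i + (h.1 i + 1) = g.1 i + h.1 i + 1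
        ring
      intro a b a' b' ha hb
      rcases ha with rfl | rfl <;> rcases hb with rfl | rfl
      · rfl
      · rw [e2, proj_g]
      · rw [e1, proj_g]
      · rw [e1, e2, proj_g, proj_g])
  nat f p := by
    obtain ⟨x, y⟩ := p
    obtain ⟨g, rfl⟩ := proj_surj (invEM M) _ x
    obtain ⟨h, rfl⟩ := proj_surj (invEM M) _ y
    rfl

/-- the transvection `(x, y) ↦ (x, x + y)` -/
def phiB (hM : M + M ≤ M') : Hom ((BM M).prod (BM M)) ((BM M').prod (BM M')) :=
  SS.pair ((inB (by omega)).comp (SS.fst _ _)) (addBM hM)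

/-- the inclusion of `BM M × BM M` -/
def inBB (hM : M ≤ M') : Hom ((BM M).prod (BM M)) ((BM M').prod (BM M')) :=
  SS.prodMap (inB hM) (inB hM)

/-- `(u, v) ↦ (u, u xor v)` -/
def trFour : Four ≃ Four where
  toFun v := ⟨v.1, xor v.1 v.2⟩
  invFun v := ⟨v.1, xor v.1 v.2⟩
  left_inv v := by
    obtain ⟨u, v⟩ := v
    cases u <;> cases v <;> rfl
  right_inv v := by
    obtain ⟨u, v⟩ := v
    cases u <;> cases v <;> rfl

theorem trFour_left : (pe Equiv.boolNot (Equiv.refl Bool)).trans trFour =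
    trFour.trans (pe Equiv.boolNot Equiv.boolNot) := by
  refine Equiv.ext fun v => ?_
  obtain ⟨u, v⟩ := v
  cases u <;> cases v <;> rfl

theorem trFour_right : (pe (Equiv.refl Bool) Equiv.boolNot).trans trFour =
    trFour.trans (pe (Equiv.refl Bool) Equiv.boolNot) := by
  refine Equiv.ext fun v => ?_
  obtain ⟨u, v⟩ := v
  cases u <;> cases v <;> rfl

variable {J Z : Type} [Finite J] [TopologicalSpace Z] {z₀ : Z}

theorem nz_add_left (hM : M + M ≤ M') {n : ℕ} (g h : (EM M).S n) (t : stdSimplex ℝ (Fin (n + 1))) :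
    ev ((nz M').app n ((addEM hM).app n ((invEM M).g.app n g, h))) t =
      - ev ((nz M').app n ((addEM hM).app n (g, h))) t := by
  rw [← nz_neg']
  congr 2
  refine Subtype.ext (funext fun i => ?_)
  show g.1 i + 1 + h.1 i = g.1 i + h.1 i + 1
  ring

theorem nz_add_right (hM : M + M ≤ M') {n : ℕ} (g h : (EM M).S n) (t : stdSimplex ℝ (Fin (n + 1))) :
    ev ((nz M').app n ((addEM hM).app n (g, (invEM M).g.app n h))) t =
      - ev ((nz M').app n ((addEM hM).app n (g, h))) t := by
  rw [← nz_neg']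
  congr 2
  refine Subtype.ext (funext fun i => ?_)
  show g.1 i + (h.1 i + 1) = g.1 i + h.1 i + 1
  ring

theorem nz_in (hM : M ≤ M') {n : ℕ} (g : (EM M).S n) (t : stdSimplex ℝ (Fin (n + 1))) :
    ev ((nz M').app n ((inE hM).app n ((invEM M).g.app n g))) t =
      - ev ((nz M').app n ((inE hM).app n g)) t := by
  rw [← nz_neg']
  rfl

theorem four_neg_both (e₁ e₂ : NZ (Fin (M + 1))) :
    four (-e₁) (-e₂) = (four e₁ e₂).relabel (pe Equiv.boolNot Equiv.boolNot) := by
  rw [four_neg_left, four_neg_right]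
  rfl

/-- **`Ψ₂` is invariant under the transvection up to homotopy** -/
def htpyTrans (hM : M + M ≤ M') {k k' : Fin (M' + 1) ↪ J} (hd : ∀ x y, k x ≠ k' y) :
    Htpy ((Psi2 (Z := Z) (z₀ := z₀) k).comp (SS.prodMap (inBB (le_trans (Nat.le_add_left M M) hM)) (Hom.id _)))
      ((Psi2 k).comp (SS.prodMap (phiB hM) (Hom.id _))) :=
  have hM1 : M ≤ M' := le_trans (Nat.le_add_left M M) hM
  htpyGen (invEM M) (invEM M) hd
    (fourS ((inE hM1).comp (SS.fst (EM M) (EM M))) ((inE hM1).comp (SS.snd (EM M) (EM M))))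
    (relS (fourS ((inE hM1).comp (SS.fst (EM M) (EM M))) (addEM hM)) trFour)
    (pe Equiv.boolNot (Equiv.refl Bool)) (pe (Equiv.refl Bool) Equiv.boolNot)
    (fun n g h t => by
      show four (ev ((nz M').app n ((inE hM1).app n ((invEM M).g.app n g))) t) _ = _
      rw [nz_in, four_neg_left]; rfl)
    (fun n g h t => by
      show four _ (ev ((nz M').app n ((inE hM1).app n ((invEM M).g.app n h))) t) = _
      rw [nz_in, four_neg_right]; rfl)
    (fun n g h t => by
      show (four (ev ((nz M').app n ((inE hM1).app n ((invEM M).g.app n g))) t)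
        (ev ((nz M').app n ((addEM hM).app n ((invEM M).g.app n g, h))) t)).relabel trFour = _
      rw [nz_in, nz_add_left, four_neg_both, relabel_relabel, ← trFour_left]; rfl)
    (fun n g h t => by
      show (four _ (ev ((nz M').app n ((addEM hM).app n (g, (invEM M).g.app n h))) t)).relabel
        trFour = _
      rw [nz_add_right, four_neg_right, relabel_relabel, ← trFour_right]; rfl)
    _ _
    (fun n g h x t => ev_Psi2 k ((inE hM1).app n g) ((inE hM1).app n h) x t)
    (fun n g h x t => by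
      show ev ((Psi2 k).app n (((proj (invEM M')).app n ((inE hM1).app n g),
        (proj (invEM M')).app n ((addEM hM).app n (g, h))), x)) t = _
      rw [ev_Psi2, ← mu_const_relabel _ trFour]
      rfl)

end trans

end Crest.Agent.R204.GL2735
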