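import Crest.Agent.R204.Hsp_696

/-!
# Row 204, block C (helper696): the H-space `Ω^J Z`

* `mulH i : C(Ω^J × Ω^J, Ω^J)` : concatenation in the direction `i`
* unit, associativity, commutativity, inverse up to homotopy (relative to the base point)
* `loopLast : Ω^(Fin (J+1)) Z ≃ₜ Path const const` in `Ω^(Fin J) Z`
-/

set_option autoImplicit false
set_option linter.unusedSectionVars false

open scoped Topology unitInterval Topology.Homotopy
open Set

noncomputable section

namespace Crest.Agent.R204.Hsp696

open Cubes735 BoxConf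

variable {J Z : Type*} [TopologicalSpace Z] {z₀ : Z}

/-! ## Binary operations from configurations -/

theorem continuous_pair {P X : Type*} [TopologicalSpace P] [TopologicalSpace X] {f g : P → X}
    (hf : Continuous f) (hg : Continuous g) : Continuous fun p => (![f p, g p] : Fin 2 → X) := by
  refine continuous_pi fun v => ?_
  fin_cases v
  · exact hf
  · exact hg

theorem continuous_triple {P X : Type*} [TopologicalSpace P] [TopologicalSpace X] {f g h : P → X}
    (hf : Continuous f) (hg : Continuous g) (hh : Continuous h) :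
    Continuous fun p => (![f p, g p, h p] : Fin 3 → X) := by
  refine continuous_pi fun v => ?_
  fin_cases v
  · exact hf
  · exact hg
  · exact hh

/-- binary operation of a configuration of two boxes -/
def mu2 [Finite J] (c : BoxConf (Fin 2) J) : C((Ω^ J Z z₀) × (Ω^ J Z z₀), Ω^ J Z z₀) :=
  ⟨fun p => mu c ![p.1, p.2], continuous_mu continuous_const
    (continuous_pair continuous_fst continuous_snd)⟩

@[simp] theorem mu2_apply [Finite J] (c : BoxConf (Fin 2) J) (x y : Ω^ J Z z₀) :
    mu2 c (x, y) = mu c ![x, y] := rfl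

/-- A homotopy of continuous maps `f ≃ g` relatively to a set; uncurried data with `P = I × X`. -/
theorem homotopicRel_of {X Y : Type*} [TopologicalSpace X] [TopologicalSpace Y] {f g : C(X, Y)}
    {S : Set X} (H : I → X → Y) (hH : Continuous fun p : I × X => H p.1 p.2)
    (h0 : ∀ x, H 0 x = f x) (h1 : ∀ x, H 1 x = g x) (hS : ∀ t, ∀ x ∈ S, H t x = f x) :
    f.HomotopicRel g S :=
  ⟨{ toFun := fun p => H p.1 p.2
     continuous_toFun := hH
     map_zero_left := h0
     map_one_left := h1
     prop' := hS }⟩

/-- base point of `Ω^J × Ω^J` -/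
def bp2 : (Ω^ J Z z₀) × (Ω^ J Z z₀) := (GenLoop.const, GenLoop.const)

theorem cons_const : (![GenLoop.const, GenLoop.const] : Fin 2 → Ω^ J Z z₀) =
    fun _ => GenLoop.const := by
  funext v; fin_cases v <;> rfl

theorem cons_const3 : (![GenLoop.const, GenLoop.const, GenLoop.const] : Fin 3 → Ω^ J Z z₀) =
    fun _ => GenLoop.const := by
  funext v; fin_cases v <;> rfl

variable [Finite J]

/-- binary operations of joined configurations are homotopic rel base point -/
theorem mu2_homotopicRel {c d : BoxConf (Fin 2) J} (h : Joined c d) :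
    (mu2 c : C((Ω^ J Z z₀) × (Ω^ J Z z₀), Ω^ J Z z₀)).HomotopicRel (mu2 d) {bp2} := by
  obtain ⟨γ⟩ := h
  refine homotopicRel_of (fun t p => mu (γ t) ![p.1, p.2]) ?_ ?_ ?_ ?_
  · exact continuous_mu (γ.continuous.comp continuous_fst)
      (continuous_pair (continuous_fst.comp continuous_snd) (continuous_snd.comp continuous_snd))
  · intro p; simp [mu2]
  · intro p; simp [mu2]
  · rintro t p hp
    rw [Set.mem_singleton_iff] at hp
    subst hp
    show mu (γ t) ![GenLoop.const, GenLoop.const] = mu c ![GenLoop.const, GenLoop.const]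
    rw [cons_const, mu_const, mu_const]

/-- the swapped configuration -/
theorem mu_swap (c : BoxConf (Fin 2) J) (x y : Ω^ J Z z₀) :
    mu (c.relabel (Equiv.swap 0 1)) ![x, y] = mu c ![y, x] := by
  rw [← mu_relabel c (Equiv.swap 0 1) ![y, x]]
  congr 1
  funext v
  fin_cases v <;> simp

/-- **Homotopy commutativity** (at least two coordinates). -/
theorem mu2_comm [Nontrivial J] (c : BoxConf (Fin 2) J) :
    (mu2 c : C((Ω^ J Z z₀) × (Ω^ J Z z₀), Ω^ J Z z₀)).HomotopicRel
      ((mu2 c).comp ⟨Prod.swap, continuous_swap⟩) {bp2} := by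
  have h := mu2_homotopicRel (Z := Z) (z₀ := z₀) (joined c (c.relabel (Equiv.swap 0 1)))
  have e : (mu2 (c.relabel (Equiv.swap 0 1)) : C((Ω^ J Z z₀) × (Ω^ J Z z₀), Ω^ J Z z₀)) =
      (mu2 c).comp ⟨Prod.swap, continuous_swap⟩ := by
    ext1 p
    exact mu_swap c p.1 p.2
  rwa [e] at h

/-! ### Unit -/

theorem joined_one (c : BoxConf (Fin 1) J) : Joined c (BoxConf.one (Fin 1) J) :=
  Compat.joined fun v w h => absurd (Subsingleton.elim v w) h

/-- **Left unit up to homotopy**: `mu c (const, x) ≃ x`. -/
theorem mu2_const_left (c : BoxConf (Fin 2) J) :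
    ((mu2 c).comp ⟨fun x : Ω^ J Z z₀ => (GenLoop.const, x), by fun_prop⟩).HomotopicRel
      (ContinuousMap.id _) {GenLoop.const} := by
  let e : Fin 1 ↪ Fin 2 := ⟨fun _ => 1, fun a b _ => Subsingleton.elim a b⟩
  have key : ∀ x : Ω^ J Z z₀, mu c ![GenLoop.const, x] = mu (c.restrict e) (fun _ => x) := by
    intro x
    rw [← mu_restrict c e ![GenLoop.const, x]]
    · rfl
    · intro v hv
      fin_cases v
      · rfl
      · exact absurd ⟨0, rfl⟩ hv
  obtain ⟨γ⟩ := joined_one (c.restrict e)
  refine homotopicRel_of (fun t x => mu (γ t) (fun _ => x)) ?_ ?_ ?_ ?_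
  · exact continuous_mu (γ.continuous.comp continuous_fst)
      (continuous_pi fun _ => continuous_snd)
  · intro x
    show mu (γ 0) _ = mu c ![GenLoop.const, x]
    rw [key, γ.source]
  · intro x
    show mu (γ 1) _ = x
    rw [γ.target, mu_one]
  · rintro t x hx
    rw [Set.mem_singleton_iff] at hx
    subst hx
    show mu (γ t) (fun _ => GenLoop.const) = mu c ![GenLoop.const, GenLoop.const]
    rw [cons_const, mu_const, mu_const]

/-- **Right unit up to homotopy**: `mu c (x, const) ≃ x`. -/
theorem mu2_const_right (c : BoxConf (Fin 2) J) :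
    ((mu2 c).comp ⟨fun x : Ω^ J Z z₀ => (x, GenLoop.const), by fun_prop⟩).HomotopicRel
      (ContinuousMap.id _) {GenLoop.const} := by
  have h := mu2_const_left (Z := Z) (z₀ := z₀) (c.relabel (Equiv.swap 0 1))
  have e : ((mu2 (c.relabel (Equiv.swap 0 1))).comp
      ⟨fun x : Ω^ J Z z₀ => (GenLoop.const, x), by fun_prop⟩ : C(Ω^ J Z z₀, Ω^ J Z z₀)) =
      ((mu2 c).comp ⟨fun x : Ω^ J Z z₀ => (x, GenLoop.const), by fun_prop⟩) := by
    ext1 x
    exact mu_swap c GenLoop.const x
  rwa [e] at h

/-! ### Associativity -/

section Assoc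

/-- The configuration of three boxes computing `c (d (x, y), z)`. -/
def assocL (c d : BoxConf (Fin 2) J) : BoxConf (Fin 3) J :=
  BoxConf.mk'
    (fun v j => if v = 0 then c.a 0 j + c.r 0 j * d.a 0 j
      else if v = 1 then c.a 0 j + c.r 0 j * d.a 1 j else c.a 1 j)
    (fun v j => if v = 0 then c.r 0 j * d.r 0 j
      else if v = 1 then c.r 0 j * d.r 1 j else c.r 1 j)
    (fun v j => by
      have h1 := c.a_nonneg 0 j
      have h2 := c.r_pos 0 j
      have h3 := c.add_le 0 j
      have h1' := c.a_nonneg 1 j
      have h2' := c.r_pos 1 j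
      have h3' := c.add_le 1 j
      have k1 := d.a_nonneg 0 j
      have k2 := d.r_pos 0 j
      have k3 := d.add_le 0 j
      have l1 := d.a_nonneg 1 j
      have l2 := d.r_pos 1 j
      have l3 := d.add_le 1 j
      fin_cases v
      · simp only [Fin.zero_eta, if_true]
        refine ⟨by positivity, by positivity, ?_⟩
        nlinarith
      · simp only [Fin.mk_one, Fin.isValue, one_ne_zero, if_false, if_true]
        refine ⟨by positivity, by positivity, ?_⟩
        nlinarith
      · simp only [Fin.reduceFinMk, Fin.isValue, Fin.reduceEq, if_false]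
        exact ⟨h1', h2', h3'⟩)
    (by
      have hc := c.sep (v := 0) (w := 1) (by decide)
      have hd := d.sep (v := 0) (w := 1) (by decide)
      have h01 : ∃ j, (c.a 0 j + c.r 0 j * d.a 0 j) + c.r 0 j * d.r 0 j ≤
            c.a 0 j + c.r 0 j * d.a 1 j ∨
          (c.a 0 j + c.r 0 j * d.a 1 j) + c.r 0 j * d.r 1 j ≤ c.a 0 j + c.r 0 j * d.a 0 j := by
        obtain ⟨j, hj⟩ := hd
        have h2 := c.r_pos 0 j
        refine ⟨j, ?_⟩
        rcases hj with hj | hj
        · left; nlinarith
        · right; nlinarith
      have h02 : ∃ j, (c.a 0 j + c.r 0 j * d.a 0 j) + c.r 0 j * d.r 0 j ≤ c.a 1 j ∨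
          c.a 1 j + c.r 1 j ≤ c.a 0 j + c.r 0 j * d.a 0 j := by
        obtain ⟨j, hj⟩ := hc
        have h2 := c.r_pos 0 j
        have k1 := d.a_nonneg 0 j
        have k3 := d.add_le 0 j
        refine ⟨j, ?_⟩
        rcases hj with hj | hj
        · left; nlinarith
        · right; nlinarith [mul_nonneg h2.le k1]
      have h12 : ∃ j, (c.a 0 j + c.r 0 j * d.a 1 j) + c.r 0 j * d.r 1 j ≤ c.a 1 j ∨
          c.a 1 j + c.r 1 j ≤ c.a 0 j + c.r 0 j * d.a 1 j := by
        obtain ⟨j, hj⟩ := hc
        have h2 := c.r_pos 0 j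
        have k1 := d.a_nonneg 1 j
        have k3 := d.add_le 1 j
        refine ⟨j, ?_⟩
        rcases hj with hj | hj
        · left; nlinarith
        · right; nlinarith [mul_nonneg h2.le k1]
      intro v w hvw
      fin_cases v <;> fin_cases w
      · exact absurd rfl hvw
      · simpa using h01
      · simpa using h02
      · obtain ⟨j, hj⟩ := h01; exact ⟨j, by simpa using hj.symm⟩
      · exact absurd rfl hvw
      · simpa using h12
      · obtain ⟨j, hj⟩ := h02; exact ⟨j, by simpa using hj.symm⟩
      · obtain ⟨j, hj⟩ := h12; exact ⟨j, by simpa using hj.symm⟩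
      · exact absurd rfl hvw)

theorem resc_assocL0 (c d : BoxConf (Fin 2) J) (t : J → ℝ) :
    (assocL c d).resc 0 t = d.resc 0 (c.resc 0 t) := by
  funext j
  have h2 := (c.r_pos 0 j).ne'
  have k2 := (d.r_pos 0 j).ne'
  show (t j - (c.a 0 j + c.r 0 j * d.a 0 j)) / (c.r 0 j * d.r 0 j) =
    ((t j - c.a 0 j) / c.r 0 j - d.a 0 j) / d.r 0 j
  field_simp
  ring

theorem resc_assocL1 (c d : BoxConf (Fin 2) J) (t : J → ℝ) :
    (assocL c d).resc 1 t = d.resc 1 (c.resc 0 t) := by
  funext j
  have h2 := (c.r_pos 0 j).ne'
  have k2 := (d.r_pos 1 j).ne'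
  show (t j - (c.a 0 j + c.r 0 j * d.a 1 j)) / (c.r 0 j * d.r 1 j) =
    ((t j - c.a 0 j) / c.r 0 j - d.a 1 j) / d.r 1 j
  field_simp
  ring

theorem resc_assocL2 (c d : BoxConf (Fin 2) J) (t : J → ℝ) :
    (assocL c d).resc 2 t = c.resc 1 t := rfl

theorem inside_of_resc (c : BoxConf (Fin 2) J) {v : Fin 2} {t : J → ℝ} (d : BoxConf (Fin 2) J)
    {w : Fin 2} (h : d.inside w (c.resc v t)) : c.inside v t := by
  rw [BoxConf.inside_iff]
  intro j
  have h1 := h j
  have h4 := d.a_nonneg w j
  have h6 := d.add_le w j
  constructor <;> linarith [h1.1, h1.2]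

/-- `(x y) z` as a ternary operation -/
theorem mu_assocL (c d : BoxConf (Fin 2) J) (x y z : Ω^ J Z z₀) :
    mu (assocL c d) ![x, y, z] = mu c ![mu d ![x, y], z] := by
  ext t
  rw [mu_apply, mu_apply]
  refine muFun_eq (fun v hv => ?_) (fun h => ?_)
  · fin_cases v
    · have h0 : d.inside 0 (c.resc 0 fun j => ((t j : I) : ℝ)) := by
        rw [BoxConf.inside_iff] at hv ⊢
        intro j; have := hv j; simp only [Fin.zero_eta] at this; rwa [resc_assocL0] at this
      rw [muFun_of_inside c _ (inside_of_resc c d h0)]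
      show ext0 (mu d ![x, y]) _ = ext0 x _
      rw [ext0_mu, muFun_of_inside d _ h0]
      simp only [Fin.zero_eta]
      rw [resc_assocL0]; rfl
    · have h0 : d.inside 1 (c.resc 0 fun j => ((t j : I) : ℝ)) := by
        rw [BoxConf.inside_iff] at hv ⊢
        intro j; have := hv j; simp only [Fin.mk_one] at this; rwa [resc_assocL1] at this
      rw [muFun_of_inside c _ (inside_of_resc c d h0)]
      show ext0 (mu d ![x, y]) _ = ext0 y _
      rw [ext0_mu, muFun_of_inside d _ h0]
      simp only [Fin.mk_one]
      rw [resc_assocL1]; rfl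
    · have h0 : c.inside 1 (fun j => ((t j : I) : ℝ)) := hv
      rw [muFun_of_inside c _ h0]
      rfl
  · refine muFun_eq (fun v hv => ?_) (fun _ => rfl)
    fin_cases v
    · show z₀ = ext0 (mu d ![x, y]) _
      rw [ext0_mu, muFun_of_not]
      intro w hw
      fin_cases w
      · apply h 0
        rw [BoxConf.inside_iff] at hw ⊢
        intro j; rw [resc_assocL0]; exact hw j
      · apply h 1
        rw [BoxConf.inside_iff] at hw ⊢
        intro j; rw [resc_assocL1]; exact hw j
    · exact absurd hv (h 2)

/-- relabelling `0 ↦ 2`, `1 ↦ 1`, `2 ↦ 0` reversed -/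
def rev3 : Fin 3 ≃ Fin 3 := Fin.revPerm

/-- The configuration of three boxes computing `c (x, d (y, z))`. -/
def assocR (c d : BoxConf (Fin 2) J) : BoxConf (Fin 3) J :=
  (assocL (c.relabel (Equiv.swap 0 1)) (d.relabel (Equiv.swap 0 1))).relabel rev3

theorem mu_assocR (c d : BoxConf (Fin 2) J) (x y z : Ω^ J Z z₀) :
    mu (assocR c d) ![x, y, z] = mu c ![x, mu d ![y, z]] := by
  have e : (![x, y, z] : Fin 3 → Ω^ J Z z₀) = fun v => ![z, y, x] (rev3 v) := by
    funext v; fin_cases v <;> rfl
  unfold assocR
  rw [e, mu_relabel, mu_assocL, mu_swap, mu_swap]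

/-- **Homotopy associativity** when the two bracketings are joined. -/
theorem mu2_assoc' (c : BoxConf (Fin 2) J) (h : Joined (assocL c c) (assocR c c)) :
    (⟨fun p => mu c ![mu c ![p.1.1, p.1.2], p.2], by
        refine continuous_mu continuous_const (continuous_pair (continuous_mu continuous_const
          (continuous_pair (by fun_prop) (by fun_prop))) (by fun_prop))⟩ :
      C(((Ω^ J Z z₀) × (Ω^ J Z z₀)) × (Ω^ J Z z₀), Ω^ J Z z₀)).HomotopicRel
    ⟨fun p => mu c ![p.1.1, mu c ![p.1.2, p.2]], by
        refine continuous_mu continuous_const (continuous_pair (by fun_prop)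
          (continuous_mu continuous_const (continuous_pair (by fun_prop) (by fun_prop))))⟩
    {((GenLoop.const, GenLoop.const), GenLoop.const)} := by
  obtain ⟨γ⟩ := h
  refine homotopicRel_of (fun t p => mu (γ t) ![p.1.1, p.1.2, p.2]) ?_ ?_ ?_ ?_
  · exact continuous_mu (γ.continuous.comp continuous_fst)
      (continuous_triple (by fun_prop) (by fun_prop) (by fun_prop))
  · intro p
    show mu (γ 0) _ = mu c ![mu c ![p.1.1, p.1.2], p.2]
    rw [γ.source, mu_assocL]
  · intro p
    show mu (γ 1) _ = mu c ![p.1.1, mu c ![p.1.2, p.2]]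
    rw [γ.target, mu_assocR]
  · rintro t p hp
    rw [Set.mem_singleton_iff] at hp
    subst hp
    show mu (γ t) ![GenLoop.const, GenLoop.const, GenLoop.const] =
      mu c ![mu c ![GenLoop.const, GenLoop.const], GenLoop.const]
    rw [cons_const3, mu_const, cons_const, mu_const, cons_const, mu_const]

/-- `(x y) z` -/
def mulL (c : BoxConf (Fin 2) J) :
    C(((Ω^ J Z z₀) × (Ω^ J Z z₀)) × (Ω^ J Z z₀), Ω^ J Z z₀) :=
  ⟨fun p => mu c ![mu c ![p.1.1, p.1.2], p.2], by
    refine continuous_mu continuous_const (continuous_pair (continuous_mu continuous_const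
      (continuous_pair (by fun_prop) (by fun_prop))) (by fun_prop))⟩

/-- `x (y z)` -/
def mulR (c : BoxConf (Fin 2) J) :
    C(((Ω^ J Z z₀) × (Ω^ J Z z₀)) × (Ω^ J Z z₀), Ω^ J Z z₀) :=
  ⟨fun p => mu c ![p.1.1, mu c ![p.1.2, p.2]], by
    refine continuous_mu continuous_const (continuous_pair (by fun_prop)
      (continuous_mu continuous_const (continuous_pair (by fun_prop) (by fun_prop))))⟩

/-- **Homotopy associativity**, at least two coordinates. -/
theorem mu2_assoc [Nontrivial J] (c : BoxConf (Fin 2) J) :
    (mulL c : C(((Ω^ J Z z₀) × (Ω^ J Z z₀)) × (Ω^ J Z z₀), Ω^ J Z z₀)).HomotopicRel (mulR c)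
      {((GenLoop.const, GenLoop.const), GenLoop.const)} :=
  mu2_assoc' (Z := Z) (z₀ := z₀) c (joined _ _)

/-- **Homotopy associativity of loop concatenation**, any number of coordinates. -/
theorem halves_assoc [DecidableEq J] (i : J) :
    Joined (assocL (halves i) (halves i)) (assocR (halves i) (halves i)) := by
  apply Compat.joined
  apply Compat.of_coord i
  have l0 : (assocL (halves i) (halves i)).a 0 i = 0 := by
    simp [assocL, halves_a, halves_r]
  have l0' : (assocL (halves i) (halves i)).r 0 i = 1 / 4 := by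
    simp [assocL, halves_a, halves_r]; norm_num
  have l1 : (assocL (halves i) (halves i)).a 1 i = 1 / 4 := by
    simp [assocL, halves_a, halves_r]; norm_num
  have l1' : (assocL (halves i) (halves i)).r 1 i = 1 / 4 := by
    simp [assocL, halves_a, halves_r]; norm_num
  have l2 : (assocL (halves i) (halves i)).a 2 i = 1 / 2 := by
    simp [assocL, halves_a, halves_r]
  have l2' : (assocL (halves i) (halves i)).r 2 i = 1 / 2 := by
    simp [assocL, halves_a, halves_r]
  have r0 : (assocR (halves i) (halves i)).a 0 i = 0 := by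
    simp [assocR, assocL, BoxConf.relabel, rev3, halves_a, halves_r]
  have r0' : (assocR (halves i) (halves i)).r 0 i = 1 / 2 := by
    simp [assocR, assocL, BoxConf.relabel, rev3, halves_a, halves_r]
  have r1 : (assocR (halves i) (halves i)).a 1 i = 1 / 2 := by
    simp [assocR, assocL, BoxConf.relabel, rev3, halves_a, halves_r]
  have r1' : (assocR (halves i) (halves i)).r 1 i = 1 / 4 := by
    simp [assocR, assocL, BoxConf.relabel, rev3, halves_a, halves_r]; norm_num
  have r2 : (assocR (halves i) (halves i)).a 2 i = 3 / 4 := by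
    simp [assocR, assocL, BoxConf.relabel, rev3, halves_a, halves_r]; norm_num
  have r2' : (assocR (halves i) (halves i)).r 2 i = 1 / 4 := by
    simp [assocR, assocL, BoxConf.relabel, rev3, halves_a, halves_r]; norm_num
  intro v w hvw
  fin_cases v <;> fin_cases w
  · exact absurd rfl hvw
  · left
    show _ + (assocL (halves i) (halves i)).r 0 i ≤ (assocL (halves i) (halves i)).a 1 i ∧
      _ + (assocR (halves i) (halves i)).r 0 i ≤ (assocR (halves i) (halves i)).a 1 i
    rw [l1, l0', r1, r0']
    show (assocL (halves i) (halves i)).a 0 i + _ ≤ _ ∧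
      (assocR (halves i) (halves i)).a 0 i + _ ≤ _
    rw [l0, r0]; norm_num
  · left
    show (assocL (halves i) (halves i)).a 0 i + (assocL (halves i) (halves i)).r 0 i ≤
        (assocL (halves i) (halves i)).a 2 i ∧
      (assocR (halves i) (halves i)).a 0 i + (assocR (halves i) (halves i)).r 0 i ≤
        (assocR (halves i) (halves i)).a 2 i
    rw [l0, l0', l2, r0, r0', r2]; norm_num
  · right
    show (assocL (halves i) (halves i)).a 0 i + (assocL (halves i) (halves i)).r 0 i ≤
        (assocL (halves i) (halves i)).a 1 i ∧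
      (assocR (halves i) (halves i)).a 0 i + (assocR (halves i) (halves i)).r 0 i ≤
        (assocR (halves i) (halves i)).a 1 i
    rw [l0, l0', l1, r0, r0', r1]; norm_num
  · exact absurd rfl hvw
  · left
    show (assocL (halves i) (halves i)).a 1 i + (assocL (halves i) (halves i)).r 1 i ≤
        (assocL (halves i) (halves i)).a 2 i ∧
      (assocR (halves i) (halves i)).a 1 i + (assocR (halves i) (halves i)).r 1 i ≤
        (assocR (halves i) (halves i)).a 2 i
    rw [l1, l1', l2, r1, r1', r2]; norm_num
  · right
    show (assocL (halves i) (halves i)).a 0 i + (assocL (halves i) (halves i)).r 0 i ≤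
        (assocL (halves i) (halves i)).a 2 i ∧
      (assocR (halves i) (halves i)).a 0 i + (assocR (halves i) (halves i)).r 0 i ≤
        (assocR (halves i) (halves i)).a 2 i
    rw [l0, l0', l2, r0, r0', r2]; norm_num
  · right
    show (assocL (halves i) (halves i)).a 1 i + (assocL (halves i) (halves i)).r 1 i ≤
        (assocL (halves i) (halves i)).a 2 i ∧
      (assocR (halves i) (halves i)).a 1 i + (assocR (halves i) (halves i)).r 1 i ≤
        (assocR (halves i) (halves i)).a 2 i
    rw [l1, l1', l2, r1, r1', r2]; norm_num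
  · exact absurd rfl hvw

end Assoc

/-! ### Inverse -/

section Inverse

variable [DecidableEq J]

/-- reversal as a continuous map -/
theorem continuous_symmAt (i : J) : Continuous (GenLoop.symmAt (X := Z) (x := z₀) i) := by
  rw [continuous_genLoop_iff]
  have : (fun p : (Ω^ J Z z₀) × (J → I) => GenLoop.symmAt i p.1 p.2) =
      fun p => p.1 (fun j => if j = i then unitInterval.symm (p.2 i) else p.2 j) := by
    funext p
    unfold GenLoop.symmAt
    rw [GenLoop.coe_copy]
  rw [this]
  refine Continuous.eval continuous_fst (continuous_pi fun j => ?_)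
  by_cases hj : j = i
  · simp only [hj, if_true]
    exact unitInterval.continuous_symm.comp ((continuous_apply i).comp continuous_snd)
  · simp only [hj, if_false]
    exact (continuous_apply j).comp continuous_snd

/-- the tent function -/
def tent (s : ℝ) : ℝ := 1 - |2 * s - 1|

theorem continuous_tent : Continuous tent := by unfold tent; fun_prop

/-- the contraction of `x · x⁻¹` -/
def contr (i : J) (τ : I) (x : Ω^ J Z z₀) : Ω^ J Z z₀ :=
  ⟨⟨fun t => x (Function.update t i (clampI ((1 - (τ : ℝ)) * tent (t i)))), by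
      refine Continuous.eval continuous_const ?_
      refine Continuous.update continuous_id i ?_
      refine continuous_clampI.comp ?_
      refine continuous_const.mul (continuous_tent.comp ?_)
      exact continuous_subtype_val.comp (continuous_apply i)⟩, by
    rintro t ⟨j, hj⟩
    show x _ = z₀
    apply GenLoop.boundary
    by_cases h : j = i
    · subst h
      refine ⟨j, Or.inl ?_⟩
      rw [Function.update_self]
      apply clampI_of_le
      have : tent (t j) = 0 := by
        rcases hj with hj | hj <;> rw [hj] <;> norm_num [tent]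
      rw [this, mul_zero]
    · exact ⟨j, by rw [Function.update_of_ne h]; exact hj⟩⟩

theorem contr_apply (i : J) (τ : I) (x : Ω^ J Z z₀) (t : J → I) :
    contr i τ x t = x (Function.update t i (clampI ((1 - (τ : ℝ)) * tent (t i)))) := rfl

theorem continuous_contr (i : J) :
    Continuous fun p : I × (Ω^ J Z z₀) => contr i p.1 p.2 := by
  rw [continuous_genLoop_iff]
  simp only [contr_apply]
  refine Continuous.eval (by fun_prop) ?_
  refine Continuous.update (by fun_prop) i ?_
  refine continuous_clampI.comp ?_
  refine Continuous.mul ?_ (continuous_tent.comp ?_)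
  · exact continuous_const.sub (continuous_subtype_val.comp (continuous_fst.comp continuous_fst))
  · exact continuous_subtype_val.comp ((continuous_apply i).comp continuous_snd)

theorem contr_zero (i : J) (x : Ω^ J Z z₀) :
    contr i 0 x = mu (halves i) ![x, GenLoop.symmAt i x] := by
  rw [mu_halves]
  ext t
  unfold GenLoop.transAt GenLoop.symmAt
  rw [GenLoop.coe_copy, contr_apply]
  by_cases h : ((t i : I) : ℝ) ≤ 1 / 2
  · simp only [h, if_true]
    congr 1
    congr 1
    show clampI _ = clampI _
    congr 1
    unfold tent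
    rw [abs_of_nonpos (by linarith)]
    simp
  · simp only [h, if_false]
    push Not at h
    rw [GenLoop.coe_copy]
    congr 1
    funext j
    by_cases hj : j = i
    · subst hj
      simp only [Function.update_self, if_true]
      apply Subtype.ext
      have h1 := (t j).2.2
      have e1 : (0:ℝ) ≤ (1 - ((0 : I) : ℝ)) * tent (t j) := by
        unfold tent
        rw [abs_of_nonneg (by linarith)]
        simp
        linarith
      have e2 : (1 - ((0 : I) : ℝ)) * tent (t j) ≤ 1 := by
        unfold tent
        rw [abs_of_nonneg (by linarith)]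
        simp
        linarith
      rw [coe_clampI e1 e2, unitInterval.coe_symm_eq]
      have : ((Set.projIcc 0 1 zero_le_one (2 * (t j : ℝ) - 1) : I) : ℝ) = 2 * (t j : ℝ) - 1 :=
        coe_clampI (by linarith) (by linarith)
      rw [this]
      unfold tent
      rw [abs_of_nonneg (by linarith)]
      simp
    · simp only [Function.update_of_ne hj, hj, if_false]

theorem contr_one (i : J) (x : Ω^ J Z z₀) : contr i 1 x = GenLoop.const := by
  ext t
  rw [contr_apply]
  show _ = z₀
  apply GenLoop.boundary
  refine ⟨i, Or.inl ?_⟩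
  rw [Function.update_self]
  apply clampI_of_le
  simp

/-- **Right inverse up to homotopy.** -/
theorem mul_inv_homotopic (i : J) :
    ((mu2 (halves i)).comp ⟨fun x : Ω^ J Z z₀ => (x, GenLoop.symmAt i x),
        continuous_id.prodMk (continuous_symmAt i)⟩).HomotopicRel
      (ContinuousMap.const _ GenLoop.const) {GenLoop.const} := by
  refine homotopicRel_of (fun t x => contr i t x) (continuous_contr i) ?_ ?_ ?_
  · intro x; exact contr_zero i x
  · intro x; exact contr_one i x
  · rintro t x hx
    rw [Set.mem_singleton_iff] at hx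
    subst hx
    show contr i t GenLoop.const = mu (halves i) ![GenLoop.const, GenLoop.symmAt i GenLoop.const]
    rw [← contr_zero]
    rfl

theorem symmAt_symmAt (i : J) (x : Ω^ J Z z₀) : GenLoop.symmAt i (GenLoop.symmAt i x) = x := by
  ext t
  unfold GenLoop.symmAt
  rw [GenLoop.coe_copy, GenLoop.coe_copy]
  congr 1
  funext j
  by_cases hj : j = i
  · subst hj; simp
  · simp [hj]

@[simp] theorem symmAt_const (i : J) :
    GenLoop.symmAt i (GenLoop.const : Ω^ J Z z₀) = GenLoop.const := by
  ext t
  unfold GenLoop.symmAt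
  rw [GenLoop.coe_copy]
  rfl

/-- **Left inverse up to homotopy.** -/
theorem inv_mul_homotopic (i : J) :
    ((mu2 (halves i)).comp ⟨fun x : Ω^ J Z z₀ => (GenLoop.symmAt i x, x),
        (continuous_symmAt i).prodMk continuous_id⟩).HomotopicRel
      (ContinuousMap.const _ GenLoop.const) {GenLoop.const} := by
  refine homotopicRel_of (fun t x => contr i t (GenLoop.symmAt i x)) ?_ ?_ ?_ ?_
  · exact (continuous_contr i).comp (continuous_fst.prodMk
      ((continuous_symmAt i).comp continuous_snd))
  · intro x
    show _ = mu (halves i) ![GenLoop.symmAt i x, x]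
    rw [contr_zero, symmAt_symmAt]
  · intro x; exact contr_one i _
  · rintro t x hx
    rw [Set.mem_singleton_iff] at hx
    subst hx
    show contr i t (GenLoop.symmAt i GenLoop.const) =
      mu (halves i) ![GenLoop.symmAt i GenLoop.const, GenLoop.const]
    rw [symmAt_const, cons_const, mu_const]
    rfl

end Inverse

end Crest.Agent.R204.Hsp696
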