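import Crest.Agent.R204.GL2B_735
import Crest.Agent.R204.ThAlg_265
import Crest.Agent.R204.Hsp2_696

/-!
# Row 204, block C (helper735): the laws `GLswap`, `GLshear`, `Vertex` of the `Θ`-algebra
`Sing (Ω^J Z)` (interface of helper265, `ThAlg_265`)
-/

set_option autoImplicit false
set_option linter.unusedSectionVars false

open scoped Topology Topology.Homotopy

noncomputable section

namespace Crest.Agent.R204.GL2735

open SS SingAct265 Cubes735 DK742 ThetaSS265 Htpy761 ThAlg265

variable {J Z : Type} [Finite J] [TopologicalSpace Z] {z₀ : Z} {M : ℕ}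

/-- reassociation -/
def asc (A B C : SS) : Hom (A.prod (B.prod C)) ((A.prod B).prod C) :=
  ⟨fun _ p => ((p.1, p.2.1), p.2.2), fun _ _ => rfl⟩

/-- reassociation -/
def ascI (A B C : SS) : Hom ((A.prod B).prod C) (A.prod (B.prod C)) :=
  ⟨fun _ p => (p.1.1, (p.1.2, p.2)), fun _ _ => rfl⟩

theorem ascI_asc (A B C : SS) : (ascI A B C).comp (asc A B C) = Hom.id _ := rfl

/-- `Psi2` of the `Θ`-algebra in terms of boxes -/
theorem ev_omPsi2 (k : Fin (M + 1) ↪ J)
    (mu : Hom ((Sing (Om J Z z₀)).prod (Sing (Om J Z z₀))) (Sing (Om J Z z₀)))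
    {m m' : ℕ} (h : m ≤ M) (h' : m' ≤ M) {n : ℕ} (g : (EM m).S n) (g' : (EM m').S n)
    (x : (Sing (Om J Z z₀)).S n) (t : stdSimplex ℝ (Fin (n + 1))) :
    ev (((omAlg k mu).Psi2 h h').app n
      ((proj (invEM m)).app n g, ((proj (invEM m')).app n g', x))) t =
      Cubes735.mu ((four (ev ((nz M).app n ((skMono h EZ2).app n g)) t)
        (ev ((nz M).app n ((skMono h' EZ2).app n g')) t)).extend k) (fun _ => ev x t) := by
  exact ev_Psi2 k ((skMono h EZ2).app n g) ((skMono h' EZ2).app n g') x t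

theorem nz_mono {m : ℕ} (h : m ≤ M) {n : ℕ} (g : (EM m).S n) (t : stdSimplex ℝ (Fin (n + 1))) :
    ev ((nz M).app n ((skMono h EZ2).app n ((invEM m).g.app n g))) t =
      - ev ((nz M).app n ((skMono h EZ2).app n g)) t :=
  nz_neg M ((skMono h EZ2).app n g) t

/-- **swap invariance** -/
theorem omAlg_GLswap {k k' : Fin (M + 1) ↪ J} (hd : ∀ x y, k x ≠ k' y)
    (mu : Hom ((Sing (Om J Z z₀)).prod (Sing (Om J Z z₀))) (Sing (Om J Z z₀))) (m m' : ℕ) :
    (omAlg k mu).GLswap m m' := by
  intro h h'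
  have key : SH (((omAlg k mu).Psi2 h h').comp (ascI (BM m) (BM m') _))
      ((((omAlg k mu).Psi2 h' h).comp (ThAlg.swap12 (BM m) (BM m') (Sing (Om J Z z₀)))).comp
        (ascI (BM m) (BM m') _)) := by
    refine SH.of (htpyGen (invEM m) (invEM m') hd
      (fourS ((skMono h EZ2).comp (SS.fst (EM m) (EM m')))
        ((skMono h' EZ2).comp (SS.snd (EM m) (EM m'))))
      (relS (fourS ((skMono h' EZ2).comp (SS.snd (EM m) (EM m')))
        ((skMono h EZ2).comp (SS.fst (EM m) (EM m')))) swapFour)
      (pe Equiv.boolNot (Equiv.refl Bool)) (pe (Equiv.refl Bool) Equiv.boolNot)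
      ?_ ?_ ?_ ?_ _ _ ?_ ?_)
    · intro n g g' t
      show four (ev ((nz M).app n ((skMono h EZ2).app n ((invEM m).g.app n g))) t) _ = _
      rw [nz_mono, four_neg_left]; rfl
    · intro n g g' t
      show four _ (ev ((nz M).app n ((skMono h' EZ2).app n ((invEM m').g.app n g'))) t) = _
      rw [nz_mono, four_neg_right]; rfl
    · intro n g g' t
      show (four _ (ev ((nz M).app n ((skMono h EZ2).app n ((invEM m).g.app n g))) t)).relabel
        swapFour = _
      rw [nz_mono, four_neg_right]; rfl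
    · intro n g g' t
      show (four (ev ((nz M).app n ((skMono h' EZ2).app n ((invEM m').g.app n g'))) t) _).relabel
        swapFour = _
      rw [nz_mono, four_neg_left]; rfl
    · intro n g g' x t
      exact ev_omPsi2 k mu h h' g g' x t
    · intro n g g' x t
      refine (ev_omPsi2 k mu h' h g' g x t).trans ?_
      rw [← mu_const_relabel _ swapFour]
      rfl
  exact (key.pre (asc (BM m) (BM m') _)).symm

theorem nz_sum_left {m m' : ℕ} (h'' : m + m' ≤ M) {n : ℕ} (g : (EM m).S n) (g' : (EM m').S n)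
    (t : stdSimplex ℝ (Fin (n + 1))) :
    ev ((nz M).app n ((skMono h'' EZ2).app n ((ThAlg265.addE m m').app n
      ((invEM m).g.app n g, g')))) t =
      - ev ((nz M).app n ((skMono h'' EZ2).app n ((ThAlg265.addE m m').app n (g, g')))) t := by
  rw [addE_inv_left]
  exact nz_mono h'' _ t

theorem nz_sum_right {m m' : ℕ} (h'' : m + m' ≤ M) {n : ℕ} (g : (EM m).S n) (g' : (EM m').S n)
    (t : stdSimplex ℝ (Fin (n + 1))) :
    ev ((nz M).app n ((skMono h'' EZ2).app n ((ThAlg265.addE m m').app n
      (g, (invEM m').g.app n g')))) t =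
      - ev ((nz M).app n ((skMono h'' EZ2).app n ((ThAlg265.addE m m').app n (g, g')))) t := by
  rw [addE_inv_right]
  exact nz_mono h'' _ t

/-- **shear invariance** -/
theorem omAlg_GLshear {k k' : Fin (M + 1) ↪ J} (hd : ∀ x y, k x ≠ k' y)
    (mu : Hom ((Sing (Om J Z z₀)).prod (Sing (Om J Z z₀))) (Sing (Om J Z z₀))) (m m' : ℕ) :
    (omAlg k mu).GLshear m m' := by
  intro h h' h''
  have key : SH (((omAlg k mu).Psi2 h h').comp (ascI (BM m) (BM m') _))
      ((((omAlg k mu).Psi2 h h'').comp (ThAlg.shear m m' (Sing (Om J Z z₀)))).comp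
        (ascI (BM m) (BM m') _)) := by
    refine SH.of (htpyGen (invEM m) (invEM m') hd
      (fourS ((skMono h EZ2).comp (SS.fst (EM m) (EM m')))
        ((skMono h' EZ2).comp (SS.snd (EM m) (EM m'))))
      (relS (fourS ((skMono h EZ2).comp (SS.fst (EM m) (EM m')))
        ((skMono h'' EZ2).comp (ThAlg265.addE m m'))) trFour)
      (pe Equiv.boolNot (Equiv.refl Bool)) (pe (Equiv.refl Bool) Equiv.boolNot)
      ?_ ?_ ?_ ?_ _ _ ?_ ?_)
    · intro n g g' t
      show four (ev ((nz M).app n ((skMono h EZ2).app n ((invEM m).g.app n g))) t) _ = _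
      rw [nz_mono, four_neg_left]; rfl
    · intro n g g' t
      show four _ (ev ((nz M).app n ((skMono h' EZ2).app n ((invEM m').g.app n g'))) t) = _
      rw [nz_mono, four_neg_right]; rfl
    · intro n g g' t
      show (four (ev ((nz M).app n ((skMono h EZ2).app n ((invEM m).g.app n g))) t)
        (ev ((nz M).app n ((skMono h'' EZ2).app n ((ThAlg265.addE m m').app n
          ((invEM m).g.app n g, g')))) t)).relabel trFour = _
      rw [nz_mono, nz_sum_left, four_neg_both, relabel_relabel, ← trFour_left]; rfl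
    · intro n g g' t
      show (four _ (ev ((nz M).app n ((skMono h'' EZ2).app n ((ThAlg265.addE m m').app n
          (g, (invEM m').g.app n g')))) t)).relabel trFour = _
      rw [nz_sum_right, four_neg_right, relabel_relabel, ← trFour_right]; rfl
    · intro n g g' x t
      exact ev_omPsi2 k mu h h' g g' x t
    · intro n g g' x t
      refine (ev_omPsi2 k mu h h'' g ((ThAlg265.addE m m').app n (g, g')) x t).trans ?_
      rw [← mu_const_relabel _ trFour]
      rfl
  exact (key.pre (asc (BM m) (BM m') _)).symm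

/-! ### the vertex law -/

/-- the point of the punctured space attached to the vertex `e_0` -/
def nz0 (M : ℕ) : NZ (Fin (M + 1)) := ⟨fun _ => 1, fun h => by
  have := congrFun h 0
  simp at this⟩

theorem ev_nz_e0 (M n : ℕ) (t : stdSimplex ℝ (Fin (n + 1))) :
    ev ((nz M).app n (e0 M n)) t = nz0 M := by
  apply Subtype.ext
  rw [ev_nz]
  funext j
  show Moment265.MF (fun s => s ^ ((j : ℕ) + 1)) (fun k => sgn ((e0 M n).1 k)) t = 1
  unfold Moment265.MF
  have h0 : ∀ k, sgn ((e0 M n).1 k) = 1 := fun k => by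
    show sgn 0 = 1
    simp [sgn]
  simp only [h0, one_mul]
  have h := Moment265.tele (fun s => s ^ ((j : ℕ) + 1)) (t : Fin (n + 1) → ℝ) Finset.univ
    (fun _ _ _ _ => Finset.mem_univ _)
  rw [h, stdSimplex.sum_eq_one t]
  simp

/-- the two labels -/
def fin2Bool : Fin 2 ≃ Bool where
  toFun v := if v = 0 then true else false
  invFun b := cond b 0 1
  left_inv v := by fin_cases v <;> rfl
  right_inv b := by cases b <;> rfl

/-- `θ` at the vertex is the binary operation of a configuration -/
theorem theta_eq_mu2 (k : Fin (M + 1) ↪ J) (e : NZ (Fin (M + 1))) (x y : Om J Z z₀) :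
    theta k e x y = Hsp696.mu2 (((thetaConf e).extend k).relabel fin2Bool) (x, y) := by
  rw [Hsp696.mu2_apply]
  unfold theta
  rw [← mu_relabel ((thetaConf e).extend k) fin2Bool (fun b => cond b x y)]
  congr 1
  funext v
  fin_cases v <;> rfl

/-- the product given by a configuration of two boxes, on singular simplicial sets -/
def muSS (c : BoxConf (Fin 2) J) :
    Hom ((Sing (Om J Z z₀)).prod (Sing (Om J Z z₀))) (Sing (Om J Z z₀)) :=
  (SingMap (Hsp696.mu2 c)).comp (singPair _ _)

theorem Theta_vtx (k : Fin (M + 1) ↪ J) :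
    (Theta (Z := Z) (z₀ := z₀) k).comp (vtx M _) =
      muSS (((thetaConf (nz0 M)).extend k).relabel fin2Bool) := by
  refine Hom.ext (funext fun n => funext fun p => sing_ext fun t => ?_)
  show theta k (ev ((nz M).app n (e0 M n)) t) (ev p.1 t) (ev p.2 t) = _
  rw [ev_nz_e0, theta_eq_mu2]
  rfl

/-- all the products are homotopic -/
theorem muSS_SH [Nontrivial J] (c d : BoxConf (Fin 2) J) :
    SH (muSS (Z := Z) (z₀ := z₀) c) (muSS d) := by
  have h : (Hsp696.mu2 (Z := Z) (z₀ := z₀) c).Homotopic (Hsp696.mu2 d) :=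
    (Hsp696.mu2_homotopicRel (Hsp696.joined c d)).homotopic
  obtain ⟨h⟩ := h
  exact (SH.of (Htpy.ofHomotopy h)).pre _

/-- **the vertex law** -/
theorem omAlg_Vertex [Nontrivial J] (k : Fin (M + 1) ↪ J) (c : BoxConf (Fin 2) J) :
    (omAlg (Z := Z) (z₀ := z₀) k (muSS c)).Vertex := by
  show SH ((Theta k).comp (vtx M _)) (muSS c)
  rw [Theta_vtx]
  exact muSS_SH _ _

end Crest.Agent.R204.GL2735
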