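import Crest.Agent.R204.Bis2_343
import Crest.Agent.R204.Bis4_343

/-!
# Row 204, block B, final instantiation, part A (helper979)

For `f : P → K` onto in each degree:
`prT`  projection of `Tot` to total degree `n`;
`evK f : ker D → H F2 K`, the class of the augmentation, with `evK_gr`, `evK_bd`, `evK_ker`;
`exists_lead` every homogeneous class of a column is a leading term.
-/

set_option autoImplicit false

noncomputable section

namespace Crest.Agent.R204.Geo979

open Crest.Agent.R204 Crest.Agent.R204.Bis343 Crest.Agent.R204.Bis343.BSS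

/-! ### projection to a total degree -/

section prT
variable (E : BSS)

def prT (n : ℕ) : E.Tot →ₗ[F2] E.Tot :=
  Tot.lift (fun p q x => if p + q = n then Tot.bx x else 0)
    (by intro p q j y; split_ifs; exacts [Tot.bx_hdgn j y, rfl])
    (by intro p q j y; split_ifs; exacts [Tot.bx_vdgn j y, rfl])

theorem prT_bx (n : ℕ) {p q : ℕ} (x : E.S p q) :
    prT E n (Tot.bx x) = if p + q = n then Tot.bx x else 0 := by
  rw [prT, Tot.lift_bx]

theorem prT_of_mem {n : ℕ} {x : E.Tot} (hx : x ∈ E.grT n) : prT E n x = x := by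
  have : E.grT n ≤ LinearMap.ker (prT E n - LinearMap.id) := grT_le fun p q x h => by
    rw [LinearMap.mem_ker, LinearMap.sub_apply, prT_bx, if_pos h, LinearMap.id_apply, sub_self]
  have h := this hx
  rwa [LinearMap.mem_ker, LinearMap.sub_apply, LinearMap.id_apply, sub_eq_zero] at h

theorem prT_mem (n : ℕ) (x : E.Tot) : prT E n x ∈ E.grT n := by
  refine Tot.induction_on (P := fun x => prT E n x ∈ E.grT n) x ?_ ?_ ?_
  · rw [map_zero]; exact Submodule.zero_mem _
  · intro a b ha hb; rw [map_add]; exact Submodule.add_mem _ ha hb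
  · intro p q x
    rw [prT_bx]
    split_ifs with h
    · exact bx_mem_grT x h
    · exact Submodule.zero_mem _

theorem prT_of_mem_ne {n m : ℕ} (hnm : m ≠ n) {x : E.Tot} (hx : x ∈ E.grT m) : prT E n x = 0 := by
  have : E.grT m ≤ LinearMap.ker (prT E n) := grT_le fun p q x h => by
    rw [LinearMap.mem_ker, prT_bx, if_neg (by omega)]
  exact this hx

theorem prT_D (n : ℕ) (x : E.Tot) : prT E n (Tot.D E x) = Tot.D E (prT E (n + 1) x) := by
  refine Tot.induction_on (P := fun x => prT E n (Tot.D E x) = Tot.D E (prT E (n + 1) x)) x ?_ ?_ ?_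
  · simp
  · intro a b ha hb; simp only [map_add, ha, hb]
  · intro p q x
    have hx : Tot.bx x ∈ E.grT (p + q) := bx_mem_grT x rfl
    by_cases h : p + q = n + 1
    · rw [prT_bx, if_pos h]
      rw [h] at hx
      exact prT_of_mem E (D_grT hx)
    · rw [prT_bx, if_neg h, map_zero]
      rcases Nat.eq_zero_or_pos (p + q) with h0 | h0
      · rw [h0] at hx
        rw [D_grT_zero hx, map_zero]
      · obtain ⟨m, hm⟩ : ∃ m, p + q = m + 1 := ⟨p + q - 1, by omega⟩
        rw [hm] at hx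
        exact prT_of_mem_ne E (by omega) (D_grT hx)

end prT

/-! ### evaluation on the base -/

section evK
variable {P K : SS} (f : SS.Hom P K)

/-- the homology class of the augmentation of a cycle of the total complex -/
def evK : ↥(LinearMap.ker (Tot.D (cech f))) →ₗ[F2] H F2 K :=
  (Submodule.mkQ _) ∘ₗ LinearMap.codRestrict (LinearMap.ker (N.bd F2 K))
    (Cech.aug f ∘ₗ (LinearMap.ker (Tot.D (cech f))).subtype)
    (fun x => by
      rw [LinearMap.mem_ker, LinearMap.comp_apply, Submodule.subtype_apply, ← Cech.aug_D, x.2, map_zero])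

theorem bd_aug {z : (cech f).Tot} (hz : Tot.D (cech f) z = 0) : N.bd F2 K (Cech.aug f z) = 0 := by
  rw [← Cech.aug_D, hz, map_zero]

theorem evK_mk (z : (cech f).Tot) (hz : Tot.D (cech f) z = 0) :
    evK f ⟨z, hz⟩ = Hd.mk (N.bd F2 K) (Cech.aug f z) (bd_aug f hz) := rfl

theorem aug_mem_gr {n : ℕ} {x : (cech f).Tot} (hx : x ∈ (cech f).grT n) :
    Cech.aug f x ∈ N.gr F2 K n := by
  have : (cech f).grT n ≤ (N.gr F2 K n).comap (Cech.aug f) := grT_le fun p q x h => by
    rw [Submodule.mem_comap]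
    rcases p with _ | p
    · obtain rfl : q = n := by omega
      rw [Cech.aug_bx_zero]
      exact Gr334.sx_mem_gr _
    · rw [Cech.aug_bx_succ]; exact Submodule.zero_mem _
  exact this hx

theorem evK_gr (n : ℕ) (z : ↥(LinearMap.ker (Tot.D (cech f)))) (hz : (z : (cech f).Tot) ∈ (cech f).grT n) :
    evK f z ∈ H.gr F2 K n :=
  Gr334.mk_mem_gr (aug_mem_gr f hz) (bd_aug f z.2)

theorem evK_bd (z : ↥(LinearMap.ker (Tot.D (cech f)))) (h : ∃ x, Tot.D (cech f) x = z) :
    evK f z = 0 := by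
  obtain ⟨x, hx⟩ := h
  obtain ⟨z, hz⟩ := z
  rw [evK_mk, Hd.mk_eq_zero]
  exact ⟨Cech.aug f x, by rw [← Cech.aug_D]; exact congrArg _ hx⟩

theorem evK_ker (hf : ∀ q, Function.Surjective (f.app q)) (n : ℕ)
    (z : ↥(LinearMap.ker (Tot.D (cech f)))) (hz : (z : (cech f).Tot) ∈ (cech f).grT n)
    (h : evK f z = 0) : ∃ x ∈ (cech f).grT (n + 1), Tot.D (cech f) x = z := by
  obtain ⟨z, hz0⟩ := z
  rw [evK_mk, Hd.mk_eq_zero] at h
  obtain ⟨c, hc⟩ := h
  obtain ⟨y, hy⟩ := Cech.bd_of_aug_bd f hf hz0 hc.symm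
  refine ⟨prT _ (n + 1) y, prT_mem _ _ _, ?_⟩
  rw [← prT_D, hy]
  exact prT_of_mem _ hz

/-- the augmentation is onto in homology -/
theorem evK_surj (hf : ∀ q, Function.Surjective (f.app q)) (a : H F2 K) : ∃ z, evK f z = a := by
  obtain ⟨b, hb, rfl⟩ := Hd.mk_surj _ a
  obtain ⟨x, hx, hxb⟩ := Cech.lift_cycle f hf hb
  refine ⟨⟨x, hx⟩, ?_⟩
  rw [evK_mk]
  exact Hd_mk_congr hxb _ _

end evK

/-! ### leading terms -/

section lead
variable {E : BSS}

/-- every homogeneous class of a column is a leading term -/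
theorem exists_lead (p : ℕ) {t : ℕ} {α : H F2 (E.col p)} (hα : α ∈ H.gr F2 (E.col p) t) :
    ∃ θ : ↥((FCof E).Z p), (θ : E.Tot) ∈ E.grT (p + t) ∧
      lead E p θ = (Submodule.Quotient.mk α : E.E1 p) := by
  obtain ⟨z, hz, hz0, rfl⟩ := Gr334.mem_H_gr.1 hα
  exact ⟨⟨Tot.ofCol E p z, ofCol_mem_Z hz0⟩, ofCol_mem_grT hz, lead_ofCol z hz0 _⟩

end lead

end Crest.Agent.R204.Geo979
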