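import Crest.Agent.R204.Hopf_407

/-!
Row 204, section 04: Hopf algebra facts, transported form (helper407).

`H` is a commutative `F2`-algebra which is a polynomial algebra on a family `x : s → H`, with an
algebra map `Δ : H → H ⊗ H`; every generator has a weight `w i`; and
`Δ (x i) = x i ⊗ 1 + 1 ⊗ x i + ρ i` with `ρ i` in the span of the `a ⊗ b`, `a`, `b` weighted
homogeneous of positive weights with sum bigger than `w i`.
-/

namespace Crest.Agent.R204.Hopf407

open MvPolynomial TensorProduct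

section Transport

variable {H : Type*} [CommRing H] [Algebra F2 H] {s : Type*}

/-- Elements of `H` which are polynomials in the generators `x`, weighted homogeneous of
weight `p`. -/
noncomputable def Wt (w : s → ℕ) (x : s → H) (p : ℕ) : Submodule F2 H :=
  (weightedHomogeneousSubmodule F2 w p).map (aeval x : MvPolynomial s F2 →ₐ[F2] H).toLinearMap

theorem mem_Wt {w : s → ℕ} {x : s → H} {p : ℕ} {a : H} :
    a ∈ Wt w x p ↔ ∃ f : MvPolynomial s F2, IsWeightedHomogeneous w f p ∧ aeval x f = a := by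
  simp [Wt, Submodule.mem_map, mem_weightedHomogeneousSubmodule]

/-- Elements of `H` which are polynomials in the generators `x`, with monomials of weight at
least `p`. -/
noncomputable def WtGe (w : s → ℕ) (x : s → H) (p : ℕ) : Submodule F2 H where
  carrier := {a | ∃ f : MvPolynomial s F2, Ord w p f ∧ aeval x f = a}
  add_mem' := by
    rintro _ _ ⟨f, hf, rfl⟩ ⟨g, hg, rfl⟩
    exact ⟨f + g, hf.add hg, map_add _ _ _⟩
  zero_mem' := ⟨0, Ord.zero _ _, map_zero _⟩
  smul_mem' := by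
    rintro c _ ⟨f, hf, rfl⟩
    refine ⟨C c * f, Ord.C_mul c hf, ?_⟩
    rw [← smul_eq_C_mul, map_smul]

theorem mem_WtGe {w : s → ℕ} {x : s → H} {p : ℕ} {a : H} :
    a ∈ WtGe w x p ↔ ∃ f : MvPolynomial s F2, Ord w p f ∧ aeval x f = a := Iff.rfl

/-- Primitive elements. -/
def IsPrim (Δ : H →ₐ[F2] H ⊗[F2] H) (ξ : H) : Prop := Δ ξ = ξ ⊗ₜ[F2] 1 + 1 ⊗ₜ[F2] ξ

/-- The hypotheses: `H` is polynomial on the `x i` and the `x i` are primitive modulo higher
weight. -/
structure HopfPoly (w : s → ℕ) (x : s → H) (Δ : H →ₐ[F2] H ⊗[F2] H) : Prop where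
  bij : Function.Bijective (aeval x : MvPolynomial s F2 →ₐ[F2] H)
  comul : ∀ i, Δ (x i) - x i ⊗ₜ[F2] 1 - 1 ⊗ₜ[F2] x i ∈
    Submodule.span F2 {t : H ⊗[F2] H | ∃ p q a b, 0 < p ∧ 0 < q ∧ w i < p + q ∧
      a ∈ Wt w x p ∧ b ∈ Wt w x q ∧ t = a ⊗ₜ[F2] b}

/-- Exactly primitive generators. -/
theorem HopfPoly.of_prim (w : s → ℕ) {x : s → H} {Δ : H →ₐ[F2] H ⊗[F2] H}
    (hbij : Function.Bijective (aeval x : MvPolynomial s F2 →ₐ[F2] H))
    (hprim : ∀ i, IsPrim Δ (x i)) : HopfPoly w x Δ where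
  bij := hbij
  comul i := by
    have : Δ (x i) - x i ⊗ₜ[F2] 1 - 1 ⊗ₜ[F2] x i = 0 := by
      rw [show Δ (x i) = _ from hprim i]; abel
    rw [this]
    exact Submodule.zero_mem _

variable {w : s → ℕ} {x : s → H} {Δ : H →ₐ[F2] H ⊗[F2] H}

/-- The polynomial presentation as an equivalence. -/
noncomputable def pe (hx : Function.Bijective (aeval x : MvPolynomial s F2 →ₐ[F2] H)) :
    MvPolynomial s F2 ≃ₐ[F2] H := AlgEquiv.ofBijective _ hx

@[simp] theorem pe_apply (hx : Function.Bijective (aeval x : MvPolynomial s F2 →ₐ[F2] H))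
    (f : MvPolynomial s F2) : pe hx f = aeval x f := rfl

@[simp] theorem pe_symm_aeval (hx : Function.Bijective (aeval x : MvPolynomial s F2 →ₐ[F2] H))
    (f : MvPolynomial s F2) : (pe hx).symm (aeval x f) = f := (pe hx).symm_apply_apply f

@[simp] theorem aeval_pe_symm (hx : Function.Bijective (aeval x : MvPolynomial s F2 →ₐ[F2] H))
    (a : H) : aeval x ((pe hx).symm a) = a := (pe hx).apply_symm_apply a

@[simp] theorem pe_symm_x (hx : Function.Bijective (aeval x : MvPolynomial s F2 →ₐ[F2] H))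
    (i : s) : (pe hx).symm (x i) = X i := by
  have := pe_symm_aeval hx (X i)
  rwa [aeval_X] at this

/-- `H ⊗ H → F2[s ⊕ s]`. -/
noncomputable def tau (hx : Function.Bijective (aeval x : MvPolynomial s F2 →ₐ[F2] H)) :
    H ⊗[F2] H →ₐ[F2] MvPolynomial (s ⊕ s) F2 :=
  Algebra.TensorProduct.productMap
    ((rename Sum.inl : MvPolynomial s F2 →ₐ[F2] MvPolynomial (s ⊕ s) F2).comp
      ((pe hx).symm : H →ₐ[F2] MvPolynomial s F2))
    ((rename Sum.inr : MvPolynomial s F2 →ₐ[F2] MvPolynomial (s ⊕ s) F2).comp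
      ((pe hx).symm : H →ₐ[F2] MvPolynomial s F2))

theorem tau_tmul (hx : Function.Bijective (aeval x : MvPolynomial s F2 →ₐ[F2] H)) (a b : H) :
    tau hx (a ⊗ₜ b) = rename Sum.inl ((pe hx).symm a) * rename Sum.inr ((pe hx).symm b) := by
  rw [tau, Algebra.TensorProduct.productMap_apply_tmul]
  rfl

theorem tau_injective (hx : Function.Bijective (aeval x : MvPolynomial s F2 →ₐ[F2] H)) :
    Function.Injective (tau hx) := by
  let σ : MvPolynomial (s ⊕ s) F2 →ₐ[F2] H ⊗[F2] H :=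
    aeval (Sum.elim (fun i => x i ⊗ₜ 1) (fun i => 1 ⊗ₜ x i))
  have h1 : ∀ a : H, σ (rename Sum.inl ((pe hx).symm a)) = a ⊗ₜ 1 := by
    intro a
    obtain ⟨f, rfl⟩ := hx.2 a
    rw [pe_symm_aeval]
    have : σ.comp (rename Sum.inl) =
        (Algebra.TensorProduct.includeLeft : H →ₐ[F2] H ⊗[F2] H).comp (aeval x) := by
      ext i : 1
      simp [σ]
    exact DFunLike.congr_fun this f
  have h2 : ∀ a : H, σ (rename Sum.inr ((pe hx).symm a)) = 1 ⊗ₜ a := by
    intro a
    obtain ⟨f, rfl⟩ := hx.2 a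
    rw [pe_symm_aeval]
    have : σ.comp (rename Sum.inr) =
        (Algebra.TensorProduct.includeRight : H →ₐ[F2] H ⊗[F2] H).comp (aeval x) := by
      ext i : 1
      simp [σ]
    exact DFunLike.congr_fun this f
  have h3 : σ.comp (tau hx) = AlgHom.id F2 _ := by
    apply Algebra.TensorProduct.ext'
    intro a b
    rw [AlgHom.comp_apply, tau_tmul, map_mul, h1, h2, Algebra.TensorProduct.tmul_mul_tmul,
      mul_one, one_mul]
    rfl
  exact Function.LeftInverse.injective (g := σ) fun t => DFunLike.congr_fun h3 t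

/-- The coproduct in the internal model. -/
noncomputable def Δi (hx : Function.Bijective (aeval x : MvPolynomial s F2 →ₐ[F2] H))
    (Δ : H →ₐ[F2] H ⊗[F2] H) : MvPolynomial s F2 →ₐ[F2] MvPolynomial (s ⊕ s) F2 :=
  (tau hx).comp (Δ.comp (aeval x))

theorem Δi_apply (hx : Function.Bijective (aeval x : MvPolynomial s F2 →ₐ[F2] H))
    (f : MvPolynomial s F2) : Δi hx Δ f = tau hx (Δ (aeval x f)) := rfl

theorem prim_iff (hx : Function.Bijective (aeval x : MvPolynomial s F2 →ₐ[F2] H))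
    (f : MvPolynomial s F2) : Prim (Δi hx Δ) f ↔ IsPrim Δ (aeval x f) := by
  unfold Prim IsPrim
  rw [Δi_apply, ← (tau_injective hx).eq_iff, map_add, tau_tmul, tau_tmul]
  simp

theorem HopfPoly.good (h : HopfPoly w x Δ) : Good w (Δi h.bij Δ) := by
  classical
  intro i
  have key : ∀ t ∈ Submodule.span F2 {t : H ⊗[F2] H | ∃ p q a b, 0 < p ∧ 0 < q ∧ w i < p + q ∧
      a ∈ Wt w x p ∧ b ∈ Wt w x q ∧ t = a ⊗ₜ[F2] b},
      ∀ d ∈ (tau h.bij t).support,
      (∃ a, d (Sum.inl a) ≠ 0) ∧ (∃ b, d (Sum.inr b) ≠ 0) ∧ w i < Finsupp.weight (ww w) d := by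
    intro t ht
    induction ht using Submodule.span_induction with
    | mem t ht =>
      obtain ⟨p, q, a, b, hp, hq, hpq, ha, hb, rfl⟩ := ht
      obtain ⟨f, hf, rfl⟩ := mem_Wt.1 ha
      obtain ⟨g, hg, rfl⟩ := mem_Wt.1 hb
      intro d hd
      rw [tau_tmul, pe_symm_aeval, pe_symm_aeval] at hd
      obtain ⟨d1, hd1, d2, hd2, rfl⟩ := Finset.mem_add.1 (support_mul _ _ hd)
      obtain ⟨e1, he1, he1'⟩ := coeff_rename_ne_zero _ _ _ (mem_support_iff.1 hd1)
      obtain ⟨e2, he2, he2'⟩ := coeff_rename_ne_zero _ _ _ (mem_support_iff.1 hd2)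
      have hw1 : Finsupp.weight (ww w) d1 = p := by
        have := isWeightedHomogeneous_map (w := w) (w' := ww w)
          (rename Sum.inl : MvPolynomial s F2 →ₐ[F2] MvPolynomial (s ⊕ s) F2) (fun i => by
          rw [rename_X]; exact isWeightedHomogeneous_X F2 (ww w) (Sum.inl i)) hf
        exact this (mem_support_iff.1 hd1)
      have hw2 : Finsupp.weight (ww w) d2 = q := by
        have := isWeightedHomogeneous_map (w := w) (w' := ww w)
          (rename Sum.inr : MvPolynomial s F2 →ₐ[F2] MvPolynomial (s ⊕ s) F2) (fun i => by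
          rw [rename_X]; exact isWeightedHomogeneous_X F2 (ww w) (Sum.inr i)) hg
        exact this (mem_support_iff.1 hd2)
      have hd1e : e1 ≠ 0 := by
        rintro rfl
        rw [Finsupp.mapDomain_zero] at he1
        rw [← he1, map_zero] at hw1
        omega
      have hd2e : e2 ≠ 0 := by
        rintro rfl
        rw [Finsupp.mapDomain_zero] at he2
        rw [← he2, map_zero] at hw2
        omega
      obtain ⟨a, ha⟩ := Finsupp.ne_iff.1 hd1e
      obtain ⟨b, hb⟩ := Finsupp.ne_iff.1 hd2e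
      refine ⟨⟨a, ?_⟩, ⟨b, ?_⟩, ?_⟩
      · rw [Finsupp.add_apply, ← he1, Finsupp.mapDomain_apply Sum.inl_injective]
        have : e1 a ≠ 0 := by simpa using ha
        omega
      · rw [Finsupp.add_apply, ← he2, Finsupp.mapDomain_apply Sum.inr_injective]
        have : e2 b ≠ 0 := by simpa using hb
        omega
      · rw [map_add, hw1, hw2]
        exact hpq
    | zero => intro d hd; simp at hd
    | add a b _ _ ha hb =>
      intro d hd
      rw [map_add] at hd
      rcases Finset.mem_union.1 (support_add hd) with h | h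
      · exact ha d h
      · exact hb d h
    | smul c a _ ha =>
      intro d hd
      rw [map_smul] at hd
      exact ha d (support_smul hd)
  have h1 : Δi h.bij Δ (X i) - X (Sum.inl i) - X (Sum.inr i) =
      tau h.bij (Δ (x i) - x i ⊗ₜ[F2] 1 - 1 ⊗ₜ[F2] x i) := by
    rw [map_sub, map_sub, Δi_apply, aeval_X, tau_tmul, tau_tmul]
    simp
  rw [h1]
  exact key _ (h.comul i)

/-- Squaring is injective. -/
theorem sq_inj_of_bij (hx : Function.Bijective (aeval x : MvPolynomial s F2 →ₐ[F2] H)) {a b : H}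
    (hab : a ^ 2 = b ^ 2) : a = b := by
  obtain ⟨f, rfl⟩ := hx.2 a
  obtain ⟨g, rfl⟩ := hx.2 b
  rw [← map_pow, ← map_pow] at hab
  have h1 := hx.1 hab
  have h2 : (f - g) ^ 2 = 0 := by
    rw [sub_pow_two, h1, show (2 : MvPolynomial s F2) = 0 from CharTwo.two_eq_zero]
    have h3 : ∀ x : MvPolynomial s F2, x + x = 0 := fun x => CharTwo.add_self_eq_zero x
    rw [zero_mul, zero_mul, sub_zero, h3]
  rw [sub_eq_zero.1 ((pow_eq_zero_iff (two_ne_zero)).1 h2)]

theorem IsPrim.sq_of_bij (hx : Function.Bijective (aeval x : MvPolynomial s F2 →ₐ[F2] H))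
    {a : H} (ha : IsPrim Δ a) : IsPrim Δ (a ^ 2) := by
  obtain ⟨f, rfl⟩ := hx.2 a
  rw [← map_pow, ← prim_iff hx] at *
  exact ha.sq

theorem IsPrim.add {a b : H} (ha : IsPrim Δ a) (hb : IsPrim Δ b) : IsPrim Δ (a + b) := by
  unfold IsPrim at *
  rw [map_add, ha, hb, add_tmul, tmul_add]
  abel

theorem isPrim_zero : IsPrim Δ 0 := by simp [IsPrim]

theorem IsPrim.smul {a : H} (c : F2) (ha : IsPrim Δ a) : IsPrim Δ (c • a) := by
  unfold IsPrim at *
  rw [map_smul, ha, smul_add, smul_tmul', tmul_smul]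

/-- The submodule of primitive elements. -/
def PrimSub (Δ : H →ₐ[F2] H ⊗[F2] H) : Submodule F2 H where
  carrier := {a | IsPrim Δ a}
  add_mem' := fun ha hb => IsPrim.add ha hb
  zero_mem' := isPrim_zero
  smul_mem' := fun c _ ha => IsPrim.smul c ha

theorem mem_PrimSub {a : H} : a ∈ PrimSub Δ ↔ IsPrim Δ a := Iff.rfl

/-- The weight component. -/
noncomputable def cmp (w : s → ℕ)
    (hx : Function.Bijective (aeval x : MvPolynomial s F2 →ₐ[F2] H)) (p : ℕ) : H →ₗ[F2] H :=
  (aeval x : MvPolynomial s F2 →ₐ[F2] H).toLinearMap ∘ₗ weightedHomogeneousComponent w p ∘ₗ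
    (pe hx).symm.toLinearMap

theorem cmp_aeval (w : s → ℕ) (hx : Function.Bijective (aeval x : MvPolynomial s F2 →ₐ[F2] H))
    (p : ℕ) (f : MvPolynomial s F2) :
    cmp w hx p (aeval x f) = aeval x (weightedHomogeneousComponent w p f) := by
  simp [cmp]

theorem cmp_mem (w : s → ℕ) (hx : Function.Bijective (aeval x : MvPolynomial s F2 →ₐ[F2] H))
    (p : ℕ) (a : H) : cmp w hx p a ∈ Wt w x p := by
  obtain ⟨f, rfl⟩ := hx.2 a
  rw [cmp_aeval]
  exact mem_Wt.2 ⟨_, weightedHomogeneousComponent_isWeightedHomogeneous p f, rfl⟩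

theorem cmp_of_mem {w : s → ℕ} (hx : Function.Bijective (aeval x : MvPolynomial s F2 →ₐ[F2] H))
    {p : ℕ} {a : H} (ha : a ∈ Wt w x p) (q : ℕ) : cmp w hx q a = if q = p then a else 0 := by
  obtain ⟨f, hf, rfl⟩ := mem_Wt.1 ha
  rw [cmp_aeval, weightedHomogeneousComponent_of_mem hf]
  split_ifs <;> simp

theorem cmp_self {w : s → ℕ} (hx : Function.Bijective (aeval x : MvPolynomial s F2 →ₐ[F2] H))
    {p : ℕ} {a : H} (ha : a ∈ Wt w x p) : cmp w hx p a = a := by
  rw [cmp_of_mem hx ha, if_pos rfl]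

theorem Wt_le_WtGe {w : s → ℕ} {p m : ℕ} (h : m ≤ p) : Wt w x p ≤ WtGe w x m := by
  intro a ha
  obtain ⟨f, hf, rfl⟩ := mem_Wt.1 ha
  exact ⟨f, (ord_of_isWeightedHomogeneous hf).mono h, rfl⟩

theorem mem_WtGe_iff {w : s → ℕ} (hx : Function.Bijective (aeval x : MvPolynomial s F2 →ₐ[F2] H))
    {m : ℕ} {a : H} : a ∈ WtGe w x m ↔ ∀ p < m, cmp w hx p a = 0 := by
  classical
  constructor
  · rintro ⟨f, hf, rfl⟩ p hp
    rw [cmp_aeval, whc_eq_zero_of_ord hf hp, map_zero]
  · intro h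
    obtain ⟨f, rfl⟩ := hx.2 a
    refine ⟨f, fun d hd => ?_, rfl⟩
    by_contra hlt
    push Not at hlt
    have h1 := h _ hlt
    rw [cmp_aeval] at h1
    have h2 : weightedHomogeneousComponent w (Finsupp.weight w d) f = 0 :=
      hx.1 (by rw [h1, map_zero])
    have h3 := congrArg (coeff d) h2
    rw [coeff_weightedHomogeneousComponent, if_pos rfl, coeff_zero] at h3
    exact (mem_support_iff.1 hd) h3

/-- Elements with the same weight components are equal. -/
theorem eq_of_cmp_eq {w : s → ℕ} (hx : Function.Bijective (aeval x : MvPolynomial s F2 →ₐ[F2] H))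
    {a b : H} (h : ∀ p, cmp w hx p a = cmp w hx p b) : a = b := by
  classical
  obtain ⟨f, rfl⟩ := hx.2 a
  obtain ⟨g, rfl⟩ := hx.2 b
  congr 1
  ext d
  have h1 := h (Finsupp.weight w d)
  rw [cmp_aeval, cmp_aeval] at h1
  have h2 := congrArg (coeff d) (hx.1 h1)
  rwa [coeff_weightedHomogeneousComponent, coeff_weightedHomogeneousComponent, if_pos rfl,
    if_pos rfl] at h2

theorem exists_lowest_aux (w : s → ℕ)
    (hx : Function.Bijective (aeval x : MvPolynomial s F2 →ₐ[F2] H)) {a : H} (ha : a ≠ 0) :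
    ∃ m, a ∈ WtGe w x m ∧ cmp w hx m a ≠ 0 := by
  classical
  have hex : ∃ m, cmp w hx m a ≠ 0 := by
    by_contra hcon
    push Not at hcon
    exact ha (eq_of_cmp_eq (w := w) hx fun p => by rw [hcon p, map_zero])
  refine ⟨Nat.find hex, ?_, Nat.find_spec hex⟩
  rw [mem_WtGe_iff hx]
  intro p hp
  have := Nat.find_min hex hp
  push Not at this
  exact this

theorem sub_cmp_mem {w : s → ℕ} (hx : Function.Bijective (aeval x : MvPolynomial s F2 →ₐ[F2] H))
    {m : ℕ} {a : H} (ha : a ∈ WtGe w x m) : a - cmp w hx m a ∈ WtGe w x (m + 1) := by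
  rw [mem_WtGe_iff hx] at *
  intro p hp
  rw [map_sub, cmp_of_mem hx (cmp_mem w hx m a)]
  split_ifs with h
  · rw [h, sub_self]
  · rw [sub_zero]
    exact ha p (by omega)

/-- Linear maps preserving weights commute with the weight components. -/
theorem map_cmp {H' : Type*} [CommRing H'] [Algebra F2 H'] {s' : Type*} {x' : s' → H'}
    {w : s → ℕ} {w' : s' → ℕ}
    (hx : Function.Bijective (aeval x : MvPolynomial s F2 →ₐ[F2] H))
    (hx' : Function.Bijective (aeval x' : MvPolynomial s' F2 →ₐ[F2] H'))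
    (θ : H →ₗ[F2] H') (hθ : ∀ p, ∀ a ∈ Wt w x p, θ a ∈ Wt w' x' p) (p : ℕ) (a : H) :
    θ (cmp w hx p a) = cmp w' hx' p (θ a) := by
  obtain ⟨f, rfl⟩ := hx.2 a
  induction f using MvPolynomial.induction_on' with
  | monomial d c =>
    have h1 : aeval x (monomial d c) ∈ Wt w x (Finsupp.weight w d) :=
      mem_Wt.2 ⟨_, isWeightedHomogeneous_monomial w d c rfl, rfl⟩
    rw [cmp_of_mem hx h1, cmp_of_mem hx' (hθ _ _ h1)]
    split_ifs <;> simp
  | add f g hf hg =>
    rw [map_add, map_add, map_add, map_add, map_add, hf, hg]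

/-- The weight components for one weight preserve homogeneity for another weight. -/
theorem cmp_mem_Wt {w v : s → ℕ} (hx : Function.Bijective (aeval x : MvPolynomial s F2 →ₐ[F2] H))
    {n p : ℕ} {a : H} (ha : a ∈ Wt v x n) : cmp w hx p a ∈ Wt v x n := by
  classical
  obtain ⟨f, hf, rfl⟩ := mem_Wt.1 ha
  rw [cmp_aeval]
  refine mem_Wt.2 ⟨_, ?_, rfl⟩
  intro d hd
  rw [coeff_weightedHomogeneousComponent] at hd
  split_ifs at hd with h
  · exact hf hd
  · exact absurd rfl hd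

/-- Degrees of square roots. -/
theorem mem_Wt_of_sq_mem {v : s → ℕ}
    (hx : Function.Bijective (aeval x : MvPolynomial s F2 →ₐ[F2] H)) {m : ℕ} {a : H}
    (ha : a ^ 2 ∈ Wt v x (2 * m)) : a ∈ Wt v x m := by
  obtain ⟨f, rfl⟩ := hx.2 a
  obtain ⟨g, hg, hgf⟩ := mem_Wt.1 ha
  rw [← map_pow] at hgf
  rw [hx.1 hgf] at hg
  refine mem_Wt.2 ⟨f, fun d hd => ?_, rfl⟩
  have := weight_sq hg (mem_support_iff.2 hd)
  omega

/-- Squares of odd degree vanish. -/
theorem eq_zero_of_sq_mem_odd {v : s → ℕ}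
    (hx : Function.Bijective (aeval x : MvPolynomial s F2 →ₐ[F2] H)) {n : ℕ} {a : H}
    (ha : a ^ 2 ∈ Wt v x n) (hn : Odd n) : a = 0 := by
  obtain ⟨f, rfl⟩ := hx.2 a
  obtain ⟨g, hg, hgf⟩ := mem_Wt.1 ha
  rw [← map_pow] at hgf
  rw [hx.1 hgf] at hg
  have : f = 0 := by
    by_contra hf
    obtain ⟨d, hd⟩ := support_nonempty.2 hf
    have := weight_sq hg hd
    obtain ⟨k, hk⟩ := hn
    omega
  rw [this, map_zero]

/-- Degrees of squares. -/
theorem sq_mem_Wt {v : s → ℕ} {m : ℕ} {a : H} (ha : a ∈ Wt v x m) : a ^ 2 ∈ Wt v x (2 * m) := by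
  obtain ⟨f, hf, rfl⟩ := mem_Wt.1 ha
  refine mem_Wt.2 ⟨f ^ 2, ?_, map_pow _ _ _⟩
  simpa [smul_eq_mul] using hf.pow 2

/-- **(4.3)** A primitive element killed by a linear map `F` which kills the decomposables and is
injective on the indecomposables is the square of a primitive element. -/
theorem HopfPoly.exists_sq_of_ker (h : HopfPoly w x Δ) {M : Type*} [AddCommGroup M] [Module F2 M]
    (F : H →ₗ[F2] M) (hF : ∀ i j a, F (x i * (x j * a)) = 0)
    (hli : LinearIndependent F2 fun i => F (x i)) {ξ : H} (hξ : IsPrim Δ ξ) (hker : F ξ = 0) :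
    ∃ ζ, ξ = ζ ^ 2 ∧ IsPrim Δ ζ := by
  obtain ⟨f, rfl⟩ := h.bij.2 ξ
  obtain ⟨g, hg, hgP⟩ := Hopf407.exists_sq_of_ker h.good
    (F ∘ₗ (aeval x : MvPolynomial s F2 →ₐ[F2] H).toLinearMap)
    (fun i j a => by simpa using hF i j (aeval x a)) (by simpa using hli)
    ((prim_iff h.bij f).2 hξ) (by simpa using hker)
  exact ⟨aeval x g, by rw [hg, map_pow], (prim_iff h.bij g).1 hgP⟩

theorem constantCoeff_of_mem_span (hx : Function.Bijective (aeval x : MvPolynomial s F2 →ₐ[F2] H))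
    {a : H} (ha : a ∈ Ideal.span (Set.range x)) : constantCoeff ((pe hx).symm a) = 0 := by
  induction ha using Submodule.span_induction with
  | mem a ha =>
    obtain ⟨i, rfl⟩ := ha
    rw [pe_symm_x, constantCoeff_X]
  | zero => simp
  | add a b _ _ ha hb => rw [map_add, map_add, ha, hb, add_zero]
  | smul c a _ ha => rw [smul_eq_mul, map_mul, map_mul, ha, mul_zero]

theorem coeff_single_of_mem_sq
    (hx : Function.Bijective (aeval x : MvPolynomial s F2 →ₐ[F2] H)) {ξ : H}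
    (hdec : ξ ∈ (Ideal.span (Set.range x)) ^ 2) (i : s) :
    coeff (Finsupp.single i 1) ((pe hx).symm ξ) = 0 := by
  have key : ∀ f : MvPolynomial s F2,
      coeff (Finsupp.single i 1) f = constantCoeff (pderiv i f) := by
    intro f
    rw [constantCoeff_eq, coeff_pderiv]
    simp
  rw [pow_two] at hdec
  induction hdec using Submodule.mul_induction_on' with
  | mem_mul_mem a ha b hb =>
    rw [map_mul, key, Derivation.leibniz, map_add, smul_eq_mul, smul_eq_mul, map_mul, map_mul,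
      constantCoeff_of_mem_span hx ha, constantCoeff_of_mem_span hx hb]
    simp
  | add a _ b _ ha hb => rw [map_add, coeff_add, ha, hb, add_zero]

/-- **(4.1)** A primitive and decomposable element is the square of a primitive element. -/
theorem HopfPoly.exists_sq_of_decomposable (h : HopfPoly w x Δ) {ξ : H} (hξ : IsPrim Δ ξ)
    (hdec : ξ ∈ (Ideal.span (Set.range x)) ^ 2) : ∃ ζ, ξ = ζ ^ 2 ∧ IsPrim Δ ζ := by
  obtain ⟨g, hg, hgP⟩ := exists_sq_of_prim h.good
    ((prim_iff h.bij _).2 (by rwa [aeval_pe_symm])) (coeff_single_of_mem_sq h.bij hdec)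
  refine ⟨aeval x g, ?_, (prim_iff h.bij g).1 hgP⟩
  rw [← map_pow, ← hg, aeval_pe_symm]

/-- Primitive elements lie in the augmentation ideal. -/
theorem HopfPoly.prim_mem_span (h : HopfPoly w x Δ) {ξ : H} (hξ : IsPrim Δ ξ) :
    ξ ∈ Ideal.span (Set.range x) := by
  classical
  obtain ⟨f, rfl⟩ := h.bij.2 ξ
  have h1 := Prim.constantCoeff_eq_zero h.good ((prim_iff h.bij f).2 hξ)
  rw [f.as_sum, map_sum]
  refine Ideal.sum_mem _ fun d hd => ?_
  have hd0 : d ≠ 0 := by
    rintro rfl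
    exact (mem_support_iff.1 hd) (by rwa [constantCoeff_eq] at h1)
  obtain ⟨i, hi⟩ := Finsupp.ne_iff.1 hd0
  rw [Finsupp.zero_apply] at hi
  have hle : Finsupp.single i 1 ≤ d := by
    rw [Finsupp.single_le_iff]; omega
  obtain ⟨d1, hd1⟩ := exists_add_of_le hle
  have hm : monomial d (coeff d f) = X i * monomial d1 (coeff d f) := by
    rw [X, monomial_mul, one_mul, ← hd1]
  rw [hm, map_mul, aeval_X]
  exact Ideal.mul_mem_right _ _ (Ideal.subset_span ⟨i, rfl⟩)

/-- **(4.2)** The lowest weight component of a primitive element is a combination of the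
`x i ^ 2 ^ j` of that weight. -/
theorem HopfPoly.cmp_mem_span (h : HopfPoly w x Δ) {ξ : H} (hξ : IsPrim Δ ξ) {m : ℕ}
    (hm : ξ ∈ WtGe w x m) :
    cmp w h.bij m ξ ∈ Submodule.span F2 {a : H | ∃ i j, 2 ^ j * w i = m ∧ a = x i ^ (2 ^ j)} := by
  obtain ⟨f, hf, rfl⟩ := hm
  have h1 := whc_prim_mem_span h.good ((prim_iff h.bij f).2 hξ) hf
  rw [cmp_aeval]
  have h2 := Submodule.mem_map_of_mem (f := (aeval x : MvPolynomial s F2 →ₐ[F2] H).toLinearMap) h1
  rw [Submodule.map_span] at h2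
  refine Submodule.span_mono ?_ h2
  rintro _ ⟨_, ⟨i, j, hij, rfl⟩, rfl⟩
  exact ⟨i, j, hij, by simp⟩

/-- **(4.2)** Existence of the lowest weight component. -/
theorem HopfPoly.exists_lowest (h : HopfPoly w x Δ) {ξ : H} (hξ : IsPrim Δ ξ) (h0 : ξ ≠ 0) :
    ∃ m, (∃ i j, 2 ^ j * w i = m) ∧ ξ ∈ WtGe w x m ∧ cmp w h.bij m ξ ≠ 0 ∧
      cmp w h.bij m ξ ∈
        Submodule.span F2 {a : H | ∃ i j, 2 ^ j * w i = m ∧ a = x i ^ (2 ^ j)} := by
  obtain ⟨m, hm, hne⟩ := exists_lowest_aux w h.bij h0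
  have hsp := h.cmp_mem_span hξ hm
  refine ⟨m, ?_, hm, hne, hsp⟩
  by_contra hcon
  apply hne
  have : {a : H | ∃ i j, 2 ^ j * w i = m ∧ a = x i ^ (2 ^ j)} = ∅ := by
    ext a
    simp only [Set.mem_ofPred_eq, Set.mem_empty_iff_false, iff_false]
    rintro ⟨i, j, hij, _⟩
    exact hcon ⟨i, j, hij⟩
  rw [this, Submodule.span_empty] at hsp
  exact (Submodule.mem_bot F2).1 hsp

/-- The powers `x i ^ 2 ^ j` of primitive generators are primitive. -/
theorem isPrim_pow_two_pow (hx : Function.Bijective (aeval x : MvPolynomial s F2 →ₐ[F2] H))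
    {a : H} (ha : IsPrim Δ a) (j : ℕ) : IsPrim Δ (a ^ (2 ^ j)) := by
  induction j with
  | zero => simpa using ha
  | succ j ih =>
    rw [pow_succ, pow_mul]
    exact ih.sq_of_bij hx

/-- Primitives of a primitively generated polynomial Hopf algebra. -/
theorem isPrim_iff_mem_span (hx : Function.Bijective (aeval x : MvPolynomial s F2 →ₐ[F2] H))
    (hprim : ∀ i, IsPrim Δ (x i)) (ξ : H) :
    IsPrim Δ ξ ↔ ξ ∈ Submodule.span F2 {a : H | ∃ i j, a = x i ^ (2 ^ j)} := by
  constructor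
  · intro hξ
    have h := HopfPoly.of_prim (fun _ : s => 0) hx hprim
    have h0 : ξ ∈ WtGe (fun _ : s => 0) x 0 := by
      obtain ⟨f, rfl⟩ := hx.2 ξ
      exact ⟨f, ord_zero _ _, rfl⟩
    have h1 := h.cmp_mem_span hξ h0
    have h2 : ξ ∈ Wt (fun _ : s => 0) x 0 := by
      obtain ⟨f, rfl⟩ := hx.2 ξ
      refine mem_Wt.2 ⟨f, fun d _ => ?_, rfl⟩
      rw [Finsupp.weight_apply]
      simp [Finsupp.sum]
    rw [cmp_self h.bij h2] at h1
    refine Submodule.span_mono ?_ h1
    rintro _ ⟨i, j, _, rfl⟩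
    exact ⟨i, j, rfl⟩
  · intro hξ
    have h1 : Submodule.span F2 {a : H | ∃ i j, a = x i ^ (2 ^ j)} ≤ PrimSub Δ := by
      rw [Submodule.span_le]
      rintro _ ⟨i, j, rfl⟩
      exact isPrim_pow_two_pow hx (hprim i) j
    exact h1 hξ

/-- Graded version: primitives of degree `n`, for any grading `v` of the generators. -/
theorem isPrim_iff_mem_span_deg
    (hx : Function.Bijective (aeval x : MvPolynomial s F2 →ₐ[F2] H))
    (hprim : ∀ i, IsPrim Δ (x i)) (v : s → ℕ) (n : ℕ) (ξ : H) :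
    (IsPrim Δ ξ ∧ ξ ∈ Wt v x n) ↔
      ξ ∈ Submodule.span F2 {a : H | ∃ i j, 2 ^ j * v i = n ∧ a = x i ^ (2 ^ j)} := by
  constructor
  · rintro ⟨hξ, hn⟩
    have h := HopfPoly.of_prim v hx hprim
    have h1 := h.cmp_mem_span hξ (Wt_le_WtGe le_rfl hn)
    rwa [cmp_self h.bij hn] at h1
  · intro hξ
    constructor
    · rw [isPrim_iff_mem_span hx hprim]
      refine Submodule.span_mono ?_ hξ
      rintro _ ⟨i, j, _, rfl⟩
      exact ⟨i, j, rfl⟩
    · have h1 : Submodule.span F2 {a : H | ∃ i j, 2 ^ j * v i = n ∧ a = x i ^ (2 ^ j)} ≤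
          Wt v x n := by
        rw [Submodule.span_le]
        rintro _ ⟨i, j, hij, rfl⟩
        refine mem_Wt.2 ⟨X i ^ (2 ^ j), ?_, by simp⟩
        rw [← hij]
        simpa [smul_eq_mul] using (isWeightedHomogeneous_X F2 v i).pow (2 ^ j)
      exact h1 hξ

/-- The powers `x i ^ 2 ^ j` are linearly independent. -/
theorem linearIndependent_pow (hx : Function.Bijective (aeval x : MvPolynomial s F2 →ₐ[F2] H)) :
    LinearIndependent F2 fun ij : s × ℕ => x ij.1 ^ (2 ^ ij.2) := by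
  have h1 : LinearIndependent F2 fun ij : s × ℕ =>
      (X ij.1 ^ (2 ^ ij.2) : MvPolynomial s F2) := by
    have h2 := (basisMonomials s F2).linearIndependent.comp
      (fun ij : s × ℕ => Finsupp.single ij.1 (2 ^ ij.2)) (by
        rintro ⟨i, j⟩ ⟨i', j'⟩ h
        simp only at h
        rw [Finsupp.single_eq_single_iff] at h
        rcases h with ⟨rfl, h⟩ | ⟨h, _⟩
        · rw [Nat.pow_right_injective (le_refl 2) h]
        · exact absurd h (by positivity))
    have h4 : (fun ij : s × ℕ => (X ij.1 ^ (2 ^ ij.2) : MvPolynomial s F2)) =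
        (basisMonomials s F2) ∘ fun ij : s × ℕ => Finsupp.single ij.1 (2 ^ ij.2) := by
      funext ij
      simp [X_pow_eq_monomial]
    rw [h4]
    exact h2
  have h3 := h1.map' (aeval x : MvPolynomial s F2 →ₐ[F2] H).toLinearMap
    (LinearMap.ker_eq_bot.2 hx.1)
  have h5 : (fun ij : s × ℕ => x ij.1 ^ (2 ^ ij.2)) =
      (aeval x : MvPolynomial s F2 →ₐ[F2] H).toLinearMap ∘
        fun ij : s × ℕ => (X ij.1 ^ (2 ^ ij.2) : MvPolynomial s F2) := by
    funext ij
    simp
  rw [h5]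
  exact h3

/-- **(4.2)** For a primitive element of odd degree, the image of the lowest weight component
under `F` (as in (4.3)) is nonzero. -/
theorem HopfPoly.map_cmp_ne_zero (h : HopfPoly w x Δ) {M : Type*} [AddCommGroup M] [Module F2 M]
    (F : H →ₗ[F2] M) (hli : LinearIndependent F2 fun i => F (x i)) (v : s → ℕ) {n : ℕ}
    (hn : Odd n) {ξ : H} (hξ : IsPrim Δ ξ) (hξn : ξ ∈ Wt v x n) {m : ℕ}
    (hm : ξ ∈ WtGe w x m) (hne : cmp w h.bij m ξ ≠ 0) : F (cmp w h.bij m ξ) ≠ 0 := by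
  have h1 := h.cmp_mem_span hξ hm
  have h2 : cmp w h.bij m ξ ∈ Wt v x n := cmp_mem_Wt h.bij hξn
  have h3 : ∀ a ∈ Submodule.span F2 {a : H | ∃ i j, 2 ^ j * w i = m ∧ a = x i ^ (2 ^ j)},
      cmp v h.bij n a ∈ Submodule.span F2 (Set.range x) := by
    intro a ha
    induction ha using Submodule.span_induction with
    | mem a ha =>
      obtain ⟨i, j, _, rfl⟩ := ha
      have h4 : x i ^ (2 ^ j) ∈ Wt v x (2 ^ j * v i) := by
        refine mem_Wt.2 ⟨X i ^ (2 ^ j), ?_, by simp⟩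
        simpa [smul_eq_mul] using (isWeightedHomogeneous_X F2 v i).pow (2 ^ j)
      rw [cmp_of_mem h.bij h4]
      split_ifs with hnj
      · rcases Nat.eq_zero_or_pos j with hj | hj
        · subst hj
          rw [pow_zero, pow_one]
          exact Submodule.subset_span ⟨i, rfl⟩
        · exfalso
          obtain ⟨j', rfl⟩ := Nat.exists_eq_add_of_le' hj
          rw [pow_succ] at hnj
          obtain ⟨k, hk⟩ := hn
          have : 2 ^ j' * 2 * v i = 2 * (2 ^ j' * v i) := by ring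
          omega
      · exact Submodule.zero_mem _
    | zero => simp
    | add a b _ _ ha hb => rw [map_add]; exact Submodule.add_mem _ ha hb
    | smul c a _ ha => rw [map_smul]; exact Submodule.smul_mem _ _ ha
  have h5 := h3 _ h1
  rw [cmp_self h.bij h2] at h5
  intro h0
  apply hne
  obtain ⟨c, hc⟩ := (Finsupp.mem_span_range_iff_exists_finsupp).1 h5
  have h6 : c = 0 := by
    apply (linearIndependent_iff.1 hli) c
    rw [Finsupp.linearCombination_apply]
    rw [← hc, Finsupp.sum, map_sum] at h0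
    rw [← h0]
    refine Finset.sum_congr rfl fun i _ => ?_
    rw [map_smul]
  rw [← hc, h6, Finsupp.sum_zero_index]

/-- **(4.2), (4.3)** A nonzero primitive element of odd degree is not killed by `F`. -/
theorem HopfPoly.map_ne_zero_of_odd (h : HopfPoly w x Δ) {M : Type*} [AddCommGroup M]
    [Module F2 M] (F : H →ₗ[F2] M) (hF : ∀ i j a, F (x i * (x j * a)) = 0)
    (hli : LinearIndependent F2 fun i => F (x i)) (v : s → ℕ) {n : ℕ}
    (hn : Odd n) {ξ : H} (hξ : IsPrim Δ ξ) (hξn : ξ ∈ Wt v x n) (hne : ξ ≠ 0) : F ξ ≠ 0 := by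
  intro h0
  obtain ⟨ζ, rfl, _⟩ := h.exists_sq_of_ker F hF hli hξ h0
  have := eq_zero_of_sq_mem_odd h.bij hξn hn
  rw [this] at hne
  simp at hne

end Transport

end Crest.Agent.R204.Hopf407
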