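import Crest.Agent.R204.Defs

/-!
# Row 204: working in a range with a polynomial Hopf algebra (helper114)

`P = MvPolynomial G F2` with weights `w`, `e = aeval y : P → H` injective in weights `≤ N`.
Lifting of coproducts and primitives from `H` to `P` in degrees `≤ N`.
-/

set_option autoImplicit false

namespace Crest.Agent.R204.Rng114

open MvPolynomial TensorProduct
open scoped TensorProduct

variable {G : Type} (w : G → ℕ)

/-- weight `t` part of the polynomial ring -/
abbrev V (t : ℕ) : Submodule F2 (MvPolynomial G F2) := weightedHomogeneousSubmodule F2 w t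

/-- weight `≤ N` part -/
def Sle (N : ℕ) : Submodule F2 (MvPolynomial G F2) where
  carrier := {p | ∀ s, p.coeff s ≠ 0 → Finsupp.weight w s ≤ N}
  zero_mem' := by intro s hs; simp at hs
  add_mem' := by
    intro f g hf hg s hs
    by_cases h : f.coeff s = 0
    · exact hg s (fun h' => hs (by rw [coeff_add, h, h', add_zero]))
    · exact hf s h
  smul_mem' := by
    intro c f hf s hs
    exact hf s (fun h => hs (by rw [coeff_smul, h, smul_zero]))

theorem V_le_Sle {t N : ℕ} (h : t ≤ N) : V w t ≤ Sle w N := by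
  intro p hp s hs
  rw [mem_weightedHomogeneousSubmodule] at hp
  exact (hp hs).le.trans h

/-- total weight `t` part of `P ⊗ P` -/
noncomputable def A (t : ℕ) : Submodule F2 (MvPolynomial G F2 ⊗[F2] MvPolynomial G F2) :=
  Submodule.span F2 {z | ∃ a b p q, a + b = t ∧ p ∈ V w a ∧ q ∈ V w b ∧ z = p ⊗ₜ[F2] q}

variable {w}

theorem tmul_mem_A {a b t : ℕ} {p q : MvPolynomial G F2} (h : a + b = t) (hp : p ∈ V w a)
    (hq : q ∈ V w b) : p ⊗ₜ[F2] q ∈ A w t :=
  Submodule.subset_span ⟨a, b, p, q, h, hp, hq, rfl⟩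

theorem V_mul {s t : ℕ} {p q : MvPolynomial G F2} (hp : p ∈ V w s) (hq : q ∈ V w t) :
    p * q ∈ V w (s + t) := by
  rw [mem_weightedHomogeneousSubmodule] at *
  exact hp.mul hq

theorem V_one : (1 : MvPolynomial G F2) ∈ V w 0 := by
  rw [mem_weightedHomogeneousSubmodule]
  exact isWeightedHomogeneous_one F2 w

theorem A_mul {s t : ℕ} {z z' : MvPolynomial G F2 ⊗[F2] MvPolynomial G F2} (hz : z ∈ A w s)
    (hz' : z' ∈ A w t) : z * z' ∈ A w (s + t) := by
  unfold A at hz hz'
  induction hz using Submodule.span_induction with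
  | zero => simp
  | add x y _ _ hx hy => rw [add_mul]; exact Submodule.add_mem _ hx hy
  | smul c x _ hx => rw [smul_mul_assoc]; exact Submodule.smul_mem _ _ hx
  | mem x hx =>
    obtain ⟨a, b, p, q, rfl, hp, hq, rfl⟩ := hx
    induction hz' using Submodule.span_induction with
    | zero => simp
    | add x y _ _ hx hy => rw [mul_add]; exact Submodule.add_mem _ hx hy
    | smul c x _ hx => rw [mul_smul_comm]; exact Submodule.smul_mem _ _ hx
    | mem x hx =>
      obtain ⟨a', b', p', q', rfl, hp', hq', rfl⟩ := hx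
      rw [Algebra.TensorProduct.tmul_mul_tmul]
      exact tmul_mem_A (by omega) (V_mul hp hp') (V_mul hq hq')

theorem A_one : (1 : MvPolynomial G F2 ⊗[F2] MvPolynomial G F2) ∈ A w 0 := by
  rw [Algebra.TensorProduct.one_def]
  exact tmul_mem_A rfl V_one V_one

theorem A_pow {s : ℕ} {z : MvPolynomial G F2 ⊗[F2] MvPolynomial G F2} (hz : z ∈ A w s) (n : ℕ) :
    z ^ n ∈ A w (n * s) := by
  induction n with
  | zero => simpa using A_one (w := w)
  | succ n ih => rw [pow_succ, Nat.succ_mul]; exact A_mul ih hz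

/-- an algebra map `P → P ⊗ P` that respects the weights on generators respects them -/
theorem hom_mem_A (δ : MvPolynomial G F2 →ₐ[F2] MvPolynomial G F2 ⊗[F2] MvPolynomial G F2)
    (h : ∀ i, δ (X i) ∈ A w (w i)) {t : ℕ} {p : MvPolynomial G F2} (hp : p ∈ V w t) :
    δ p ∈ A w t := by
  have mono : ∀ s : G →₀ ℕ, δ (monomial s 1) ∈ A w (Finsupp.weight w s) := by
    intro s
    induction s using Finsupp.induction with
    | zero =>
      rw [map_zero]
      simpa using A_one (w := w)
    | single_add a b f _ _ ih =>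
      rw [map_add, monomial_single_add, map_mul, map_pow]
      refine A_mul ?_ ih
      have := A_pow (h a) b
      simpa [Finsupp.weight_apply] using this
  rw [mem_weightedHomogeneousSubmodule] at hp
  rw [as_sum p, map_sum]
  refine Submodule.sum_mem _ fun s hs => ?_
  have hs' : p.coeff s ≠ 0 := by simpa using hs
  have : monomial s (p.coeff s) = (p.coeff s) • monomial s (1 : F2) := by
    rw [smul_monomial, smul_eq_mul, mul_one]
  rw [this, map_smul]
  refine Submodule.smul_mem _ _ ?_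
  have := mono s
  rwa [hp hs'] at this

theorem weight_le_of_mem {s : G →₀ ℕ} {i : G} (hi : i ∈ s.support) :
    w i ≤ Finsupp.weight w s := by
  rw [Finsupp.weight_apply, Finsupp.sum]
  have h1 : 1 ≤ s i := Nat.one_le_iff_ne_zero.2 (by simpa using hi)
  calc w i = 1 * w i := (one_mul _).symm
    _ ≤ s i * w i := Nat.mul_le_mul_right _ h1
    _ = s i • w i := rfl
    _ ≤ _ := Finset.single_le_sum (f := fun j => s j • w j) (fun _ _ => Nat.zero_le _) hi

theorem var_weight_le {t : ℕ} {p : MvPolynomial G F2} (hp : p ∈ V w t) {i : G} (hi : i ∈ p.vars) :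
    w i ≤ t := by
  classical
  rw [mem_vars] at hi
  obtain ⟨s, hs, his⟩ := hi
  rw [mem_weightedHomogeneousSubmodule] at hp
  have := hp (d := s) (by simpa using hs)
  rw [← this]
  exact weight_le_of_mem his

section target

variable {H : Type} [CommRing H] [Algebra F2 H] {gr : ℕ → Submodule F2 H} {y : G → H} {N : ℕ}

theorem aeval_mem_gr (h1 : (1 : H) ∈ gr 0)
    (hmul : ∀ s t a b, a ∈ gr s → b ∈ gr t → a * b ∈ gr (s + t)) {t : ℕ}
    (hy : ∀ i, w i ≤ t → y i ∈ gr (w i)) {p : MvPolynomial G F2} (hp : p ∈ V w t) :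
    aeval y p ∈ gr t := by
  have mono : ∀ s : G →₀ ℕ, Finsupp.weight w s ≤ t →
      aeval y (monomial s (1 : F2)) ∈ gr (Finsupp.weight w s) := by
    intro s
    induction s using Finsupp.induction with
    | zero => intro _; simpa using h1
    | single_add a b f ha hb ih =>
      intro hle
      have hw : Finsupp.weight w (Finsupp.single a b + f) = b * w a + Finsupp.weight w f := by
        simp [Finsupp.weight_apply, map_add]
      rw [hw] at hle ⊢
      rw [monomial_single_add, map_mul, map_pow, aeval_X]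
      refine hmul _ _ _ _ ?_ (ih (by omega))
      have ha' : y a ∈ gr (w a) := by
        refine hy a ?_
        have : 1 ≤ b := Nat.one_le_iff_ne_zero.2 hb
        nlinarith
      clear hle hw hb ih
      induction b with
      | zero => simpa using h1
      | succ n ihn =>
        rw [pow_succ, Nat.succ_mul]
        exact hmul _ _ _ _ ihn ha'
  rw [mem_weightedHomogeneousSubmodule] at hp
  rw [as_sum p, map_sum]
  refine Submodule.sum_mem _ fun s hs => ?_
  have hs' : p.coeff s ≠ 0 := by simpa using hs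
  have : monomial s (p.coeff s) = (p.coeff s) • monomial s (1 : F2) := by
    rw [smul_monomial, smul_eq_mul, mul_one]
  rw [this, map_smul]
  refine Submodule.smul_mem _ _ ?_
  have := mono s (hp hs').le
  rwa [hp hs'] at this

/-- injectivity on everything of weight `≤ N` -/
theorem inj_Sle (hind : iSupIndep gr) (h1 : (1 : H) ∈ gr 0)
    (hmul : ∀ s t a b, a ∈ gr s → b ∈ gr t → a * b ∈ gr (s + t))
    (hy : ∀ i, w i ≤ N → y i ∈ gr (w i))
    (hinj : ∀ t ≤ N, ∀ p ∈ V w t, aeval y p = 0 → p = 0)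
    {p : MvPolynomial G F2} (hp : p ∈ Sle w N) (h0 : aeval y p = 0) : p = 0 := by
  classical
  have hsum : p = ∑ t ∈ Finset.range (N + 1), weightedHomogeneousComponent w t p := by
    ext s
    rw [coeff_sum]
    simp only [coeff_weightedHomogeneousComponent]
    rw [Finset.sum_ite_eq]
    split_ifs with h
    · rfl
    · by_contra hne
      exact h (Finset.mem_range.2 (Nat.lt_succ_of_le (hp s hne)))
  have hz : ∑ t ∈ Finset.range (N + 1), aeval y (weightedHomogeneousComponent w t p) = 0 := by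
    rw [← map_sum, ← hsum, h0]
  have := (iSupIndep_iff_finset_sum_eq_zero_imp_eq_zero gr).1 hind (Finset.range (N + 1))
    (fun t => aeval y (weightedHomogeneousComponent w t p)) ?_ hz
  · rw [hsum]
    refine Finset.sum_eq_zero fun t ht => ?_
    exact hinj t (Nat.lt_succ_iff.1 (Finset.mem_range.1 ht)) _
      (weightedHomogeneousComponent_mem w p t) (this t ht)
  · intro t ht
    refine aeval_mem_gr h1 hmul (fun i hi => hy i (hi.trans ?_))
      (weightedHomogeneousComponent_mem w p t)
    exact Nat.lt_succ_iff.1 (Finset.mem_range.1 ht)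

theorem A_le_range {t N : ℕ} (h : t ≤ N) : A w t ≤
    LinearMap.range (TensorProduct.map (Sle w N).subtype (Sle w N).subtype) := by
  refine Submodule.span_le.2 ?_
  rintro _ ⟨a, b, p, q, hab, hp, hq, rfl⟩
  exact ⟨(⟨p, V_le_Sle w (by omega) hp⟩ : Sle w N) ⊗ₜ (⟨q, V_le_Sle w (by omega) hq⟩ : Sle w N), rfl⟩

/-- `e ⊗ e` is injective in total weight `≤ N` -/
theorem tensor_inj (hind : iSupIndep gr) (h1 : (1 : H) ∈ gr 0)
    (hmul : ∀ s t a b, a ∈ gr s → b ∈ gr t → a * b ∈ gr (s + t))
    (hy : ∀ i, w i ≤ N → y i ∈ gr (w i))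
    (hinj : ∀ t ≤ N, ∀ p ∈ V w t, aeval y p = 0 → p = 0)
    {t : ℕ} (ht : t ≤ N) {z : MvPolynomial G F2 ⊗[F2] MvPolynomial G F2} (hz : z ∈ A w t)
    (h0 : TensorProduct.map (aeval y : MvPolynomial G F2 →ₐ[F2] H).toLinearMap
      (aeval y : MvPolynomial G F2 →ₐ[F2] H).toLinearMap z = 0) : z = 0 := by
  obtain ⟨z', rfl⟩ := A_le_range ht hz
  set e : MvPolynomial G F2 →ₗ[F2] H := (aeval y : MvPolynomial G F2 →ₐ[F2] H).toLinearMap with he
  have hi : Function.Injective (e ∘ₗ (Sle w N).subtype) := by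
    rw [injective_iff_map_eq_zero]
    rintro ⟨p, hp⟩ h
    exact Subtype.ext (inj_Sle hind h1 hmul hy hinj hp h)
  have hii : Function.Injective (TensorProduct.map (e ∘ₗ (Sle w N).subtype)
      (e ∘ₗ (Sle w N).subtype)) :=
    TensorProduct.map_injective_of_flat_flat _ _ hi hi
  rw [← LinearMap.comp_apply, ← TensorProduct.map_comp] at h0
  have : z' = 0 := hii (by rw [h0, map_zero])
  rw [this, map_zero]

variable (Δ : H →ₐ[F2] H ⊗[F2] H)
  (δ : MvPolynomial G F2 →ₐ[F2] MvPolynomial G F2 ⊗[F2] MvPolynomial G F2)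

/-- compatibility of the coproducts in the range -/
theorem cop_compat (hΔ : ∀ i, w i ≤ N → Δ (y i) =
      TensorProduct.map (aeval y : MvPolynomial G F2 →ₐ[F2] H).toLinearMap
      (aeval y : MvPolynomial G F2 →ₐ[F2] H).toLinearMap (δ (X i)))
    {t : ℕ} (ht : t ≤ N) {p : MvPolynomial G F2} (hp : p ∈ V w t) :
    Δ (aeval y p) = TensorProduct.map (aeval y : MvPolynomial G F2 →ₐ[F2] H).toLinearMap
      (aeval y : MvPolynomial G F2 →ₐ[F2] H).toLinearMap (δ p) := by
  have e1 : ∀ z, TensorProduct.map (aeval y : MvPolynomial G F2 →ₐ[F2] H).toLinearMap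
      (aeval y : MvPolynomial G F2 →ₐ[F2] H).toLinearMap z =
      Algebra.TensorProduct.map (aeval y : MvPolynomial G F2 →ₐ[F2] H)
        (aeval y : MvPolynomial G F2 →ₐ[F2] H) z := fun _ => rfl
  rw [e1]
  have e2 : Δ (aeval y p) = (aeval (fun i => Δ (y i)) p : H ⊗[F2] H) := by
    have : (Δ.comp (aeval y : MvPolynomial G F2 →ₐ[F2] H)) = aeval (fun i => Δ (y i)) := by
      apply MvPolynomial.algHom_ext; intro i; simp
    rw [← this]; rfl
  have e3 : Algebra.TensorProduct.map (aeval y : MvPolynomial G F2 →ₐ[F2] H)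
        (aeval y : MvPolynomial G F2 →ₐ[F2] H) (δ p) =
      (aeval (fun i => Algebra.TensorProduct.map (aeval y : MvPolynomial G F2 →ₐ[F2] H)
        (aeval y : MvPolynomial G F2 →ₐ[F2] H) (δ (X i))) p : H ⊗[F2] H) := by
    have : ((Algebra.TensorProduct.map (aeval y : MvPolynomial G F2 →ₐ[F2] H)
        (aeval y : MvPolynomial G F2 →ₐ[F2] H)).comp δ) =
        aeval (fun i => Algebra.TensorProduct.map (aeval y : MvPolynomial G F2 →ₐ[F2] H)
        (aeval y : MvPolynomial G F2 →ₐ[F2] H) (δ (X i))) := by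
      apply MvPolynomial.algHom_ext; intro i; simp
    rw [← this]; rfl
  rw [e2, e3]
  rw [aeval_def, aeval_def]
  refine eval₂Hom_congr' rfl (fun i hi _ => ?_) rfl
  exact hΔ i ((var_weight_le hp hi).trans ht)

/-- a primitive of `H` in the range lifts to a primitive of `P` -/
theorem prim_lift (hind : iSupIndep gr) (h1 : (1 : H) ∈ gr 0)
    (hmul : ∀ s t a b, a ∈ gr s → b ∈ gr t → a * b ∈ gr (s + t))
    (hy : ∀ i, w i ≤ N → y i ∈ gr (w i))
    (hinj : ∀ t ≤ N, ∀ p ∈ V w t, aeval y p = 0 → p = 0)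
    (hδ : ∀ i, δ (X i) ∈ A w (w i))
    (hΔ : ∀ i, w i ≤ N → Δ (y i) =
      TensorProduct.map (aeval y : MvPolynomial G F2 →ₐ[F2] H).toLinearMap
      (aeval y : MvPolynomial G F2 →ₐ[F2] H).toLinearMap (δ (X i)))
    {t : ℕ} (ht : t ≤ N) {p : MvPolynomial G F2} (hp : p ∈ V w t)
    (hprim : Δ (aeval y p) = aeval y p ⊗ₜ[F2] 1 + 1 ⊗ₜ[F2] aeval y p) :
    δ p = p ⊗ₜ[F2] 1 + 1 ⊗ₜ[F2] p := by
  rw [← sub_eq_zero]
  refine tensor_inj hind h1 hmul hy hinj ht (z := δ p - (p ⊗ₜ[F2] 1 + 1 ⊗ₜ[F2] p)) ?_ ?_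
  · exact Submodule.sub_mem _ (hom_mem_A δ hδ hp)
      (Submodule.add_mem _ (tmul_mem_A (by omega) hp V_one) (tmul_mem_A (by omega) V_one hp))
  · rw [map_sub, ← cop_compat Δ δ hΔ ht hp, hprim, map_add, TensorProduct.map_tmul,
      TensorProduct.map_tmul]
    simp

end target

end Crest.Agent.R204.Rng114
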