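import Crest.Agent.R204.GlueA_114
import Crest.Agent.R204.Rng_114
import Crest.Agent.R204.HopfT_407

/-!
# Row 204: glue, part B: words, primitivity, Frobenius and suspension in the range (helper114)
-/

set_option autoImplicit false

noncomputable section

namespace Crest.Agent.R204.Glue114

open Spec114 TensorProduct MvPolynomial Rng114
open scoped TensorProduct

variable {Y : Spec114.Tower} {S : Sph Y} {D d : ℕ}

/-! ## degrees of words -/

theorem wdeg_cons (k i : ℕ) (I : List ℕ) :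
    Tower.wdeg k (i :: I) = 2 * Tower.wdeg k I + i := rfl

theorem wdeg_nil (k : ℕ) : Tower.wdeg k [] = k := rfl

theorem le_wdeg (k : ℕ) (I : List ℕ) : k ≤ Tower.wdeg k I := by
  induction I with
  | nil => exact le_rfl
  | cons i I ih => rw [wdeg_cons]; omega

theorem mem_le_wdeg {k i : ℕ} {I : List ℕ} (hi : i ∈ I) : i + k ≤ Tower.wdeg k I := by
  induction I with
  | nil => simp at hi
  | cons j I ih =>
    rw [wdeg_cons]
    have := le_wdeg k I
    rcases List.mem_cons.1 hi with rfl | h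
    · omega
    · have := ih h
      omega

theorem word_cons (Y : Spec114.Tower) (k i : ℕ) (I : List ℕ) :
    Y.word k (i :: I) = Y.Q k i (Y.word k I) := rfl

/-! ## connectivity -/

theorem conn (hF : Facts Y S D d) {k : ℕ} (h1 : 1 ≤ k) (hk : k ≤ D + 2) {u : ℕ} (hu : 1 ≤ u)
    (huk : u < k) : Y.gr k u = ⊥ := by
  rw [eq_bot_iff]
  refine ((hF.poly k h1 hk).2 u (by omega)).trans ?_
  rintro _ ⟨p, hp, rfl⟩
  have hp' : p ∈ V (fun I : Tower.Wd => Tower.wdeg k I.1) u := hp
  have : p = 0 := by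
    ext s
    rw [coeff_zero]
    by_contra hne
    have hs := (mem_weightedHomogeneousSubmodule F2 _ _ _).1 hp' hne
    rcases Finset.eq_empty_or_nonempty s.support with he | ⟨i, hi⟩
    · rw [Finsupp.support_eq_empty] at he
      subst he
      rw [map_zero] at hs
      omega
    · have h2 : Tower.wdeg k i.1 ≤ Finsupp.weight (fun I : Tower.Wd => Tower.wdeg k I.1) s :=
        weight_le_of_mem (w := fun I : Tower.Wd => Tower.wdeg k I.1) hi
      have h3 := le_wdeg k i.1
      omega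
  subst this
  simp

theorem gr_zero (hF : Facts Y S D d) {k : ℕ} (h1 : 1 ≤ k) (hk : k ≤ D + 2) {y : Y.H k}
    (hy : y ∈ Y.gr k 0) : ∃ c : F2, y = algebraMap F2 (Y.H k) c := by
  classical
  obtain ⟨p, hp, rfl⟩ := (hF.poly k h1 hk).2 0 (by omega) hy
  have hp' : p ∈ V (fun I : Tower.Wd => Tower.wdeg k I.1) 0 := hp
  refine ⟨p.coeff 0, ?_⟩
  have : p = C (p.coeff 0) := by
    ext s
    rw [coeff_C]
    split_ifs with h
    · rw [← h]
    · by_contra hne
      have hs := (mem_weightedHomogeneousSubmodule F2 _ _ _).1 hp' hne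
      obtain ⟨i, hi⟩ : s.support.Nonempty := by
        rw [Finset.nonempty_iff_ne_empty]
        intro he
        rw [Finsupp.support_eq_empty] at he
        exact h he.symm
      have h2 : Tower.wdeg k i.1 ≤ Finsupp.weight (fun I : Tower.Wd => Tower.wdeg k I.1) s :=
        weight_le_of_mem (w := fun I : Tower.Wd => Tower.wdeg k I.1) hi
      have h3 := le_wdeg k i.1
      omega
  conv_lhs => rw [this]
  simp

/-! ## operations on primitives -/

theorem Q_zero' (hF : Facts Y S D d) {k : ℕ} (hk : k ≤ D + 2) {i : ℕ} (hi : i ≤ D + 1) :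
    Y.Q k i 0 = 0 := by
  obtain ⟨h0, hadd, _⟩ := hF.q k hk
  rcases Nat.eq_zero_or_pos i with rfl | hpos
  · rw [h0, mul_zero]
  · have := hadd i hpos hi 0 0
    rw [add_zero] at this
    rwa [right_eq_add] at this

theorem T_prim (hF : Facts Y S D d) {k : ℕ} (hk : k ≤ D + 2) {i : ℕ} (hi : i ≤ D + 1) {y : Y.H k}
    (hy : y ∈ Y.prim k) : Y.T k i y ∈ Y.prim k := by
  rw [Tower.mem_prim] at hy ⊢
  rw [(hF.t k hk i hi).2.2.1, hy]
  have h1 : ∀ b, b ≤ i → Y.T k b 1 = if b = 0 then 1 else 0 :=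
    fun b hb => (hF.t k hk b (hb.trans hi)).2.1
  simp only [map_add, TensorProduct.map_tmul, Finset.sum_add_distrib]
  congr 1
  · rw [Finset.sum_eq_single (i, 0)]
    · rw [h1 0 (Nat.zero_le _), if_pos rfl]
    · rintro ⟨p, q⟩ hpq hne
      rw [Finset.HasAntidiagonal.mem_antidiagonal] at hpq
      simp only at hpq
      have : q ≠ 0 := by
        rintro rfl
        exact hne (by simp; omega)
      simp only [h1 q (by omega), if_neg this, TensorProduct.tmul_zero]
    · intro h
      exact absurd (by rw [Finset.HasAntidiagonal.mem_antidiagonal]; simp) h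
  · rw [Finset.sum_eq_single (0, i)]
    · rw [h1 0 (Nat.zero_le _), if_pos rfl]
    · rintro ⟨p, q⟩ hpq hne
      rw [Finset.HasAntidiagonal.mem_antidiagonal] at hpq
      simp only at hpq
      have : p ≠ 0 := by
        rintro rfl
        exact hne (by simp; omega)
      simp only [h1 p (by omega), if_neg this, TensorProduct.zero_tmul]
    · intro h
      exact absurd (by rw [Finset.HasAntidiagonal.mem_antidiagonal]; simp) h

theorem Qup_prim (hF : Facts Y S D d) {k : ℕ} (h1 : 1 ≤ k) (hk : k ≤ D + 2) :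
    ∀ (t : ℕ), k ≤ t → ∀ (s : ℕ) (y : Y.H k), y ∈ Y.prim k → y ∈ Y.gr k t → s + t ≤ k + D →
      Y.Qup k s t y ∈ Y.prim k := by
  intro t
  induction t using Nat.strong_induction_on with
  | _ t ih =>
    intro hkt s y hy hyt hst
    by_cases hs : t ≤ s
    swap
    · rw [Tower.Qup, if_neg hs]; exact Submodule.zero_mem _
    have hs1 : 1 ≤ s := by omega
    have hsD : s ≤ D + 1 := by omega
    have key := hF.f13 k hk s hs1 hsD t y hyt
    rw [Finset.sum_range_succ'] at key
    have h0 : Y.Sq k 0 y = y := (hF.sq k hk).1 y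
    rw [h0, add_zero, Nat.sub_zero] at key
    have : Y.Qup k s t y = Y.T k s y -
        ∑ l ∈ Finset.range (t / 2), Y.Qup k (s + (l + 1)) (t - (l + 1)) (Y.Sq k (l + 1) y) := by
      rw [key]; abel
    rw [this]
    refine Submodule.sub_mem _ (T_prim hF hk hsD hy) (Submodule.sum_mem _ fun l hl => ?_)
    rw [Finset.mem_range] at hl
    have hl2 : 2 * (l + 1) ≤ t := by omega
    have hmem : Y.Sq k (l + 1) y ∈ Y.gr k (t - (l + 1)) := (hF.sq k hk).2.1 (l + 1) t y hyt
    by_cases hlk : k ≤ t - (l + 1)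
    · exact ih (t - (l + 1)) (by omega) hlk _ _ (Sq_mem_prim hF.sq hk _ _ hy) hmem (by omega)
    · have hz : Y.Sq k (l + 1) y = 0 := by
        have := conn hF h1 hk (u := t - (l + 1)) (by omega) (by omega)
        rw [this] at hmem
        simpa using hmem
      rw [hz, Tower.Qup]
      split_ifs
      · rw [Q_zero' hF hk (by omega)]; exact Submodule.zero_mem _
      · exact Submodule.zero_mem _

/-- words are homogeneous -/
theorem word_mem_gr (hF : Facts Y S D d) {k : ℕ} (hk : k ≤ D + 2) (I : List ℕ)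
    (hI : ∀ i ∈ I, i ≤ D + 1) : Y.word k I ∈ Y.gr k (Tower.wdeg k I) := by
  induction I with
  | nil => exact (hF.x.1 k hk).1
  | cons i I ih =>
    rw [word_cons, wdeg_cons]
    exact (hF.q k hk).2.2 i (hI i (by simp)) _ _ (ih fun j hj => hI j (by simp [hj]))

/-- words in the range are primitive (`k ≥ 1`) -/
theorem word_prim (hF : Facts Y S D d) {k : ℕ} (h1 : 1 ≤ k) (hk : k ≤ D + 2) (I : List ℕ)
    (hI : Tower.wdeg k I ≤ k + D) : Y.word k I ∈ Y.prim k := by
  induction I with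
  | nil => exact hF.x.2.1 k h1 hk
  | cons i I ih =>
    rw [wdeg_cons] at hI
    have hle := le_wdeg k I
    have h2 : Y.word k I ∈ Y.prim k := ih (by omega)
    have h3 : Y.word k I ∈ Y.gr k (Tower.wdeg k I) := by
      refine word_mem_gr hF hk I fun j hj => ?_
      have := mem_le_wdeg (k := k) hj
      omega
    have := Qup_prim hF h1 hk (Tower.wdeg k I) hle (i + Tower.wdeg k I) _ h2 h3 (by omega)
    rw [Tower.Qup, if_pos (by omega), Nat.add_sub_cancel] at this
    exact this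

/-! ## the polynomial presentation, `k ≥ 1` -/

/-- weights of generators -/
abbrev wk (k : ℕ) : Tower.Wd → ℕ := fun I => Tower.wdeg k I.1

/-- generators -/
abbrev yk (Y : Spec114.Tower) (k : ℕ) : Tower.Wd → Y.H k := fun I => Y.word k I.1

theorem yk_mem (hF : Facts Y S D d) {k : ℕ} (hk : k ≤ D + 2) :
    ∀ i, wk k i ≤ k + D → yk Y k i ∈ Y.gr k (wk k i) := by
  intro I hI
  refine word_mem_gr hF hk I.1 fun j hj => ?_
  have := mem_le_wdeg (k := k) hj
  have : Tower.wdeg k I.1 ≤ k + D := hI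
  omega

theorem ind (hF : Facts Y S D d) {k : ℕ} (hk : k ≤ D + 2) : iSupIndep (Y.gr k) :=
  (hF.gr k hk).1.submodule_iSupIndep

/-- the primitive coproduct on the polynomial ring -/
def δ1 (G : Type) : MvPolynomial G F2 →ₐ[F2] MvPolynomial G F2 ⊗[F2] MvPolynomial G F2 :=
  aeval fun i => X i ⊗ₜ[F2] 1 + 1 ⊗ₜ[F2] X i

@[simp] theorem δ1_X {G : Type} (i : G) : δ1 G (MvPolynomial.X i) = X i ⊗ₜ[F2] 1 + 1 ⊗ₜ[F2] X i := by
  simp [δ1]

theorem δ1_mem {G : Type} (w : G → ℕ) (i : G) : δ1 G (MvPolynomial.X i) ∈ A w (w i) := by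
  rw [δ1_X]
  have hX : (MvPolynomial.X i : MvPolynomial G F2) ∈ V w (w i) := by
    rw [mem_weightedHomogeneousSubmodule]; exact isWeightedHomogeneous_X F2 w i
  exact Submodule.add_mem _ (tmul_mem_A (by omega) hX V_one) (tmul_mem_A (by omega) V_one hX)

theorem δ1_compat (hF : Facts Y S D d) {k : ℕ} (h1 : 1 ≤ k) (hk : k ≤ D + 2) :
    ∀ i, wk k i ≤ k + D → Y.Δ k (yk Y k i) =
      TensorProduct.map (aeval (yk Y k) : MvPolynomial Tower.Wd F2 →ₐ[F2] Y.H k).toLinearMap
      (aeval (yk Y k) : MvPolynomial Tower.Wd F2 →ₐ[F2] Y.H k).toLinearMap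
        (δ1 Tower.Wd (MvPolynomial.X i)) := by
  intro I hI
  have := word_prim hF h1 hk I.1 hI
  rw [Tower.mem_prim] at this
  rw [this, δ1_X, map_add, TensorProduct.map_tmul, TensorProduct.map_tmul]
  simp

theorem bijX (G : Type) : Function.Bijective
    (aeval (MvPolynomial.X : G → MvPolynomial G F2) : MvPolynomial G F2 →ₐ[F2] MvPolynomial G F2) := by
  rw [aeval_X_left]; exact Function.bijective_id

theorem hopf1 (G : Type) (w : G → ℕ) : Hopf407.HopfPoly w (MvPolynomial.X : G → MvPolynomial G F2)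
    (δ1 G) := Hopf407.HopfPoly.of_prim w (bijX G) fun i => by
      show δ1 G (MvPolynomial.X i) = _
      simp

/-- every homogeneous primitive in the range comes from a homogeneous primitive polynomial -/
theorem exists_prim_poly (hF : Facts Y S D d) {k : ℕ} (h1 : 1 ≤ k) (hk : k ≤ D + 2) {t : ℕ}
    (ht : t ≤ k + D) {ξ : Y.H k} (hξ : ξ ∈ Y.gr k t) (hp : ξ ∈ Y.prim k) :
    ∃ p ∈ V (wk k) t, aeval (yk Y k) p = ξ ∧ Hopf407.IsPrim (δ1 Tower.Wd) p := by
  obtain ⟨p, hpV, rfl⟩ := (hF.poly k h1 hk).2 t (by omega) hξ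
  refine ⟨p, hpV, rfl, ?_⟩
  exact prim_lift (Y.Δ k) (δ1 Tower.Wd) (ind hF hk) (hF.gr k hk).2.1 (hF.gr k hk).2.2
    (yk_mem hF hk) (hF.poly k h1 hk).1 (δ1_mem _) (δ1_compat hF h1 hk) ht hpV hp

/-- Frobenius is injective in the range, `k ≥ 1` -/
theorem sq_inj (hF : Facts Y S D d) {k : ℕ} (h1 : 1 ≤ k) (hk : k ≤ D + 2) {t : ℕ}
    (ht : 2 * t ≤ k + D) {ξ : Y.H k} (hξ : ξ ∈ Y.gr k t) (h0 : ξ * ξ = 0) : ξ = 0 := by
  obtain ⟨p, hpV, rfl⟩ := (hF.poly k h1 hk).2 t (by omega) hξ
  have hpV' : p ∈ V (wk k) t := hpV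
  change aeval (yk Y k) p * aeval (yk Y k) p = 0 at h0
  rw [← map_mul] at h0
  have h2 := (hF.poly k h1 hk).1 (t + t) (by omega) (p * p) (V_mul hpV' hpV') h0
  have : p = 0 := by simpa using h2
  rw [this, map_zero]

end Crest.Agent.R204.Glue114
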