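import Crest.Agent.R204.GlueB_114

/-!
# Row 204: glue, part C: suspension on words and its kernel; admissible words (helper114)
-/

set_option autoImplicit false

noncomputable section

namespace Crest.Agent.R204.Glue114

open Spec114 TensorProduct MvPolynomial Rng114
open scoped TensorProduct

variable {Y : Spec114.Tower} {S : Sph Y} {D d : ℕ}

/-! ## leading zeros are iterated squares -/

theorem word_replicate_zero (hF : Facts Y S D d) {k : ℕ} (hk : k ≤ D + 2) (z : ℕ) (J : List ℕ) :
    Y.word k (List.replicate z 0 ++ J) = Y.word k J ^ (2 ^ z) := by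
  induction z with
  | zero => simp
  | succ z ih =>
    rw [List.replicate_succ, List.cons_append, word_cons, (hF.q k hk).1, ih, pow_succ (2 : ℕ),
      mul_two, pow_add]

theorem wdeg_replicate_zero (k z : ℕ) (J : List ℕ) :
    Tower.wdeg k (List.replicate z 0 ++ J) = 2 ^ z * Tower.wdeg k J := by
  induction z with
  | zero => simp
  | succ z ih =>
    rw [List.replicate_succ, List.cons_append, wdeg_cons, ih, pow_succ]; ring

/-- suspension of a word -/
theorem sig_word (hF : Facts Y S D d) {k : ℕ} (hk : k ≤ D + 1) (I : List ℕ)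
    (hI : ∀ i ∈ I, 1 ≤ i ∧ i ≤ D + 1) :
    Y.σ k (Y.word k I) = Y.word (k + 1) (I.map (· - 1)) := by
  induction I with
  | nil => exact (hF.sigma k hk).2.2.2.2.2.2
  | cons i I ih =>
    obtain ⟨hi1, hi2⟩ := hI i (by simp)
    obtain ⟨j, rfl⟩ : ∃ j, i = j + 1 := ⟨i - 1, by omega⟩
    rw [word_cons, (hF.sigma k hk).2.2.2.2.2.1 j hi2, ih fun i' hi' => hI i' (by simp [hi'])]
    rfl

theorem wdeg_map_pred (k : ℕ) (I : List ℕ) (hI : ∀ i ∈ I, 1 ≤ i) :
    Tower.wdeg (k + 1) (I.map (· - 1)) = Tower.wdeg k I + 1 := by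
  induction I with
  | nil => rfl
  | cons i I ih =>
    have hi1 := hI i (by simp)
    rw [List.map_cons, wdeg_cons, wdeg_cons, ih fun i' hi' => hI i' (by simp [hi'])]
    omega

/-! ## splitting off the leading zeros of an admissible list -/

/-- the number of leading zeros -/
def lz (J : List ℕ) : ℕ := (J.takeWhile (· = 0)).length

/-- the rest -/
def rz (J : List ℕ) : List ℕ := J.dropWhile (· = 0)

theorem split_zeros (J : List ℕ) : List.replicate (lz J) 0 ++ rz J = J := by
  have h : J.takeWhile (· = 0) = List.replicate (lz J) 0 := by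
    rw [List.eq_replicate_iff]
    refine ⟨rfl, fun b hb => ?_⟩
    have := List.mem_takeWhile_imp hb
    simpa using this
  rw [← h]
  exact List.takeWhile_append_dropWhile

theorem rz_pos {J : List ℕ} (hJ : J.Pairwise (· ≤ ·)) : ∀ i ∈ rz J, 1 ≤ i := by
  intro i hi
  have hne : rz J ≠ [] := List.ne_nil_of_mem hi
  have hhead : 1 ≤ (rz J).head hne := by
    have := List.head_dropWhile_not (p := fun x : ℕ => decide (x = 0)) (l := J) hne
    have h2 : ¬ ((rz J).head hne = 0) := by
      intro h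
      simp only [rz] at h
      rw [h] at this
      simp at this
    omega
  have hs : (rz J).Pairwise (· ≤ ·) := hJ.sublist (List.dropWhile_sublist _)
  obtain ⟨a, l, hal⟩ := List.exists_cons_of_ne_nil hne
  rw [hal] at hi hs
  have hhead' : 1 ≤ a := by
    have : (rz J).head hne = a := by simp [hal]
    omega
  rcases List.mem_cons.1 hi with rfl | h
  · exact hhead'
  · exact hhead'.trans ((List.pairwise_cons.1 hs).1 i h)

theorem rz_pairwise {J : List ℕ} (hJ : J.Pairwise (· ≤ ·)) : (rz J).Pairwise (· ≤ ·) :=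
  hJ.sublist (List.dropWhile_sublist _)

/-- the generator underlying an admissible list (entries `≥ 0`) -/
def gen (J : List ℕ) (hJ : J.Pairwise (· ≤ ·)) : Tower.Wd := ⟨rz J, rz_pairwise hJ, rz_pos hJ⟩

theorem word_eq_pow (hF : Facts Y S D d) {k : ℕ} (hk : k ≤ D + 2) (J : List ℕ)
    (hJ : J.Pairwise (· ≤ ·)) :
    Y.word k J = yk Y k (gen J hJ) ^ (2 ^ lz J) := by
  conv_lhs => rw [← split_zeros J]
  exact word_replicate_zero hF hk _ _

theorem wdeg_eq_mul (k : ℕ) (J : List ℕ) (hJ : J.Pairwise (· ≤ ·)) :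
    Tower.wdeg k J = 2 ^ lz J * wk k (gen J hJ) := by
  conv_lhs => rw [← split_zeros J]
  exact wdeg_replicate_zero k _ _

/-- `gen` and `lz` determine the list -/
theorem gen_lz_inj {J J' : List ℕ} (hJ : J.Pairwise (· ≤ ·)) (hJ' : J'.Pairwise (· ≤ ·))
    (h : gen J hJ = gen J' hJ') (h' : lz J = lz J') : J = J' := by
  have h1 : rz J = rz J' := congrArg Subtype.val h
  rw [← split_zeros J, ← split_zeros J', h1, h']

theorem lz_append (z : ℕ) (I : List ℕ) (hI : ∀ i ∈ I, 1 ≤ i) :
    lz (List.replicate z 0 ++ I) = z ∧ rz (List.replicate z 0 ++ I) = I := by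
  induction z with
  | zero =>
    cases I with
    | nil => exact ⟨rfl, rfl⟩
    | cons a l =>
      have : 1 ≤ a := hI a (by simp)
      have ha : a ≠ 0 := by omega
      simp [lz, rz, ha]
  | succ z ih =>
    obtain ⟨h1, h2⟩ := ih
    constructor
    · rw [List.replicate_succ, List.cons_append]
      simp only [lz, List.takeWhile_cons, decide_true, if_true, List.length_cons]
      rw [lz] at h1
      rw [h1]
    · rw [List.replicate_succ, List.cons_append]
      simp only [rz, List.dropWhile_cons, decide_true, if_true]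
      exact h2

/-! ## the formal suspension on a polynomial presentation -/

section susp

variable {G : Type} (sh : G → Tower.Wd × ℕ)

open Classical in
/-- `X_i ↦ X_{(sh i).1}^(2^(sh i).2)`, all other monomials `↦ 0` -/
def Fm : MvPolynomial G F2 →ₗ[F2] MvPolynomial Tower.Wd F2 :=
  (basisMonomials G F2).constr F2 fun s =>
    if h : ∃ i, s = Finsupp.single i 1 then X (sh h.choose).1 ^ (2 ^ (sh h.choose).2) else 0

theorem Fm_monomial_single (i : G) :
    Fm sh (monomial (Finsupp.single i 1) 1) = X (sh i).1 ^ (2 ^ (sh i).2) := by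
  classical
  have h : ∃ j, Finsupp.single i 1 = Finsupp.single j (1 : ℕ) := ⟨i, rfl⟩
  have h2 : h.choose = i := by
    have := h.choose_spec
    exact ((Finsupp.single_left_injective one_ne_zero) this).symm
  have e : (monomial (Finsupp.single i 1) (1 : F2) : MvPolynomial G F2) =
    basisMonomials G F2 (Finsupp.single i 1) := by simp
  rw [e, Fm, Module.Basis.constr_basis, dif_pos h, h2]

theorem Fm_monomial_other {s : G →₀ ℕ} (hs : ¬ ∃ i, s = Finsupp.single i 1) :
    Fm sh (monomial s 1) = 0 := by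
  classical
  have e : (monomial s (1 : F2) : MvPolynomial G F2) = basisMonomials G F2 s := by simp
  rw [e, Fm, Module.Basis.constr_basis, dif_neg hs]

theorem Fm_X (i : G) : Fm sh (X i) = X (sh i).1 ^ (2 ^ (sh i).2) := Fm_monomial_single sh i

theorem Fm_mul (i j : G) (a : MvPolynomial G F2) : Fm sh (X i * (X j * a)) = 0 := by
  induction a using MvPolynomial.induction_on' with
  | add p q hp hq => rw [mul_add, mul_add, map_add, hp, hq, add_zero]
  | monomial s c =>
    have : (X i * (X j * monomial s c) : MvPolynomial G F2) =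
        c • monomial (Finsupp.single i 1 + (Finsupp.single j 1 + s)) 1 := by
      rw [X, X, monomial_mul, monomial_mul, smul_monomial]
      simp
    rw [this, map_smul, Fm_monomial_other, smul_zero]
    rintro ⟨l, hl⟩
    have h1 := congrArg (fun f : G →₀ ℕ => f.sum fun _ n => n) hl
    beta_reduce at h1
    rw [Finsupp.sum_add_index' (by simp) (by intros; rfl),
      Finsupp.sum_add_index' (by simp) (by intros; rfl)] at h1
    simp at h1

theorem Fm_li (hsh : Function.Injective sh) : LinearIndependent F2 fun i => Fm sh (X i) := by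
  have h2 := (basisMonomials Tower.Wd F2).linearIndependent.comp
    (fun i : G => Finsupp.single (sh i).1 (2 ^ (sh i).2)) (by
      intro i i' h
      beta_reduce at h
      rw [Finsupp.single_eq_single_iff] at h
      rcases h with ⟨h, h'⟩ | ⟨h, _⟩
      · exact hsh (Prod.ext h (Nat.pow_right_injective (le_refl 2) h'))
      · exact absurd h (by positivity))
  have h4 : (fun i : G => Fm sh (X i)) =
      (basisMonomials Tower.Wd F2) ∘ fun i : G => Finsupp.single (sh i).1 (2 ^ (sh i).2) := by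
    funext i
    rw [Fm_X]
    simp [X_pow_eq_monomial]
  rw [h4]
  exact h2

variable {k : ℕ} {w : G → ℕ} {y : G → Y.H k} {N : ℕ}

/-- compatibility with the topological suspension -/
theorem sig_aeval (hF : Facts Y S D d) (hk : k ≤ D + 1)
    (hw : ∀ i, 1 ≤ w i) (hy : ∀ i, w i ≤ N → y i ∈ Y.gr k (w i))
    (hσ : ∀ i, w i ≤ N → Y.σ k (y i) = aeval (yk Y (k + 1)) (X (sh i).1 ^ (2 ^ (sh i).2) :
      MvPolynomial Tower.Wd F2))
    {t : ℕ} (ht1 : 1 ≤ t) (ht : t ≤ N) {p : MvPolynomial G F2} (hp : p ∈ V w t) :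
    Y.σ k (aeval y p) = aeval (yk Y (k + 1)) (Fm sh p) := by
  have hg := hF.gr k (by omega)
  have mono : ∀ s : G →₀ ℕ, Finsupp.weight w s = t →
      Y.σ k (aeval y (monomial s (1 : F2))) = aeval (yk Y (k + 1)) (Fm sh (monomial s 1)) := by
    intro s hs
    by_cases h : ∃ i, s = Finsupp.single i 1
    · obtain ⟨i, rfl⟩ := h
      rw [Fm_monomial_single]
      have hwi : w i = t := by simpa [Finsupp.weight_apply] using hs
      rw [← hσ i (by omega)]
      congr 1
      change aeval y (X i) = _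
      simp
    · rw [Fm_monomial_other sh h, map_zero]
      have hs0 : s ≠ 0 := by
        rintro rfl
        rw [map_zero] at hs
        omega
      obtain ⟨i, hi⟩ : s.support.Nonempty := by
        rw [Finset.nonempty_iff_ne_empty]
        intro he
        exact hs0 (Finsupp.support_eq_empty.1 he)
      have hle : Finsupp.single i 1 ≤ s := by
        rw [Finsupp.single_le_iff]
        exact Nat.one_le_iff_ne_zero.2 (by simpa using hi)
      obtain ⟨s', rfl⟩ := exists_add_of_le hle
      have hs' : s' ≠ 0 := by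
        rintro rfl
        exact h ⟨i, by simp⟩
      obtain ⟨j, hj⟩ : s'.support.Nonempty := by
        rw [Finset.nonempty_iff_ne_empty]
        intro he
        exact hs' (Finsupp.support_eq_empty.1 he)
      rw [map_add] at hs
      have h1 : Finsupp.weight w (Finsupp.single i 1) = w i := by simp [Finsupp.weight_apply]
      have h2 : w j ≤ Finsupp.weight w s' := weight_le_of_mem hj
      have hwi := hw i
      have hwj := hw j
      have e : (monomial (Finsupp.single i 1 + s') (1 : F2) : MvPolynomial G F2) =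
          X i * monomial s' 1 := by
        rw [X, monomial_mul, one_mul]
      have hm : aeval y (monomial s' (1 : F2)) ∈ Y.gr k (Finsupp.weight w s') := by
        refine aeval_mem_gr (w := w) hg.2.1 hg.2.2 (fun l hl => hy l (by omega)) ?_
        rw [mem_weightedHomogeneousSubmodule]
        exact isWeightedHomogeneous_monomial w s' 1 rfl
      rw [e, map_mul, aeval_X, (hF.sigma k hk).2.2.1]
      rw [hF.eps k (by omega) (w i) hwi _ (hy i (by omega)),
        hF.eps k (by omega) _ (by omega) _ hm, zero_smul, zero_smul, add_zero]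
  rw [mem_weightedHomogeneousSubmodule] at hp
  have hsum : p = ∑ s ∈ p.support, p.coeff s • monomial s (1 : F2) := by
    conv_lhs => rw [as_sum p]
    refine Finset.sum_congr rfl fun s _ => ?_
    rw [smul_monomial, smul_eq_mul, mul_one]
  rw [hsum]
  simp only [map_sum, map_smul]
  refine Finset.sum_congr rfl fun s hs => ?_
  rw [mono s (hp (by simpa using hs))]

/-- weights under the formal suspension -/
theorem Fm_mem (hsw : ∀ i, 2 ^ (sh i).2 * wk (k + 1) (sh i).1 = w i + 1) {t : ℕ}
    {p : MvPolynomial G F2} (hp : p ∈ V w t) : Fm sh p ∈ V (wk (k + 1)) (t + 1) := by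
  rw [mem_weightedHomogeneousSubmodule] at hp
  have hsum : p = ∑ s ∈ p.support, p.coeff s • monomial s (1 : F2) := by
    conv_lhs => rw [as_sum p]
    refine Finset.sum_congr rfl fun s _ => ?_
    rw [smul_monomial, smul_eq_mul, mul_one]
  rw [hsum]
  simp only [map_sum, map_smul]
  refine Submodule.sum_mem _ fun s hs => Submodule.smul_mem _ _ ?_
  by_cases h : ∃ i, s = Finsupp.single i 1
  · obtain ⟨i, rfl⟩ := h
    rw [Fm_monomial_single]
    have hs' := hp (by simpa using hs)
    have hwi : w i = t := by simpa [Finsupp.weight_apply] using hs'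
    have := (isWeightedHomogeneous_X F2 (wk (k + 1)) (sh i).1).pow (2 ^ (sh i).2)
    rw [mem_weightedHomogeneousSubmodule]
    rw [smul_eq_mul, hsw i, hwi] at this
    exact this
  · rw [Fm_monomial_other sh h]; exact Submodule.zero_mem _

/-- kernel of the suspension on primitives, polynomial form -/
theorem exists_sq (hF : Facts Y S D d) (hk : k ≤ D + 1)
    (hw : ∀ i, 1 ≤ w i) (hy : ∀ i, w i ≤ N → y i ∈ Y.gr k (w i)) (hN : N ≤ k + D)
    (hσ : ∀ i, w i ≤ N → Y.σ k (y i) = aeval (yk Y (k + 1)) (X (sh i).1 ^ (2 ^ (sh i).2) :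
      MvPolynomial Tower.Wd F2))
    (hsh : Function.Injective sh) (hsw : ∀ i, 2 ^ (sh i).2 * wk (k + 1) (sh i).1 = w i + 1)
    {v : G → ℕ} {δ : MvPolynomial G F2 →ₐ[F2] MvPolynomial G F2 ⊗[F2] MvPolynomial G F2}
    (hH : Hopf407.HopfPoly v (X : G → MvPolynomial G F2) δ)
    {t : ℕ} (ht1 : 1 ≤ t) (ht : t ≤ N) {p : MvPolynomial G F2} (hp : p ∈ V w t)
    (hprim : Hopf407.IsPrim δ p) (hp0 : p ≠ 0) (h0 : Y.σ k (aeval y p) = 0) :
    ∃ j, 2 * j = t ∧ ∃ q ∈ V w j, p = q * q ∧ Hopf407.IsPrim δ q := by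
  have h1 := sig_aeval (k := k) (w := w) (y := y) (N := N) sh hF hk hw hy hσ ht1 ht hp
  rw [h0] at h1
  have h2 : Fm sh p = 0 :=
    (hF.poly (k + 1) (by omega) (by omega)).1 (t + 1) (by omega) _ (Fm_mem sh hsw hp) h1.symm
  obtain ⟨q, hq, hqp⟩ := hH.exists_sq_of_ker (Fm sh) (Fm_mul sh) (Fm_li sh hsh) hprim h2
  have hpW : q ^ 2 ∈ Hopf407.Wt w (X : G → MvPolynomial G F2) t := by
    rw [Hopf407.mem_Wt]
    refine ⟨p, hp, ?_⟩
    rw [← hq]; simp
  have hev : ¬ Odd t := by
    intro hodd
    have := Hopf407.eq_zero_of_sq_mem_odd (bijX G) hpW hodd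
    apply hp0
    rw [hq, this]; simp
  obtain ⟨j, hj⟩ : ∃ j, 2 * j = t := by
    rw [Nat.not_odd_iff_even] at hev
    obtain ⟨j, hj⟩ := hev
    exact ⟨j, by omega⟩
  refine ⟨j, hj, q, ?_, by rw [hq, pow_two], hqp⟩
  rw [← hj] at hpW
  obtain ⟨f, hf, hfq⟩ := Hopf407.mem_Wt.1 (Hopf407.mem_Wt_of_sq_mem (bijX G) hpW)
  rw [aeval_X_left_apply] at hfq
  rw [mem_weightedHomogeneousSubmodule, ← hfq]
  exact hf

end susp

/-! ## application to `k ≥ 1` -/

theorem map_pred_pairwise {I : List ℕ} (hI : I.Pairwise (· ≤ ·)) :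
    (I.map (· - 1)).Pairwise (· ≤ ·) := by
  rw [List.pairwise_map]
  exact hI.imp fun h => Nat.sub_le_sub_right h 1

/-- `Q_I x_k ↦ (Q_J x_{k+1})^(2^z)` -/
def sh1 (I : Tower.Wd) : Tower.Wd × ℕ :=
  (gen (I.1.map (· - 1)) (map_pred_pairwise I.2.1), lz (I.1.map (· - 1)))

theorem map_pred_inj {I J : List ℕ} (hI : ∀ i ∈ I, 1 ≤ i) (hJ : ∀ i ∈ J, 1 ≤ i)
    (h : I.map (· - 1) = J.map (· - 1)) : I = J := by
  have h1 := congrArg (List.map (· + 1)) h
  rw [List.map_map, List.map_map] at h1
  have e : ∀ L : List ℕ, (∀ i ∈ L, 1 ≤ i) → L.map ((· + 1) ∘ (· - 1)) = L := by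
    intro L hL
    conv_rhs => rw [← List.map_id L]
    refine List.map_congr_left fun a ha => ?_
    have := hL a ha
    simp only [Function.comp_apply, id]
    omega
  rwa [e I hI, e J hJ] at h1

theorem sh1_inj : Function.Injective sh1 := by
  intro I J h
  have h1 := congrArg Prod.fst h
  have h2 := congrArg Prod.snd h
  exact Subtype.ext (map_pred_inj I.2.2 J.2.2
    (gen_lz_inj (map_pred_pairwise I.2.1) (map_pred_pairwise J.2.1) h1 h2))

theorem sh1_weight (k : ℕ) (I : Tower.Wd) :
    2 ^ (sh1 I).2 * wk (k + 1) (sh1 I).1 = Tower.wdeg k I.1 + 1 := by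
  rw [← wdeg_map_pred k I.1 I.2.2]
  exact (wdeg_eq_mul (k + 1) _ (map_pred_pairwise I.2.1)).symm

theorem sh1_sig (hF : Facts Y S D d) {k : ℕ} (hk : k ≤ D + 1) (I : Tower.Wd)
    (hI : wk k I ≤ k + D) :
    Y.σ k (yk Y k I) = aeval (yk Y (k + 1)) (X (sh1 I).1 ^ (2 ^ (sh1 I).2) :
      MvPolynomial Tower.Wd F2) := by
  have h1 := sig_word hF hk I.1 fun i hi => ⟨I.2.2 i hi, by
    have := mem_le_wdeg (k := k) hi
    have h' : Tower.wdeg k I.1 ≤ k + D := hI
    omega⟩
  change Y.σ k (Y.word k I.1) = _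
  rw [h1, word_eq_pow hF (by omega) _ (map_pred_pairwise I.2.1), map_pow, aeval_X]
  rfl

/-- **(4.3)**, `k ≥ 1`, in the range -/
theorem ker_sig_pos (hF : Facts Y S D d) {k : ℕ} (h1 : 1 ≤ k) (hk : k ≤ D + 1) {t : ℕ}
    (ht1 : 1 ≤ t) (ht : t ≤ k + D) {ξ : Y.H k} (hξ : ξ ∈ Y.gr k t) (hp : ξ ∈ Y.prim k)
    (hne : ξ ≠ 0) (h0 : Y.σ k ξ = 0) :
    ∃ j, 2 * j = t ∧ ∃ ζ ∈ Y.gr k j, ζ ∈ Y.prim k ∧ ξ = ζ * ζ := by
  obtain ⟨p, hpV, rfl, hpp⟩ := exists_prim_poly hF h1 (by omega) ht hξ hp
  have hp0 : p ≠ 0 := by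
    rintro rfl
    exact hne (map_zero _)
  obtain ⟨j, hj, q, hqV, rfl, hqp⟩ := exists_sq (w := wk k) (y := yk Y k) (N := k + D) sh1 hF hk
    (fun I => h1.trans (le_wdeg k I.1)) (yk_mem hF (by omega)) le_rfl
    (fun I hI => sh1_sig hF hk I hI) sh1_inj (sh1_weight k) (hopf1 Tower.Wd (fun _ => 0))
    ht1 ht hpV hpp hp0 h0
  refine ⟨j, hj, aeval (yk Y k) q, ?_, ?_, map_mul _ _ _⟩
  · exact aeval_mem_gr (w := wk k) (hF.gr k (by omega)).2.1 (hF.gr k (by omega)).2.2
      (fun i hi => yk_mem hF (by omega) i (by omega)) hqV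
  · rw [Tower.mem_prim, cop_compat (w := wk k) (Y.Δ k) (δ1 Tower.Wd) (δ1_compat hF h1 (by omega))
      (by omega) hqV]
    rw [show δ1 Tower.Wd q = _ from hqp, map_add, TensorProduct.map_tmul, TensorProduct.map_tmul]
    simp

/-! ## (A) and (B): admissible words -/

/-- admissible lists (entries `≥ 0`) of degree `t` -/
def Adm (k t : ℕ) : Type := {J : List ℕ // J.Pairwise (· ≤ ·) ∧ Tower.wdeg k J = t}

/-- (A) the admissible words of degree `t ≤ k + D` are linearly independent -/
theorem adm_li (hF : Facts Y S D d) {k : ℕ} (h1 : 1 ≤ k) (hk : k ≤ D + 2) {t : ℕ}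
    (ht : t ≤ k + D) : LinearIndependent F2 fun J : Adm k t => Y.word k J.1 := by
  have h2 : LinearIndependent F2 fun J : Adm k t =>
      (X (gen J.1 J.2.1) ^ (2 ^ lz J.1) : MvPolynomial Tower.Wd F2) := by
    have h2 := (basisMonomials Tower.Wd F2).linearIndependent.comp
      (fun J : Adm k t => Finsupp.single (gen J.1 J.2.1) (2 ^ lz J.1)) (by
        intro i i' h
        beta_reduce at h
        rw [Finsupp.single_eq_single_iff] at h
        rcases h with ⟨h, h'⟩ | ⟨h, _⟩
        · exact Subtype.ext (gen_lz_inj _ _ h (Nat.pow_right_injective (le_refl 2) h'))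
        · exact absurd h (by positivity))
    have h4 : (fun J : Adm k t => (X (gen J.1 J.2.1) ^ (2 ^ lz J.1) : MvPolynomial Tower.Wd F2)) =
        (basisMonomials Tower.Wd F2) ∘
          fun J : Adm k t => Finsupp.single (gen J.1 J.2.1) (2 ^ lz J.1) := by
      funext i
      simp [X_pow_eq_monomial]
    rw [h4]
    exact h2
  rw [linearIndependent_iff'] at h2 ⊢
  intro s g hg
  refine h2 s g ?_
  refine (hF.poly k h1 hk).1 t ht _ ?_ ?_
  · refine Submodule.sum_mem _ fun J _ => Submodule.smul_mem _ _ ?_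
    have := (isWeightedHomogeneous_X F2 (wk k) (gen J.1 J.2.1)).pow (2 ^ lz J.1)
    have e : 2 ^ lz J.1 • wk k (gen J.1 J.2.1) = t := by
      rw [smul_eq_mul, ← wdeg_eq_mul k J.1 J.2.1]; exact J.2.2
    rw [mem_weightedHomogeneousSubmodule]
    intro s hs
    exact (this hs).trans e
  · rw [← hg, map_sum]
    refine Finset.sum_congr rfl fun J _ => ?_
    rw [map_smul, map_pow, aeval_X, ← word_eq_pow hF hk J.1 J.2.1]

/-- admissible words in the range are primitive -/
theorem adm_prim (hF : Facts Y S D d) {k : ℕ} (h1 : 1 ≤ k) (hk : k ≤ D + 2) {t : ℕ}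
    (ht : t ≤ k + D) (J : Adm k t) : Y.word k J.1 ∈ Y.prim k :=
  word_prim hF h1 hk J.1 (by rw [J.2.2]; exact ht)

/-- (B) primitives of degree `t ≤ k + D` = span of the admissible words of degree `t` -/
theorem prim_eq_span (hF : Facts Y S D d) {k : ℕ} (h1 : 1 ≤ k) (hk : k ≤ D + 2) {t : ℕ}
    (ht : t ≤ k + D) :
    Y.gr k t ⊓ Y.prim k = Submodule.span F2 (Set.range fun J : Adm k t => Y.word k J.1) := by
  apply le_antisymm
  · rintro ξ ⟨hξ, hp⟩
    obtain ⟨p, hpV, rfl, hpp⟩ := exists_prim_poly hF h1 hk ht hξ hp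
    have hpW : p ∈ Hopf407.Wt (wk k) (X : Tower.Wd → MvPolynomial Tower.Wd F2) t := by
      rw [Hopf407.mem_Wt]
      exact ⟨p, hpV, by simp⟩
    have := (Hopf407.isPrim_iff_mem_span_deg (bijX Tower.Wd)
      (fun i => show δ1 Tower.Wd (X i) = _ by simp) (wk k) t p).1 ⟨hpp, hpW⟩
    have h2 := Submodule.mem_map_of_mem
      (f := (aeval (yk Y k) : MvPolynomial Tower.Wd F2 →ₐ[F2] Y.H k).toLinearMap) this
    rw [Submodule.map_span] at h2
    refine Submodule.span_mono ?_ h2
    rintro _ ⟨_, ⟨I, z, hz, rfl⟩, rfl⟩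
    have hpw : (List.replicate z 0 ++ I.1).Pairwise (· ≤ ·) := by
      rw [List.pairwise_append]
      refine ⟨?_, I.2.1, ?_⟩
      · rw [List.pairwise_replicate]; exact Or.inr le_rfl
      · intro a ha b _
        rw [List.eq_of_mem_replicate ha]
        exact Nat.zero_le _
    refine ⟨⟨List.replicate z 0 ++ I.1, hpw, ?_⟩, ?_⟩
    · rw [wdeg_replicate_zero]; exact hz
    · change Y.word k (List.replicate z 0 ++ I.1) = aeval (yk Y k) (X I ^ 2 ^ z)
      rw [word_replicate_zero hF hk, map_pow, aeval_X]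
  · rw [Submodule.span_le]
    rintro _ ⟨J, rfl⟩
    refine ⟨?_, adm_prim hF h1 hk ht J⟩
    have := word_mem_gr hF hk J.1 fun i hi => by
      have := mem_le_wdeg (k := k) hi
      have h' := J.2.2
      omega
    rw [J.2.2] at this
    exact this

end Crest.Agent.R204.Glue114
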