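import Crest.Agent.R204.SpineB_693

/-!
# Row 204: spine, the main deductions (sections 05, 07, 09) (helper693)
-/

set_option autoImplicit false

noncomputable section

namespace Crest.Agent.R204.Spine693

open MvPolynomial Crest.Agent.R204

theorem CoBM.odd {E : Type} [AddCommGroup E] [Module F2 E] {SE : ℕ → (E →ₗ[F2] E)}
    (h : CoBM SE) (h0 : SE 0 = LinearMap.id) (n : ℕ) (hn : 1 ≤ n) :
    SE (n - 1) ∘ₗ SE 1 = (n : F2) • SE n := by
  have key := h n 1 (by omega)
  rw [Finset.sum_eq_single 1, Finset.sum_eq_single n] at key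
  · have e1 : bmc 1 1 = 1 := by simp [bmc]
    have e2 : bmc n (2 * n - 1) = (n : F2) := by
      rw [bmc, if_pos (by omega)]
      have : 2 * n - 1 - n = n - 1 := by omega
      rw [this]
      congr 1
      have := Nat.choose_symm (n := n) (k := 1) hn
      rw [this, Nat.choose_one_right]
    rw [e1, e2, one_smul, Nat.sub_self, h0, LinearMap.id_comp] at key
    exact key
  · intro a ha hne
    rw [Finset.mem_range] at ha
    have : bmc a (2 * n - 1) = 0 := by
      rw [bmc]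
      split_ifs with hle
      · rw [Nat.choose_eq_zero_of_lt (by omega)]; rfl
      · rfl
    rw [this, zero_smul]
  · intro hh
    exact absurd (Finset.mem_range.2 (by omega)) hh
  · intro a ha hne
    have : bmc a 1 = 0 := by
      rw [bmc]
      split_ifs with hle
      · have : a = 0 := by omega
        subst this; simp
      · rfl
    rw [this, zero_smul]
  · intro hh
    exact absurd (Finset.mem_range.2 (by omega)) hh

theorem CoBM.one_one {E : Type} [AddCommGroup E] [Module F2 E] {SE : ℕ → (E →ₗ[F2] E)}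
    (h : CoBM SE) (h0 : SE 0 = LinearMap.id) : SE 1 ∘ₗ SE 1 = 0 := by
  have := h.odd h0 2 (by norm_num)
  have e : ((2 : ℕ) : F2) = 0 := by decide
  rw [e, zero_smul] at this
  exact this

namespace Tower

variable {S : Dick} {d : ℕ} (T : Tower S d)

/-- `h^{d+1} = 0` for degree reasons -/
theorem top_zero (hd : 1 ≤ d) (h : ∀ k, T.P k) (hh : h ∈ T.Sph) : h (d + 1) = 0 := by
  have hdeg := T.sph_deg h hh (d + 1) le_rfl
  refine T.comp_inj (d + 1) (by omega) le_rfl (d + (d + 1)) (by omega) _ hdeg ?_ ?_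
  · exact T.c0_deg (d + 1) (by omega) le_rfl (d + (d + 1)) (by omega) _ hdeg (by omega)
  · intro r
    refine mon_ext _ fun s hs => ?_
    refine T.comp_deg (d + 1) (by omega) le_rfl (d + (d + 1)) (by omega) _ hdeg r (mon s hs) _
      (mon_hom s hs) ?_
    have := le_weight r s
    omega

/-- desuspension data -/
structure Desc (h : ∀ k, T.P k) (k m : ℕ) (ξ : T.P k) : Prop where
  hk : k ≤ d
  h2 : 2 * m = d + k
  hne : h k ≠ 0
  hz : h (k + 1) = 0
  mem : ξ ∈ T.deg k m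
  fr : T.frob k ξ = h k
  ne : ξ ≠ 0
  ann : ∀ a, 1 ≤ a → T.Sq k a ξ = 0

theorem exists_desc (hd : 1 ≤ d) (h : ∀ k, T.P k) (hh : h ∈ T.Sph) (h0 : h 0 ≠ 0) :
    ∃ (k m : ℕ) (ξ : T.P k), T.Desc h k m ξ := by
  classical
  set k := Nat.findGreatest (fun k => h k ≠ 0) d with hkdef
  have hk : k ≤ d := Nat.findGreatest_le d
  have hne : h k ≠ 0 := Nat.findGreatest_spec (P := fun k => h k ≠ 0) (Nat.zero_le d) h0
  have hz : h (k + 1) = 0 := by
    rcases Nat.lt_or_ge k d with hlt | hge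
    · by_contra hc
      have : ¬ (h (k + 1) ≠ 0) := Nat.findGreatest_is_greatest (P := fun k => h k ≠ 0)
        (n := d) (k := k + 1) (by omega) (by omega)
      exact this hc
    · have hkd : k = d := le_antisymm hk hge
      have key : ∀ q, q = d → h (q + 1) = 0 := by
        intro q hq
        subst hq
        exact T.top_zero hd h hh
      exact key k hkd
  have hdeg := T.sph_deg h hh k (by omega)
  obtain ⟨m, h2, ξ, hξ, hfr⟩ := T.ker_sig k hk (d + k) (by omega) (by omega) (h k) hdeg hne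
    (by rw [T.sph_sig h hh k hk, hz])
  refine ⟨k, m, ξ, hk, h2, hne, hz, hξ, hfr.symm, ?_, ?_⟩
  · rintro rfl
    exact hne (by rw [hfr, map_zero])
  · intro a ha
    refine T.frob_inj k (by omega) (m - a) (by omega) _ (T.Sq_deg k (by omega) m ξ hξ a) ?_
    rw [← T.frob_Sq k (by omega), ← hfr]
    exact T.sph_Sq h hh k (by omega) (2 * a) (by omega)

variable {T}

theorem Desc.m_pos (hd : 1 ≤ d) {h : ∀ k, T.P k} {k m : ℕ} {ξ : T.P k} (D : T.Desc h k m ξ) :
    1 ≤ m := by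
  have := D.h2
  omega

theorem Desc.k_le {h : ∀ k, T.P k} {k m : ℕ} {ξ : T.P k} (D : T.Desc h k m ξ) :
    k ≤ m := by
  have := D.h2; have := D.hk
  omega

/-- output of the cofibre in dual form -/
theorem Desc.ext_data (hd : 1 ≤ d) {h : ∀ k, T.P k} (hh : h ∈ T.Sph) {k m : ℕ} {ξ : T.P k}
    (D : T.Desc h k m ξ) : ∃ Tt : ℕ → T.P (k + 1),
      (∀ r, BM (extSq S r (k + 1) (fun a => T.comp (k + 1) r (Tt a)))) ∧
      (∀ a, 1 ≤ a → a ≤ 2 * m + 1 → Tt a ∈ T.deg (k + 1) (2 * m + 2 - a)) ∧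
      (∀ a, 2 * m + 1 < a → Tt a = 0) ∧
      Tt (m + 1) = T.sig k ξ ∧
      (Odd (m + 1) → Tt (m + 1) = T.Sq (k + 1) m (Tt 1)) ∧
      T.Sq (k + 1) 1 (Tt 1) = 0 := by
  have hm := D.m_pos hd
  have hkd := D.hk
  have h2 := D.h2
  obtain ⟨E, iE, mE, SE, ι, τ, Tt, hco, hS0, hι, hιS, hτ, hdeg, hbig, htop⟩ :=
    T.cofib h hh k D.hk m hm D.h2 ξ D.mem D.ann D.fr D.hz
  refine ⟨Tt, ?_, hdeg, hbig, htop, ?_, ?_⟩
  · intro r
    refine bm_ext S r (k + 1) SE hco hS0 (T.Sq (k + 1)) ι hι hιS τ Tt hτ (T.comp (k + 1) r) ?_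
    intro a b ha
    rcases Nat.lt_or_ge (2 * m + 1) a with hb | hb
    · rw [hbig a hb]; simp
    · exact T.comp_Sq (k + 1) (by omega) (by omega) _ (by omega) _ (hdeg a ha hb) r b
  · intro hodd
    apply hι
    have h1 := LinearMap.congr_fun (hco.odd hS0 (m + 1) (by omega)) τ
    have e : ((m + 1 : ℕ) : F2) = 1 := by
      obtain ⟨q, hq⟩ := hodd
      rw [hq]; push_cast
      have : (2 : F2) = 0 := by decide
      rw [this]; simp
    rw [e, one_smul] at h1
    simp only [LinearMap.comp_apply, Nat.add_sub_cancel] at h1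
    rw [← hτ (m + 1) (by omega), ← h1, hτ 1 le_rfl, hιS]
  · apply hι
    have h1 := LinearMap.congr_fun (hco.one_one hS0) τ
    simp only [LinearMap.comp_apply, LinearMap.zero_apply] at h1
    rw [map_zero, ← h1, hτ 1 le_rfl, hιS]

/-- for `m` even the class `ξ` is a square -/
theorem Desc.even_sq (hE : LemEven S) (hd : 1 ≤ d) {h : ∀ k, T.P k} (hh : h ∈ T.Sph) {k m : ℕ}
    {ξ : T.P k} (D : T.Desc h k m ξ) (hm : Even m) :
    ∃ j, 2 * j = m ∧ ∃ ζ ∈ T.deg k j, ξ = T.frob k ζ := by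
  have hm1 := D.m_pos hd
  have hkd := D.hk
  have h2 := D.h2
  have hkm := D.k_le
  obtain ⟨p, hp⟩ := hm
  obtain ⟨Tt, -, hdeg, -, htop, hodd, h11⟩ := D.ext_data hd hh
  refine T.ker_sig k D.hk m hm1 (by omega) ξ D.mem D.ne ?_
  have ht := hodd ⟨p, by omega⟩
  rw [htop] at ht
  have hd1 := hdeg 1 le_rfl (by omega)
  have hsd := T.sig_deg k D.hk m ξ D.mem
  refine T.comp_inj (k + 1) (by omega) (by omega) (m + 1) (by omega) _ hsd ?_ ?_
  · rw [ht]
    exact T.c0_Sq (k + 1) (by omega) (by omega) _ (by omega) _ hd1 m hm1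
  · intro r
    refine hE r (k + 1) (m + 1) (by omega) (by omega) ⟨p, by omega⟩ (by omega)
      (T.comp (k + 1) r (T.sig k ξ)) (T.comp (k + 1) r (Tt 1)) ?_ ?_ ?_
    · intro g i hg hi
      refine T.comp_deg (k + 1) (by omega) (by omega) (m + 1) (by omega) _ hsd r g i hg ?_
      omega
    · rw [← T.comp_Sq (k + 1) (by omega) (by omega) _ (by omega) _ hd1 r 1, h11, map_zero]
    · rw [ht, Nat.add_sub_cancel]
      exact T.comp_Sq (k + 1) (by omega) (by omega) _ (by omega) _ hd1 r m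

/-- `m` is odd -/
theorem Desc.odd (hE : LemEven S) (h61 : Lem61 S) (hd : 1 ≤ d) {h : ∀ k, T.P k}
    (hh : h ∈ T.Sph) {k m : ℕ} {ξ : T.P k} (D : T.Desc h k m ξ) : Odd m := by
  rw [← Nat.not_even_iff_odd]
  intro hm
  have hm1 := D.m_pos hd
  have hkd := D.hk
  have h2 := D.h2
  have hkm := D.k_le
  rcases Nat.eq_zero_or_pos k with hk0 | hk
  · subst hk0
    obtain ⟨j, hj, ζ, hζ, rfl⟩ := D.even_sq hE hd hh hm
    refine D.hne (T.sec08 h hh j (by omega) (by omega) ζ hζ ?_ D.fr)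
    intro a ha
    refine T.frob_inj 0 (by omega) (j - a) (by omega) _ (T.Sq_deg 0 (by omega) j ζ hζ a) ?_
    rw [← T.frob_Sq 0 (by omega)]
    exact D.ann (2 * a) (by omega)
  · obtain ⟨k, rfl⟩ : ∃ q, k = q + 1 := ⟨k - 1, by omega⟩
    have hs1 : T.sig k (h k) = h (k + 1) := T.sph_sig h hh k (by omega)
    have hs2 : T.sig (k + 1) (h (k + 1)) = h (k + 1 + 1) := T.sph_sig h hh (k + 1) (by omega)
    have hne : h k ≠ 0 := by
      intro hc
      rw [hc, map_zero] at hs1
      exact D.hne hs1.symm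
    have hdegk := T.sph_deg h hh k (by omega)
    have hdegk1 := T.sph_deg h hh (k + 1) (by omega)
    have hc2 : ∀ r, T.comp (k + 1) r (h (k + 1)) ∘ₗ inc r (k + 1) = 0 := by
      intro r
      have := T.comp_sig (k + 1) (by omega) (by omega) (d + (k + 1)) (by omega) _ hdegk1 r
      rw [hs2, D.hz, map_zero] at this
      exact this.symm
    rcases Nat.eq_zero_or_pos k with hk0 | hk0
    · subst hk0
      have hlow : ∃ (r : ℕ) (f : M r 0 →ₗ[F2] F2), f ≠ 0 ∧ Conc f (d + 0) ∧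
          ((∀ a, 1 ≤ a → T.Sq 0 a (h 0) = 0) → ∀ a, 1 ≤ a → f ∘ₗ S.SqM r 0 a = 0) ∧
          T.comp 1 r (T.sig 0 (h 0)) = f ∘ₗ inc r 0 := by
        rcases T.lowest (d + 0) (by omega) (by omega) (h 0) hdegk hne with hl | hl
        · exact ⟨0, T.c1 (h 0), hl.1, hl.2.1, hl.2.2.1, hl.2.2.2⟩
        · obtain ⟨-, r, f, -, hf⟩ := hl
          exact ⟨r, f, hf⟩
      obtain ⟨r, f, hf, hc, hA, hcomp⟩ := hlow
      refine no_even S h61 r 0 m hm (by omega) f hf
        (hA (fun a ha => T.sph_Sq h hh 0 (by omega) a ha)) ?_ ?_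
      · have : 2 * m - (0 + 1) = d + 0 := by omega
        rw [this]; exact hc
      · rw [← hcomp, hs1]
        exact hc2 r
    · have hex : ∃ r, T.comp k r (h k) ≠ 0 := by
        by_contra hc
        push Not at hc
        refine hne (T.comp_inj k hk0 (by omega) (d + k) (by omega) _ hdegk ?_ hc)
        exact T.c0_deg k hk0 (by omega) (d + k) (by omega) _ hdegk (by omega)
      obtain ⟨r, hr⟩ := hex
      refine no_even S h61 r k m hm (by omega) (T.comp k r (h k)) hr ?_ ?_ ?_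
      · intro a ha
        rw [← T.comp_Sq k hk0 (by omega) (d + k) (by omega) _ hdegk r a,
          T.sph_Sq h hh k (by omega) a ha, map_zero]
      · intro g i hg hi
        exact T.comp_deg k hk0 (by omega) (d + k) (by omega) _ hdegk r g i hg (by omega)
      · rw [← T.comp_sig k hk0 (by omega) (d + k) (by omega) _ hdegk r, hs1]
        exact hc2 r

/-- application of theorem 06 -/
theorem Desc.app06 (h06 : Thm06 S) (hE : LemEven S) (h61 : Lem61 S) (hd : 1 ≤ d)
    {h : ∀ k, T.P k} (hh : h ∈ T.Sph) {k m : ℕ} {ξ : T.P k} (D : T.Desc h k m ξ) (r : ℕ)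
    (f : M r k →ₗ[F2] F2) (hf : f ≠ 0) (hc : Conc f (m - k))
    (hA : ∀ a, 1 ≤ a → f ∘ₗ S.SqM r k a = 0)
    (hcomp : T.comp (k + 1) r (T.sig k ξ) = f ∘ₗ inc r k) :
    r = 0 ∧ k = 0 ∧ ∃ l, m + 1 = 2 ^ l := by
  have hm1 := D.m_pos hd
  have hkd := D.hk
  have h2 := D.h2
  have hkm := D.k_le
  obtain ⟨Tt, hbm, hdeg, hbig, htop, -, -⟩ := D.ext_data hd hh
  refine h06 r k m (D.odd hE h61 hd hh) f (fun a => T.comp (k + 1) r (Tt a)) hf hkm hc hA ?_
    (hbm r) ?_
  · intro a ha g i hg hne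
    rcases Nat.lt_or_ge (2 * m + 1) a with hb | hb
    · show T.comp (k + 1) r (Tt a) g = 0
      rw [hbig a hb]; simp
    · exact T.comp_deg (k + 1) (by omega) (by omega) _ (by omega) _ (hdeg a ha hb) r g i hg
        (by omega)
  · intro g
    show T.comp (k + 1) r (Tt (m + 1)) g = f (inc r k g)
    rw [htop, hcomp]; rfl

variable (T)

/-- the trichotomy: conclusion (2) of section 09. -/
theorem main (h06 : Thm06 S) (hE : LemEven S) (h61 : Lem61 S) (hd : 1 ≤ d)
    (h : ∀ k, T.P k) (hh : h ∈ T.Sph) (h0 : h 0 ≠ 0) :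
    (Odd d ∧ h d ≠ 0 ∧ h (d + 1) = 0 ∧ ∃ ξ ∈ T.deg d d, T.frob d ξ = h d ∧ T.c0 d ξ ≠ 0 ∧
      ∀ r, T.comp d r ξ = 0) ∨
    (∃ m l, 2 * m = d ∧ m + 1 = 2 ^ l ∧ ∃ ξ ∈ T.deg 0 m, T.frob 0 ξ = h 0 ∧ T.c1 ξ ≠ 0 ∧
      Conc (T.c1 ξ) m) := by
  obtain ⟨k, m, ξ, D⟩ := T.exists_desc hd h hh h0
  have hm1 := D.m_pos hd
  have hkd := D.hk
  have h2 := D.h2
  have hkm := D.k_le
  have hodd := D.odd hE h61 hd hh
  rcases Nat.eq_zero_or_pos k with hk0 | hk
  · subst hk0
    right
    rcases T.lowest m (by omega) (by omega) ξ D.mem D.ne with hl | hl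
    · obtain ⟨hc1, hconc, hA, hcomp⟩ := hl
      obtain ⟨-, -, l, hl⟩ := D.app06 h06 hE h61 hd hh 0 (T.c1 ξ) hc1 (by simpa using hconc)
        (hA D.ann) hcomp
      exact ⟨m, l, by omega, hl, ξ, D.mem, D.fr, hc1, hconc⟩
    · obtain ⟨-, r, f, hr, hf, hconc, hA, hcomp⟩ := hl
      obtain ⟨h1, -, -⟩ := D.app06 h06 hE h61 hd hh r f hf (by simpa using hconc)
        (hA D.ann) hcomp
      omega
  · left
    have hcz : ∀ r, T.comp k r ξ = 0 := by
      intro r
      by_contra hne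
      obtain ⟨-, h1, -⟩ := D.app06 h06 hE h61 hd hh r (T.comp k r ξ) hne
        (fun g i hg hi => T.comp_deg k hk (by omega) m (by omega) ξ D.mem r g i hg (by omega))
        (fun a ha => by
          rw [← T.comp_Sq k hk (by omega) m (by omega) ξ D.mem r a, D.ann a ha, map_zero])
        (T.comp_sig k hk D.hk m (by omega) ξ D.mem r)
      omega
    have hc0 : T.c0 k ξ ≠ 0 := by
      intro hc
      exact D.ne (T.comp_inj k hk (by omega) m (by omega) ξ D.mem hc hcz)
    have hmk : m = k := by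
      by_contra hne
      exact hc0 (T.c0_deg k hk (by omega) m (by omega) ξ D.mem hne)
    have hdk : d = k := by omega
    subst hmk
    subst hdk
    exact ⟨hodd, D.hne, D.hz, ξ, D.mem, D.fr, hc0, hcz⟩

/-- S0314 core -/
theorem core14 (h06 : Thm06 S) (hE : LemEven S) (h61 : Lem61 S) (hd : 1 ≤ d)
    (h1 : d ≠ 1) (h3 : d ≠ 3) (h7 : d ≠ 7) (hK : ∀ j : ℕ, d + 2 ≠ 2 ^ j)
    (h : ∀ k, T.P k) (hh : h ∈ T.Sph) : h 0 = 0 := by
  by_contra h0
  rcases T.main h06 hE h61 hd h hh h0 with hc | hc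
  · obtain ⟨hodd, -, hz, ξ, hξ, hfr, hc0, hcz⟩ := hc
    rcases T.hopf h hh hodd ξ hξ hfr hc0 hcz hz with h | h | h <;> omega
  · obtain ⟨m, l, hm, hl, -⟩ := hc
    refine hK (l + 1) ?_
    rw [pow_succ, ← hl]; omega

/-- two nonzero functionals on `F2[Q_0]_m` agree -/
theorem conc_unique {m : ℕ} {f g : M 0 0 →ₗ[F2] F2} (hf : Conc f m) (hg : Conc g m)
    (hf0 : f ≠ 0) (hg0 : g ≠ 0) : f = g := by
  have hw : ∀ s : Fin (0 + 1) →₀ ℕ, Finsupp.weight (wt 0) s = s 0 := by
    intro s; rw [weight_eq]; simp [wt]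
  have huniq : ∀ s t : Fin (0 + 1) →₀ ℕ, s 0 = t 0 → s = t := by
    intro s t h
    ext i
    have : i = 0 := by
      apply Fin.ext
      have := i.2
      simp only [Fin.val_zero]
      omega
    rw [this]; exact h
  have hval : ∀ x : F2, x ≠ 0 → x = 1 := by decide
  obtain ⟨s, hs, hfs⟩ := exists_mon f hf0
  obtain ⟨t, ht, hgt⟩ := exists_mon g hg0
  have hsm : s 0 = m := by
    by_contra hne
    exact hfs (hf _ _ (mon_hom s hs) (by rw [hw]; exact hne))
  have htm : t 0 = m := by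
    by_contra hne
    exact hgt (hg _ _ (mon_hom t ht) (by rw [hw]; exact hne))
  have hst : s = t := huniq s t (by omega)
  subst hst
  rw [← sub_eq_zero]
  refine mon_ext _ fun u hu => ?_
  rw [LinearMap.sub_apply]
  by_cases hum : u 0 = m
  · have : u = s := huniq u s (by omega)
    subst this
    rw [hval _ hfs, hval _ hgt, sub_self]
  · rw [hf _ _ (mon_hom u hu) (by rw [hw]; exact hum),
      hg _ _ (mon_hom u hu) (by rw [hw]; exact hum), sub_self]

/-- S0315 core -/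
theorem core15 (h06 : Thm06 S) (hE : LemEven S) (h61 : Lem61 S) (hd : 1 ≤ d)
    (h h' : ∀ k, T.P k) (hh : h ∈ T.Sph) (hh' : h' ∈ T.Sph) :
    h 0 = 0 ∨ h' 0 = 0 ∨ h 0 = h' 0 := by
  by_contra hcon
  push Not at hcon
  obtain ⟨ha, hb, hab⟩ := hcon
  have two : ∀ (k : ℕ) (x : T.P k), x + x = 0 := by
    intro k x
    have : ((1 : F2) + 1) • x = 0 := by
      have e : (1 : F2) + 1 = 0 := by decide
      rw [e, zero_smul]
    rwa [add_smul, one_smul] at this
  have hs := T.sph_add h hh h' hh'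
  have hs0 : (h + h') 0 ≠ 0 := by
    intro hc
    apply hab
    have : h 0 + h' 0 = 0 := hc
    calc h 0 = h 0 + (h' 0 + h' 0) := by rw [two, add_zero]
      _ = (h 0 + h' 0) + h' 0 := by abel
      _ = h' 0 := by rw [this, zero_add]
  have hval : ∀ x : F2, x ≠ 0 → x = 1 := by decide
  rcases T.main h06 hE h61 hd h hh ha with A | A
  · rcases T.main h06 hE h61 hd h' hh' hb with B | B
    · rcases T.main h06 hE h61 hd (h + h') hs hs0 with C | C
      · obtain ⟨-, -, -, ξ, hξ, hfr, hc0, hcz⟩ := A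
        obtain ⟨-, -, -, ξ', hξ', hfr', hc0', hcz'⟩ := B
        obtain ⟨-, hne, -⟩ := C
        have hd' : d + 1 ≤ d + 1 := le_rfl
        have : ξ - ξ' = 0 := by
          refine T.comp_inj d hd (by omega) d (by omega) _ (Submodule.sub_mem _ hξ hξ') ?_ ?_
          · rw [map_sub, hval _ hc0, hval _ hc0', sub_self]
          · intro r; rw [map_sub, hcz, hcz', sub_self]
        have hEq : ξ = ξ' := sub_eq_zero.1 this
        apply hne
        show h d + h' d = 0
        rw [← hfr, ← hfr', hEq, two]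
      · obtain ⟨m, l, hm, -⟩ := C
        obtain ⟨⟨q, hq⟩, -⟩ := A
        omega
    · obtain ⟨m, l, hm, -⟩ := B
      obtain ⟨⟨q, hq⟩, -⟩ := A
      omega
  · rcases T.main h06 hE h61 hd h' hh' hb with B | B
    · obtain ⟨m, l, hm, -⟩ := A
      obtain ⟨⟨q, hq⟩, -⟩ := B
      omega
    · rcases T.main h06 hE h61 hd (h + h') hs hs0 with C | C
      · obtain ⟨m, l, hm, -⟩ := A
        obtain ⟨⟨q, hq⟩, -⟩ := C
        omega
      · obtain ⟨m, l, hm, -, ξ, hξ, hfr, hc1, hconc⟩ := A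
        obtain ⟨m', l', hm', -, ξ', hξ', hfr', hc1', hconc'⟩ := B
        obtain ⟨m'', l'', hm'', -, ξ'', hξ'', hfr'', hc1'', hconc''⟩ := C
        have e1 : m' = m := by omega
        have e2 : m'' = m := by omega
        subst e1
        subst e2
        have hsum : ξ'' = ξ + ξ' := by
          rw [← sub_eq_zero]
          refine T.frob_inj 0 (by omega) m'' (by omega) _
            (Submodule.sub_mem _ hξ'' (Submodule.add_mem _ hξ hξ')) ?_
          rw [map_sub, map_add, hfr, hfr', hfr'']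
          show h 0 + h' 0 - (h 0 + h' 0) = 0
          rw [sub_self]
        have heq : T.c1 ξ = T.c1 ξ' := conc_unique hconc hconc' hc1 hc1'
        apply hc1''
        rw [hsum, map_add, heq]
        ext g
        have e : ∀ x : F2, x + x = 0 := by decide
        exact e _

end Tower

end Crest.Agent.R204.Spine693
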