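import Crest.Agent.R204.GlueA_114
import Crest.Agent.R204.SpineC_693

/-!
# Row 204: glue `Spec114.Facts → Spine693.Tower`: spherical families, cofibre, section 08, Hopf (helper693)
-/

set_option autoImplicit false

noncomputable section

namespace Crest.Agent.R204.Glue693

open Spec114 TensorProduct Glue114
open scoped TensorProduct

variable {X : Spec114.Tower} {S : Spec114.Sph X} {D d : ℕ}

/-- the family of primitives attached to `α` -/
def fam (F : Facts X S D d) (α : S.A) : ∀ k, P X k := fun k =>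
  if h : k ≤ D + 2 then ⟨S.h k α, (F.sph.1 k h α).2.1⟩ else 0

theorem coe_fam (F : Facts X S D d) (α : S.A) {k : ℕ} (hk : k ≤ D + 2) :
    ((fam F α k : P X k) : X.H k) = S.h k α := by
  rw [fam, dif_pos hk]

theorem fam_mem (F : Facts X S D d) (α : S.A) : fam F α ∈ SphSet S d := by
  refine ⟨α, fun k hk => coe_fam F α ?_⟩
  have := F.dD
  omega

theorem sph_deg (F : Facts X S D d) (h : ∀ k, P X k) (hh : h ∈ SphSet S d) (k : ℕ)
    (hk : k ≤ d + 1) : h k ∈ deg X k (d + k) := by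
  obtain ⟨α, hα⟩ := hh
  have hD := F.dD
  rw [mem_deg, hα k hk]
  have h1 := (F.sph.1 k (by omega) α).1
  cases k with
  | zero => exact ⟨h1, F.sph.2.2 α⟩
  | succ k => exact h1

theorem sph_sig (F : Facts X S D d) (h : ∀ k, P X k) (hh : h ∈ SphSet S d) (k : ℕ)
    (hk : k ≤ d) : sig X k (h k) = h (k + 1) := by
  obtain ⟨α, hα⟩ := hh
  have hD := F.dD
  apply Subtype.ext
  rw [coe_sig F.sigma (by omega), hα k (by omega), hα (k + 1) (by omega)]
  exact F.sph.2.1 k (by omega) α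

theorem sph_Sq (F : Facts X S D d) (h : ∀ k, P X k) (hh : h ∈ SphSet S d) (k : ℕ)
    (hk : k ≤ d + 1) (a : ℕ) (ha : 1 ≤ a) : Sq X k a (h k) = 0 := by
  obtain ⟨α, hα⟩ := hh
  have hD := F.dD
  apply Subtype.ext
  rw [coe_Sq F.sq (by omega), hα k hk]
  exact (F.sph.1 k (by omega) α).2.2.1 a ha

theorem sph_add (F : Facts X S D d) (h : ∀ k, P X k) (hh : h ∈ SphSet S d)
    (h' : ∀ k, P X k) (hh' : h' ∈ SphSet S d) : h + h' ∈ SphSet S d := by
  obtain ⟨α, hα⟩ := hh
  obtain ⟨β, hβ⟩ := hh'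
  have hD := F.dD
  refine ⟨S.sub α β, fun k hk => ?_⟩
  rw [(F.sph.1 k (by omega) α).2.2.2 β, ← hα k hk, ← hβ k hk]
  rfl

/-- degree zero primitives vanish (`k ≥ 1`) -/
theorem prim_gr_zero (F : Facts X S D d) {k : ℕ} (hk : 1 ≤ k) (hkD : k ≤ D + 2) (s : X.H k)
    (hs : s ∈ X.prim k) (h0 : s ∈ X.gr k 0) : s = 0 := by
  classical
  obtain ⟨p, hp, hps⟩ := (F.poly k hk hkD).2 0 (Nat.zero_le _) h0
  -- `p` is constant
  have hconst : ∃ c : F2, p = MvPolynomial.C c := by
    refine ⟨p.coeff 0, ?_⟩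
    ext t
    rw [MvPolynomial.coeff_C]
    split_ifs with ht
    · rw [← ht]
    · by_contra hne
      have hw : Finsupp.weight (fun I : Tower.Wd => Tower.wdeg k I.1) t = 0 := hp hne
      apply ht
      symm
      rw [Finsupp.weight_apply, Finsupp.sum, Finset.sum_eq_zero_iff] at hw
      ext i
      by_contra hi
      have h1 := hw i (Finsupp.mem_support_iff.2 hi)
      have h2 : 1 ≤ Tower.wdeg k i.1 := by
        have : ∀ I : List ℕ, 1 ≤ Tower.wdeg k I := by
          intro I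
          induction I with
          | nil => exact hk
          | cons a I ih =>
            show 1 ≤ 2 * Tower.wdeg k I + a
            omega
        exact this _
      rw [smul_eq_mul, mul_eq_zero] at h1
      rcases h1 with h1 | h1
      · exact hi (by simpa using h1)
      · omega
  obtain ⟨c, rfl⟩ := hconst
  have hs' : s = algebraMap F2 (X.H k) c := by
    rw [← hps]
    show MvPolynomial.aeval _ (MvPolynomial.C c) = _
    rw [MvPolynomial.aeval_C]
  -- the augmentation of a primitive vanishes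
  have hε : X.ε k s = 0 := by
    have hl := (F.delta k hkD).1 s
    rw [(Tower.mem_prim X).1 hs] at hl
    have e : TensorProduct.lid F2 (X.H k) (TensorProduct.map (X.ε k).toLinearMap LinearMap.id
        (s ⊗ₜ[F2] (1 : X.H k) + 1 ⊗ₜ[F2] s)) = X.ε k s • (1 : X.H k) + s := by
      simp [TensorProduct.map_tmul]
    rw [e] at hl
    have h0' : X.ε k s • (1 : X.H k) = 0 := by
      have := sub_eq_zero.2 hl
      rwa [add_sub_cancel_right] at this
    have := congrArg (X.ε k) h0'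
    rw [map_smul, map_one, map_zero, smul_eq_mul, mul_one] at this
    exact this
  rw [hs', AlgHom.commutes] at hε
  have : c = 0 := by simpa using hε
  rw [hs', this, map_zero]

theorem cofib (F : Facts X S D d) (h : ∀ k, P X k) (hh : h ∈ SphSet S d) (k : ℕ) (hk : k ≤ d)
    (m : ℕ) (hm : 1 ≤ m) (h2 : 2 * m = d + k) (ξ : P X k) (hξ : ξ ∈ deg X k m)
    (hA : ∀ a, 1 ≤ a → Sq X k a ξ = 0) (hf : frob X k ξ = h k) (hz : h (k + 1) = 0) :
    ∃ (E : Type) (_ : AddCommGroup E) (_ : Module F2 E) (SE : ℕ → (E →ₗ[F2] E))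
      (ι : P X (k + 1) →ₗ[F2] E) (τ : E) (T : ℕ → P X (k + 1)),
      Spine693.CoBM SE ∧ SE 0 = LinearMap.id ∧ Function.Injective ι ∧
      (∀ a x, SE a (ι x) = ι (Sq X (k + 1) a x)) ∧
      (∀ a, 1 ≤ a → SE a τ = ι (T a)) ∧
      (∀ a, 1 ≤ a → a ≤ 2 * m + 1 → T a ∈ deg X (k + 1) (2 * m + 2 - a)) ∧
      (∀ a, 2 * m + 1 < a → T a = 0) ∧
      T (m + 1) = sig X k ξ := by
  obtain ⟨α, hα⟩ := hh
  have hD := F.dD
  obtain ⟨E, iE, mE, SE, ι, τ, hbm, h0, hι, hS, hτ, htop⟩ :=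
    F.cone k (by omega) hk α m (ξ : X.H k) hm h2 (grB_le X k m hξ) ξ.2
      (by
        intro a ha
        rw [← coe_Sq F.sq (by omega), hA a ha]; rfl)
      (by
        rw [← hα k (by omega), ← hf]; rfl)
      (by
        rw [← hα (k + 1) (by omega), hz]; rfl)
  obtain ⟨T, hT⟩ : ∃ T : ℕ → P X (k + 1), ∀ a, 1 ≤ a →
      ((T a : P X (k + 1)) : X.H (k + 1)) ∈ X.gr (k + 1) (2 * m + 2 - a) ∧
      SE a τ = ι ((T a : P X (k + 1)) : X.H (k + 1)) := by
    have : ∀ a, ∃ t : P X (k + 1), 1 ≤ a →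
        ((t : P X (k + 1)) : X.H (k + 1)) ∈ X.gr (k + 1) (2 * m + 2 - a) ∧
        SE a τ = ι ((t : P X (k + 1)) : X.H (k + 1)) := by
      intro a
      by_cases ha : 1 ≤ a
      · obtain ⟨s, hs, hs'⟩ := hτ a ha
        rw [Submodule.mem_inf] at hs
        exact ⟨⟨s, hs.1⟩, fun _ => ⟨hs.2, hs'⟩⟩
      · exact ⟨0, fun h => absurd h ha⟩
    exact ⟨fun a => (this a).choose, fun a => (this a).choose_spec⟩
  refine ⟨E, iE, mE, SE, ι ∘ₗ (X.prim (k + 1)).subtype, τ, T, ?_, ?_, ?_, ?_, ?_, ?_, ?_, ?_⟩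
  · intro n i hi
    refine LinearMap.ext fun y => ?_
    have := hbm n i hi y
    simpa only [LinearMap.sum_apply, LinearMap.smul_apply, LinearMap.comp_apply,
      Spine693.bmc] using this
  · ext y; exact h0 y
  · intro x y hxy
    exact Subtype.ext (hι hxy)
  · intro a x
    show SE a (ι (x : X.H (k + 1))) = ι ((Sq X (k + 1) a x : P X (k + 1)) : X.H (k + 1))
    rw [hS, coe_Sq F.sq (by omega)]
  · intro a ha
    exact (hT a ha).2
  · intro a ha _
    exact (hT a ha).1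
  · intro a ha
    apply Subtype.ext
    have h1 := hT a (by omega)
    have e : 2 * m + 2 - a = 0 := by omega
    rw [e] at h1
    exact prim_gr_zero F (by omega) (by omega) _ (T a).2 h1.1
  · apply Subtype.ext
    apply hι
    rw [coe_sig F.sigma (by omega), ← htop]
    exact (hT (m + 1) (by omega)).2.symm

theorem sec08 (F : Facts X S D d) (h : ∀ k, P X k) (hh : h ∈ SphSet S d) (j : ℕ) (hj : 1 ≤ j)
    (h4 : 4 * j = d) (ζ : P X 0) (hζ : ζ ∈ deg X 0 j) (hA : ∀ a, 1 ≤ a → Sq X 0 a ζ = 0)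
    (hf : frob X 0 (frob X 0 ζ) = h 0) : h 0 = 0 := by
  obtain ⟨α, hα⟩ := hh
  have hD := F.dD
  have hz : (ζ : X.H 0) = 0 := by
    refine F.four α j ζ hj h4 hζ.1 hζ.2 ζ.2 ?_ ?_
    · intro a ha
      rw [← coe_Sq F.sq (by omega), hA a ha]; rfl
    · rw [← hα 0 (by omega), ← hf, coe_frob, coe_frob]; ring
  have : ζ = 0 := Subtype.ext hz
  rw [← hf, this, map_zero, map_zero]

/-- `ξ = x_d` forces `d + 1 ∈ {2,4,8}` -/
theorem hopf (F : Facts X S D d) (H : S.FactHopf d) (h : ∀ k, P X k) (hh : h ∈ SphSet S d)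
    (hodd : Odd d) (ξ : P X d) (hx : (ξ : X.H d) = X.x d) (hf : frob X d ξ = h d) :
    d + 1 = 2 ∨ d + 1 = 4 ∨ d + 1 = 8 := by
  obtain ⟨α, hα⟩ := hh
  have hD := F.dD
  have := H α hodd (by
    rw [← hα d (by omega), ← hf, coe_frob, hx])
  omega

end Crest.Agent.R204.Glue693
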