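import Crest.Agent.R204.GlueC_114
import Crest.Agent.R204.Glue_693
import Crest.Agent.R204.DickInst_91

/-!
# Row 204: glue, part D: the second-layer tower from the facts, given the outputs of Theorem 3 (helper114)
-/

set_option autoImplicit false

noncomputable section

namespace Crest.Agent.R204.Glue114

open Spec114 TensorProduct MvPolynomial Rng114
open scoped TensorProduct

variable {Y : Spec114.Tower} {S : Sph Y} {D d : ℕ}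

/-- `frob_inj`, `k ≥ 1` -/
theorem frob_inj_pos (hF : Facts Y S D d) {k : ℕ} (h1 : 1 ≤ k) (hk : k ≤ d + 1) (i : ℕ)
    (hi : 2 * i ≤ 2 * d + 2) (x : P Y k) (hx : x ∈ deg Y k i) (h0 : frob Y k x = 0) : x = 0 := by
  have hD := hF.dD
  apply Subtype.ext
  exact sq_inj hF h1 (by omega) (t := i) (by omega) (grB_le Y k i hx) (congrArg Subtype.val h0)

/-- `ker_sig`, `k ≥ 1` -/
theorem ker_sig_pos' (hF : Facts Y S D d) {k : ℕ} (h1 : 1 ≤ k) (hk : k ≤ d) (i : ℕ) (hi1 : 1 ≤ i)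
    (hi : i ≤ 2 * d + 2) (x : P Y k) (hx : x ∈ deg Y k i) (hne : x ≠ 0) (h0 : sig Y k x = 0) :
    ∃ j, 2 * j = i ∧ ∃ y ∈ deg Y k j, x = frob Y k y := by
  have hD := hF.dD
  have h2 : Y.σ k (x : Y.H k) = 0 := by
    rw [← coe_sig hF.sigma (by omega), h0]; rfl
  obtain ⟨j, hj, ζ, hζ, hζp, he⟩ := ker_sig_pos hF h1 (by omega) hi1 (by omega)
    (grB_le Y k i hx) x.2 (fun h => hne (Subtype.ext h)) h2
  refine ⟨j, hj, ⟨ζ, hζp⟩, ?_, Subtype.ext he⟩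
  rw [mem_deg, grB_pos Y h1]
  exact hζ

/-- the outputs of Theorem 3 and of the `k = 0` analysis, as needed by `Spine693.Tower` -/
structure T3Out (St : Spine693.Dick) (Y : Spec114.Tower) (d : ℕ) where
  c0 : ∀ k : ℕ, P Y k →ₗ[F2] F2
  comp : ∀ k r : ℕ, P Y k →ₗ[F2] (Spine693.M r k →ₗ[F2] F2)
  c1 : P Y 0 →ₗ[F2] (Spine693.M 0 0 →ₗ[F2] F2)
  frob_inj0 : ∀ i, 2 * i ≤ 2 * d + 2 → ∀ x ∈ deg Y 0 i, frob Y 0 x = 0 → x = 0
  ker_sig0 : ∀ i, 1 ≤ i → i ≤ 2 * d + 2 → ∀ x ∈ deg Y 0 i, x ≠ 0 → sig Y 0 x = 0 →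
    ∃ j, 2 * j = i ∧ ∃ y ∈ deg Y 0 j, x = frob Y 0 y
  comp_Sq : ∀ k, 1 ≤ k → k ≤ d + 1 → ∀ i, i ≤ 2 * d + 2 → ∀ x ∈ deg Y k i, ∀ r a,
    comp k r (Sq Y k a x) = comp k r x ∘ₗ St.SqM r k a
  comp_deg : ∀ k, 1 ≤ k → k ≤ d + 1 → ∀ i, i ≤ 2 * d + 2 → ∀ x ∈ deg Y k i,
    ∀ r (g : Spine693.M r k) (j : ℕ),
    IsWeightedHomogeneous (Spine693.wt r) (g : Spine693.D (r + 1)) j → j + k ≠ i → comp k r x g = 0
  c0_deg : ∀ k, 1 ≤ k → k ≤ d + 1 → ∀ i, i ≤ 2 * d + 2 → ∀ x ∈ deg Y k i, i ≠ k → c0 k x = 0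
  c0_Sq : ∀ k, 1 ≤ k → k ≤ d + 1 → ∀ i, i ≤ 2 * d + 2 → ∀ x ∈ deg Y k i, ∀ a, 1 ≤ a →
    c0 k (Sq Y k a x) = 0
  comp_inj : ∀ k, 1 ≤ k → k ≤ d + 1 → ∀ i, i ≤ 2 * d + 2 → ∀ x ∈ deg Y k i,
    c0 k x = 0 → (∀ r, comp k r x = 0) → x = 0
  comp_sig : ∀ k, 1 ≤ k → k ≤ d → ∀ i, i ≤ 2 * d + 1 → ∀ x ∈ deg Y k i, ∀ r,
    comp (k + 1) r (sig Y k x) = comp k r x ∘ₗ Spine693.inc r k
  c0_x : ∀ ξ ∈ deg Y d d, c0 d ξ ≠ 0 → (∀ r, comp d r ξ = 0) → (ξ : Y.H d) = Y.x d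
  lowest : ∀ i, 1 ≤ i → i ≤ 2 * d + 2 → ∀ x ∈ deg Y 0 i, x ≠ 0 →
    (c1 x ≠ 0 ∧ Spine693.Conc (c1 x) i ∧
      ((∀ a, 1 ≤ a → Sq Y 0 a x = 0) → ∀ a, 1 ≤ a → c1 x ∘ₗ St.SqM 0 0 a = 0) ∧
      comp 1 0 (sig Y 0 x) = c1 x ∘ₗ Spine693.inc 0 0) ∨
    (c1 x = 0 ∧ ∃ (r : ℕ) (f : Spine693.M r 0 →ₗ[F2] F2), 1 ≤ r ∧ f ≠ 0 ∧ Spine693.Conc f i ∧
      ((∀ a, 1 ≤ a → Sq Y 0 a x = 0) → ∀ a, 1 ≤ a → f ∘ₗ St.SqM r 0 a = 0) ∧
      comp 1 r (sig Y 0 x) = f ∘ₗ Spine693.inc r 0)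

/-- the second-layer tower -/
def mkTower {St : Spine693.Dick} (hF : Facts Y S D d) (hH : S.FactHopf d) (T : T3Out St Y d) :
    Spine693.Tower St d where
  P := P Y
  deg := deg Y
  Sq := Sq Y
  sig := sig Y
  frob := frob Y
  c0 := T.c0
  comp := T.comp
  c1 := T.c1
  Sph := SphSet S d
  frob_deg k hk i x hx := frob_deg hF.gr (by have := hF.dD; omega) i x hx
  sig_deg k hk i x hx := sig_deg hF.sigma (by have := hF.dD; omega) i x hx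
  Sq_deg k hk i x hx a := Sq_deg hF.sq hF.base (by have := hF.dD; omega) i x hx a
  frob_inj k hk i hi x hx h0 := by
    rcases Nat.eq_zero_or_pos k with rfl | h1
    · exact T.frob_inj0 i hi x hx h0
    · exact frob_inj_pos hF h1 hk i hi x hx h0
  frob_Sq k hk a x := frob_Sq hF.sq (by have := hF.dD; omega) a x
  ker_sig k hk i hi1 hi x hx hne h0 := by
    rcases Nat.eq_zero_or_pos k with rfl | h1
    · exact T.ker_sig0 i hi1 hi x hx hne h0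
    · exact ker_sig_pos' hF h1 hk i hi1 hi x hx hne h0
  comp_Sq := T.comp_Sq
  comp_deg := T.comp_deg
  c0_deg := T.c0_deg
  c0_Sq := T.c0_Sq
  comp_inj := T.comp_inj
  comp_sig := T.comp_sig
  lowest := T.lowest
  sph_deg := Glue693.sph_deg hF
  sph_sig := Glue693.sph_sig hF
  sph_Sq := Glue693.sph_Sq hF
  sph_add h hh h' hh' := Glue693.sph_add hF h hh h' hh'
  cofib h hh k hk m hm h2 ξ hξ hA hf hz := Glue693.cofib hF h hh k hk m hm h2 ξ hξ hA hf hz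
  sec08 h hh j hj h4 ζ hζ hA hf := Glue693.sec08 hF h hh j hj h4 ζ hζ hA hf
  hopf h hh hodd ξ hξ hfr hc0 hc _ := Glue693.hopf hF hH h hh hodd ξ (T.c0_x ξ hξ hc0 hc) hfr

theorem eval_fam (hF : Facts Y S D d) (α : S.A) :
    ((Glue693.fam hF α 0 : P Y 0) : Y.H 0) = S.h 0 α := Glue693.coe_fam hF α (by omega)

/-- `Core314` from the outputs of Theorem 3 and block F -/
theorem core314_of {St : Spine693.Dick} (h06 : Spine693.Thm06 St) (hE : Spine693.LemEven St)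
    (h61 : Spine693.Lem61 St)
    (T : ∀ (Y : Spec114.Tower) (S : Sph Y) (D d : ℕ), Facts Y S D d → Nonempty (T3Out St Y d)) :
    Core314 := by
  intro Y S D d hF hH h1 h3 h7 hj α
  obtain ⟨T⟩ := T Y S D d hF
  have := (mkTower hF hH T).core14 h06 hE h61 hF.d_pos h1 h3 h7 hj (Glue693.fam hF α)
    (Glue693.fam_mem hF α)
  rw [← eval_fam hF α]
  exact congrArg Subtype.val this

/-- `Core315` (with Hopf invariant one as extra input) -/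
theorem core315_of {St : Spine693.Dick} (h06 : Spine693.Thm06 St) (hE : Spine693.LemEven St)
    (h61 : Spine693.Lem61 St)
    (T : ∀ (Y : Spec114.Tower) (S : Sph Y) (D d : ℕ), Facts Y S D d → Nonempty (T3Out St Y d))
    (X : Spec114.Tower) (S : Sph X) (D d : ℕ) (hF : Facts X S D d) (hH : S.FactHopf d)
    (α β : S.A) : S.h 0 α = 0 ∨ S.h 0 β = 0 ∨ S.h 0 α = S.h 0 β := by
  obtain ⟨T⟩ := T X S D d hF
  have := (mkTower hF hH T).core15 h06 hE h61 hF.d_pos (Glue693.fam hF α) (Glue693.fam hF β)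
    (Glue693.fam_mem hF α) (Glue693.fam_mem hF β)
  rw [← eval_fam hF α, ← eval_fam hF β]
  rcases this with h | h | h
  · exact Or.inl (congrArg Subtype.val h)
  · exact Or.inr (Or.inl (congrArg Subtype.val h))
  · exact Or.inr (Or.inr (congrArg Subtype.val h))

end Crest.Agent.R204.Glue114
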