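import Crest.Agent.R204.GlueD_114
import Crest.Agent.R204.F_550

/-!
# Row 204: glue, part E: block F plugged in (helper114)
-/

set_option autoImplicit false

noncomputable section

namespace Crest.Agent.R204.Glue114

open Spec114

/-- outputs of Theorem 3 for all facts -/
def T3All : Prop := ∀ (Y : Spec114.Tower) (S : Sph Y) (D d : ℕ), Facts Y S D d →
  Nonempty (T3Out DickInst91.dick Y d)

theorem core314_dick (h : T3All) : Core314 :=
  core314_of F550.thm06_dick F550.lemEven_dick' F550.lem61_dick h

theorem core315_dick (h : T3All) (X : Spec114.Tower) (S : Sph X) (D d : ℕ) (hF : Facts X S D d)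
    (hH : S.FactHopf d) (α β : S.A) : S.h 0 α = 0 ∨ S.h 0 β = 0 ∨ S.h 0 α = S.h 0 β :=
  core315_of F550.thm06_dick F550.lemEven_dick' F550.lem61_dick h X S D d hF hH α β

end Crest.Agent.R204.Glue114
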