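import Crest.Agent.R204.HA_683
import Crest.Agent.R204.HA_498

/-!
# Row 204, leaf A7, part b (helper683): filtered comparison, vanishing ranges, conversion to `Hd`
-/

set_option autoImplicit false

namespace Crest.Agent.R204.HA683

open Function HA498

namespace GMap

variable {R M M' : Type*} [CommRing R] [AddCommGroup M] [AddCommGroup M'] [Module R M]
    [Module R M'] {c : GMap R M M'} {Q : Submodule R M} {Q' : Submodule R M'}
    {F : ℕ → Submodule R M} {F' : ℕ → Submodule R M'}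

/-! ### filtrations -/

/-- one more step of the pair condition "injective in degree `n`, surjective in degree `n + 1`" -/
theorem pair_filt (hQ : c.Sub Q Q') (hF : ∀ p, c.Sub (F p) (F' p)) (hm : Monotone F)
    (hm' : Monotone F') {p₀ : ℕ} (hQF : Q ≤ F p₀) (hQF' : Q' ≤ F' p₀) {n : ℕ}
    (h0 : c.Inj (F p₀) Q (F' p₀) Q' n ∧ c.Sur (F p₀) Q (F' p₀) Q' (n + 1))
    (h : ∀ p, p₀ ≤ p → c.Inj (F (p + 1)) (F p) (F' (p + 1)) (F' p) n ∧
      c.Sur (F (p + 1)) (F p) (F' (p + 1)) (F' p) (n + 1)) :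
    ∀ p, p₀ ≤ p → c.Inj (F p) Q (F' p) Q' n ∧ c.Sur (F p) Q (F' p) Q' (n + 1) := by
  intro p hp
  induction p, hp using Nat.le_induction with
  | base => exact h0
  | succ p hp ih =>
    have e1 := hm hp
    have e2 := hm' hp
    exact ⟨inj_mid hQ (hF p) (hF (p + 1)) (hQF.trans e1) (hQF'.trans e2) (hm (Nat.le_succ p))
        (hm' (Nat.le_succ p)) (h p hp).1 (h p hp).2 ih.1,
      sur_mid hQ (hF p) (hF (p + 1)) (hQF.trans e1) (hQF'.trans e2) (hm (Nat.le_succ p))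
        (hm' (Nat.le_succ p)) (h p hp).2 ih.2 (fun m hm => by
          obtain rfl : n = m := by omega
          exact ih.1)⟩

/-- all steps: `F p / Q` for `p ≥ p₀` -/
theorem conn_filt (hQ : c.Sub Q Q') (hF : ∀ p, c.Sub (F p) (F' p)) (hm : Monotone F)
    (hm' : Monotone F') {p₀ : ℕ} (hQF : Q ≤ F p₀) (hQF' : Q' ≤ F' p₀) {n : ℕ}
    (h0 : c.Conn (F p₀) Q (F' p₀) Q' n)
    (h : ∀ p, p₀ ≤ p → c.Conn (F (p + 1)) (F p) (F' (p + 1)) (F' p) n) :
    ∀ p, p₀ ≤ p → c.Conn (F p) Q (F' p) Q' n := by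
  intro p hp
  induction p, hp using Nat.le_induction with
  | base => exact h0
  | succ p hp ih =>
    exact conn_mid hQ (hF p) (hF (p + 1)) (hQF.trans (hm hp)) (hQF'.trans (hm' hp))
      (hm (Nat.le_succ p)) (hm' (Nat.le_succ p)) ih (h p hp)

theorem inj_union (hm : Monotone F) (hm' : Monotone F') (hex : ∀ x, ∃ p, x ∈ F p)
    (hex' : ∀ x, ∃ p, x ∈ F' p) {p₀ n : ℕ} (h : ∀ p, p₀ ≤ p → c.Inj (F p) Q (F' p) Q' n) :
    c.Inj ⊤ Q ⊤ Q' n := by
  intro z _ hz hdz w _ hw hzw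
  obtain ⟨p, hp⟩ := hex z
  obtain ⟨q, hq⟩ := hex' w
  obtain ⟨v, hvP, hv, h1⟩ := h (max p₀ (max p q)) (le_max_left _ _) z
    (hm ((le_max_left _ _).trans (le_max_right _ _)) hp) hz hdz w
    (hm' ((le_max_right _ _).trans (le_max_right _ _)) hq) hw hzw
  exact ⟨v, trivial, hv, h1⟩

theorem sur_union (hm' : Monotone F') (hex' : ∀ x, ∃ p, x ∈ F' p) {p₀ n : ℕ}
    (h : ∀ p, p₀ ≤ p → c.Sur (F p) Q (F' p) Q' n) : c.Sur ⊤ Q ⊤ Q' n := by
  intro z' _ hz' hdz'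
  obtain ⟨p, hp⟩ := hex' z'
  obtain ⟨z, _, hz, hdz, w, _, hw, h1⟩ := h (max p₀ p) (le_max_left _ _) z'
    (hm' (le_max_right _ _) hp) hz' hdz'
  exact ⟨z, trivial, hz, hdz, w, trivial, hw, h1⟩

/-- **filtered comparison theorem** (range form, relative to `Q`): `F p₀ / Q` and all `F (p+1) / F p`,
`p ≥ p₀`, are `n`-connected, filtrations exhaustive: `M / Q → M' / Q'` is `n`-connected. -/
theorem conn_total (hQ : c.Sub Q Q') (hF : ∀ p, c.Sub (F p) (F' p)) (hm : Monotone F)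
    (hm' : Monotone F') (hex : ∀ x, ∃ p, x ∈ F p) (hex' : ∀ x, ∃ p, x ∈ F' p)
    {p₀ : ℕ} (hQF : Q ≤ F p₀) (hQF' : Q' ≤ F' p₀) {n : ℕ}
    (h0 : c.Conn (F p₀) Q (F' p₀) Q' n)
    (h : ∀ p, p₀ ≤ p → c.Conn (F (p + 1)) (F p) (F' (p + 1)) (F' p) n) :
    c.Conn ⊤ Q ⊤ Q' n := by
  have := conn_filt hQ hF hm hm' hQF hQF' h0 h
  exact ⟨fun k hk => sur_union hm' hex' fun p hp => (this p hp).1 k hk,
    fun k hk => inj_union hm hm' hex hex' fun p hp => (this p hp).2 k hk⟩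

theorem conn_self (P : Submodule R M) (P' : Submodule R M') (n : ℕ) : c.Conn P P P' P' n :=
  ⟨fun _ _ z' hz' _ _ => ⟨0, P.zero_mem, Submodule.zero_mem _, by simp, 0, P'.zero_mem,
    Submodule.zero_mem _, by simpa using hz'⟩,
   fun _ _ z hz _ _ _ _ _ _ => ⟨0, P.zero_mem, Submodule.zero_mem _, by simpa using hz⟩⟩

theorem Conn.mono {P Q : Submodule R M} {P' Q' : Submodule R M'} {m n : ℕ} (h : c.Conn P Q P' Q' n)
    (hmn : m ≤ n) : c.Conn P Q P' Q' m :=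
  ⟨fun k hk => h.1 k (by omega), fun k hk => h.2 k (by omega)⟩

/-- the quotient `M / F p₀`: only the pieces above `p₀` matter -/
theorem conn_total_quot (hF : ∀ p, c.Sub (F p) (F' p)) (hm : Monotone F)
    (hm' : Monotone F') (hex : ∀ x, ∃ p, x ∈ F p) (hex' : ∀ x, ∃ p, x ∈ F' p)
    {p₀ : ℕ} {n : ℕ} (h : ∀ p, p₀ ≤ p → c.Conn (F (p + 1)) (F p) (F' (p + 1)) (F' p) n) :
    c.Conn ⊤ (F p₀) ⊤ (F' p₀) n :=
  conn_total (hF p₀) hF hm hm' hex hex' le_rfl le_rfl (conn_self _ _ _) h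

/-- **comparison, third form**: the total complex is `n`-connected, the pieces above `p₀` are
`(n+1)`-connected: `F p₀` is `n`-connected (relative to `Q`). -/
theorem conn_bottom (hQ : c.Sub Q Q') (hF : ∀ p, c.Sub (F p) (F' p)) (hm : Monotone F)
    (hm' : Monotone F') (hex : ∀ x, ∃ p, x ∈ F p) (hex' : ∀ x, ∃ p, x ∈ F' p)
    {p₀ : ℕ} (hQF : Q ≤ F p₀) (hQF' : Q' ≤ F' p₀) {n : ℕ} (h0 : c.Conn ⊤ Q ⊤ Q' n)
    (h : ∀ p, p₀ ≤ p → c.Conn (F (p + 1)) (F p) (F' (p + 1)) (F' p) (n + 1)) :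
    c.Conn (F p₀) Q (F' p₀) Q' n :=
  conn_sub hQ (hF p₀) c.sub_top hQF hQF' le_top le_top h0
    (conn_total_quot hF hm hm' hex hex' h)

end GMap

/-! ### vanishing -/

section Van

variable {R M : Type*} [CommRing R] [AddCommGroup M] [Module R M] {d : M →ₗ[R] M}
  {G : ℕ → Submodule R M}

/-- `H_n(P/Q) = 0` -/
def Van (d : M →ₗ[R] M) (G : ℕ → Submodule R M) (P Q : Submodule R M) (n : ℕ) : Prop :=
  ∀ z ∈ P, z ∈ G n → d z ∈ Q → ∃ v ∈ P, v ∈ G (n + 1) ∧ z - d v ∈ Q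

/-- the identity as a `GMap` -/
def idG (h : DGr d G) : GMap R M M := ⟨d, G, d, G, LinearMap.id, h, h, fun _ => rfl, fun _ _ h => h⟩

variable {P Q S : Submodule R M}

theorem van_mid (h : DGr d G) (hPS : P ≤ S) (hQP : Q ≤ P) {n : ℕ} (h1 : Van d G S P n)
    (h2 : Van d G P Q n) : Van d G S Q n := by
  intro z hzS hz hdz
  obtain ⟨v, hvS, hv, hzv⟩ := h1 z hzS hz (hQP hdz)
  obtain ⟨w, hwP, hw, hf⟩ := h2 _ hzv ((G n).sub_mem hz (h.succ _ _ hv))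
    (by simpa only [map_sub, h.dd, sub_zero] using hdz)
  exact ⟨v + w, S.add_mem hvS (hPS hwP), (G _).add_mem hv hw, by
    convert hf using 1
    rw [map_add]; abel⟩

/-- `H_n(P/Q) → H_n(S/Q)` onto when `H_n(S/P) = 0` -/
theorem sur_incl (h : DGr d G) (hQP : Q ≤ P) {n : ℕ} (h1 : Van d G S P n) :
    (idG h).Sur P Q S Q n := by
  intro z hzS hz hdz
  change d z ∈ Q at hdz
  obtain ⟨v, hvS, hv, hzv⟩ := h1 z hzS hz (hQP hdz)
  refine ⟨z - d v, hzv, (G n).sub_mem hz (h.succ _ _ hv), ?_, v, hvS, hv, ?_⟩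
  · change d (z - d v) ∈ Q
    simpa only [map_sub, h.dd, sub_zero] using hdz
  · change z - (z - d v) - d v ∈ Q
    rw [sub_sub_cancel, sub_self]; exact Q.zero_mem

/-- `H_n(P/Q) → H_n(S/Q)` injective when `H_{n+1}(S/P) = 0` -/
theorem inj_incl (h : DGr d G) (hQP : Q ≤ P) {n : ℕ} (h1 : Van d G S P (n + 1)) :
    (idG h).Inj P Q S Q n := by
  intro z hzP hz hdz w hwS hw hzw
  change z - d w ∈ Q at hzw
  obtain ⟨v, hvS, hv, hwv⟩ := h1 w hwS hw (by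
    have := P.sub_mem hzP (hQP hzw)
    rwa [sub_sub_cancel] at this)
  refine ⟨w - d v, hwv, (G _).sub_mem hw (h.succ _ _ hv), ?_⟩
  change z - d (w - d v) ∈ Q
  simpa only [map_sub, h.dd, sub_zero] using hzw

/-- `H_n(S/P) = 0` for `k ≤ n + 1`... : `P → S` is `n`-connected when `H_k(S/P) = 0`, `k ≤ n` -/
theorem conn_incl (h : DGr d G) (hQP : Q ≤ P) {n : ℕ} (h1 : ∀ k, k ≤ n → Van d G S P k) :
    (idG h).Conn P Q S Q n :=
  ⟨fun k hk => sur_incl h hQP (h1 k hk), fun k hk => inj_incl h hQP (h1 (k + 1) (by omega))⟩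

/-- `H_n(S/Q) → H_n(S/P)` injective when `H_n(P/Q) = 0` -/
theorem inj_proj (h : DGr d G) (hPS : P ≤ S) {n : ℕ} (h1 : Van d G P Q n) :
    (idG h).Inj S Q S P n := by
  intro z hzS hz hdz w hwS hw hzw
  change z - d w ∈ P at hzw
  change d z ∈ Q at hdz
  obtain ⟨v, hvP, hv, hf⟩ := h1 _ hzw ((G n).sub_mem hz (h.succ _ _ hw))
    (by simpa only [map_sub, h.dd, sub_zero] using hdz)
  refine ⟨w + v, S.add_mem hwS (hPS hvP), (G _).add_mem hw hv, ?_⟩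
  change z - d (w + v) ∈ Q
  convert hf using 1
  rw [map_add]; abel

/-- `H_n(S/Q) → H_n(S/P)` onto when `H_{n-1}(P/Q) = 0` -/
theorem sur_proj (h : DGr d G) (hPS : P ≤ S) {n : ℕ}
    (h1 : ∀ m, n = m + 1 → Van d G P Q m) : (idG h).Sur S Q S P n := by
  intro z hzS hz hdz
  change d z ∈ P at hdz
  obtain ⟨v, hvP, hv, hf⟩ : ∃ v ∈ P, v ∈ G n ∧ d z - d v ∈ Q := by
    rcases n with _ | m
    · exact ⟨0, P.zero_mem, Submodule.zero_mem _, by rw [h.zero z hz]; simp⟩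
    · exact h1 m rfl _ hdz (h.succ _ _ hz) (by rw [h.dd]; exact Q.zero_mem)
  refine ⟨z - v, S.sub_mem hzS (hPS hvP), (G n).sub_mem hz hv, ?_, 0, S.zero_mem,
    Submodule.zero_mem _, ?_⟩
  · change d (z - v) ∈ Q
    rwa [map_sub]
  · change z - (z - v) - d 0 ∈ P
    rwa [sub_sub_cancel, map_zero, sub_zero]

theorem van_quot (h : DGr d G) (hQP : Q ≤ P) (hPS : P ≤ S) {n : ℕ} (h1 : Van d G S Q n)
    (h2 : ∀ m, n = m + 1 → Van d G P Q m) : Van d G S P n := by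
  intro z hzS hz hdz
  obtain ⟨y, hyS, hy, hdy, w, hwS, hw, hf⟩ := sur_proj h hPS h2 z hzS hz hdz
  change d y ∈ Q at hdy
  change z - y - d w ∈ P at hf
  obtain ⟨v, hvS, hv, hg⟩ := h1 y hyS hy hdy
  refine ⟨v + w, S.add_mem hvS hwS, (G _).add_mem hv hw, ?_⟩
  convert P.add_mem hf (hQP hg) using 1
  rw [map_add]; abel

theorem van_sub (h : DGr d G) (hQP : Q ≤ P) (hPS : P ≤ S) {n : ℕ} (h1 : Van d G S Q n)
    (h2 : Van d G S P (n + 1)) : Van d G P Q n := by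
  intro z hzP hz hdz
  obtain ⟨w, hwS, hw, hf⟩ := h1 z (hPS hzP) hz hdz
  exact inj_incl h hQP h2 z hzP hz hdz w hwS hw hf

theorem van_self (P : Submodule R M) (n : ℕ) : Van d G P P n :=
  fun z hz _ _ => ⟨0, P.zero_mem, Submodule.zero_mem _, by simpa using hz⟩

variable {F : ℕ → Submodule R M}

/-- all `H_n(F (p+1) / F p) = 0`, `p ≥ p₀`: `H_n(F p / F p₀) = 0` -/
theorem van_filt (h : DGr d G) (hm : Monotone F) {p₀ n : ℕ}
    (h1 : ∀ p, p₀ ≤ p → Van d G (F (p + 1)) (F p) n) : ∀ p, p₀ ≤ p → Van d G (F p) (F p₀) n := by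
  intro p hp
  induction p, hp using Nat.le_induction with
  | base => exact van_self _ _
  | succ p hp ih => exact van_mid h (hm (Nat.le_succ p)) (hm hp) (h1 p hp) ih

/-- all `H_n(F (p+1) / F p) = 0`, `p ≥ p₀`: `H_n(M / F p₀) = 0` -/
theorem van_total (h : DGr d G) (hm : Monotone F) (hex : ∀ x, ∃ p, x ∈ F p) {p₀ n : ℕ}
    (h1 : ∀ p, p₀ ≤ p → Van d G (F (p + 1)) (F p) n) : Van d G ⊤ (F p₀) n := by
  intro z _ hz hdz
  obtain ⟨p, hp⟩ := hex z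
  obtain ⟨v, _, hv, hf⟩ := van_filt h hm h1 (max p₀ p) (le_max_left _ _) z
    (hm (le_max_right _ _) hp) hz hdz
  exact ⟨v, trivial, hv, hf⟩

/-- range form: if the pieces above `p₀` have no homology in degrees `≤ n`, then `F p₀ → M` is
`n`-connected -/
theorem conn_bottom_incl (h : DGr d G) (hm : Monotone F) (hex : ∀ x, ∃ p, x ∈ F p)
    {p₀ n : ℕ} (hQ : Q ≤ F p₀) (h1 : ∀ p, p₀ ≤ p → ∀ k, k ≤ n → Van d G (F (p + 1)) (F p) k) :
    (idG h).Conn (F p₀) Q ⊤ Q n :=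
  conn_incl h hQ fun k hk => van_total h hm hex fun p hp => h1 p hp k hk

end Van

end Crest.Agent.R204.HA683
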