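import Crest.Agent.R204.HA_498
import Crest.Agent.R204.SpecA_334

/-! # Row 204, A7: `SpecA.LES` -/

set_option autoImplicit false

namespace Crest.Agent.R204.HA498

/-- `SpecA.LES` -/
theorem specA_LES : SpecA.LES := by
  intro R _ M' M M'' _ _ _ _ _ _ d' d d'' hs' hs f g hf hg hi hex hsurj
  exact les (⟨hs', hs, hf, hg, hi, hex, hsurj⟩ : SES d' d d'' f g)

end Crest.Agent.R204.HA498
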