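import Crest.Agent.R204.Defs

/-!
# Row 204, leaf A7, part b (helper683)

Range ("`n`-connected") versions of the five lemma and the filtered comparison theorem, elementwise:
no connecting map, no quotient module is used.

`c : GMap R M M'` is a map `φ` of internally graded complexes `(M, d, G)`, `(M', d', G')`
(`d` lowers the degree by one and kills `G 0`).  For subcomplexes `Q ≤ P` of `M`, `Q' ≤ P'` of `M'`
with `φ P ⊆ P'`, `φ Q ⊆ Q'`:

* `c.Inj P Q P' Q' n` : `H_n(P/Q) → H_n(P'/Q')` is injective,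
* `c.Sur P Q P' Q' n` : `H_n(P/Q) → H_n(P'/Q')` is surjective,
* `c.Conn P Q P' Q' n` : surjective for `k ≤ n`, injective for `k < n`.

Take `P = ⊤`, `Q = ⊥` for the whole complex.
-/

set_option autoImplicit false

namespace Crest.Agent.R204.HA683

open Function

/-- `d` is a differential which lowers the internal degree by one (and kills degree `0`) -/
structure DGr {R M : Type*} [CommRing R] [AddCommGroup M] [Module R M] (d : M →ₗ[R] M)
    (G : ℕ → Submodule R M) : Prop where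
  succ : ∀ n, ∀ x ∈ G (n + 1), d x ∈ G n
  zero : ∀ x ∈ G 0, d x = 0
  dd : ∀ x, d (d x) = 0

/-- a map of internally graded complexes -/
structure GMap (R M M' : Type*) [CommRing R] [AddCommGroup M] [AddCommGroup M'] [Module R M]
    [Module R M'] where
  d : M →ₗ[R] M
  G : ℕ → Submodule R M
  d' : M' →ₗ[R] M'
  G' : ℕ → Submodule R M'
  φ : M →ₗ[R] M'
  src : DGr d G
  tgt : DGr d' G'
  comm : ∀ x, φ (d x) = d' (φ x)
  deg : ∀ n, ∀ x ∈ G n, φ x ∈ G' n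

/-- a subcomplex of the source together with a subcomplex of the target, `φ P ⊆ P'` -/
structure GMap.Sub {R M M' : Type*} [CommRing R] [AddCommGroup M] [AddCommGroup M'] [Module R M]
    [Module R M'] (c : GMap R M M') (P : Submodule R M) (P' : Submodule R M') : Prop where
  d_mem : ∀ x ∈ P, c.d x ∈ P
  d_mem' : ∀ x ∈ P', c.d' x ∈ P'
  map : ∀ x ∈ P, c.φ x ∈ P'

namespace GMap

variable {R M M' : Type*} [CommRing R] [AddCommGroup M] [AddCommGroup M'] [Module R M]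
    [Module R M'] (c : GMap R M M')

theorem sub_top : c.Sub ⊤ ⊤ := ⟨fun _ _ => trivial, fun _ _ => trivial, fun _ _ => trivial⟩

theorem sub_bot : c.Sub ⊥ ⊥ :=
  ⟨fun x hx => by rw [(Submodule.mem_bot R).1 hx]; simp,
   fun x hx => by rw [(Submodule.mem_bot R).1 hx]; simp,
   fun x hx => by rw [(Submodule.mem_bot R).1 hx]; simp⟩

/-- `H_n(P/Q) → H_n(P'/Q')` is injective -/
def Inj (P Q : Submodule R M) (P' Q' : Submodule R M') (n : ℕ) : Prop :=
  ∀ z ∈ P, z ∈ c.G n → c.d z ∈ Q → ∀ w ∈ P', w ∈ c.G' (n + 1) → c.φ z - c.d' w ∈ Q' →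
    ∃ v ∈ P, v ∈ c.G (n + 1) ∧ z - c.d v ∈ Q

/-- `H_n(P/Q) → H_n(P'/Q')` is surjective -/
def Sur (P Q : Submodule R M) (P' Q' : Submodule R M') (n : ℕ) : Prop :=
  ∀ z' ∈ P', z' ∈ c.G' n → c.d' z' ∈ Q' → ∃ z ∈ P, z ∈ c.G n ∧ c.d z ∈ Q ∧
    ∃ w ∈ P', w ∈ c.G' (n + 1) ∧ z' - c.φ z - c.d' w ∈ Q'

/-- surjective in degrees `≤ n` and injective in degrees `< n` -/
def Conn (P Q : Submodule R M) (P' Q' : Submodule R M') (n : ℕ) : Prop :=
  (∀ k, k ≤ n → c.Sur P Q P' Q' k) ∧ (∀ k, k < n → c.Inj P Q P' Q' k)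

variable {c}
variable {P Q S : Submodule R M} {P' Q' S' : Submodule R M'}

section Four

variable (hQ : c.Sub Q Q') (hP : c.Sub P P') (hS : c.Sub S S') (hQP : Q ≤ P) (hQP' : Q' ≤ P')
  (hPS : P ≤ S) (hPS' : P' ≤ S')
include hQ hP hS hQP hQP' hPS hPS'

/-- middle term, injectivity -/
theorem inj_mid {n : ℕ} (h1 : c.Inj S P S' P' n) (h2 : c.Sur S P S' P' (n + 1))
    (h3 : c.Inj P Q P' Q' n) : c.Inj S Q S' Q' n := by
  intro z hzS hz hdz w hwS hw hzw
  obtain ⟨v, hvS, hv, hzv⟩ := h1 z hzS hz (hQP hdz) w hwS hw (hQP' hzw)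
  -- `w - φ v` is a relative cycle
  have hw1S : w - c.φ v ∈ S' := S'.sub_mem hwS (hS.map _ hvS)
  have hw1 : w - c.φ v ∈ c.G' (n + 1) := (c.G' _).sub_mem hw (c.deg _ _ hv)
  have hdw1 : c.d' (w - c.φ v) ∈ P' := by
    have := P'.sub_mem (hP.map _ hzv) (hQP' hzw)
    convert this using 1
    simp only [map_sub, c.comm]; abel
  obtain ⟨y, hyS, hy, hdy, u, huS, hu, hw2⟩ := h2 _ hw1S hw1 hdw1
  have hz2P : z - c.d v - c.d y ∈ P := P.sub_mem hzv hdy
  have hz2 : z - c.d v - c.d y ∈ c.G n :=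
    (c.G n).sub_mem ((c.G n).sub_mem hz (c.src.succ _ _ hv)) (c.src.succ _ _ hy)
  have hdz2 : c.d (z - c.d v - c.d y) ∈ Q := by
    simpa only [map_sub, c.src.dd, sub_zero] using hdz
  obtain ⟨t, htP, ht, hzt⟩ := h3 _ hz2P hz2 hdz2 _ hw2
    ((c.G' _).sub_mem ((c.G' _).sub_mem hw1 (c.deg _ _ hy)) (c.tgt.succ _ _ hu)) (by
      convert hzw using 1
      simp only [map_sub, c.comm, c.tgt.dd]; abel)
  refine ⟨v + y + t, S.add_mem (S.add_mem hvS hyS) (hPS htP),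
    (c.G _).add_mem ((c.G _).add_mem hv hy) ht, ?_⟩
  convert hzt using 1
  simp only [map_add]; abel

/-- middle term, surjectivity -/
theorem sur_mid {n : ℕ} (h1 : c.Sur S P S' P' n) (h2 : c.Sur P Q P' Q' n)
    (h3 : ∀ m, n = m + 1 → c.Inj P Q P' Q' m) : c.Sur S Q S' Q' n := by
  intro z' hzS' hz' hdz'
  obtain ⟨z, hzS, hz, hdz, w, hwS, hw, hy'⟩ := h1 z' hzS' hz' (hQP' hdz')
  -- correct `z` by an element of `P` so that `d z ∈ Q`
  obtain ⟨v, hvP, hv, hdv⟩ : ∃ v ∈ P, v ∈ c.G n ∧ c.d z - c.d v ∈ Q := by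
    rcases n with _ | m
    · refine ⟨0, P.zero_mem, Submodule.zero_mem _, ?_⟩
      rw [c.src.zero z hz]; simp
    · refine h3 m rfl (c.d z) hdz (c.src.succ _ _ hz) (by rw [c.src.dd]; exact Q.zero_mem)
        (-(z' - c.φ z - c.d' w)) (P'.neg_mem hy') ?_ ?_
      · exact (c.G' _).neg_mem ((c.G' _).sub_mem ((c.G' _).sub_mem hz' (c.deg _ _ hz))
          (c.tgt.succ _ _ hw))
      · convert hdz' using 1
        simp only [map_sub, map_neg, c.comm, c.tgt.dd]; abel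
  obtain ⟨z2, hz2P, hz2, hdz2, w2, hw2P, hw2, hf⟩ := h2 (z' - c.φ z - c.d' w + c.φ v)
    (P'.add_mem hy' (hP.map _ hvP))
    ((c.G' _).add_mem ((c.G' _).sub_mem ((c.G' _).sub_mem hz' (c.deg _ _ hz))
          (c.tgt.succ _ _ hw)) (c.deg _ _ hv)) (by
      convert Q'.sub_mem hdz' (hQ.map _ hdv) using 1
      simp only [map_sub, map_add, c.comm, c.tgt.dd]; abel)
  refine ⟨z - v + z2, S.add_mem (S.sub_mem hzS (hPS hvP)) (hPS hz2P),
    (c.G _).add_mem ((c.G _).sub_mem hz hv) hz2, ?_, w + w2, S'.add_mem hwS (hPS' hw2P),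
    (c.G' _).add_mem hw hw2, ?_⟩
  · convert Q.add_mem hdv hdz2 using 1
    simp only [map_sub, map_add]
  · convert hf using 1
    simp only [map_sub, map_add]; abel

/-- sub term, injectivity -/
theorem inj_sub {n : ℕ} (h1 : c.Inj S Q S' Q' n) (h2 : c.Sur S Q S' Q' (n + 1))
    (h3 : c.Inj S P S' P' (n + 1)) : c.Inj P Q P' Q' n := by
  intro z hzP hz hdz w hwP hw hzw
  obtain ⟨v, hvS, hv, hzv⟩ := h1 z (hPS hzP) hz hdz w (hPS' hwP) hw hzw
  obtain ⟨y, hyS, hy, hdy, u, huS, hu, hf⟩ := h2 (c.φ v - w) (S'.sub_mem (hS.map _ hvS) (hPS' hwP))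
    ((c.G' _).sub_mem (c.deg _ _ hv) hw) (by
      convert Q'.sub_mem hzw (hQ.map _ hzv) using 1
      simp only [map_sub, c.comm]; abel)
  obtain ⟨t, htS, ht, hvt⟩ := h3 (v - y) (S.sub_mem hvS hyS) ((c.G _).sub_mem hv hy) (by
      convert P.sub_mem (P.sub_mem hzP (hQP hzv)) (hQP hdy) using 1
      simp only [map_sub]; abel) u huS hu (by
      convert P'.add_mem (hQP' hf) hwP using 1
      simp only [map_sub]; abel)
  refine ⟨v - y - c.d t, hvt, (c.G _).sub_mem ((c.G _).sub_mem hv hy) (c.src.succ _ _ ht), ?_⟩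
  convert Q.add_mem hzv hdy using 1
  simp only [map_sub, c.src.dd]; abel

/-- sub term, surjectivity -/
theorem sur_sub {n : ℕ} (h1 : c.Sur S Q S' Q' n) (h2 : c.Inj S P S' P' n)
    (h3 : c.Sur S P S' P' (n + 1)) : c.Sur P Q P' Q' n := by
  intro z' hzP' hz' hdz'
  obtain ⟨z, hzS, hz, hdz, w, hwS, hw, hf⟩ := h1 z' (hPS' hzP') hz' hdz'
  obtain ⟨v, hvS, hv, hzv⟩ := h2 z hzS hz (hQP hdz) (-w) (S'.neg_mem hwS) ((c.G' _).neg_mem hw) (by
    convert P'.sub_mem hzP' (hQP' hf) using 1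
    simp only [map_neg]; abel)
  obtain ⟨y, hyS, hy, hdy, u, huS, hu, hw2⟩ := h3 (w + c.φ v) (S'.add_mem hwS (hS.map _ hvS))
    ((c.G' _).add_mem hw (c.deg _ _ hv)) (by
      convert P'.sub_mem (P'.sub_mem hzP' (hP.map _ hzv)) (hQP' hf) using 1
      simp only [map_add, map_sub, c.comm]; abel)
  refine ⟨z - c.d v + c.d y, P.add_mem hzv hdy, (c.G _).add_mem ((c.G _).sub_mem hz
    (c.src.succ _ _ hv)) (c.src.succ _ _ hy), ?_, _, hw2, (c.G' _).sub_mem ((c.G' _).sub_mem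
    ((c.G' _).add_mem hw (c.deg _ _ hv)) (c.deg _ _ hy)) (c.tgt.succ _ _ hu), ?_⟩
  · simpa only [map_sub, map_add, c.src.dd, sub_zero, add_zero] using hdz
  · convert hf using 1
    simp only [map_sub, map_add, c.comm, c.tgt.dd]; abel

/-- quotient term, injectivity -/
theorem inj_quot {n : ℕ} (h1 : c.Inj S Q S' Q' n) (h2 : c.Sur P Q P' Q' n)
    (h3 : ∀ m, n = m + 1 → c.Inj P Q P' Q' m) : c.Inj S P S' P' n := by
  intro z hzS hz hdz w hwS hw hzw
  obtain ⟨v, hvP, hv, hdv⟩ : ∃ v ∈ P, v ∈ c.G n ∧ c.d z - c.d v ∈ Q := by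
    rcases n with _ | m
    · refine ⟨0, P.zero_mem, Submodule.zero_mem _, ?_⟩
      rw [c.src.zero z hz]; simp
    · refine h3 m rfl (c.d z) hdz (c.src.succ _ _ hz) (by rw [c.src.dd]; exact Q.zero_mem)
        _ hzw ((c.G' _).sub_mem (c.deg _ _ hz) (c.tgt.succ _ _ hw)) ?_
      convert Q'.zero_mem using 1
      simp only [map_sub, c.comm, c.tgt.dd]; abel
  obtain ⟨z2, hz2P, hz2, hdz2, w2, hw2P, hw2, hf⟩ := h2 (c.φ z - c.d' w - c.φ v)
    (P'.sub_mem hzw (hP.map _ hvP))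
    ((c.G' _).sub_mem ((c.G' _).sub_mem (c.deg _ _ hz) (c.tgt.succ _ _ hw)) (c.deg _ _ hv)) (by
      convert hQ.map _ hdv using 1
      simp only [map_sub, c.comm, c.tgt.dd]; abel)
  obtain ⟨t, htS, ht, hzt⟩ := h1 (z - v - z2) (S.sub_mem (S.sub_mem hzS (hPS hvP)) (hPS hz2P))
    ((c.G _).sub_mem ((c.G _).sub_mem hz hv) hz2) (by
      convert Q.sub_mem hdv hdz2 using 1
      simp only [map_sub]) (w + w2) (S'.add_mem hwS (hPS' hw2P)) ((c.G' _).add_mem hw hw2) (by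
      convert hf using 1
      simp only [map_sub, map_add]; abel)
  refine ⟨t, htS, ht, ?_⟩
  convert P.add_mem (P.add_mem (hQP hzt) hvP) hz2P using 1
  abel

/-- quotient term, surjectivity -/
theorem sur_quot {n : ℕ} (h1 : c.Sur S Q S' Q' n)
    (h2 : ∀ m, n = m + 1 → c.Sur P Q P' Q' m)
    (h3 : ∀ m, n = m + 1 → c.Inj S Q S' Q' m) : c.Sur S P S' P' n := by
  intro z' hzS' hz' hdz'
  obtain ⟨v, hvS, hv, hdv, w, hwP, hw, hf⟩ : ∃ v ∈ S, v ∈ c.G n ∧ c.d v ∈ P ∧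
      ∃ w ∈ P', w ∈ c.G' n ∧ c.d' (z' - w - c.φ v) ∈ Q' := by
    rcases n with _ | m
    · refine ⟨0, S.zero_mem, Submodule.zero_mem _, by simp, 0, P'.zero_mem,
        Submodule.zero_mem _, ?_⟩
      rw [map_zero, sub_zero, sub_zero, c.tgt.zero z' hz']; exact Q'.zero_mem
    · obtain ⟨a, haP, ha, hda, w, hwP, hw, hf⟩ := h2 m rfl (c.d' z') hdz' (c.tgt.succ _ _ hz')
        (by rw [c.tgt.dd]; exact Q'.zero_mem)
      obtain ⟨v, hvS, hv, hav⟩ := h3 m rfl a (hPS haP) ha hda (z' - w)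
        (S'.sub_mem hzS' (hPS' hwP)) ((c.G' _).sub_mem hz' hw) (by
          convert Q'.neg_mem hf using 1
          simp only [map_sub]; abel)
      refine ⟨v, hvS, hv, ?_, w, hwP, hw, ?_⟩
      · convert P.sub_mem haP (hQP hav) using 1
        abel
      · convert Q'.add_mem hf (hQ.map _ hav) using 1
        simp only [map_sub, c.comm]; abel
  obtain ⟨y, hyS, hy, hdy, u, huS, hu, hg⟩ := h1 (z' - w - c.φ v)
    (S'.sub_mem (S'.sub_mem hzS' (hPS' hwP)) (hS.map _ hvS))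
    ((c.G' _).sub_mem ((c.G' _).sub_mem hz' hw) (c.deg _ _ hv)) hf
  refine ⟨v + y, S.add_mem hvS hyS, (c.G _).add_mem hv hy, ?_, u, huS, hu, ?_⟩
  · rw [map_add]; exact P.add_mem hdv (hQP hdy)
  · convert P'.add_mem (hQP' hg) hwP using 1
    simp only [map_add]; abel

/-- extension of `n`-connected by `n`-connected is `n`-connected -/
theorem conn_mid {n : ℕ} (h1 : c.Conn P Q P' Q' n) (h2 : c.Conn S P S' P' n) :
    c.Conn S Q S' Q' n :=
  ⟨fun k hk => sur_mid hQ hP hS hQP hQP' hPS hPS' (h2.1 k hk) (h1.1 k hk)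
      (fun m hm => h1.2 m (by omega)),
   fun k hk => inj_mid hQ hP hS hQP hQP' hPS hPS' (h2.2 k hk) (h2.1 (k + 1) (by omega))
      (h1.2 k hk)⟩

/-- total `n`-connected, quotient `(n+1)`-connected: sub `n`-connected -/
theorem conn_sub {n : ℕ} (h1 : c.Conn S Q S' Q' n) (h2 : c.Conn S P S' P' (n + 1)) :
    c.Conn P Q P' Q' n :=
  ⟨fun k hk => sur_sub hQ hP hS hQP hQP' hPS hPS' (h1.1 k hk) (h2.2 k (by omega))
      (h2.1 (k + 1) (by omega)),
   fun k hk => inj_sub hQ hP hS hQP hQP' hPS hPS' (h1.2 k hk) (h1.1 (k + 1) (by omega))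
      (h2.2 (k + 1) (by omega))⟩

/-- total `n`-connected, sub `(n-1)`-connected (i.e. surjective in degrees `< n`, injective in degrees
`< n - 1`): quotient `n`-connected -/
theorem conn_quot {n : ℕ} (h1 : c.Conn S Q S' Q' n) (h2 : ∀ k, k < n → c.Sur P Q P' Q' k)
    (h3 : ∀ k, k + 1 < n → c.Inj P Q P' Q' k) : c.Conn S P S' P' n :=
  ⟨fun k hk => sur_quot hQ hP hS hQP hQP' hPS hPS' (h1.1 k hk) (fun m hm => h2 m (by omega))
      (fun m hm => h1.2 m (by omega)),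
   fun k hk => inj_quot hQ hP hS hQP hQP' hPS hPS' (h1.2 k hk) (h2 k hk)
      (fun m hm => h3 m (by omega))⟩

end Four

end GMap

end Crest.Agent.R204.HA683
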