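import Mathlib

/-!
# Row 204, block H: final algebra (Adams–Atiyah) and number theory (helper472)
-/

set_option autoImplicit false

namespace Crest.Agent.R204.H472

/-- `2^a ∣ 3^a - 1` with `a ≥ 1` forces `a ∈ {1,2,4}` -/
theorem two_pow_dvd {a : ℕ} (ha : 1 ≤ a) (h : (2 : ℤ) ^ a ∣ 3 ^ a - 1) : a = 1 ∨ a = 2 ∨ a = 4 := by
  have hN : 2 ^ a ∣ 3 ^ a - 1 := by
    have h1 : (1 : ℕ) ≤ 3 ^ a := Nat.one_le_pow _ _ (by norm_num)
    have : ((2 ^ a : ℕ) : ℤ) ∣ ((3 ^ a - 1 : ℕ) : ℤ) := by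
      rw [Nat.cast_sub h1]
      push_cast
      exact h
    exact_mod_cast this
  rcases Nat.even_or_odd a with he | ho
  · have h0 : a ≠ 0 := by omega
    have key := padicValNat.pow_two_sub_one (x := 3) (n := a) (by norm_num) (by norm_num) h0 he
    have h31 : padicValNat 2 (3 + 1) = 2 := by
      have : (3 + 1 : ℕ) = 2 ^ 2 := by norm_num
      rw [this, padicValNat.prime_pow]
    have h32 : padicValNat 2 (3 - 1) = 1 := by
      have : (3 - 1 : ℕ) = 2 ^ 1 := by norm_num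
      rw [this, padicValNat.prime_pow]
    rw [h31, h32] at key
    have hne : 3 ^ a - 1 ≠ 0 := by
      have : 3 ^ 1 ≤ 3 ^ a := Nat.pow_le_pow_right (by norm_num) ha
      omega
    have hle : a ≤ padicValNat 2 (3 ^ a - 1) := (padicValNat_dvd_iff_le hne).mp hN
    have hval : a ≤ 2 + padicValNat 2 a := by omega
    have hd : 2 ^ (padicValNat 2 a) ≤ a := Nat.le_of_dvd (by omega) pow_padicValNat_dvd
    have hlt : padicValNat 2 a < 3 := by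
      by_contra hcon
      push Not at hcon
      have : ∀ n : ℕ, 3 ≤ n → 2 + n < 2 ^ n := by
        intro n hn
        induction n, hn using Nat.le_induction with
        | base => norm_num
        | succ n hn ih => rw [pow_succ]; omega
      have := this _ hcon
      omega
    have ha4 : a ≤ 4 := by omega
    interval_cases a
    · exact absurd he (by decide)
    · omega
    · exact absurd he (by decide)
    · omega
  · -- `a` odd: `3^a - 1 = 2 mod 4`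
    have h4 : 3 ^ a % 4 = 3 := by
      obtain ⟨k, hk⟩ := ho
      rw [hk, pow_add, pow_mul]
      norm_num [Nat.mul_mod, Nat.pow_mod]
    have : a < 2 := by
      by_contra hcon
      push Not at hcon
      have h5 : 2 ^ 2 ∣ 3 ^ a - 1 := (pow_dvd_pow 2 hcon).trans hN
      have h6 : 4 ∣ 3 ^ a - 1 := by simpa using h5
      generalize 3 ^ a = t at h4 h6
      omega
    omega

/-- The algebraic heart of the Adams–Atiyah argument. -/
theorem adams_core {R : Type*} [CommRing R] (ψ2 ψ3 : R →+* R)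
    (hcomm : ∀ r, ψ2 (ψ3 r) = ψ3 (ψ2 r)) (h2 : ∀ r, ∃ s, ψ2 r = r ^ 2 + 2 * s)
    {a : ℕ} (ha : 1 ≤ a) {x y : R} {μ2 μ3 h : ℤ}
    (hx2 : ψ2 x = (2 : ℤ) ^ a • x + μ2 • y) (hx3 : ψ3 x = (3 : ℤ) ^ a • x + μ3 • y)
    (hy2 : ψ2 y = (4 : ℤ) ^ a • y) (hy3 : ψ3 y = (9 : ℤ) ^ a • y)
    (hxx : x ^ 2 = h • y) (hodd : Odd h)
    (htf : ∀ n : ℤ, n • y = 0 → n = 0)
    (hdiv : ∀ (n : ℤ) (w : R), n • y = 2 * w → Even n) : a = 1 ∨ a = 2 ∨ a = 4 := by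
  have e1 : ψ2 (ψ3 x) = (3 : ℤ) ^ a • ((2 : ℤ) ^ a • x + μ2 • y) + μ3 • ((4 : ℤ) ^ a • y) := by
    rw [hx3, map_add, map_zsmul, map_zsmul, hx2, hy2]
  have e2 : ψ3 (ψ2 x) = (2 : ℤ) ^ a • ((3 : ℤ) ^ a • x + μ3 • y) + μ2 • ((9 : ℤ) ^ a • y) := by
    rw [hx2, map_add, map_zsmul, map_zsmul, hx3, hy3]
  have e3 := hcomm x
  rw [e1, e2] at e3
  have e4 : ((3 : ℤ) ^ a * μ2 + (4 : ℤ) ^ a * μ3 - ((2 : ℤ) ^ a * μ3 + (9 : ℤ) ^ a * μ2)) • y = 0 := by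
    have e5 : ((3 : ℤ) ^ a * μ2 + (4 : ℤ) ^ a * μ3 - ((2 : ℤ) ^ a * μ3 + (9 : ℤ) ^ a * μ2)) • y
        = ((3 : ℤ) ^ a • ((2 : ℤ) ^ a • x + μ2 • y) + μ3 • ((4 : ℤ) ^ a • y))
          - ((2 : ℤ) ^ a • ((3 : ℤ) ^ a • x + μ3 • y) + μ2 • ((9 : ℤ) ^ a • y)) := by
      simp only [zsmul_eq_mul]
      push_cast
      ring
    rw [e5, e3, sub_self]
  have e6 := htf _ e4
  -- `μ2` is odd
  obtain ⟨s, hs⟩ := h2 x
  rw [hx2, hxx] at hs
  have hev : Even (μ2 - h) := by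
    refine hdiv (μ2 - h) (s - (2 : ℤ) ^ (a - 1) • x) ?_
    have h2a : (2 : ℤ) ^ a = 2 * 2 ^ (a - 1) := by
      rw [← pow_succ']
      congr 1
      omega
    rw [h2a] at hs
    simp only [zsmul_eq_mul] at hs ⊢
    push_cast at hs ⊢
    linear_combination hs
  have hμ : Odd μ2 := by
    have : μ2 = (μ2 - h) + h := by ring
    rw [this]
    exact hev.add_odd hodd
  -- `2^a ∣ 3^a (3^a - 1) μ2`
  have h4 : (4 : ℤ) ^ a = 2 ^ a * 2 ^ a := by rw [← mul_pow]; norm_num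
  have h9 : (9 : ℤ) ^ a = 3 ^ a * 3 ^ a := by rw [← mul_pow]; norm_num
  have hd : (2 : ℤ) ^ a ∣ (3 ^ a * (3 ^ a - 1)) * μ2 := by
    refine ⟨(2 ^ a - 1) * μ3, ?_⟩
    rw [h4, h9] at e6
    linear_combination -e6
  have hc1 : IsCoprime ((2 : ℤ) ^ a) μ2 := by
    apply IsCoprime.pow_left
    obtain ⟨k, hk⟩ := hμ
    exact ⟨-k, 1, by rw [hk]; ring⟩
  have hc2 : IsCoprime ((2 : ℤ) ^ a) (3 ^ a) := IsCoprime.pow ⟨-1, 1, by norm_num⟩
  have hd2 : (2 : ℤ) ^ a ∣ 3 ^ a * (3 ^ a - 1) := hc1.dvd_of_dvd_mul_right hd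
  have hd3 : (2 : ℤ) ^ a ∣ 3 ^ a - 1 := hc2.dvd_of_dvd_mul_left hd2
  exact two_pow_dvd ha hd3

end Crest.Agent.R204.H472
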