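import Mathlib
import Crest.Agent.R204.HDegA_160

/-!
# Row 204, block H, leaf DEG (helper160), part B

`π_1` of the circle is generated by `t ↦ exp(2πit)`; transport to any "cube sphere" of dimension 1.
-/

set_option autoImplicit false

open scoped unitInterval Topology Topology.Homotopy

namespace Crest.Agent.R204.HDeg160

universe u v

/-! ## push-forward -/

section push
variable {N : Type*} {Y : Type u} {Z : Type v} [TopologicalSpace Y] [TopologicalSpace Z]
  {y₀ : Y} {z₀ : Z}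

/-- push-forward of a generalised loop -/
def push (h : C(Y, Z)) (h0 : h y₀ = z₀) (g : Ω^ N Y y₀) : Ω^ N Z z₀ :=
  ⟨h.comp g.1, fun t ht => by
    show h (g t) = z₀
    rw [GenLoop.boundary g t ht, h0]⟩

@[simp] theorem push_apply (h : C(Y, Z)) (h0 : h y₀ = z₀) (g : Ω^ N Y y₀) (t : I^ N) :
    push h h0 g t = h (g t) := rfl

theorem push_homotopic (h : C(Y, Z)) (h0 : h y₀ = z₀) {f g : Ω^ N Y y₀}
    (H : GenLoop.Homotopic f g) : GenLoop.Homotopic (push h h0 f) (push h h0 g) :=
  H.map fun F =>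
    ⟨⟨h.comp F.toContinuousMap, fun t => congrArg h (F.apply_zero t),
      fun t => congrArg h (F.apply_one t)⟩, fun s t ht => congrArg h (F.prop' s t ht)⟩

theorem push_transAt [DecidableEq N] (h : C(Y, Z)) (h0 : h y₀ = z₀) (i : N) (f g : Ω^ N Y y₀) :
    push h h0 (GenLoop.transAt i f g) = GenLoop.transAt i (push h h0 f) (push h h0 g) := by
  ext t
  rw [push_apply]
  simp only [GenLoop.transAt, GenLoop.coe_copy]
  split_ifs <;> rfl

/-- push-forward as a homomorphism -/
noncomputable def pushHom [DecidableEq N] [Nonempty N] (h : C(Y, Z)) (h0 : h y₀ = z₀) :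
    HomotopyGroup N Y y₀ →* HomotopyGroup N Z z₀ :=
  MonoidHom.mk' (fun a => Quotient.map (sa := GenLoop.Homotopic.setoid N y₀)
      (sb := GenLoop.Homotopic.setoid N z₀) (push h h0) (fun _ _ H => push_homotopic h h0 H) a) (by
    intro a b
    obtain ⟨a, rfl⟩ := cls_surj a
    obtain ⟨b, rfl⟩ := cls_surj b
    have i : N := Classical.arbitrary N
    rw [cls_mul i]
    show cls (push h h0 (GenLoop.transAt i b a)) = cls (push h h0 a) * cls (push h h0 b)
    rw [cls_mul i, push_transAt])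

@[simp] theorem pushHom_cls [DecidableEq N] [Nonempty N] (h : C(Y, Z)) (h0 : h y₀ = z₀)
    (g : Ω^ N Y y₀) : pushHom h h0 (cls g) = cls (push h h0 g) := rfl

end push

/-! ## the circle -/

/-- the loop `t ↦ exp(2π a t)`, `a` an integer -/
noncomputable def circ (a : ℤ) : Ω^ (Fin 1) Circle (1 : Circle) :=
  ⟨⟨fun t => Circle.exp (2 * Real.pi * a * (t 0 : ℝ)), by fun_prop⟩, by
    rintro t ⟨i, hi⟩
    obtain rfl : i = 0 := Subsingleton.elim _ _
    rcases hi with h | h
    · show Circle.exp (2 * Real.pi * a * (t 0 : ℝ)) = 1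
      rw [h]; simp
    · show Circle.exp (2 * Real.pi * a * (t 0 : ℝ)) = 1
      rw [h]; simpa using Circle.exp_two_pi_mul_int a⟩

@[simp] theorem circ_apply (a : ℤ) (t : I^ Fin 1) :
    circ a t = Circle.exp (2 * Real.pi * a * (t 0 : ℝ)) := rfl

/-- two loops in the circle whose lifts have the same end points are homotopic -/
theorem circle_homotopic (f g : Ω^ (Fin 1) Circle (1 : Circle)) (F G : C(I, ℝ))
    (hF : ∀ t : I^ Fin 1, f t = Circle.exp (F (t 0))) (hG : ∀ t : I^ Fin 1, g t = Circle.exp (G (t 0)))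
    (h0 : F 0 = G 0) (h1 : F 1 = G 1) : GenLoop.Homotopic f g := by
  refine ⟨⟨⟨⟨fun p => Circle.exp ((1 - (p.1 : ℝ)) * F (p.2 0) + (p.1 : ℝ) * G (p.2 0)), ?_⟩,
    ?_, ?_⟩, ?_⟩⟩
  · fun_prop
  · intro t
    show Circle.exp ((1 - ((0 : I) : ℝ)) * F (t 0) + ((0 : I) : ℝ) * G (t 0)) = f t
    rw [hF]; simp
  · intro t
    show Circle.exp ((1 - ((1 : I) : ℝ)) * F (t 0) + ((1 : I) : ℝ) * G (t 0)) = g t
    rw [hG]; simp
  · rintro s t ⟨i, hi⟩
    obtain rfl : i = 0 := Subsingleton.elim _ _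
    show Circle.exp ((1 - (s : ℝ)) * F (t 0) + (s : ℝ) * G (t 0)) = f t
    rw [hF]
    rcases hi with h | h <;> rw [h]
    · rw [← h0]; congr 1; ring
    · rw [← h1]; congr 1; ring

theorem circ_add (a b : ℤ) : cls (circ (a + b)) = cls (circ a) * cls (circ b) := by
  rw [cls_mul (0 : Fin 1), cls_eq_iff]
  -- lift of the concatenation
  let G : C(I, ℝ) := ⟨fun t => if (t : ℝ) ≤ 1 / 2 then 2 * Real.pi * b * (2 * (t : ℝ))
    else 2 * Real.pi * b + 2 * Real.pi * a * (2 * (t : ℝ) - 1), by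
      refine Continuous.if_le (by fun_prop) (by fun_prop) (by fun_prop) (by fun_prop) ?_
      intro t ht
      rw [ht]; ring⟩
  refine circle_homotopic _ _ ⟨fun t => 2 * Real.pi * ((a + b : ℤ) : ℝ) * (t : ℝ), by fun_prop⟩ G
    (fun t => rfl) ?_ ?_ ?_
  · intro t
    have hG : G (t 0) = if (t 0 : ℝ) ≤ 1 / 2 then 2 * Real.pi * b * (2 * (t 0 : ℝ))
      else 2 * Real.pi * b + 2 * Real.pi * a * (2 * (t 0 : ℝ) - 1) := rfl
    rw [hG]
    simp only [GenLoop.transAt, GenLoop.coe_copy]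
    have ht0 := (t 0).2.1
    have ht1 := (t 0).2.2
    split_ifs with h
    · rw [circ_apply, Function.update_self, Set.coe_projIcc]
      congr 2
      rw [min_eq_right (by linarith), max_eq_right (by linarith)]
    · rw [circ_apply, Function.update_self, Set.coe_projIcc]
      push Not at h
      rw [min_eq_right (by linarith), max_eq_right (by linarith), Circle.exp_add,
        Circle.exp_two_pi_mul_int, one_mul]
  · show 2 * Real.pi * ((a + b : ℤ) : ℝ) * ((0 : I) : ℝ) = if ((0 : I) : ℝ) ≤ 1 / 2 then _ else _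
    simp
  · show 2 * Real.pi * ((a + b : ℤ) : ℝ) * ((1 : I) : ℝ) = if ((1 : I) : ℝ) ≤ 1 / 2 then _ else _
    rw [if_neg (by norm_num)]
    push_cast
    ring_nf

/-- `a ↦ [circ a]` as a homomorphism -/
noncomputable def circHom : Multiplicative ℤ →* HomotopyGroup (Fin 1) Circle (1 : Circle) :=
  MonoidHom.mk' (fun a => cls (circ a.toAdd)) (fun _ _ => circ_add _ _)

theorem circ_zpow (a : ℤ) : cls (circ a) = cls (circ 1) ^ a := by
  have h := map_zpow circHom (Multiplicative.ofAdd 1) a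
  have h1 : circHom (Multiplicative.ofAdd 1 ^ a) = cls (circ a) := by
    rw [← ofAdd_zsmul]
    show cls (circ (a • (1 : ℤ))) = cls (circ a)
    simp
  rw [h1] at h
  exact h

theorem circle_gen (g : Ω^ (Fin 1) Circle (1 : Circle)) : ∃ D : ℤ, cls g = cls (circ 1) ^ D := by
  let γ : C(I, Circle) := ⟨fun t => g (fun _ => t), by
    exact g.1.continuous.comp (continuous_pi fun _ => continuous_id)⟩
  have hγ0 : γ 0 = Circle.exp 0 := by
    rw [Circle.exp_zero]
    exact g.2 _ ⟨0, Or.inl rfl⟩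
  have hγ1 : γ 1 = 1 := g.2 _ ⟨0, Or.inr rfl⟩
  let F : C(I, ℝ) := Circle.isCoveringMap_exp.liftPath γ 0 hγ0
  have hF : ∀ t, Circle.exp (F t) = γ t := fun t =>
    congrFun (Circle.isCoveringMap_exp.liftPath_lifts γ 0 hγ0) t
  have hF0 : F 0 = 0 := Circle.isCoveringMap_exp.liftPath_zero γ 0 hγ0
  have h1 : Circle.exp (F 1) = 1 := by rw [hF, hγ1]
  obtain ⟨D, hD⟩ := Circle.exp_eq_one.1 h1
  refine ⟨D, ?_⟩
  rw [← circ_zpow, cls_eq_iff]
  refine circle_homotopic _ _ F ⟨fun t => 2 * Real.pi * (D : ℝ) * (t : ℝ), by fun_prop⟩ ?_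
    (fun t => rfl) ?_ ?_
  · intro t
    rw [hF]
    show g t = g (fun _ => t 0)
    congr 1
    funext i
    rw [Subsingleton.elim i 0]
  · rw [hF0]
    show (0 : ℝ) = 2 * Real.pi * (D : ℝ) * ((0 : I) : ℝ)
    simp
  · rw [hD]
    show (D : ℝ) * (2 * Real.pi) = 2 * Real.pi * (D : ℝ) * ((1 : I) : ℝ)
    simp only [Set.Icc.coe_one]
    ring

/-! ## cube spheres of dimension one -/

/-- For every model `p : I^1 → S` of `I^1/bd`, the class of `p` generates `π_1(S)`. -/
theorem gen_one {S : Type u} [TopologicalSpace S] [T2Space S] {s₀ : S} (p : Ω^ (Fin 1) S s₀)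
    (hp : Function.Surjective p)
    (hpi : ∀ x y : I^ Fin 1, p x = p y → x = y ∨ (x ∈ Cube.boundary (Fin 1) ∧ y ∈ Cube.boundary (Fin 1)))
    (g : Ω^ (Fin 1) S s₀) : ∃ D : ℤ, cls g = cls p ^ D := by
  have hq : Topology.IsQuotientMap p :=
    (p.1.continuous.isClosedMap).isQuotientMap p.1.continuous hp
  have : CompactSpace S := by
    have := isCompact_range p.1.continuous
    rw [show Set.range (p.1 : (I^ Fin 1) → S) = Set.univ from hp.range_eq] at this
    exact ⟨this⟩
  -- the map to the circle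
  have hc : ∀ x y : I^ Fin 1, p x = p y → circ 1 x = circ 1 y := by
    intro x y h
    rcases hpi x y h with rfl | ⟨hx, hy⟩
    · rfl
    · rw [GenLoop.boundary (circ 1) x hx, GenLoop.boundary (circ 1) y hy]
  let f : S → Circle := fun s => circ 1 (hp s).choose
  have hf : ∀ x, f (p x) = circ 1 x := fun x => hc _ _ (hp (p x)).choose_spec
  have hfc : Continuous f := by
    rw [hq.continuous_iff]
    have : f ∘ p = circ 1 := funext hf
    rw [this]
    exact (circ 1).1.continuous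
  have hcsurj : Function.Surjective (circ 1) := by
    intro z
    obtain ⟨θ, rfl⟩ : ∃ θ : ℝ, Circle.exp θ = z := ⟨_, Circle.exp_arg z⟩
    refine ⟨fun _ => ⟨Int.fract (θ / (2 * Real.pi)), Int.fract_nonneg _, (Int.fract_lt_one _).le⟩, ?_⟩
    rw [circ_apply]
    show Circle.exp (2 * Real.pi * ((1 : ℤ) : ℝ) * Int.fract (θ / (2 * Real.pi))) = Circle.exp θ
    have hpi0 : (2 * Real.pi) ≠ 0 := by positivity
    have e1 : 2 * Real.pi * ((1 : ℤ) : ℝ) * Int.fract (θ / (2 * Real.pi)) =
        θ + 2 * Real.pi * ((-⌊θ / (2 * Real.pi)⌋ : ℤ) : ℝ) := by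
      rw [Int.fract]
      push_cast
      field_simp
      ring
    rw [e1, Circle.exp_add, Circle.exp_two_pi_mul_int, mul_one]
  have hcinj : ∀ x y : I^ Fin 1, circ 1 x = circ 1 y → p x = p y := by
    intro x y h
    rw [circ_apply, circ_apply] at h
    have h2 : Circle.exp (2 * Real.pi * ((1 : ℤ) : ℝ) * ((x 0 : ℝ)) - 2 * Real.pi * ((1 : ℤ) : ℝ) * (y 0 : ℝ)) = 1 := by
      rw [Circle.exp_sub, h, div_self']
    obtain ⟨n, hn⟩ := Circle.exp_eq_one.1 h2
    have hn' : (x 0 : ℝ) - (y 0 : ℝ) = n := by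
      have hpi0 : (2 * Real.pi) ≠ 0 := by positivity
      have : 2 * Real.pi * ((x 0 : ℝ) - (y 0 : ℝ)) = 2 * Real.pi * n := by
        push_cast at hn
        linarith
      exact mul_left_cancel₀ hpi0 this
    have hx0 := (x 0).2.1
    have hx1 := (x 0).2.2
    have hy0 := (y 0).2.1
    have hy1 := (y 0).2.2
    have hn1 : n ≤ 1 := by
      have : (n : ℝ) ≤ 1 := by rw [← hn']; linarith
      exact_mod_cast this
    have hn2 : -1 ≤ n := by
      have : (-1 : ℝ) ≤ n := by rw [← hn']; linarith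
      exact_mod_cast this
    have hcases : n = -1 ∨ n = 0 ∨ n = 1 := by omega
    have hext : ∀ (a : I^ Fin 1) (c : ℝ), (a 0 : ℝ) = c → (c = 0 ∨ c = 1) → a ∈ Cube.boundary (Fin 1) := by
      rintro a c h (rfl | rfl)
      · exact ⟨0, Or.inl (Subtype.ext h)⟩
      · exact ⟨0, Or.inr (Subtype.ext h)⟩
    rcases hcases with rfl | rfl | rfl
    · have e1 : (x 0 : ℝ) = 0 := by push_cast at hn'; linarith
      have e2 : (y 0 : ℝ) = 1 := by push_cast at hn'; linarith
      rw [GenLoop.boundary p x (hext x 0 e1 (Or.inl rfl)), GenLoop.boundary p y (hext y 1 e2 (Or.inr rfl))]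
    · have e1 : x = y := by
        funext i
        rw [Subsingleton.elim i 0]
        apply Subtype.ext
        push_cast at hn'
        linarith
      rw [e1]
    · have e1 : (x 0 : ℝ) = 1 := by push_cast at hn'; linarith
      have e2 : (y 0 : ℝ) = 0 := by push_cast at hn'; linarith
      rw [GenLoop.boundary p x (hext x 1 e1 (Or.inr rfl)), GenLoop.boundary p y (hext y 0 e2 (Or.inl rfl))]
  -- the inverse map
  let k : Circle → S := fun z => p (hcsurj z).choose
  have hk : ∀ x, k (circ 1 x) = p x := fun x => hcinj _ _ (hcsurj (circ 1 x)).choose_spec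
  have hqc : Topology.IsQuotientMap (circ 1) :=
    ((circ 1).1.continuous.isClosedMap).isQuotientMap (circ 1).1.continuous hcsurj
  have hkc : Continuous k := by
    rw [hqc.continuous_iff]
    have : k ∘ circ 1 = p := funext hk
    rw [this]
    exact p.1.continuous
  have hkf : ∀ s, k (f s) = s := by
    intro s
    obtain ⟨x, rfl⟩ := hp s
    rw [hf, hk]
  have hb : (fun _ => 0 : I^ Fin 1) ∈ Cube.boundary (Fin 1) := ⟨0, Or.inl rfl⟩
  have hf0 : f s₀ = 1 := by
    rw [← GenLoop.boundary p _ hb]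
    exact (hf _).trans (GenLoop.boundary (circ 1) _ hb)
  have hk0 : k 1 = s₀ := by
    have := hk (fun _ => 0)
    rw [GenLoop.boundary (circ 1) _ hb] at this
    rw [this]
    exact GenLoop.boundary p _ hb
  obtain ⟨D, hD⟩ := circle_gen (push ⟨f, hfc⟩ hf0 g)
  refine ⟨D, ?_⟩
  have h1 := congrArg (pushHom (⟨k, hkc⟩ : C(Circle, S)) hk0) hD
  rw [map_zpow, pushHom_cls, pushHom_cls] at h1
  have e1 : push (⟨k, hkc⟩ : C(Circle, S)) hk0 (push ⟨f, hfc⟩ hf0 g) = g := by
    ext t; exact hkf (g t)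
  have e2 : push (⟨k, hkc⟩ : C(Circle, S)) hk0 (circ 1) = p := by
    ext t; exact hk t
  rw [e1, e2] at h1
  exact h1

end Crest.Agent.R204.HDeg160
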