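import Mathlib
import Crest.Agent.R204.HDegB_160
import Crest.Agent.R204.FreuD_297

/-!
# Row 204, block H, leaf DEG (helper160), part S

The metric spheres: `cell N : Ω^ (Fin N) (Sph N) (pt N)` maps the interior of the cube bijectively
onto `S^N ∖ {pt}`, and `π_N(S^N)` is generated by its class (`N ≥ 1`).
-/

set_option autoImplicit false

open scoped unitInterval Topology Topology.Homotopy

namespace Crest.Agent.R204.HDeg160

open Crest.Agent.R204.Freu297

universe u v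

/-- `q` maps the interior of the cube bijectively onto the complement of the base point -/
structure IsCell {N : Type*} {S : Type u} [TopologicalSpace S] {s₀ : S} (q : Ω^ N S s₀) : Prop where
  surj : ∀ s, s ≠ s₀ → ∃ x, q x = s
  inj : ∀ x y, x ∉ Cube.boundary N → y ∉ Cube.boundary N → q x = q y → x = y
  ne : ∀ x, x ∉ Cube.boundary N → q x ≠ s₀

namespace IsCell

variable {N : Type*} {S : Type u} [TopologicalSpace S] {s₀ : S} {q : Ω^ N S s₀} (hq : IsCell q)

include hq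

theorem eq_base_iff (x : N → I) : q x = s₀ ↔ x ∈ Cube.boundary N :=
  ⟨fun h => by by_contra h'; exact hq.ne x h' h, fun h => GenLoop.boundary q x h⟩

theorem surjective [Nonempty N] : Function.Surjective q := by
  intro s
  by_cases h : s = s₀
  · subst h
    exact ⟨fun _ => 0, GenLoop.boundary q _ ⟨Classical.arbitrary N, Or.inl rfl⟩⟩
  · exact hq.surj s h

theorem eq_iff (x y : N → I) : q x = q y ↔ x = y ∨ (x ∈ Cube.boundary N ∧ y ∈ Cube.boundary N) := by
  constructor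
  · intro h
    by_cases hx : x ∈ Cube.boundary N
    · right
      refine ⟨hx, ?_⟩
      rw [← hq.eq_base_iff, ← h, hq.eq_base_iff]
      exact hx
    · left
      refine hq.inj x y hx ?_ h
      rw [← hq.eq_base_iff, ← h, hq.eq_base_iff]
      exact hx
  · rintro (rfl | ⟨hx, hy⟩)
    · rfl
    · rw [(hq.eq_base_iff x).2 hx, (hq.eq_base_iff y).2 hy]

end IsCell

/-- conditions on suspension data for preserving cells -/
structure SuspData.Bij {Y : Type u} {Z : Type v} [TopologicalSpace Y] [TopologicalSpace Z]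
    {y₀ : Y} {z₀ : Z} (S : SuspData Y Z y₀ z₀) : Prop where
  surj : ∀ z, z ≠ z₀ → ∃ y t, y ≠ y₀ ∧ S.e (y, t) = z
  inj : ∀ y y' t t', y ≠ y₀ → y' ≠ y₀ → t ≠ 0 → t ≠ 1 → t' ≠ 0 → t' ≠ 1 →
    S.e (y, t) = S.e (y', t') → y = y' ∧ t = t'
  ne : ∀ y t, y ≠ y₀ → t ≠ 0 → t ≠ 1 → S.e (y, t) ≠ z₀

theorem mem_boundary_succ {n : ℕ} (x : Fin (n + 1) → I) :
    x ∈ Cube.boundary (Fin (n + 1)) ↔
      (Fin.init x : Fin n → I) ∈ Cube.boundary (Fin n) ∨ x (Fin.last n) = 0 ∨ x (Fin.last n) = 1 := by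
  constructor
  · rintro ⟨i, hi⟩
    refine Fin.lastCases (motive := fun i => (x i = 0 ∨ x i = 1) → _) ?_ ?_ i hi
    · intro h; exact Or.inr h
    · intro j h; exact Or.inl ⟨j, h⟩
  · rintro (⟨j, hj⟩ | h)
    · exact ⟨j.castSucc, hj⟩
    · exact ⟨Fin.last n, h⟩

theorem SuspData.Bij.isCell {Y : Type u} {Z : Type v} [TopologicalSpace Y] [TopologicalSpace Z]
    {y₀ : Y} {z₀ : Z} {S : SuspData Y Z y₀ z₀} (hS : S.Bij) {n : ℕ} {q : Ω^ (Fin n) Y y₀}
    (hq : IsCell q) : IsCell (S.susp q) where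
  surj z hz := by
    obtain ⟨y, t, hy, rfl⟩ := hS.surj z hz
    obtain ⟨x, rfl⟩ := hq.surj y hy
    refine ⟨Fin.snoc (α := fun _ => I) x t, ?_⟩
    rw [SuspData.susp_apply, Fin.init_snoc, Fin.snoc_last]
  inj x y hx hy h := by
    rw [mem_boundary_succ, not_or, not_or] at hx hy
    rw [SuspData.susp_apply, SuspData.susp_apply] at h
    obtain ⟨h1, h2⟩ := hS.inj _ _ _ _ (hq.ne _ hx.1) (hq.ne _ hy.1) hx.2.1 hx.2.2 hy.2.1 hy.2.2 h
    have h3 := hq.inj _ _ hx.1 hy.1 h1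
    rw [← Fin.snoc_init_self (α := fun _ => I) x, ← Fin.snoc_init_self (α := fun _ => I) y, h2]
    congr 1
  ne x hx := by
    rw [mem_boundary_succ, not_or, not_or] at hx
    rw [SuspData.susp_apply]
    exact hS.ne _ _ (hq.ne _ hx.1) hx.2.1 hx.2.2

/-! ## the chord lemma -/

section chord

variable {F : Type*} [NormedAddCommGroup F] [InnerProductSpace ℝ F]

open scoped RealInnerProductSpace

theorem norm_chord {x0 y : F} (hx0 : ‖x0‖ = 1) (hy : ‖y‖ = 1) (r : ℝ) :
    ‖x0 + r • (y - x0)‖ ^ 2 = 1 - r * (1 - r) * ‖y - x0‖ ^ 2 := by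
  have h1 : ‖y‖ ^ 2 = ‖x0‖ ^ 2 + 2 * ⟪x0, y - x0⟫ + ‖y - x0‖ ^ 2 := by
    conv_lhs => rw [show y = x0 + (y - x0) by abel]
    rw [norm_add_sq_real]
  rw [norm_add_sq_real, norm_smul, inner_smul_right, mul_pow, hx0, Real.norm_eq_abs, sq_abs]
  rw [hx0, hy] at h1
  linear_combination (-r) * h1

/-- two points of the sphere on the same ray from `x0` agree -/
theorem chord_inj_aux {x0 y y' : F} (hx0 : ‖x0‖ = 1) (hy : ‖y‖ = 1) (hy' : ‖y'‖ = 1)
    (hne' : y' ≠ x0) {s s' : ℝ} (hs : 0 < s) (hs' : 0 < s') 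
    (h : x0 + s • (y - x0) = x0 + s' • (y' - x0)) : s = s' ∧ y = y' := by
  have h1 : s • (y - x0) = s' • (y' - x0) := add_left_cancel h
  have h2 : y = x0 + (s⁻¹ * s') • (y' - x0) := by
    rw [mul_smul, ← h1, smul_smul, inv_mul_cancel₀ hs.ne', one_smul]; abel
  have h3 := norm_chord hx0 hy' (s⁻¹ * s')
  rw [← h2, hy] at h3
  have h4 : 0 < ‖y' - x0‖ ^ 2 := by
    have : 0 < ‖y' - x0‖ := norm_pos_iff.2 (sub_ne_zero.2 hne')
    positivity
  have h5 : 0 < s⁻¹ * s' := by positivity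
  have h6 : s⁻¹ * s' * (1 - s⁻¹ * s') * ‖y' - x0‖ ^ 2 = 0 := by linarith
  have h7 : 1 - s⁻¹ * s' = 0 := by
    rcases mul_eq_zero.1 h6 with h | h
    · rcases mul_eq_zero.1 h with h | h
      · exact absurd h h5.ne'
      · exact h
    · exact absurd h h4.ne'
  have h8 : s⁻¹ * s' = 1 := by linarith
  constructor
  · field_simp at h8
    exact h8.symm
  · rw [h2, h8, one_smul]; abel

/-- every point of the disc other than `x0` lies on a chord from `x0` -/
theorem chord_surj {x0 v : F} (hx0 : ‖x0‖ = 1) (hv : ‖v‖ ≤ 1) (hne : v ≠ x0) :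
    ∃ (y : F) (s : ℝ), ‖y‖ = 1 ∧ y ≠ x0 ∧ 0 < s ∧ s ≤ 1 ∧ v = x0 + s • (y - x0) := by
  have h0 : 0 < ‖v - x0‖ := norm_pos_iff.2 (sub_ne_zero.2 hne)
  have h1 : ‖v‖ ^ 2 = ‖x0‖ ^ 2 + 2 * ⟪x0, v - x0⟫ + ‖v - x0‖ ^ 2 := by
    conv_lhs => rw [show v = x0 + (v - x0) by abel]
    rw [norm_add_sq_real]
  set r : ℝ := -2 * ⟪x0, v - x0⟫ / ‖v - x0‖ ^ 2 with hr
  have hv2 : ‖v‖ ^ 2 ≤ 1 := by nlinarith [norm_nonneg v]
  have hr1 : 1 ≤ r := by
    rw [hr, le_div_iff₀ (by positivity), one_mul]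
    rw [hx0] at h1
    nlinarith
  have hr0 : 0 < r := by linarith
  have hrn : r * ‖v - x0‖ ^ 2 = -2 * ⟪x0, v - x0⟫ := by
    rw [hr]; field_simp
  refine ⟨x0 + r • (v - x0), r⁻¹, ?_, ?_, by positivity, inv_le_one_of_one_le₀ hr1, ?_⟩
  · have h2 : ‖x0 + r • (v - x0)‖ ^ 2 = 1 := by
      rw [norm_add_sq_real, norm_smul, inner_smul_right, mul_pow, hx0, Real.norm_eq_abs, sq_abs]
      have : r ^ 2 * ‖v - x0‖ ^ 2 = r * (r * ‖v - x0‖ ^ 2) := by ring
      rw [this, hrn]
      ring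
    have h3 := norm_nonneg (x0 + r • (v - x0))
    nlinarith
  · intro h
    have : r • (v - x0) = 0 := by simpa using h
    rcases smul_eq_zero.1 this with h | h
    · exact hr0.ne' h
    · exact hne (sub_eq_zero.1 h)
  · rw [add_sub_cancel_left, smul_smul, inv_mul_cancel₀ hr0.ne', one_smul]; abel

end chord

section dbl

variable {F : Type*} [NormedAddCommGroup F] [InnerProductSpace ℝ F] {Y : Type u}
  [TopologicalSpace Y] (D : Dbl F Y)

/-- suspension data of a double disc -/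
noncomputable def dblData {x0 : F} (hx0 : ‖x0‖ = 1) (h : x0 ∈ Metric.sphere (0 : F) 1) :
    SuspData (Metric.sphere (0 : F) 1) Y (⟨x0, h⟩ : Metric.sphere (0 : F) 1) (D.up x0) where
  e := D.E x0
  e_zero := D.E_zero hx0
  e_one := D.E_one
  e_base t := D.E_base hx0 t h

theorem E_lo {x0 : F} (y : Metric.sphere (0 : F) 1) (t : I) (h : (t : ℝ) ≤ 1 / 2) :
    D.E x0 (y, t) = D.lo (x0 + (2 * (t : ℝ)) • ((y : F) - x0)) := if_pos h

theorem E_up {x0 : F} (y : Metric.sphere (0 : F) 1) (t : I) (h : 1 / 2 < (t : ℝ)) :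
    D.E x0 (y, t) = D.up (x0 + (2 - 2 * (t : ℝ)) • ((y : F) - x0)) := if_neg (not_le.2 h)

/-- radius of the chord coordinate -/
theorem chord_mem {x0 : F} (hx0 : ‖x0‖ = 1) {y : F} (hy : ‖y‖ = 1) {s : ℝ} (h0 : 0 ≤ s)
    (h1 : s ≤ 1) : ‖x0 + s • (y - x0)‖ ≤ 1 := by
  have := norm_chord hx0 hy s
  have h2 : 0 ≤ s * (1 - s) * ‖y - x0‖ ^ 2 := by
    have : 0 ≤ 1 - s := by linarith
    positivity
  have h3 := norm_nonneg (x0 + s • (y - x0))
  nlinarith

theorem chord_lt {x0 : F} (hx0 : ‖x0‖ = 1) {y : F} (hy : ‖y‖ = 1) (hne : y ≠ x0) {s : ℝ}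
    (h0 : 0 < s) (h1 : s < 1) : ‖x0 + s • (y - x0)‖ < 1 := by
  have := norm_chord hx0 hy s
  have h4 : 0 < ‖y - x0‖ := norm_pos_iff.2 (sub_ne_zero.2 hne)
  have h2 : 0 < s * (1 - s) * ‖y - x0‖ ^ 2 := by
    have : 0 < 1 - s := by linarith
    positivity
  have h3 := norm_nonneg (x0 + s • (y - x0))
  nlinarith

theorem dblData_bij {x0 : F} (hx0 : ‖x0‖ = 1) (h : x0 ∈ Metric.sphere (0 : F) 1) :
    (dblData D hx0 h).Bij := by
  have hlo : ∀ (y : Metric.sphere (0 : F) 1) (t : I), (t : ℝ) ≤ 1 / 2 →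
      D.yc (D.E x0 (y, t)) = x0 + (2 * (t : ℝ)) • ((y : F) - x0) := by
    intro y t ht
    rw [E_lo D y t ht, D.yc_lo]
    exact chord_mem hx0 (by simp) (by have := t.2.1; positivity) (by linarith)
  have hup : ∀ (y : Metric.sphere (0 : F) 1) (t : I), 1 / 2 < (t : ℝ) →
      D.yc (D.E x0 (y, t)) = x0 + (2 - 2 * (t : ℝ)) • ((y : F) - x0) := by
    intro y t ht
    rw [E_up D y t ht, D.yc_up]
    exact chord_mem hx0 (by simp) (by have := t.2.2; linarith) (by linarith)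
  have hn : ∀ y : Metric.sphere (0 : F) 1, ‖(y : F)‖ = 1 := fun y => by simp
  have hne : ∀ y : Metric.sphere (0 : F) 1, y ≠ ⟨x0, h⟩ → (y : F) ≠ x0 := fun y hy h' =>
    hy (Subtype.ext h')
  -- sign of the height
  have hclo : ∀ (y : Metric.sphere (0 : F) 1) (t : I), y ≠ ⟨x0, h⟩ → t ≠ 0 → (t : ℝ) < 1 / 2 →
      D.hc (D.E x0 (y, t)) < 0 := by
    intro y t hy h0 ht
    have h1 : D.hc (D.E x0 (y, t)) ≤ 0 := by rw [E_lo D y t ht.le]; exact D.hc_lo _
    refine lt_of_le_of_ne h1 fun h2 => ?_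
    rw [D.hc_eq, hlo y t ht.le] at h2
    have h3 : 0 < (t : ℝ) := lt_of_le_of_ne t.2.1 (fun h => h0 (Subtype.ext h.symm))
    have := chord_lt hx0 (hn y) (hne y hy) (s := 2 * (t : ℝ)) (by linarith) (by linarith)
    linarith
  have hcup : ∀ (y : Metric.sphere (0 : F) 1) (t : I), y ≠ ⟨x0, h⟩ → t ≠ 1 → 1 / 2 < (t : ℝ) →
      0 < D.hc (D.E x0 (y, t)) := by
    intro y t hy h0 ht
    have h1 : 0 ≤ D.hc (D.E x0 (y, t)) := by rw [E_up D y t ht]; exact D.hc_up _
    refine lt_of_le_of_ne h1 fun h2 => ?_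
    have h2' := h2.symm
    rw [D.hc_eq, hup y t ht] at h2'
    have h3 : (t : ℝ) < 1 := lt_of_le_of_ne t.2.2 (fun h => h0 (Subtype.ext h))
    have := chord_lt hx0 (hn y) (hne y hy) (s := 2 - 2 * (t : ℝ)) (by linarith) (by linarith)
    linarith
  have hcmid : ∀ (y : Metric.sphere (0 : F) 1) (t : I), (t : ℝ) = 1 / 2 →
      D.hc (D.E x0 (y, t)) = 0 := by
    intro y t ht
    rw [D.hc_eq, hlo y t ht.le, ht]
    norm_num
  refine ⟨?_, ?_, ?_⟩
  · intro z hz
    have hv : D.yc z ≠ x0 := by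
      intro hv
      apply hz
      rcases le_total 0 (D.hc z) with h0 | h0
      · rw [← D.up_yc z h0, hv]
      · rw [← D.lo_yc z h0, hv, D.up_eq_lo hx0]
    obtain ⟨y, s, hy, hyne, hs, hs1, hv'⟩ := chord_surj hx0 (D.yc_le z) hv
    rcases le_total (D.hc z) 0 with h0 | h0
    · refine ⟨⟨y, by simpa using hy⟩, ⟨s / 2, by constructor <;> linarith⟩,
        fun h' => hyne (congrArg Subtype.val h'), ?_⟩
      show D.E x0 (_, _) = z
      rw [E_lo D _ _ (by show s / 2 ≤ 1 / 2; linarith), ← D.lo_yc z h0]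
      congr 1
      show x0 + (2 * (s / 2)) • (y - x0) = D.yc z
      rw [hv', show 2 * (s / 2) = s by ring]
    · rcases hs1.eq_or_lt with hs2 | hs2
      · refine ⟨⟨y, by simpa using hy⟩, ⟨1 / 2, by constructor <;> norm_num⟩,
          fun h' => hyne (congrArg Subtype.val h'), ?_⟩
        show D.E x0 (_, _) = z
        rw [E_lo D _ _ (by show (1 / 2 : ℝ) ≤ 1 / 2; norm_num), ← D.up_yc z h0]
        have h5 : D.yc z = y := by rw [hv', hs2, one_smul]; abel
        rw [h5, D.up_eq_lo hy]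
        congr 1
        show x0 + (2 * (1 / 2 : ℝ)) • (y - x0) = y
        rw [show (2 * (1 / 2 : ℝ)) = 1 by norm_num, one_smul]; abel
      · refine ⟨⟨y, by simpa using hy⟩, ⟨1 - s / 2, by constructor <;> linarith⟩,
          fun h' => hyne (congrArg Subtype.val h'), ?_⟩
        show D.E x0 (_, _) = z
        rw [E_up D _ _ (by show 1 / 2 < 1 - s / 2; linarith), ← D.up_yc z h0]
        congr 1
        show x0 + (2 - 2 * (1 - s / 2)) • (y - x0) = D.yc z
        rw [hv', show 2 - 2 * (1 - s / 2) = s by ring]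
  · intro y y' t t' hy hy' h0 h1 h0' h1' heq
    change D.E x0 (y, t) = D.E x0 (y', t') at heq
    have pos : ∀ t : I, t ≠ 0 → 0 < (t : ℝ) := fun t h0 =>
      lt_of_le_of_ne t.2.1 (fun h => h0 (Subtype.ext h.symm))
    have lt1 : ∀ t : I, t ≠ 1 → (t : ℝ) < 1 := fun t h0 =>
      lt_of_le_of_ne t.2.2 (fun h => h0 (Subtype.ext h))
    rcases le_or_gt (t : ℝ) (1 / 2) with ht | ht
    · have ht' : (t' : ℝ) ≤ 1 / 2 := by
        by_contra hc
        have h2 := hcup y' t' hy' h1' (not_le.1 hc)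
        rw [← heq] at h2
        rcases ht.eq_or_lt with h3 | h3
        · rw [hcmid y t h3] at h2; exact lt_irrefl _ h2
        · have := hclo y t hy h0 h3; linarith
      have h2 : D.yc (D.E x0 (y, t)) = D.yc (D.E x0 (y', t')) := by rw [heq]
      rw [hlo y t ht, hlo y' t' ht'] at h2
      obtain ⟨h3, h4⟩ := chord_inj_aux hx0 (hn y) (hn y') (hne y' hy')
        (by have := pos t h0; linarith) (by have := pos t' h0'; linarith) h2
      exact ⟨Subtype.ext h4, Subtype.ext (by linarith)⟩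
    · have ht' : 1 / 2 < (t' : ℝ) := by
        by_contra hc
        have h2 := hcup y t hy h1 ht
        rw [heq] at h2
        rcases (not_lt.1 hc).eq_or_lt with h3 | h3
        · rw [hcmid y' t' h3] at h2; exact lt_irrefl _ h2
        · have := hclo y' t' hy' h0' h3; linarith
      have h2 : D.yc (D.E x0 (y, t)) = D.yc (D.E x0 (y', t')) := by rw [heq]
      rw [hup y t ht, hup y' t' ht'] at h2
      obtain ⟨h3, h4⟩ := chord_inj_aux hx0 (hn y) (hn y') (hne y' hy')
        (by have := lt1 t h1; linarith) (by have := lt1 t' h1'; linarith) h2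
      exact ⟨Subtype.ext h4, Subtype.ext (by linarith)⟩
  · intro y t hy h0 h1 heq
    change D.E x0 (y, t) = D.up x0 at heq
    have h2 : D.yc (D.E x0 (y, t)) = x0 := by rw [heq, D.yc_up x0 hx0.le]
    have pos : 0 < (t : ℝ) := lt_of_le_of_ne t.2.1 (fun h => h0 (Subtype.ext h.symm))
    have lt1 : (t : ℝ) < 1 := lt_of_le_of_ne t.2.2 (fun h => h1 (Subtype.ext h))
    have key : ∀ s : ℝ, s ≠ 0 → x0 + s • ((y : F) - x0) ≠ x0 := by
      intro s hs h3
      have : s • ((y : F) - x0) = 0 := by simpa using h3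
      rcases smul_eq_zero.1 this with h | h
      · exact hs h
      · exact hne y hy (sub_eq_zero.1 h)
    rcases le_or_gt (t : ℝ) (1 / 2) with ht | ht
    · rw [hlo y t ht] at h2
      exact key _ (by positivity) h2
    · rw [hup y t ht] at h2
      exact key _ (by intro h; linarith) h2

end dbl

/-! ## the spheres -/

/-- suspension data of the metric spheres -/
noncomputable def sphData (n : ℕ) : SuspData (Sph n) (Sph (n + 1)) (pt n) (pt (n + 1)) where
  e := (sphDbl n).E ((pt n : Sph n) : EuclideanSpace ℝ (Fin (n + 1)))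
  e_zero y := by rw [← pt_succ]; exact (sphDbl n).E_zero (norm_pt n) y
  e_one y := by rw [← pt_succ]; exact (sphDbl n).E_one y
  e_base t := by rw [← pt_succ]; exact (sphDbl n).E_base (norm_pt n) t (pt n).2

theorem sphData_bij (n : ℕ) : (sphData n).Bij := by
  have h := dblData_bij (sphDbl n) (norm_pt n) (pt n).2
  refine ⟨fun z hz => h.surj z ?_, h.inj, fun y t hy h0 h1 h' => h.ne y t hy h0 h1
    (h'.trans (pt_succ n).symm)⟩
  rw [pt_succ]; exact hz

theorem susp_eq (n J : ℕ) (β : Ω^ (Fin J) (Sph n) (pt n)) :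
    Freu297.susp n J β = (sphData n).susp β := by
  ext t; rfl

/-- the antipode of the base point of `S^0` -/
noncomputable def npt : Sph 0 := ⟨-(pt 0 : Sph 0).1, by simp⟩

/-- the characteristic map `(I^N, ∂) → (S^N, pt)` -/
noncomputable def cell : (N : ℕ) → Ω^ (Fin N) (Sph N) (pt N)
  | 0 => ⟨ContinuousMap.const _ npt, fun _ ⟨i, _⟩ => i.elim0⟩
  | N + 1 => (sphData N).susp (cell N)

theorem sph_zero (y : Sph 0) : y = pt 0 ∨ y = npt := by
  have h1 : ‖(y : EuclideanSpace ℝ (Fin 1))‖ = 1 := by simp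
  have h3 : ‖(y : EuclideanSpace ℝ (Fin 1))‖ ^ 2 = ((y : EuclideanSpace ℝ (Fin 1)) 0) ^ 2 := by
    rw [EuclideanSpace.real_norm_sq_eq]; simp
  rw [h1] at h3
  have h4 : ((y : EuclideanSpace ℝ (Fin 1)) 0 - 1) * ((y : EuclideanSpace ℝ (Fin 1)) 0 + 1) = 0 := by
    linear_combination -h3
  rcases (mul_eq_zero.1 h4).imp sub_eq_zero.1 eq_neg_of_add_eq_zero_left with h2 | h2
  · left
    apply Subtype.ext
    ext i
    fin_cases i
    simpa [pt] using h2
  · right
    apply Subtype.ext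
    ext i
    fin_cases i
    simpa [pt, npt] using h2

theorem npt_ne : npt ≠ pt 0 := by
  intro h
  have h1 := congrArg (fun y : Sph 0 => (y : EuclideanSpace ℝ (Fin 1)) 0) h
  simp [npt, pt] at h1
  norm_num at h1

theorem cell_isCell : ∀ N, IsCell (cell N)
  | 0 => by
    refine ⟨?_, ?_, ?_⟩
    · intro s hs
      refine ⟨fun i => i.elim0, ?_⟩
      show npt = s
      rcases sph_zero s with h | h
      · exact absurd h hs
      · exact h.symm
    · intro x y _ _ _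
      ext i; exact i.elim0
    · intro x _
      exact npt_ne
  | N + 1 => (sphData_bij N).isCell (cell_isCell N)

/-- Freudenthal surjectivity `π_{n+1}(S^{n+1}) → π_{n+2}(S^{n+2})` -/
theorem susp_surj (n : ℕ) (f : Ω^ (Fin (n + 2)) (Sph (n + 2)) (pt (n + 2))) :
    ∃ g : Ω^ (Fin (n + 1)) (Sph (n + 1)) (pt (n + 1)),
      GenLoop.Homotopic ((sphData (n + 1)).susp g) f := by
  let f' : C((Fin (n + 1) → I) × I, Sph (n + 2)) :=
    ⟨fun z => f (Fin.snoc (α := fun _ => I) z.1 z.2), by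
      refine f.1.continuous.comp ?_
      refine continuous_pi fun i => ?_
      refine Fin.lastCases ?_ (fun j => ?_) i
      · simp only [Fin.snoc_last]; fun_prop
      · simp only [Fin.snoc_castSucc]; fun_prop⟩
  have hf' : ∀ z ∈ Bd (Fin (n + 1)), f' z =
      (sphDbl (n + 1)).up ((pt (n + 1) : Sph (n + 1)) : EuclideanSpace ℝ (Fin (n + 2))) := by
    rintro ⟨z, t⟩ hz
    rw [pt_succ]
    refine GenLoop.boundary f _ ?_
    rw [mem_boundary_succ, Fin.init_snoc, Fin.snoc_last]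
    exact hz
  obtain ⟨b, hb, ⟨H⟩⟩ := (sphDbl (n + 1)).step (norm_pt (n + 1)) (ι := Fin (n + 1))
    (by simp; omega) f' hf'
  refine ⟨⟨b, fun x hx => Subtype.ext (hb x hx)⟩, GenLoop.Homotopic.symm ?_⟩
  have hin : Continuous fun p : I × (Fin (n + 2) → I) =>
      (p.1, ((Fin.init p.2 : Fin (n + 1) → I), p.2 (Fin.last (n + 1)))) := by
    refine continuous_fst.prodMk (Continuous.prodMk ?_ (by fun_prop))
    exact continuous_pi fun i => (continuous_apply (Fin.castSucc i)).comp continuous_snd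
  refine homotopicRel_mk (fun p => H (p.1, ((Fin.init p.2 : Fin (n + 1) → I),
    p.2 (Fin.last (n + 1))))) (H.continuous.comp hin) ?_ ?_ ?_
  · intro x
    rw [H.apply_zero]
    show f (Fin.snoc (α := fun _ => I) (Fin.init x) (x (Fin.last _))) = f x
    rw [Fin.snoc_init_self]
  · intro x
    rw [H.apply_one]
    rfl
  · intro s x hx
    rw [H.eq_fst s ((mem_boundary_succ x).1 hx)]
    show f (Fin.snoc (α := fun _ => I) (Fin.init x) (x (Fin.last _))) = f x
    rw [Fin.snoc_init_self]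

/-- **`π_N(S^N)` is generated by the class of `cell N`**, `N ≥ 1`. -/
theorem sphere_gen : ∀ (n : ℕ) (g : Ω^ (Fin (n + 1)) (Sph (n + 1)) (pt (n + 1))),
    ∃ D : ℤ, cls g = cls (cell (n + 1)) ^ D
  | 0, g => gen_one (cell 1) (cell_isCell 1).surjective
      (fun x y h => ((cell_isCell 1).eq_iff x y).1 h) g
  | n + 1, g => SuspData.gen_step (S := sphData (n + 1)) (cell (n + 1)) (sphere_gen n)
      (susp_surj n) g

end Crest.Agent.R204.HDeg160
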