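import Mathlib
import Crest.Agent.R204.HDegS_160
import Crest.Agent.R204.HDegC_160
import Crest.Agent.R204.CubeSph_661

/-!
# Row 204, block H, leaf DEG (helper160), part Q

* `cube_gen`: for ANY cube sphere `P : CubeSphere (n+1) S` (`S` Hausdorff), `π_{n+1}(S)` is
  generated by the collapse map.
* `sphCube n : CubeSphere (n+1) (Sph (n+1))`: the metric sphere of S0314/S0315.
* `exists_smash`: the map `S × S' → W` induced by `Fin.append`.
* `exists_degree_K`: K-theory degree.
-/

set_option autoImplicit false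

open scoped unitInterval Topology Topology.Homotopy

namespace Crest.Agent.R204.HDeg160

open Crest.Agent.R204.Freud661 Crest.Agent.R204.CubeSph661
open Crest.Agent.R204.K357 Crest.Agent.R204.HInv313 Crest.Agent.R204.H472

universe u v w

/-- **generation of `π_N` of a cube sphere**, `N ≥ 1` -/
theorem cube_gen : ∀ (n : ℕ) {S : Type} [TopologicalSpace S] [T2Space S]
    (P : CubeSphere (n + 1) S) (g : Ω^ (Fin (n + 1)) S P.pt), ∃ D : ℤ, cls g = cls (pLoop P) ^ D
  | 0, S, _, _, P, g => gen_one (pLoop P) P.surj P.inj g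
  | n + 1, S, _, _, P, g => by
    have h := SuspData.gen_step (S := suspData (qs (n + 1)) P n.succ_pos) (pLoop (qs (n + 1)))
      (cube_gen n (qs (n + 1))) (fun f => by
        obtain ⟨g, hg⟩ := CubeSph661.susp_surj (qs (n + 1)) P n.succ_pos (q := n + 1) (by omega) f
        exact ⟨g, hg.symm⟩) g
    rw [susp_pLoop] at h
    exact h

/-- a cell of positive dimension is a cube sphere -/
def IsCell.cube {n : ℕ} {S : Type u} [TopologicalSpace S] {s₀ : S} {q : Ω^ (Fin (n + 1)) S s₀}
    (hq : IsCell q) : CubeSphere (n + 1) S where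
  p := q.1
  pt := s₀
  surj := hq.surjective
  bdry := q.2
  inj x y h := (hq.eq_iff x y).1 h

/-- the metric sphere as a cube sphere -/
noncomputable def sphCube (n : ℕ) : CubeSphere (n + 1) (Freu297.Sph (n + 1)) :=
  (cell_isCell (n + 1)).cube

@[simp] theorem sphCube_pt (n : ℕ) : (sphCube n).pt = Freu297.pt (n + 1) := rfl

@[simp] theorem sphCube_p (n : ℕ) (x : Fin (n + 1) → I) : (sphCube n).p x = cell (n + 1) x := rfl

theorem pLoop_sphCube (n : ℕ) : pLoop (sphCube n) = cell (n + 1) := rfl

/-! ## smash product of two cube spheres -/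

section smash

variable {m n : ℕ} {S S' W : Type*} [TopologicalSpace S] [T2Space S] [TopologicalSpace S']
  [T2Space S'] [TopologicalSpace W] (P : CubeSphere m S) (Q : CubeSphere n S')
  (R : CubeSphere (m + n) W)

theorem append_mem_boundary (x : Fin m → I) (y : Fin n → I) :
    Fin.append x y ∈ Cube.boundary (Fin (m + n)) ↔
      x ∈ Cube.boundary (Fin m) ∨ y ∈ Cube.boundary (Fin n) := by
  constructor
  · rintro ⟨i, hi⟩
    refine Fin.addCases (motive := fun i => (Fin.append x y i = 0 ∨ Fin.append x y i = 1) → _)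
      (fun j h => ?_) (fun j h => ?_) i hi
    · rw [Fin.append_left] at h; exact Or.inl ⟨j, h⟩
    · rw [Fin.append_right] at h; exact Or.inr ⟨j, h⟩
  · rintro (⟨j, h⟩ | ⟨j, h⟩)
    · exact ⟨Fin.castAdd n j, by rwa [Fin.append_left]⟩
    · exact ⟨Fin.natAdd m j, by rwa [Fin.append_right]⟩

theorem continuous_append : Continuous fun p : (Fin m → I) × (Fin n → I) =>
    (Fin.append p.1 p.2 : Fin (m + n) → I) := by
  refine continuous_pi fun i => ?_
  refine Fin.addCases (fun j => ?_) (fun j => ?_) i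
  · simp only [Fin.append_left]; fun_prop
  · simp only [Fin.append_right]; fun_prop

include P Q in
theorem exists_smash : ∃ π : C(S × S', W), ∀ x y, π (P.p x, Q.p y) = R.p (Fin.append x y) := by
  have hq : Topology.IsQuotientMap (Prod.map P.p Q.p) := by
    have h1 : IsProperMap P.p := P.p.continuous.isProperMap
    have h2 : IsProperMap Q.p := Q.p.continuous.isProperMap
    have h3 := h1.prodMap h2
    exact h3.isClosedMap.isQuotientMap h3.continuous (P.surj.prodMap Q.surj)
  choose s hs using P.surj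
  choose t ht using Q.surj
  let π : S × S' → W := fun z => R.p (Fin.append (s z.1) (t z.2))
  have hb : ∀ (x : Fin m → I) (y : Fin n → I),
      x ∈ Cube.boundary (Fin m) ∨ y ∈ Cube.boundary (Fin n) → R.p (Fin.append x y) = R.pt :=
    fun x y h => R.bdry _ ((append_mem_boundary x y).2 h)
  have key : ∀ x y, π (P.p x, Q.p y) = R.p (Fin.append x y) := by
    intro x y
    show R.p (Fin.append (s (P.p x)) (t (Q.p y))) = _
    rcases P.inj _ _ (hs (P.p x)) with h1 | ⟨h1, h2⟩
    · rcases Q.inj _ _ (ht (Q.p y)) with h3 | ⟨h3, h4⟩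
      · rw [h1, h3]
      · rw [hb _ _ (Or.inr h3), hb _ _ (Or.inr h4)]
    · rw [hb _ _ (Or.inl h1), hb _ _ (Or.inl h2)]
  refine ⟨⟨π, ?_⟩, key⟩
  rw [hq.continuous_iff]
  have : π ∘ Prod.map P.p Q.p = fun z => R.p (Fin.append z.1 z.2) := by
    funext ⟨x, y⟩; exact key x y
  rw [this]
  exact R.p.continuous.comp continuous_append

/-- the smash projection `S × S' → S ∧ S' ≅ W` -/
noncomputable def smash : C(S × S', W) := (exists_smash P Q R).choose

theorem smash_p (x : Fin m → I) (y : Fin n → I) :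
    smash P Q R (P.p x, Q.p y) = R.p (Fin.append x y) := (exists_smash P Q R).choose_spec x y

theorem smash_eq_pt_iff (hm : 0 < m) (hn : 0 < n) (z : S × S') :
    smash P Q R z = R.pt ↔ z.1 = P.pt ∨ z.2 = Q.pt := by
  obtain ⟨a, b⟩ := z
  obtain ⟨x, rfl⟩ := P.surj a
  obtain ⟨y, rfl⟩ := Q.surj b
  rw [smash_p]
  constructor
  · intro h
    have := R.mem_bdry_of_p_eq (by omega) h
    rw [append_mem_boundary] at this
    exact this.imp (P.bdry x) (Q.bdry y)
  · intro h
    apply R.bdry
    rw [append_mem_boundary]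
    exact h.imp (P.mem_bdry_of_p_eq hm) (Q.mem_bdry_of_p_eq hn)

theorem smash_surjective : Function.Surjective (smash P Q R) := by
  intro w
  obtain ⟨z, rfl⟩ := R.surj w
  refine ⟨(P.p (fun i => z (Fin.castAdd n i)), Q.p (fun i => z (Fin.natAdd m i))), ?_⟩
  rw [smash_p]
  congr 1
  exact Fin.append_castAdd_natAdd

/-- `smash` is injective off the wedge -/
theorem smash_inj (hm : 0 < m) (hn : 0 < n) {z z' : S × S'}
    (h : smash P Q R z = smash P Q R z') :
    z = z' ∨ ((z.1 = P.pt ∨ z.2 = Q.pt) ∧ (z'.1 = P.pt ∨ z'.2 = Q.pt)) := by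
  by_cases hz : smash P Q R z = R.pt
  · right
    exact ⟨(smash_eq_pt_iff P Q R hm hn z).1 hz, (smash_eq_pt_iff P Q R hm hn z').1 (h ▸ hz)⟩
  · left
    obtain ⟨a, b⟩ := z
    obtain ⟨a', b'⟩ := z'
    obtain ⟨x, rfl⟩ := P.surj a
    obtain ⟨y, rfl⟩ := Q.surj b
    obtain ⟨x', rfl⟩ := P.surj a'
    obtain ⟨y', rfl⟩ := Q.surj b'
    rw [smash_p] at hz
    rw [smash_p, smash_p] at h
    rcases R.inj _ _ h with h1 | ⟨h1, _⟩
    · have h2 : x = x' := by
        funext i
        have := congrFun h1 (Fin.castAdd n i)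
        rwa [Fin.append_left, Fin.append_left] at this
      have h3 : y = y' := by
        funext i
        have := congrFun h1 (Fin.natAdd m i)
        rwa [Fin.append_right, Fin.append_right] at this
      rw [h2, h3]
    · exact absurd (R.bdry _ h1) hz

end smash

/-- **degree, K-side**: for a loop `g` in a cube sphere there is an integer `D` with
`cls g = cls p ^ D`, and `g^* x = D • p^* x` for every reduced class. -/
theorem exists_degree_K {n : ℕ} {S : Type} [TopologicalSpace S] [T2Space S]
    (P : CubeSphere (n + 1) S) (g : Ω^ (Fin (n + 1)) S P.pt) :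
    ∃ D : ℤ, cls g = cls (pLoop P) ^ D ∧
      ∀ x : K0 C(S, ℂ), resK P.pt x = 0 → pullK g x = D • pullK (pLoop P) x := by
  obtain ⟨D, hD⟩ := cube_gen n P g
  exact ⟨D, hD, fun x hx => k_degree x hx (pLoop P) g D hD⟩

end Crest.Agent.R204.HDeg160
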