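import Mathlib
import Crest.Agent.R204.Cube_477
import Crest.Agent.R204.HDegQ_160

/-!
# Row 204, block H, leaf DEG (helper160), part F

F2 side: `g ↦ [g_* z_n] ∈ H F2 (Sing Y)` is homotopy invariant and additive on `Ω^(Fin n) Y y`, over
an abstract cross product `𝒞 : Cross` (helper477).  Final statement: `exists_degree`.
-/

set_option autoImplicit false

open scoped unitInterval Topology Topology.Homotopy

namespace Crest.Agent.R204.HDeg160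

open Crest.Agent.R204.HopfF2477 Crest.Agent.R204.SS
open Crest.Agent.R204.Freud661 Crest.Agent.R204.CubeSph661
open Crest.Agent.R204.K357 Crest.Agent.R204.HInv313 Crest.Agent.R204.H472

variable (𝒞 : Cross) {Y : Type} [TopologicalSpace Y] {y : Y}

/-- the boundary of the cube does not contribute -/
theorem bd_push_zc {A W : Type} [TopologicalSpace A] [TopologicalSpace W] {n : ℕ}
    (F : C((Fin n → I) × A, W)) (w : W) (hF : ∀ x ∈ Cube.boundary (Fin n), ∀ a, F (x, a) = w)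
    (c : N F2 (Sing A)) :
    N.bd F2 _ (pf F (𝒞.cr (𝒞.zc n) c)) = pf F (𝒞.cr (𝒞.zc n) (N.bd F2 _ c)) := by
  rw [← pf_bd, 𝒞.bd, map_add,
    𝒞.bd_zc_push n A W c F (ContinuousMap.const A w) (fun x hx a => hF x hx a), zero_add]

/-- the class of the pushed fundamental chain -/
noncomputable def zcls {n : ℕ} (g : Ω^ (Fin n) Y y) : H F2 (Sing Y) :=
  Hd.mk (N.bd F2 (Sing Y)) (pf g.1 (𝒞.zc n)) (𝒞.bd_pf_zc n g.1 y g.2)

theorem zcls_gr {n : ℕ} (g : Ω^ (Fin n) Y y) : zcls 𝒞 g ∈ H.gr F2 (Sing Y) n :=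
  ⟨⟨pf g.1 (𝒞.zc n), 𝒞.bd_pf_zc n g.1 y g.2⟩, pf_gr _ (𝒞.zc_gr n), rfl⟩

theorem hom2_homotopic {n : ℕ} {f g : Ω^ (Fin n) Y y} (h : GenLoop.Homotopic f g) :
    Hom2 (pf f.1 (𝒞.zc n)) (pf g.1 (𝒞.zc n)) := by
  obtain ⟨H⟩ := h
  let F : C((Fin n → I) × I, Y) := ⟨fun p => H (p.2, p.1), by fun_prop⟩
  have hF : ∀ x ∈ Cube.boundary (Fin n), ∀ a, F (x, a) = y := fun x hx a =>
    (H.prop' a x hx).trans (GenLoop.boundary f x hx)
  refine ⟨pf F (𝒞.cr (𝒞.zc n) iota), ?_⟩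
  rw [bd_push_zc 𝒞 F y hF, bd_iota, map_add, map_add, A1_pt, A1_pt,
    𝒞.pf_vertex (𝒞.zc n) 1 F g.1 (fun a => H.apply_one a),
    𝒞.pf_vertex (𝒞.zc n) 0 F f.1 (fun a => H.apply_zero a), add_comm]

theorem transAt_lo {n : ℕ} (f g : Ω^ (Fin (n + 1)) Y y) (x : Fin n → I) (s : I) :
    GenLoop.transAt (Fin.last n) f g (Fin.snoc (α := fun _ => I) x (lo s)) =
      f (Fin.snoc (α := fun _ => I) x s) := by
  simp only [GenLoop.transAt, GenLoop.coe_copy]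
  rw [Fin.snoc_last, if_pos (by show (s : ℝ) / 2 ≤ 1 / 2; have := s.2.2; linarith)]
  congr 1
  rw [Fin.update_snoc_last]
  congr 1
  rw [show (2 * ((lo s : I) : ℝ)) = (s : ℝ) by show 2 * ((s : ℝ) / 2) = s; ring]
  exact Set.projIcc_val _ _

theorem transAt_hi {n : ℕ} (f g : Ω^ (Fin (n + 1)) Y y) (x : Fin n → I) (s : I) :
    GenLoop.transAt (Fin.last n) f g (Fin.snoc (α := fun _ => I) x (hi s)) =
      g (Fin.snoc (α := fun _ => I) x s) := by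
  simp only [GenLoop.transAt, GenLoop.coe_copy]
  rw [Fin.snoc_last]
  split_ifs with h
  · have h' : (1 + (s : ℝ)) / 2 ≤ 1 / 2 := h
    have h0 := s.2.1
    have hs : s = 0 := Subtype.ext (by show (s : ℝ) = 0; linarith)
    subst hs
    rw [Fin.update_snoc_last]
    rw [GenLoop.boundary f _ ⟨Fin.last n, Or.inr ?_⟩, GenLoop.boundary g _ ⟨Fin.last n, Or.inl ?_⟩]
    · rw [Fin.snoc_last]
    · rw [Fin.snoc_last]
      apply Set.projIcc_of_right_le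
      show (1 : ℝ) ≤ 2 * ((1 + ((0 : I) : ℝ)) / 2)
      norm_num
  · congr 1
    rw [Fin.update_snoc_last]
    congr 1
    rw [show (2 * ((hi s : I) : ℝ) - 1) = (s : ℝ) by
      show 2 * ((1 + (s : ℝ)) / 2) - 1 = s; ring]
    exact Set.projIcc_val _ _

theorem hom2_transAt {n : ℕ} (f g : Ω^ (Fin (n + 1)) Y y) :
    Hom2 (pf (GenLoop.transAt (Fin.last n) f g).1 (𝒞.zc (n + 1)))
      (pf f.1 (𝒞.zc (n + 1)) + pf g.1 (𝒞.zc (n + 1))) := by
  set T := GenLoop.transAt (Fin.last n) f g with hT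
  let F : C((Fin n → I) × I, Y) := T.1.comp (snocM n)
  have hF : ∀ x ∈ Cube.boundary (Fin n), ∀ a, F (x, a) = y := by
    rintro x ⟨j, hj⟩ a
    refine GenLoop.boundary T _ ⟨j.castSucc, ?_⟩
    rw [snocM_apply, Fin.snoc_castSucc]; exact hj
  have e1 : pf T.1 (𝒞.zc (n + 1)) = pf F (𝒞.cr (𝒞.zc n) iota) := by
    rw [𝒞.zc_succ, ← pf_comp]
  have e2 : pf f.1 (𝒞.zc (n + 1)) = pf F (𝒞.cr (𝒞.zc n) (pf lo iota)) := by
    rw [𝒞.zc_succ, ← pf_comp, push_nat]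
    refine congrArg (fun F => pf F (𝒞.cr (𝒞.zc n) iota)) (ContinuousMap.ext ?_)
    rintro ⟨x, s⟩
    exact (transAt_lo f g x s).symm
  have e3 : pf g.1 (𝒞.zc (n + 1)) = pf F (𝒞.cr (𝒞.zc n) (pf hi iota)) := by
    rw [𝒞.zc_succ, ← pf_comp, push_nat]
    refine congrArg (fun F => pf F (𝒞.cr (𝒞.zc n) iota)) (ContinuousMap.ext ?_)
    rintro ⟨x, s⟩
    exact (transAt_hi f g x s).symm
  refine ⟨pf F (𝒞.cr (𝒞.zc n) dl), ?_⟩
  rw [bd_push_zc 𝒞 F y hF, bd_dl, map_add, map_add, map_add, map_add, e1, e2, e3]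
  abel

theorem zcls_eq_of_hom2 {a b : N F2 (Sing Y)} (ha : N.bd F2 _ a = 0)
    (hb : N.bd F2 _ b = 0) (h : Hom2 a b) :
    Hd.mk (N.bd F2 (Sing Y)) a ha = Hd.mk (N.bd F2 (Sing Y)) b hb := by
  obtain ⟨e, he⟩ := h
  rw [Hd.mk_eq_mk]
  refine ⟨e, ?_⟩
  rw [he]
  have : b = -b := by
    rw [eq_neg_iff_add_eq_zero]; exact add_self' b
  rw [sub_eq_add_neg, ← this]

theorem zcls_homotopic {n : ℕ} (f g : Ω^ (Fin n) Y y) (h : GenLoop.Homotopic f g) :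
    zcls 𝒞 f = zcls 𝒞 g :=
  zcls_eq_of_hom2 _ _ (hom2_homotopic 𝒞 h)

theorem zcls_transAt {n : ℕ} (f g : Ω^ (Fin (n + 1)) Y y) :
    zcls 𝒞 (GenLoop.transAt (Fin.last n) f g) = zcls 𝒞 f + zcls 𝒞 g := by
  have hb : N.bd F2 (Sing Y) (pf f.1 (𝒞.zc (n + 1)) + pf g.1 (𝒞.zc (n + 1))) = 0 := by
    rw [map_add, 𝒞.bd_pf_zc _ f.1 y f.2, 𝒞.bd_pf_zc _ g.1 y g.2, add_zero]
  have h := zcls_eq_of_hom2 (𝒞.bd_pf_zc _ _ y (GenLoop.transAt (Fin.last n) f g).2) hb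
    (hom2_transAt 𝒞 f g)
  exact h

/-- **F2-degree** -/
theorem zcls_degree {n : ℕ} (ι g : Ω^ (Fin (n + 1)) Y y) (D : ℤ) (h : cls g = cls ι ^ D) :
    zcls 𝒞 g = D • zcls 𝒞 ι :=
  additive_degree (Fin.last n) (zcls 𝒞) (zcls_homotopic 𝒞) (zcls_transAt 𝒞) ι g D h

/-- **degree theorem (DEG)**: for a loop `g` in a cube sphere there is an integer `D` with
`cls g = cls p ^ D`, `g^* x = D • p^* x` for every reduced `x ∈ K0 C(S)`, `g_* z = D • p_* z`. -/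
theorem exists_degree {n : ℕ} {S : Type} [TopologicalSpace S] [T2Space S]
    (P : CubeSphere (n + 1) S) (g : Ω^ (Fin (n + 1)) S P.pt) :
    ∃ D : ℤ, cls g = cls (pLoop P) ^ D ∧
      (∀ x : K0 C(S, ℂ), resK P.pt x = 0 → pullK g x = D • pullK (pLoop P) x) ∧
      zcls 𝒞 g = D • zcls 𝒞 (pLoop P) := by
  obtain ⟨D, hD⟩ := cube_gen n P g
  exact ⟨D, hD, fun x hx => k_degree x hx (pLoop P) g D hD, zcls_degree 𝒞 _ _ D hD⟩

end Crest.Agent.R204.HDeg160
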