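import Mathlib
import Crest.Agent.R204.HDegQ_160
import Crest.Agent.R204.Defs

/-!
# Row 204, block H (helper160): from cubes to simplices

`mu n : C(Fin n → I, Δ^n)`, `x ↦ (1 - x_0, x_0 (1 - x_1), …, x_0 ⋯ x_(n-1))` collapses exactly the
boundary.  Every `g : Ω^(Fin n) Y y` is `b ∘ mu` for a spherical simplex `b`, and is homotopic to
`b ∘ ρ` for every `ρ : C(Fin n → I, Δ^n)` with the same faces.
-/

set_option autoImplicit false

open scoped unitInterval Topology Topology.Homotopy

namespace Crest.Agent.R204.HDeg160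

/-- the standard simplex -/
abbrev Dlt (n : ℕ) : Type := stdSimplex ℝ (Fin (n + 1))

/-- boundary of the simplex -/
def bdD (n : ℕ) : Set (Dlt n) := {s | ∃ i, s i = 0}

/-- `(s, t) ↦ (s_0, …, s_(n-1), s_n (1 - t), s_n t)` -/
noncomputable def TH (n : ℕ) : C(Dlt n × I, Dlt (n + 1)) where
  toFun p := ⟨Fin.snoc (α := fun _ => ℝ)
      (fun i : Fin (n + 1) => if i = Fin.last n then p.1 i * (1 - (p.2 : ℝ)) else p.1 i)
      (p.1 (Fin.last n) * (p.2 : ℝ)), by
    obtain ⟨s, t⟩ := p
    have ht0 := t.2.1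
    have ht1 := t.2.2
    constructor
    · intro i
      refine Fin.lastCases ?_ (fun j => ?_) i
      · rw [Fin.snoc_last]; exact mul_nonneg (s.2.1 _) ht0
      · rw [Fin.snoc_castSucc]
        split_ifs
        · exact mul_nonneg (s.2.1 _) (by linarith)
        · exact s.2.1 _
    · rw [Fin.sum_univ_castSucc]
      simp only [Fin.snoc_castSucc, Fin.snoc_last]
      have h1 : ∑ i, s i = 1 := stdSimplex.sum_eq_one s
      rw [Fin.sum_univ_castSucc] at h1 ⊢
      have h2 : ∀ i : Fin n, (if i.castSucc = Fin.last n then s i.castSucc * (1 - (t : ℝ))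
          else s i.castSucc) = s i.castSucc := fun i => if_neg (Fin.castSucc_lt_last i).ne
      rw [Finset.sum_congr rfl fun i _ => h2 i, if_pos rfl]
      linarith⟩
  continuous_toFun := by
    refine Continuous.subtype_mk (continuous_pi fun i => ?_) _
    refine Fin.lastCases ?_ (fun j => ?_) i
    · simp only [Fin.snoc_last]
      exact (((continuous_apply (Fin.last n)).comp continuous_subtype_val).comp
        continuous_fst).mul (continuous_subtype_val.comp continuous_snd)
    · simp only [Fin.snoc_castSucc]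
      have h1 : Continuous fun p : Dlt n × I => p.1 j :=
        ((continuous_apply j).comp continuous_subtype_val).comp continuous_fst
      split_ifs
      · exact h1.mul (continuous_const.sub (continuous_subtype_val.comp continuous_snd))
      · exact h1

theorem TH_last {n : ℕ} (s : Dlt n) (t : I) :
    TH n (s, t) (Fin.last (n + 1)) = s (Fin.last n) * (t : ℝ) := by
  show (Fin.snoc (α := fun _ => ℝ) (fun i : Fin (n + 1) =>
    if i = Fin.last n then s i * (1 - (t : ℝ)) else s i) (s (Fin.last n) * (t : ℝ)) :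
      Fin (n + 2) → ℝ) (Fin.last (n + 1)) = _
  rw [Fin.snoc_last]

theorem TH_castSucc {n : ℕ} (s : Dlt n) (t : I) (i : Fin (n + 1)) :
    TH n (s, t) i.castSucc = if i = Fin.last n then s i * (1 - (t : ℝ)) else s i := by
  show (Fin.snoc (α := fun _ => ℝ) (fun i : Fin (n + 1) =>
    if i = Fin.last n then s i * (1 - (t : ℝ)) else s i) (s (Fin.last n) * (t : ℝ)) :
      Fin (n + 2) → ℝ) i.castSucc = _
  rw [Fin.snoc_castSucc]

theorem TH_mem_iff {n : ℕ} (s : Dlt n) (t : I) :
    TH n (s, t) ∈ bdD (n + 1) ↔ s ∈ bdD n ∨ t = 0 ∨ t = 1 := by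
  constructor
  · rintro ⟨i, hi⟩
    revert hi
    refine Fin.lastCases ?_ (fun j => ?_) i
    · intro h
      rw [TH_last] at h
      rcases mul_eq_zero.1 h with h | h
      · exact Or.inl ⟨_, h⟩
      · exact Or.inr (Or.inl (Subtype.ext h))
    · intro h
      rw [TH_castSucc] at h
      split_ifs at h with hj
      · rcases mul_eq_zero.1 h with h | h
        · exact Or.inl ⟨_, h⟩
        · exact Or.inr (Or.inr (Subtype.ext (by show (t : ℝ) = 1; linarith)))
      · exact Or.inl ⟨_, h⟩
  · rintro (⟨i, hi⟩ | h | h)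
    · refine ⟨i.castSucc, ?_⟩
      rw [TH_castSucc, hi]; simp
    · refine ⟨Fin.last _, ?_⟩
      rw [TH_last, h]; simp
    · refine ⟨(Fin.last n).castSucc, ?_⟩
      rw [TH_castSucc, if_pos rfl, h]; simp

theorem TH_inj {n : ℕ} {s s' : Dlt n} {t t' : I} (hs : s ∉ bdD n)
    (h : TH n (s, t) = TH n (s', t')) : s = s' ∧ t = t' := by
  have hl : s (Fin.last n) * (t : ℝ) = s' (Fin.last n) * (t' : ℝ) := by
    rw [← TH_last, ← TH_last, h]
  have hc : ∀ i : Fin (n + 1), (if i = Fin.last n then s i * (1 - (t : ℝ)) else s i) =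
      (if i = Fin.last n then s' i * (1 - (t' : ℝ)) else s' i) := by
    intro i; rw [← TH_castSucc, ← TH_castSucc, h]
  have hn := hc (Fin.last n)
  rw [if_pos rfl, if_pos rfl] at hn
  have e1 : s (Fin.last n) = s' (Fin.last n) := by linarith
  have hss : s = s' := by
    apply Subtype.ext
    funext i
    by_cases hi : i = Fin.last n
    · subst hi; exact e1
    · have := hc i
      rw [if_neg hi, if_neg hi] at this
      exact this
  refine ⟨hss, Subtype.ext ?_⟩
  have h0 : s (Fin.last n) ≠ 0 := fun h => hs ⟨_, h⟩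
  rw [← e1] at hl
  exact mul_left_cancel₀ h0 hl

theorem TH_surj {n : ℕ} (u : Dlt (n + 1)) : ∃ p, TH n p = u := by
  set a : ℝ := u (Fin.last n).castSucc
  set b : ℝ := u (Fin.last (n + 1))
  have ha : 0 ≤ a := u.2.1 _
  have hb : 0 ≤ b := u.2.1 _
  let s : Dlt n := ⟨fun i => if i = Fin.last n then a + b else u i.castSucc, by
    constructor
    · intro i
      dsimp only
      split_ifs
      · positivity
      · exact u.2.1 _
    · have h1 : ∑ i, u i = 1 := stdSimplex.sum_eq_one u
      rw [Fin.sum_univ_castSucc, Fin.sum_univ_castSucc] at h1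
      rw [Fin.sum_univ_castSucc]
      have h2 : ∀ i : Fin n, (if i.castSucc = Fin.last n then a + b
          else u i.castSucc.castSucc) = u i.castSucc.castSucc :=
        fun i => if_neg (Fin.castSucc_lt_last i).ne
      rw [Finset.sum_congr rfl fun i _ => h2 i, if_pos rfl]
      linarith⟩
  have hsl : s (Fin.last n) = a + b := if_pos rfl
  have hsc : ∀ i, i ≠ Fin.last n → s i = u i.castSucc := fun i hi => if_neg hi
  obtain ⟨t, h1, h2⟩ : ∃ t : I, (a + b) * (t : ℝ) = b ∧ (a + b) * (1 - (t : ℝ)) = a := by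
    by_cases h : a + b = 0
    · refine ⟨0, ?_, ?_⟩
      · rw [h]; simp; linarith
      · rw [h]; simp; linarith
    · have hpos : 0 < a + b := lt_of_le_of_ne (by positivity) (Ne.symm h)
      refine ⟨⟨b / (a + b), by positivity, by rw [div_le_one hpos]; linarith⟩, ?_, ?_⟩
      · show (a + b) * (b / (a + b)) = b
        field_simp
      · show (a + b) * (1 - b / (a + b)) = a
        field_simp
        ring
  refine ⟨(s, t), Subtype.ext (funext fun i => ?_)⟩
  refine Fin.lastCases ?_ (fun j => ?_) i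
  · show TH n (s, t) (Fin.last (n + 1)) = b
    rw [TH_last, hsl, h1]
  · show TH n (s, t) j.castSucc = u j.castSucc
    rw [TH_castSucc]
    split_ifs with hj
    · subst hj; rw [hsl, h2]
    · exact hsc j hj

/-- the collapse of the cube onto the simplex -/
noncomputable def mu : (n : ℕ) → C(Fin n → I, Dlt n)
  | 0 => ContinuousMap.const _ ⟨fun _ => 1, by
      constructor
      · intro i; exact zero_le_one
      · simp⟩
  | n + 1 => (TH n).comp (((mu n).comp ⟨fun x => Fin.init x, by
      exact continuous_pi fun i => continuous_apply (Fin.castSucc i)⟩).prodMk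
        ⟨fun x => x (Fin.last n), by fun_prop⟩)

theorem mu_succ {n : ℕ} (x : Fin (n + 1) → I) :
    mu (n + 1) x = TH n (mu n (Fin.init x), x (Fin.last n)) := rfl

theorem mu_mem_iff : ∀ {n : ℕ} (x : Fin n → I), mu n x ∈ bdD n ↔ x ∈ Cube.boundary (Fin n)
  | 0, x => by
    constructor
    · rintro ⟨i, hi⟩
      exact absurd hi (by show (1 : ℝ) ≠ 0; norm_num)
    · rintro ⟨i, _⟩; exact i.elim0
  | n + 1, x => by
    rw [mu_succ, TH_mem_iff, mu_mem_iff, mem_boundary_succ]

theorem mu_inj : ∀ {n : ℕ} {x x' : Fin n → I}, x ∉ Cube.boundary (Fin n) → mu n x = mu n x' → x = x'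
  | 0, x, x', _, _ => by ext i; exact i.elim0
  | n + 1, x, x', hx, h => by
    rw [mem_boundary_succ, not_or] at hx
    rw [mu_succ, mu_succ] at h
    obtain ⟨h1, h2⟩ := TH_inj (by rw [mu_mem_iff]; exact hx.1) h
    have h3 := mu_inj hx.1 h1
    rw [← Fin.snoc_init_self (α := fun _ => I) x, ← Fin.snoc_init_self (α := fun _ => I) x', h2, h3]

theorem mu_surj : ∀ {n : ℕ}, Function.Surjective (mu n)
  | 0, s => by
    refine ⟨fun i => i.elim0, Subtype.ext (funext fun i => ?_)⟩
    have hi : i = Fin.last 0 := Fin.ext (by omega)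
    subst hi
    show (1 : ℝ) = s (Fin.last 0)
    simp
  | n + 1, u => by
    obtain ⟨⟨s, t⟩, rfl⟩ := TH_surj u
    obtain ⟨x, rfl⟩ := mu_surj s
    refine ⟨Fin.snoc (α := fun _ => I) x t, ?_⟩
    rw [mu_succ, Fin.init_snoc, Fin.snoc_last]

theorem mu_one : ∀ {n : ℕ} (x : Fin n → I) (i : Fin n), x i = 1 → mu n x i.castSucc = 0
  | 0, _, i, _ => i.elim0
  | n + 1, x, i, hi => by
    rw [mu_succ, TH_castSucc]
    revert hi
    refine Fin.lastCases ?_ (fun j => ?_) i
    · intro h; rw [if_pos rfl, h]; simp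
    · intro h
      have h1 : mu n (Fin.init x) j.castSucc = 0 := mu_one (Fin.init x) j h
      rw [h1]; simp

theorem mu_zero : ∀ {n : ℕ} (x : Fin n → I) (i : Fin n), x i = 0 → mu n x i.succ = 0
  | 0, _, i, _ => i.elim0
  | n + 1, x, i, hi => by
    rw [mu_succ]
    revert hi
    refine Fin.lastCases ?_ (fun j => ?_) i
    · intro h
      rw [Fin.succ_last, TH_last, h]; simp
    · intro h
      have h1 : mu n (Fin.init x) j.succ = 0 := mu_zero (Fin.init x) j h
      rw [← Fin.castSucc_succ, TH_castSucc, h1]; simp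

/-- straight line homotopy in the simplex -/
noncomputable def segD (n : ℕ) : C(I × (Dlt n × Dlt n), Dlt n) where
  toFun p := ⟨fun i => (1 - (p.1 : ℝ)) * p.2.1 i + (p.1 : ℝ) * p.2.2 i, by
    obtain ⟨l, s, t⟩ := p
    have h0 := l.2.1
    have h1 := l.2.2
    constructor
    · intro i
      exact add_nonneg (mul_nonneg (by linarith) (s.2.1 i)) (mul_nonneg h0 (t.2.1 i))
    · have hs : ∑ i, s i = 1 := stdSimplex.sum_eq_one s
      have ht : ∑ i, t i = 1 := stdSimplex.sum_eq_one t
      show ∑ i, ((1 - (l : ℝ)) * s i + (l : ℝ) * t i) = 1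
      rw [Finset.sum_add_distrib, ← Finset.mul_sum, ← Finset.mul_sum, hs, ht]
      ring⟩
  continuous_toFun := by
    refine Continuous.subtype_mk (continuous_pi fun i => ?_) _
    have h1 : Continuous fun p : I × (Dlt n × Dlt n) => p.2.1 i :=
      ((continuous_apply i).comp continuous_subtype_val).comp (continuous_fst.comp continuous_snd)
    have h2 : Continuous fun p : I × (Dlt n × Dlt n) => p.2.2 i :=
      ((continuous_apply i).comp continuous_subtype_val).comp (continuous_snd.comp continuous_snd)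
    have h3 : Continuous fun p : I × (Dlt n × Dlt n) => (p.1 : ℝ) :=
      continuous_subtype_val.comp continuous_fst
    exact ((continuous_const.sub h3).mul h1).add (h3.mul h2)

theorem segD_apply {n : ℕ} (l : I) (s t : Dlt n) (i : Fin (n + 1)) :
    segD n (l, (s, t)) i = (1 - (l : ℝ)) * s i + (l : ℝ) * t i := rfl

theorem segD_zero {n : ℕ} (s t : Dlt n) : segD n (0, (s, t)) = s := by
  apply Subtype.ext; funext i
  show (1 - ((0 : I) : ℝ)) * s i + ((0 : I) : ℝ) * t i = s i
  simp

theorem segD_one {n : ℕ} (s t : Dlt n) : segD n (1, (s, t)) = t := by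
  apply Subtype.ext; funext i
  show (1 - ((1 : I) : ℝ)) * s i + ((1 : I) : ℝ) * t i = t i
  simp

variable {Y : Type*} [TopologicalSpace Y] {y : Y}

/-- a spherical simplex precomposed with a map respecting boundaries is a generalised loop -/
def cubeOf {n : ℕ} (ρ : C(Fin n → I, Dlt n)) (hρ : ∀ x ∈ Cube.boundary (Fin n), ρ x ∈ bdD n)
    (b : C(Dlt n, Y)) (hb : ∀ s ∈ bdD n, b s = y) : Ω^ (Fin n) Y y :=
  ⟨b.comp ρ, fun x hx => hb _ (hρ x hx)⟩

/-- compatibility of faces -/
structure IsFace {n : ℕ} (ρ : C(Fin n → I, Dlt n)) : Prop where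
  one : ∀ (x : Fin n → I) (i : Fin n), x i = 1 → ρ x i.castSucc = 0
  zero : ∀ (x : Fin n → I) (i : Fin n), x i = 0 → ρ x i.succ = 0

theorem mu_isFace (n : ℕ) : IsFace (mu n) := ⟨mu_one, mu_zero⟩

theorem IsFace.mem {n : ℕ} {ρ : C(Fin n → I, Dlt n)} (hρ : IsFace ρ) (x : Fin n → I)
    (hx : x ∈ Cube.boundary (Fin n)) : ρ x ∈ bdD n := by
  obtain ⟨i, hi | hi⟩ := hx
  · exact ⟨_, hρ.zero x i hi⟩
  · exact ⟨_, hρ.one x i hi⟩

theorem cubeOf_homotopic {n : ℕ} {ρ ρ' : C(Fin n → I, Dlt n)} (h : IsFace ρ) (h' : IsFace ρ')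
    (b : C(Dlt n, Y)) (hb : ∀ s ∈ bdD n, b s = y) :
    GenLoop.Homotopic (cubeOf ρ h.mem b hb) (cubeOf ρ' h'.mem b hb) := by
  refine ⟨⟨⟨⟨fun p => b (segD n (p.1, (ρ p.2, ρ' p.2))), ?_⟩, ?_, ?_⟩, ?_⟩⟩
  · exact b.continuous.comp ((segD n).continuous.comp (by fun_prop))
  · intro x
    show b (segD n (0, (ρ x, ρ' x))) = b (ρ x)
    rw [segD_zero]
  · intro x
    show b (segD n (1, (ρ x, ρ' x))) = b (ρ' x)
    rw [segD_one]
  · intro t x hx
    show b (segD n (t, (ρ x, ρ' x))) = b (ρ x)
    rw [hb (ρ x) (h.mem x hx)]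
    apply hb
    obtain ⟨i, hi | hi⟩ := hx
    · exact ⟨_, by rw [segD_apply, h.zero x i hi, h'.zero x i hi]; simp⟩
    · exact ⟨_, by rw [segD_apply, h.one x i hi, h'.one x i hi]; simp⟩

/-- every generalised loop factors through `mu` -/
theorem exists_simplex {n : ℕ} (g : Ω^ (Fin n) Y y) :
    ∃ (b : C(Dlt n, Y)) (hb : ∀ s ∈ bdD n, b s = y), cubeOf (mu n) (mu_isFace n).mem b hb = g := by
  have hq : Topology.IsQuotientMap (mu n) :=
    ((mu n).continuous.isClosedMap).isQuotientMap (mu n).continuous mu_surj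
  have hs := mu_surj (n := n)
  choose r hr using hs
  have key : ∀ x, g (r (mu n x)) = g x := by
    intro x
    by_cases hx : x ∈ Cube.boundary (Fin n)
    · have : r (mu n x) ∈ Cube.boundary (Fin n) := by
        rw [← mu_mem_iff, hr, mu_mem_iff]; exact hx
      rw [GenLoop.boundary g _ this, GenLoop.boundary g _ hx]
    · rw [← mu_inj hx (hr (mu n x)).symm]
  refine ⟨⟨fun s => g (r s), ?_⟩, ?_, ?_⟩
  · rw [hq.continuous_iff]
    have : (fun s => g (r s)) ∘ (mu n) = g := funext key
    rw [this]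
    exact g.1.continuous
  · intro s hs
    refine GenLoop.boundary g _ ?_
    rw [← mu_mem_iff, hr]; exact hs
  · ext x
    exact key x

/-- **cube to simplex**: up to homotopy every generalised loop is `b ∘ ρ`, `b` a spherical simplex -/
theorem exists_simplex_homotopic {n : ℕ} {ρ : C(Fin n → I, Dlt n)} (hρ : IsFace ρ)
    (g : Ω^ (Fin n) Y y) :
    ∃ (b : C(Dlt n, Y)) (hb : ∀ s ∈ bdD n, b s = y), (∀ x, b (mu n x) = g x) ∧
      GenLoop.Homotopic (cubeOf ρ hρ.mem b hb) g := by
  obtain ⟨b, hb, h⟩ := exists_simplex g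
  refine ⟨b, hb, fun x => ?_, ?_⟩
  · rw [← h]; rfl
  · have := cubeOf_homotopic hρ (mu_isFace n) b hb
    rw [h] at this
    exact this

/-- if the loop is a collapse, so is the simplex -/
theorem collapse_of_mu {n : ℕ} {b : C(Dlt n, Y)} {g : (Fin n → I) → Y} (hbg : ∀ x, b (mu n x) = g x)
    (hsurj : Function.Surjective g)
    (hinj : ∀ x x', g x = g x' → x = x' ∨
      (x ∈ Cube.boundary (Fin n) ∧ x' ∈ Cube.boundary (Fin n))) :
    Function.Surjective b ∧ ∀ p q : Dlt n, b p = b q → p = q ∨ ((∃ i, p i = 0) ∧ ∃ i, q i = 0) := by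
  constructor
  · intro z
    obtain ⟨x, rfl⟩ := hsurj z
    exact ⟨mu n x, hbg x⟩
  · intro p q h
    obtain ⟨x, rfl⟩ := mu_surj p
    obtain ⟨x', rfl⟩ := mu_surj q
    rw [hbg, hbg] at h
    rcases hinj x x' h with rfl | ⟨h1, h2⟩
    · exact Or.inl rfl
    · exact Or.inr ⟨(mu_mem_iff x).2 h1, (mu_mem_iff x').2 h2⟩

/-! ## faces -/

/-- a point with a zero coordinate lies on a face -/
theorem exists_face {n : ℕ} (s : Dlt (n + 1)) (i : Fin (n + 2)) (hi : s i = 0) :
    ∃ t : Dlt n, stdSimplex.map (i.succAbove) t = s := by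
  refine ⟨⟨fun j => s (i.succAbove j), fun j => s.2.1 _, ?_⟩, ?_⟩
  · have h1 : ∑ i, s i = 1 := stdSimplex.sum_eq_one s
    rw [Fin.sum_univ_succAbove _ i, hi, zero_add] at h1
    exact h1
  · apply Subtype.ext
    funext k
    show stdSimplex.map (i.succAbove) _ k = s k
    simp only [stdSimplex.map_coe, FunOnFinite.linearMap_apply_apply]
    by_cases hk : k = i
    · subst hk
      refine Eq.trans ?_ hi.symm
      refine Finset.sum_eq_zero fun j hj => ?_
      exact absurd (Finset.mem_filter.1 hj).2 (Fin.succAbove_ne _ _)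
    · obtain ⟨j, rfl⟩ := Fin.exists_succAbove_eq hk
      rw [Finset.sum_eq_single j]
      · rfl
      · intro j' hj' hne
        exact absurd (Fin.succAbove_right_injective (Finset.mem_filter.1 hj').2) hne
      · intro h
        exact absurd (by simp) h

theorem face_mem {n : ℕ} (t : Dlt n) (i : Fin (n + 2)) :
    stdSimplex.map (i.succAbove) t i = 0 := by
  simp only [stdSimplex.map_coe, FunOnFinite.linearMap_apply_apply]
  refine Finset.sum_eq_zero fun j hj => ?_
  exact absurd (Finset.mem_filter.1 hj).2 (Fin.succAbove_ne _ _)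

/-- spherical simplices = simplices constant on the boundary -/
theorem sph_iff {Y : Type} [TopologicalSpace Y] {y : Y} {n : ℕ} (b : C(Dlt (n + 1), Y)) :
    (∀ s ∈ bdD (n + 1), b s = y) ↔
      ∀ i : Fin (n + 2), (SS.Sing Y).act (Op.face i) b = (ContinuousMap.const _ y : C(Dlt n, Y)) := by
  constructor
  · intro h i
    refine ContinuousMap.ext fun t => ?_
    exact h _ ⟨i, face_mem t i⟩
  · rintro h s ⟨i, hi⟩
    obtain ⟨t, rfl⟩ := exists_face s i hi
    exact congrArg (fun f : C(Dlt n, Y) => f t) (h i)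

end Crest.Agent.R204.HDeg160
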