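import Mathlib
import Crest.Agent.R204.HMain_515
import Crest.Agent.R204.HIso_472
import Crest.Agent.R204.HDegF_160

/-!
# Row 204, block H, leaf DEG (helper160), part G

`Coll y w` : a map `Y × Y → W` which exhibits `W` as the smash product `Y ∧ Y` (instance:
`smashColl`, two cube spheres).  For a map of pairs `G : (I^k × I, bd) → (Y × Y, Y ∨ Y)` and a cube
sphere `R : CubeSphere (k+1) W`:

* `gLoop`   : the loop `π ∘ G` in `W`;
* `eqv`     : `Smash y y ≃ₐ SA' (Fin k)` (restriction along `I^(k+1) → W`);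
* `G_degree`: if `cls (gLoop G) = cls p ^ D` then `G^* Γ = D • eqv^* Γ` for every reduced `Γ`;
* `exists_degree_G` : the same integer `D` for the `F2` side.
-/

set_option autoImplicit false

open scoped unitInterval Topology Topology.Homotopy

namespace Crest.Agent.R204.HDeg160

open Crest.Agent.R204.Freud661 Crest.Agent.R204.CubeSph661
open Crest.Agent.R204.K357 Crest.Agent.R204.HInv313 Crest.Agent.R204.H472
open Crest.Agent.R204.HMain515 Crest.Agent.R204.HopfF2477 Crest.Agent.R204.SS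
open Crest.Agent.R204.HopfMap484 Crest.Agent.R204.Diag484

/-- `W` is the smash product of `(Y, y)` with itself -/
structure Coll {Y W : Type} [TopologicalSpace Y] [TopologicalSpace W] (y : Y) (w : W) where
  π : C(Y × Y, W)
  surj : Function.Surjective π
  pt_iff : ∀ z, π z = w ↔ z ∈ wedge y y
  inj : ∀ z z' : Y × Y, π z = π z' → z = z' ∨ (z ∈ wedge y y ∧ z' ∈ wedge y y)

/-- the smash product of a cube sphere with itself -/
noncomputable def smashColl {m : ℕ} {Y W : Type} [TopologicalSpace Y] [T2Space Y]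
    [TopologicalSpace W] (hm : 0 < m) (P : CubeSphere m Y) (R : CubeSphere (m + m) W) :
    Coll P.pt R.pt where
  π := smash P P R
  surj := smash_surjective P P R
  pt_iff z := smash_eq_pt_iff P P R hm hm z
  inj _ _ h := smash_inj P P R hm hm h

section

variable {k : ℕ} {Y W : Type} [TopologicalSpace Y] [CompactSpace Y] [TopologicalSpace W]
  [T2Space W] {y : Y} {w : W} (S : Coll y w)

/-- `C(W) ≃ Smash y y` -/
noncomputable def Coll.sE : C(W, ℂ) ≃ₐ[ℂ] Smash y y :=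
  (Collapse.top W w).trans (CR.comapEquiv S.π (fun z hz => (S.pt_iff z).2 hz) S.surj
    (fun z hz => (S.pt_iff z).1 hz) S.inj)

@[simp] theorem Coll.sE_apply (a : C(W, ℂ)) (z : Y × Y) :
    ((S.sE a : Smash y y) : C(Y × Y, ℂ)) z = a (S.π z) := rfl

/-- the loop in `W` of a map of pairs -/
noncomputable def Coll.gLoop (G : C((Fin k → I) × I, Y × Y))
    (hG : Set.MapsTo G (bdI (Fin k)) (wedge y y)) : Ω^ (Fin (k + 1)) W w :=
  ⟨(S.π.comp G).comp ⟨(H472.snocHomeo k).symm, (H472.snocHomeo k).symm.continuous⟩, fun x hx => by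
    refine (S.pt_iff _).2 (hG ?_)
    have := (snocHomeo_mem k ((H472.snocHomeo k).symm x)).2
    rw [Homeomorph.apply_symm_apply] at this
    exact this hx⟩

omit [CompactSpace Y] [T2Space W] in
theorem Coll.gLoop_snoc (G : C((Fin k → I) × I, Y × Y))
    (hG : Set.MapsTo G (bdI (Fin k)) (wedge y y)) (x : Fin k → I) (t : I) :
    S.gLoop G hG (Fin.snoc (α := fun _ => I) x t) = S.π (G (x, t)) := by
  show S.π (G ((H472.snocHomeo k).symm (H472.snocHomeo k (x, t)))) = _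
  rw [Homeomorph.symm_apply_apply]

/-- `G^*` -/
noncomputable def Coll.gSt (G : C((Fin k → I) × I, Y × Y))
    (hG : Set.MapsTo G (bdI (Fin k)) (wedge y y)) : Smash y y →ₐ[ℂ] SA' (Fin k) :=
  CR.comap G hG

theorem Coll.gSt_sE (G : C((Fin k → I) × I, Y × Y))
    (hG : Set.MapsTo G (bdI (Fin k)) (wedge y y)) (a : C(W, ℂ)) :
    Coll.gSt G hG (S.sE a) = snocEquiv k (pull (S.gLoop G hG) a) := by
  refine Subtype.ext (ContinuousMap.ext fun q => ?_)
  show a (S.π (G q)) = a (S.π (G ((H472.snocHomeo k).symm (H472.snocHomeo k q))))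
  rw [Homeomorph.symm_apply_apply]

end

section deg

variable {k : ℕ} {Y W : Type} [TopologicalSpace Y] [CompactSpace Y] [TopologicalSpace W]
  [T2Space W] {y : Y}

/-- a cube sphere of positive dimension as a collapse -/
def colR {k : ℕ} {W : Type} [TopologicalSpace W] (R : CubeSphere (k + 1) W) :
    Collapse (Fin (k + 1)) W R.pt where
  p := R.p
  surj := R.surj
  fib := R.inj
  bd x := ⟨fun h => R.mem_bdry_of_p_eq (by omega) h, fun h => R.bdry x h⟩

variable (R : CubeSphere (k + 1) W) (S : Coll y R.pt)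

/-- `Smash y y ≃ₐ SA' (Fin k)`: the identification of the sphere algebras -/
noncomputable def Coll.eqv : Smash y y ≃ₐ[ℂ] SA' (Fin k) :=
  (S.sE.symm.trans (colR R).equiv).trans (snocEquiv k)

theorem Coll.eqv_sE (a : C(W, ℂ)) : S.eqv R (S.sE a) = snocEquiv k (pull (pLoop R) a) := by
  show snocEquiv k ((colR R).equiv (S.sE.symm (S.sE a))) = _
  rw [AlgEquiv.symm_apply_apply]
  rfl

/-- `K0` of `sE` -/
noncomputable abbrev Coll.kE : KC C(W, ℂ) →+* KC (Smash y y) :=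
  KM (A := C(W, ℂ)) (B := Smash y y) (S.sE : C(W, ℂ) →ₐ[ℂ] Smash y y).toRingHom

/-- `K0` of `eqv` -/
noncomputable abbrev Coll.kEqv : KC (Smash y y) →+* KC (SA' (Fin k)) :=
  KM (A := Smash y y) (B := SA' (Fin k)) (S.eqv R : Smash y y →ₐ[ℂ] SA' (Fin k)).toRingHom

/-- base point of the smash product -/
noncomputable abbrev kSm (y : Y) : KC (Smash y y) →+* KC ℂ :=
  KM (A := Smash y y) (B := ℂ) (CR.ev (y, y) : Smash y y →ₐ[ℂ] ℂ).toRingHom

/-- **K-side degree of the Hopf map** -/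
theorem Coll.G_degree (G : C((Fin k → I) × I, Y × Y))
    (hG : Set.MapsTo G (bdI (Fin k)) (wedge y y)) (D : ℤ)
    (h : cls (S.gLoop G hG) = cls (pLoop R) ^ D) (Γ : KC (Smash y y)) (hΓ : kSm y Γ = 0) :
    KM (A := Smash y y) (B := SA' (Fin k)) (Coll.gSt G hG).toRingHom Γ = D • S.kEqv R Γ := by
  let x : KC C(W, ℂ) := KM (A := Smash y y) (B := C(W, ℂ))
    (S.sE.symm : Smash y y →ₐ[ℂ] C(W, ℂ)).toRingHom Γ
  have hx : S.kE R x = Γ :=
    (KM_comp (A := Smash y y) (B := C(W, ℂ)) (C := Smash y y) _ _ (RingHom.id _)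
      (fun a => S.sE.apply_symm_apply a) Γ).trans (KM_id _ (fun _ => rfl) Γ)
  have hx0 : resK R.pt x = 0 := by
    have a1 := KM_comp (A := C(W, ℂ)) (B := Smash y y) (C := ℂ)
      (S.sE : C(W, ℂ) →ₐ[ℂ] Smash y y).toRingHom
      (CR.ev (y, y) : Smash y y →ₐ[ℂ] ℂ).toRingHom
      (ContinuousMap.evalAlgHom ℂ ℂ R.pt : C(W, ℂ) →ₐ[ℂ] ℂ).toRingHom
      (fun a => congrArg a ((S.pt_iff (y, y)).2 (Or.inl rfl))) x
    rw [hx, hΓ] at a1
    exact a1.symm
  have key := k_degree x hx0 (pLoop R) (S.gLoop G hG) D h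
  have e1 : KM (A := Smash y y) (B := SA' (Fin k)) (Coll.gSt G hG).toRingHom Γ =
      KM (A := SA (Fin (k + 1))) (B := SA' (Fin k))
        (snocEquiv k : SA (Fin (k + 1)) →ₐ[ℂ] SA' (Fin k)).toRingHom
        (pullK (S.gLoop G hG) x) := by
    rw [← hx]
    have a1 := KM_comp (A := C(W, ℂ)) (B := Smash y y) (C := SA' (Fin k))
      (S.sE : C(W, ℂ) →ₐ[ℂ] Smash y y).toRingHom (Coll.gSt G hG).toRingHom
      ((Coll.gSt G hG).toRingHom.comp (S.sE : C(W, ℂ) →ₐ[ℂ] Smash y y).toRingHom)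
      (fun _ => rfl) x
    have a2 := KM_comp (A := C(W, ℂ)) (B := SA (Fin (k + 1))) (C := SA' (Fin k))
      (pull (S.gLoop G hG)).toRingHom
      (snocEquiv k : SA (Fin (k + 1)) →ₐ[ℂ] SA' (Fin k)).toRingHom
      ((Coll.gSt G hG).toRingHom.comp (S.sE : C(W, ℂ) →ₐ[ℂ] Smash y y).toRingHom)
      (fun a => (S.gSt_sE G hG a).symm) x
    exact a1.trans a2.symm
  have e2 : S.kEqv R Γ =
      KM (A := SA (Fin (k + 1))) (B := SA' (Fin k))
        (snocEquiv k : SA (Fin (k + 1)) →ₐ[ℂ] SA' (Fin k)).toRingHom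
        (pullK (pLoop R) x) := by
    rw [← hx]
    have a1 := KM_comp (A := C(W, ℂ)) (B := Smash y y) (C := SA' (Fin k))
      (S.sE : C(W, ℂ) →ₐ[ℂ] Smash y y).toRingHom
      (S.eqv R : Smash y y →ₐ[ℂ] SA' (Fin k)).toRingHom
      ((S.eqv R : Smash y y →ₐ[ℂ] SA' (Fin k)).toRingHom.comp
        (S.sE : C(W, ℂ) →ₐ[ℂ] Smash y y).toRingHom)
      (fun _ => rfl) x
    have a2 := KM_comp (A := C(W, ℂ)) (B := SA (Fin (k + 1))) (C := SA' (Fin k))
      (pull (pLoop R)).toRingHom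
      (snocEquiv k : SA (Fin (k + 1)) →ₐ[ℂ] SA' (Fin k)).toRingHom
      ((S.eqv R : Smash y y →ₐ[ℂ] SA' (Fin k)).toRingHom.comp
        (S.sE : C(W, ℂ) →ₐ[ℂ] Smash y y).toRingHom)
      (fun a => (S.eqv_sE R a).symm) x
    exact a1.trans a2.symm
  rw [e1, e2, key]
  exact map_zsmul _ D _

/-- **the Hopf map of helper484, K-side** -/
theorem Coll.kG_degree (P : CoP (Fin k → I) (Cube.boundary (Fin k))) (c : CoH Y y)
    (f : GenLoop (Fin k) Y y) (D : ℤ)
    (h : cls (S.gLoop (G P c (f : C(Fin k → I, Y))) (G_mapsTo P c _ (f_bd f))) =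
      cls (pLoop R) ^ D) (Γ : KC (Smash y y)) (hΓ : kSm y Γ = 0) :
    kG P c f Γ = D • S.kEqv R Γ :=
  S.G_degree R (G P c (f : C(Fin k → I, Y))) (G_mapsTo P c _ (f_bd f)) D h Γ hΓ

/-- **degree theorem for the Hopf map**: one integer for homotopy, `K0` and `H(-; F2)`. -/
theorem Coll.exists_degree_G (𝒞 : Cross) (P : CoP (Fin k → I) (Cube.boundary (Fin k)))
    (c : CoH Y y) (f : GenLoop (Fin k) Y y) :
    ∃ D : ℤ, cls (S.gLoop (G P c (f : C(Fin k → I, Y))) (G_mapsTo P c _ (f_bd f))) =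
        cls (pLoop R) ^ D ∧
      (∀ Γ : KC (Smash y y), kSm y Γ = 0 → kG P c f Γ = D • S.kEqv R Γ) ∧
      zcls 𝒞 (S.gLoop (G P c (f : C(Fin k → I, Y))) (G_mapsTo P c _ (f_bd f))) =
        D • zcls 𝒞 (pLoop R) := by
  obtain ⟨D, hD⟩ := cube_gen k R
    (S.gLoop (G P c (f : C(Fin k → I, Y))) (G_mapsTo P c _ (f_bd f)))
  exact ⟨D, hD, fun Γ hΓ => S.kG_degree R P c f D hD Γ hΓ, zcls_degree 𝒞 _ _ D hD⟩

end deg

end Crest.Agent.R204.HDeg160
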