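import Crest.Agent.R204.HIso_472
import Crest.Agent.R204.HCore_472
import Crest.Agent.R204.KPt_472

/-!
# Row 204, block H: SPEC of the K-theory side (captain helper472)

All leaves of the K-side as structures / Props on the frozen models.
The function algebras are wrapped in irreducible-looking `def`s (`Fn X A` = `CR X A`, `Fc Y` = `C(Y, ℂ)`,
`Cone y f` = `ConeAlg y f`) with their own instances: this keeps type class inference fast.
-/

set_option autoImplicit false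

open scoped unitInterval Topology Topology.Homotopy

noncomputable section

namespace Crest.Agent.R204.H472

open K357

/-! ### wrapped algebras -/

/-- functions on `X` constant on `A` -/
def Fn (X : Type) [TopologicalSpace X] (A : Set X) : Type := ↥(CR X A)

instance (X : Type) [TopologicalSpace X] (A : Set X) : CommRing (Fn X A) :=
  inferInstanceAs (CommRing ↥(CR X A))

instance (X : Type) [TopologicalSpace X] (A : Set X) : Algebra ℂ (Fn X A) :=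
  inferInstanceAs (Algebra ℂ ↥(CR X A))

/-- functions on `Y` -/
def Fc (Y : Type) [TopologicalSpace Y] : Type := C(Y, ℂ)

instance (Y : Type) [TopologicalSpace Y] : CommRing (Fc Y) := inferInstanceAs (CommRing C(Y, ℂ))

instance (Y : Type) [TopologicalSpace Y] : Algebra ℂ (Fc Y) := inferInstanceAs (Algebra ℂ C(Y, ℂ))

/-- functions on the mapping cone -/
def Cone {N : Type} {Y : Type} [TopologicalSpace Y] (y : Y) (f : GenLoop N Y y) : Type :=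
  ↥(ConeAlg y f)

instance {N : Type} {Y : Type} [TopologicalSpace Y] (y : Y) (f : GenLoop N Y y) :
    CommRing (Cone y f) := inferInstanceAs (CommRing ↥(ConeAlg y f))

instance {N : Type} {Y : Type} [TopologicalSpace Y] (y : Y) (f : GenLoop N Y y) :
    Algebra ℂ (Cone y f) := inferInstanceAs (Algebra ℂ ↥(ConeAlg y f))

section maps

variable {X Y Z : Type} [TopologicalSpace X] [TopologicalSpace Y] [TopologicalSpace Z]
  {A : Set X} {B : Set Y}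

def Fn.comap (g : C(X, Y)) (hg : Set.MapsTo g A B) : Fn Y B →ₐ[ℂ] Fn X A := CR.comap g hg

def Fn.ev (x : X) : Fn X A →ₐ[ℂ] ℂ := CR.ev x

def Fn.val : Fn X A →ₐ[ℂ] Fc X := (CR X A).val

def Fc.comap (g : C(X, Y)) : Fc Y →ₐ[ℂ] Fc X := ContinuousMap.compRightAlgHom ℂ ℂ g

def Fc.ev (x : X) : Fc X →ₐ[ℂ] ℂ := ContinuousMap.evalAlgHom ℂ ℂ x

variable {N : Type} {y : Y} {f : GenLoop N Y y}

def Cone.res : Cone y f →ₐ[ℂ] Fc Y := ConeAlg.res

def Cone.ev : Cone y f →ₐ[ℂ] ℂ := (Fc.ev y).comp Cone.res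

def Cone.q (x₀ : N → I) : Fn ((N → I) × I) (bdI N) →ₐ[ℂ] Cone y f := ConeAlg.q x₀

end maps

/-! ### K -/

/-- `K₀` on algebra homomorphisms -/
def KM {A B : Type} [CommRing A] [CommRing B] [Algebra ℂ A] [Algebra ℂ B] (φ : A →ₐ[ℂ] B) :
    K0 A →+* K0 B := K0.mapRing (φ : A →+* B)

theorem KM_comp {A B C : Type} [CommRing A] [CommRing B] [CommRing C] [Algebra ℂ A] [Algebra ℂ B]
    [Algebra ℂ C] (ψ : B →ₐ[ℂ] C) (φ : A →ₐ[ℂ] B) (x : K0 A) : KM (ψ.comp φ) x = KM ψ (KM φ x) :=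
  K0.map_comp (ψ : B →+* C) (φ : A →+* B) x

theorem KM_id {A : Type} [CommRing A] [Algebra ℂ A] (x : K0 A) : KM (AlgHom.id ℂ A) x = x :=
  K0.map_id x

/-- H1: Adams operations -/
structure Adams where
  psi2 : ∀ (A : Type) [CommRing A] [Algebra ℂ A], K0 A →+* K0 A
  psi3 : ∀ (A : Type) [CommRing A] [Algebra ℂ A], K0 A →+* K0 A
  nat2 : ∀ {A B : Type} [CommRing A] [CommRing B] [Algebra ℂ A] [Algebra ℂ B] (φ : A →ₐ[ℂ] B)
    (x : K0 A), psi2 B (KM φ x) = KM φ (psi2 A x)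
  nat3 : ∀ {A B : Type} [CommRing A] [CommRing B] [Algebra ℂ A] [Algebra ℂ B] (φ : A →ₐ[ℂ] B)
    (x : K0 A), psi3 B (KM φ x) = KM φ (psi3 A x)
  comm : ∀ {A : Type} [CommRing A] [Algebra ℂ A] (x : K0 A), psi2 A (psi3 A x) = psi3 A (psi2 A x)
  sq : ∀ {A : Type} [CommRing A] [Algebra ℂ A] (x : K0 A), ∃ s, psi2 A x = x ^ 2 + 2 * s

/-- the sphere `S^n = I^n / bd` -/
abbrev SK (n : ℕ) : Type := Fn (Fin n → I) (Cube.boundary (Fin n))

/-- the sphere `S^{n+1} = (I^n × I) / bd` -/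
abbrev SK' (n : ℕ) : Type := Fn ((Fin n → I) × I) (bdI (Fin n))

/-- the base point of a sphere algebra: evaluation at the corner `0` -/
def ev0 (n : ℕ) : SK n →ₐ[ℂ] ℂ := Fn.ev (0 : Fin n → I)

def ev0' (n : ℕ) : SK' n →ₐ[ℂ] ℂ := Fn.ev ((0, 0) : (Fin n → I) × I)

/-- functions on the smash product -/
abbrev Sm {Y Z : Type} [TopologicalSpace Y] [TopologicalSpace Z] (y : Y) (z : Z) : Type :=
  Fn (Y × Z) (wedge y z)

/-- `π₁^* x · π₂^* x'` in `K(Y × Z)` -/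
def boxK {Y Z : Type} [TopologicalSpace Y] [TopologicalSpace Z] (x : K0 (Fc Y)) (x' : K0 (Fc Z)) :
    K0 (Fc (Y × Z)) :=
  KM (Fc.comap (ContinuousMap.fst : C(Y × Z, Y))) x * KM (Fc.comap (ContinuousMap.snd : C(Y × Z, Z))) x'

/-- a collapse map identifies the algebra of the sphere with `C(Y)` -/
def Collapse.eq {n : ℕ} {Y : Type} [TopologicalSpace Y] [T2Space Y] {y : Y}
    (c : Collapse (Fin n) Y y) : Fc Y ≃ₐ[ℂ] SK n := c.equiv

/-- transport a class of the sphere algebra to a space with a collapse map -/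
def Collapse.tr {n : ℕ} {Y : Type} [TopologicalSpace Y] [T2Space Y] {y : Y}
    (c : Collapse (Fin n) Y y) (x : K0 (SK n)) : K0 (Fc Y) := KM (c.eq.symm : SK n →ₐ[ℂ] Fc Y) x

/-- H5: K-theory of the spheres `S^{2a}`, `a ≥ 1` (Bott periodicity) -/
structure SphereK (Ad : Adams) where
  b : ∀ a : ℕ, K0 (SK (2 * a))
  red : ∀ a, 1 ≤ a → KM (ev0 (2 * a)) (b a) = 0
  free : ∀ a, 1 ≤ a → ∀ n : ℤ, n • b a = 0 → n = 0
  gen : ∀ a, 1 ≤ a → ∀ x : K0 (SK (2 * a)), KM (ev0 (2 * a)) x = 0 → ∃ n : ℤ, x = n • b a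
  psi2b : ∀ a, 1 ≤ a → Ad.psi2 (SK (2 * a)) (b a) = (2 : ℤ) ^ a • b a
  psi3b : ∀ a, 1 ≤ a → Ad.psi3 (SK (2 * a)) (b a) = (3 : ℤ) ^ a • b a
  /-- the external square of the generator generates `K̃(S^{2a} ∧ S^{2a})` -/
  smash : ∀ a, 1 ≤ a → ∀ (Y : Type) [TopologicalSpace Y] [CompactSpace Y] [T2Space Y] (y : Y)
    (c : Collapse (Fin (2 * a)) Y y) (Γ : K0 (Sm y y)),
    KM (Fn.val : Sm y y →ₐ[ℂ] Fc (Y × Y)) Γ = boxK (c.tr (b a)) (c.tr (b a)) →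
    ∀ z : K0 (Sm y y), KM (Fn.ev (y, y) : Sm y y →ₐ[ℂ] ℂ) z = 0 → ∃ n : ℤ, z = n • Γ

/-- H4: exactness for the mapping cone of `f : (I^N, bd) → (Y, y)` -/
structure ConeK {N : ℕ} {Y : Type} [TopologicalSpace Y] {y : Y} (f : GenLoop (Fin N) Y y) : Prop where
  /-- (E5) -/
  ex : ∀ x : K0 (Cone y f), KM (Cone.res : Cone y f →ₐ[ℂ] Fc Y) x = 0 →
    ∃ s : K0 (SK' N), KM (ev0' N) s = 0 ∧ KM (Cone.q 0 : SK' N →ₐ[ℂ] Cone y f) s = x
  /-- (E3) -/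
  surj : ∀ t : K0 (Fc Y), KM (Fc.ev y) t = 0 →
    ∃ x : K0 (Cone y f), KM (Cone.res : Cone y f →ₐ[ℂ] Fc Y) x = t
  /-- (E4) -/
  inj : ∀ s : K0 (SK' N), KM (ev0' N) s = 0 → KM (Cone.q 0 : SK' N →ₐ[ℂ] Cone y f) s = 0 → s = 0

/-- the pull-back `G^* : C(Y ∧ Y) → C(S^{N+1})` for `G : (I^N × I, bd) → (Y × Y, Y ∨ Y)` -/
def Gstar {N : ℕ} {Y : Type} [TopologicalSpace Y] {y : Y} (G : C((Fin N → I) × I, Y × Y))
    (hG : Set.MapsTo G (bdI (Fin N)) (wedge y y)) : Sm y y →ₐ[ℂ] SK' N := Fn.comap G hG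

/-- H6: (SQ) squares in the mapping cone are computed by `G` (484's Hopf map `H(f)`) -/
def SQ {N : ℕ} {Y : Type} [TopologicalSpace Y] {y : Y} (f : GenLoop (Fin N) Y y)
    (G : C((Fin N → I) × I, Y × Y)) (hG : Set.MapsTo G (bdI (Fin N)) (wedge y y)) : Prop :=
  ∀ x : K0 (Cone y f), KM (Cone.ev : Cone y f →ₐ[ℂ] ℂ) x = 0 → ∃ Γ : K0 (Sm y y),
    KM (Fn.ev (y, y) : Sm y y →ₐ[ℂ] ℂ) Γ = 0 ∧
    KM (Fn.val : Sm y y →ₐ[ℂ] Fc (Y × Y)) Γ =
      boxK (KM (Cone.res : Cone y f →ₐ[ℂ] Fc Y) x) (KM (Cone.res : Cone y f →ₐ[ℂ] Fc Y) x) ∧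
    x ^ 2 = KM (Cone.q 0 : SK' N →ₐ[ℂ] Cone y f) (KM (Gstar G hG) Γ)

/-- H7: the K-degree of `G` is `D`: relative to some isomorphism `e` of the algebras of `Y ∧ Y` and `S^{N+1}`
compatible with the base points. -/
def DEGK {N : ℕ} {Y : Type} [TopologicalSpace Y] {y : Y}
    (G : C((Fin N → I) × I, Y × Y)) (hG : Set.MapsTo G (bdI (Fin N)) (wedge y y)) (D : ℤ) : Prop :=
  ∃ e : Sm y y ≃ₐ[ℂ] SK' N, (∀ a : Sm y y, ev0' N (e a) = (Fn.ev (y, y) : Sm y y →ₐ[ℂ] ℂ) a) ∧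
    ∀ Γ : K0 (Sm y y), KM (Fn.ev (y, y) : Sm y y →ₐ[ℂ] ℂ) Γ = 0 →
      KM (Gstar G hG) Γ = D • KM (e : Sm y y →ₐ[ℂ] SK' N) Γ

end Crest.Agent.R204.H472
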