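import Crest.Agent.R204.HopfLow_478
import Crest.Agent.R204.InstSp_194
import Crest.Agent.R204.AdjC_330
import Crest.Agent.R204.FreuT_297

/-!
# Row 204, H11 (helper478): spherical classes go up by `σ` and down by Freudenthal
-/

set_option autoImplicit false

open scoped TensorProduct Topology unitInterval Topology.Homotopy

namespace Crest.Agent.R204.Hopf11

open Crest.Agent.R204 Cone330 SphSS478 HspSS696 Cubes735 Hsp696 Freu297 HopfLow478 Sus330 Inst194
  Sus330.LoopStr

section Sigma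

variable {P Y : Type} [TopologicalSpace P] [TopologicalSpace Y] {g0 : P} {y0 : Y}

/-- homotopic relative to the boundary ⇒ same class -/
theorem scl_eq_of_rel {e : ℕ} (a a' : (SS.Sing P).S (e + 1))
    (ha : IsSph (K := SS.Sing P) (cY g0 0) a) (ha' : IsSph (K := SS.Sing P) (cY g0 0) a')
    (h : ContinuousMap.HomotopicRel (sg a) (sg a') (Bdy (e + 1))) : scl a ha = scl a' ha' := by
  obtain ⟨H⟩ := h
  obtain ⟨w, -, hw⟩ := exists_chain_homotopy F2 a a' H.toContinuousMap
    (fun u => H.map_zero_left u) (fun u => H.map_one_left u) (fun r u hu =>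
      (H.eq_fst r hu).trans ((isSph_iff g0 a).1 ha u hu))
  refine Hd.mk_eq_mk.2 ⟨-w, ?_⟩
  rw [map_neg, hw, neg_sub]

/-- **`σ` of a spherical class is a spherical class** -/
theorem sigma_scl (Λ : LoopStr P Y g0 y0) {e : ℕ} (a : (SS.Sing P).S (e + 1))
    (ha : IsSph (K := SS.Sing P) (cY g0 0) a) :
    ∃ (x : (SS.Sing Y).S (e + 1 + 1)) (hx : IsSph (K := SS.Sing Y) (cY y0 0) x),
      Λ.sigma (scl a ha) = scl x hx := by
  obtain ⟨x, a', hx, ha', h1, h2⟩ := Λ.exists_adj_chain a ha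
  obtain ⟨w, -, hw⟩ := h2 F2
  refine ⟨x, hx, ?_⟩
  have e1 : scl a ha = scl a' ha' := by
    refine Hd.mk_eq_mk.2 ⟨-w, ?_⟩
    rw [map_neg, hw, neg_sub]
  rw [e1]
  refine Hd.mk_eq_mk.2 ⟨0, ?_⟩
  rw [map_zero]
  exact (sub_eq_zero.2 (h1 F2)).symm

end Sigma

/-- spherical classes stay spherical in the concrete tower -/
theorem exists_sph_chain {J0 K : ℕ} (h : ∀ k, H F2 (XS J0 K k))
    (hs : ∀ k (hk : k < K), h (k + 1) = (loopX J0 hk).sigma (h k)) {e : ℕ}
    (a : (XS J0 K 0).S (e + 1)) (ha : IsSph (K := XS J0 K 0) (cY GenLoop.const 0) a)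
    (h0 : h 0 = scl a ha) : ∀ k, k ≤ K → ∃ (x : (XS J0 K k).S (e + k + 1))
      (hx : IsSph (K := XS J0 K k) (cY GenLoop.const 0) x), h k = scl x hx := by
  intro k
  induction k with
  | zero => intro _; exact ⟨a, ha, h0⟩
  | succ k ih =>
    intro hk
    obtain ⟨x, hx, hxe⟩ := ih (by omega)
    obtain ⟨y, hy, hye⟩ := sigma_scl (loopX J0 (show k < K by omega)) x hx
    exact ⟨y, hy, by rw [hs k (by omega), hxe, hye]⟩

/-! ## Freudenthal -/

/-- one step down -/
theorem lift_step {e n J : ℕ} (hq : e + 1 + J + 2 < 2 * (n + 1))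
    (a : (SS.Sing (Om (Fin (J + 1)) (Sph (n + 1)) (pt (n + 1)))).S (e + 1))
    (ha : IsSph (K := SS.Sing (Om (Fin (J + 1)) (Sph (n + 1)) (pt (n + 1)))) (cY GenLoop.const 0) a) :
    ∃ (b : (SS.Sing (Om (Fin J) (Sph n) (pt n))).S (e + 1))
      (hb : IsSph (K := SS.Sing (Om (Fin J) (Sph n) (pt n))) (cY GenLoop.const 0) b),
      scl a ha = H.map F2 (SS.SingMap (susp n J)) (scl b hb) := by
  have ha' := (isSph_iff GenLoop.const a).1 ha
  obtain ⟨b, hb⟩ := step_simplex_rel hq (sg a) (fun x hx => by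
    refine ⟨GenLoop.const, ?_⟩
    rw [susp_const]
    exact (ha' x hx).symm)
  have hbs : IsSph (K := SS.Sing (Om (Fin J) (Sph n) (pt n))) (cY GenLoop.const 0) b := by
    refine (isSph_iff GenLoop.const b).2 fun v hv => ?_
    apply susp_injective
    rw [susp_const]
    obtain ⟨Hh⟩ := hb
    have h1 := Hh.eq_fst 1 hv
    exact ((Hh.map_one_left v).symm.trans h1).trans (ha' v hv)
  refine ⟨b, hbs, ?_⟩
  have hc : (SS.SingMap (susp n J)).app 0 (cY GenLoop.const 0) = cY GenLoop.const 0 := by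
    refine ContinuousMap.ext fun u => ?_
    exact susp_const n J
  rw [map_scl (SS.SingMap (susp n J)) hc hbs]
  exact scl_eq_of_rel a _ ha _ hb

end Crest.Agent.R204.Hopf11
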