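import Crest.Agent.R204.Hopf11a_478

/-!
# Row 204, H11 (helper478): the suspension maps are multiplicative; the iterated suspension
`Ω S^m → Ω^{J+1} S^{m+J}`
-/

set_option autoImplicit false

open scoped TensorProduct Topology unitInterval Topology.Homotopy

namespace Crest.Agent.R204.Hopf11

open Crest.Agent.R204 Cone330 SphSS478 HspSS696 Cubes735 Hsp696 Freu297 HopfLow478 Sus330 Inst194
  Sus330.LoopStr

/-- `E(-, s) : S^n → S^{n+1}` -/
noncomputable def Es (n : ℕ) (s : I) : C(Sph n, Sph (n + 1)) :=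
  ⟨fun y => (sphDbl n).E (pt n : Sph n) (y, s),
    ((sphDbl n).E _).continuous.comp (continuous_id.prodMk continuous_const)⟩

theorem Es_pt (n : ℕ) (s : I) : Es n s (pt n) = pt (n + 1) := by
  show (sphDbl n).E _ (pt n, s) = pt (n + 1)
  rw [← pt_succ]
  exact (sphDbl n).E_base (norm_pt n) _ _

theorem ev_susp (n J : ℕ) (s : I) (β : Om (Fin J) (Sph n) (pt n)) :
    Cubes735.ev s (susp n J β) = Cubes735.GenLoop.map (Es n s) (Es_pt n s) β := by
  refine GenLoop.ext _ _ fun t => ?_
  rw [ev_apply, susp_apply, Fin.init_snoc, Fin.snoc_last]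
  rfl

/-- **the suspension map is strictly multiplicative** -/
theorem susp_mu {n J : ℕ} (c : BoxConf (Fin 2) (Fin J)) (x : Fin 2 → Om (Fin J) (Sph n) (pt n)) :
    susp n J (mu c x) = mu (ext1 c) (fun v => susp n J (x v)) := by
  apply (genLoop J).inj
  intro s
  show Cubes735.ev s _ = Cubes735.ev s _
  rw [ev_susp, ev_mu_ext1, ← mu_map]
  congr 1
  funext v
  exact (ev_susp n J s (x v)).symm

theorem susp_mulS {n J : ℕ} (c : BoxConf (Fin 2) (Fin J)) :
    (SS.SingMap (susp n J)).comp (mulS c) =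
      (mulS (ext1 c)).comp (SS.prodMap (SS.SingMap (susp n J)) (SS.SingMap (susp n J))) := by
  apply Hom.ext'
  rintro N ⟨x, y⟩
  refine SingAct265.sing_ext fun t => ?_
  show susp n J (mu c ![SingAct265.ev x t, SingAct265.ev y t]) =
    mu (ext1 c) ![susp n J (SingAct265.ev x t), susp n J (SingAct265.ev y t)]
  rw [susp_mu]
  congr 1
  funext v
  fin_cases v <;> rfl

/-- multiplicative maps and products of classes -/
theorem map_pm {K L : SS} (f : SS.Hom K L) (m : SS.Hom (K.prod K) K) (m' : SS.Hom (L.prod L) L)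
    (h : H.map F2 (f.comp m) = H.map F2 (m'.comp (SS.prodMap f f))) (x y : H F2 K) :
    H.map F2 f (HopfLow478.pm m x y) = HopfLow478.pm m' (H.map F2 f x) (H.map F2 f y) := by
  rw [HopfLow478.pm, HopfLow478.pm, ← Coalg847.hMap_comp, h, Coalg847.hMap_comp, Coalg847.EZData.cr_nat]

/-! ## the iterated suspension -/

/-- `Ω S^m → Ω^{J+1} S^{m+J}` -/
noncomputable def EE (m : ℕ) : (J : ℕ) → C(OmS m, Om (Fin (J + 1)) (Sph (m + J)) (pt (m + J)))
  | 0 => ContinuousMap.id _
  | J + 1 => (susp (m + J) (J + 1)).comp (EE m J)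

/-- the configuration `halves 0` on the first coordinate -/
noncomputable def cc : (J : ℕ) → BoxConf (Fin 2) (Fin (J + 1))
  | 0 => halves (0 : Fin 1)
  | J + 1 => ext1 (cc J)

theorem EE_const (m J : ℕ) : EE m J GenLoop.const = GenLoop.const := by
  induction J with
  | zero => rfl
  | succ J ih =>
    show susp (m + J) (J + 1) (EE m J GenLoop.const) = _
    rw [ih]
    exact susp_const _ _

theorem EE_mulS (m J : ℕ) : (SS.SingMap (EE m J)).comp (mulS (halves (0 : Fin 1))) =
    (mulS (cc J)).comp (SS.prodMap (SS.SingMap (EE m J)) (SS.SingMap (EE m J))) := by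
  induction J with
  | zero => rfl
  | succ J ih =>
    have h1 : SS.SingMap (EE m (J + 1)) =
        (SS.SingMap (susp (m + J) (J + 1))).comp (SS.SingMap (EE m J)) := rfl
    have h2 := susp_mulS (n := m + J) (cc J)
    have h3 : (SS.SingMap (EE m (J + 1))).comp (mulS (halves (0 : Fin 1))) =
      (SS.SingMap (susp (m + J) (J + 1))).comp ((SS.SingMap (EE m J)).comp
        (mulS (halves (0 : Fin 1)))) := rfl
    rw [h3, ih]
    have h4 : (SS.SingMap (susp (m + J) (J + 1))).comp ((mulS (cc J)).comp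
        (SS.prodMap (SS.SingMap (EE m J)) (SS.SingMap (EE m J)))) =
        ((SS.SingMap (susp (m + J) (J + 1))).comp (mulS (cc J))).comp
        (SS.prodMap (SS.SingMap (EE m J)) (SS.SingMap (EE m J))) := rfl
    rw [h4, h2]
    rfl

theorem EE_pm (m J : ℕ) (x y : H F2 (SS.Sing (OmS m))) :
    H.map F2 (SS.SingMap (EE m J)) (HopfLow478.pm (mulS (halves (0 : Fin 1))) x y) =
      HopfLow478.pm (mulS (cc J)) (H.map F2 (SS.SingMap (EE m J)) x) (H.map F2 (SS.SingMap (EE m J)) y) :=
  map_pm _ _ _ (by rw [EE_mulS]) x y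

theorem EE_succ (m J : ℕ) (x : H F2 (SS.Sing (OmS m))) :
    H.map F2 (SS.SingMap (EE m (J + 1))) x =
      H.map F2 (SS.SingMap (susp (m + J) (J + 1))) (H.map F2 (SS.SingMap (EE m J)) x) :=
  Coalg847.hMap_comp (SS.SingMap (susp (m + J) (J + 1))) (SS.SingMap (EE m J)) x

theorem EE_zero (m : ℕ) (x : H F2 (SS.Sing (OmS m))) :
    H.map F2 (SS.SingMap (EE m 0)) x = x := by
  have : SS.SingMap (EE m 0) = SS.Hom.id (SS.Sing (OmS m)) := singMap_id
  rw [this]
  exact Coalg847.hMap_id x

/-- **Freudenthal**: spherical classes of dimension `q ≤ 2m - 2` come from `Ω S^m` -/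
theorem lift_all {e m : ℕ} (he : e + 3 ≤ 2 * m) (J : ℕ) :
    ∀ (a : (SS.Sing (Om (Fin (J + 1)) (Sph (m + J)) (pt (m + J)))).S (e + 1))
    (ha : IsSph (K := SS.Sing (Om (Fin (J + 1)) (Sph (m + J)) (pt (m + J))))
      (cY GenLoop.const 0) a),
    ∃ (b : (SS.Sing (OmS m)).S (e + 1)) (hb : IsSph (K := SS.Sing (OmS m)) (cY GenLoop.const 0) b),
      scl a ha = H.map F2 (SS.SingMap (EE m J)) (scl b hb) := by
  induction J with
  | zero =>
    intro a ha
    have a2 : IsSph (K := SS.Sing (OmS m)) (cY GenLoop.const 0) a := ha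
    have h1 := EE_zero m (scl a a2)
    refine ⟨a, a2, ?_⟩
    exact h1.symm
  | succ J ih =>
    intro a ha
    obtain ⟨a', ha', h1⟩ := lift_step (n := m + J) (J := J + 1) (by omega) a ha
    obtain ⟨b, hb, h2⟩ := ih a' ha'
    have h3 : scl a ha = H.map F2 (SS.SingMap (susp (m + J) (J + 1)))
        (H.map F2 (SS.SingMap (EE m J)) (scl b hb)) := h1.trans (congrArg _ h2)
    exact ⟨b, hb, h3.trans (EE_succ m J _).symm⟩

end Crest.Agent.R204.Hopf11
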