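import Crest.Agent.R204.Hopf4i_450
import Crest.Agent.R204.Spec_114

/-!
# Row 204, A4p (helper450): from families of H-monoids to `Spec114.Tower`

* `TD E` : the data, stated on `H F2 (K k)` with `mulL`; `TD.tower : Spec114.Tower`;
* `TD.factGr`, `TD.factEps`, `TD.factDelta` : proved;
* `NatOp` : natural operations with an external Cartan formula; `NatOp.mulL`, `NatOp.cop`,
  `TD.factSq`.
-/

set_option autoImplicit false
set_option linter.style.haveILetI false

open scoped TensorProduct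

noncomputable section

namespace Crest.Agent.R204.Hopf450

open Coalg847 TensorProduct

/-! ## natural operations with a Cartan formula -/

/-- a sequence of operations satisfying naturality and the external Cartan formula -/
structure NatOp (E : EZData) (S : ∀ K : SS, ℕ → (H F2 K →ₗ[F2] H F2 K)) : Prop where
  nat : ∀ {K L : SS} (f : SS.Hom K L) (a : ℕ) (x : H F2 K), H.map F2 f (S K a x) = S L a (H.map F2 f x)
  cartan : ∀ {K L : SS} (a : ℕ) (x : H F2 K) (y : H F2 L), S (K.prod L) a (E.cr K L (x ⊗ₜ y)) =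
    ∑ p ∈ Finset.HasAntidiagonal.antidiagonal a, E.cr K L (S K p.1 x ⊗ₜ S L p.2 y)

namespace NatOp

variable {E : EZData} {S : ∀ K : SS, ℕ → (H F2 K →ₗ[F2] H F2 K)} (h : NatOp E S)

include h

/-- Cartan formula on the tensor product -/
theorem cartan' {K L : SS} (a : ℕ) (t : H F2 K ⊗[F2] H F2 L) : S (K.prod L) a (E.cr K L t) =
    ∑ p ∈ Finset.HasAntidiagonal.antidiagonal a, E.cr K L (TensorProduct.map (S K p.1) (S L p.2) t) := by
  induction t with
  | zero => simp
  | add u v hu hv => simp only [map_add, hu, hv, Finset.sum_add_distrib]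
  | tmul u v => rw [h.cartan]; rfl

/-- Cartan formula for an arbitrary pairing -/
theorem pairing {K L J : SS} (m : SS.Hom (K.prod L) J) (a : ℕ) (x : H F2 K) (y : H F2 L) :
    S J a (H.map F2 m (E.cr K L (x ⊗ₜ y))) =
      ∑ p ∈ Finset.HasAntidiagonal.antidiagonal a,
        H.map F2 m (E.cr K L (S K p.1 x ⊗ₜ S L p.2 y)) := by
  rw [← h.nat, h.cartan, map_sum]

/-- Cartan formula for the Pontryagin product -/
theorem mulL {K : SS} (M : HMon K) (a : ℕ) (x y : H F2 K) :
    S K a (M.mulL E x y) =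
      ∑ p ∈ Finset.HasAntidiagonal.antidiagonal a, M.mulL E (S K p.1 x) (S K p.2 y) :=
  h.pairing M.mu a x y

/-- Cartan formula for the coproduct -/
theorem cop {K : SS} (a : ℕ) (x : H F2 K) :
    E.cop K (S K a x) = ∑ p ∈ Finset.HasAntidiagonal.antidiagonal a,
      TensorProduct.map (S K p.1) (S K p.2) (E.cop K x) := by
  apply (E.cr K K).injective
  rw [E.cr_cop, h.nat, ← E.cr_cop, h.cartan', map_sum]

end NatOp

/-! ## the tower -/

/-- data of the tower, instance free -/
structure TD (E : EZData) where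
  K : ℕ → SS
  M : ∀ k, HMon (K k)
  Sq : ∀ k, ℕ → (H F2 (K k) →ₗ[F2] H F2 (K k))
  T : ∀ k, ℕ → (H F2 (K k) →ₗ[F2] H F2 (K k))
  Q : ∀ k, ℕ → H F2 (K k) → H F2 (K k)
  sg : ∀ k, H F2 (K k) →ₗ[F2] H F2 (K (k + 1))
  x : ∀ k, H F2 (K k)
  xinv : H F2 (K 0)
  base : Submodule F2 (H F2 (K 0))
  one_base : vtx (M 0).e ∈ base
  mul_base : ∀ a b, a ∈ base → b ∈ base → (M 0).mulL E a b ∈ base

namespace TD

variable {E : EZData} (X : TD E)

/-- **the tower** -/
def tower : Spec114.Tower where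
  H k := H F2 (X.K k)
  ring k := (X.M k).ring E
  alg k := (X.M k).alg E
  gr k := H.gr F2 (X.K k)
  Δ k := (X.M k).copA E
  ε k := (X.M k).epsA E
  Sq := X.Sq
  T := X.T
  Q := X.Q
  σ := X.sg
  x := X.x
  xinv := X.xinv
  base := letI := (X.M 0).ring E; letI := (X.M 0).alg E
    { carrier := X.base
      mul_mem' := fun {a b} ha hb => X.mul_base a b ha hb
      add_mem' := fun {a b} ha hb => X.base.add_mem ha hb
      algebraMap_mem' := fun r => by
        rw [Algebra.algebraMap_eq_smul_one]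
        exact X.base.smul_mem r X.one_base }

theorem mem_base {y : H F2 (X.K 0)} : (show X.tower.H 0 from y) ∈ X.tower.base ↔ y ∈ X.base := Iff.rfl

theorem factGr (D : ℕ) : X.tower.FactGr D := fun k _ =>
  ⟨isInternal (X.K k), vtx_mem_gr _, fun _ _ _ _ ha hb => (X.M k).mulL_mem_gr E ha hb⟩

theorem factEps (D : ℕ) : X.tower.FactEps D := fun k _ t ht _ hy =>
  Coalg847.eps_gr (K := X.K k) (n := t) (by omega) hy

theorem factDelta (D : ℕ) : X.tower.FactDelta D := fun k _ =>
  ⟨fun y => E.eps_cop (K := X.K k) y, fun y => E.cop_eps (K := X.K k) y,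
    fun _ _ hy => E.cop_mem_gr (K := X.K k) isInternal hy⟩

/-- `FactSq` from the Steenrod operations on all simplicial sets -/
theorem factSq (D : ℕ) (S : ∀ K : SS, ℕ → (H F2 K →ₗ[F2] H F2 K)) (hS : NatOp E S)
    (hX : ∀ k, X.Sq k = S (X.K k))
    (h0 : ∀ (K : SS) (y : H F2 K), S K 0 y = y)
    (hd : ∀ (K : SS) (a t : ℕ), ∀ y ∈ H.gr F2 K t, S K a y ∈ H.gr F2 K (t - a))
    (hi : ∀ (K : SS) (a t : ℕ), ∀ y ∈ H.gr F2 K t, t < 2 * a → S K a y = 0) :
    X.tower.FactSq D := by
  intro k _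
  refine ⟨fun y => ?_, fun a t y hy => ?_, fun a t y hy h => ?_, fun a y z => ?_, fun a y => ?_⟩
  · show X.Sq k 0 y = y
    rw [hX]; exact h0 _ y
  · show X.Sq k a y ∈ H.gr F2 (X.K k) (t - a)
    rw [hX]; exact hd _ a t y hy
  · show X.Sq k a y = 0
    rw [hX]; exact hi _ a t y hy h
  · show X.Sq k a ((X.M k).mulL E y z) =
      ∑ p ∈ Finset.HasAntidiagonal.antidiagonal a, (X.M k).mulL E (X.Sq k p.1 y) (X.Sq k p.2 z)
    rw [hX]; exact hS.mulL (X.M k) a y z
  · show E.cop (X.K k) (X.Sq k a y) = ∑ p ∈ Finset.HasAntidiagonal.antidiagonal a,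
      TensorProduct.map (X.Sq k p.1) (X.Sq k p.2) (E.cop (X.K k) y)
    rw [hX]; exact hS.cop a y

/-- the product of the tower, as a linear map on the tensor square -/
theorem mul'_eq (k : ℕ) (t : H F2 (X.K k) ⊗[F2] H F2 (X.K k)) :
    LinearMap.mul' F2 (X.tower.H k) t = TensorProduct.lift ((X.M k).mulL E) t := by
  letI := (X.M k).ring E
  letI := (X.M k).alg E
  change LinearMap.mul' F2 (H F2 (X.K k)) t = _
  induction t with
  | zero => simp
  | add a b ha hb => rw [map_add, map_add, ha, hb]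
  | tmul a b => rw [LinearMap.mul'_apply, TensorProduct.lift.tmul]; rfl

/-- `FactT0` from `T_0 y = μ_* Δ_* y` -/
theorem factT0 (D : ℕ) (h : ∀ k ≤ D + 2, ∀ y : H F2 (X.K k),
    X.T k 0 y = H.map F2 (X.M k).mu (H.map F2 (SS.diag (X.K k)) y)) : X.tower.FactT0 D := by
  intro k hk y
  refine (h k hk y).trans ?_
  rw [map_mu_diag (X.M k) E]
  exact (X.mul'_eq k _).symm

/-- the primitives of the tower -/
theorem mem_prim {k : ℕ} {y : H F2 (X.K k)} :
    (show X.tower.H k from y) ∈ X.tower.prim k ↔ IsPrim E (X.M k).e y := Iff.rfl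

end TD

end Crest.Agent.R204.Hopf450
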