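import Crest.Agent.R204.CrossInst_477

/-!
# Row 204, leaf H10 (helper477): the F2 side of the Hopf invariant, cube form
-/

set_option autoImplicit false

namespace Crest.Agent.R204.HopfF2477

open SS Finsupp

section cube

variable {𝒞 : Cross} {S : Setting}

/-- the coordinates of a cube, cast along an equality of dimensions -/
def castM {m n : ℕ} (h : m = n) : C(Fin m → I, Fin n → I) :=
  ⟨fun x i => x (Fin.cast h.symm i), by fun_prop⟩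

theorem pf_castM {m n : ℕ} (h : m = n) : pf (castM h) (𝒞.zc m) = 𝒞.zc n := by
  subst h
  exact pf_id _

/-- push-forward along `Th` only depends on the homology class -/
theorem push_Th (Th : C(S.L × (I × I), S.W))
    (t0 : ∀ l t, Th (l, (0, t)) = S.w0) (t1 : ∀ l t, Th (l, (1, t)) = S.w0)
    (s0 : ∀ l s, Th (l, (s, 0)) = S.w0) (s1 : ∀ l s, Th (l, (s, 1)) = S.w0)
    {z z' : N F2 (Sing S.L)} (h : Hom2 z z') :
    Hom2 (pf Th (𝒞.cr z (𝒞.cr iota iota))) (pf Th (𝒞.cr z' (𝒞.cr iota iota))) := by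
  obtain ⟨e, he⟩ := h
  refine ⟨pf Th (𝒞.cr e (𝒞.cr iota iota)), ?_⟩
  have hb : pf Th (𝒞.cr e (N.bd F2 _ (𝒞.cr iota iota))) = 0 := by
    rw [𝒞.bd, bd_iota]
    simp only [map_add, LinearMap.add_apply]
    have a1 : ∀ c : I, (∀ l t, Th (l, (c, t)) = S.w0) →
        pf Th (𝒞.cr e (𝒞.cr (A1 ![c]) iota)) = 0 := by
      intro c hc
      rw [A1_pt, 𝒞.vertex', push_nat]
      exact push_const (q := 0) e iota_gr _ S.w0 hc
    have a2 : ∀ c : I, (∀ l s, Th (l, (s, c)) = S.w0) →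
        pf Th (𝒞.cr e (𝒞.cr iota (A1 ![c]))) = 0 := by
      intro c hc
      rw [A1_pt, 𝒞.vertex, push_nat]
      exact push_const (q := 0) e iota_gr _ S.w0 hc
    rw [a1 1 t1, a1 0 t0, a2 1 s1, a2 0 s0]
    simp
  rw [← pf_bd, 𝒞.bd, map_add, hb, add_zero, he, map_add 𝒞.cr, LinearMap.add_apply, map_add]

/-- **H10, cube form** -/
theorem hopf_cube (hA : Acy) (Th : C(S.L × (I × I), S.W))
    (t0 : ∀ l t, Th (l, (0, t)) = S.w0) (t1 : ∀ l t, Th (l, (1, t)) = S.w0)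
    (tlo : ∀ l s t, Th (l, (s, lo t)) = S.Nc (l, (s, rev t)))
    (thi : ∀ l s t, Th (l, (s, hi t)) = S.Phi (l, lam (s, t)))
    {k q r : ℕ} (l0 : S.L) (E : C(Fin (k + 1) → I, S.L))
    (hE : ∀ x ∈ Cube.boundary (Fin (k + 1)), E x = l0)
    (u : C(Fin (k + 1 + 1) → I, S.Y)) (hu : ∀ x s, u (Fin.snoc (α := fun _ => I) x s) = S.ev (E x, s))
    (φ : C(Fin q → I, S.L))
    (hφ : Hom2 (pf φ (𝒞.zc q)) (pf S.mu (𝒞.cr (pf E (𝒞.zc (k + 1))) (pf E (𝒞.zc (k + 1))))))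
    (g : C(Fin (q + 1 + 1) → I, S.W))
    (hg : ∀ x s t, g (Fin.snoc (α := fun _ => I) (Fin.snoc (α := fun _ => I) x s) t) =
      Th (φ x, (s, t)))
    (c : C(Fin r → I, S.W)) (hr : (k + 1 + 1) + (k + 1 + 1) = r)
    (hc : ∀ y y', c (castM hr (Fin.append y y')) = S.pr (u y, u y')) :
    Hom2 (pf g (𝒞.zc (q + 1 + 1))) (pf c (𝒞.zc r)) := by
  -- left hand side
  have s0 : ∀ l s, Th (l, (s, 0)) = S.w0 := by
    intro l s
    have h := tlo l s 0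
    rw [lo_zero, rev_zero] at h
    rw [h]
    exact S.nh1 _
  have s1 : ∀ l s, Th (l, (s, 1)) = S.w0 := by
    intro l s
    have h := thi l s 1
    rw [hi_one] at h
    rw [h]
    show S.pr (S.ev (l, wl (s, 1)), S.ev (l, wr (s, 1))) = _
    rcases w_top s with h | h
    · rw [h, S.ev1, S.pr_left]
    · rw [h, S.ev0, S.pr_right]
  have hL : pf g (𝒞.zc (q + 1 + 1)) = pf Th (𝒞.cr (pf φ (𝒞.zc q)) (𝒞.cr iota iota)) := by
    have e1 : 𝒞.zc (q + 1 + 1) = pf ((snocM (q + 1)).comp (((snocM q).prodMap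
        (ContinuousMap.id I)).comp (Cross.asc' _ _ _))) (𝒞.cr (𝒞.zc q) (𝒞.cr iota iota)) := by
      rw [𝒞.zc_succ, 𝒞.zc_succ, pf_comp, pf_comp, 𝒞.asc'_cr, 𝒞.nat, pf_id]
    have e2 : 𝒞.cr (pf φ (𝒞.zc q)) (𝒞.cr iota iota) =
        pf (φ.prodMap (ContinuousMap.id (I × I))) (𝒞.cr (𝒞.zc q) (𝒞.cr iota iota)) := by
      rw [𝒞.nat, pf_id]
    rw [e1, e2, ← pf_comp, ← pf_comp]
    refine congrArg (fun f => pf f (𝒞.cr (𝒞.zc q) (𝒞.cr iota iota))) (ContinuousMap.ext ?_)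
    rintro ⟨x, s, t⟩
    exact hg x s t
  -- right hand side
  have hR : pf c (𝒞.zc r) = pf S.P (𝒞.cr (𝒞.cr (pf E (𝒞.zc (k + 1))) (pf E (𝒞.zc (k + 1))))
      (𝒞.cr iota iota)) := by
    have e1 : 𝒞.zc r = pf ((castM hr).comp ((appM _ _).comp ((snocM (k + 1)).prodMap
        (snocM (k + 1))))) (𝒞.cr (𝒞.cr (𝒞.zc (k + 1)) iota) (𝒞.cr (𝒞.zc (k + 1)) iota)) := by
      rw [pf_comp, pf_comp, 𝒞.nat, ← 𝒞.zc_succ, 𝒞.pf_app, pf_castM]
    have e2 : 𝒞.cr (𝒞.cr (pf E (𝒞.zc (k + 1))) (pf E (𝒞.zc (k + 1)))) (𝒞.cr iota iota) =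
        pf ((E.prodMap E).prodMap (ContinuousMap.id (I × I)))
          (𝒞.cr (𝒞.cr (𝒞.zc (k + 1)) (𝒞.zc (k + 1))) (𝒞.cr iota iota)) := by
      rw [𝒞.nat, 𝒞.nat, pf_id]
    have e3 : 𝒞.cr (𝒞.cr (𝒞.zc (k + 1)) iota) (𝒞.cr (𝒞.zc (k + 1)) iota) =
        pf ((Cross.m4 _ _ _ _).comp (ContinuousMap.prodSwap.prodMap (ContinuousMap.id (I × I))))
          (𝒞.cr (𝒞.cr (𝒞.zc (k + 1)) (𝒞.zc (k + 1))) (𝒞.cr iota iota)) := by
      rw [pf_comp, 𝒞.nat, pf_id, 𝒞.swap, 𝒞.m4_cr]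
    rw [e1, e2, e3, ← pf_comp, ← pf_comp, ← pf_comp]
    refine congrArg (fun f => pf f (𝒞.cr (𝒞.cr (𝒞.zc (k + 1)) (𝒞.zc (k + 1)))
      (𝒞.cr iota iota))) (ContinuousMap.ext ?_)
    rintro ⟨⟨x, y⟩, s, t⟩
    show c (castM hr (Fin.append (Fin.snoc (α := fun _ => I) y s) (Fin.snoc (α := fun _ => I) x t)))
      = S.pr (S.ev (E y, s), S.ev (E x, t))
    rw [hc, hu, hu]
  rw [hL, hR]
  refine (push_Th Th t0 t1 s0 s1 hφ).trans ?_
  have hz : N.bd F2 _ (pf E (𝒞.zc (k + 1))) = 0 := 𝒞.bd_pf_zc _ E l0 hE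
  have hgr : pf E (𝒞.zc (k + 1)) ∈ N.gr F2 (Sing S.L) (k + 1) := pf_gr _ (𝒞.zc_gr _)
  exact hopf_core hA Th t0 t1 tlo thi hgr hgr hz hz

end cube

end Crest.Agent.R204.HopfF2477
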