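import Crest.Agent.R204.HDegF_160
import Crest.Agent.R204.HopfMap_484
import Crest.Agent.R204.Hsp2_696

/-!
# Row 204, block H, leaf H12 (helper339), part A

F2 side of the Hopf invariant for cube spheres: `L = Ω^(Fin 1) S`, `mu = concatenation`, the co-H
structure of a cube sphere, the Hopf map `gf` of `f : (I^{q+1}, ∂) → (S, pt)` as a loop in a cube
sphere of dimension `q + 2`, and

`hom2_gf` : `[φ] = [E] [E]` on chains implies `(g_f)_* z = p_* z` on chains.
-/

set_option autoImplicit false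

open scoped unitInterval Topology Topology.Homotopy

noncomputable section

namespace Crest.Agent.R204.HopfGlue339

open Crest.Agent.R204.HopfF2477 Crest.Agent.R204.SS
open Crest.Agent.R204.Freud661 Crest.Agent.R204.CubeSph661 Crest.Agent.R204.HDeg160
open Crest.Agent.R204.H472 Crest.Agent.R204.HopfMap484
open Crest.Agent.R204.Cubes735 Crest.Agent.R204.Hsp696

/-! ## the co-H structure of a cube sphere -/

section coh

variable {n : ℕ} {S : Type} [TopologicalSpace S] [T2Space S] (P : CubeSphere (n + 1) S)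

theorem exists_descend (w : C(I × (Fin (n + 1) → I), Fin (n + 1) → I))
    (hw : ∀ t x, x ∈ Cube.boundary (Fin (n + 1)) → w (t, x) ∈ Cube.boundary (Fin (n + 1))) :
    ∃ W : C(I × S, S), ∀ t x, W (t, P.p x) = P.p (w (t, x)) := by
  have hq : Topology.IsQuotientMap (Prod.map (id : I → I) P.p) := by
    have h2 : IsProperMap P.p := P.p.continuous.isProperMap
    have h3 := isProperMap_id.prodMap (X := I) h2
    exact h3.isClosedMap.isQuotientMap h3.continuous (Function.surjective_id.prodMap P.surj)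
  choose s hs using P.surj
  let W : I × S → S := fun z => P.p (w (z.1, s z.2))
  have key : ∀ t x, W (t, P.p x) = P.p (w (t, x)) := by
    intro t x
    show P.p (w (t, s (P.p x))) = _
    rcases P.inj _ _ (hs (P.p x)) with h1 | ⟨h1, h2⟩
    · rw [h1]
    · rw [P.bdry _ (hw t _ h1), P.bdry _ (hw t _ h2)]
  refine ⟨⟨W, ?_⟩, key⟩
  rw [hq.continuous_iff]
  have : W ∘ Prod.map (id : I → I) P.p = fun z => P.p (w z) := by
    funext ⟨t, x⟩; exact key t x
  rw [this]
  exact P.p.continuous.comp w.continuous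

omit [T2Space S] in
theorem exists_bdry : ∃ x ∈ Cube.boundary (Fin (n + 1)), P.p x = P.pt :=
  ⟨fun _ => 0, ⟨0, Or.inl rfl⟩, P.bdry _ ⟨0, Or.inl rfl⟩⟩

/-- the co-H structure of a cube sphere -/
def coH : CoH S P.pt where
  W := (exists_descend P (CoP.cube (Fin.last n)).w (CoP.cube (Fin.last n)).w_mem).choose
  W' := (exists_descend P (CoP.cube (Fin.last n)).w' (CoP.cube (Fin.last n)).w'_mem).choose
  W_zero p := by
    obtain ⟨x, rfl⟩ := P.surj p
    rw [(exists_descend P (CoP.cube (Fin.last n)).w (CoP.cube (Fin.last n)).w_mem).choose_spec,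
      (CoP.cube (Fin.last n)).w_zero]
  W'_zero p := by
    obtain ⟨x, rfl⟩ := P.surj p
    rw [(exists_descend P (CoP.cube (Fin.last n)).w' (CoP.cube (Fin.last n)).w'_mem).choose_spec,
      (CoP.cube (Fin.last n)).w'_zero]
  W_base t := by
    obtain ⟨x, hx, h⟩ := exists_bdry P
    rw [← h, (exists_descend P (CoP.cube (Fin.last n)).w
      (CoP.cube (Fin.last n)).w_mem).choose_spec, h]
    exact P.bdry _ ((CoP.cube (Fin.last n)).w_mem t x hx)
  W'_base t := by
    obtain ⟨x, hx, h⟩ := exists_bdry P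
    rw [← h, (exists_descend P (CoP.cube (Fin.last n)).w'
      (CoP.cube (Fin.last n)).w'_mem).choose_spec, h]
    exact P.bdry _ ((CoP.cube (Fin.last n)).w'_mem t x hx)
  one p := by
    obtain ⟨x, rfl⟩ := P.surj p
    rw [(exists_descend P (CoP.cube (Fin.last n)).w (CoP.cube (Fin.last n)).w_mem).choose_spec,
      (exists_descend P (CoP.cube (Fin.last n)).w' (CoP.cube (Fin.last n)).w'_mem).choose_spec]
    exact ((CoP.cube (Fin.last n)).one x).imp (P.bdry _) (P.bdry _)

end coh

/-! ## loops -/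

section loops

variable {S : Type} [TopologicalSpace S] {y : S}

/-- evaluation of loops -/
def evL (S : Type) [TopologicalSpace S] (y : S) : C((Ω^ (Fin 1) S y) × I, S) :=
  ⟨fun p => p.1 (fun _ => p.2), by fun_prop⟩

theorem evL_apply (l : Ω^ (Fin 1) S y) (s : I) : evL S y (l, s) = l (fun _ => s) := rfl

theorem evL_zero (l : Ω^ (Fin 1) S y) : evL S y (l, 0) = y :=
  GenLoop.boundary l _ ⟨0, Or.inl rfl⟩

theorem evL_one (l : Ω^ (Fin 1) S y) : evL S y (l, 1) = y :=
  GenLoop.boundary l _ ⟨0, Or.inr rfl⟩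

/-- concatenation of loops -/
def muL (S : Type) [TopologicalSpace S] (y : S) :
    C((Ω^ (Fin 1) S y) × (Ω^ (Fin 1) S y), Ω^ (Fin 1) S y) := mu2 (halves (0 : Fin 1))

theorem muL_apply (l l' : Ω^ (Fin 1) S y) : muL S y (l, l') = GenLoop.transAt 0 l l' := by
  show mu2 _ _ = _
  rw [mu2_apply, mu_halves]

theorem fin1_eq {s : I} : (fun _ : Fin 1 => s) =
    (Fin.snoc (α := fun _ => I) (fun i : Fin 0 => i.elim0) s : Fin 1 → I) := by
  funext i
  obtain rfl : i = Fin.last 0 := Subsingleton.elim _ _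
  exact (Fin.snoc_last (α := fun _ => I) _ _).symm

theorem evL_lo (l l' : Ω^ (Fin 1) S y) (s : I) : evL S y (muL S y (l, l'), lo s) = evL S y (l, s) := by
  rw [evL_apply, evL_apply, muL_apply, fin1_eq, fin1_eq]
  exact transAt_lo (n := 0) l l' _ s

theorem evL_hi (l l' : Ω^ (Fin 1) S y) (s : I) :
    evL S y (muL S y (l, l'), hi s) = evL S y (l', s) := by
  rw [evL_apply, evL_apply, muL_apply, fin1_eq, fin1_eq]
  exact transAt_hi (n := 0) l l' _ s

end loops

/-! ## the setting -/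

section setting

variable {n : ℕ} {S W : Type} [TopologicalSpace S] [T2Space S] [TopologicalSpace W]
  (P : CubeSphere (n + 1) S) (R : CubeSphere ((n + 1) + (n + 1)) W)

theorem smash_left (y : S) : smash P P R (P.pt, y) = R.pt :=
  (smash_eq_pt_iff P P R n.succ_pos n.succ_pos _).2 (Or.inl rfl)

theorem smash_right (y : S) : smash P P R (y, P.pt) = R.pt :=
  (smash_eq_pt_iff P P R n.succ_pos n.succ_pos _).2 (Or.inr rfl)

theorem smash_wedge {z : S × S} (h : z ∈ wedge P.pt P.pt) : smash P P R z = R.pt :=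
  (smash_eq_pt_iff P P R n.succ_pos n.succ_pos _).2 h

/-- null homotopy of the reduced diagonal -/
def nhS : C(S × I, W) :=
  ⟨fun p => smash P P R ((coH P).W (p.2, p.1), (coH P).W' (p.2, p.1)), by fun_prop⟩

theorem nhS_apply (x : S) (t : I) :
    nhS P R (x, t) = smash P P R ((coH P).W (t, x), (coH P).W' (t, x)) := rfl

/-- the setting of helper477 -/
def setS : Setting where
  L := Ω^ (Fin 1) S P.pt
  Y := S
  W := W
  y0 := P.pt
  w0 := R.pt
  ev := evL S P.pt
  ev0 := evL_zero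
  ev1 := evL_one
  mu := muL S P.pt
  ev_lo := evL_lo
  ev_hi := evL_hi
  pr := smash P P R
  pr_left := smash_left P R
  pr_right := smash_right P R
  nh := nhS P R
  nh0 x := by rw [nhS_apply, (coH P).W_zero, (coH P).W'_zero]
  nh1 x := by rw [nhS_apply]; exact smash_wedge P R ((coH P).one x)
  nh_base t := by rw [nhS_apply, (coH P).W_base]; exact smash_left P R _

/-- the universal Hopf map on `L × I × I` -/
def Th : C((Ω^ (Fin 1) S P.pt) × (I × I), W) :=
  ⟨fun p => smash P P R (G (CoP.cyl (∅ : Set (Ω^ (Fin 1) S P.pt))) (coH P) (evL S P.pt)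
    ((p.1, p.2.1), p.2.2)), by fun_prop⟩

theorem Th_apply (l : Ω^ (Fin 1) S P.pt) (s t : I) : Th P R (l, (s, t)) =
    smash P P R ((coH P).W (dn t, evL S P.pt (l, HopfMap484.wl (up t) s)),
      (coH P).W' (dn t, evL S P.pt (l, HopfMap484.wr (up t) s))) := rfl

theorem up_lo (t : I) : up (lo t) = 0 := up_of_le (by
  show (t : ℝ) / 2 ≤ 1 / 2; have := t.2.2; linarith)

theorem dn_lo (t : I) : dn (lo t) = rev t := by
  refine Subtype.ext ?_
  rw [coe_dn]
  show max 0 (1 - 2 * ((t : ℝ) / 2)) = 1 - (t : ℝ)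
  rw [max_eq_right (by have := t.2.2; linarith)]
  ring

theorem dn_hi (t : I) : dn (hi t) = 0 := dn_of_ge (by
  show 1 / 2 ≤ (1 + (t : ℝ)) / 2; have := t.2.1; linarith)

theorem up_hi (t : I) : up (hi t) = t := by
  refine Subtype.ext ?_
  rw [coe_up]
  show max 0 (2 * ((1 + (t : ℝ)) / 2) - 1) = (t : ℝ)
  rw [max_eq_right (by have := t.2.1; linarith)]
  ring

theorem wl_eq (s t : I) : HopfMap484.wl t s = HopfF2477.wl (s, t) := by
  refine Subtype.ext ?_
  rw [wl_coe]
  show ((Set.projIcc (0 : ℝ) 1 zero_le_one ((1 + (t : ℝ)) * s) : I) : ℝ) = _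
  rw [Set.coe_projIcc, max_eq_right]
  have h0 := t.2.1
  have h1 := s.2.1
  exact le_min zero_le_one (by positivity)

theorem wr_eq (s t : I) : HopfMap484.wr t s = HopfF2477.wr (s, t) := by
  refine Subtype.ext ?_
  rw [wr_coe]
  show ((Set.projIcc (0 : ℝ) 1 zero_le_one ((1 + (t : ℝ)) * s - t) : I) : ℝ) = _
  rw [Set.coe_projIcc, min_eq_right]
  have h0 := t.2.2
  have h1 := s.2.2
  have h2 := t.2.1
  have h3 := s.2.1
  nlinarith

theorem Th_s0 (l : Ω^ (Fin 1) S P.pt) (t : I) : Th P R (l, (0, t)) = R.pt := by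
  rw [Th_apply, HopfMap484.wl_right_zero, evL_zero, (coH P).W_base]
  exact smash_left P R _

theorem Th_s1 (l : Ω^ (Fin 1) S P.pt) (t : I) : Th P R (l, (1, t)) = R.pt := by
  rw [Th_apply, HopfMap484.wl_right_one, evL_one, (coH P).W_base]
  exact smash_left P R _

theorem Th_lo (l : Ω^ (Fin 1) S P.pt) (s t : I) :
    Th P R (l, (s, lo t)) = (setS P R).Nc (l, (s, rev t)) := by
  rw [Th_apply, up_lo, dn_lo, HopfMap484.wl_zero, HopfMap484.wr_zero]
  rfl

theorem Th_hi (l : Ω^ (Fin 1) S P.pt) (s t : I) :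
    Th P R (l, (s, hi t)) = (setS P R).Phi (l, lam (s, t)) := by
  rw [Th_apply, up_hi, dn_hi, (coH P).W_zero, (coH P).W'_zero, wl_eq, wr_eq]
  rfl

theorem Th_t0 (l : Ω^ (Fin 1) S P.pt) (s : I) : Th P R (l, (s, 0)) = R.pt := by
  have h : (0 : I) = lo 0 := lo_zero.symm
  have e : Th P R (l, (s, 0)) = Th P R (l, (s, lo 0)) := by rw [← h]
  rw [e, Th_lo, rev_zero]
  exact (setS P R).nh1 _

theorem Th_t1 (l : Ω^ (Fin 1) S P.pt) (s : I) : Th P R (l, (s, 1)) = R.pt := by
  have h : (1 : I) = hi 1 := hi_one.symm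
  have e : Th P R (l, (s, 1)) = Th P R (l, (s, hi 1)) := by rw [← h]
  rw [e, Th_hi]
  show smash P P R (evL S P.pt (l, HopfF2477.wl (s, 1)), evL S P.pt (l, HopfF2477.wr (s, 1))) = R.pt
  rcases w_top s with h | h
  · rw [h, evL_one]; exact smash_left P R _
  · rw [h, evL_zero]; exact smash_right P R _

end setting

end Crest.Agent.R204.HopfGlue339
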