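import Crest.Agent.R204.HopfGlueA_339

/-!
# Row 204, block H, leaf H12 (helper339), part B

Adjoints `adj`/`unadj` between `Ω^(Fin (q+1)) S` and `Ω^(Fin q) (Ω^(Fin 1) S)`, the Hopf map `gf`,
and the chain level theorem `hom2_gf`.
-/

set_option autoImplicit false

open scoped unitInterval Topology Topology.Homotopy

noncomputable section

namespace Crest.Agent.R204.HopfGlue339

open Crest.Agent.R204.HopfF2477 Crest.Agent.R204.SS
open Crest.Agent.R204.Freud661 Crest.Agent.R204.CubeSph661 Crest.Agent.R204.HDeg160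
open Crest.Agent.R204.H472 Crest.Agent.R204.HopfMap484
open Crest.Agent.R204.Cubes735 Crest.Agent.R204.Hsp696

/-! ## adjoints -/

section adj

variable {S : Type} [TopologicalSpace S] {y : S} {q : ℕ}

theorem snocM_bdry_left {x : Fin q → I} (hx : x ∈ Cube.boundary (Fin q)) (t : I) :
    snocM q (x, t) ∈ Cube.boundary (Fin (q + 1)) := by
  obtain ⟨j, hj⟩ := hx
  exact ⟨j.castSucc, by rw [snocM_apply, Fin.snoc_castSucc]; exact hj⟩

theorem snocM_bdry_right (x : Fin q → I) {t : I} (ht : t = 0 ∨ t = 1) :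
    snocM q (x, t) ∈ Cube.boundary (Fin (q + 1)) :=
  ⟨Fin.last q, by rw [snocM_apply, Fin.snoc_last]; exact ht⟩

/-- uncurried adjoint of a family -/
def adjC {A : Type} [TopologicalSpace A] (F : C(A × I, S)) : C(A × (Fin 1 → I), S) :=
  F.comp ((ContinuousMap.id A).prodMap ⟨fun t : Fin 1 → I => t 0, by fun_prop⟩)

theorem adjC_bdry {A : Type} [TopologicalSpace A] (F : C(A × I, S)) (h0 : ∀ a, F (a, 0) = y)
    (h1 : ∀ a, F (a, 1) = y) (a : A) : ∀ t ∈ Cube.boundary (Fin 1), (adjC F).curry a t = y := by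
  rintro t ⟨j, hj⟩
  have hj0 : j = 0 := Subsingleton.elim _ _
  rw [hj0] at hj
  show F (a, t 0) = y
  rcases hj with hj | hj
  · rw [hj, h0]
  · rw [hj, h1]

/-- adjoint of a family of based paths -/
def adjF {A : Type} [TopologicalSpace A] (F : C(A × I, S)) (h0 : ∀ a, F (a, 0) = y)
    (h1 : ∀ a, F (a, 1) = y) : C(A, Ω^ (Fin 1) S y) :=
  ⟨fun a => ⟨(adjC F).curry a, adjC_bdry F h0 h1 a⟩,
    Continuous.subtype_mk (adjC F).curry.continuous _⟩

theorem adjF_apply {A : Type} [TopologicalSpace A] (F : C(A × I, S)) (h0 : ∀ a, F (a, 0) = y)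
    (h1 : ∀ a, F (a, 1) = y) (a : A) (t : Fin 1 → I) : adjF F h0 h1 a t = F (a, t 0) := rfl

/-- adjoint of a loop -/
def adj (f : Ω^ (Fin (q + 1)) S y) : Ω^ (Fin q) (Ω^ (Fin 1) S y) GenLoop.const :=
  ⟨adjF (f.1.comp (snocM q)) (fun x => f.2 _ (snocM_bdry_right x (Or.inl rfl)))
    (fun x => f.2 _ (snocM_bdry_right x (Or.inr rfl))), by
    intro x hx
    ext t
    exact f.2 _ (snocM_bdry_left hx _)⟩

theorem adj_apply (f : Ω^ (Fin (q + 1)) S y) (x : Fin q → I) (t : Fin 1 → I) :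
    adj f x t = f (snocM q (x, t 0)) := rfl

theorem evL_adj (f : Ω^ (Fin (q + 1)) S y) (x : Fin q → I) (s : I) :
    evL S y (adj f x, s) = f (snocM q (x, s)) := rfl

/-- the inverse of `snocM` -/
def unsnoc (q : ℕ) : C(Fin (q + 1) → I, (Fin q → I) × I) :=
  ⟨fun z => (fun i => z i.castSucc, z (Fin.last q)), by fun_prop⟩

theorem snocM_unsnoc (z : Fin (q + 1) → I) : snocM q (unsnoc q z) = z := by
  funext i
  refine Fin.lastCases ?_ (fun j => ?_) i
  · rw [show unsnoc q z = (fun i => z i.castSucc, z (Fin.last q)) from rfl, snocM_apply,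
      Fin.snoc_last]
  · rw [show unsnoc q z = (fun i => z i.castSucc, z (Fin.last q)) from rfl, snocM_apply,
      Fin.snoc_castSucc]

theorem unsnoc_snocM (p : (Fin q → I) × I) : unsnoc q (snocM q p) = p := by
  obtain ⟨x, t⟩ := p
  refine Prod.ext ?_ ?_
  · funext i
    show snocM q (x, t) i.castSucc = x i
    rw [snocM_apply, Fin.snoc_castSucc]
  · show snocM q (x, t) (Fin.last q) = t
    rw [snocM_apply, Fin.snoc_last]

theorem unsnoc_bdry {z : Fin (q + 1) → I} (hz : z ∈ Cube.boundary (Fin (q + 1))) :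
    unsnoc q z ∈ bdI (Fin q) := by
  obtain ⟨i, hi⟩ := hz
  revert hi
  refine Fin.lastCases ?_ (fun j => ?_) i
  · rintro (h | h)
    · exact Or.inr (Or.inl h)
    · exact Or.inr (Or.inr h)
  · intro h
    exact Or.inl ⟨j, h⟩

/-- inverse adjoint -/
def unadj (φ : Ω^ (Fin q) (Ω^ (Fin 1) S y) GenLoop.const) : Ω^ (Fin (q + 1)) S y :=
  ⟨((evL S y).comp (φ.1.prodMap (ContinuousMap.id I))).comp (unsnoc q), by
    intro z hz
    show evL S y (φ (unsnoc q z).1, (unsnoc q z).2) = y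
    rcases unsnoc_bdry hz with h | h | h
    · rw [show φ (unsnoc q z).1 = GenLoop.const from φ.2 _ h]; rfl
    · rw [h, evL_zero]
    · rw [h, evL_one]⟩

theorem unadj_snoc (φ : Ω^ (Fin q) (Ω^ (Fin 1) S y) GenLoop.const) (x : Fin q → I) (s : I) :
    unadj φ (snocM q (x, s)) = φ x (fun _ => s) := by
  show evL S y (φ (unsnoc q (snocM q (x, s))).1, (unsnoc q (snocM q (x, s))).2) = _
  rw [unsnoc_snocM]; rfl

theorem adj_unadj (φ : Ω^ (Fin q) (Ω^ (Fin 1) S y) GenLoop.const) : adj (unadj φ) = φ := by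
  ext x t
  rw [adj_apply, unadj_snoc]
  congr 1
  funext j
  obtain rfl : j = 0 := Subsingleton.elim _ _
  rfl

theorem adj_homotopic {f g : Ω^ (Fin (q + 1)) S y} (h : GenLoop.Homotopic f g) :
    GenLoop.Homotopic (adj f) (adj g) := by
  obtain ⟨H⟩ := h
  let F : C((I × (Fin q → I)) × I, S) := ⟨fun p => H (p.1.1, snocM q (p.1.2, p.2)), by fun_prop⟩
  have hH : ∀ t, ∀ x ∈ Cube.boundary (Fin (q + 1)), H (t, x) = y := fun t x hx =>
    (H.prop' t x hx).trans (GenLoop.boundary f x hx)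
  refine ⟨{
    toContinuousMap := adjF F (fun a => hH _ _ (snocM_bdry_right _ (Or.inl rfl)))
      (fun a => hH _ _ (snocM_bdry_right _ (Or.inr rfl)))
    map_zero_left := ?_
    map_one_left := ?_
    prop' := ?_ }⟩
  · intro x
    ext t
    exact H.apply_zero _
  · intro x
    ext t
    exact H.apply_one _
  · intro t x hx
    ext s
    show H (t, snocM q (x, s 0)) = adj f x s
    rw [adj_apply, hH _ _ (snocM_bdry_left hx _)]
    exact (f.2 _ (snocM_bdry_left hx _)).symm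

theorem snocM_update (x : Fin (q + 1) → I) (i : Fin (q + 1)) (a s : I) :
    Function.update (snocM (q + 1) (x, s)) i.castSucc a = snocM (q + 1) (Function.update x i a, s) := by
  rw [snocM_apply, snocM_apply, Fin.snoc_update]

theorem adj_transAt (i : Fin (q + 1)) (f g : Ω^ (Fin (q + 2)) S y) :
    adj (GenLoop.transAt i.castSucc f g) = GenLoop.transAt i (adj f) (adj g) := by
  ext x t
  rw [adj_apply]
  unfold GenLoop.transAt
  rw [GenLoop.coe_copy, GenLoop.coe_copy]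
  have e : (snocM (q + 1) (x, t 0) : Fin (q + 2) → I) i.castSucc = x i := by
    rw [snocM_apply, Fin.snoc_castSucc]
  rw [e]
  split_ifs with h
  · rw [snocM_update, adj_apply]
  · rw [snocM_update, adj_apply]

end adj

/-! ## the degree of adjoints -/

section degree

variable (𝒞 : Cross) {S : Type} [TopologicalSpace S] {y : S} {q : ℕ}

theorem zcls_adj_degree (ι g : Ω^ (Fin (q + 2)) S y) (D : ℤ) (h : cls g = cls ι ^ D) :
    zcls 𝒞 (adj g) = D • zcls 𝒞 (adj ι) :=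
  additive_degree (Fin.last q).castSucc (fun f => zcls 𝒞 (adj f))
    (fun f g h => zcls_homotopic 𝒞 _ _ (adj_homotopic h))
    (fun f g => by rw [adj_transAt, zcls_transAt]) ι g D h

theorem F2_add_self {K : SS} (x : H F2 K) : x + x = 0 := by
  have : (2 : F2) • x = 0 := by rw [show (2 : F2) = 0 from by decide, zero_smul]
  rwa [two_smul] at this

theorem odd_of_smul_ne {K : SS} {x z : H F2 K} {D : ℤ} (h : z = D • x) (hz : z ≠ 0) :
    Odd D ∧ z = x := by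
  rcases Int.even_or_odd D with he | ho
  · obtain ⟨k, rfl⟩ := he
    exact absurd (by rw [h, add_smul, F2_add_self]) hz
  · refine ⟨ho, ?_⟩
    obtain ⟨k, rfl⟩ := ho
    rw [h, add_smul, one_smul, two_mul, add_smul, F2_add_self, zero_add]

end degree

/-! ## the Hopf map -/

section hopf

variable {n q : ℕ} {S W : Type} [TopologicalSpace S] [T2Space S] [TopologicalSpace W]
  (P : CubeSphere (n + 1) S) (R : CubeSphere ((n + 1) + (n + 1)) W)

/-- the Hopf map, as a loop in the cube sphere `W` -/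
def gf (f : Ω^ (Fin (q + 1)) S P.pt) : Ω^ (Fin (q + 2)) W R.pt :=
  ⟨((smash P P R).comp (G (CoP.cube (Fin.last q)) (coH P) f.1)).comp (unsnoc (q + 1)), by
    intro z hz
    exact smash_wedge P R (G_mapsTo (CoP.cube (Fin.last q)) (coH P) f.1 f.2 (unsnoc_bdry hz))⟩

theorem gf_snoc (f : Ω^ (Fin (q + 1)) S P.pt) (x : Fin (q + 1) → I) (t : I) :
    gf P R f (snocM (q + 1) (x, t)) =
      smash P P R (G (CoP.cube (Fin.last q)) (coH P) f.1 (x, t)) := by
  show smash P P R (G (CoP.cube (Fin.last q)) (coH P) f.1 (unsnoc (q + 1) (snocM (q + 1) (x, t)))) = _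
  rw [unsnoc_snocM]

theorem snocM_update_last (x : Fin q → I) (s a : I) :
    Function.update (snocM q (x, s)) (Fin.last q) a = snocM q (x, a) := by
  rw [snocM_apply, snocM_apply, Fin.update_snoc_last]

theorem gf_eq_Th (f : Ω^ (Fin (q + 1)) S P.pt) (x : Fin q → I) (s t : I) :
    gf P R f (snocM (q + 1) (snocM q (x, s), t)) = Th P R (adj f x, (s, t)) := by
  rw [gf_snoc, Th_apply, G_apply, GG_apply, CoP.cube_w, CoP.cube_w', snocM_update_last,
    snocM_update_last, evL_adj, evL_adj]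
  have e : (snocM q (x, s) : Fin (q + 1) → I) (Fin.last q) = s := by
    rw [snocM_apply, Fin.snoc_last]
  rw [e]
  rfl

variable (𝒞 : Cross)

theorem pf_gf (f : Ω^ (Fin (q + 1)) S P.pt) :
    pf (gf P R f).1 (𝒞.zc (q + 2)) =
      pf (Th P R) (𝒞.cr (pf (adj f).1 (𝒞.zc q)) (𝒞.cr iota iota)) := by
  rw [𝒞.zc_succ, 𝒞.zc_succ, ← pf_comp]
  have h1 : 𝒞.cr (pf (snocM q) (𝒞.cr (𝒞.zc q) iota)) iota =
      pf ((snocM q).prodMap (ContinuousMap.id I)) (𝒞.cr (𝒞.cr (𝒞.zc q) iota) iota) := by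
    rw [𝒞.nat, pf_id]
  have h2 : 𝒞.cr (pf (adj f).1 (𝒞.zc q)) (𝒞.cr iota iota) =
      pf ((adj f).1.prodMap (ContinuousMap.id (I × I))) (𝒞.cr (𝒞.zc q) (𝒞.cr iota iota)) := by
    rw [𝒞.nat, pf_id]
  rw [h1, h2, ← pf_comp, ← pf_comp, ← 𝒞.asc'_cr, ← pf_comp]
  refine congrArg (fun F => pf F (𝒞.cr (𝒞.zc q) (𝒞.cr iota iota))) (ContinuousMap.ext ?_)
  rintro ⟨x, s, t⟩
  exact gf_eq_Th P R f x s t

theorem hom2_Th {a b : N F2 (Sing (Ω^ (Fin 1) S P.pt))} (h : Hom2 a b) :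
    Hom2 (pf (Th P R) (𝒞.cr a (𝒞.cr iota iota))) (pf (Th P R) (𝒞.cr b (𝒞.cr iota iota))) := by
  obtain ⟨e, he⟩ := h
  refine ⟨pf (Th P R) (𝒞.cr e (𝒞.cr iota iota)), ?_⟩
  rw [← pf_bd, 𝒞.bd, he, 𝒞.bd, bd_iota]
  simp only [map_add, LinearMap.add_apply]
  have v1 : ∀ c : I, (c = 0 ∨ c = 1) → pf (Th P R) (𝒞.cr e (𝒞.cr (A1 ![c]) iota)) = 0 := by
    intro c hc
    rw [A1_pt, 𝒞.vertex', push_nat]
    refine push_const e iota_gr _ R.pt ?_
    intro l t
    rcases hc with rfl | rfl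
    · exact Th_s0 P R l t
    · exact Th_s1 P R l t
  have v2 : ∀ c : I, (c = 0 ∨ c = 1) → pf (Th P R) (𝒞.cr e (𝒞.cr iota (A1 ![c]))) = 0 := by
    intro c hc
    rw [A1_pt, 𝒞.vertex, push_nat]
    refine push_const e iota_gr _ R.pt ?_
    intro l s
    rcases hc with rfl | rfl
    · exact Th_t0 P R l s
    · exact Th_t1 P R l s
  rw [v1 1 (Or.inr rfl), v1 0 (Or.inl rfl), v2 1 (Or.inr rfl), v2 0 (Or.inl rfl)]
  simp only [add_zero]

/-- `((x, y), (a, b)) ↦ ((y, a), (x, b))` on chains -/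
theorem cr_perm {X Y : Type} [TopologicalSpace X] [TopologicalSpace Y] (x : N F2 (Sing X))
    (z : N F2 (Sing Y)) {V : Type} [TopologicalSpace V] (F : C((X × X) × (Y × Y), V))
    (F' : C((X × Y) × (X × Y), V)) (h : ∀ a b c d, F ((a, b), (c, d)) = F' ((b, c), (a, d))) :
    pf F (𝒞.cr (𝒞.cr x x) (𝒞.cr z z)) = pf F' (𝒞.cr (𝒞.cr x z) (𝒞.cr x z)) := by
  have h1 : 𝒞.cr (𝒞.cr x x) (𝒞.cr z z) = pf ((ContinuousMap.prodSwap : C(X × X, X × X)).prodMap
      (ContinuousMap.id (Y × Y))) (𝒞.cr (𝒞.cr x x) (𝒞.cr z z)) := by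
    rw [𝒞.nat, 𝒞.swap, pf_id]
  rw [h1, ← pf_comp, ← 𝒞.m4_cr x x z z, ← pf_comp]
  refine congrArg (fun F => pf F (𝒞.cr (𝒞.cr x x) (𝒞.cr z z))) (ContinuousMap.ext ?_)
  rintro ⟨⟨a, b⟩, ⟨c, d⟩⟩
  exact h b a c d

theorem pf_P : pf (setS P R).P (𝒞.cr (𝒞.cr (pf (adj (pLoop P)).1 (𝒞.zc n))
      (pf (adj (pLoop P)).1 (𝒞.zc n))) (𝒞.cr iota iota)) =
    pf R.p (𝒞.zc ((n + 1) + (n + 1))) := by
  have h1 : 𝒞.cr (𝒞.cr (pf (adj (pLoop P)).1 (𝒞.zc n))
      (pf (adj (pLoop P)).1 (𝒞.zc n))) (𝒞.cr iota iota) =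
      pf (((adj (pLoop P)).1.prodMap (adj (pLoop P)).1).prodMap (ContinuousMap.id (I × I)))
        (𝒞.cr (𝒞.cr (𝒞.zc n) (𝒞.zc n)) (𝒞.cr iota iota)) := by
    rw [𝒞.nat, 𝒞.nat, pf_id]
  have h2 : ∀ c, pf (setS P R).P (pf (((adj (pLoop P)).1.prodMap (adj (pLoop P)).1).prodMap
      (ContinuousMap.id (I × I))) c) = pf ((setS P R).P.comp (((adj (pLoop P)).1.prodMap
      (adj (pLoop P)).1).prodMap (ContinuousMap.id (I × I)))) c := fun c => (pf_comp _ _ _).symm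
  rw [← 𝒞.pf_app, 𝒞.zc_succ, ← 𝒞.nat (snocM n) (snocM n), h1, ← pf_comp, ← pf_comp, h2]
  refine cr_perm 𝒞 _ _ _ _ ?_
  intro a b c d
  show smash P P R (evL S P.pt (adj (pLoop P) b, c), evL S P.pt (adj (pLoop P) a, d)) =
    R.p (appM (n + 1) (n + 1) (snocM n (b, c), snocM n (a, d)))
  rw [evL_adj, evL_adj]
  exact smash_p P P R _ _

end hopf

/-- **F2 side, chain level** -/
theorem hom2_gf (𝒞 : Cross) (hA : Acy) {n q : ℕ} {S W : Type} [TopologicalSpace S] [T2Space S]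
    [TopologicalSpace W] (P : CubeSphere (n + 1 + 1) S)
    (R : CubeSphere ((n + 1 + 1) + (n + 1 + 1)) W) (f : Ω^ (Fin (q + 1)) S P.pt)
    (h : Hom2 (pf (adj f).1 (𝒞.zc q)) (pf (muL S P.pt)
      (𝒞.cr (pf (adj (pLoop P)).1 (𝒞.zc (n + 1))) (pf (adj (pLoop P)).1 (𝒞.zc (n + 1)))))) :
    Hom2 (pf (gf P R f).1 (𝒞.zc (q + 2))) (pf R.p (𝒞.zc ((n + 1 + 1) + (n + 1 + 1)))) := by
  rw [pf_gf P R 𝒞 f, ← pf_P P R 𝒞]
  have hz := 𝒞.bd_pf_zc (n + 1) (adj (pLoop P)).1 GenLoop.const (adj (pLoop P)).2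
  have hg := pf_gr (adj (pLoop P)).1 (𝒞.zc_gr (n + 1))
  refine (hom2_Th P R 𝒞 h).trans ?_
  exact hopf_core (S := setS P R) (𝒞 := 𝒞) hA (Th P R) (Th_s0 P R) (Th_s1 P R) (Th_lo P R)
    (Th_hi P R) hg hg hz hz

end Crest.Agent.R204.HopfGlue339
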