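import Crest.Agent.R204.FactSph_478
import Crest.Agent.R204.EZInst_847
import Crest.Agent.R204.FreuD_297

/-!
# Row 204, block H (helper478): the interface between FactHopf and the Hopf invariant theorem

`HopfLow` = the Hopf invariant one statement on `Ω S^{d+1}` in terms of spherical simplices;
FactHopf for the concrete tower is derived from it (helper478), it is derived from the K-theory
side by helper339 / helper472.
-/

set_option autoImplicit false

open scoped TensorProduct Topology unitInterval Topology.Homotopy

namespace Crest.Agent.R204.HopfLow478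

open Crest.Agent.R204 Cone330 SphSS478 HspSS696 Cubes735 Hsp696 Freu297

/-- `Ω S^m` -/
abbrev OmS (m : ℕ) : Type := Om (Fin 1) (Sph m) (pt m)

/-- product of homology classes along a multiplication -/
noncomputable def pm {K : SS} (m : SS.Hom (K.prod K) K) (x y : H F2 K) : H F2 K :=
  H.map F2 m (EZ847.ezd.cr K K (x ⊗ₜ[F2] y))

/-- **Hopf invariant one**: a spherical class of `H_{2d}(Ω S^{d+1}; F2)`, `d = e + 1` odd, which is
the square of a non-zero spherical class of degree `d` exists only for `d = 1, 3, 7`. -/
def HopfLow : Prop := ∀ e : ℕ, Even e →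
  ∀ (a : (SS.Sing (OmS (e + 2))).S (e + 1)) (ha : IsSph (K := SS.Sing (OmS (e + 2))) eS a),
    scl a ha ≠ 0 →
  ∀ (φ : (SS.Sing (OmS (e + 2))).S (2 * e + 1 + 1))
    (hφ : IsSph (K := SS.Sing (OmS (e + 2))) eS φ),
    scl φ hφ = pm (mulS (halves (0 : Fin 1))) (scl a ha) (scl a ha) →
    e = 0 ∨ e = 2 ∨ e = 6

end Crest.Agent.R204.HopfLow478
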