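import Crest.Agent.R204.HopfGlueB_339
import Crest.Agent.R204.HopfLow_478
import Crest.Agent.R204.Collapse_477

/-!
# Row 204, block H, leaf H12 (helper339), part C

* `cub` : the cube form of a spherical simplex, `zcls_cub`;
* `pm_zcls` : the Pontryagin product of cube classes in `Ω S`;
* `exists_odd` : the Hopf map of the adjoint of `φ` has odd degree;
* `hopfLow` : `HopfLow` from `fund` (the cell of a sphere is non-zero in homology) and `KSide`.
-/

set_option autoImplicit false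

open scoped unitInterval Topology Topology.Homotopy TensorProduct

noncomputable section

namespace Crest.Agent.R204.HopfGlue339

open Crest.Agent.R204.HopfF2477 Crest.Agent.R204.SS
open Crest.Agent.R204.Freud661 Crest.Agent.R204.CubeSph661 Crest.Agent.R204.HDeg160
open Crest.Agent.R204.H472 Crest.Agent.R204.HopfMap484
open Crest.Agent.R204.Cubes735 Crest.Agent.R204.Hsp696 Crest.Agent.R204.HspSS696
open Crest.Agent.R204.Cone330 Crest.Agent.R204.SphSS478 Crest.Agent.R204.HopfLow478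
open Crest.Agent.R204.Freu297

/-! ## cube form of spherical simplices -/

section cub

variable {Y : Type} [TopologicalSpace Y] {y : Y} {n : ℕ}

/-- a simplex as a continuous map -/
abbrev cm (a : (Sing Y).S (n + 1)) : C(stdSimplex ℝ (Fin (n + 1 + 1)), Y) := a

theorem sph_bdry (a : (Sing Y).S (n + 1)) (ha : IsSph (SpecA.cst y 0) a)
    (s : stdSimplex ℝ (Fin (n + 1 + 1))) (hs : ∃ k, s k = 0) : cm a s = y :=
  boundary_of_faces (cm a) y (fun i => FactSph478.isSph_iff.2 ha i) s hs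

/-- cube form of a spherical simplex -/
def cub (a : (Sing Y).S (n + 1)) (ha : IsSph (SpecA.cst y 0) a) : Ω^ (Fin (n + 1)) Y y :=
  ⟨(cm a).comp (rho (n + 1)),
    fun x hx => sph_bdry a ha _ (rho_boundary x hx)⟩

theorem zcls_cub (a : (Sing Y).S (n + 1)) (ha : IsSph (SpecA.cst y 0) a) :
    zcls theCross (cub a ha) = scl a ha := by
  have h := pf_rho n (cm a) y (sph_bdry a ha)
  unfold zcls scl
  congr 1

end cub

/-! ## products -/

section prod

variable {S : Type} [TopologicalSpace S] {y : S}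

theorem map_mulS (u v : N F2 (Sing (Ω^ (Fin 1) S y))) :
    N.map F2 (mulS (Z := S) (z₀ := y) (halves (0 : Fin 1))) (EZ271.cross F2 u v) =
      pf (muL S y) (theCross.cr u v) := by
  show _ = N.map F2 _ (N.map F2 _ _)
  rw [← Nmap_comp]
  rfl

theorem bd_mu_cr {p q : ℕ} (u : Ω^ (Fin p) (Ω^ (Fin 1) S y) GenLoop.const)
    (v : Ω^ (Fin q) (Ω^ (Fin 1) S y) GenLoop.const) :
    N.bd F2 _ (pf (muL S y) (theCross.cr (pf u.1 (theCross.zc p)) (pf v.1 (theCross.zc q)))) = 0 := by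
  rw [← pf_bd, theCross.bd, theCross.bd_pf_zc p u.1 _ u.2, theCross.bd_pf_zc q v.1 _ v.2]
  simp

theorem pm_zcls {p q : ℕ} (u : Ω^ (Fin p) (Ω^ (Fin 1) S y) GenLoop.const)
    (v : Ω^ (Fin q) (Ω^ (Fin 1) S y) GenLoop.const) :
    HopfLow478.pm (mulS (Z := S) (z₀ := y) (halves (0 : Fin 1))) (zcls theCross u) (zcls theCross v) =
      Hd.mk (N.bd F2 _) (pf (muL S y) (theCross.cr (pf u.1 (theCross.zc p))
        (pf v.1 (theCross.zc q)))) (bd_mu_cr u v) := by
  unfold HopfLow478.pm zcls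
  have e := EZ847.crH_mk (K := Sing (Ω^ (Fin 1) S y)) (L := Sing (Ω^ (Fin 1) S y))
    (pf u.1 (theCross.zc p)) (theCross.bd_pf_zc p u.1 _ u.2)
    (pf v.1 (theCross.zc q)) (theCross.bd_pf_zc q v.1 _ v.2)
  unfold EZ847.crH at e
  refine (congrArg (H.map F2 (mulS (Z := S) (z₀ := y) (halves (0 : Fin 1)))) e).trans ?_
  unfold H.map
  rw [Hd.map_mk]
  congr 1
  exact map_mulS _ _

end prod

/-! ## casts of cube spheres -/

/-- cast of a cube sphere -/
def castCS {a b : ℕ} (h : a = b) {W : Type} [TopologicalSpace W] (R : CubeSphere a W) :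
    CubeSphere b W where
  p := R.p.comp ⟨fun x i => x (Fin.cast h i), by fun_prop⟩
  pt := R.pt
  surj := by subst h; exact R.surj
  bdry := by subst h; exact R.bdry
  inj := by subst h; exact R.inj

theorem castCS_pt {a b : ℕ} (h : a = b) {W : Type} [TopologicalSpace W] (R : CubeSphere a W) :
    (castCS h R).pt = R.pt := rfl

theorem pf_castCS (𝒞 : Cross) {a b : ℕ} (h : a = b) {W : Type} [TopologicalSpace W]
    (R : CubeSphere a W) : pf (castCS h R).p (𝒞.zc b) = pf R.p (𝒞.zc a) := by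
  subst h; rfl

/-! ## odd degree -/

/-- the Hopf map of `f`, as a loop in the metric sphere -/
def gS {e q : ℕ} (hq : q + 1 + 1 = (e + 1 + 1) + (e + 1 + 1))
    (f : Ω^ (Fin (q + 1)) (Sph (e + 1 + 1)) (pt (e + 1 + 1))) :
    Ω^ (Fin (q + 1 + 1)) (Sph (q + 1 + 1)) (pt (q + 1 + 1)) :=
  gf (sphCube (e + 1)) (castCS hq (sphCube (q + 1))) f

/-- the cell of a sphere is non-zero in homology -/
def Fund : Prop := ∀ n : ℕ, zcls theCross (pLoop (sphCube n)) ≠ 0

/-- the K-theoretic side -/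
def KSide : Prop := ∀ (e q : ℕ) (_ : Even e) (hq : q + 1 + 1 = (e + 1 + 1) + (e + 1 + 1))
  (f : Ω^ (Fin (q + 1)) (Sph (e + 1 + 1)) (pt (e + 1 + 1))) (D : ℤ), Odd D →
  cls (gS hq f) = cls (cell (q + 1 + 1)) ^ D → e = 0 ∨ e = 2 ∨ e = 6

theorem exists_odd (hfund : Fund) (hA : Acy) {e q : ℕ}
    (hq : q + 1 + 1 = (e + 1 + 1) + (e + 1 + 1))
    (f : Ω^ (Fin (q + 1)) (Sph (e + 1 + 1)) (pt (e + 1 + 1)))
    (h : Hom2 (pf (adj f).1 (theCross.zc q)) (pf (muL (Sph (e + 1 + 1)) (pt (e + 1 + 1)))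
      (theCross.cr (pf (adj (pLoop (sphCube (e + 1)))).1 (theCross.zc (e + 1)))
        (pf (adj (pLoop (sphCube (e + 1)))).1 (theCross.zc (e + 1)))))) :
    ∃ D : ℤ, Odd D ∧ cls (gS hq f) = cls (cell (q + 1 + 1)) ^ D := by
  have h1 := hom2_gf theCross hA (sphCube (e + 1)) (castCS hq (sphCube (q + 1))) f h
  rw [pf_castCS] at h1
  have h2 : zcls theCross (gS hq f) = zcls theCross (pLoop (sphCube (q + 1))) :=
    zcls_eq_of_hom2 _ _ h1
  obtain ⟨D, hD, -, hD2⟩ := exists_degree theCross (sphCube (q + 1)) (gS hq f)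
  exact ⟨D, (odd_of_smul_ne hD2 (fun hh => hfund _ (h2.symm.trans hh))).1, hD⟩

theorem hom2_of_mk {K : SS} {a b : N F2 K} {ha : N.bd F2 K a = 0} {hb : N.bd F2 K b = 0}
    (h : Hd.mk (N.bd F2 K) a ha = Hd.mk (N.bd F2 K) b hb) : Hom2 a b := by
  rw [Hd.mk_eq_mk] at h
  obtain ⟨w, hw⟩ := h
  refine ⟨w, ?_⟩
  rw [hw]
  have : b = -b := by
    rw [eq_neg_iff_add_eq_zero]; exact add_self' b
  rw [sub_eq_add_neg, ← this]

/-- **HopfLow** from the fundamental class and the K-theoretic side -/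
theorem hopfLow (hfund : Fund) (hA : Acy) (hK : KSide) : HopfLow := by
  intro e he a ha hne φ hφ h
  have ha' : IsSph (SpecA.cst (GenLoop.const : Ω^ (Fin 1) (Sph (e + 1 + 1)) (pt (e + 1 + 1))) 0) a :=
    ha
  have hφ' : IsSph (SpecA.cst (GenLoop.const : Ω^ (Fin 1) (Sph (e + 1 + 1)) (pt (e + 1 + 1))) 0) φ :=
    hφ
  -- degree of `a`
  obtain ⟨D0, hD0⟩ := cube_gen (e + 1) (sphCube (e + 1)) (unadj (cub a ha'))
  have h1 := zcls_adj_degree theCross (pLoop (sphCube (e + 1))) (unadj (cub a ha')) D0 hD0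
  rw [adj_unadj, zcls_cub] at h1
  have h2 : scl a ha = zcls theCross (adj (pLoop (sphCube (e + 1)))) := (odd_of_smul_ne h1 hne).2
  -- the adjoint of `φ`
  have hq : 2 * e + 1 + 1 + 1 + 1 = (e + 1 + 1) + (e + 1 + 1) := by omega
  let f := unadj (cub φ hφ')
  have h3 : Hom2 (pf (adj f).1 (theCross.zc (2 * e + 1 + 1)))
      (pf (muL (Sph (e + 1 + 1)) (pt (e + 1 + 1)))
      (theCross.cr (pf (adj (pLoop (sphCube (e + 1)))).1 (theCross.zc (e + 1)))
        (pf (adj (pLoop (sphCube (e + 1)))).1 (theCross.zc (e + 1))))) := by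
    refine hom2_of_mk (ha := theCross.bd_pf_zc _ (adj f).1 GenLoop.const (adj f).2)
      (hb := bd_mu_cr _ _) ?_
    refine Eq.trans ?_ (pm_zcls _ _)
    show zcls theCross (adj (unadj (cub φ hφ'))) = _
    rw [adj_unadj, zcls_cub]
    refine h.trans ?_
    rw [h2]
    rfl
  obtain ⟨D, hD, hD2⟩ := exists_odd hfund hA hq f h3
  exact hK e _ he hq f D hD hD2

end Crest.Agent.R204.HopfGlue339
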