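import Crest.Agent.R204.HopfGlueC_339
import Crest.Agent.R204.HDegX_160
import Crest.Agent.R204.Sph_94e

/-!
# Row 204, block H, leaf H12 (helper339), part E: `Fund`
-/

set_option autoImplicit false

open scoped unitInterval Topology Topology.Homotopy

noncomputable section

namespace Crest.Agent.R204.HopfGlue339

open Crest.Agent.R204.HopfF2477 Crest.Agent.R204.SS
open Crest.Agent.R204.Freud661 Crest.Agent.R204.CubeSph661 Crest.Agent.R204.HDeg160
open Crest.Agent.R204.Freu297

theorem rho_isFace (n : ℕ) : IsFace (rho n) :=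
  ⟨fun x i h => rho_castSucc x i h, fun x i h => rho_succ x i h⟩

/-- **the cell of a sphere is non-zero in homology** -/
theorem fund : Fund := by
  intro n h0
  obtain ⟨b, hb, hbmu, hom⟩ := exists_simplex_homotopic (rho_isFace (n + 1)) (pLoop (sphCube n))
  have hcol := collapse_of_mu (b := b) (g := (sphCube n).p) hbmu (sphCube n).surj (sphCube n).inj
  have hface : ∀ i, (SS.Sing (Sph (n + 1))).act (Op.face i) b = SpecA.cst (pt (n + 1)) n :=
    fun i => (sph_iff b).1 hb i
  have h1 := zcls_homotopic theCross _ _ hom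
  have h2 := pf_rho n b (pt (n + 1)) hb
  have hbz : N.bd F2 (SS.Sing (Sph (n + 1)))
      (N.sx (K := SS.Sing (Sph (n + 1))) (n := n + 1) F2 b) = 0 := by
    rw [← h2]
    exact theCross.bd_pf_zc (n + 1) _ (pt (n + 1))
      (fun x hx => hb _ (rho_boundary x hx))
  refine Sph94.collapseGen n (pt (n + 1)) b hface hcol.1 hcol.2 hbz ?_
  rw [← h0, ← h1]
  unfold zcls
  congr 1
  exact h2.symm

end Crest.Agent.R204.HopfGlue339
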