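import Mathlib
import Crest.Agent.R204.HMainC_515
import Crest.Agent.R204.HDegQ_160

/-!
# Row 204, block H: co-H structure, smash and cell for cube spheres; final K-side theorem (helper515)
-/

set_option autoImplicit false

open scoped unitInterval Topology Topology.Homotopy

noncomputable section

namespace Crest.Agent.R204.HMain515

open H472 Ex837 ExM515 Diag484 HopfMap484 HDeg160 Freud661 CubeSph661
open K357 (K0 psi psi_map psi_comm psi_two)

/-! ## co-H structure of a collapsed cube -/

section CoH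

variable {N : Type} {Y : Type} [TopologicalSpace Y] [T2Space Y] {y : Y}

/-- descend a deformation of the cube -/
theorem exists_descend (c : Collapse N Y y) (w : C(I × (N → I), N → I))
    (hw : ∀ t x, x ∈ Cube.boundary N → w (t, x) ∈ Cube.boundary N) :
    ∃ W : C(I × Y, Y), ∀ t x, W (t, c.p x) = c.p (w (t, x)) := by
  let q : C(I × (N → I), I × Y) := ⟨fun z => (z.1, c.p z.2), by fun_prop⟩
  have hq : Topology.IsQuotientMap q := by
    refine (q.continuous.isClosedMap).isQuotientMap q.continuous ?_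
    rintro ⟨t, b⟩
    obtain ⟨x, rfl⟩ := c.surj b
    exact ⟨(t, x), rfl⟩
  let F : C(I × (N → I), Y) := c.p.comp w
  have hF : ∀ a b, q a = q b → F a = F b := by
    rintro ⟨t, x⟩ ⟨t', x'⟩ h
    have h1 : t = t' := congrArg Prod.fst h
    have h2 : c.p x = c.p x' := congrArg Prod.snd h
    subst h1
    rcases c.fib x x' h2 with h3 | ⟨h3, h4⟩
    · rw [h3]
    · change c.p (w (t, x)) = c.p (w (t, x'))
      rw [(c.bd _).2 (hw t x h3), (c.bd _).2 (hw t x' h4)]
  refine ⟨hq.lift F hF, fun t x => ?_⟩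
  have := congrArg (fun k : C(I × (N → I), Y) => k (t, x)) (hq.lift_comp F hF)
  exact this

/-- co-H structure from relative co-H data on the cube -/
def cohOf (c : Collapse N Y y) (P : CoP (N → I) (Cube.boundary N)) : CoH Y y where
  W := (exists_descend c P.w P.w_mem).choose
  W' := (exists_descend c P.w' P.w'_mem).choose
  W_zero b := by
    obtain ⟨x, rfl⟩ := c.surj b
    rw [(exists_descend c P.w P.w_mem).choose_spec, P.w_zero]
  W'_zero b := by
    obtain ⟨x, rfl⟩ := c.surj b
    rw [(exists_descend c P.w' P.w'_mem).choose_spec, P.w'_zero]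
  W_base t := by
    obtain ⟨x, hx⟩ := c.surj y
    have h := (exists_descend c P.w P.w_mem).choose_spec t x
    rw [hx] at h
    rw [h]
    exact (c.bd _).2 (P.w_mem t x ((c.bd x).1 hx))
  W'_base t := by
    obtain ⟨x, hx⟩ := c.surj y
    have h := (exists_descend c P.w' P.w'_mem).choose_spec t x
    rw [hx] at h
    rw [h]
    exact (c.bd _).2 (P.w'_mem t x ((c.bd x).1 hx))
  one b := by
    obtain ⟨x, rfl⟩ := c.surj b
    rw [(exists_descend c P.w P.w_mem).choose_spec, (exists_descend c P.w' P.w'_mem).choose_spec]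
    exact (P.one x).imp (c.bd _).2 (c.bd _).2

theorem cohOf_W (c : Collapse N Y y) (P : CoP (N → I) (Cube.boundary N)) (t : I) (x : N → I) :
    (cohOf c P).W (t, c.p x) = c.p (P.w (t, x)) :=
  (exists_descend c P.w P.w_mem).choose_spec t x

theorem cohOf_W' (c : Collapse N Y y) (P : CoP (N → I) (Cube.boundary N)) (t : I) (x : N → I) :
    (cohOf c P).W' (t, c.p x) = c.p (P.w' (t, x)) :=
  (exists_descend c P.w' P.w'_mem).choose_spec t x

end CoH

/-! ## cube spheres -/

section CubeSphere

variable {S W : Type} [TopologicalSpace S] [T2Space S] [TopologicalSpace W]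

/-- a cube sphere is a collapse -/
def colOf {n : ℕ} (hn : 0 < n) (R : CubeSphere n W) : Collapse (Fin n) W R.pt where
  p := R.p
  surj := R.surj
  fib := R.inj
  bd x := ⟨R.mem_bdry_of_p_eq hn, R.bdry x⟩

theorem colOf_loop {n : ℕ} (hn : 0 < n) (R : CubeSphere n W) : (colOf hn R).loop = pLoop R := rfl

/-- the smash collapse -/
def smashOf {m : ℕ} (hm : 0 < m) (P : CubeSphere m S) (R : CubeSphere (m + m) W) :
    SmashMap P.pt R.pt where
  sm := smash P P R
  surj := smash_surjective P P R
  iff z := smash_eq_pt_iff P P R hm hm z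
  inj _ _ h := smash_inj P P R hm hm h

end CubeSphere

/-- co-H structure of the metric sphere `S^{k+1}` -/
def cohSph (k : ℕ) : CoH (Freu297.Sph (k + 1)) (Freu297.pt (k + 1)) :=
  cohOf (colOf k.succ_pos (sphCube k)) (CoP.cube (Fin.last k))

/-- `K̃(S^N) = 0` -/
def KZero (N : Type) : Prop := ∀ x : KC (SA N), kN (fun _ => (0 : I)) x = 0 → x = 0

/-- **final K-side theorem**: Hopf invariant one for `f : S^{2k+1} → S^{k+1}`, `k + 1 = 2 a`, the
`K`-groups being an input. -/
theorem hopf_sphere {k a : ℕ} (ha : 1 ≤ a) (K : KIn a (Freu297.pt (k + 1)))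
    (hSN : KZero (Fin (k + 1 + k)))
    (P : CoP (Fin (k + 1 + k) → I) (Cube.boundary (Fin (k + 1 + k))))
    (c : CoH (Freu297.Sph (k + 1)) (Freu297.pt (k + 1)))
    (f : GenLoop (Fin (k + 1 + k)) (Freu297.Sph (k + 1)) (Freu297.pt (k + 1)))
    (g : GenLoop (Fin (k + 1 + k + 1)) (Freu297.Sph (k + 1 + k + 1))
      (Freu297.pt (k + 1 + k + 1)))
    (hg : ∀ z, g (H472.snocHomeo (k + 1 + k) z) =
      smash (sphCube k) (sphCube k) (sphCube (k + 1 + k))
        (G P c (f : C(Fin (k + 1 + k) → I, Freu297.Sph (k + 1))) z))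
    {D : ℤ} (hD : cls g = cls (cell (k + 1 + k + 1)) ^ D) (hodd : Odd D) :
    a = 1 ∨ a = 2 ∨ a = 4 := by
  have : NeZero (k + 1 + k) := ⟨by omega⟩
  exact hopf_of_degree P c ha K hSN (smashOf k.succ_pos (sphCube k) (sphCube (k + 1 + k)))
    (colOf (Nat.succ_pos _) (sphCube (k + 1 + k))) f g hg hD hodd

end Crest.Agent.R204.HMain515
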