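import Crest.Agent.R204.Odd2_369
import Crest.Agent.R204.HopfKa_515

/-!
# Row 204, block H: `KZero` for odd cubes in helper515's form, helper369
-/

set_option autoImplicit false

open scoped unitInterval
open Crest.Agent.R204.K357 Crest.Agent.R204.H472

namespace Crest.Agent.R204.BottK369

theorem kZero_odd (a : ℕ) : HMain515.KZero (Fin (2 * a + 1)) := by
  intro x hx
  exact kn_SA_odd a (x₀ := fun _ => 0) ⟨0, Or.inl rfl⟩ x hx

theorem kZero_of_odd {n : ℕ} (h : Odd n) : HMain515.KZero (Fin n) := by
  obtain ⟨a, rfl⟩ := h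
  exact kZero_odd a

end Crest.Agent.R204.BottK369
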