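import Crest.Agent.R204.HopfGlueD_339
import Crest.Agent.R204.HopfGlueE_339
import Crest.Agent.R204.KZero_369

/-!
# Row 204, block H, leaf H12 (helper339), part F: `HopfLow` from the K-theory of even spheres
-/

set_option autoImplicit false

noncomputable section

namespace Crest.Agent.R204.HopfGlue339

theorem kOdd : KOdd := fun _ h => BottK369.kZero_of_odd h

/-- `HopfLow` from the K-theory of even spheres -/
theorem hopfLow_of_even (h : KEven) : HopfLow478.HopfLow :=
  hopfLow fund HopfF2477.acy (kside kOdd h)

end Crest.Agent.R204.HopfGlue339
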