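import Mathlib
import Crest.Agent.R204.HopfCube_477
import Crest.Agent.R204.Collapse_477
import Crest.Agent.R204.HDegX_160
import Crest.Agent.R204.HDegF_160
import Crest.Agent.R204.HopfMap_484
import Crest.Agent.R204.Sph_94e
import Crest.Agent.R204.HopfLow_478

/-!
# Row 204, leaf H10 (helper477): the F2 side of the Hopf invariant, concrete form

* `loopSetting P c R` : the `Setting` of the loop space of a cube sphere
* `hopf_loop` : the fundamental class of the Hopf map of 484 of `f` is the fundamental class of `S ∧ S`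
  if the adjoint of `f` is mod 2 the square of the adjoint of the collapse `P.p`
* `fund` : the fundamental class of the sphere is non zero
* `exists_odd` : the Hopf map has odd degree
-/

set_option autoImplicit false

open scoped unitInterval Topology Topology.Homotopy TensorProduct

namespace Crest.Agent.R204.HopfF2477

open SS Finsupp
open Freud661 (CubeSphere)
open CubeSph661 (pLoop)
open HDeg160 H472 HspSS696 Hsp696 Cubes735
open HopfMap484 (CoP G GG)

section inst

variable {Y W : Type} [TopologicalSpace Y] [TopologicalSpace W]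

/-- cast of a cube sphere along an equality of dimensions -/
def castCS {m n : ℕ} (h : m = n) (R : CubeSphere n W) : CubeSphere m W where
  p := R.p.comp (castM h)
  pt := R.pt
  surj := by subst h; exact R.surj
  bdry := by subst h; exact R.bdry
  inj := by subst h; exact R.inj

theorem castCS_p {m n : ℕ} (h : m = n) (R : CubeSphere n W) (x : Fin m → I) :
    (castCS h R).p x = R.p (castM h x) := rfl

/-- evaluation of loops -/
def evL (y : Y) : C(Om (Fin 1) Y y × I, Y) :=
  ⟨fun p => p.1 (fun _ => p.2), by fun_prop⟩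

theorem evL_apply (y : Y) (l : Om (Fin 1) Y y) (s : I) : evL y (l, s) = l (fun _ => s) := rfl

theorem evL_zero (y : Y) (l : Om (Fin 1) Y y) : evL y (l, 0) = y :=
  GenLoop.boundary l _ ⟨0, Or.inl rfl⟩

theorem evL_one (y : Y) (l : Om (Fin 1) Y y) : evL y (l, 1) = y :=
  GenLoop.boundary l _ ⟨0, Or.inr rfl⟩

/-- multiplication of loops -/
noncomputable def muL (y : Y) : C(Om (Fin 1) Y y × Om (Fin 1) Y y, Om (Fin 1) Y y) :=
  mu2 (halves (0 : Fin 1))

theorem muL_eq (y : Y) (l l' : Om (Fin 1) Y y) : muL y (l, l') = GenLoop.transAt 0 l l' := by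
  show mu (halves (0 : Fin 1)) ![l, l'] = _
  exact mu_halves 0 l l'

theorem snoc_one (s : I) (x : Fin 0 → I) : (Fin.snoc (α := fun _ => I) x s : Fin 1 → I) = fun _ => s := by
  funext i
  have : i = Fin.last 0 := Fin.ext (by omega)
  subst this
  rw [Fin.snoc_last]

theorem evL_lo (y : Y) (l l' : Om (Fin 1) Y y) (s : I) : evL y (muL y (l, l'), lo s) = evL y (l, s) := by
  rw [evL_apply, evL_apply, muL_eq]
  have h := transAt_lo (n := 0) l l' (fun i => i.elim0) s
  rw [snoc_one, snoc_one] at h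
  exact h

theorem evL_hi (y : Y) (l l' : Om (Fin 1) Y y) (s : I) : evL y (muL y (l, l'), hi s) = evL y (l', s) := by
  rw [evL_apply, evL_apply, muL_eq]
  have h := transAt_hi (n := 0) l l' (fun i => i.elim0) s
  rw [snoc_one, snoc_one] at h
  exact h

variable [T2Space Y]

/-- the setting of a cube sphere `Y`, its smash square `W` and a co-H structure -/
noncomputable def loopSetting {m : ℕ} (hm : 0 < m) (P : CubeSphere m Y) (R : CubeSphere (m + m) W)
    (c : CoH Y P.pt) : Setting where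
  L := Om (Fin 1) Y P.pt
  Y := Y
  W := W
  y0 := P.pt
  w0 := R.pt
  ev := evL P.pt
  ev0 := evL_zero P.pt
  ev1 := evL_one P.pt
  mu := muL P.pt
  ev_lo := evL_lo P.pt
  ev_hi := evL_hi P.pt
  pr := smash P P R
  pr_left y := (smash_eq_pt_iff P P R hm hm _).2 (Or.inl rfl)
  pr_right y := (smash_eq_pt_iff P P R hm hm _).2 (Or.inr rfl)
  nh := (smash P P R).comp ⟨fun q => (c.W (q.2, q.1), c.W' (q.2, q.1)), by fun_prop⟩
  nh0 y := by
    show smash P P R (c.W (0, y), c.W' (0, y)) = _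
    rw [c.W_zero, c.W'_zero]
  nh1 y := by
    show smash P P R (c.W (1, y), c.W' (1, y)) = _
    exact (smash_eq_pt_iff P P R hm hm _).2 (c.one y)
  nh_base t := by
    show smash P P R (c.W (t, P.pt), c.W' (t, P.pt)) = _
    exact (smash_eq_pt_iff P P R hm hm _).2 (Or.inl (c.W_base t))

/-- the universal Hopf map of 484 -/
noncomputable def ThL {m : ℕ} (P : CubeSphere m Y) (R : CubeSphere (m + m) W) (c : CoH Y P.pt) :
    C(Om (Fin 1) Y P.pt × (I × I), W) :=
  (smash P P R).comp ⟨fun q =>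
    (c.W (HopfMap484.dn q.2.2, evL P.pt (q.1, HopfMap484.wl (HopfMap484.up q.2.2) q.2.1)),
     c.W' (HopfMap484.dn q.2.2, evL P.pt (q.1, HopfMap484.wr (HopfMap484.up q.2.2) q.2.1))), by
    fun_prop⟩

theorem wl484 (s t : I) : HopfMap484.wl t s = wl (s, t) := by
  apply Subtype.ext
  rw [wl_coe]
  unfold HopfMap484.wl
  rw [Set.coe_projIcc]
  have h1 : 0 ≤ (1 + (t : ℝ)) * s := mul_nonneg (by linarith [t.2.1]) s.2.1
  rw [max_eq_right (le_min zero_le_one h1)]

theorem wr484 (s t : I) : HopfMap484.wr t s = wr (s, t) := by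
  apply Subtype.ext
  rw [wr_coe]
  unfold HopfMap484.wr
  rw [Set.coe_projIcc]
  have h1 : (1 + (t : ℝ)) * s - t ≤ 1 := by nlinarith [t.2.1, t.2.2, s.2.1, s.2.2]
  rw [min_eq_right h1]

theorem up_lo (t : I) : HopfMap484.up (lo t) = 0 :=
  HopfMap484.up_of_le (by show (t : ℝ) / 2 ≤ 1 / 2; linarith [t.2.2])

theorem dn_hi (t : I) : HopfMap484.dn (hi t) = 0 :=
  HopfMap484.dn_of_ge (by show 1 / 2 ≤ (1 + (t : ℝ)) / 2; linarith [t.2.1])

theorem dn_lo (t : I) : HopfMap484.dn (lo t) = rev t := by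
  apply Subtype.ext
  rw [HopfMap484.coe_dn]
  show max 0 (1 - 2 * ((t : ℝ) / 2)) = 1 - (t : ℝ)
  rw [max_eq_right (by linarith [t.2.2])]
  ring

theorem up_hi (t : I) : HopfMap484.up (hi t) = t := by
  apply Subtype.ext
  rw [HopfMap484.coe_up]
  show max 0 (2 * ((1 + (t : ℝ)) / 2) - 1) = (t : ℝ)
  rw [max_eq_right (by linarith [t.2.1])]
  ring

section Th

variable {m : ℕ} (P : CubeSphere m Y) (R : CubeSphere (m + m) W) (c : CoH Y P.pt)

theorem ThL_apply (l : Om (Fin 1) Y P.pt) (s t : I) : ThL P R c (l, (s, t)) = smash P P R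
    (c.W (HopfMap484.dn t, evL P.pt (l, HopfMap484.wl (HopfMap484.up t) s)),
     c.W' (HopfMap484.dn t, evL P.pt (l, HopfMap484.wr (HopfMap484.up t) s))) := rfl

theorem ThL_0 (hm : 0 < m) (l : Om (Fin 1) Y P.pt) (t : I) : ThL P R c (l, (0, t)) = R.pt := by
  rw [ThL_apply]
  refine (smash_eq_pt_iff P P _ hm hm _).2 (Or.inl ?_)
  show c.W (HopfMap484.dn t, evL P.pt (l, HopfMap484.wl (HopfMap484.up t) 0)) = P.pt
  rw [HopfMap484.wl_right_zero, evL_zero, c.W_base]

theorem ThL_1 (hm : 0 < m) (l : Om (Fin 1) Y P.pt) (t : I) : ThL P R c (l, (1, t)) = R.pt := by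
  rw [ThL_apply]
  refine (smash_eq_pt_iff P P _ hm hm _).2 (Or.inl ?_)
  show c.W (HopfMap484.dn t, evL P.pt (l, HopfMap484.wl (HopfMap484.up t) 1)) = P.pt
  rw [HopfMap484.wl_right_one, evL_one, c.W_base]

theorem ThL_lo (l : Om (Fin 1) Y P.pt) (s t : I) : ThL P R c (l, (s, lo t)) =
    smash P P R (c.W (rev t, evL P.pt (l, s)), c.W' (rev t, evL P.pt (l, s))) := by
  rw [ThL_apply, up_lo, dn_lo, HopfMap484.wl_zero, HopfMap484.wr_zero]

theorem ThL_hi (l : Om (Fin 1) Y P.pt) (s t : I) : ThL P R c (l, (s, hi t)) =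
    smash P P R (evL P.pt (l, wl (s, t)), evL P.pt (l, wr (s, t))) := by
  rw [ThL_apply, up_hi, dn_hi, c.W_zero, c.W'_zero, wl484, wr484]

theorem ThL_G {q : ℕ} (l : Om (Fin 1) Y P.pt) (f : C(Fin (q + 1) → I, Y)) (z : Fin (q + 1) → I)
    (s t : I) (hf : ∀ s', f (Function.update z (Fin.last q) s') = l (fun _ => s'))
    (hz : z (Fin.last q) = s) :
    smash P P R (G (CoP.cube (Fin.last q)) c f (z, t)) = ThL P R c (l, (s, t)) := by
  rw [ThL_apply]
  show smash P P _ (c.W (HopfMap484.dn t, f (Function.update z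
        (Fin.last q) (HopfMap484.wl (HopfMap484.up t) (z (Fin.last q))))),
      c.W' (HopfMap484.dn t, f (Function.update z
        (Fin.last q) (HopfMap484.wr (HopfMap484.up t) (z (Fin.last q)))))) = _
  rw [hf, hf, hz]
  rfl

end Th

/-- **H10 for loops** -/
theorem hopf_loop_hom2 {k q r : ℕ} (P : CubeSphere (k + 1 + 1) Y) (R : CubeSphere r W)
    (hr : (k + 1 + 1) + (k + 1 + 1) = r) (c : CoH Y P.pt)
    (E : C(Fin (k + 1) → I, Om (Fin 1) Y P.pt))
    (hE : ∀ x s, E x (fun _ => s) = P.p (Fin.snoc (α := fun _ => I) x s))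
    (φ : C(Fin q → I, Om (Fin 1) Y P.pt))
    (hφ : Hom2 (pf φ (theCross.zc q))
      (pf (muL P.pt) (theCross.cr (pf E (theCross.zc (k + 1))) (pf E (theCross.zc (k + 1))))))
    (f : C(Fin (q + 1) → I, Y)) (hf : ∀ x s, f (Fin.snoc (α := fun _ => I) x s) = φ x (fun _ => s))
    (g : C(Fin (q + 1 + 1) → I, W))
    (hg : ∀ z t, g (Fin.snoc (α := fun _ => I) z t) =
      smash P P (castCS hr R) (G (CoP.cube (Fin.last q)) c f (z, t))) :
    Hom2 (pf g (theCross.zc (q + 1 + 1))) (pf R.p (theCross.zc r)) := by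
  have hE0 : ∀ x ∈ Cube.boundary (Fin (k + 1)), E x = GenLoop.const := by
    intro x hx
    ext z
    have hz : z = fun _ => z 0 := by
      funext i
      rw [Subsingleton.elim i 0]
    rw [hz, hE]
    obtain ⟨i, hi⟩ := hx
    rw [P.bdry _ ⟨i.castSucc, by rwa [Fin.snoc_castSucc]⟩]
    rfl
  refine hopf_cube (𝒞 := theCross)
    (S := loopSetting (by omega) P (castCS hr R) c) acy (ThL P (castCS hr R) c)
    ?_ ?_ ?_ ?_ GenLoop.const E hE0 P.p (fun x s => (hE x s).symm) φ hφ g ?_ R.p hr ?_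
  · exact ThL_0 P _ c (by omega)
  · exact ThL_1 P _ c (by omega)
  · exact ThL_lo P _ c
  · exact ThL_hi P _ c
  · intro x s t
    exact (hg _ t).trans (ThL_G P _ c (φ x) f (Fin.snoc (α := fun _ => I) x s) s t (fun s' => by
      rw [Fin.update_snoc_last, hf]) (by rw [Fin.snoc_last]))
  · intro y y'
    show R.p (castM hr (Fin.append y y')) = smash P P (castCS hr R) (P.p y, P.p y')
    rw [smash_p, castCS_p]

end inst

section fund

theorem isFace_rho (n : ℕ) : IsFace (rho n) := ⟨rho_castSucc, rho_succ⟩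

/-- simplex = cube -/
theorem zcls_cubeOf {Y : Type} [TopologicalSpace Y] {y : Y} {n : ℕ} (b : C(Dlt (n + 1), Y))
    (hb : ∀ s ∈ bdD (n + 1), b s = y)
    (hz : N.bd F2 (Sing Y) (N.sx F2 (K := Sing Y) (n := n + 1) b) = 0) :
    zcls theCross (cubeOf (rho (n + 1)) (isFace_rho _).mem b hb) =
      Hd.mk (N.bd F2 (Sing Y)) (N.sx F2 (K := Sing Y) (n := n + 1) b) hz := by
  have e2 := pf_rho n b y (fun s hs => hb s hs)
  unfold zcls
  exact Hd.mk_eq_mk.2 ⟨0, by
    rw [map_zero]
    exact (sub_eq_zero.2 e2).symm⟩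

/-- **FUND** -/
theorem fund (n : ℕ) : zcls theCross (pLoop (sphCube n)) ≠ 0 := by
  obtain ⟨b, hb, h1, h2⟩ := exists_simplex_homotopic (isFace_rho (n + 1)) (pLoop (sphCube n))
  rw [← zcls_homotopic theCross _ _ h2]
  have hz : N.bd F2 (Sing (Freu297.Sph (n + 1)))
      (N.sx F2 (K := Sing (Freu297.Sph (n + 1))) (n := n + 1) b) = 0 := by
    rw [← pf_rho n b _ (fun s hs => hb s hs)]
    exact theCross.bd_pf_zc _ _ _ (cubeOf (rho (n + 1)) (isFace_rho _).mem b hb).2
  rw [zcls_cubeOf b hb hz]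
  obtain ⟨hs, hi⟩ := collapse_of_mu h1 (sphCube n).surj (sphCube n).inj
  exact Sph94.collapseGen n _ b ((sph_iff b).1 hb) hs hi hz

end fund

section adj

variable {Y : Type} [TopologicalSpace Y] {y : Y}

/-- adjoint of a generalised loop (last coordinate) -/
def adj {n : ℕ} (g : Ω^ (Fin (n + 1)) Y y) : Ω^ (Fin n) (Om (Fin 1) Y y) GenLoop.const :=
  ⟨⟨fun x => ⟨⟨fun s => g (Fin.snoc (α := fun _ => I) x (s 0)), by
      refine g.1.continuous.comp ?_
      exact (snocM n).continuous.comp (by fun_prop : Continuous fun s : Fin 1 → I => (x, s 0))⟩, by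
      rintro s ⟨i, hi⟩
      refine GenLoop.boundary g _ ⟨Fin.last n, ?_⟩
      rw [Fin.snoc_last]
      rwa [Subsingleton.elim i 0] at hi⟩, by
    refine Continuous.subtype_mk (ContinuousMap.continuous_of_continuous_uncurry _ ?_) _
    refine g.1.continuous.comp ?_
    exact (snocM n).continuous.comp
      (by fun_prop : Continuous fun p : (Fin n → I) × (Fin 1 → I) => (p.1, p.2 0))⟩, by
    rintro x ⟨i, hi⟩
    ext s
    refine GenLoop.boundary g _ ⟨i.castSucc, ?_⟩
    rwa [Fin.snoc_castSucc]⟩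

theorem adj_apply {n : ℕ} (g : Ω^ (Fin (n + 1)) Y y) (x : Fin n → I) (s : Fin 1 → I) :
    adj g x s = g (Fin.snoc (α := fun _ => I) x (s 0)) := rfl

/-- inverse of `adj` -/
def unadj {n : ℕ} (E : Ω^ (Fin n) (Om (Fin 1) Y y) GenLoop.const) : Ω^ (Fin (n + 1)) Y y :=
  ⟨⟨fun z => evL y (E (Fin.init z), z (Fin.last n)), by
      refine (evL y).continuous.comp ?_
      refine Continuous.prodMk (E.1.continuous.comp ?_) (by fun_prop)
      exact continuous_pi fun i => continuous_apply (Fin.castSucc i)⟩, by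
    rintro z ⟨i, hi⟩
    show evL y (E (Fin.init z), z (Fin.last n)) = y
    revert hi
    refine Fin.lastCases ?_ (fun j => ?_) i
    · rintro (h | h)
      · rw [h, evL_zero]
      · rw [h, evL_one]
    · intro h
      rw [GenLoop.boundary E (Fin.init z) ⟨j, h⟩]
      rfl⟩

theorem unadj_apply {n : ℕ} (E : Ω^ (Fin n) (Om (Fin 1) Y y) GenLoop.const) (z : Fin (n + 1) → I) :
    unadj E z = E (Fin.init z) (fun _ => z (Fin.last n)) := rfl

theorem unadj_snoc {n : ℕ} (E : Ω^ (Fin n) (Om (Fin 1) Y y) GenLoop.const) (x : Fin n → I) (s : I) :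
    unadj E (Fin.snoc (α := fun _ => I) x s) = E x (fun _ => s) := by
  rw [unadj_apply, Fin.init_snoc, Fin.snoc_last]

theorem adj_unadj {n : ℕ} (E : Ω^ (Fin n) (Om (Fin 1) Y y) GenLoop.const) : adj (unadj E) = E := by
  ext x s
  rw [adj_apply, unadj_snoc]
  congr 1
  funext i
  rw [Subsingleton.elim i 0]

theorem adj_homotopic {n : ℕ} (f g : Ω^ (Fin (n + 1)) Y y) (h : GenLoop.Homotopic f g) :
    GenLoop.Homotopic (adj f) (adj g) := by
  obtain ⟨H⟩ := h
  have hH : ∀ (t : I) (z : Fin (n + 1) → I), z ∈ Cube.boundary (Fin (n + 1)) → H (t, z) = y :=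
    fun t z hz => (H.prop' t z hz).trans (GenLoop.boundary f z hz)
  refine ⟨⟨⟨⟨fun p => ⟨⟨fun s => H (p.1, Fin.snoc (α := fun _ => I) p.2 (s 0)), ?_⟩, ?_⟩, ?_⟩, ?_, ?_⟩, ?_⟩⟩
  · refine H.continuous.comp (Continuous.prodMk continuous_const ?_)
    exact (snocM n).continuous.comp (by fun_prop : Continuous fun s : Fin 1 → I => (p.2, s 0))
  · rintro s ⟨i, hi⟩
    refine hH _ _ ⟨Fin.last n, ?_⟩
    rw [Fin.snoc_last]
    rwa [Subsingleton.elim i 0] at hi
  · refine Continuous.subtype_mk (ContinuousMap.continuous_of_continuous_uncurry _ ?_) _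
    refine H.continuous.comp (Continuous.prodMk (by fun_prop) ?_)
    exact (snocM n).continuous.comp
      (by fun_prop : Continuous fun p : (I × (Fin n → I)) × (Fin 1 → I) => (p.1.2, p.2 0))
  · intro x
    ext s
    exact H.apply_zero _
  · intro x
    ext s
    exact H.apply_one _
  · rintro t x ⟨i, hi⟩
    ext s
    have hb : (Fin.snoc (α := fun _ => I) x (s 0) : Fin (n + 1) → I) ∈ Cube.boundary (Fin (n + 1)) :=
      ⟨i.castSucc, by rwa [Fin.snoc_castSucc]⟩
    exact (hH t _ hb).trans (GenLoop.boundary f _ hb).symm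

theorem adj_transAt {n : ℕ} (f g : Ω^ (Fin (n + 1)) Y y) (i : Fin n) :
    adj (GenLoop.transAt i.castSucc f g) = GenLoop.transAt i (adj f) (adj g) := by
  ext x s
  rw [adj_apply]
  simp only [GenLoop.transAt, GenLoop.coe_copy]
  rw [Fin.snoc_castSucc]
  split_ifs with h
  · rw [adj_apply, Fin.snoc_update]
  · rw [adj_apply, Fin.snoc_update]

theorem zcls_adj_degree {n : ℕ} (𝒞 : Cross) (ι g : Ω^ (Fin (n + 1 + 1)) Y y) (D : ℤ)
    (h : cls g = cls ι ^ D) : zcls 𝒞 (adj g) = D • zcls 𝒞 (adj ι) :=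
  additive_degree (Fin.last n).castSucc (fun g => zcls 𝒞 (adj g))
    (fun f g h => zcls_homotopic 𝒞 _ _ (adj_homotopic f g h))
    (fun f g => by
      show zcls 𝒞 (adj _) = _
      rw [adj_transAt, zcls_transAt]) ι g D h

end adj

section simplices

/-- a singular simplex as a continuous map -/
def asC {Z : Type} [TopologicalSpace Z] {n : ℕ} (b : (Sing Z).S n) : C(Dlt n, Z) := b

/-- spherical simplices are constant on the boundary -/
theorem sph_bd {Z : Type} [TopologicalSpace Z] {z : Z} {n : ℕ} {b : (Sing Z).S (n + 1)}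
    (hb : Cone330.IsSph (K := Sing Z) (ptS z) b) : ∀ s ∈ bdD (n + 1), asC b s = z :=
  (sph_iff (asC b)).2 fun i => hb.face i

/-- the cube form of a spherical simplex -/
noncomputable def cub {Z : Type} [TopologicalSpace Z] {z : Z} {n : ℕ} (b : (Sing Z).S (n + 1))
    (hb : Cone330.IsSph (K := Sing Z) (ptS z) b) : Ω^ (Fin (n + 1)) Z z :=
  cubeOf (rho (n + 1)) (isFace_rho _).mem (asC b) (sph_bd hb)

theorem zcls_cub {Z : Type} [TopologicalSpace Z] {z : Z} {n : ℕ} (b : (Sing Z).S (n + 1))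
    (hb : Cone330.IsSph (K := Sing Z) (ptS z) b) :
    zcls theCross (cub b hb) = SphSS478.scl b hb := zcls_cubeOf _ _ _

theorem pf_cub {Z : Type} [TopologicalSpace Z] {z : Z} {n : ℕ} (b : (Sing Z).S (n + 1))
    (hb : Cone330.IsSph (K := Sing Z) (ptS z) b) :
    pf (cub b hb).1 (theCross.zc (n + 1)) = N.sx F2 b :=
  pf_rho n (asC b) z (fun s hs => sph_bd hb s hs)

variable {Y : Type} [TopologicalSpace Y] {y : Y}

theorem pf_cr_cycle {X X' Z : Type} [TopologicalSpace X] [TopologicalSpace X'] [TopologicalSpace Z]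
    (f : C(X × X', Z)) {x : N F2 (Sing X)} {x' : N F2 (Sing X')} (hx : N.bd F2 _ x = 0)
    (hx' : N.bd F2 _ x' = 0) : N.bd F2 _ (pf f (theCross.cr x x')) = 0 := by
  rw [← pf_bd, theCross.bd, hx, hx', map_zero, map_zero, LinearMap.zero_apply, add_zero, map_zero]

/-- the Pontryagin product on representatives -/
theorem pm_mk (x x' : N F2 (Sing (Om (Fin 1) Y y))) (hx : N.bd F2 _ x = 0) (hx' : N.bd F2 _ x' = 0) :
    HopfLow478.pm (mulS (halves (0 : Fin 1))) (Hd.mk _ x hx) (Hd.mk _ x' hx') =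
      Hd.mk _ (pf (muL y) (theCross.cr x x')) (pf_cr_cycle _ hx hx') := by
  unfold HopfLow478.pm
  rw [Coalg847.EZData.cr_mk]
  unfold H.map
  rw [Hd.map_mk]
  refine Hd.mk_eq_mk.2 ⟨0, ?_⟩
  rw [map_zero]
  refine (sub_eq_zero.2 ?_).symm
  show N.map F2 (mulS (halves (0 : Fin 1))) (EZ271.cross F2 x x') =
    N.map F2 (SingMap (muL y)) (N.map F2 (spr _ _) (EZ271.cross F2 x x'))
  rw [← Nmap_comp]
  rfl

theorem hom2_of_mk {K : SS} {a b : N F2 K} {ha : N.bd F2 K a = 0} {hb : N.bd F2 K b = 0}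
    (h : Hd.mk (N.bd F2 K) a ha = Hd.mk (N.bd F2 K) b hb) : Hom2 a b := by
  obtain ⟨e, he⟩ := Hd.mk_eq_mk.1 h
  refine ⟨e, ?_⟩
  rw [he]
  have : b = -b := by
    rw [eq_neg_iff_add_eq_zero]; exact add_self' b
  rw [sub_eq_add_neg, ← this]

theorem odd_of_ne {K : SS} {D : ℤ} {a b : H F2 K} (h : a = D • b) (ha : a ≠ 0) : Odd D ∧ a = b := by
  have h2 : ∀ c : H F2 K, c + c = 0 := SphSS478.add_self_F2
  have hodd : Odd D := by
    by_contra hD
    rw [Int.not_odd_iff_even] at hD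
    obtain ⟨r, rfl⟩ := hD
    apply ha
    rw [h, add_smul, h2]
  obtain ⟨r, rfl⟩ := hodd
  refine ⟨⟨r, rfl⟩, ?_⟩
  rw [h, add_smul, one_smul, two_mul, add_smul, h2, zero_add]

variable [T2Space Y]

/-- **D2**: a spherical class of bottom degree is the Hurewicz class of the adjoint of the collapse -/
theorem scl_eq_adj {n : ℕ} (P : CubeSphere (n + 1 + 1) Y) (E : Ω^ (Fin (n + 1)) (Om (Fin 1) Y P.pt)
    GenLoop.const) (hne : zcls theCross E ≠ 0) : zcls theCross E = zcls theCross (adj (pLoop P)) := by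
  obtain ⟨D, hD⟩ := cube_gen (n + 1) P (unadj E)
  have h := zcls_adj_degree theCross (pLoop P) (unadj E) D hD
  rw [adj_unadj] at h
  exact (odd_of_ne h hne).2

variable {W : Type} [TopologicalSpace W]

/-- the Hopf map of `f` as a generalised loop of the smash square -/
noncomputable def hopfG {m q r : ℕ} (hm : 0 < m) (P : CubeSphere m Y) (R : CubeSphere r W)
    (hr : m + m = r) (c : CoH Y P.pt) (f : Ω^ (Fin (q + 1)) Y P.pt) : Ω^ (Fin (q + 1 + 1)) W R.pt :=
  ⟨((smash P P (castCS hr R)).comp (G (CoP.cube (Fin.last q)) c f.1)).comp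
    ⟨fun z => (Fin.init z, z (Fin.last (q + 1))), by
      refine Continuous.prodMk ?_ (by fun_prop)
      exact continuous_pi fun i => continuous_apply (Fin.castSucc i)⟩, by
    rintro z ⟨i, hi⟩
    show smash P P (castCS hr R) (G (CoP.cube (Fin.last q)) c f.1
      (Fin.init z, z (Fin.last (q + 1)))) = (castCS hr R).pt
    refine (smash_eq_pt_iff P P _ hm hm _).2 ?_
    refine HopfMap484.G_mapsTo (CoP.cube (Fin.last q)) c f.1 f.2 ?_
    revert hi
    refine Fin.lastCases ?_ (fun j => ?_) i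
    · rintro h
      exact Or.inr h
    · intro h
      exact Or.inl ⟨j, h⟩⟩

theorem hopfG_snoc {m q r : ℕ} (hm : 0 < m) (P : CubeSphere m Y) (R : CubeSphere r W)
    (hr : m + m = r) (c : CoH Y P.pt) (f : Ω^ (Fin (q + 1)) Y P.pt) (z : Fin (q + 1) → I) (t : I) :
    hopfG hm P R hr c f (Fin.snoc (α := fun _ => I) z t) =
      smash P P (castCS hr R) (G (CoP.cube (Fin.last q)) c f.1 (z, t)) := by
  show smash P P (castCS hr R) (G (CoP.cube (Fin.last q)) c f.1
    (Fin.init (Fin.snoc (α := fun _ => I) z t),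
    (Fin.snoc (α := fun _ => I) z t : Fin (q + 1 + 1) → I) (Fin.last (q + 1)))) = _
  rw [Fin.init_snoc, Fin.snoc_last]

/-- **H10, final form**: if the square of a non zero spherical class of degree `e + 1` of
`H(Ω S^(e+2); F2)` is spherical, with spherical simplex `φ`, then the Hopf map of the adjoint of `φ`
has odd degree. -/
theorem exists_odd {e q : ℕ} (P : CubeSphere (e + 1 + 1) Y) (c : CoH Y P.pt)
    (a : (Sing (Om (Fin 1) Y P.pt)).S (e + 1))
    (ha : Cone330.IsSph (K := Sing (Om (Fin 1) Y P.pt)) eS a) (hne : SphSS478.scl a ha ≠ 0)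
    (φ : (Sing (Om (Fin 1) Y P.pt)).S (q + 1))
    (hφ : Cone330.IsSph (K := Sing (Om (Fin 1) Y P.pt)) eS φ)
    (h : SphSS478.scl φ hφ = HopfLow478.pm (mulS (halves (0 : Fin 1))) (SphSS478.scl a ha)
      (SphSS478.scl a ha))
    (hm : 0 < e + 1 + 1) (hr : (e + 1 + 1) + (e + 1 + 1) = q + 1 + 1 + 1) :
    ∃ D : ℤ, Odd D ∧
      cls (hopfG hm P (sphCube (q + 1 + 1)) hr c (unadj (cub φ hφ))) =
        cls (pLoop (sphCube (q + 1 + 1))) ^ D ∧
      (∀ x : K357.K0 C(Freu297.Sph (q + 1 + 1 + 1), ℂ), resK (sphCube (q + 1 + 1)).pt x = 0 →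
        pullK (hopfG hm P (sphCube (q + 1 + 1)) hr c (unadj (cub φ hφ))) x =
          D • pullK (pLoop (sphCube (q + 1 + 1))) x) := by
  set g := hopfG hm P (sphCube (q + 1 + 1)) hr c (unadj (cub φ hφ)) with hg
  have hE : zcls theCross (adj (pLoop P)) = SphSS478.scl a ha :=
    (scl_eq_adj P (cub a ha) (fun h0 => hne ((zcls_cub a ha).symm.trans h0))).symm.trans
      (zcls_cub a ha)
  have hh : Hom2 (pf (cub φ hφ).1 (theCross.zc (q + 1))) (pf (muL P.pt) (theCross.cr
      (pf (adj (pLoop P)).1 (theCross.zc (e + 1))) (pf (adj (pLoop P)).1 (theCross.zc (e + 1))))) := by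
    have h' : zcls theCross (cub φ hφ) = HopfLow478.pm (mulS (halves (0 : Fin 1)))
        (zcls theCross (adj (pLoop P))) (zcls theCross (adj (pLoop P))) := by
      rw [hE]; exact (zcls_cub φ hφ).trans h
    unfold zcls at h'
    rw [pm_mk] at h'
    exact hom2_of_mk h'
  have key := hopf_loop_hom2 P (sphCube (q + 1 + 1)) hr c (adj (pLoop P)).1
    (fun x s => rfl) (cub φ hφ).1 hh (unadj (cub φ hφ)).1
    (fun x s => unadj_snoc (cub φ hφ) x s) g.1 (fun z t => hopfG_snoc _ _ _ _ _ _ _ _)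
  obtain ⟨D, h1, h2, h3⟩ := exists_degree theCross (sphCube (q + 1 + 1)) g
  refine ⟨D, ?_, h1, h2⟩
  have h4 : zcls theCross g = zcls theCross (pLoop (sphCube (q + 1 + 1))) :=
    zcls_eq_of_hom2 _ _ key
  exact (odd_of_ne h3 (by rw [h4]; exact fund _)).1

end simplices

end Crest.Agent.R204.HopfF2477
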