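import Mathlib
import Crest.Agent.R204.HopfKa_515
import Crest.Agent.R204.HopfGlueB_339

/-!
# Row 204, block H: final K-side theorem for 339's Hopf map `gf` (helper515)
-/

set_option autoImplicit false

open scoped unitInterval Topology Topology.Homotopy

noncomputable section

namespace Crest.Agent.R204.HMain515

open H472 Ex837 ExM515 Diag484 HopfMap484 HDeg160 Freud661 CubeSph661 HopfGlue339
open K357 (K0 psi psi_map psi_comm psi_two)

/-- **Hopf invariant one, K side**: `f : S^{q+1} → S^{n+1}`, Hopf map of odd degree `D`, the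
`K`-theory of `S` given by `K : KIn a` (so `n + 1 = 2 a`) and `K̃(S^{q+1}) = 0` (so `q` is even)
imply `a ∈ {1, 2, 4}`. -/
theorem hopf_gf {n q a : ℕ} (ha : 1 ≤ a) {S W : Type} [TopologicalSpace S] [T2Space S]
    [CompactSpace S] [TopologicalSpace W] [T2Space W] (P : CubeSphere (n + 1) S)
    (R : CubeSphere ((n + 1) + (n + 1)) W) (C : Collapse (Fin (q + 2)) W R.pt) (K : KIn a P.pt)
    (hSN : KZero (Fin (q + 1))) (f : Ω^ (Fin (q + 1)) S P.pt) {D : ℤ}
    (hD : cls (gf P R f) = cls C.loop ^ D) (hodd : Odd D) : a = 1 ∨ a = 2 ∨ a = 4 := by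
  refine hopf_of_degree (n := q + 1) (CoP.cube (Fin.last q)) (coH P) ha K hSN
    (smashOf n.succ_pos P R) C f (gf P R f) ?_ hD hodd
  rintro ⟨x, t⟩
  exact gf_snoc P R f x t

end Crest.Agent.R204.HMain515
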