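import Crest.Agent.R204.HopfGlueF_339
import Crest.Agent.R204.KFin_837
import Crest.Agent.R204.BSInst_94

/-!
# Row 204 (helper478): `HopfLow`, unconditional
-/

set_option autoImplicit false

namespace Crest.Agent.R204.HopfLow478

/-- **Hopf invariant one** on `Ω S^{d+1}` -/
theorem hopfLow : HopfLow := HopfGlue339.hopfLow_of_even Bt837.keven

end Crest.Agent.R204.HopfLow478
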