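import Mathlib

/-!
Row 204 (mod 2 Curtis conjecture), section 04: Hopf algebra facts (helper407).

Internal model: `P = MvPolynomial s F2`, and `R = MvPolynomial (s ⊕ s) F2` in place of `P ⊗ P`.
-/

namespace Crest.Agent.R204.Hopf407

open MvPolynomial

/-- The field with two elements. -/
abbrev F2 : Type := ZMod 2

section Basics

variable {s : Type*}

/-- `f` has only monomials of weight at least `m`. -/
def Ord (w : s → ℕ) (m : ℕ) (f : MvPolynomial s F2) : Prop :=
  ∀ d ∈ f.support, m ≤ Finsupp.weight w d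

theorem Ord.zero (w : s → ℕ) (m : ℕ) : Ord w m (0 : MvPolynomial s F2) := by
  intro d hd
  simp at hd

theorem Ord.mono {w : s → ℕ} {m n : ℕ} {f : MvPolynomial s F2} (hf : Ord w m f) (h : n ≤ m) :
    Ord w n f := fun d hd => h.trans (hf d hd)

theorem ord_zero (w : s → ℕ) (f : MvPolynomial s F2) : Ord w 0 f := fun _ _ => Nat.zero_le _

theorem Ord.add {w : s → ℕ} {m : ℕ} {f g : MvPolynomial s F2} (hf : Ord w m f) (hg : Ord w m g) :
    Ord w m (f + g) := by
  classical
  intro d hd
  rcases Finset.mem_union.1 (support_add hd) with h | h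
  · exact hf d h
  · exact hg d h

theorem Ord.neg {w : s → ℕ} {m : ℕ} {f : MvPolynomial s F2} (hf : Ord w m f) :
    Ord w m (-f) := by
  intro d hd
  exact hf d (by simpa using hd)

theorem Ord.sub {w : s → ℕ} {m : ℕ} {f g : MvPolynomial s F2} (hf : Ord w m f) (hg : Ord w m g) :
    Ord w m (f - g) := by
  rw [sub_eq_add_neg]
  exact hf.add hg.neg

theorem Ord.mul {w : s → ℕ} {m n : ℕ} {f g : MvPolynomial s F2} (hf : Ord w m f)
    (hg : Ord w n g) : Ord w (m + n) (f * g) := by
  classical
  intro d hd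
  obtain ⟨a, ha, b, hb, rfl⟩ := Finset.mem_add.1 (support_mul f g hd)
  rw [map_add]
  exact add_le_add (hf a ha) (hg b hb)

theorem Ord.sum {w : s → ℕ} {m : ℕ} {ι : Type*} (S : Finset ι) (f : ι → MvPolynomial s F2)
    (h : ∀ i ∈ S, Ord w m (f i)) : Ord w m (∑ i ∈ S, f i) := by
  classical
  induction S using Finset.induction_on with
  | empty => simpa using Ord.zero w m
  | insert a S ha ih =>
    rw [Finset.sum_insert ha]
    exact (h a (Finset.mem_insert_self _ _)).add
      (ih fun i hi => h i (Finset.mem_insert_of_mem hi))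

theorem Ord.C_mul {w : s → ℕ} {m : ℕ} {f : MvPolynomial s F2} (c : F2) (hf : Ord w m f) :
    Ord w m (C c * f) := by
  have := (ord_zero w (C c : MvPolynomial s F2)).mul hf
  simpa using this

theorem ord_of_isWeightedHomogeneous {w : s → ℕ} {m : ℕ} {f : MvPolynomial s F2}
    (hf : IsWeightedHomogeneous w f m) : Ord w m f := by
  intro d hd
  exact (hf (mem_support_iff.1 hd)).ge

theorem whc_eq_zero_of_ord {w : s → ℕ} {m n : ℕ} {f : MvPolynomial s F2} (hf : Ord w m f)
    (hn : n < m) : weightedHomogeneousComponent w n f = 0 := by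
  classical
  ext d
  rw [coeff_weightedHomogeneousComponent, coeff_zero]
  split_ifs with h
  · by_contra hc
    have := hf d (mem_support_iff.2 hc)
    omega
  · rfl

end Basics

section Sqrt

variable {s : Type*}

/-- A polynomial over `F2` all of whose partial derivatives vanish is a square. -/
theorem exists_sq_of_pderiv_eq_zero (f : MvPolynomial s F2) (hf : ∀ i, pderiv i f = 0) :
    ∃ g : MvPolynomial s F2, f = g ^ 2 := by
  classical
  have heven : ∀ d ∈ f.support, ∀ i, 2 ∣ d i := by
    intro d hd i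
    by_contra hodd
    have h1 : d i % 2 = 1 := by omega
    have hpos : 1 ≤ d i := by omega
    have h2 := congrArg (coeff (d - Finsupp.single i 1)) (hf i)
    rw [coeff_pderiv, coeff_zero] at h2
    have h3 : d - Finsupp.single i 1 + Finsupp.single i 1 = d := by
      apply tsub_add_cancel_of_le
      intro j
      by_cases hj : i = j
      · subst hj; simpa using hpos
      · simp [Finsupp.single_eq_of_ne (Ne.symm hj)]
    rw [h3] at h2
    have h4 : (((d - Finsupp.single i 1 : s →₀ ℕ) i : ℕ) : F2) + 1 = 1 := by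
      have : (d - Finsupp.single i 1 : s →₀ ℕ) i = d i - 1 := by simp
      rw [this]
      have h5 : ((d i - 1 : ℕ) : F2) = 0 := by
        rw [ZMod.natCast_eq_zero_iff]
        omega
      rw [h5, zero_add]
    rw [h4, mul_one] at h2
    exact (mem_support_iff.1 hd) h2
  refine ⟨∑ d ∈ f.support, monomial (d.mapRange (fun n => n / 2) (by simp)) (coeff d f), ?_⟩
  rw [← expand_zmod, map_sum]
  conv_lhs => rw [f.as_sum]
  refine Finset.sum_congr rfl fun d hd => ?_
  rw [expand_monomial]
  have h : d = 2 • (d.mapRange (fun n => n / 2) (by simp) : s →₀ ℕ) := by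
    ext i
    have := heven d hd i
    simp only [Finsupp.smul_apply, Finsupp.mapRange_apply, smul_eq_mul]
    omega
  rw [← h]

end Sqrt

section Weights

variable {s t : Type*} {w : s → ℕ} {w' : t → ℕ}

/-- An algebra map sending each variable to a weighted homogeneous element of the same weight
sends monomials to weighted homogeneous elements of the same weight. -/
theorem isWeightedHomogeneous_map_monomial (φ : MvPolynomial s F2 →ₐ[F2] MvPolynomial t F2)
    (hφ : ∀ i, IsWeightedHomogeneous w' (φ (X i)) (w i)) (d : s →₀ ℕ) (c : F2) :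
    IsWeightedHomogeneous w' (φ (monomial d c)) (Finsupp.weight w d) := by
  rw [monomial_eq, map_mul, Finsupp.prod, map_prod]
  have h1 : φ (C c) = C c := by
    rw [← algebraMap_eq, AlgHom.commutes, algebraMap_eq]
  rw [h1, Finsupp.weight_apply, Finsupp.sum]
  refine IsWeightedHomogeneous.C_mul ?_ c
  refine IsWeightedHomogeneous.prod _ _ _ fun i _ => ?_
  rw [map_pow, smul_eq_mul]
  exact (hφ i).pow (d i)

theorem isWeightedHomogeneous_map (φ : MvPolynomial s F2 →ₐ[F2] MvPolynomial t F2)
    (hφ : ∀ i, IsWeightedHomogeneous w' (φ (X i)) (w i)) {f : MvPolynomial s F2} {n : ℕ}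
    (hf : IsWeightedHomogeneous w f n) : IsWeightedHomogeneous w' (φ f) n := by
  rw [f.as_sum, map_sum]
  refine IsWeightedHomogeneous.sum _ _ _ fun d hd => ?_
  have := isWeightedHomogeneous_map_monomial φ hφ d (coeff d f)
  rwa [hf (mem_support_iff.1 hd)] at this

theorem whc_map (φ : MvPolynomial s F2 →ₐ[F2] MvPolynomial t F2)
    (hφ : ∀ i, IsWeightedHomogeneous w' (φ (X i)) (w i)) (f : MvPolynomial s F2) (n : ℕ) :
    weightedHomogeneousComponent w' n (φ f) = φ (weightedHomogeneousComponent w n f) := by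
  induction f using MvPolynomial.induction_on' with
  | monomial d c =>
    rw [weightedHomogeneousComponent_of_mem
        (isWeightedHomogeneous_map_monomial φ hφ d c),
      weightedHomogeneousComponent_of_mem (isWeightedHomogeneous_monomial w d c rfl)]
    split_ifs <;> simp
  | add f g hf hg => rw [map_add, map_add, hf, hg, map_add, map_add]

theorem ord_map (φ : MvPolynomial s F2 →ₐ[F2] MvPolynomial t F2)
    (hφ : ∀ i, IsWeightedHomogeneous w' (φ (X i)) (w i)) {f : MvPolynomial s F2} {n : ℕ}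
    (hf : Ord w n f) : Ord w' n (φ f) := by
  rw [f.as_sum, map_sum]
  refine Ord.sum _ _ fun d hd => ?_
  exact (ord_of_isWeightedHomogeneous
    (isWeightedHomogeneous_map_monomial φ hφ d (coeff d f))).mono (hf d hd)

theorem exists_of_mem_support_map (φ : MvPolynomial s F2 →ₐ[F2] MvPolynomial t F2)
    (hφ : ∀ i, IsWeightedHomogeneous w' (φ (X i)) (w i)) {f : MvPolynomial s F2} {a : t →₀ ℕ}
    (ha : a ∈ (φ f).support) :
    ∃ d ∈ f.support, Finsupp.weight w d = Finsupp.weight w' a := by
  classical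
  by_contra hcon
  push Not at hcon
  rw [mem_support_iff] at ha
  apply ha
  rw [f.as_sum, map_sum, coeff_sum]
  refine Finset.sum_eq_zero fun d hd => ?_
  exact (isWeightedHomogeneous_map_monomial φ hφ d (coeff d f)).coeff_eq_zero a
    (hcon d hd).symm

end Weights

section Internal

variable {s : Type*}

/-- The weight on `s ⊕ s`. -/
abbrev ww (w : s → ℕ) : s ⊕ s → ℕ := Sum.elim w w

/-- `Δ` is a filtered deformation of the primitive coproduct:
`Δ (X i) = X (inl i) + X (inr i) + ρ i`, where every monomial of `ρ i` involves both kinds of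
variables and has weight bigger than `w i`. -/
def Good (w : s → ℕ) (Δ : MvPolynomial s F2 →ₐ[F2] MvPolynomial (s ⊕ s) F2) : Prop :=
  ∀ i, ∀ d ∈ (Δ (X i) - X (Sum.inl i) - X (Sum.inr i)).support,
    (∃ a, d (Sum.inl a) ≠ 0) ∧ (∃ b, d (Sum.inr b) ≠ 0) ∧ w i < Finsupp.weight (ww w) d

/-- Primitive elements. -/
def Prim (Δ : MvPolynomial s F2 →ₐ[F2] MvPolynomial (s ⊕ s) F2) (f : MvPolynomial s F2) : Prop :=
  Δ f = rename Sum.inl f + rename Sum.inr f

/-- Kill the right variables. -/
noncomputable def eL : MvPolynomial (s ⊕ s) F2 →ₐ[F2] MvPolynomial s F2 :=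
  aeval (Sum.elim X 0)

@[simp] theorem eL_inl (i : s) : eL (X (Sum.inl i) : MvPolynomial (s ⊕ s) F2) = X i := by
  simp [eL]

@[simp] theorem eL_inr (i : s) : eL (X (Sum.inr i) : MvPolynomial (s ⊕ s) F2) = 0 := by
  simp [eL]

theorem eL_hom (w : s → ℕ) (v : s ⊕ s) :
    IsWeightedHomogeneous w (eL (X v : MvPolynomial (s ⊕ s) F2)) (ww w v) := by
  rcases v with i | i
  · rw [eL_inl]; exact isWeightedHomogeneous_X _ _ _
  · rw [eL_inr]; exact isWeightedHomogeneous_zero _ _ _

theorem eL_rename_inl (f : MvPolynomial s F2) : eL (rename Sum.inl f) = f := by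
  have : (eL : MvPolynomial (s ⊕ s) F2 →ₐ[F2] MvPolynomial s F2).comp (rename Sum.inl)
      = AlgHom.id F2 _ := by
    ext i : 1
    simp
  exact DFunLike.congr_fun this f

theorem eL_rename_inr (f : MvPolynomial s F2) :
    eL (rename Sum.inr f) = C (constantCoeff f) := by
  have : (eL : MvPolynomial (s ⊕ s) F2 →ₐ[F2] MvPolynomial s F2).comp (rename Sum.inr)
      = (Algebra.ofId F2 (MvPolynomial s F2)).comp (aeval 0) := by
    ext i : 1
    simp
  have h := DFunLike.congr_fun this f
  simpa [Algebra.ofId_apply, aeval_zero] using h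

theorem eL_eq_zero {g : MvPolynomial (s ⊕ s) F2}
    (hg : ∀ d ∈ g.support, ∃ b, d (Sum.inr b) ≠ 0) : eL g = 0 := by
  rw [g.as_sum, map_sum]
  refine Finset.sum_eq_zero fun d hd => ?_
  obtain ⟨b, hb⟩ := hg d hd
  rw [eL, aeval_monomial, Finsupp.prod,
    Finset.prod_eq_zero (Finsupp.mem_support_iff.2 hb) (by simp [hb]), mul_zero]

variable {w : s → ℕ} {Δ : MvPolynomial s F2 →ₐ[F2] MvPolynomial (s ⊕ s) F2}

theorem Good.eL_comp (hΔ : Good w Δ) (f : MvPolynomial s F2) : eL (Δ f) = f := by
  have : (eL : MvPolynomial (s ⊕ s) F2 →ₐ[F2] MvPolynomial s F2).comp Δ = AlgHom.id F2 _ := by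
    ext i : 1
    have h : Δ (X i) = (Δ (X i) - X (Sum.inl i) - X (Sum.inr i)) + X (Sum.inl i)
        + X (Sum.inr i) := by ring
    have h0 := eL_eq_zero fun d hd => (hΔ i d hd).2.1
    rw [AlgHom.comp_apply, h, map_add, map_add, h0]
    simp
  exact DFunLike.congr_fun this f

/-- The operator `D_i = (id ⊗ e_i^*) ∘ Δ` as a derivation. -/
noncomputable def Dd (hΔ : Good w Δ) (i : s) :
    Derivation F2 (MvPolynomial s F2) (MvPolynomial s F2) :=
  Derivation.mk'
    (eL.toLinearMap ∘ₗ (pderiv (Sum.inr i) : Derivation F2 (MvPolynomial (s ⊕ s) F2)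
      (MvPolynomial (s ⊕ s) F2)).toLinearMap ∘ₗ Δ.toLinearMap)
    (by
      intro a b
      change eL (pderiv (Sum.inr i) (Δ (a * b))) = a • eL (pderiv (Sum.inr i) (Δ b)) +
        b • eL (pderiv (Sum.inr i) (Δ a))
      simp only [map_mul, Derivation.leibniz, map_add, smul_eq_mul, hΔ.eL_comp])

theorem Dd_apply (hΔ : Good w Δ) (i : s) (f : MvPolynomial s F2) :
    Dd hΔ i f = eL (pderiv (Sum.inr i) (Δ f)) := rfl

theorem der_sum_apply {ι A : Type*} [CommRing A] [Algebra F2 A] (S : Finset ι)
    (D : ι → Derivation F2 A A) (a : A) : (∑ i ∈ S, D i) a = ∑ i ∈ S, D i a := by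
  classical
  induction S using Finset.induction_on with
  | empty => simp
  | insert i S hi ih => rw [Finset.sum_insert hi, Finset.sum_insert hi, Derivation.add_apply, ih]

theorem Dd_eq_sum (hΔ : Good w Δ) (i : s) (f : MvPolynomial s F2) (S : Finset s)
    (hS : f.vars ⊆ S) : Dd hΔ i f = ∑ j ∈ S, Dd hΔ i (X j) * pderiv j f := by
  classical
  have h : Dd hΔ i f = (∑ j ∈ S, (Dd hΔ i (X j)) • (pderiv j : Derivation F2 (MvPolynomial s F2)
      (MvPolynomial s F2))) f := by
    refine derivation_eq_of_forall_mem_vars fun j hj => ?_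
    rw [der_sum_apply, Finset.sum_eq_single j]
    · simp
    · intro k _ hk
      simp [pderiv_X_of_ne (Ne.symm hk)]
    · intro hj'
      exact absurd (hS hj) hj'
  rw [h, der_sum_apply]
  rfl

theorem pderiv_inr_rename_inl (i : s) (f : MvPolynomial s F2) :
    pderiv (Sum.inr i) (rename Sum.inl f : MvPolynomial (s ⊕ s) F2) = 0 := by
  classical
  refine pderiv_eq_zero_of_notMem_vars fun h => ?_
  have := vars_rename (τ := s ⊕ s) Sum.inl f h
  simp at this

theorem pderiv_inr_rename_inr (i : s) (f : MvPolynomial s F2) :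
    pderiv (Sum.inr i) (rename Sum.inr f : MvPolynomial (s ⊕ s) F2) =
      rename Sum.inr (pderiv i f) := pderiv_rename Sum.inr_injective i f

/-- On primitive elements `D_i` is the coefficient of `X i`. -/
theorem Dd_prim (hΔ : Good w Δ) (i : s) {f : MvPolynomial s F2} (hf : Prim Δ f) :
    Dd hΔ i f = C (coeff (Finsupp.single i 1) f) := by
  rw [Dd_apply, show Δ f = _ from hf, map_add, pderiv_inr_rename_inl, pderiv_inr_rename_inr,
    zero_add, eL_rename_inr]
  congr 1
  rw [constantCoeff_eq, coeff_pderiv]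
  simp

/-- The correction terms `h_ij = D_i (X j) - δ_ij`. -/
noncomputable def hh (Δ : MvPolynomial s F2 →ₐ[F2] MvPolynomial (s ⊕ s) F2) (i j : s) :
    MvPolynomial s F2 :=
  eL (pderiv (Sum.inr i) (Δ (X j) - X (Sum.inl j) - X (Sum.inr j)))

theorem Dd_X [DecidableEq s] (hΔ : Good w Δ) (i j : s) :
    Dd hΔ i (X j) = (if i = j then 1 else 0) + hh Δ i j := by
  rw [Dd_apply, hh]
  have h : Δ (X j) = (Δ (X j) - X (Sum.inl j) - X (Sum.inr j)) + X (Sum.inl j)
      + X (Sum.inr j) := by ring
  conv_lhs => rw [h]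
  rw [map_add, map_add, map_add, map_add]
  have h1 : pderiv (Sum.inr i) (X (Sum.inl j) : MvPolynomial (s ⊕ s) F2) = 0 :=
    pderiv_X_of_ne (by simp)
  have h2 : pderiv (Sum.inr i) (X (Sum.inr j) : MvPolynomial (s ⊕ s) F2)
      = if i = j then 1 else 0 := by
    split_ifs with hij
    · subst hij; exact pderiv_X_self _
    · exact pderiv_X_of_ne (by simpa using Ne.symm hij)
  rw [h1, h2]
  split_ifs <;> simp [add_comm]

theorem hh_support (hΔ : Good w Δ) (i j : s) {a : s →₀ ℕ} (ha : a ∈ (hh Δ i j).support) :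
    w j < Finsupp.weight w a + w i := by
  obtain ⟨d, hd, hda⟩ := exists_of_mem_support_map (w := ww w) (w' := w) eL (eL_hom w) ha
  rw [mem_support_iff, coeff_pderiv] at hd
  have h1 : d + Finsupp.single (Sum.inr i) 1 ∈
      (Δ (X j) - X (Sum.inl j) - X (Sum.inr j)).support := by
    rw [mem_support_iff]
    exact left_ne_zero_of_mul hd
  have h2 := (hΔ j _ h1).2.2
  rw [map_add, hda] at h2
  simpa [Finsupp.weight_single] using h2

/-- Key lemma: an element killed by all the `D_i` has vanishing partial derivatives. -/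
theorem pderiv_eq_zero_of_Dd (hΔ : Good w Δ) {f : MvPolynomial s F2}
    (hf : ∀ i, Dd hΔ i f = 0) (j : s) : pderiv j f = 0 := by
  classical
  by_contra hj
  have hex : ∃ n : ℕ, ∃ j : s, ∃ d ∈ (pderiv j f).support, n = Finsupp.weight w d + w j := by
    obtain ⟨d, hd⟩ := support_nonempty.2 hj
    exact ⟨_, j, d, hd, rfl⟩
  obtain ⟨j0, d0, hd0, hn⟩ := Nat.find_spec hex
  have hmin : ∀ k : s, ∀ d ∈ (pderiv k f).support,
      Finsupp.weight w d0 + w j0 ≤ Finsupp.weight w d + w k := by
    intro k d hd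
    rw [← hn]
    exact Nat.find_min' hex ⟨k, d, hd, rfl⟩
  have h1 := Dd_eq_sum hΔ j0 f (insert j0 f.vars) (Finset.subset_insert _ _)
  rw [hf j0] at h1
  have h2 := congrArg (coeff d0) h1
  rw [coeff_zero, coeff_sum] at h2
  have h3 : ∀ k ∈ insert j0 f.vars, coeff d0 (Dd hΔ j0 (X k) * pderiv k f) =
      if k = j0 then coeff d0 (pderiv j0 f) else 0 := by
    intro k _
    have h4 : coeff d0 (hh Δ j0 k * pderiv k f) = 0 := by
      rw [coeff_mul]
      refine Finset.sum_eq_zero fun x hx => ?_
      by_contra hne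
      have ha : x.1 ∈ (hh Δ j0 k).support := mem_support_iff.2 (left_ne_zero_of_mul hne)
      have hb : x.2 ∈ (pderiv k f).support := mem_support_iff.2 (right_ne_zero_of_mul hne)
      have h5 := hh_support hΔ j0 k ha
      have h6 := hmin k _ hb
      have h7 : x.1 + x.2 = d0 := Finset.HasAntidiagonal.mem_antidiagonal.1 hx
      rw [← h7, map_add] at h6
      omega
    rw [Dd_X, add_mul, coeff_add, h4, add_zero]
    by_cases hk : k = j0
    · subst hk; simp
    · simp [hk, Ne.symm hk]
  rw [Finset.sum_congr rfl h3, Finset.sum_ite_eq' _ j0, if_pos (Finset.mem_insert_self _ _)] at h2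
  exact (mem_support_iff.1 hd0) h2.symm

theorem prim_of_sq {g : MvPolynomial s F2} (h : Prim Δ (g ^ 2)) : Prim Δ g := by
  have h1 : (Δ g) ^ 2 = (rename Sum.inl g + rename Sum.inr g) ^ 2 := by
    rw [← map_pow, show Δ (g ^ 2) = _ from h, map_pow, map_pow, add_pow_two]
    rw [show (2 : MvPolynomial (s ⊕ s) F2) = 0 from CharTwo.two_eq_zero]
    ring
  have h2 : (Δ g - (rename Sum.inl g + rename Sum.inr g)) ^ 2 = 0 := by
    rw [sub_pow_two, h1, show (2 : MvPolynomial (s ⊕ s) F2) = 0 from CharTwo.two_eq_zero]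
    have h3 : ∀ x : MvPolynomial (s ⊕ s) F2, x + x = 0 := fun x => CharTwo.add_self_eq_zero x
    rw [zero_mul, zero_mul, sub_zero, h3]
  exact sub_eq_zero.1 (pow_eq_zero_iff (two_ne_zero) |>.1 h2)

theorem Prim.sq {g : MvPolynomial s F2} (h : Prim Δ g) : Prim Δ (g ^ 2) := by
  unfold Prim at h ⊢
  rw [map_pow, h, map_pow, map_pow, add_pow_two,
    show (2 : MvPolynomial (s ⊕ s) F2) = 0 from CharTwo.two_eq_zero]
  ring

/-- **(4.1)** A primitive element without linear terms is the square of a primitive element. -/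
theorem exists_sq_of_prim (hΔ : Good w Δ) {f : MvPolynomial s F2} (hf : Prim Δ f)
    (hlin : ∀ i, coeff (Finsupp.single i 1) f = 0) :
    ∃ g, f = g ^ 2 ∧ Prim Δ g := by
  obtain ⟨g, hg⟩ := exists_sq_of_pderiv_eq_zero f fun j =>
    pderiv_eq_zero_of_Dd hΔ (fun i => by rw [Dd_prim hΔ i hf, hlin i, C_0]) j
  exact ⟨g, hg, prim_of_sq (hg ▸ hf)⟩

/-- The primitive coproduct. -/
noncomputable def Δ0 (s : Type*) : MvPolynomial s F2 →ₐ[F2] MvPolynomial (s ⊕ s) F2 :=
  aeval fun i => X (Sum.inl i) + X (Sum.inr i)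

theorem Δ0_X (i : s) : Δ0 s (X i) = X (Sum.inl i) + X (Sum.inr i) := by simp [Δ0]

theorem good_Δ0 (w : s → ℕ) : Good w (Δ0 s) := by
  intro i d hd
  exfalso
  have : Δ0 s (X i) - X (Sum.inl i) - X (Sum.inr i) = 0 := by rw [Δ0_X]; ring
  rw [this] at hd
  simp at hd

theorem Δ0_hom (w : s → ℕ) (i : s) : IsWeightedHomogeneous (ww w) (Δ0 s (X i)) (w i) := by
  rw [Δ0_X]
  exact (isWeightedHomogeneous_X F2 (ww w) (Sum.inl i)).add
    (isWeightedHomogeneous_X F2 (ww w) (Sum.inr i))

theorem ord_diff_add {d1 d2 : s →₀ ℕ}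
    (h1 : Ord (ww w) (Finsupp.weight w d1 + 1) (Δ (monomial d1 1) - Δ0 s (monomial d1 1)))
    (h2 : Ord (ww w) (Finsupp.weight w d2 + 1) (Δ (monomial d2 1) - Δ0 s (monomial d2 1))) :
    Ord (ww w) (Finsupp.weight w (d1 + d2) + 1)
      (Δ (monomial (d1 + d2) 1) - Δ0 s (monomial (d1 + d2) 1)) := by
  have hm : (monomial (d1 + d2) (1 : F2)) = monomial d1 1 * monomial d2 1 := by
    rw [monomial_mul, one_mul]
  have hB1 : Ord (ww w) (Finsupp.weight w d1) (Δ0 s (monomial d1 1)) :=
    ord_of_isWeightedHomogeneous (isWeightedHomogeneous_map_monomial (Δ0 s) (Δ0_hom w) d1 1)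
  have hB2 : Ord (ww w) (Finsupp.weight w d2) (Δ0 s (monomial d2 1)) :=
    ord_of_isWeightedHomogeneous (isWeightedHomogeneous_map_monomial (Δ0 s) (Δ0_hom w) d2 1)
  rw [hm, map_mul, map_mul, map_add]
  have key : Δ (monomial d1 1) * Δ (monomial d2 1) - Δ0 s (monomial d1 1) * Δ0 s (monomial d2 1)
      = (Δ (monomial d1 1) - Δ0 s (monomial d1 1)) * (Δ (monomial d2 1) - Δ0 s (monomial d2 1))
        + (Δ (monomial d1 1) - Δ0 s (monomial d1 1)) * Δ0 s (monomial d2 1)
        + Δ0 s (monomial d1 1) * (Δ (monomial d2 1) - Δ0 s (monomial d2 1)) := by ring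
  rw [key]
  refine Ord.add (Ord.add ?_ ?_) ?_
  · exact (h1.mul h2).mono (by omega)
  · exact (h1.mul hB2).mono (by omega)
  · exact (hB1.mul h2).mono (by omega)

theorem Good.ord_diff_X (hΔ : Good w Δ) (i : s) :
    Ord (ww w) (w i + 1) (Δ (X i) - Δ0 s (X i)) := by
  have : Δ (X i) - Δ0 s (X i) = Δ (X i) - X (Sum.inl i) - X (Sum.inr i) := by
    rw [Δ0_X]; ring
  rw [this]
  intro d hd
  exact (hΔ i d hd).2.2

theorem Good.ord_diff_monomial (hΔ : Good w Δ) (d : s →₀ ℕ) :
    Ord (ww w) (Finsupp.weight w d + 1) (Δ (monomial d 1) - Δ0 s (monomial d 1)) := by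
  have h0 : Ord (ww w) (Finsupp.weight w (0 : s →₀ ℕ) + 1)
      (Δ (monomial 0 1) - Δ0 s (monomial 0 1)) := by
    have : (monomial (0 : s →₀ ℕ) (1 : F2)) = 1 := rfl
    rw [this, map_one, map_one, sub_self]
    exact Ord.zero _ _
  induction d using Finsupp.induction_linear with
  | zero => exact h0
  | add f g hf hg => exact ord_diff_add hf hg
  | single i n =>
    induction n with
    | zero => rw [Finsupp.single_zero]; exact h0
    | succ n ih =>
      rw [Finsupp.single_add]
      refine ord_diff_add ih ?_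
      have h := hΔ.ord_diff_X i
      rw [Finsupp.weight_single, one_smul]
      exact h

theorem Good.ord_diff (hΔ : Good w Δ) {f : MvPolynomial s F2} {m : ℕ} (hf : Ord w m f) :
    Ord (ww w) (m + 1) (Δ f - Δ0 s f) := by
  have h : Δ f - Δ0 s f = ∑ d ∈ f.support, C (coeff d f) *
      (Δ (monomial d 1) - Δ0 s (monomial d 1)) := by
    conv_lhs => rw [f.as_sum, map_sum, map_sum, ← Finset.sum_sub_distrib]
    refine Finset.sum_congr rfl fun d _ => ?_
    have h1 : monomial d (coeff d f) = (coeff d f) • monomial d (1 : F2) := by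
      rw [smul_monomial, smul_eq_mul, mul_one]
    rw [h1, map_smul, map_smul, ← smul_sub, smul_eq_C_mul]
  rw [h]
  refine Ord.sum _ _ fun d hd => ?_
  exact Ord.C_mul _ ((hΔ.ord_diff_monomial d).mono (by have := hf d hd; omega))

/-- The lowest weight component of a primitive element is primitive for the primitive
coproduct. -/
theorem Good.prim_whc (hΔ : Good w Δ) {f : MvPolynomial s F2} (hf : Prim Δ f) {m : ℕ}
    (hm : Ord w m f) : Prim (Δ0 s) (weightedHomogeneousComponent w m f) := by
  have h1 : weightedHomogeneousComponent (ww w) m (Δ f - Δ0 s f) = 0 :=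
    whc_eq_zero_of_ord (hΔ.ord_diff hm) (Nat.lt_succ_self m)
  rw [map_sub, sub_eq_zero, whc_map (Δ0 s) (Δ0_hom w) f m] at h1
  unfold Prim
  rw [← h1, show Δ f = _ from hf, map_add]
  rw [whc_map (w := w) (w' := ww w) (rename Sum.inl) (fun i => by
      rw [rename_X]; exact isWeightedHomogeneous_X F2 (ww w) (Sum.inl i)) f m,
    whc_map (w := w) (w' := ww w) (rename Sum.inr) (fun i => by
      rw [rename_X]; exact isWeightedHomogeneous_X F2 (ww w) (Sum.inr i)) f m]

theorem sq_mem_span {g : MvPolynomial s F2}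
    (hg : g ∈ Submodule.span F2 {h : MvPolynomial s F2 | ∃ i j, h = X i ^ (2 ^ j)}) :
    g ^ 2 ∈ Submodule.span F2 {h : MvPolynomial s F2 | ∃ i j, h = X i ^ (2 ^ j)} := by
  induction hg using Submodule.span_induction with
  | mem x hx =>
    obtain ⟨i, j, rfl⟩ := hx
    refine Submodule.subset_span ⟨i, j + 1, ?_⟩
    rw [← pow_mul, pow_succ]
  | zero => simp
  | add x y _ _ hx hy =>
    rw [add_pow_two, show (2 : MvPolynomial s F2) = 0 from CharTwo.two_eq_zero]
    simpa using Submodule.add_mem _ hx hy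
  | smul c x _ hx =>
    rw [smul_pow]
    exact Submodule.smul_mem _ _ hx

theorem Prim.constantCoeff_eq_zero (hΔ : Good w Δ) {f : MvPolynomial s F2} (hf : Prim Δ f) :
    constantCoeff f = 0 := by
  have h1 := hΔ.eL_comp f
  rw [show Δ f = _ from hf, map_add, eL_rename_inl, eL_rename_inr] at h1
  have h2 : C (constantCoeff f) = (0 : MvPolynomial s F2) := by
    simpa using h1
  simpa using h2

theorem Prim.add {f g : MvPolynomial s F2} (hf : Prim Δ f) (hg : Prim Δ g) :
    Prim Δ (f + g) := by
  unfold Prim at *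
  rw [map_add, hf, hg, map_add, map_add]
  ring

theorem Prim.neg {f : MvPolynomial s F2} (hf : Prim Δ f) : Prim Δ (-f) := by
  unfold Prim at *
  rw [map_neg, hf, map_neg, map_neg]
  ring

theorem Prim.sub {f g : MvPolynomial s F2} (hf : Prim Δ f) (hg : Prim Δ g) :
    Prim Δ (f - g) := by
  rw [sub_eq_add_neg]; exact hf.add hg.neg

theorem prim_zero : Prim Δ 0 := by simp [Prim]

theorem Prim.smul {f : MvPolynomial s F2} (c : F2) (hf : Prim Δ f) : Prim Δ (c • f) := by
  unfold Prim at *
  rw [map_smul, hf, map_smul, map_smul, smul_add]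

theorem Prim.sum {ι : Type*} (S : Finset ι) (f : ι → MvPolynomial s F2)
    (h : ∀ i ∈ S, Prim Δ (f i)) : Prim Δ (∑ i ∈ S, f i) := by
  classical
  induction S using Finset.induction_on with
  | empty => simpa using prim_zero
  | insert a S ha ih =>
    rw [Finset.sum_insert ha]
    exact (h a (Finset.mem_insert_self _ _)).add
      (ih fun i hi => h i (Finset.mem_insert_of_mem hi))

theorem prim_X0 (i : s) : Prim (Δ0 s) (X i) := by simp [Prim, Δ0]

/-- The linear part. -/
noncomputable def lin (f : MvPolynomial s F2) : MvPolynomial s F2 :=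
  ∑ i ∈ f.vars, coeff (Finsupp.single i 1) f • X i

theorem coeff_lin (f : MvPolynomial s F2) (i : s) :
    coeff (Finsupp.single i 1) (lin f) = coeff (Finsupp.single i 1) f := by
  classical
  rw [lin, coeff_sum]
  have h : ∀ j ∈ f.vars, coeff (Finsupp.single i 1) (coeff (Finsupp.single j 1) f • X j) =
      if j = i then coeff (Finsupp.single i 1) f else 0 := by
    intro j _
    have h0 : (Finsupp.single j 1 = Finsupp.single i 1) ↔ j = i :=
      Finsupp.single_left_inj (one_ne_zero)
    rw [coeff_smul, coeff_X, smul_eq_mul]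
    by_cases h : j = i
    · subst h; simp
    · rw [if_neg h, if_neg (fun hh => h (h0.1 hh)), mul_zero]
  rw [Finset.sum_congr rfl h, Finset.sum_ite_eq' _ i]
  split_ifs with hi
  · rfl
  · by_contra hne
    apply hi
    rw [mem_vars_iff_mem_support]
    exact ⟨Finsupp.single i 1, mem_support_iff.2 (Ne.symm hne), by simp⟩

theorem totalDegree_lin_le (f : MvPolynomial s F2) : (lin f).totalDegree ≤ 1 := by
  refine totalDegree_finsetSum_le fun i _ => ?_
  exact (totalDegree_smul_le _ _).trans (by rw [totalDegree_X])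

/-- Primitives for the primitive coproduct are combinations of the `X i ^ (2 ^ j)`. -/
theorem prim0_mem_span {f : MvPolynomial s F2} (hf : Prim (Δ0 s) f) :
    f ∈ Submodule.span F2 {h : MvPolynomial s F2 | ∃ i j, h = X i ^ (2 ^ j)} := by
  induction hn : f.totalDegree using Nat.strong_induction_on generalizing f with
  | _ n ih =>
    rcases Nat.eq_zero_or_pos n with h0 | hpos
    · rw [h0] at hn
      have h1 := totalDegree_eq_zero_iff_eq_C.1 hn
      have h2 := Prim.constantCoeff_eq_zero (good_Δ0 (fun _ => 0)) hf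
      rw [constantCoeff_eq] at h2
      rw [h1, h2, C_0]
      exact Submodule.zero_mem _
    · have hlinP : Prim (Δ0 s) (lin f) := by
        refine Prim.sum _ _ fun i _ => ?_
        exact (prim_X0 i).smul _
      obtain ⟨g, hg, hgP⟩ := exists_sq_of_prim (good_Δ0 (fun _ => 0)) (hf.sub hlinP)
        (fun i => by rw [coeff_sub, coeff_lin, sub_self])
      have hdeg : g.totalDegree * 2 ≤ n := by
        rw [← totalDegree_expand, expand_zmod, ← hg, ← hn]
        refine (totalDegree_sub _ _).trans (max_le le_rfl ?_)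
        exact (totalDegree_lin_le f).trans (by omega)
      have hg' := ih g.totalDegree (by omega) hgP rfl
      have h1 : f = g ^ 2 + lin f := by rw [← hg]; ring
      rw [h1]
      refine Submodule.add_mem _ (sq_mem_span hg') (Submodule.sum_mem _ fun i _ => ?_)
      exact Submodule.smul_mem _ _ (Submodule.subset_span ⟨i, 0, by simp⟩)

theorem whc_mem_span (w : s → ℕ) (m : ℕ) {g : MvPolynomial s F2}
    (hg : g ∈ Submodule.span F2 {h : MvPolynomial s F2 | ∃ i j, h = X i ^ (2 ^ j)}) :
    weightedHomogeneousComponent w m g ∈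
      Submodule.span F2 {h : MvPolynomial s F2 | ∃ i j, 2 ^ j * w i = m ∧ h = X i ^ (2 ^ j)} := by
  induction hg using Submodule.span_induction with
  | mem x hx =>
    obtain ⟨i, j, rfl⟩ := hx
    have h1 : IsWeightedHomogeneous w (X i ^ (2 ^ j) : MvPolynomial s F2) (2 ^ j * w i) := by
      simpa [smul_eq_mul] using (isWeightedHomogeneous_X F2 w i).pow (2 ^ j)
    rw [weightedHomogeneousComponent_of_mem h1]
    split_ifs with h
    · exact Submodule.subset_span ⟨i, j, h.symm, rfl⟩
    · exact Submodule.zero_mem _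
  | zero => simp
  | add x y _ _ hx hy => rw [map_add]; exact Submodule.add_mem _ hx hy
  | smul c x _ hx => rw [map_smul]; exact Submodule.smul_mem _ _ hx

/-- **(4.2)** The lowest weight component of a primitive element is a combination of
`X i ^ (2 ^ j)` of that weight. -/
theorem whc_prim_mem_span (hΔ : Good w Δ) {f : MvPolynomial s F2} (hf : Prim Δ f) {m : ℕ}
    (hm : Ord w m f) :
    weightedHomogeneousComponent w m f ∈
      Submodule.span F2 {h : MvPolynomial s F2 | ∃ i j, 2 ^ j * w i = m ∧ h = X i ^ (2 ^ j)} := by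
  have h1 := whc_mem_span w m (prim0_mem_span (hΔ.prim_whc hf hm))
  rwa [weightedHomogeneousComponent_of_mem
    (weightedHomogeneousComponent_isWeightedHomogeneous m f), if_pos rfl] at h1

/-- A linear map killing all products of three factors, two of which are generators, kills
every polynomial without constant and linear terms. -/
theorem map_eq_zero_of_no_lin {M : Type*} [AddCommGroup M] [Module F2 M]
    (F : MvPolynomial s F2 →ₗ[F2] M) (hF : ∀ i j a, F (X i * (X j * a)) = 0)
    {g : MvPolynomial s F2} (h0 : constantCoeff g = 0)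
    (h1 : ∀ i, coeff (Finsupp.single i 1) g = 0) : F g = 0 := by
  classical
  rw [g.as_sum, map_sum]
  refine Finset.sum_eq_zero fun d hd => ?_
  have hd' := mem_support_iff.1 hd
  have hd0 : d ≠ 0 := by
    rintro rfl
    rw [constantCoeff_eq] at h0
    exact hd' h0
  obtain ⟨i, hi⟩ := Finsupp.ne_iff.1 hd0
  rw [Finsupp.zero_apply] at hi
  have hle : Finsupp.single i 1 ≤ d := by
    rw [Finsupp.single_le_iff]; omega
  obtain ⟨d1, hd1⟩ := exists_add_of_le hle
  have hd10 : d1 ≠ 0 := by
    rintro rfl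
    rw [add_zero] at hd1
    rw [hd1] at hd'
    exact hd' (h1 i)
  obtain ⟨j, hj⟩ := Finsupp.ne_iff.1 hd10
  rw [Finsupp.zero_apply] at hj
  have hle' : Finsupp.single j 1 ≤ d1 := by
    rw [Finsupp.single_le_iff]; omega
  obtain ⟨d2, hd2⟩ := exists_add_of_le hle'
  have hm : monomial d (coeff d g) = X i * (X j * monomial d2 (coeff d g)) := by
    rw [X, X, monomial_mul, monomial_mul, one_mul, one_mul, ← hd2, ← hd1]
  rw [hm, hF]

theorem map_eq_sum_lin {M : Type*} [AddCommGroup M] [Module F2 M]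
    (F : MvPolynomial s F2 →ₗ[F2] M) (hF : ∀ i j a, F (X i * (X j * a)) = 0)
    {g : MvPolynomial s F2} (h0 : constantCoeff g = 0) :
    F g = ∑ i ∈ g.vars, coeff (Finsupp.single i 1) g • F (X i) := by
  have h1 : F (g - lin g) = 0 := by
    refine map_eq_zero_of_no_lin F hF ?_ fun i => by rw [coeff_sub, coeff_lin, sub_self]
    rw [map_sub, h0, lin, map_sum, zero_sub, neg_eq_zero]
    refine Finset.sum_eq_zero fun i _ => ?_
    rw [constantCoeff_smul, constantCoeff_X, smul_zero]
  rw [map_sub, sub_eq_zero] at h1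
  rw [h1, lin, map_sum]
  refine Finset.sum_congr rfl fun i _ => ?_
  rw [map_smul]

/-- **(4.3)** -/
theorem exists_sq_of_ker (hΔ : Good w Δ) {M : Type*} [AddCommGroup M] [Module F2 M]
    (F : MvPolynomial s F2 →ₗ[F2] M) (hF : ∀ i j a, F (X i * (X j * a)) = 0)
    (hli : LinearIndependent F2 fun i => F (X i)) {f : MvPolynomial s F2} (hf : Prim Δ f)
    (hker : F f = 0) : ∃ g, f = g ^ 2 ∧ Prim Δ g := by
  refine exists_sq_of_prim hΔ hf fun i => ?_
  have h1 := map_eq_sum_lin F hF (Prim.constantCoeff_eq_zero hΔ hf)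
  rw [hker] at h1
  have h2 := linearIndependent_iff'.1 hli f.vars _ h1.symm
  by_cases hi : i ∈ f.vars
  · exact h2 i hi
  · by_contra hne
    apply hi
    rw [mem_vars_iff_mem_support]
    exact ⟨Finsupp.single i 1, mem_support_iff.2 hne, by simp⟩

/-- The weight of a square. -/
theorem weight_sq {v : s → ℕ} {n : ℕ} {g : MvPolynomial s F2}
    (hg : IsWeightedHomogeneous v (g ^ 2) n) {d : s →₀ ℕ} (hd : d ∈ g.support) :
    2 * Finsupp.weight v d = n := by
  classical
  rw [← expand_zmod] at hg
  have h1 : coeff (2 • d) (expand 2 g) ≠ 0 := by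
    rw [coeff_expand_smul 2 (by norm_num)]
    exact mem_support_iff.1 hd
  have h2 := hg h1
  rwa [map_nsmul, smul_eq_mul] at h2

end Internal

end Crest.Agent.R204.Hopf407
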