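import Crest.Agent.R204.C1_735

/-!
# Row 204, block C (helper696): homotopies between little cube operations

* `Compat c d`, `lerp` : linear interpolation between two configurations with a common separation
  pattern;
* `joined` : if `J` has at least two elements, `BoxConf F J` is path connected;
* `muC_homotopic` : all operations `mu c` (`c : BoxConf F J`, `J` nontrivial) are homotopic,
  relatively to the constant family;
* `halves i`, `mu_halves` : `GenLoop.transAt i` is a little cube operation.
-/

set_option autoImplicit false

open scoped Topology unitInterval Topology.Homotopy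
open Set

noncomputable section

namespace Crest.Agent.R204.Hsp696

open Cubes735 BoxConf

variable {F J Z : Type*} [TopologicalSpace Z] {z₀ : Z}

/-! ## Linear interpolation -/

/-- Two configurations with a common separation pattern. -/
def Compat (c d : BoxConf F J) : Prop :=
  ∀ v w, v ≠ w → ∃ j, (c.a v j + c.r v j ≤ c.a w j ∧ d.a v j + d.r v j ≤ d.a w j) ∨
    (c.a w j + c.r w j ≤ c.a v j ∧ d.a w j + d.r w j ≤ d.a v j)

theorem Compat.symm {c d : BoxConf F J} (h : Compat c d) : Compat d c := by
  intro v w hvw
  obtain ⟨j, hj⟩ := h v w hvw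
  exact ⟨j, by tauto⟩

theorem Compat.refl (c : BoxConf F J) : Compat c c := by
  intro v w hvw
  obtain ⟨j, hj⟩ := c.sep hvw
  exact ⟨j, by tauto⟩

/-- shrinking boxes inside themselves is compatible -/
theorem Compat.of_sub {c d : BoxConf F J}
    (h : ∀ v j, c.a v j ≤ d.a v j ∧ d.a v j + d.r v j ≤ c.a v j + c.r v j) : Compat c d := by
  intro v w hvw
  obtain ⟨j, hj⟩ := c.sep hvw
  refine ⟨j, ?_⟩
  have h1 := h v j
  have h2 := h w j
  rcases hj with hj | hj
  · left; exact ⟨hj, by linarith⟩
  · right; exact ⟨hj, by linarith⟩

/-- compatibility when all pairs are separated in the same way by one function -/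
theorem Compat.of_coord {c d : BoxConf F J} (j : J)
    (h : ∀ v w, v ≠ w → (c.a v j + c.r v j ≤ c.a w j ∧ d.a v j + d.r v j ≤ d.a w j) ∨
    (c.a w j + c.r w j ≤ c.a v j ∧ d.a w j + d.r w j ≤ d.a v j)) : Compat c d :=
  fun v w hvw => ⟨j, h v w hvw⟩

/-- the interpolation -/
def lerp (c d : BoxConf F J) (h : Compat c d) (t : I) : BoxConf F J :=
  BoxConf.mk' (fun v j => (1 - (t : ℝ)) * c.a v j + t * d.a v j)
    (fun v j => (1 - (t : ℝ)) * c.r v j + t * d.r v j)
    (fun v j => by
      have ht0 := t.2.1
      have ht1 : 0 ≤ 1 - (t : ℝ) := by linarith [t.2.2]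
      have h1 := c.a_nonneg v j
      have h2 := c.r_pos v j
      have h3 := c.add_le v j
      have k1 := d.a_nonneg v j
      have k2 := d.r_pos v j
      have k3 := d.add_le v j
      refine ⟨by positivity, ?_, ?_⟩
      · rcases ht0.eq_or_lt with h0 | h0
        · rw [← h0]; linarith
        · have := mul_pos h0 k2
          have := mul_nonneg ht1 h2.le
          linarith
      · have e1 := mul_le_mul_of_nonneg_left h3 ht1
        have e2 := mul_le_mul_of_nonneg_left k3 ht0
        linarith)
    (fun v w hvw => by
      obtain ⟨j, hj⟩ := h v w hvw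
      refine ⟨j, ?_⟩
      have ht0 := t.2.1
      have ht1 : 0 ≤ 1 - (t : ℝ) := by linarith [t.2.2]
      rcases hj with ⟨h1, h2⟩ | ⟨h1, h2⟩
      · left
        have e1 := mul_le_mul_of_nonneg_left h1 ht1
        have e2 := mul_le_mul_of_nonneg_left h2 ht0
        linarith
      · right
        have e1 := mul_le_mul_of_nonneg_left h1 ht1
        have e2 := mul_le_mul_of_nonneg_left h2 ht0
        linarith)

theorem lerp_a (c d : BoxConf F J) (h : Compat c d) (t : I) (v : F) (j : J) :
    (lerp c d h t).a v j = (1 - (t : ℝ)) * c.a v j + t * d.a v j := rfl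

theorem lerp_r (c d : BoxConf F J) (h : Compat c d) (t : I) (v : F) (j : J) :
    (lerp c d h t).r v j = (1 - (t : ℝ)) * c.r v j + t * d.r v j := rfl

@[simp] theorem lerp_zero (c d : BoxConf F J) (h : Compat c d) : lerp c d h 0 = c := by
  apply BoxConf.ext'
  · intro v j; simp [lerp_a]
  · intro v j; simp [lerp_r]

@[simp] theorem lerp_one (c d : BoxConf F J) (h : Compat c d) : lerp c d h 1 = d := by
  apply BoxConf.ext'
  · intro v j; simp [lerp_a]
  · intro v j; simp [lerp_r]

theorem continuous_lerp {P : Type*} [TopologicalSpace P] {c d : P → BoxConf F J}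
    (h : ∀ p, Compat (c p) (d p)) {t : P → I} (hc : Continuous c) (hd : Continuous d)
    (ht : Continuous t) : Continuous fun p => lerp (c p) (d p) (h p) (t p) := by
  have ht' : Continuous fun p => ((t p : I) : ℝ) := continuous_subtype_val.comp ht
  refine BoxConf.continuous_mk (fun v j => ?_) (fun v j => ?_)
  · simp only [lerp_a]
    exact ((continuous_const.sub ht').mul ((continuous_a v j).comp hc)).add
      (ht'.mul ((continuous_a v j).comp hd))
  · simp only [lerp_r]
    exact ((continuous_const.sub ht').mul ((continuous_r v j).comp hc)).add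
      (ht'.mul ((continuous_r v j).comp hd))

theorem Compat.joined {c d : BoxConf F J} (h : Compat c d) : Joined c d :=
  ⟨{ toFun := fun t => lerp c d h t
     continuous_toFun := continuous_lerp (fun _ => h) continuous_const continuous_const
       continuous_id
     source' := lerp_zero c d h
     target' := lerp_one c d h }⟩

/-! ## Path connectedness -/

/-- distinct representatives in finitely many nonempty open intervals -/
theorem exists_distinct [Finite F] (a b : F → ℝ) (h : ∀ v, a v < b v) :
    ∃ x : F → ℝ, Function.Injective x ∧ ∀ v, a v < x v ∧ x v < b v := by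
  classical
  have := Fintype.ofFinite F
  have h1 : ∀ v, ∃ T : Finset ℝ, (T : Set ℝ) ⊆ Ioo (a v) (b v) ∧ T.card = Fintype.card F :=
    fun v => (Set.Ioo_infinite (h v)).exists_subset_card_eq _
  choose T hT hc using h1
  obtain ⟨x, hx, hx'⟩ := (Finset.all_card_le_biUnion_card_iff_exists_injective T).1 (by
    intro s
    rcases s.eq_empty_or_nonempty with rfl | ⟨v, hv⟩
    · simp
    · calc s.card ≤ Fintype.card F := s.card_le_univ
        _ = (T v).card := (hc v).symm
        _ ≤ _ := Finset.card_le_card (Finset.subset_biUnion_of_mem T hv))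
  exact ⟨x, hx, fun v => hT v (hx' v)⟩

theorem exists_eps [Finite F] (a b x : F → ℝ) (hx : Function.Injective x)
    (h : ∀ v, a v < x v ∧ x v < b v) :
    ∃ ε > 0, (∀ v, a v ≤ x v - ε ∧ x v + ε ≤ b v) ∧ ∀ v w, v ≠ w → 2 * ε ≤ |x v - x w| := by
  have h1 : ∀ᶠ ε : ℝ in 𝓝[>] 0, ∀ v, a v ≤ x v - ε ∧ x v + ε ≤ b v := by
    rw [Filter.eventually_all]
    intro v
    have : ∀ᶠ ε : ℝ in 𝓝[>] 0, ε ∈ Ioo (0:ℝ) (min (x v - a v) (b v - x v)) := by
      apply Ioo_mem_nhdsGT
      exact lt_min (by linarith [(h v).1]) (by linarith [(h v).2])
    filter_upwards [this] with ε hε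
    have h2 := hε.2
    rw [lt_min_iff] at h2
    constructor <;> linarith [h2.1, h2.2]
  have h2 : ∀ᶠ ε : ℝ in 𝓝[>] 0, ∀ v w, v ≠ w → 2 * ε ≤ |x v - x w| := by
    rw [Filter.eventually_all]
    intro v
    rw [Filter.eventually_all]
    intro w
    by_cases hvw : v = w
    · filter_upwards with ε h using absurd hvw h
    · have hpos : 0 < |x v - x w| / 2 := by
        have : x v - x w ≠ 0 := sub_ne_zero.2 fun h => hvw (hx h)
        positivity
      have : ∀ᶠ ε : ℝ in 𝓝[>] 0, ε ∈ Ioo (0:ℝ) (|x v - x w| / 2) := Ioo_mem_nhdsGT hpos
      filter_upwards [this] with ε hε _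
      linarith [hε.2]
  have h3 : ∀ᶠ ε : ℝ in 𝓝[>] 0, 0 < ε := self_mem_nhdsWithin
  obtain ⟨ε, e1, e2, e3⟩ := (h3.and (h1.and h2)).exists
  exact ⟨ε, e1, e2, e3⟩

open Classical in
/-- the standard configuration: slots in the coordinate `j₁` -/
def stdConf [Fintype F] (j₁ : J) (k : F ≃ Fin (Fintype.card F)) : BoxConf F J :=
  BoxConf.mk' (fun v j => if j = j₁ then ((k v : ℕ) : ℝ) / Fintype.card F else 0)
    (fun _ j => if j = j₁ then 1 / (Fintype.card F : ℝ) else 1)
    (fun v j => by
      have hpos : 0 < (Fintype.card F : ℝ) := by
        have : 0 < Fintype.card F := Fintype.card_pos_iff.2 ⟨v⟩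
        exact_mod_cast this
      by_cases hj : j = j₁
      · simp only [hj, if_true]
        refine ⟨by positivity, by positivity, ?_⟩
        rw [← add_div, div_le_one hpos]
        have := (k v).2
        exact_mod_cast this
      · simp [hj])
    (fun v w hvw => by
      refine ⟨j₁, ?_⟩
      have hpos : 0 < (Fintype.card F : ℝ) := by
        have : 0 < Fintype.card F := Fintype.card_pos_iff.2 ⟨v⟩
        exact_mod_cast this
      simp only [if_true]
      have hne : (k v : ℕ) ≠ (k w : ℕ) := fun h => hvw (k.injective (Fin.ext h))
      rcases lt_or_gt_of_ne hne with h | h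
      · left
        rw [← add_div]
        apply div_le_div_of_nonneg_right _ hpos.le
        exact_mod_cast h
      · right
        rw [← add_div]
        apply div_le_div_of_nonneg_right _ hpos.le
        exact_mod_cast h)

theorem joined_std [Fintype F] {j₀ j₁ : J} (hj : j₀ ≠ j₁) (k : F ≃ Fin (Fintype.card F))
    (c : BoxConf F J) : Joined c (stdConf j₁ k) := by
  classical
  obtain ⟨x, hx, hx'⟩ := exists_distinct (fun v => c.a v j₀) (fun v => c.a v j₀ + c.r v j₀)
    (fun v => by have := c.r_pos v j₀; linarith)
  obtain ⟨ε, hε, h1, h2⟩ := exists_eps _ _ x hx hx'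
  have hsep : ∀ v w, v ≠ w → x v - ε + 2 * ε ≤ x w - ε ∨ x w - ε + 2 * ε ≤ x v - ε := by
    intro v w hvw
    have := h2 v w hvw
    rcases le_total (x v) (x w) with h | h
    · left
      rw [abs_of_nonpos (by linarith)] at this
      linarith
    · right
      rw [abs_of_nonneg (by linarith)] at this
      linarith
  -- first: thin the boxes in the coordinate `j₀`
  let c1 : BoxConf F J := BoxConf.mk' (fun v j => if j = j₀ then x v - ε else c.a v j)
    (fun v j => if j = j₀ then 2 * ε else c.r v j)
    (fun v j => by
      by_cases h : j = j₀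
      · subst h
        simp only [if_true]
        have := h1 v
        have e1 := c.a_nonneg v j
        have e2 := c.add_le v j
        refine ⟨by linarith, by linarith, by linarith⟩
      · simp only [h, if_false]
        exact ⟨c.a_nonneg v j, c.r_pos v j, c.add_le v j⟩)
    (fun v w hvw => ⟨j₀, by simpa using hsep v w hvw⟩)
  have hc1 : Compat c c1 := by
    apply Compat.of_sub
    intro v j
    show c.a v j ≤ (if j = j₀ then x v - ε else c.a v j) ∧
      (if j = j₀ then x v - ε else c.a v j) + (if j = j₀ then 2 * ε else c.r v j) ≤ _
    by_cases h : j = j₀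
    · subst h
      simp only [if_true]
      have := h1 v
      constructor <;> linarith
    · simp [h]
  let s := stdConf (J := J) j₁ k
  -- second: straighten all other coordinates
  let c2 : BoxConf F J := BoxConf.mk' (fun v j => if j = j₀ then x v - ε else s.a v j)
    (fun v j => if j = j₀ then 2 * ε else s.r v j)
    (fun v j => by
      by_cases h : j = j₀
      · subst h
        simp only [if_true]
        have := h1 v
        have e1 := c.a_nonneg v j
        have e2 := c.add_le v j
        refine ⟨by linarith, by linarith, by linarith⟩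
      · simp only [h, if_false]
        exact ⟨s.a_nonneg v j, s.r_pos v j, s.add_le v j⟩)
    (fun v w hvw => ⟨j₀, by simpa using hsep v w hvw⟩)
  have hc12 : Compat c1 c2 := by
    apply Compat.of_coord j₀
    intro v w hvw
    show ((if j₀ = j₀ then x v - ε else c.a v j₀) + (if j₀ = j₀ then 2 * ε else c.r v j₀) ≤
        (if j₀ = j₀ then x w - ε else c.a w j₀) ∧
      (if j₀ = j₀ then x v - ε else s.a v j₀) + (if j₀ = j₀ then 2 * ε else s.r v j₀) ≤
        (if j₀ = j₀ then x w - ε else s.a w j₀)) ∨
      ((if j₀ = j₀ then x w - ε else c.a w j₀) + (if j₀ = j₀ then 2 * ε else c.r w j₀) ≤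
        (if j₀ = j₀ then x v - ε else c.a v j₀) ∧
      (if j₀ = j₀ then x w - ε else s.a w j₀) + (if j₀ = j₀ then 2 * ε else s.r w j₀) ≤
        (if j₀ = j₀ then x v - ε else s.a v j₀))
    simp only [if_true]
    rcases hsep v w hvw with h | h
    · left; exact ⟨h, h⟩
    · right; exact ⟨h, h⟩
  -- third: fill the coordinate `j₀`
  have hc2 : Compat s c2 := by
    apply Compat.of_sub
    intro v j
    show s.a v j ≤ (if j = j₀ then x v - ε else s.a v j) ∧
      (if j = j₀ then x v - ε else s.a v j) + (if j = j₀ then 2 * ε else s.r v j) ≤ _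
    by_cases h : j = j₀
    · subst h
      simp only [if_true]
      have := h1 v
      have e1 := c.a_nonneg v j
      have e2 := c.add_le v j
      have ea : s.a v j = 0 := by
        show (if j = j₁ then _ else (0:ℝ)) = 0
        rw [if_neg hj]
      have er : s.r v j = 1 := by
        show (if j = j₁ then _ else (1:ℝ)) = 1
        rw [if_neg hj]
      rw [ea, er]
      constructor <;> linarith
    · simp [h]
  exact (hc1.joined.trans hc12.joined).trans hc2.joined.symm

/-- **`BoxConf F J` is path connected when `J` has two elements.** -/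
theorem joined [Finite F] [Nontrivial J] (c d : BoxConf F J) : Joined c d := by
  have := Fintype.ofFinite F
  obtain ⟨j₀, j₁, hj⟩ := exists_pair_ne J
  let k : F ≃ Fin (Fintype.card F) := Fintype.equivFin F
  exact (joined_std hj k c).trans (joined_std hj k d).symm

/-! ## Homotopies between operations -/

section Ops

variable [Finite F] [Finite J]

/-- `mu c` as a bundled continuous map -/
def muC (c : BoxConf F J) : C(F → Ω^ J Z z₀, Ω^ J Z z₀) :=
  ⟨mu c, continuous_mu continuous_const continuous_id⟩

@[simp] theorem muC_apply (c : BoxConf F J) (x : F → Ω^ J Z z₀) : muC c x = mu c x := rfl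

/-- a path of configurations gives a homotopy, relatively to the constant family -/
def homotopyOfPath {c d : BoxConf F J} (γ : Path c d) :
    (muC c : C(F → Ω^ J Z z₀, Ω^ J Z z₀)).HomotopyRel (muC d) {fun _ => GenLoop.const} where
  toFun p := mu (γ p.1) p.2
  continuous_toFun := continuous_mu (γ.continuous.comp continuous_fst) continuous_snd
  map_zero_left x := by simp
  map_one_left x := by simp
  prop' := by
    intro t x hx
    rw [Set.mem_singleton_iff] at hx
    subst hx
    show mu (γ t) _ = mu c _
    rw [mu_const, mu_const]

theorem muC_homotopicRel {c d : BoxConf F J} (h : Joined c d) :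
    (muC c : C(F → Ω^ J Z z₀, Ω^ J Z z₀)).HomotopicRel (muC d) {fun _ => GenLoop.const} :=
  h.elim fun γ => ⟨homotopyOfPath γ⟩

/-- **All little cube operations of a given arity are homotopic** (at least two coordinates). -/
theorem muC_homotopicRel' [Nontrivial J] (c d : BoxConf F J) :
    (muC c : C(F → Ω^ J Z z₀, Ω^ J Z z₀)).HomotopicRel (muC d) {fun _ => GenLoop.const} :=
  muC_homotopicRel (joined c d)

/-- parametrised version: a family of configurations -/
theorem continuous_mu_uncurry {P : Type*} [TopologicalSpace P] (c : C(P, BoxConf F J)) :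
    Continuous fun q : P × (F → Ω^ J Z z₀) => mu (c q.1) q.2 :=
  continuous_mu (c.continuous.comp continuous_fst) continuous_snd

end Ops

/-! ## Loop concatenation -/

section Halves

variable [DecidableEq J]

/-- the two halves of the cube in the direction `i` -/
def halves (i : J) : BoxConf (Fin 2) J :=
  BoxConf.mk' (fun v j => if j = i ∧ v = 1 then 1 / 2 else 0)
    (fun _ j => if j = i then 1 / 2 else 1)
    (fun v j => by
      by_cases h : j = i
      · by_cases hv : v = 1
        · simp only [h, hv, and_self, if_true]; norm_num
        · simp only [h, hv, and_false, if_true, if_false]; norm_num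
      · simp only [h, false_and, if_false]; norm_num)
    (fun v w hvw => by
      refine ⟨i, ?_⟩
      fin_cases v <;> fin_cases w <;> simp at hvw ⊢)

theorem halves_a (i : J) (v : Fin 2) (j : J) :
    (halves i).a v j = if j = i ∧ v = 1 then 1 / 2 else 0 := rfl

theorem halves_r (i : J) (v : Fin 2) (j : J) :
    (halves i).r v j = if j = i then 1 / 2 else 1 := rfl

omit [DecidableEq J] in
/-- in a closed box the operation is given by the label of that box -/
theorem muFun_of_closed (c : BoxConf F J) (x : F → Ω^ J Z z₀) {t : J → ℝ} {v : F}
    (h : ∀ j, c.a v j ≤ t j ∧ t j ≤ c.a v j + c.r v j) :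
    muFun c x t = ext0 (x v) (c.resc v t) := by
  refine muFun_eq (fun w hw => ?_) (fun hn => ?_)
  · by_cases hvw : w = v
    · rw [hvw]
    · exfalso
      obtain ⟨j, hj⟩ := c.sep hvw
      have h1 := h j
      have h2 := hw j
      rcases hj with hj | hj <;> linarith [h1.1, h1.2, h2.1, h2.2]
  · apply ext0_off
    rw [← BoxConf.inside_iff]
    exact hn v

/-- **Mathlib's concatenation is a little cube operation.** -/
theorem mu_halves [Finite J] (i : J) (x y : Ω^ J Z z₀) :
    mu (halves i) ![x, y] = GenLoop.transAt i x y := by
  ext t
  rw [mu_apply]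
  unfold GenLoop.transAt
  rw [GenLoop.coe_copy]
  by_cases h : ((t i : I) : ℝ) ≤ 1 / 2
  · simp only [h, if_true]
    rw [muFun_of_closed (halves i) _ (v := 0)]
    · show ext0 x _ = _
      unfold ext0
      congr 1
      funext j
      by_cases hj : j = i
      · subst hj
        simp only [Function.update_self]
        show clampI _ = clampI _
        congr 1
        simp only [BoxConf.resc, halves_a, halves_r]
        norm_num
        ring
      · rw [Function.update_of_ne hj]
        have : (halves i).resc 0 (fun j => ((t j : I) : ℝ)) j = (t j : ℝ) := by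
          simp [BoxConf.resc, halves_a, halves_r, hj]
        rw [this, clampI_coe]
    · intro j
      by_cases hj : j = i
      · subst hj
        simp only [halves_a, halves_r]
        have := (t j).2.1
        norm_num
        constructor <;> linarith
      · simp only [halves_a, halves_r, hj, false_and, if_false]
        have h1 := (t j).2.1
        have h2 := (t j).2.2
        constructor <;> linarith
  · simp only [h, if_false]
    push Not at h
    rw [muFun_of_closed (halves i) _ (v := 1)]
    · show ext0 y _ = _
      unfold ext0
      congr 1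
      funext j
      by_cases hj : j = i
      · subst hj
        simp only [Function.update_self]
        show clampI _ = clampI _
        congr 1
        simp only [BoxConf.resc, halves_a, halves_r]
        norm_num
        ring
      · rw [Function.update_of_ne hj]
        have : (halves i).resc 1 (fun j => ((t j : I) : ℝ)) j = (t j : ℝ) := by
          simp [BoxConf.resc, halves_a, halves_r, hj]
        rw [this, clampI_coe]
    · intro j
      by_cases hj : j = i
      · subst hj
        simp only [halves_a, halves_r]
        have := (t j).2.2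
        norm_num
        constructor <;> linarith
      · simp only [halves_a, halves_r, hj, false_and, if_false]
        have h1 := (t j).2.1
        have h2 := (t j).2.2
        constructor <;> linarith

end Halves

end Crest.Agent.R204.Hsp696
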