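import Crest.Agent.R204.InstSph_478
import Crest.Agent.R204.FX_76

/-!
# Row 204, H11 (helper478): `FactHopf` for the concrete tower from `HopfLow` and `BS`
-/

set_option autoImplicit false
set_option linter.style.haveILetI false

noncomputable section

namespace Crest.Agent.R204.InstSph478

open scoped TensorProduct Topology unitInterval Topology.Homotopy
open Crest.Agent.R204 Spec114 Cone330 SphSS478 FactSph478 Inst194 Freu297 Sus330 HopfLow478 Hopf11

theorem sig_lt (p : Par) {k : ℕ} (h : k < p.K) : p.sig k = (loopX p.J0 h).sigma := dif_pos h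

theorem x_sph (p : Par) : ∀ {k : ℕ}, k ≤ p.K →
    FX76.SphCl (GenLoop.const : XT p.J0 p.K k) k (p.x k)
  | 0, _ => ⟨iotaL p.n, rfl⟩
  | k + 1, h => by
    have h1 : p.x (k + 1) = (loopX p.J0 (show k < p.K by omega)).sigma (p.x k) :=
      congrArg (fun f : H F2 (p.S k) →ₗ[F2] H F2 (p.S (k + 1)) => f (p.x k)) (sig_lt p (by omega))
    rw [h1]
    exact (x_sph p (by omega : k ≤ p.K)).sigma (loopX p.J0 _)

/-- `x_k² ≠ 0` -/
theorem sq_ne_zero {X : Tower} {D : ℕ} (h : X.FactPoly D) {k : ℕ} (h1 : 1 ≤ k) (h2 : k ≤ D) :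
    X.x k * X.x k ≠ 0 := by
  intro h0
  let w0 : Tower.Wd := ⟨[], List.Pairwise.nil, fun i hi => (List.not_mem_nil hi).elim⟩
  have hw : MvPolynomial.IsWeightedHomogeneous (fun W : Tower.Wd => Tower.wdeg k W.1)
      ((MvPolynomial.X w0 : MvPolynomial Tower.Wd F2) * MvPolynomial.X w0) (k + k) :=
    (MvPolynomial.isWeightedHomogeneous_X F2 _ w0).mul (MvPolynomial.isWeightedHomogeneous_X F2 _ w0)
  have key := (h k h1 (by omega)).1 (k + k) (by omega) _ hw (by
    have e1 : MvPolynomial.aeval (fun W : Tower.Wd => X.word k W.1) (MvPolynomial.X w0 :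
        MvPolynomial Tower.Wd F2) = X.x k := MvPolynomial.aeval_X _ w0
    rw [map_mul, e1]
    exact h0)
  exact mul_ne_zero (MvPolynomial.X_ne_zero w0) (MvPolynomial.X_ne_zero w0) key

/-- **FactHopf for the concrete tower** -/
theorem factHopf (HL : HopfLow) (hBS : BS) (p : Par) {D e : ℕ} (hP : p.tower.FactPoly D)
    (he : e + 1 ≤ D) (hK : e + 1 ≤ p.K) : (pSph p e).FactHopf (e + 1) := by
  intro α hodd hα
  have hne : (pSph p e).h (e + 1) α ≠ 0 := by
    rw [hα]
    exact sq_ne_zero hP (Nat.succ_pos e) he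
  obtain ⟨x, hx, hxe⟩ := x_sph p hK
  have hxne : scl x hx ≠ 0 := by
    intro h0
    apply sq_ne_zero hP (Nat.succ_pos e) he
    have h1 : p.tower.x (e + 1) = 0 := hxe.trans h0
    rw [h1, mul_zero]
  have hev : Even e := by
    rcases Nat.even_or_odd e with h | h
    · exact h
    · exact absurd hodd (Nat.not_odd_iff_even.2 h.add_one)
  have := hopf_tower HL hBS (J0 := p.J0) (K := p.K) hev (by have := p.hJ; omega) hK
    (fun k => (pSph p e).h k α)
    (fun k hk => (pSph_succ p e k α).trans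
      (congrArg (fun f : H F2 (p.S k) →ₗ[F2] H F2 (p.S (k + 1)) => f ((pSph p e).h k α))
        (sig_lt p hk))) α.1 α.2 rfl hne x hx hxne
  omega

end Crest.Agent.R204.InstSph478
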