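import Crest.Agent.R204.Kap4_761
import Crest.Agent.R204.TotAlg_328
import Crest.Agent.R204.Prd_328
import Crest.Agent.R204.Coef_947

/-!
# Row 204, block G (helper761): `κ` for arbitrary coefficients, for `Fs U v`, and for `totAlg`

* `kapH_mul'`, `kapH_Q'`, `kapH_one'` : the comparison in the language of `totAlg`, `omAlg`;
* `skH_coH`, `kapH_coH` : change of coefficients;
* `kapH_mulR` : products over an arbitrary ring;
* `kapF` : `κ_v : H R (Fs U v) → H R (Sing (Ω^J Z))`, `kapF_prd`, `kapF_coH`, `kapF_vt_one`, …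
-/

set_option autoImplicit false
set_option linter.unusedSectionVars false

open scoped Topology unitInterval Topology.Homotopy
open Set

noncomputable section

namespace Crest.Agent.R204.CovT761

open Crest.Agent.R204.Cubes735 Crest.Agent.R204.Htpy761 SingAct265 SS Thr328 Fs348 DK742
open ThetaSS265 HspSS696 Sk761 Gr334 ThAlg265 Ops265 C5265

variable {B : SS} {A A' J : Type} {X Z : Type} [TopologicalSpace X]
  [TopologicalSpace Z] {z₀ : Z} {U W : Type}

/-! ### in the language of `Θ`-algebras -/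

section alg
variable [Finite J]

theorem thD_eq (M : ℕ) (U : Type) : TotAlg328.thD M U = CovT761.thD M U := rfl

theorem kapH_mul' (lab : U ↪ ℝ) (M : ℕ) (k : Fin (M + 1) ↪ J) (x₀ : Ω^ J Z z₀)
    (e : U ⊕ U ↪ U) (c : BoxConf (Fin 2) J) (hJ : 9 * (M + 1) ≤ Nat.card J) {s t : ℕ}
    (hst : s + t < M) {x y : H F2 (Tot U)} (hx : x ∈ H.gr F2 (Tot U) s)
    (hy : y ∈ H.gr F2 (Tot U) t) :
    kapH F2 lab M k x₀ (mulH (TotAlg328.totAlg e M).mu x y) =
      mulH (omAlg (Z := Z) (z₀ := z₀) k (mulS c)).mu (kapH F2 lab M k x₀ x)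
        (kapH F2 lab M k x₀ y) :=
  kapH_mul lab M k x₀ e c hJ hst hx hy

theorem kapH_Q' (lab : U ↪ ℝ) (M : ℕ) (k : Fin (M + 1) ↪ J) (x₀ : Ω^ J Z z₀)
    (e : U ⊕ U ↪ U) (m : Hom ((Sing (Ω^ J Z z₀)).prod (Sing (Ω^ J Z z₀))) (Sing (Ω^ J Z z₀)))
    (hJ : 9 * (M + 1) ≤ Nat.card J) {i t : ℕ} (hit : 2 * t + i < M) {x : H F2 (Tot U)}
    (hx : x ∈ H.gr F2 (Tot U) t) :
    kapH F2 lab M k x₀ (Ops265.Q (TotAlg328.totAlg e M) i x) =
      Ops265.Q (omAlg (Z := Z) (z₀ := z₀) k m) i (kapH F2 lab M k x₀ x) :=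
  kapH_Q lab M k x₀ e (TotAlg328.totAlg e M) rfl (omAlg k m) rfl hJ hit hx

theorem kapH_one' (lab : U ↪ ℝ) (M : ℕ) (hM : 0 < M) (k : Fin (M + 1) ↪ J) (x₀ : Ω^ J Z z₀)
    (e : U ⊕ U ↪ U) (m : Hom ((Sing (Ω^ J Z z₀)).prod (Sing (Ω^ J Z z₀))) (Sing (Ω^ J Z z₀)))
    (hJ : 9 * (M + 1) ≤ Nat.card J) :
    kapH F2 lab M k x₀ (oneH (TotAlg328.totAlg e M).one) =
      oneH (omAlg (Z := Z) (z₀ := z₀) k m).one :=
  kapH_vtx_empty lab hM k x₀ hJ _ rfl

end alg

/-! ### change of coefficients -/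

section coef

open Coef947

variable {R S : Type} [CommRing R] [CommRing S]

theorem rho_coN (g : R →+ S) (M : ℕ) (K : SS) (c : N R K) :
    Sk761.rho S M K (coN g K c) = coN g (sk M K) (Sk761.rho R M K c) := by
  refine Prd328.N_ind (p := fun c => Sk761.rho S M K (coN g K c) =
    coN g (sk M K) (Sk761.rho R M K c)) c ?_ ?_ ?_
  · simp
  · intro a b ha hb; rw [map_add, map_add, ha, hb, map_add, map_add]
  · intro r n x
    rw [Prd328.coN_smul_sx, map_smul, map_smul, rho_sx, rho_sx]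
    by_cases h : IsSk M K x
    · rw [rhoT_pos S M K h, rhoT_pos R M K h]
      exact (Prd328.coN_smul_sx g r _).symm
    · unfold rhoT
      rw [dif_neg h, dif_neg h, smul_zero, smul_zero, map_zero]

theorem prN_coN (g : R →+ S) (K : SS) (j : ℕ) (c : N R K) :
    Gr334.prN S K j (coN g K c) = coN g K (Gr334.prN R K j c) := by
  refine Prd328.N_ind (p := fun c => Gr334.prN S K j (coN g K c) =
    coN g K (Gr334.prN R K j c)) c ?_ ?_ ?_
  · simp
  · intro a b ha hb; rw [map_add, map_add, ha, hb, map_add, map_add]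
  · intro r n x
    rw [Prd328.coN_smul_sx, map_smul, map_smul, Gr334.prN_sx, Gr334.prN_sx]
    split_ifs with h
    · exact (Prd328.coN_smul_sx g r _).symm
    · rw [smul_zero, smul_zero, map_zero]

theorem sg_coN (g : R →+ S) (M : ℕ) (K : SS) (c : N R K) :
    Sk761.sg S M K (coN g K c) = coN g (sk M K) (Sk761.sg R M K c) := by
  rw [Sk761.sg_apply, Sk761.sg_apply, map_sum]
  refine Finset.sum_congr rfl fun j _ => ?_
  rw [prN_coN, rho_coN]

theorem skH_coH (g : R →+ S) (M : ℕ) (K : SS) (x : H R K) :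
    skH S M K (coH g K x) = coH g (sk M K) (skH R M K x) := by
  obtain ⟨z, hz, rfl⟩ := Hd.mk_surj _ x
  rw [coH_mk, skH_mk, skH_mk, coH_mk]
  refine Hd.mk_eq_mk.2 ⟨0, ?_⟩
  rw [map_zero, sg_coN, sub_self]

/-- `κ` commutes with the change of coefficients -/
theorem kapH_coH [Finite J] (g : R →+ S) (lab : U ↪ ℝ) (M : ℕ) (k : Fin (M + 1) ↪ J)
    (x₀ : Ω^ J Z z₀) (x : H R (Tot U)) :
    kapH S lab M k x₀ (coH g _ x) = coH g _ (kapH R lab M k x₀ x) := by
  rw [kapH_apply, kapH_apply, skH_coH, coH_map]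

end coef

/-! ### products, arbitrary coefficients -/

section prod

variable [Finite J] (R : Type) [CommRing R]

open Prd328 (crossH)

/-- `κ × κ` followed by the multiplication, arbitrary coefficients -/
theorem mulS_kapR (c : BoxConf (Fin 2) J) {M M' : ℕ} (k : Fin (M + 1) ↪ J)
    (k' : Fin (M' + 1) ↪ J) (h : 2 * (M + 1) + (M' + 1) ≤ Nat.card J)
    (lab : U ↪ ℝ) (lab' : U ⊕ U ↪ ℝ) (x₀ : Ω^ J Z z₀)
    (hg' : ∀ n b, IsSk M' (Tot (U ⊕ U)) ((djs M U).app n b)) :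
    H.map R ((mulS c).comp (SS.prodMap (kap lab M k x₀) (kap lab M k x₀))) =
      H.map R (kapG lab' k' x₀ (djs M U) hg') :=
  mulS_kapG HtpInv334.homotopyInv R c k k' h lab lab' x₀ (pr₁ M U) (pr₂ M U)
    (fun _ b => b.1.2) (fun _ b => b.2.2) hg'

/-- **(K2)** `κ` is multiplicative, arbitrary coefficients -/
theorem kapH_mulR (lab : U ↪ ℝ) (M : ℕ) (k : Fin (M + 1) ↪ J) (x₀ : Ω^ J Z z₀)
    (e : U ⊕ U ↪ U) (c : BoxConf (Fin 2) J) (hJ : 9 * (M + 1) ≤ Nat.card J) {s t : ℕ}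
    (hst : s + t < M) {x y : H R (Tot U)} (hx : x ∈ H.gr R (Tot U) s)
    (hy : y ∈ H.gr R (Tot U) t) :
    kapH R lab M k x₀ (H.map R ((mapU e).comp (dj U U)) (crossH R x y)) =
      H.map R (mulS c) (crossH R (kapH R lab M k x₀ x) (kapH R lab M k x₀ y)) := by
  have ex : H.map R (skIncl M (Tot U)) (skH R M (Tot U) x) = x := incl_skH (by omega) hx
  have ey : H.map R (skIncl M (Tot U)) (skH R M (Tot U) y) = y := incl_skH (by omega) hy
  have hx'' : skH R M (Tot U) x ∈ H.gr R (sk M (Tot U)) s := skH_mem hx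
  have hy'' : skH R M (Tot U) y ∈ H.gr R (sk M (Tot U)) t := skH_mem hy
  obtain ⟨k2⟩ := exists_emb (J := J) (n := M + M + 1) (by omega)
  have hd' : ∀ n b, IsSk (M + M) (Tot U) (((mapU e).comp (djs M U)).app n b) :=
    fun n b => (djs_sk M U n b).map (mapU e)
  have e1 : H.map R ((mapU e).comp (dj U U)) (crossH R x y) =
      H.map R ((mapU e).comp (djs M U)) (crossH R (skH R M (Tot U) x) (skH R M (Tot U) y)) := by
    have h1 := Prd328.map_crossH R (skIncl M (Tot U)) (skIncl M (Tot U)) (skH R M (Tot U) x)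
      (skH R M (Tot U) y)
    rw [ex, ey] at h1
    have h2 : (mapU e).comp (djs M U) =
      ((mapU e).comp (dj U U)).comp (SS.prodMap (skIncl M (Tot U)) (skIncl M (Tot U))) := rfl
    rw [← h1, ← Sk761.Hmap_comp, h2]
  have e2 := kapH_map R lab M k x₀ lab k2 (by omega) ((mapU e).comp (djs M U)) hd' hst
    (Prd328.crossH_mem_gr R hx'' hy'')
  have e3 := kapG_H_mapU HtpInv334.homotopyInv R e (djs M U) (e.trans lab) lab k2 k2
    (by omega) x₀ (djs_sk M U) hd'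
  have e4 := mulS_kapR R c k k2 (by omega) lab (e.trans lab) x₀ (djs_sk M U)
  have e5 := Prd328.map_crossH R (kap lab M k x₀) (kap lab M k x₀) (skH R M (Tot U) x)
    (skH R M (Tot U) y)
  have e6 := Sk761.Hmap_comp (R := R) (mulS c) (SS.prodMap (kap lab M k x₀) (kap lab M k x₀))
    (crossH R (skH R M (Tot U) x) (skH R M (Tot U) y))
  rw [e5] at e6
  rw [kapH_apply R lab M k x₀ x, kapH_apply R lab M k x₀ y]
  exact (congrArg _ e1).trans (e2.trans ((LinearMap.congr_fun e3.symm _).trans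
    ((LinearMap.congr_fun e4.symm _).trans e6)))

/-! ### the version on `Fs U v` -/

/-- `κ_v` -/
def kapF (lab : U ↪ ℝ) (M : ℕ) (k : Fin (M + 1) ↪ J) (x₀ : Ω^ J Z z₀) (v : ℕ) :
    H R (Fs U v) →ₗ[R] H R (Sing (Ω^ J Z z₀)) := kapH R lab M k x₀ ∘ₗ H.map R (inc U v)

theorem kapF_apply (lab : U ↪ ℝ) (M : ℕ) (k : Fin (M + 1) ↪ J) (x₀ : Ω^ J Z z₀) (v : ℕ)
    (x : H R (Fs U v)) : kapF R lab M k x₀ v x = kapH R lab M k x₀ (H.map R (inc U v) x) := rfl

theorem kapF_gr (lab : U ↪ ℝ) (M : ℕ) (k : Fin (M + 1) ↪ J) (x₀ : Ω^ J Z z₀) {v j : ℕ}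
    {x : H R (Fs U v)} (hx : x ∈ H.gr R _ j) : kapF R lab M k x₀ v x ∈ H.gr R _ j :=
  kapH_gr R lab M k x₀ (Gr334.H_map_mem_gr _ hx)

theorem inc_mu (e : U ⊕ U ↪ U) {a b v : ℕ} (hab : a + b = v) :
    (inc U v).comp (Prd328.mu e hab) =
      ((mapU e).comp (dj U U)).comp (SS.prodMap (inc U a) (inc U b)) := rfl

/-- multiplicativity of `κ_v` -/
theorem kapF_prd (lab : U ↪ ℝ) (M : ℕ) (k : Fin (M + 1) ↪ J) (x₀ : Ω^ J Z z₀)
    (e : U ⊕ U ↪ U) (c : BoxConf (Fin 2) J) (hJ : 9 * (M + 1) ≤ Nat.card J) {s t : ℕ}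
    (hst : s + t < M) {a b v : ℕ} (hab : a + b = v) {x : H R (Fs U a)} {y : H R (Fs U b)}
    (hx : x ∈ H.gr R _ s) (hy : y ∈ H.gr R _ t) :
    kapF R lab M k x₀ v (Prd328.prd R e hab x y) =
      H.map R (mulS c) (crossH R (kapF R lab M k x₀ a x) (kapF R lab M k x₀ b y)) := by
  have h2 := kapH_mulR R lab M k x₀ e c hJ hst (Gr334.H_map_mem_gr (inc U a) hx)
    (Gr334.H_map_mem_gr (inc U b) hy)
  have h3 := Prd328.map_crossH R (inc U a) (inc U b) x y
  have h1 : H.map R (inc U v) (Prd328.prd R e hab x y) =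
      H.map R ((mapU e).comp (dj U U))
        (crossH R (H.map R (inc U a) x) (H.map R (inc U b) y)) := by
    rw [← h3, ← Sk761.Hmap_comp, Prd328.prd_apply, ← Sk761.Hmap_comp]
    exact Prd328.map_congr R (inc_mu e hab) _
  exact (congrArg (kapH R lab M k x₀) h1).trans h2

end prod

section coef2
open Coef947
variable {R S : Type} [CommRing R] [CommRing S]

theorem kapF_coH [Finite J] (g : R →+ S) (lab : U ↪ ℝ) (M : ℕ) (k : Fin (M + 1) ↪ J)
    (x₀ : Ω^ J Z z₀) (v : ℕ) (x : H R (Fs U v)) :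
    kapF S lab M k x₀ v (coH g _ x) = coH g _ (kapF R lab M k x₀ v x) := by
  rw [kapF_apply, kapF_apply, ← kapH_coH, coH_map]

end coef2

end Crest.Agent.R204.CovT761
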