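import Crest.Agent.R204.KTr_103
import Crest.Agent.R204.KTr_947
import Crest.Agent.R204.X0_947
import Crest.Agent.R204.Kap5_761
import Crest.Agent.R204.SrcTot_85
import Crest.Agent.R204.Inst_194

/-!
# Row 204, block G (helper103): the comparison data for `X₀` of the concrete tower

* `cm_eq_of_vt` : vertices with equal classes lie in the same component;
* `toKap` : `KTr947.Kap` for the base component from `KTr103.KD`;
* `ff`, `kdOm` : the comparison maps `sk_M (Fs ℕ v) → Sing (Ω^J Z)` and `KTr103.KD` for them;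
* `kapInst` : `KTr947.Kap` for `X0` of `Inst194.Par.tower`.
-/

set_option autoImplicit false
set_option linter.unusedSectionVars false
set_option linter.style.haveILetI false

open scoped Topology unitInterval Topology.Homotopy

noncomputable section

namespace Crest.Agent.R204.KDI103

open Crest.Agent.R204 SS Coef947 Fs348 Prd328 Comp696 ThAlg265 Gr334
open Crest.Agent.R204.Sk761 (skH skH_mem incl_skH skH_incl incl_injH)
open Crest.Agent.R204.KTr103 (KD tr)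
open Crest.Agent.R204.KTr103.KD (map_tr tr_comp)

/-! ## components and classes of vertices -/

theorem vt_mem_Hc (R : Type) [CommRing R] {Y : SS} {π : Type} (c : Cm Y π) (y : Y.S 0) :
    vt R y ∈ Hc R c (c.app 0 y) := by
  refine ⟨vt R (fmk c (c.app 0 y) y rfl), ?_⟩
  rw [map_vt]; rfl

theorem eps_vt {Y : SS} (y : Y.S 0) : Coalg847.eps Y (vt F2 y) = 1 := Coalg847.eps_vtx y

theorem cm_eq_of_vt {Y : SS} {π : Type} (c : Cm Y π) {y y' : Y.S 0} (h : vt F2 y = vt F2 y') :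
    c.app 0 y = c.app 0 y' := by
  by_contra hne
  have h1 : hret F2 c (c.app 0 y) (vt F2 y) = vt F2 (fmk c (c.app 0 y) y rfl) := by
    have : vt F2 y = H.map F2 (fibIncl c (c.app 0 y)) (vt F2 (fmk c (c.app 0 y) y rfl)) := by
      rw [map_vt]; rfl
    conv_lhs => rw [this, hret_incl]
  have h2 : hret F2 c (c.app 0 y) (vt F2 y') = 0 := by
    have : vt F2 y' = H.map F2 (fibIncl c (c.app 0 y')) (vt F2 (fmk c (c.app 0 y') y' rfl)) := by
      rw [map_vt]; rfl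
    rw [this]
    exact hret_incl_ne F2 c (fun e => hne e.symm) _
  have h3 := eps_vt (fmk c (c.app 0 y) y rfl)
  rw [← h1, h, h2, map_zero] at h3
  exact absurd h3 (by decide)

/-! ## from `KD` to `Kap` -/

section toKap

variable {U : Type} {e : U ⊕ U ↪ U} {M D : ℕ} {Y : SS} {π : Type} [CommGroup π]
  {μ : Hom (Y.prod Y) Y} {c : Cm Y π} {g : π}

/-- products of translated classes -/
theorem mul_tr (R : Type) [CommRing R]
    (hA : SH (μ.comp (prodMap μ (Hom.id Y)))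
      (μ.comp (pair ((fst Y Y).comp (fst _ _)) (μ.comp (pair ((snd Y Y).comp (fst _ _)) (snd _ _))))))
    (hC : SH μ (μ.comp (SS.swap Y Y))) (p : Y.S 0) (a b : H R Y) :
    H.map R μ (crossH R (H.map R (tr μ p) a) (H.map R (tr μ p) b)) =
        H.map R (tr μ (μ.app 0 (p, p))) (H.map R μ (crossH R a b)) := by
  have h1 := LinearMap.congr_fun ((KTr103.mu_tr hA hC p).map_eq HtpInv334.homotopyInv R)
    (crossH R a b)
  rw [← map_crossH, Prd328.map_comp, Prd328.map_comp]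
  exact h1

theorem tr_tr' (R : Type) [CommRing R]
    (hA : SH (μ.comp (prodMap μ (Hom.id Y)))
      (μ.comp (pair ((fst Y Y).comp (fst _ _)) (μ.comp (pair ((snd Y Y).comp (fst _ _)) (snd _ _))))))
    (p q : Y.S 0) (a : H R Y) :
    H.map R (tr μ q) (H.map R (tr μ p) a) = H.map R (tr μ (μ.app 0 (p, q))) a := by
  have h1 := LinearMap.congr_fun ((KTr103.tr_tr hA p q).map_eq HtpInv334.homotopyInv R) a
  rw [Prd328.map_comp]
  exact h1

/-- translations are invertible -/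
theorem tr_cancel
    (hA : SH (μ.comp (prodMap μ (Hom.id Y)))
      (μ.comp (pair ((fst Y Y).comp (fst _ _)) (μ.comp (pair ((snd Y Y).comp (fst _ _)) (snd _ _))))))
    (hmu : ∀ (n : ℕ) (x y : Y.S n), c.app n (μ.app n (x, y)) = c.app n x * c.app n y)
    (e₀ : Y.S 0) (hunit : ∀ x : H F2 Y, H.map F2 μ (crossH F2 x (vt F2 e₀)) = x)
    (hvt : ∀ w : Y.S 0, c.app 0 w = 1 → vt F2 w = vt F2 e₀)
    (p q : Y.S 0) (hpq : c.app 0 p * c.app 0 q = 1) (x : H F2 Y) :
    H.map F2 (tr μ q) (H.map F2 (tr μ p) x) = x := by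
  rw [tr_tr' F2 hA, map_tr, hvt _ (by rw [hmu]; exact hpq), hunit]

theorem comp_tr (K : KD U e M D Y π μ c g)
    (hmu : ∀ (n : ℕ) (x y : Y.S n), c.app n (μ.app n (x, y)) = c.app n x * c.app n y)
    (w : ℕ) (r : Y.S 0) (hr : g ^ w * c.app 0 r = 1) (n : ℕ) (b : (sk M (Fs U w)).S n) :
    c.app n (((tr μ r).comp (K.f w)).app n b) = 1 := by
  show c.app n (μ.app n ((K.f w).app n b, Y.act _ r)) = 1
  rw [hmu, K.comp, c.nat, hr]

/-- the map to the base component -/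
def kk (K : KD U e M D Y π μ c g)
    (hmu : ∀ (n : ℕ) (x y : Y.S n), c.app n (μ.app n (x, y)) = c.app n x * c.app n y)
    (w : ℕ) (r : Y.S 0) (hr : g ^ w * c.app 0 r = 1) : Hom (sk M (Fs U w)) (fib c 1) :=
  fibLift c 1 ((tr μ r).comp (K.f w)) (comp_tr K hmu w r hr)

theorem incl_kk (K : KD U e M D Y π μ c g)
    (hmu : ∀ (n : ℕ) (x y : Y.S n), c.app n (μ.app n (x, y)) = c.app n x * c.app n y)
    (w : ℕ) (r : Y.S 0) (hr : g ^ w * c.app 0 r = 1) (R : Type) [CommRing R]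
    (x : H R (sk M (Fs U w))) : H.map R (fibIncl c 1) (H.map R (kk K hmu w r hr) x) =
      H.map R (tr μ r) (H.map R (K.f w) x) := by
  rw [Prd328.map_comp, Prd328.map_comp]; rfl

theorem bij_kk (K : KD U e M D Y π μ c g)
    (hmu : ∀ (n : ℕ) (x y : Y.S n), c.app n (μ.app n (x, y)) = c.app n x * c.app n y)
    (hs : ∀ a : π, ∃ y : Y.S 0, c.app 0 y = a)
    (e₀ : Y.S 0) (hunit : ∀ x : H F2 Y, H.map F2 μ (crossH F2 x (vt F2 e₀)) = x)
    (hvt : ∀ w : Y.S 0, c.app 0 w = 1 → vt F2 w = vt F2 e₀)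
    (w : ℕ) (r : Y.S 0) (hr : g ^ w * c.app 0 r = 1) (j : ℕ) (hj : j ≤ D) (hw : 2 * j ≤ w) :
    KTr947.Bij _ _ (kk K hmu w r hr) j := by
  have hlt := K.lt
  obtain ⟨b, hb⟩ := hs (g ^ w)
  refine ⟨fun x hx h0 => ?_, fun y hy => ?_⟩
  · have h1 : H.map F2 (K.f w) x = 0 := by
      have h2 := tr_cancel K.assoc hmu e₀ hunit hvt r b (by rw [hb, mul_comm, hr])
        (H.map F2 (K.f w) x)
      rw [← incl_kk K hmu w r hr, h0, map_zero, map_zero] at h2
      exact h2.symm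
    have h2 : skH F2 M (Fs U w) (H.map F2 (skIncl M _) x) = x := skH_incl (by omega) hx
    have h3 : H.map F2 (skIncl M (Fs U w)) x ∈ H.gr F2 (Fs U w) j := H_map_mem_gr _ hx
    have h4 := K.inj w j hj _ h3 (by rw [h2]; exact h1)
    have h5 : H.map F2 (skIncl M (Fs U w)) x = H.map F2 (skIncl M (Fs U w)) 0 := by
      rw [h4, map_zero]
    exact incl_injH (by omega) hx (Submodule.zero_mem _) h5
  · have h1 : H.map F2 (fibIncl c 1) y ∈ Hc F2 c 1 := ⟨y, rfl⟩
    have h2 := tr_comp hmu F2 b hb h1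
    rw [one_mul] at h2
    obtain ⟨x, hx, hxy⟩ := K.surj w j hj hw _ (H_map_mem_gr _ (H_map_mem_gr _ hy)) h2
    refine ⟨skH F2 M _ x, skH_mem hx, ?_⟩
    apply Comp696.incl_injective F2 c 1
    rw [incl_kk, hxy]
    exact tr_cancel K.assoc hmu e₀ hunit hvt b r (by rw [hb, hr]) _

/-- **`Kap` from `KD`** -/
def toKap (K : KD U e M D Y π μ c g)
    (hmu : ∀ (n : ℕ) (x y : Y.S n), c.app n (μ.app n (x, y)) = c.app n x * c.app n y)
    (hs : ∀ a : π, ∃ y : Y.S 0, c.app 0 y = a)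
    (e₀ : Y.S 0) (he₀ : c.app 0 e₀ = 1)
    (hunit : ∀ x : H F2 Y, H.map F2 μ (crossH F2 x (vt F2 e₀)) = x)
    (hvt : ∀ w : Y.S 0, c.app 0 w = 1 → vt F2 w = vt F2 e₀)
    (μ0 : Hom ((fib c 1).prod (fib c 1)) (fib c 1))
    (hμ0 : (fibIncl c 1).comp μ0 = μ.comp (prodMap (fibIncl c 1) (fibIncl c 1)))
    {m : ℕ} (hD : 2 * m + 1 ≤ D) {v : ℕ} (hv : 2 * (2 * m + 1) ≤ v)
    (p : Y.S 0) (hp : g ^ v * c.app 0 p = 1) (B : (Fs U v).S 0) :
    KTr947.Kap U e (fib c 1) μ0 (fmk c 1 e₀ he₀) v m :=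
  have hlt := K.lt
  have hq : g ^ (v + v) * c.app 0 (μ.app 0 (p, p)) = 1 := by
    rw [hmu, pow_add, mul_mul_mul_comm, hp, mul_one]
  have hB : IsSk M (Fs U v) B := SS.isSk_of_le (Nat.zero_le M) B
  have hbij : ∀ (w j : ℕ), j ≤ 2 * m + 1 → KTr947.Bij _ _ (skIncl M (Fs U w)) j := by
    intro w j hj
    refine ⟨fun x hx h0 => ?_, fun y hy => ⟨_, skH_mem hy, incl_skH (by omega) hy⟩⟩
    exact incl_injH (by omega) hx (Submodule.zero_mem _) (by rw [h0, map_zero])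
  { K1 := sk M (Fs U v)
    K2 := sk M (Fs U (v + v))
    i1 := skIncl M (Fs U v)
    i2 := skIncl M (Fs U (v + v))
    k1 := kk K hmu v p hp
    k2 := kk K hmu (v + v) (μ.app 0 (p, p)) hq
    B := ⟨B, hB⟩
    hi1 := fun j hj => hbij v j hj
    hi2 := fun j hj => hbij (v + v) j hj
    hk1 := fun j hj => bij_kk K hmu hs e₀ hunit hvt v p hp j (by omega) (by omega)
    hk2 := fun j hj => bij_kk K hmu hs e₀ hunit hvt (v + v) _ hq j (by omega) (by omega)
    mul := by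
      intro R _ s t hst x hx y hy w hw h
      apply Comp696.incl_injective R c 1
      have e1 : w = skH R M _ (prd R e rfl (H.map R (skIncl M (Fs U v)) x)
          (H.map R (skIncl M (Fs U v)) y)) := by
        rw [← h, skH_incl (show s + t < M by omega) hw]
      have e2 := K.mul R v v s t (H.map R (skIncl M (Fs U v)) x) (H.map R (skIncl M (Fs U v)) y)
        (by omega) (H_map_mem_gr _ hx) (H_map_mem_gr _ hy)
      rw [skH_incl (show s < M by omega) hx, skH_incl (show t < M by omega) hy] at e2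
      rw [incl_kk, e1, e2, ← mul_tr R K.assoc K.comm, ← incl_kk K hmu v p hp,
        ← incl_kk K hmu v p hp, ← map_crossH, Prd328.map_comp, Prd328.map_comp, hμ0]
    vB := by
      apply Comp696.incl_injective F2 c 1
      rw [map_vt, map_vt]
      exact hvt _ (comp_tr K hmu v p hp 0 _)
    unit := by
      intro x
      apply Comp696.incl_injective F2 c 1
      rw [Prd328.map_comp, hμ0, ← Prd328.map_comp, map_crossH, map_vt]
      exact hunit _ }

end toKap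

/-! ## vertices of `Fs U v` -/

section edges

variable {U : Type}

theorem z1 (i : Fin (0 + 1)) : i = 0 := Fin.ext (by omega)

/-- inclusion of a vertex into the interval -/
def vx (i : Fin 2) : Op 0 1 := ⟨fun _ => i, fun _ _ _ => le_rfl⟩

/-- any two vertices of `Fs U v` are joined by an edge -/
theorem exists_edge {v : ℕ} (A B : (Fs U v).S 0) : ∃ E : (Fs U v).S 1,
    (Fs U v).act (vx 0) E = A ∧ (Fs U v).act (vx 1) E = B := by
  classical
  have hc : A.1.card = B.1.card := A.2.2.trans B.2.2.symm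
  let ρ : A.1 ≃ B.1 := Finset.equivOfCardEq hc
  let F : A.1 → (Fin 2 → U) := fun a => ![a.1 0, (ρ a).1 0]
  have hA : ∀ a a' : A.1, a.1 0 = a'.1 0 → a = a' := fun a a' h =>
    Subtype.ext (funext fun i => by rw [z1 i]; exact h)
  have hB : ∀ a a' : A.1, (ρ a).1 0 = (ρ a').1 0 → a = a' := fun a a' h =>
    ρ.injective (Subtype.ext (funext fun i => by rw [z1 i]; exact h))
  have hF : Function.Injective F := fun a a' h => hA a a' (congrFun h 0)
  refine ⟨⟨Finset.univ.image F, ?_, ?_⟩, ?_, ?_⟩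
  · intro i t ht t' ht' h
    obtain ⟨a, -, rfl⟩ := Finset.mem_image.1 (Finset.mem_coe.1 ht)
    obtain ⟨a', -, rfl⟩ := Finset.mem_image.1 (Finset.mem_coe.1 ht')
    congr 1
    fin_cases i
    · exact hA a a' h
    · exact hB a a' h
  · rw [Finset.card_image_of_injective _ hF, Finset.card_univ, Fintype.card_coe, A.2.2]
  · refine Subtype.ext (Finset.ext fun g => ?_)
    show g ∈ re _ (Finset.univ.image F) ↔ g ∈ A.1
    rw [mem_re]
    constructor
    · rintro ⟨t, ht, rfl⟩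
      obtain ⟨a, -, rfl⟩ := Finset.mem_image.1 ht
      have : F a ∘ ⇑(vx 0) = a.1 := funext fun i => by rw [z1 i]; rfl
      rw [this]; exact a.2
    · intro hg
      refine ⟨F ⟨g, hg⟩, Finset.mem_image_of_mem _ (Finset.mem_univ _), funext fun i => ?_⟩
      rw [z1 i]; rfl
  · refine Subtype.ext (Finset.ext fun g => ?_)
    show g ∈ re _ (Finset.univ.image F) ↔ g ∈ B.1
    rw [mem_re]
    constructor
    · rintro ⟨t, ht, rfl⟩
      obtain ⟨a, -, rfl⟩ := Finset.mem_image.1 ht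
      have : F a ∘ ⇑(vx 1) = (ρ a).1 := funext fun i => by rw [z1 i]; rfl
      rw [this]; exact (ρ a).2
    · intro hg
      refine ⟨F (ρ.symm ⟨g, hg⟩), Finset.mem_image_of_mem _ (Finset.mem_univ _),
        funext fun i => ?_⟩
      rw [z1 i]
      show (ρ (ρ.symm ⟨g, hg⟩)).1 0 = g 0
      rw [Equiv.apply_symm_apply]

/-- a component map is constant on the skeleta of `Fs U v` -/
theorem cm_const {M v : ℕ} (hM : 1 ≤ M) {π : Type} (d : Cm (sk M (Fs U v)) π) {g : π}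
    (B : (Fs U v).S 0) (h : d.app 0 (CovT761.skV M B) = g) (n : ℕ)
    (b : (sk M (Fs U v)).S n) : d.app n b = g := by
  have hB : IsSk M (Fs U v) B := SS.isSk_of_le (Nat.zero_le M) B
  have h1 : d.app n b = d.app 0 ((sk M (Fs U v)).act (⟨fun _ => 0, fun _ _ _ => le_rfl⟩ : Op 0 n) b) :=
    (d.nat _ b).symm
  rw [h1]
  generalize (sk M (Fs U v)).act (⟨fun _ => 0, fun _ _ _ => le_rfl⟩ : Op 0 n) b = A
  obtain ⟨A, hA⟩ := A
  obtain ⟨E, hE0, hE1⟩ := exists_edge A B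
  have hE : IsSk M (Fs U v) E := SS.isSk_of_le hM E
  have h2 := d.nat (vx 0) ⟨E, hE⟩
  have h3 := d.nat (vx 1) ⟨E, hE⟩
  have e2 : (sk M (Fs U v)).act (vx 0) ⟨E, hE⟩ = ⟨A, hA⟩ := Subtype.ext hE0
  have e3 : (sk M (Fs U v)).act (vx 1) ⟨E, hE⟩ = CovT761.skV M B := Subtype.ext hE1
  rw [e2] at h2
  rw [e3] at h3
  rw [h2, ← h3, h]

/-- a vertex of a product -/
def pv {K L : SS} (a : K.S 0) (b : L.S 0) : (K.prod L).S 0 := (a, b)

theorem crossH_vt_vt (R : Type) [CommRing R] {K L : SS} (a : K.S 0) (b : L.S 0) :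
    crossH R (vt R a) (vt R b) = vt R (pv a b) := by
  rw [crossH_vt, map_vt]
  congr 1
  exact Prod.ext rfl (SrcTot85.act_const_zero b)

theorem prd_vt_vt (R : Type) [CommRing R] (e : U ⊕ U ↪ U) {a b c : ℕ} (h : a + b = c)
    (A : (Fs U a).S 0) (B : (Fs U b).S 0) :
    prd R e h (vt R A) (vt R B) = vt R ((Prd328.mu e h).app 0 (pv A B)) := by
  rw [prd_apply, crossH_vt_vt, map_vt]

end edges

/-! ## the comparison maps to `Ω^J Z` -/

section om

open CovT761 Cubes735 Thr328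
open Crest.Agent.R204.HspSS696 hiding Om
open Crest.Agent.R204.HspSS696 (Om)

variable {J : Type} [Finite J] [DecidableEq J] [Nontrivial J] {Z : Type} [TopologicalSpace Z]
  {z₀ : Z} (lab : ℕ ↪ ℝ) (M : ℕ) (k : Fin (M + 1) ↪ J) (x₀ : Ω^ J Z z₀)

/-- the comparison maps -/
def ff (v : ℕ) : Hom (sk M (Fs ℕ v)) (Sing (Om J Z z₀)) :=
  (kap lab M k x₀).comp (skMap M (inc ℕ v))

theorem map_ff (R : Type) [CommRing R] {j v : ℕ} (hj : j < M) {x : H R (Fs ℕ v)}
    (hx : x ∈ H.gr R _ j) : H.map R (ff lab M k x₀ v) (skH R M _ x) = kapF R lab M k x₀ v x := by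
  rw [kapF_apply, kapH_apply, Sk761.skH_map (inc ℕ v) hj hx, Prd328.map_comp]; rfl

theorem kapF_vt (hM : 0 < M) {v : ℕ} (B : (Fs ℕ v).S 0) :
    kapF F2 lab M k x₀ v (vt F2 B) = vt F2 ((ff lab M k x₀ v).app 0 (skV M B)) := by
  have h1 : skH F2 M (Fs ℕ v) (vt F2 B) = vt F2 (skV M B) := skH_vtx hM B
  rw [← map_ff lab M k x₀ F2 hM (vt_mem_gr F2 _), h1, map_vt]

variable (e : ℕ ⊕ ℕ ↪ ℕ) (c : BoxConf (Fin 2) J)

/-- the empty set of threads -/
def emV : (Fs ℕ 0).S 0 := ⟨∅, fun i a ha => by simp at ha, Finset.card_empty⟩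

include e c in
/-- value of the component map -/
theorem ff_comp (hM : 1 ≤ M) (hJ : 9 * (M + 1) ≤ Nat.card J) (v n : ℕ)
    (b : (sk M (Fs ℕ v)).S n) :
    (cOm J Z z₀).app n ((ff lab M k x₀ v).app n b) = cls x₀ ^ v := by
  have key : ∀ v : ℕ, ∃ (B : (Fs ℕ v).S 0),
      (cOm J Z z₀).app 0 ((ff lab M k x₀ v).app 0 (skV M B)) = cls x₀ ^ v := by
    intro v
    induction v with
    | zero =>
      refine ⟨emV, ?_⟩
      have h1 := kapF_vt lab M k x₀ hM emV
      have h2 : kapF F2 lab M k x₀ 0 (vt F2 emV) = vt F2 (ptS (GenLoop.const : Ω^ J Z z₀)) := by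
        rw [kapF_apply, map_vt]
        exact kapH_vtx_empty lab hM k x₀ hJ _ rfl
      rw [pow_zero, cm_eq_of_vt (cOm J Z z₀) (h1.symm.trans h2)]
      exact (cOm_ptS _).trans cls_const
    | succ v ih =>
      obtain ⟨B, hBc⟩ := ih
      have h1 := kapF_vt lab M k x₀ hM SrcTot85.thr1
      have h2 : kapF F2 lab M k x₀ 1 (vt F2 SrcTot85.thr1) = vt F2 (ptS x₀) := by
        rw [kapF_apply, map_vt]
        exact kapH_vtx_one lab hM k x₀ hJ _ (Finset.card_singleton _)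
      have hTc : (cOm J Z z₀).app 0 ((ff lab M k x₀ 1).app 0 (skV M SrcTot85.thr1)) = cls x₀ := by
        rw [cm_eq_of_vt (cOm J Z z₀) (h1.symm.trans h2)]; rfl
      refine ⟨(Prd328.mu e (rfl : v + 1 = v + 1)).app 0 (pv B SrcTot85.thr1), ?_⟩
      have h3 := kapF_prd F2 lab M k x₀ e c hJ (show 0 + 0 < M by omega)
        (rfl : v + 1 = v + 1) (vt_mem_gr F2 B) (vt_mem_gr F2 SrcTot85.thr1)
      rw [prd_vt_vt, kapF_vt lab M k x₀ hM, kapF_vt lab M k x₀ hM, kapF_vt lab M k x₀ hM,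
        crossH_vt_vt, map_vt] at h3
      rw [cm_eq_of_vt (cOm J Z z₀) h3, pow_succ, ← hBc, ← hTc]
      exact cOm_mulS c _ _
  obtain ⟨B, hBc⟩ := key v
  exact cm_const hM ((cOm J Z z₀).pre (ff lab M k x₀ v)) B hBc n b

/-- **`KD` for `Ω^J Z`** -/
def kdOm {D : ℕ} (hD : D < M) (hJ : 9 * (M + 1) ≤ Nat.card J)
    (hinj : ∀ (v j : ℕ), j ≤ D → ∀ x ∈ H.gr F2 (Fs ℕ v) j, kapF F2 lab M k x₀ v x = 0 → x = 0)
    (hsurj : ∀ (v j : ℕ), j ≤ D → 2 * j ≤ v → ∀ y ∈ H.gr F2 (Sing (Om J Z z₀)) j,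
      y ∈ Hc F2 (cOm J Z z₀) (cls x₀ ^ v) →
      ∃ x ∈ H.gr F2 (Fs ℕ v) j, kapF F2 lab M k x₀ v x = y) :
    KD ℕ e M D (Sing (Om J Z z₀)) (HomotopyGroup J Z z₀) (mulS c) (cOm J Z z₀) (cls x₀) where
  f := ff lab M k x₀
  comp := ff_comp lab M k x₀ e c (by omega) hJ
  lt := hD
  assoc := SH.of' (mulS_assoc c)
  comm := SH.of' (mulS_comm c)
  mul := by
    intro R _ a b s t x y hst hx hy
    have := prd_mem_gr R e (rfl : a + b = a + b) hx hy
    rw [map_ff lab M k x₀ R hst this, map_ff lab M k x₀ R (by omega) hx,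
      map_ff lab M k x₀ R (by omega) hy]
    exact kapF_prd R lab M k x₀ e c hJ hst rfl hx hy
  inj := by
    intro v j hj x hx h0
    rw [map_ff lab M k x₀ F2 (by omega) hx] at h0
    exact hinj v j hj x hx h0
  surj := by
    intro v j hj hv y hy hy'
    obtain ⟨x, hx, hxy⟩ := hsurj v j hj hv y hy hy'
    exact ⟨x, hx, by rw [map_ff lab M k x₀ F2 (by omega) hx, hxy]⟩

/-- vertices of the base component -/
theorem vt_base (w : (Sing (Om J Z z₀)).S 0) (hw : (cOm J Z z₀).app 0 w = 1) :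
    vt F2 w = vt F2 (eS : (Sing (Om J Z z₀)).S 0) := by
  have h := X0947.vt_eq F2 (fmk (cOm J Z z₀) 1 w hw : (X0947.X0 J Z z₀).S 0)
  have h2 := congrArg (H.map F2 (X0947.inX0 (J := J) (Z := Z) (z₀ := z₀))) h
  rw [map_vt, map_vt] at h2
  exact h2

/-- **`Kap` for the base component of `Ω^J Z`** -/
theorem kapOm {D : ℕ} (hD : D < M) (hJ : 9 * (M + 1) ≤ Nat.card J)
    (hinj : ∀ (v j : ℕ), j ≤ D → ∀ x ∈ H.gr F2 (Fs ℕ v) j, kapF F2 lab M k x₀ v x = 0 → x = 0)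
    (hsurj : ∀ (v j : ℕ), j ≤ D → 2 * j ≤ v → ∀ y ∈ H.gr F2 (Sing (Om J Z z₀)) j,
      y ∈ Hc F2 (cOm J Z z₀) (cls x₀ ^ v) →
      ∃ x ∈ H.gr F2 (Fs ℕ v) j, kapF F2 lab M k x₀ v x = y)
    {m : ℕ} (hm : 2 * m + 1 ≤ D) {v : ℕ} (hv : 2 * (2 * m + 1) ≤ v) :
    Nonempty (KTr947.Kap ℕ e (X0947.X0 J Z z₀) (X0947.mu0 c) X0947.e0 v m) := by
  obtain ⟨y, hy⟩ := cls_surj ((cls x₀ ^ v)⁻¹)
  have hB : ∃ B : (Fs ℕ v).S 0, True := by
    refine ⟨⟨(Finset.range v).image (fun n _ => n), ?_, ?_⟩, trivial⟩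
    · intro i a ha b hb h
      obtain ⟨n, -, rfl⟩ := Finset.mem_image.1 (Finset.mem_coe.1 ha)
      obtain ⟨m, -, rfl⟩ := Finset.mem_image.1 (Finset.mem_coe.1 hb)
      have : n = m := h
      rw [this]
    · rw [Finset.card_image_of_injective _ (fun a b h => congrFun h 0), Finset.card_range]
  obtain ⟨B, -⟩ := hB
  exact ⟨toKap (kdOm lab M k x₀ e c hD hJ hinj hsurj) (fun n x y => cOm_mulS c x y)
    (fun a => by
      obtain ⟨y, hy⟩ := cls_surj a
      exact ⟨ptS y, hy⟩)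
    eS rfl (X0947.mulS_unitR F2 c) vt_base (X0947.mu0 c) (X0947.in_mu0 c) hm hv (ptS y)
    (by
      have h1 : (cOm J Z z₀).app 0 (ptS y) = cls y := cOm_ptS y
      rw [h1, hy, mul_inv_cancel]) B⟩

end om

end Crest.Agent.R204.KDI103
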