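import Crest.Agent.R204.Deg_718
import Crest.Agent.R204.Gr_334

/-!
# Row 204, leaf G4 (helper810): Kuenneth decomposition of a cocycle on `X × X`

Over `F2`: a cocycle `V` of degree `m` on `X × X` which restricts to `U` on both axes is
`U × 1 + 1 × U + ∑ x_i × y_i + δ b` with `x_i`, `y_i` cocycles of positive degrees.
-/

set_option autoImplicit false

namespace Crest.Agent.R204.KDec810

open EZ271 Pont718 Gr334

variable {K L X : SS}

/-- a dual system: lifts `g` of a basis of the homology in degree `i`, and dual cocycles `x` -/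
theorem dual_system (i : ℕ)
    (hfin : ∃ (s : ℕ) (g : Fin s → N F2 X), (∀ j, g j ∈ N.gr F2 X i ∧ N.bd F2 X (g j) = 0) ∧
      ∀ z ∈ N.gr F2 X i, N.bd F2 X z = 0 → ∃ r : Fin s → F2,
        z + ∑ j, r j • g j ∈ LinearMap.range (N.bd F2 X)) :
    ∃ (s : ℕ) (g : Fin s → N F2 X) (x : Fin s → Co F2 X),
      (∀ j, g j ∈ N.gr F2 X i) ∧ (∀ j, N.bd F2 X (g j) = 0) ∧ (∀ j, IsDeg i (x j)) ∧
      (∀ j, x j ∘ₗ N.bd F2 X = 0) ∧ (∀ j k, x j (g k) = if j = k then 1 else 0) ∧
      ∀ z ∈ N.gr F2 X i, N.bd F2 X z = 0 → z + ∑ j, x j z • g j ∈ LinearMap.range (N.bd F2 X) := by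
  classical
  let B : Submodule F2 (N F2 X) := LinearMap.range (N.bd F2 X)
  let C : Submodule F2 (N F2 X) := N.gr F2 X i ⊓ LinearMap.ker (N.bd F2 X)
  let C' : Submodule F2 (N F2 X ⧸ B) := C.map B.mkQ
  have hfinite : Module.Finite F2 C' := by
    obtain ⟨s, g, hg, hspan⟩ := hfin
    have hle : C' ≤ Submodule.span F2 (Set.range fun j => B.mkQ (g j)) := by
      rintro _ ⟨z, ⟨hz1, hz2⟩, rfl⟩
      obtain ⟨r, hr⟩ := hspan z hz1 hz2
      have h1 : B.mkQ (z + ∑ j, r j • g j) = 0 := by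
        rw [Submodule.mkQ_apply, Submodule.Quotient.mk_eq_zero]; exact hr
      rw [map_add, map_sum] at h1
      have h2 : B.mkQ z = ∑ j, B.mkQ (r j • g j) := by
        rw [← f2_neg (∑ j, B.mkQ (r j • g j))]
        exact eq_neg_of_add_eq_zero_left h1
      rw [h2]
      refine Submodule.sum_mem _ fun j _ => ?_
      rw [map_smul]
      exact Submodule.smul_mem _ _ (Submodule.subset_span ⟨j, rfl⟩)
    have hfs : Module.Finite F2 (Submodule.span F2 (Set.range fun j => B.mkQ (g j))) :=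
      Module.Finite.span_of_finite F2 (Set.finite_range _)
    exact Submodule.finiteDimensional_of_le hle
  let b := Module.finBasis F2 C'
  have hb : ∀ j, ∃ z, z ∈ C ∧ B.mkQ z = (b j : N F2 X ⧸ B) := fun j => (b j).2
  choose g hgC hgb using hb
  have hφ : ∀ j, ∃ φ : (N F2 X ⧸ B) →ₗ[F2] F2, φ ∘ₗ C'.subtype = b.coord j := fun j =>
    LinearMap.exists_extend (b.coord j)
  choose φ hφ using hφ
  have hφ' : ∀ j (c : C'), φ j (c : N F2 X ⧸ B) = b.repr c j := fun j c =>
    LinearMap.congr_fun (hφ j) c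
  refine ⟨Module.finrank F2 C', g, fun j => φ j ∘ₗ B.mkQ ∘ₗ prN F2 X i, fun j => (hgC j).1,
    fun j => (hgC j).2, ?_, ?_, ?_, ?_⟩
  · intro j n x hn
    simp only [LinearMap.comp_apply]
    rw [prN_sx_ne hn, map_zero, map_zero]
  · intro j
    refine LinearMap.ext fun w => ?_
    simp only [LinearMap.comp_apply, LinearMap.zero_apply]
    rw [prN_bd]
    have : B.mkQ (N.bd F2 X (prN F2 X (i + 1) w)) = 0 := by
      rw [Submodule.mkQ_apply, Submodule.Quotient.mk_eq_zero]; exact ⟨_, rfl⟩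
    rw [this, map_zero]
  · intro j k
    simp only [LinearMap.comp_apply]
    rw [prN_of_mem (hgC k).1, hgb, hφ', b.repr_self, Finsupp.single_apply]
    simp only [eq_comm]
  · intro z hz1 hz2
    have hz : B.mkQ z ∈ C' := ⟨z, ⟨hz1, hz2⟩, rfl⟩
    change _ ∈ B
    rw [← Submodule.Quotient.mk_eq_zero, ← Submodule.mkQ_apply, map_add, map_sum]
    have h1 : ∀ j, B.mkQ ((φ j ∘ₗ B.mkQ ∘ₗ prN F2 X i) z • g j) =
        ((b.repr ⟨B.mkQ z, hz⟩ j • b j : C') : N F2 X ⧸ B) := by
      intro j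
      simp only [LinearMap.comp_apply]
      rw [prN_of_mem hz1, map_smul, hgb, hφ' j ⟨B.mkQ z, hz⟩]
      rfl
    rw [Finset.sum_congr rfl fun j _ => h1 j, ← AddSubmonoidClass.coe_finsetSum, b.sum_repr]
    exact f2_add_self _

/-- a homogeneous cocycle of degree `m` which vanishes on the cycles of degree `m` is a coboundary -/
theorem exists_cobound {m : ℕ} (hm : 0 < m) {D : Co F2 K} (hD : IsDeg m D)
    (h : ∀ w ∈ N.gr F2 K m, N.bd F2 K w = 0 → D w = 0) :
    ∃ b : Co F2 K, IsDeg (m - 1) b ∧ D = b ∘ₗ N.bd F2 K := by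
  have hpr : ∀ w, D w = D (prN F2 K m w) := by
    intro w
    have : D = D ∘ₗ prN F2 K m := by
      refine hom_ext fun n x => ?_
      rw [LinearMap.comp_apply]
      by_cases hn : n = m
      · subst hn; rw [prN_sx_self]
      · rw [prN_sx_ne hn, map_zero, hD n x hn]
    exact LinearMap.congr_fun this w
  have h1 : D ∈ (LinearMap.ker (N.bd F2 K)).dualAnnihilator := by
    rw [Submodule.mem_dualAnnihilator]
    intro w hw
    rw [hpr]
    exact h _ (prN_mem m w) (bd_prN_eq_zero hw m)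
  rw [← LinearMap.range_dualMap_eq_dualAnnihilator_ker] at h1
  obtain ⟨b, hb⟩ := h1
  have hb' : ∀ w, D w = b (N.bd F2 K w) := fun w => by rw [← hb]; rfl
  refine ⟨b ∘ₗ prN F2 K (m - 1), fun n x hn => ?_, LinearMap.ext fun w => ?_⟩
  · rw [LinearMap.comp_apply, prN_sx_ne hn, map_zero]
  · rw [LinearMap.comp_apply, LinearMap.comp_apply, prN_bd, Nat.sub_add_cancel hm, ← hb', ← hpr]

theorem aug_comp_bd : (aug F2 : Co F2 K) ∘ₗ N.bd F2 K = 0 := LinearMap.ext fun w => aug_bd F2 w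

theorem crs_bd2 (a : Co F2 K) (b : Co F2 L) : crs a b ∘ₗ N.bd F2 (K.prod L) =
    crs (a ∘ₗ N.bd F2 K) b + crs a (b ∘ₗ N.bd F2 L) := by
  rw [crs_bd, f2_comp_sg]

theorem crs_cocycle {a : Co F2 K} {b : Co F2 L} (ha : a ∘ₗ N.bd F2 K = 0) (hb : b ∘ₗ N.bd F2 L = 0) :
    crs a b ∘ₗ N.bd F2 (K.prod L) = 0 := by
  rw [crs_bd2, ha, hb, crs_zero_left, crs_zero_right, add_zero]

/-- **Kuenneth decomposition** -/
theorem decomp (e : X.S 0) {m : ℕ} (hm : 0 < m) (V : Co F2 (X.prod X)) (hVd : IsDeg m V)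
    (hVc : V ∘ₗ N.bd F2 (X.prod X) = 0) (U : Co F2 X) (hUd : IsDeg m U) (hUc : U ∘ₗ N.bd F2 X = 0)
    (hV1 : ∀ y ∈ N.gr F2 X m, N.bd F2 X y = 0 → V (cross F2 y (N.sx F2 e)) = U y)
    (hV2 : ∀ y ∈ N.gr F2 X m, N.bd F2 X y = 0 → V (cross F2 (N.sx F2 e) y) = U y)
    (hK : ∀ w ∈ N.gr F2 (X.prod X) m, N.bd F2 (X.prod X) w = 0 →
      ∃ (s : ℕ) (Y Z : Fin s → N F2 X) (p q : Fin s → ℕ), (∀ i, p i + q i = m ∧
        Y i ∈ N.gr F2 X (p i) ∧ Z i ∈ N.gr F2 X (q i) ∧ N.bd F2 X (Y i) = 0 ∧ N.bd F2 X (Z i) = 0) ∧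
        w + ∑ i, cross F2 (Y i) (Z i) ∈ LinearMap.range (N.bd F2 (X.prod X)))
    (h0 : ∀ z ∈ N.gr F2 X 0, ∃ r : F2, z + r • N.sx F2 e ∈ LinearMap.range (N.bd F2 X))
    (hfin : ∀ i, 0 < i → i < m → ∃ (s : ℕ) (g : Fin s → N F2 X),
      (∀ j, g j ∈ N.gr F2 X i ∧ N.bd F2 X (g j) = 0) ∧
      ∀ z ∈ N.gr F2 X i, N.bd F2 X z = 0 → ∃ r : Fin s → F2,
        z + ∑ j, r j • g j ∈ LinearMap.range (N.bd F2 X)) :
    ∃ (s : ℕ) (x y : Fin s → Co F2 X) (p q : Fin s → ℕ) (b : Co F2 (X.prod X)),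
      (∀ i, 0 < p i ∧ 0 < q i ∧ p i + q i = m ∧ IsDeg (p i) (x i) ∧ IsDeg (q i) (y i) ∧
        x i ∘ₗ N.bd F2 X = 0 ∧ y i ∘ₗ N.bd F2 X = 0) ∧ IsDeg (m - 1) b ∧
      V = crs U (aug F2) + crs (aug F2) U + ∑ i, crs (x i) (y i) + b ∘ₗ N.bd F2 (X.prod X) := by
  classical
  -- dual systems in all degrees `0 < i < m`
  have hsys : ∀ i : Fin (m - 1), ∃ (s : ℕ) (g : Fin s → N F2 X) (x : Fin s → Co F2 X),
      (∀ j, g j ∈ N.gr F2 X (i + 1)) ∧ (∀ j, N.bd F2 X (g j) = 0) ∧ (∀ j, IsDeg (i + 1) (x j)) ∧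
      (∀ j, x j ∘ₗ N.bd F2 X = 0) ∧ (∀ j k, x j (g k) = if j = k then 1 else 0) ∧
      ∀ z ∈ N.gr F2 X (i + 1), N.bd F2 X z = 0 →
        z + ∑ j, x j z • g j ∈ LinearMap.range (N.bd F2 X) := fun i =>
    dual_system _ (hfin (i + 1) (Nat.succ_pos _) (by have := i.2; omega))
  choose s g x hgd hgc hxd hxc hxg hxs using hsys
  let ι := Σ i : Fin (m - 1), Fin (s i)
  let xx : ι → Co F2 X := fun t => x t.1 t.2
  let yy : ι → Co F2 X := fun t => V ∘ₗ cross F2 (g t.1 t.2)
  have hyy : ∀ (t : ι) (z : N F2 X), yy t z = V (cross F2 (g t.1 t.2) z) := fun _ _ => rfl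
  have hVbd : ∀ w, V (N.bd F2 (X.prod X) w) = 0 := fun w => LinearMap.congr_fun hVc w
  have hyd : ∀ t : ι, IsDeg (m - (t.1 + 1)) (yy t) := by
    intro t n z hn
    rw [hyy]
    refine hVd.eval (cross_mem_gr (hgd t.1 t.2) (Pont718.sx_mem_gr z)) ?_
    have := t.1.2
    omega
  have hyc : ∀ t : ι, yy t ∘ₗ N.bd F2 X = 0 := by
    intro t
    refine LinearMap.ext fun z => ?_
    rw [LinearMap.comp_apply, hyy, LinearMap.zero_apply]
    have h := bd_cross F2 (g t.1 t.2) z
    rw [hgc, map_zero, LinearMap.zero_apply, zero_add, f2_sg] at h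
    rw [← h, hVbd]
  -- the difference
  let W : Co F2 (X.prod X) := crs U (aug F2) + crs (aug F2) U + ∑ t : ι, crs (xx t) (yy t)
  have hWc : W ∘ₗ N.bd F2 (X.prod X) = 0 := by
    refine LinearMap.ext fun w => ?_
    have e1 := LinearMap.congr_fun (crs_cocycle hUc (aug_comp_bd (K := X))) w
    have e2 := LinearMap.congr_fun (crs_cocycle (aug_comp_bd (K := X)) hUc) w
    have e3 : ∀ t : ι, crs (xx t) (yy t) (N.bd F2 _ w) = 0 := fun t =>
      LinearMap.congr_fun (crs_cocycle (hxc t.1 t.2) (hyc t)) w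
    simp only [LinearMap.comp_apply, LinearMap.zero_apply] at e1 e2
    simp only [W, LinearMap.comp_apply, LinearMap.add_apply, LinearMap.sum_apply,
      LinearMap.zero_apply, e1, e2, e3, Finset.sum_const_zero, add_zero]
  have hWd : IsDeg m W := by
    refine IsDeg.add (IsDeg.add ?_ ?_) (IsDeg.sum _ fun t _ => ?_)
    · simpa using hUd.crs (IsDeg.aug (R := F2) (K := X))
    · simpa using (IsDeg.aug (R := F2) (K := X)).crs hUd
    · have h := (hxd t.1 t.2).crs (hyd t)
      have e1 : (t.1 : ℕ) + 1 + (m - (t.1 + 1)) = m := by have := t.1.2; omega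
      rwa [e1] at h
  have hDc : ∀ w, V (N.bd F2 _ w) + W (N.bd F2 _ w) = 0 := fun w => by
    rw [hVbd, zero_add]; exact LinearMap.congr_fun hWc w
  have hWapp : ∀ Y Z : N F2 X, W (cross F2 Y Z) =
      U Y * aug F2 Z + aug F2 Y * U Z + ∑ t : ι, xx t Y * V (cross F2 (g t.1 t.2) Z) := by
    intro Y Z
    simp only [W, LinearMap.add_apply, LinearMap.sum_apply, crs_cross, hyy]
  have hUe : U (N.sx F2 e) = 0 := hUd 0 e hm.ne
  have haug : ∀ {n : ℕ} {z : N F2 X}, z ∈ N.gr F2 X n → n ≠ 0 → aug F2 z = 0 := fun hz hn =>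
    (IsDeg.aug (R := F2) (K := X)).eval hz hn
  -- value on products of cycles
  have key : ∀ (p q : ℕ) (Y Z : N F2 X), p + q = m → Y ∈ N.gr F2 X p → Z ∈ N.gr F2 X q →
      N.bd F2 X Y = 0 → N.bd F2 X Z = 0 → V (cross F2 Y Z) = W (cross F2 Y Z) := by
    intro p q Y Z hpq hY hZ hYc hZc
    -- changing `Y` by a boundary
    have hchg : ∀ Y' : N F2 X, Y + Y' ∈ LinearMap.range (N.bd F2 X) →
        V (cross F2 Y' Z) = W (cross F2 Y' Z) → V (cross F2 Y Z) = W (cross F2 Y Z) := by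
      rintro Y' ⟨u, hu⟩ hY'
      have h2 : cross F2 (Y + Y') Z = N.bd F2 _ (cross F2 u Z) := by
        rw [bd_cross, hZc, map_zero, add_zero, hu]
      have h3 := hDc (cross F2 u Z)
      rw [← h2] at h3
      simp only [map_add, LinearMap.add_apply] at h3
      rw [hY'] at h3
      have h4 : ∀ a b c : F2, a + b + (c + b) = 0 → a = c := by decide
      exact h4 _ _ _ h3
    rcases Nat.eq_zero_or_pos p with hp | hp
    · -- `p = 0`
      subst hp
      have hq : q = m := by omega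
      subst hq
      obtain ⟨r, hr⟩ := h0 Y hY
      refine hchg _ hr ?_
      rw [map_smul, LinearMap.smul_apply, map_smul, map_smul, hV2 Z hZ hZc, hWapp, hUe, aug_sx_zero,
        Finset.sum_eq_zero, zero_mul, one_mul, zero_add, add_zero]
      intro t _
      rw [hxd t.1 t.2 0 e (by omega), zero_mul]
    · rcases Nat.eq_zero_or_pos q with hq | hq
      · -- `q = 0`
        subst hq
        have hp' : p = m := by omega
        subst hp'
        obtain ⟨r, u, hu⟩ := h0 Z hZ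
        have h2 : cross F2 Y (Z + r • N.sx F2 e) = N.bd F2 _ (cross F2 Y u) := by
          rw [bd_cross, hYc, map_zero, LinearMap.zero_apply, zero_add, f2_sg, hu]
        have h3 := hDc (cross F2 Y u)
        rw [← h2] at h3
        simp only [map_add] at h3
        have h5 : V (cross F2 Y (r • N.sx F2 e)) = W (cross F2 Y (r • N.sx F2 e)) := by
          rw [map_smul, map_smul, map_smul, hV1 Y hY hYc, hWapp, aug_sx_zero, hUe,
            Finset.sum_eq_zero, mul_one, mul_zero, add_zero, add_zero]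
          intro t _
          have : V (cross F2 (g t.1 t.2) (N.sx F2 e)) = 0 := by
            refine hVd.eval (cross_mem_gr (hgd t.1 t.2) (Pont718.sx_mem_gr e)) ?_
            have := t.1.2
            omega
          rw [this, mul_zero]
        rw [h5] at h3
        have h4 : ∀ a b c : F2, a + b + (c + b) = 0 → a = c := by decide
        exact h4 _ _ _ h3
      · -- both positive
        have hi : p - 1 < m - 1 := by omega
        have hp1 : ((⟨p - 1, hi⟩ : Fin (m - 1)) : ℕ) + 1 = p := by simp only []; omega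
        have hYs := hxs ⟨p - 1, hi⟩ Y (by rw [hp1]; exact hY) hYc
        refine hchg _ hYs ?_
        rw [map_sum, LinearMap.sum_apply, map_sum, map_sum]
        refine Finset.sum_congr rfl fun j _ => ?_
        rw [map_smul, LinearMap.smul_apply, map_smul, map_smul, hWapp]
        congr 1
        have hg1 := hgd ⟨p - 1, hi⟩ j
        rw [hp1] at hg1
        rw [hUd.eval hg1 (by omega), haug hg1 hp.ne', zero_mul, zero_mul, zero_add, zero_add]
        rw [Finset.sum_eq_single (⟨⟨p - 1, hi⟩, j⟩ : ι)]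
        · simp only [xx]
          rw [hxg, if_pos rfl, one_mul]
        · rintro ⟨i, k⟩ - hne
          simp only [xx]
          by_cases hik : i = ⟨p - 1, hi⟩
          · subst hik
            have : k ≠ j := fun h => hne (by rw [h])
            rw [hxg, if_neg this, zero_mul]
          · have h6 : x i k (g ⟨p - 1, hi⟩ j) = 0 := by
              refine (hxd i k).eval hg1 ?_
              intro h7
              apply hik
              apply Fin.ext
              simp only []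
              omega
            rw [h6, zero_mul]
        · intro h; exact absurd (Finset.mem_univ _) h
  obtain ⟨b, hbd, hb⟩ := exists_cobound hm (D := V + W) (hVd.add hWd) (by
    intro w hw hwc
    obtain ⟨s', Y, Z, p, q, hpq, u, hu⟩ := hK w hw hwc
    have h1 : (V + W) (w + ∑ i, cross F2 (Y i) (Z i)) = 0 := by
      rw [← hu]; exact hDc u
    have h2 : (V + W) (∑ i, cross F2 (Y i) (Z i)) = 0 := by
      rw [map_sum]
      refine Finset.sum_eq_zero fun i _ => ?_
      obtain ⟨e1, e2, e3, e4, e5⟩ := hpq i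
      rw [LinearMap.add_apply, key _ _ _ _ e1 e2 e3 e4 e5, two_f2]
    rw [map_add, h2, add_zero] at h1
    exact h1)
  let ε := Fintype.equivFin ι
  refine ⟨Fintype.card ι, fun i => xx (ε.symm i), fun i => yy (ε.symm i),
    fun i => (ε.symm i).1 + 1, fun i => m - ((ε.symm i).1 + 1), b, ?_, hbd, ?_⟩
  · intro i
    have hlt := (ε.symm i).1.2
    refine ⟨Nat.succ_pos _, ?_, ?_, hxd _ _, hyd _, hxc _ _, hyc _⟩
    · show 0 < m - ((ε.symm i).1 + 1)
      omega
    · show ((ε.symm i).1 : ℕ) + 1 + (m - ((ε.symm i).1 + 1)) = m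
      omega
  · have h1 : ∑ i, crs (xx (ε.symm i)) (yy (ε.symm i)) = ∑ t : ι, crs (xx t) (yy t) :=
      Equiv.sum_comp ε.symm fun t => crs (xx t) (yy t)
    rw [h1, ← hb]
    change V = W + (V + W)
    rw [add_comm V W, ← add_assoc, f2_add_self, zero_add]

end Crest.Agent.R204.KDec810
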