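import Mathlib
import Crest.Agent.R204.HMainC_515

/-!
# Row 204, block H: transport of the K-theory of `SA (Fin m)` to a collapsed cube (helper515)

* `map_ext` : naturality of external products;
* `kinOf`   : the input `KIn a y` of `hopf_gf` from statements about `SA N`.
-/

set_option autoImplicit false

open scoped unitInterval Topology Topology.Homotopy

noncomputable section

namespace Crest.Agent.R204.HMain515

open H472 Ex837 ExM515
open K357 (K0 psi psi_map psi_comm psi_two)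

/-! ## naturality of external products -/

section MapExt

variable {k : Type} [CommRing k] {B B' Pr S B₁ B₁' Pr₁ S₁ : Type} [CommRing B] [CommRing B']
  [CommRing Pr] [CommRing S] [Algebra k B] [Algebra k B'] [Algebra k Pr] [Algebra k S]
  [CommRing B₁] [CommRing B₁'] [CommRing Pr₁] [CommRing S₁] [Algebra k B₁] [Algebra k B₁']
  [Algebra k Pr₁] [Algebra k S₁] {D : PD k B B' Pr} {D₁ : PD k B₁ B₁' Pr₁} (Z : D.Sm S)
  (Z₁ : D₁.Sm S₁)

theorem map_ext (u : B →+* B₁) (u' : B' →+* B₁') (v : Pr →+* Pr₁) (w : S →+* S₁)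
    (hi1 : ∀ b, v (D.i1 b) = D₁.i1 (u b)) (hi2 : ∀ b, v (D.i2 b) = D₁.i2 (u' b))
    (hinc : ∀ s, v (Z.inc s) = Z₁.inc (w s)) (hev : ∀ s, Z₁.ev (w s) = Z.ev s)
    (he : ∀ b, D₁.e (u b) = D.e b) (he' : ∀ b, D₁.e' (u' b) = D.e' b)
    {x : KC B} {y : KC B'} (hx : KM D.e.toRingHom x = 0) (hy : KM D.e'.toRingHom y = 0) :
    KM w (Z.ext x y) = Z₁.ext (KM u x) (KM u' y) := by
  have h1 : KM Z.inc.toRingHom (Z.ext x y) = KM D.i1.toRingHom x * KM D.i2.toRingHom y :=
    Z.inc_ext hx hy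
  have h2 : KM Z.ev.toRingHom (Z.ext x y) = 0 := Z.ev_ext hx hy
  have hx' : KM D₁.e.toRingHom (KM u x) = 0 :=
    (KM_comp _ _ D.e.toRingHom he x).trans hx
  have hy' : KM D₁.e'.toRingHom (KM u' y) = 0 :=
    (KM_comp _ _ D.e'.toRingHom he' y).trans hy
  refine Z₁.eq_ext hx' hy' ?_ ?_
  · change KM Z₁.inc.toRingHom (KM w (Z.ext x y)) =
      KM D₁.i1.toRingHom (KM u x) * KM D₁.i2.toRingHom (KM u' y)
    have a1 : KM Z₁.inc.toRingHom (KM w (Z.ext x y)) =
        KM v (KM Z.inc.toRingHom (Z.ext x y)) :=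
      (KM_comp w Z₁.inc.toRingHom (Z₁.inc.toRingHom.comp w) (fun _ => rfl) _).trans
        (KM_comp Z.inc.toRingHom v (Z₁.inc.toRingHom.comp w) hinc _).symm
    have a2 : KM D₁.i1.toRingHom (KM u x) = KM v (KM D.i1.toRingHom x) :=
      (KM_comp u D₁.i1.toRingHom (D₁.i1.toRingHom.comp u) (fun _ => rfl) _).trans
        (KM_comp D.i1.toRingHom v (D₁.i1.toRingHom.comp u) hi1 _).symm
    have a3 : KM D₁.i2.toRingHom (KM u' y) = KM v (KM D.i2.toRingHom y) :=
      (KM_comp u' D₁.i2.toRingHom (D₁.i2.toRingHom.comp u') (fun _ => rfl) _).trans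
        (KM_comp D.i2.toRingHom v (D₁.i2.toRingHom.comp u') hi2 _).symm
    rw [a1, a2, a3, h1, map_mul]
  · change KM Z₁.ev.toRingHom (KM w (Z.ext x y)) = 0
    exact (KM_comp w _ Z.ev.toRingHom hev _).trans h2

end MapExt

/-! ## transport along a collapse -/

theorem KM_inv {A B : Type} [CommRing A] [CommRing B] (φ : A →+* B) (ψ : B →+* A)
    (h : ∀ a, ψ (φ a) = a) (x : KC A) : KM ψ (KM φ x) = x :=
  (KM_comp φ ψ (RingHom.id A) h x).trans (KM_id _ (fun _ => rfl) x)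

section Transport

variable {N : Type} {Y : Type} [TopologicalSpace Y] [T2Space Y] {y : Y}

/-- `C(Y ∧ Y) ≃ CR (I^N × I^N) (bd ∨ bd)` -/
def smE (c : Collapse N Y y) : Smash y y ≃ₐ[ℂ]
    CR ((N → I) × (N → I)) (smashSet (Cube.boundary N) (Cube.boundary N)) :=
  CR.comapEquiv (c.p.prodMap c.p)
    (by
      rintro ⟨x, x'⟩ (h | h)
      · exact Or.inl ((c.bd x).2 h)
      · exact Or.inr ((c.bd x').2 h))
    (by
      rintro ⟨a, b⟩
      obtain ⟨x, rfl⟩ := c.surj a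
      obtain ⟨x', rfl⟩ := c.surj b
      exact ⟨(x, x'), rfl⟩)
    (by
      rintro ⟨x, x'⟩ (h | h)
      · exact Or.inl ((c.bd x).1 h)
      · exact Or.inr ((c.bd x').1 h))
    (by
      rintro ⟨x, x'⟩ ⟨w, w'⟩ h
      have h1 : c.p x = c.p w := congrArg Prod.fst h
      have h2 : c.p x' = c.p w' := congrArg Prod.snd h
      rcases c.fib _ _ h1 with h3 | ⟨h3, h4⟩
      · rcases c.fib _ _ h2 with h5 | ⟨h5, h6⟩
        · left; rw [h3, h5]
        · right; exact ⟨Or.inr h5, Or.inr h6⟩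
      · right; exact ⟨Or.inl h3, Or.inl h4⟩)

/-- the smash algebra of two cubes -/
abbrev SM2 (N : Type) : Subalgebra ℂ C((N → I) × (N → I), ℂ) :=
  CR ((N → I) × (N → I)) (smashSet (Cube.boundary N) (Cube.boundary N))

/-- ring homs of `smE` -/
def smR (c : Collapse N Y y) : Smash y y →+* SM2 N := (smE c).toRingEquiv.toRingHom
/-- inverse -/
def smRi (c : Collapse N Y y) : SM2 N →+* Smash y y := (smE c).symm.toRingEquiv.toRingHom

theorem smRi_smR (c : Collapse N Y y) (F : Smash y y) : smRi c (smR c F) = F :=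
  (smE c).symm_apply_apply F

theorem smR_apply (c : Collapse N Y y) (F : Smash y y) (z : (N → I) × (N → I)) :
    ((smR c F : SM2 N) : C((N → I) × (N → I), ℂ)) z = (F : C(Y × Y, ℂ)) (c.p z.1, c.p z.2) := rfl

/-- `C(Y × Y) → PA bd bd` -/
def prE (c : Collapse N Y y) : C(Y × Y, ℂ) →ₐ[ℂ] PA (Cube.boundary N) (Cube.boundary N) :=
  (ContinuousMap.compRightAlgHom ℂ ℂ (c.p.prodMap c.p)).codRestrict _ (fun F =>
    ⟨fun z x hx x' hx' => by
      change F (c.p x, c.p z) = F (c.p x', c.p z)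
      rw [(c.bd x).2 hx, (c.bd x').2 hx'],
    fun z x hx x' hx' => by
      change F (c.p z, c.p x) = F (c.p z, c.p x')
      rw [(c.bd x).2 hx, (c.bd x').2 hx']⟩)

/-- pull back along the collapse -/
def cE (c : Collapse N Y y) : C(Y, ℂ) ≃ₐ[ℂ] SA N := c.equiv

/-- ring homs of `cE` -/
def cR (c : Collapse N Y y) : C(Y, ℂ) →+* SA N := (cE c).toRingEquiv.toRingHom
/-- inverse -/
def cRi (c : Collapse N Y y) : SA N →+* C(Y, ℂ) := (cE c).symm.toRingEquiv.toRingHom

theorem cRi_cR (c : Collapse N Y y) (a : C(Y, ℂ)) : cRi c (cR c a) = a :=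
  (cE c).symm_apply_apply a
theorem cR_cRi (c : Collapse N Y y) (a : SA N) : cR c (cRi c a) = a :=
  (cE c).apply_symm_apply a

theorem cR_apply (c : Collapse N Y y) (a : C(Y, ℂ)) (x : N → I) :
    ((cR c a : SA N) : C(N → I, ℂ)) x = a (c.p x) := rfl

section norm
variable [CompactSpace Y]

theorem norm_cR (c : Collapse N Y y) (a : C(Y, ℂ)) : ‖cR c a‖ = ‖a‖ := by
  change ‖(a.comp c.p : C(N → I, ℂ))‖ = ‖a‖
  refine le_antisymm ?_ ?_
  · refine (ContinuousMap.norm_le _ (norm_nonneg _)).2 fun x => ?_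
    exact ContinuousMap.norm_coe_le_norm a (c.p x)
  · refine (ContinuousMap.norm_le _ (norm_nonneg _)).2 fun z => ?_
    obtain ⟨x, rfl⟩ := c.surj z
    exact ContinuousMap.norm_coe_le_norm (a.comp c.p : C(N → I, ℂ)) x

theorem continuous_cRi (c : Collapse N Y y) : Continuous (cRi c) := by
  have h : ∀ b : SA N, ‖cRi c b‖ ≤ 1 * ‖b‖ := fun b => by
    rw [← norm_cR c, cR_cRi, one_mul]
  exact AddMonoidHomClass.continuous_of_bound (cRi c) 1 h

theorem k1_of (c : Collapse N Y y) (h : K1Triv (SA N)) : K1Triv C(Y, ℂ) :=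
  h.of_equiv (cE c).symm.toRingEquiv (continuous_cRi c)

end norm

/-- the transported class -/
def trb (c : Collapse N Y y) (b : KC (SA N)) : KC C(Y, ℂ) :=
  KM (A := SA N) (B := C(Y, ℂ)) (cRi c) b

/-- the inverse transport -/
def tri (c : Collapse N Y y) (b : KC C(Y, ℂ)) : KC (SA N) :=
  KM (A := C(Y, ℂ)) (B := SA N) (cR c) b

theorem tri_trb (c : Collapse N Y y) (b : KC (SA N)) : tri c (trb c b) = b := by
  have h := KM_inv (A := SA N) (B := C(Y, ℂ)) (cRi c) (cR c) (cR_cRi c) b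
  exact h

theorem trb_tri (c : Collapse N Y y) (b : KC C(Y, ℂ)) : trb c (tri c b) = b := by
  have h := KM_inv (A := C(Y, ℂ)) (B := SA N) (cR c) (cRi c) (cRi_cR c) b
  exact h

theorem trb_zsmul (c : Collapse N Y y) (b : KC (SA N)) (m : ℤ) : trb c (m • b) = m • trb c b :=
  map_zsmul _ _ _

theorem trb_zero (c : Collapse N Y y) : trb c 0 = 0 := map_zero _
theorem tri_zero (c : Collapse N Y y) : tri c 0 = 0 := map_zero _

theorem kN_tri (c : Collapse N Y y) {x₀ : N → I} (h₀ : x₀ ∈ Cube.boundary N) (b : KC C(Y, ℂ)) :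
    kN x₀ (tri c b) = kY y b := by
  have h := KM_comp (A := C(Y, ℂ)) (B := SA N) (C := ℂ)
    (cR c) (CR.ev x₀ : SA N →ₐ[ℂ] ℂ).toRingHom
    (pdC y y).e.toRingHom (fun a => by
      change a (c.p x₀) = a y
      rw [(c.bd x₀).2 h₀]) b
  exact h

theorem kY_trb (c : Collapse N Y y) {x₀ : N → I} (h₀ : x₀ ∈ Cube.boundary N) (b : KC (SA N)) :
    kY y (trb c b) = kN x₀ b := by
  rw [← kN_tri c h₀, tri_trb]

theorem psi_trb (p : ℕ) [Fact p.Prime] (c : Collapse N Y y) (b : KC (SA N)) :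
    psi p C(Y, ℂ) (trb c b) = trb c (psi p (SA N) b) := by
  have h := psi_KM (A := SA N) (B := C(Y, ℂ)) p (cE c).symm.toAlgHom (cRi c) (fun _ => rfl) b
  exact h

/-- induced map of `smR` -/
def smK (c : Collapse N Y y) (t : KC (Smash y y)) : KC (SM2 N) :=
  KM (A := Smash y y) (B := SM2 N) (smR c) t

theorem smK_inj (c : Collapse N Y y) {t t' : KC (Smash y y)} (h : smK c t = smK c t') :
    t = t' := by
  have h1 := KM_inv (A := Smash y y) (B := SM2 N) (smR c) (smRi c) (smRi_smR c) t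
  have h2 := KM_inv (A := Smash y y) (B := SM2 N) (smR c) (smRi c) (smRi_smR c) t'
  rw [← h1, ← h2]
  exact congrArg _ h

theorem smK_zsmul (c : Collapse N Y y) (t : KC (Smash y y)) (m : ℤ) :
    smK c (m • t) = m • smK c t := map_zsmul _ _ _

theorem smK_zero (c : Collapse N Y y) : smK c 0 = 0 := map_zero _

theorem ev_smK (c : Collapse N Y y) {x₀ : N → I} (h₀ : x₀ ∈ Cube.boundary N)
    (t : KC (Smash y y)) :
    KM (A := SM2 N) (B := ℂ) (smCR h₀ h₀).ev.toRingHom (smK c t) =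
      KM (A := Smash y y) (B := ℂ) (smC y y).ev.toRingHom t := by
  have h := KM_comp (A := Smash y y) (B := SM2 N) (C := ℂ) (smR c)
    (smCR h₀ h₀).ev.toRingHom (smC y y).ev.toRingHom (fun F => by
      change (F : C(Y × Y, ℂ)) (c.p x₀, c.p x₀) = (F : C(Y × Y, ℂ)) (y, y)
      rw [(c.bd x₀).2 h₀]) t
  exact h

/-- external products correspond -/
theorem smK_ext (c : Collapse N Y y) {x₀ : N → I} (h₀ : x₀ ∈ Cube.boundary N) {b : KC (SA N)}
    (hb : kN x₀ b = 0) :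
    smK c ((smC y y).ext (trb c b) (trb c b)) = (smCR h₀ h₀).ext b b := by
  have hx : KM (A := C(Y, ℂ)) (B := ℂ) (pdC y y).e.toRingHom (trb c b) = 0 :=
    (kY_trb c h₀ b).trans hb
  have key := map_ext (k := ℂ) (smC y y) (smCR h₀ h₀) (cR c) (cR c) (prE c).toRingHom (smR c)
    (fun _ => rfl) (fun _ => rfl) (fun _ => rfl)
    (fun F => by
      change (F : C(Y × Y, ℂ)) (c.p x₀, c.p x₀) = (F : C(Y × Y, ℂ)) (y, y)
      rw [(c.bd x₀).2 h₀])
    (fun a => by
      change a (c.p x₀) = a y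
      rw [(c.bd x₀).2 h₀])
    (fun a => by
      change a (c.p x₀) = a y
      rw [(c.bd x₀).2 h₀]) hx hx
  have h2 : KM (A := C(Y, ℂ)) (B := SA N) (cR c) (trb c b) = b := tri_trb c b
  rw [h2] at key
  exact key

/-- **the K-theoretic input for `Y`** from that of `SA N` -/
def kinOf [CompactSpace Y] {a : ℕ} (c : Collapse N Y y) {x₀ : N → I}
    (h₀ : x₀ ∈ Cube.boundary N)
    (b : KC (SA N)) (hb : kN x₀ b = 0) (free : ∀ n : ℤ, n • b = 0 → n = 0)
    (gen : ∀ t, kN x₀ t = 0 → ∃ n : ℤ, t = n • b)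
    (psi2 : psi 2 (SA N) b = (2 : ℤ) ^ a • b) (psi3 : psi 3 (SA N) b = (3 : ℤ) ^ a • b)
    (k1 : K1Triv (SA N))
    (sfree : ∀ n : ℤ, n • (smCR h₀ h₀).ext b b = 0 → n = 0)
    (sgen : ∀ t : KC (SM2 N), KM (A := SM2 N) (B := ℂ) (smCR h₀ h₀).ev.toRingHom t = 0 →
      ∃ n : ℤ, t = n • (smCR h₀ h₀).ext b b) :
    KIn a y where
  b := trb c b
  hb := (kY_trb c h₀ b).trans hb
  free n hn := by
    apply free
    rw [← trb_zsmul] at hn
    rw [← tri_trb c (n • b), hn, tri_zero]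
  gen t ht := by
    obtain ⟨n, hn⟩ := gen (tri c t) (by rw [kN_tri c h₀, ht])
    exact ⟨n, by rw [← trb_zsmul, ← hn, trb_tri]⟩
  psi2 := by rw [psi_trb, psi2, trb_zsmul]
  psi3 := by rw [psi_trb, psi3, trb_zsmul]
  k1 := k1_of c k1
  sfree n hn := by
    apply sfree
    rw [← smK_ext c h₀ hb, ← smK_zsmul, hn, smK_zero]
  sgen t ht := by
    obtain ⟨n, hn⟩ := sgen (smK c t) (by rw [ev_smK, ht])
    refine ⟨n, ?_⟩
    rw [← smK_ext c h₀ hb, ← smK_zsmul] at hn
    exact smK_inj c hn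

end Transport

end Crest.Agent.R204.HMain515
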