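import Crest.Agent.R204.Q_803

/-!
# Künneth decomposition of cocycles of `S` mod 2 (row 204, leaf G5; helper803)
-/

set_option autoImplicit false
set_option linter.unusedSectionVars false

namespace Crest.Agent.R204.SQ803

open Co

section one
variable {D : Type*} [Group D]

/-- invariant functions supported on lists of length `q` -/
def CM (D : Type*) [Group D] (q : ℕ) : Submodule (ZMod 2) (List D → ZMod 2) where
  carrier := {f | f [] = 0 ∧ (∀ l, l.length ≠ q → f l = 0) ∧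
    ∀ (g : D) (l : List D), f (l.map fun a => g * a) = f l}
  zero_mem' := ⟨rfl, fun _ _ => rfl, fun _ _ => rfl⟩
  add_mem' {f f'} h h' := ⟨by simp [h.1, h'.1], fun l hl => by simp [h.2.1 l hl, h'.2.1 l hl],
    fun g l => by simp [h.2.2 g l, h'.2.2 g l]⟩
  smul_mem' c {f} h := ⟨by simp [h.1], fun l hl => by simp [h.2.1 l hl],
    fun g l => by simp [h.2.2 g l]⟩

/-- the differential as a linear map -/
def dd (X : Type*) : (List X → ZMod 2) →ₗ[ZMod 2] (List X → ZMod 2) where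
  toFun f := fun l => dl l f
  map_add' f g := funext fun l => dl_add l f g
  map_smul' c f := funext fun l => dl_hom (AddMonoidHom.mulLeft c) l f

@[simp] theorem dd_apply {X : Type*} (f : List X → ZMod 2) (l : List X) : dd X f l = dl l f := rfl

theorem dd_dd {X : Type*} (f : List X → ZMod 2) : dd X (dd X f) = 0 := funext fun l => dl_dl l f

theorem dd_mem {q : ℕ} {f : List D → ZMod 2} (hf : f ∈ CM D q) : dd D f ∈ CM D (q + 1) := by
  refine ⟨rfl, fun l hl => ?_, fun g l => ?_⟩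
  · exact dl_eq_zero fun l' hl' => hf.2.1 l' (by omega)
  · rw [dd_apply, dd_apply, ← dl_map]
    exact dl_congr fun l' _ => hf.2.2 g l'

/-- generalised inverse of a linear map over a field -/
theorem exists_ginv {K V V' : Type*} [Field K] [AddCommGroup V] [Module K V] [AddCommGroup V']
    [Module K V'] (W : Submodule K V) (d : V →ₗ[K] V') :
    ∃ g : V' →ₗ[K] W, ∀ w ∈ W, d (g (d w)) = d w := by
  let T : W →ₗ[K] V' := d.comp W.subtype
  obtain ⟨r, hr⟩ := T.rangeRestrict.exists_rightInverse_of_surjective T.range_rangeRestrict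
  obtain ⟨g, hg⟩ := LinearMap.exists_extend r
  refine ⟨g, fun w hw => ?_⟩
  have h1 : g (d w) = r ⟨d w, ⟨⟨w, hw⟩, rfl⟩⟩ := by rw [← hg]; rfl
  rw [h1]
  have h2 := LinearMap.congr_fun hr ⟨d w, ⟨⟨w, hw⟩, rfl⟩⟩
  exact congrArg Subtype.val h2

/-- homogeneous part -/
def pr (X : Type*) (q : ℕ) : (List X → ZMod 2) →ₗ[ZMod 2] (List X → ZMod 2) where
  toFun f := fun l => if l.length = q then f l else 0
  map_add' f g := by funext l; simp only [Pi.add_apply]; split_ifs <;> simp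
  map_smul' c f := by funext l; simp

theorem pr_apply {X : Type*} (q : ℕ) (f : List X → ZMod 2) (l : List X) :
    pr X q f l = if l.length = q then f l else 0 := rfl

/-- the homotopy -/
theorem exists_hh (D : Type*) [Group D] : ∃ h : (List D → ZMod 2) →ₗ[ZMod 2] (List D → ZMod 2),
    (∀ q, ∀ f ∈ CM D (q + 1), h f ∈ CM D q) ∧
    (∀ f, h f [] = 0) ∧ (∀ f (g : D) (l : List D), h f (l.map fun a => g * a) = h f l) ∧
    (∀ q, ∀ f ∈ CM D q, dd D (h (dd D f)) = dd D f) := by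
  choose g hg using fun p => exists_ginv (CM D p) (dd D)
  let h : (List D → ZMod 2) →ₗ[ZMod 2] (List D → ZMod 2) :=
    { toFun := fun f l => (g l.length (pr D (l.length + 1) f)).1 l
      map_add' := fun f f' => by funext l; simp
      map_smul' := fun c f => by funext l; simp }
  have hdef : ∀ f l, h f l = (g l.length (pr D (l.length + 1) f)).1 l := fun _ _ => rfl
  have hmem : ∀ q, ∀ f ∈ CM D (q + 1), h f = (g q f).1 := by
    intro q f hf
    funext l
    rw [hdef]
    by_cases hl : l.length = q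
    · subst hl
      have e : pr D (l.length + 1) f = f := by
        funext l'
        rw [pr_apply]
        split_ifs with h'
        · rfl
        · exact (hf.2.1 l' h').symm
      rw [e]
    · have : pr D (l.length + 1) f = 0 := by
        funext l'
        rw [pr_apply]
        split_ifs with h'
        · exact hf.2.1 l' (by omega)
        · rfl
      rw [this, map_zero, (g q f).2.2.1 l hl]
      rfl
  refine ⟨h, fun q f hf => by rw [hmem q f hf]; exact (g q f).2, fun f => ?_, fun f a l => ?_,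
    fun q f hf => ?_⟩
  · rw [hdef]; exact (g _ _).2.1
  · rw [hdef, hdef, List.length_map]; exact (g _ _).2.2.2 a l
  · rw [hmem q _ (dd_mem hf)]
    exact hg q f hf

/-- the projection `1 + dh + hd` -/
def pp {X : Type*} (h : (List X → ZMod 2) →ₗ[ZMod 2] (List X → ZMod 2)) :
    (List X → ZMod 2) →ₗ[ZMod 2] (List X → ZMod 2) :=
  LinearMap.id + (dd X).comp h + h.comp (dd X)

theorem pp_apply {X : Type*} (h : (List X → ZMod 2) →ₗ[ZMod 2] (List X → ZMod 2))
    (f : List X → ZMod 2) : pp h f = f + dd X (h f) + h (dd X f) := rfl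

theorem CM_zero {f : List D → ZMod 2} (hf : f ∈ CM D 0) : f = 0 := by
  funext l
  rcases l with _ | ⟨a, l⟩
  · exact hf.1
  · exact hf.2.1 _ (by simp)

theorem fun_two {X : Type*} (f : List X → ZMod 2) : f + f = 0 := funext fun l => DG2.two (f l)

theorem dd_pp {h : (List D → ZMod 2) →ₗ[ZMod 2] (List D → ZMod 2)}
    (hh : ∀ q, ∀ f ∈ CM D q, dd D (h (dd D f)) = dd D f) {q : ℕ} {f : List D → ZMod 2}
    (hf : f ∈ CM D q) : dd D (pp h f) = 0 := by
  rw [pp_apply, map_add, map_add, dd_dd, hh q f hf, add_zero, fun_two]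

theorem pp_dd {h : (List D → ZMod 2) →ₗ[ZMod 2] (List D → ZMod 2)}
    (hh : ∀ q, ∀ f ∈ CM D q, dd D (h (dd D f)) = dd D f) {q : ℕ} {f : List D → ZMod 2}
    (hf : f ∈ CM D q) : pp h (dd D f) = 0 := by
  rw [pp_apply, dd_dd, map_zero, hh q f hf, add_zero, fun_two]

end one

section ops
variable {X Y : Type*}

/-- operator in the first variable -/
def op1 (A : (List X → ZMod 2) →ₗ[ZMod 2] (List X → ZMod 2)) :
    Co X (Co Y (ZMod 2)) →+ Co X (Co Y (ZMod 2)) where
  toFun s := ⟨fun x => ⟨fun y => A (fun x' => (s.f x').f y) x⟩⟩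
  map_zero' := Co.ext fun x => Co.ext fun y => by
    show A (fun _ => 0) x = 0
    exact congrFun (map_zero A) x
  map_add' s t := Co.ext fun x => Co.ext fun y => by
    show A (fun x' => (s.f x').f y + (t.f x').f y) x = _
    exact congrFun (map_add A (fun x' => (s.f x').f y) (fun x' => (t.f x').f y)) x

/-- operator in the second variable -/
def op2 (A : (List Y → ZMod 2) →ₗ[ZMod 2] (List Y → ZMod 2)) :
    Co X (Co Y (ZMod 2)) →+ Co X (Co Y (ZMod 2)) where
  toFun s := ⟨fun x => ⟨fun y => A (s.f x).f y⟩⟩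
  map_zero' := Co.ext fun x => Co.ext fun y => by
    show A (fun _ => 0) y = 0
    exact congrFun (map_zero A) y
  map_add' s t := Co.ext fun x => Co.ext fun y => by
    exact congrFun (map_add A (s.f x).f (t.f x).f) y

theorem op1_f (A : (List X → ZMod 2) →ₗ[ZMod 2] (List X → ZMod 2)) (s : Co X (Co Y (ZMod 2)))
    (x : List X) (y : List Y) : ((op1 A s).f x).f y = A (fun x' => (s.f x').f y) x := rfl

theorem op2_f (A : (List Y → ZMod 2) →ₗ[ZMod 2] (List Y → ZMod 2)) (s : Co X (Co Y (ZMod 2)))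
    (x : List X) (y : List Y) : ((op2 A s).f x).f y = A (s.f x).f y := rfl

theorem op_comm [Finite X] (A : (List X → ZMod 2) →ₗ[ZMod 2] (List X → ZMod 2))
    (B : (List Y → ZMod 2) →ₗ[ZMod 2] (List Y → ZMod 2)) {M : ℕ} {s : Co X (Co Y (ZMod 2))}
    (hs : HmS M s) : op1 A (op2 B s) = op2 B (op1 A s) := by
  classical
  have hfin : {x : List X | x.length ≤ M}.Finite := List.finite_length_le X M
  let F : Finset (List X) := hfin.toFinset
  have hF : ∀ x, x ∉ F → ∀ y, (s.f x).f y = 0 := fun x hx y => by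
    have : ¬ x.length ≤ M := by simpa [F] using hx
    exact hs x y (by omega)
  have hF' : ∀ x, x ∉ F → (s.f x).f = 0 := fun x hx => funext (hF x hx)
  have key : ∀ φ : List X → ZMod 2, (∀ x, x ∉ F → φ x = 0) →
      φ = ∑ x0 ∈ F, φ x0 • (Pi.single x0 1 : List X → ZMod 2) := by
    intro φ hφ
    funext x
    rw [Finset.sum_apply]
    by_cases hx : x ∈ F
    · rw [Finset.sum_eq_single x]
      · simp
      · intro b _ hb
        simp [Pi.single_apply, Ne.symm hb]
      · exact fun h => absurd hx h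
    · rw [hφ x hx, Finset.sum_eq_zero]
      intro b hb
      have : x ≠ b := fun h => hx (h ▸ hb)
      simp [Pi.single_apply, this]
  refine Co.ext fun x => Co.ext fun y => ?_
  rw [op1_f, op2_f]
  have e1 : (fun x' => ((op2 B s).f x').f y) =
      ∑ x0 ∈ F, (B (s.f x0).f y) • (Pi.single x0 1 : List X → ZMod 2) := by
    rw [← key (fun x' => B (s.f x').f y)]
    · rfl
    · intro x' hx'
      show B (s.f x').f y = 0
      rw [hF' x' hx', map_zero]; rfl
  have e2 : ((op1 A s).f x).f = ∑ x0 ∈ F, (A (Pi.single x0 1) x) • (s.f x0).f := by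
    funext y'
    rw [op1_f, key (fun x' => (s.f x').f y') (fun x' hx' => hF x' hx' y'), map_sum,
      Finset.sum_apply, Finset.sum_apply]
    refine Finset.sum_congr rfl fun x0 _ => ?_
    rw [map_smul, Pi.smul_apply, Pi.smul_apply, smul_eq_mul, smul_eq_mul, mul_comm]
  rw [e1, e2, map_sum, map_sum, Finset.sum_apply, Finset.sum_apply]
  refine Finset.sum_congr rfl fun x0 _ => ?_
  rw [map_smul, map_smul, Pi.smul_apply, Pi.smul_apply, smul_eq_mul, smul_eq_mul, mul_comm]

theorem NzS.δ_two {s : Co X (Co Y (ZMod 2))} (h : NzS s) : Cx.δ s = op1 (dd X) s + op2 (dd Y) s := by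
  refine Co.ext fun x => Co.ext fun y => ?_
  rw [h.δ_fz, sg_smul_of_two DG2.two]; rfl

end ops

section SAops
variable {X Y : Type*} [Group X] [Group Y]

theorem SA_col {M : ℕ} {s : Co X (Co Y (ZMod 2))} (hs : s ∈ SA X Y 2 M) (y : List Y) :
    (fun x' => (s.f x').f y) ∈ CM X (M - y.length) := by
  refine ⟨by show (s.f []).f y = 0; rw [hs.1.1]; rfl, fun x hx => ?_, fun g x => ?_⟩
  · by_cases h : x.length + y.length = M
    · omega
    · exact hs.2.1 x y h
  · have h := congrArg (fun s => (s.f x).f y) (hs.2.2 (g, 1))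
    simpa using h

theorem SA_row {M : ℕ} {s : Co X (Co Y (ZMod 2))} (hs : s ∈ SA X Y 2 M) (x : List X) :
    (s.f x).f ∈ CM Y (M - x.length) := by
  refine ⟨hs.1.2 x, fun y hy => ?_, fun g y => ?_⟩
  · by_cases h : x.length + y.length = M
    · omega
    · exact hs.2.1 x y h
  · have h := congrArg (fun s => (s.f x).f y) (hs.2.2 (1, g))
    simpa using h

theorem op1_mem {M k : ℕ} (hk : k ≤ 1) {A : (List X → ZMod 2) →ₗ[ZMod 2] (List X → ZMod 2)}
    (hA : ∀ q, ∀ f ∈ CM X (q + k), A f ∈ CM X q) (hA0 : ∀ f, f [] = 0 → A f [] = 0)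
    {s : Co X (Co Y (ZMod 2))} (hs : s ∈ SA X Y 2 (M + k)) : op1 A s ∈ SA X Y 2 M := by
  have hz : ∀ y : List Y, M < y.length → ∀ x, ((op1 A s).f x).f y = 0 := fun y hy x => by
    rw [op1_f]
    have h1 := SA_col hs y
    rw [show M + k - y.length = 0 by omega] at h1
    rw [CM_zero h1, map_zero]; rfl
  have hc : ∀ y : List Y, y.length ≤ M → A (fun x' => (s.f x').f y) ∈ CM X (M - y.length) :=
    fun y hy => hA _ _ (by
      have := SA_col hs y
      rwa [show M + k - y.length = M - y.length + k by omega] at this)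
  refine ⟨⟨Co.ext fun y => ?_, fun x => ?_⟩, fun x y h => ?_, fun g => Co.ext fun x => Co.ext fun y => ?_⟩
  · rw [op1_f, hA0 _ (by show (s.f []).f y = 0; rw [hs.1.1]; rfl)]; rfl
  · rw [op1_f]
    have : (fun x' => (s.f x').f []) = 0 := funext fun x' => hs.1.2 x'
    rw [this, map_zero]; rfl
  · rcases Nat.lt_or_ge M y.length with hy | hy
    · exact hz y hy x
    · exact (hc y hy).2.1 x (by omega)
  · rw [aS_f]
    rcases Nat.lt_or_ge M y.length with hy | hy
    · rw [hz _ (by simpa using hy), hz y hy]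
    · have h1 : (fun x' => (s.f x').f (y.map fun b => g.2 * b)) = fun x' => (s.f x').f y :=
        funext fun x' => (SA_row hs x').2.2 g.2 y
      rw [op1_f, op1_f, h1]
      exact (hc y hy).2.2 g.1 x

theorem op2_mem {M k : ℕ} (hk : k ≤ 1) {A : (List Y → ZMod 2) →ₗ[ZMod 2] (List Y → ZMod 2)}
    (hA : ∀ q, ∀ f ∈ CM Y (q + k), A f ∈ CM Y q) (hA0 : ∀ f, f [] = 0 → A f [] = 0)
    {s : Co X (Co Y (ZMod 2))} (hs : s ∈ SA X Y 2 (M + k)) : op2 A s ∈ SA X Y 2 M := by
  have hz : ∀ x : List X, M < x.length → ∀ y, ((op2 A s).f x).f y = 0 := fun x hx y => by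
    rw [op2_f]
    have h1 := SA_row hs x
    rw [show M + k - x.length = 0 by omega] at h1
    rw [CM_zero h1, map_zero]; rfl
  have hc : ∀ x : List X, x.length ≤ M → A (s.f x).f ∈ CM Y (M - x.length) :=
    fun x hx => hA _ _ (by
      have := SA_row hs x
      rwa [show M + k - x.length = M - x.length + k by omega] at this)
  refine ⟨⟨Co.ext fun y => ?_, fun x => ?_⟩, fun x y h => ?_, fun g => Co.ext fun x => Co.ext fun y => ?_⟩
  · rw [op2_f]
    have : (s.f []).f = 0 := by rw [hs.1.1]; rfl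
    rw [this, map_zero]; rfl
  · rw [op2_f, hA0 _ (hs.1.2 x)]
  · rcases Nat.lt_or_ge M x.length with hx | hx
    · exact hz x hx y
    · exact (hc x hx).2.1 y (by omega)
  · rw [aS_f]
    rcases Nat.lt_or_ge M x.length with hx | hx
    · rw [hz _ (by simpa using hx), hz x hx]
    · have h1 : (s.f (x.map fun b => g.1 * b)).f = (s.f x).f :=
        funext fun y' => (SA_col hs y').2.2 g.1 x
      rw [op2_f, op2_f, h1]
      exact (hc x hx).2.2 g.2 y

theorem op1_comp (A B : (List X → ZMod 2) →ₗ[ZMod 2] (List X → ZMod 2)) (s : Co X (Co Y (ZMod 2))) :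
    op1 A (op1 B s) = op1 (A.comp B) s := rfl

theorem op2_comp (A B : (List Y → ZMod 2) →ₗ[ZMod 2] (List Y → ZMod 2)) (s : Co X (Co Y (ZMod 2))) :
    op2 A (op2 B s) = op2 (A.comp B) s := rfl

theorem op1_congr {M : ℕ} {A B : (List X → ZMod 2) →ₗ[ZMod 2] (List X → ZMod 2)}
    (h : ∀ q, ∀ f ∈ CM X q, A f = B f) {s : Co X (Co Y (ZMod 2))} (hs : s ∈ SA X Y 2 M) :
    op1 A s = op1 B s :=
  Co.ext fun x => Co.ext fun y => congrFun (h _ _ (SA_col hs y)) x

theorem op2_congr {M : ℕ} {A B : (List Y → ZMod 2) →ₗ[ZMod 2] (List Y → ZMod 2)}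
    (h : ∀ q, ∀ f ∈ CM Y q, A f = B f) {s : Co X (Co Y (ZMod 2))} (hs : s ∈ SA X Y 2 M) :
    op2 A s = op2 B s :=
  Co.ext fun x => Co.ext fun y => congrFun (h _ _ (SA_row hs x)) y

theorem op1_zero (s : Co X (Co Y (ZMod 2))) : op1 0 s = 0 := rfl
theorem op2_zero (s : Co X (Co Y (ZMod 2))) : op2 0 s = 0 := rfl

theorem two_Co {X Y : Type*} (s : Co X (Co Y (ZMod 2))) : s + s = 0 :=
  Co.ext fun x => Co.ext fun y => DG2.two _

theorem δ_mem_SA {M : ℕ} {s : Co X (Co Y (ZMod 2))} (hs : s ∈ SA X Y 2 M) :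
    Cx.δ s ∈ SA X Y 2 (M + 1) := by
  refine ⟨hs.1.δ, fun x y h => ?_, fun g => by rw [← δ_aS, hs.2.2]⟩
  rw [hs.1.δ_fz, dl_eq_zero fun x' _ => hs.2.1 _ _ (by omega), dl_eq_zero fun y' _ => hs.2.1 _ _ (by omega)]
  simp

variable {h : (List X → ZMod 2) →ₗ[ZMod 2] (List X → ZMod 2)}
  {h' : (List Y → ZMod 2) →ₗ[ZMod 2] (List Y → ZMod 2)}

theorem pp_mem (h1 : ∀ q, ∀ f ∈ CM X (q + 1), h f ∈ CM X q) (q : ℕ) (f : List X → ZMod 2)
    (hf : f ∈ CM X q) : pp h f ∈ CM X q := by
  rw [pp_apply]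
  refine Submodule.add_mem _ (Submodule.add_mem _ hf ?_) (h1 _ _ (dd_mem hf))
  cases q with
  | zero => rw [CM_zero hf, map_zero, map_zero]; exact Submodule.zero_mem _
  | succ q => exact dd_mem (h1 _ _ hf)

theorem pp_zero' (h0 : ∀ f, h f [] = 0) {f : List X → ZMod 2} (hf : f [] = 0) : pp h f [] = 0 := by
  rw [pp_apply, Pi.add_apply, Pi.add_apply, hf, h0, dd_apply, dl_nil]; simp

/-- normalised cocycles in one variable -/
def ZC (X : Type*) [Group X] (q : ℕ) : Submodule (ZMod 2) (List X → ZMod 2) :=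
  CM X q ⊓ LinearMap.ker (dd X)

theorem mem_ZC {q : ℕ} {f : List X → ZMod 2} : f ∈ ZC X q ↔ f ∈ CM X q ∧ dd X f = 0 := Iff.rfl

/-- cross product -/
def crs {X Y : Type*} {n : ℕ} (a : List X → ZMod n) (b : List Y → ZMod n) : Co X (Co Y (ZMod n)) :=
  ⟨fun x => ⟨fun y => a x * b y⟩⟩

@[simp] theorem crs_f {X Y : Type*} {n : ℕ} (a : List X → ZMod n) (b : List Y → ZMod n) (x : List X)
    (y : List Y) : ((crs a b).f x).f y = a x * b y := rfl

/-- elements all of whose rows and columns are cocycles -/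
def ZZ (X Y : Type*) [Group X] [Group Y] (M : ℕ) : AddSubgroup (Co X (Co Y (ZMod 2))) where
  carrier := {s | s ∈ SA X Y 2 M ∧ op1 (dd X) s = 0 ∧ op2 (dd Y) s = 0}
  zero_mem' := ⟨AddSubgroup.zero_mem _, map_zero _, map_zero _⟩
  add_mem' {s t} hs ht := ⟨AddSubgroup.add_mem _ hs.1 ht.1, by rw [map_add, hs.2.1, ht.2.1, add_zero],
    by rw [map_add, hs.2.2, ht.2.2, add_zero]⟩
  neg_mem' {s} hs := ⟨AddSubgroup.neg_mem _ hs.1, by rw [map_neg, hs.2.1, neg_zero],
    by rw [map_neg, hs.2.2, neg_zero]⟩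

theorem ZZ_col {M : ℕ} {s : Co X (Co Y (ZMod 2))} (hs : s ∈ ZZ X Y M) (y : List Y) :
    (fun x' => (s.f x').f y) ∈ ZC X (M - y.length) :=
  ⟨SA_col hs.1 y, funext fun x => congrArg (fun s => (s.f x).f y) hs.2.1⟩

theorem ZZ_row {M : ℕ} {s : Co X (Co Y (ZMod 2))} (hs : s ∈ ZZ X Y M) (x : List X) :
    (s.f x).f ∈ ZC Y (M - x.length) :=
  ⟨SA_row hs.1 x, funext fun y => congrArg (fun s => (s.f x).f y) hs.2.2⟩

theorem crs_mem_ZZ {p q M : ℕ} {a : List X → ZMod 2} {b : List Y → ZMod 2} (ha : a ∈ ZC X p)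
    (hb : b ∈ ZC Y q) (hM : p + q = M) : crs a b ∈ ZZ X Y M := by
  refine ⟨⟨⟨Co.ext fun y => ?_, fun x => ?_⟩, fun x y hxy => ?_, fun g => Co.ext fun x => Co.ext fun y => ?_⟩,
    Co.ext fun x => Co.ext fun y => ?_, Co.ext fun x => Co.ext fun y => ?_⟩
  · rw [crs_f, ha.1.1, zero_mul]; rfl
  · rw [crs_f, hb.1.1, mul_zero]
  · rw [crs_f]
    by_cases hx : x.length = p
    · rw [hb.1.2.1 y (by omega), mul_zero]
    · rw [ha.1.2.1 x hx, zero_mul]
  · rw [aS_f, crs_f, crs_f, ha.1.2.2, hb.1.2.2]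
  · rw [op1_f]
    have : (fun x' => ((crs a b).f x').f y) = b y • a := by
      funext x'; rw [crs_f, Pi.smul_apply, smul_eq_mul, mul_comm]
    rw [this, map_smul, ha.2, smul_zero]; rfl
  · rw [op2_f]
    have : ((crs a b).f x).f = a x • b := by
      funext y'; rw [crs_f, Pi.smul_apply, smul_eq_mul]
    rw [this, map_smul, hb.2, smul_zero]; rfl

theorem F2_one {a : ZMod 2} (h : a ≠ 0) : a = 1 := by revert a; decide

theorem rank_dec [Finite X] {M : ℕ} : ∀ (N : ℕ) (z : Co X (Co Y (ZMod 2))), z ∈ ZZ X Y M →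
    {x | z.f x ≠ 0}.ncard ≤ N →
    z ∈ AddSubgroup.closure {w | ∃ p q, p + q = M ∧ ∃ a ∈ ZC X p, ∃ b ∈ ZC Y q, w = crs a b} := by
  have hfin : ∀ z ∈ ZZ X Y M, {x | z.f x ≠ 0}.Finite := fun z hz => by
    refine (List.finite_length_le X M).subset fun x hx => ?_
    by_contra hlen
    refine hx (Co.ext fun y => hz.1.2.1 x y ?_)
    have : ¬ x.length ≤ M := hlen
    omega
  intro N
  induction N with
  | zero =>
    intro z hz hN
    have : {x | z.f x ≠ 0} = ∅ := (Set.ncard_eq_zero (hfin z hz)).1 (by omega)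
    have h0 : z = 0 := Co.ext fun x => by
      by_contra hx
      have : x ∈ {x | z.f x ≠ 0} := hx
      simp_all
    rw [h0]; exact AddSubgroup.zero_mem _
  | succ N ih =>
    intro z hz hN
    by_cases h0 : ∃ x0, z.f x0 ≠ 0
    · obtain ⟨x0, hx0⟩ := h0
      have : ∃ y0, (z.f x0).f y0 ≠ 0 := by
        by_contra hc
        push Not at hc
        exact hx0 (Co.ext hc)
      obtain ⟨y0, hy0⟩ := this
      have hxy := F2_one hy0
      have hM : x0.length + y0.length = M := by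
        by_contra hc
        exact hy0 (hz.1.2.1 _ _ hc)
      let w := crs (fun x' => (z.f x').f y0) (z.f x0).f
      have hw : w ∈ ZZ X Y M := crs_mem_ZZ (ZZ_col hz y0) (ZZ_row hz x0) (by omega)
      have hzw : z = (z + w) + w := by rw [add_assoc, two_Co, add_zero]
      rw [hzw]
      refine AddSubgroup.add_mem _ (ih (z + w) (AddSubgroup.add_mem _ hz hw) ?_)
        (AddSubgroup.subset_closure ⟨_, _, by omega, _, ZZ_col hz y0, _, ZZ_row hz x0, rfl⟩)
      have hsub : {x | (z + w).f x ≠ 0} ⊆ {x | z.f x ≠ 0} \ {x0} := by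
        intro x hx
        refine ⟨fun hzx => hx (Co.ext fun y => ?_), fun hxx => hx (Co.ext fun y => ?_)⟩
        · show (z.f x).f y + (z.f x).f y0 * (z.f x0).f y = 0
          rw [hzx]; simp
        · rw [Set.mem_singleton_iff] at hxx
          subst hxx
          show (z.f x).f y + (z.f x).f y0 * (z.f x).f y = 0
          rw [hxy, one_mul]; exact DG2.two _
      have h1 := Set.ncard_le_ncard hsub ((hfin z hz).subset Set.diff_subset)
      have h2 := Set.ncard_diff_singleton_lt_of_mem (s := {x | z.f x ≠ 0}) hx0 (hfin z hz)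
      omega
    · push Not at h0
      have h0' : z = 0 := Co.ext h0
      rw [h0']; exact AddSubgroup.zero_mem _

theorem δ_ZZ {M : ℕ} {s : Co X (Co Y (ZMod 2))} (hs : s ∈ ZZ X Y M) : Cx.δ s = 0 := by
  rw [hs.1.1.δ_two, hs.2.1, hs.2.2, add_zero]

/-- the projection to `ZZ` -/
theorem proj_ZZ [Finite X]
    (h1 : ∀ q, ∀ f ∈ CM X (q + 1), h f ∈ CM X q) (h2 : ∀ f, h f [] = 0)
    (h4 : ∀ q, ∀ f ∈ CM X q, dd X (h (dd X f)) = dd X f)
    (h1' : ∀ q, ∀ f ∈ CM Y (q + 1), h' f ∈ CM Y q) (h2' : ∀ f, h' f [] = 0)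
    (h4' : ∀ q, ∀ f ∈ CM Y q, dd Y (h' (dd Y f)) = dd Y f)
    {M : ℕ} {z : Co X (Co Y (ZMod 2))} (hz : z ∈ SA X Y 2 (M + 1)) (hδ : Cx.δ z = 0) :
    op1 (pp h) (op2 (pp h') z) ∈ ZZ X Y (M + 1) ∧
      ∃ w ∈ SA X Y 2 M, z = op1 (pp h) (op2 (pp h') z) + Cx.δ w := by
  have comm : ∀ (A : (List X → ZMod 2) →ₗ[ZMod 2] (List X → ZMod 2))
      (B : (List Y → ZMod 2) →ₗ[ZMod 2] (List Y → ZMod 2)) {K : ℕ} {s : Co X (Co Y (ZMod 2))},
      s ∈ SA X Y 2 K → op1 A (op2 B s) = op2 B (op1 A s) := fun A B K s hs => op_comm A B hs.2.1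
  have sum0 : ∀ a b : Co X (Co Y (ZMod 2)), a + b = 0 → a = b := fun a b hab => by
    rw [← add_zero a, ← two_Co b, ← add_assoc, hab, zero_add]
  -- one-variable statements
  have A1 : ∀ {K : ℕ} {s : Co X (Co Y (ZMod 2))}, s ∈ SA X Y 2 (K + 1) → Cx.δ s = 0 →
      op1 (pp h) s = s + Cx.δ (op1 h s) := by
    intro K s hs hδs
    have hH : op1 h s ∈ SA X Y 2 K := op1_mem le_rfl h1 (fun f _ => h2 f) hs
    have e0 : op1 (dd X) s = op2 (dd Y) s := sum0 _ _ (by rw [← hs.1.δ_two, hδs])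
    have e1 : op1 (pp h) s = s + op1 (dd X) (op1 h s) + op1 h (op1 (dd X) s) := rfl
    rw [e1, e0, comm h (dd Y) hs, hH.1.δ_two]
    abel
  have A2 : ∀ {K : ℕ} {s : Co X (Co Y (ZMod 2))}, s ∈ SA X Y 2 (K + 1) → Cx.δ s = 0 →
      op2 (pp h') s = s + Cx.δ (op2 h' s) := by
    intro K s hs hδs
    have hH : op2 h' s ∈ SA X Y 2 K := op2_mem le_rfl h1' (fun f _ => h2' f) hs
    have e0 : op1 (dd X) s = op2 (dd Y) s := sum0 _ _ (by rw [← hs.1.δ_two, hδs])
    have e1 : op2 (pp h') s = s + op2 (dd Y) (op2 h' s) + op2 h' (op2 (dd Y) s) := rfl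
    rw [e1, ← e0, ← comm (dd X) h' hs, hH.1.δ_two]
    abel
  have hz2 : op2 (pp h') z ∈ SA X Y 2 (M + 1) :=
    op2_mem (k := 0) (M := M + 1) (by omega) (A := pp h') (fun q f hf => pp_mem h1' q f hf)
      (fun f hf => pp_zero' h2' hf) hz
  have hz2δ : Cx.δ (op2 (pp h') z) = 0 := by rw [A2 hz hδ, map_add, hδ, Cx.δδ, add_zero]
  have hz1 : op1 (pp h) (op2 (pp h') z) ∈ SA X Y 2 (M + 1) :=
    op1_mem (k := 0) (M := M + 1) (by omega) (A := pp h) (fun q f hf => pp_mem h1 q f hf)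
      (fun f hf => pp_zero' h2 hf) hz2
  refine ⟨⟨hz1, ?_, ?_⟩, op2 h' z + op1 h (op2 (pp h') z), ?_, ?_⟩
  · rw [op1_comp, op1_congr (B := 0) (fun q f hf => dd_pp h4 hf) hz2]; rfl
  · rw [comm _ _ hz, op2_comp, op2_congr (B := 0) (fun q f hf => dd_pp h4' hf)
      (op1_mem (k := 0) (M := M + 1) (by omega) (A := pp h) (fun q f hf => pp_mem h1 q f hf)
      (fun f hf => pp_zero' h2 hf) hz)]
    rfl
  · exact AddSubgroup.add_mem _ (op2_mem le_rfl h1' (fun f _ => h2' f) hz)
      (op1_mem le_rfl h1 (fun f _ => h2 f) hz2)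
  · rw [A1 hz2 hz2δ, map_add, A2 hz hδ]
    have t := two_Co (Cx.δ (op2 h' z))
    have t' := two_Co (Cx.δ (op1 h (z + Cx.δ (op2 h' z))))
    calc z = z + (Cx.δ (op2 h' z) + Cx.δ (op2 h' z)) +
          (Cx.δ (op1 h (z + Cx.δ (op2 h' z))) + Cx.δ (op1 h (z + Cx.δ (op2 h' z)))) := by
            rw [t, t', add_zero, add_zero]
      _ = _ := by abel

theorem kunneth [Finite X] {M : ℕ} {z : Co X (Co Y (ZMod 2))} (hz : z ∈ SA X Y 2 (M + 1))
    (hδ : Cx.δ z = 0) :
    ∃ z' ∈ AddSubgroup.closure {w | ∃ p q, p + q = M + 1 ∧ ∃ a ∈ ZC X p, ∃ b ∈ ZC Y q, w = crs a b},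
      ∃ w ∈ SA X Y 2 M, z = z' + Cx.δ w := by
  obtain ⟨h, h1, h2, h3, h4⟩ := exists_hh X
  obtain ⟨h', h1', h2', h3', h4'⟩ := exists_hh Y
  obtain ⟨hp, w, hw, e⟩ := proj_ZZ h1 h2 h4 h1' h2' h4' hz hδ
  exact ⟨_, rank_dec _ _ hp le_rfl, w, hw, e⟩

end SAops

section sym
variable {D : Type*} [Group D]

/-- transposition -/
def tp : Co D (Co D (ZMod 2)) →+ Co D (Co D (ZMod 2)) where
  toFun s := ⟨fun x => ⟨fun y => (s.f y).f x⟩⟩
  map_zero' := rfl
  map_add' _ _ := rfl

@[simp] theorem tp_f (s : Co D (Co D (ZMod 2))) (x y : List D) : ((tp s).f x).f y = (s.f y).f x := rfl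

theorem sym_dec [Finite D] {M : ℕ} : ∀ (N : ℕ) (z : Co D (Co D (ZMod 2))), z ∈ ZZ D D M → tp z = z →
    {x | z.f x ≠ 0}.ncard ≤ N →
    z ∈ AddSubgroup.closure ({w | ∃ p, p + p = M ∧ ∃ a ∈ ZC D p, w = crs a a} ∪
      {w | ∃ p q, p + q = M ∧ ∃ a ∈ ZC D p, ∃ b ∈ ZC D q, w = crs a b + crs b a}) := by
  have hfin : ∀ z ∈ ZZ D D M, {x | z.f x ≠ 0}.Finite := fun z hz => by
    refine (List.finite_length_le D M).subset fun x hx => ?_
    by_contra hlen
    refine hx (Co.ext fun y => hz.1.2.1 x y ?_)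
    have : ¬ x.length ≤ M := hlen
    omega
  intro N
  induction N with
  | zero =>
    intro z hz _ hN
    have : {x | z.f x ≠ 0} = ∅ := (Set.ncard_eq_zero (hfin z hz)).1 (by omega)
    have h0 : z = 0 := Co.ext fun x => by
      by_contra hx
      have : x ∈ {x | z.f x ≠ 0} := hx
      simp_all
    rw [h0]; exact AddSubgroup.zero_mem _
  | succ N ih =>
    intro z hz hsym hN
    have hs : ∀ x y, (z.f y).f x = (z.f x).f y := fun x y => congrArg (fun s => (s.f x).f y) hsym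
    by_cases hdiag : ∃ x0, (z.f x0).f x0 ≠ 0
    · obtain ⟨x0, hx0⟩ := hdiag
      have hxy := F2_one hx0
      have hM : x0.length + x0.length = M := by
        by_contra hc
        exact hx0 (hz.1.2.1 _ _ hc)
      have hr := ZZ_row hz x0
      let w := crs (z.f x0).f (z.f x0).f
      have hw : w ∈ ZZ D D M := crs_mem_ZZ hr hr (by omega)
      have hzw : z = (z + w) + w := by rw [add_assoc, two_Co, add_zero]
      rw [hzw]
      refine AddSubgroup.add_mem _ (ih (z + w) (AddSubgroup.add_mem _ hz hw) ?_ ?_)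
        (AddSubgroup.subset_closure (Or.inl ⟨_, by omega, _, hr, rfl⟩))
      · refine Co.ext fun x => Co.ext fun y => ?_
        show (z.f y).f x + (z.f x0).f y * (z.f x0).f x = (z.f x).f y + (z.f x0).f x * (z.f x0).f y
        rw [hs x y, mul_comm]
      have hsub : {x | (z + w).f x ≠ 0} ⊆ {x | z.f x ≠ 0} \ {x0} := by
        intro x hx
        refine ⟨fun hzx => hx (Co.ext fun y => ?_), fun hxx => hx (Co.ext fun y => ?_)⟩
        · show (z.f x).f y + (z.f x0).f x * (z.f x0).f y = 0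
          rw [hs x x0, hzx]; simp
        · rw [Set.mem_singleton_iff] at hxx
          subst hxx
          show (z.f x).f y + (z.f x).f x * (z.f x).f y = 0
          rw [hxy, one_mul]; exact DG2.two _
      have h1 := Set.ncard_le_ncard hsub ((hfin z hz).subset Set.diff_subset)
      have hx1 : x0 ∈ {x | z.f x ≠ 0} := fun h => hx0 (by rw [h]; rfl)
      have h2 := Set.ncard_diff_singleton_lt_of_mem hx1 (hfin z hz)
      omega
    · push Not at hdiag
      by_cases h0 : ∃ x0, z.f x0 ≠ 0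
      · obtain ⟨x0, hx0⟩ := h0
        have : ∃ y0, (z.f x0).f y0 ≠ 0 := by
          by_contra hc
          push Not at hc
          exact hx0 (Co.ext hc)
        obtain ⟨y0, hy0⟩ := this
        have hxy := F2_one hy0
        have hM : x0.length + y0.length = M := by
          by_contra hc
          exact hy0 (hz.1.2.1 _ _ hc)
        have hr := ZZ_row hz x0
        have hr' := ZZ_row hz y0
        let w := crs (z.f x0).f (z.f y0).f + crs (z.f y0).f (z.f x0).f
        have hw : w ∈ ZZ D D M := AddSubgroup.add_mem _ (crs_mem_ZZ hr hr' (by omega))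
          (crs_mem_ZZ hr' hr (by omega))
        have hzw : z = (z + w) + w := by rw [add_assoc, two_Co, add_zero]
        rw [hzw]
        refine AddSubgroup.add_mem _ (ih (z + w) (AddSubgroup.add_mem _ hz hw) ?_ ?_)
          (AddSubgroup.subset_closure (Or.inr ⟨_, _, by omega, _, hr, _, hr', rfl⟩))
        · refine Co.ext fun x => Co.ext fun y => ?_
          show (z.f y).f x + ((z.f x0).f y * (z.f y0).f x + (z.f y0).f y * (z.f x0).f x) =
            (z.f x).f y + ((z.f x0).f x * (z.f y0).f y + (z.f y0).f x * (z.f x0).f y)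
          rw [hs x y]; ring
        have hsub : {x | (z + w).f x ≠ 0} ⊆ {x | z.f x ≠ 0} \ {x0} := by
          intro x hx
          refine ⟨fun hzx => hx (Co.ext fun y => ?_), fun hxx => hx (Co.ext fun y => ?_)⟩
          · show (z.f x).f y + ((z.f x0).f x * (z.f y0).f y + (z.f y0).f x * (z.f x0).f y) = 0
            rw [hs x x0, hs x y0, hzx]; simp
          · rw [Set.mem_singleton_iff] at hxx
            subst hxx
            show (z.f x).f y + ((z.f x).f x * (z.f y0).f y + (z.f y0).f x * (z.f x).f y) = 0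
            rw [hdiag, hs x y0, hxy, zero_mul, one_mul, zero_add]; exact DG2.two _
        have h1 := Set.ncard_le_ncard hsub ((hfin z hz).subset Set.diff_subset)
        have h2 := Set.ncard_diff_singleton_lt_of_mem (s := {x | z.f x ≠ 0}) hx0 (hfin z hz)
        omega
      · push Not at h0
        have h0' : z = 0 := Co.ext h0
        rw [h0']; exact AddSubgroup.zero_mem _

theorem kunneth_sym [Finite D] {M : ℕ} {z : Co D (Co D (ZMod 2))} (hz : z ∈ SA D D 2 (M + 1))
    (hδ : Cx.δ z = 0) {w : Co D (Co D (ZMod 2))} (hw : w ∈ SA D D 2 M) (hsym : z + tp z = Cx.δ w) :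
    ∃ z' ∈ AddSubgroup.closure ({w | ∃ p, p + p = M + 1 ∧ ∃ a ∈ ZC D p, w = crs a a} ∪
      {w | ∃ p q, p + q = M + 1 ∧ ∃ a ∈ ZC D p, ∃ b ∈ ZC D q, w = crs a b + crs b a}),
      z' ∈ SA D D 2 (M + 1) ∧ tp z' = z' ∧ ∃ w ∈ SA D D 2 M, z = z' + Cx.δ w := by
  obtain ⟨h, h1, h2, h3, h4⟩ := exists_hh D
  obtain ⟨hp, w', hw', e⟩ := proj_ZZ h1 h2 h4 h1 h2 h4 hz hδ
  suffices hs : tp (op1 (pp h) (op2 (pp h) z)) = op1 (pp h) (op2 (pp h) z) from
    ⟨_, sym_dec _ _ hp hs le_rfl, hp.1, hs, w', hw', e⟩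
  have e1 : tp (op1 (pp h) (op2 (pp h) z)) = op2 (pp h) (op1 (pp h) (tp z)) := rfl
  have e2 : tp z = z + Cx.δ w := by rw [← hsym, ← add_assoc, two_Co, zero_add]
  have e3 : op2 (pp h) (op1 (pp h) (Cx.δ w)) = 0 := by
    rw [hw.1.δ_two, map_add, map_add, op1_comp, op1_congr (B := 0) (fun q f hf => pp_dd h4 hf) hw,
      op_comm _ _ hw.2.1, op2_comp]
    have hw1 : op1 (pp h) w ∈ SA D D 2 M :=
      op1_mem (k := 0) (M := M) (by omega) (A := pp h) (fun q f hf => pp_mem h1 q f hf)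
        (fun f hf => pp_zero' h2 hf) hw
    rw [op2_congr (B := 0) (fun q f hf => pp_dd h4 hf) hw1]
    show op2 (pp h) 0 + 0 = 0
    rw [map_zero, add_zero]
  rw [e1, e2, map_add, map_add, e3, add_zero, op_comm _ _ hz.2.1]

end sym

end Crest.Agent.R204.SQ803
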