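import Crest.Agent.R204.Kap_761

/-!
# Row 204, block G (helper761): `κ`, independence, products, `θ`

Everything is stated for `kapG lab k x₀ g`, `g : Hom B (Tot U)` an arbitrary family of finite sets of
threads over an arbitrary base `B` (with values in the `M`-skeleton).

* `kapG_H_eq`, `kapG_H_mapU` : independence of all choices, naturality in `U`;
* `opB o k f₁ f₂` : operation of a family of pairs of boxes; `opB_kapG_H` : it corresponds to `th`;
* `opB_kapG_H_orb` : the orbit version;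
* `kapG_one`, `kapG_zero` : one thread, no thread.
-/

set_option autoImplicit false
set_option linter.unusedSectionVars false

open scoped Topology unitInterval Topology.Homotopy
open Set

noncomputable section

namespace Crest.Agent.R204.CovT761

open Crest.Agent.R204.Cubes735 Crest.Agent.R204.Htpy761 SingAct265 SS Thr328 Fs348

variable {B : SS} {A A' J : Type} {X Z : Type} [TopologicalSpace X]
  [TopologicalSpace Z] {z₀ : Z} {U W : Type}

/-! ### independence -/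

/-- identity isomorphism -/
def Sys.Iso.refl (Φ : Sys B) : Sys.Iso Φ Φ := ⟨fun _ _ => Equiv.refl _, fun _ _ _ => rfl⟩

section
variable (hI : SpecA.HomotopyInv) (R : Type) [CommRing R] [Finite J]
include hI

/-- families with isomorphic systems of threads have the same `κ` on homology -/
theorem kapG_H_iso {g : Hom B (Tot U)} {g' : Hom B (Tot W)} (φ : Sys.Iso (ofHom g) (ofHom g'))
    (lab : U ↪ ℝ) (lab' : W ↪ ℝ) {M M' : ℕ} (k : Fin (M + 1) ↪ J) (k' : Fin (M' + 1) ↪ J)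
    (h : 2 * (M + 1) + (M' + 1) ≤ Nat.card J) (x₀ : Ω^ J Z z₀)
    (hg : ∀ n b, IsSk M (Tot U) (g.app n b)) (hg' : ∀ n b, IsSk M' (Tot W) (g'.app n b)) :
    H.map R (kapG lab k x₀ g hg) = H.map R (kapG lab' k' x₀ g' hg') :=
  M_H_eq_iso hI R k k' (by simpa using h) φ _ _ (Lb.const _ x₀)

/-- `κ` is independent of all choices on homology -/
theorem kapG_H_eq (g : Hom B (Tot U)) (lab lab' : U ↪ ℝ) {M M' : ℕ} (k : Fin (M + 1) ↪ J)
    (k' : Fin (M' + 1) ↪ J) (h : 2 * (M + 1) + (M' + 1) ≤ Nat.card J) (x₀ : Ω^ J Z z₀)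
    (hg : ∀ n b, IsSk M (Tot U) (g.app n b)) (hg' : ∀ n b, IsSk M' (Tot U) (g.app n b)) :
    H.map R (kapG lab k x₀ g hg) = H.map R (kapG lab' k' x₀ g hg') :=
  kapG_H_iso hI R (Sys.Iso.refl _) lab lab' k k' h x₀ hg hg'

end

/-- relabelling the universe -/
def isoMapU (f : U ↪ W) (g : Hom B (Tot U)) :
    Sys.Iso (ofHom g) (ofHom ((mapU f).comp g)) where
  s n b := Equiv.ofBijective (fun a => ⟨f ∘ a.1, mem_pu.2 ⟨a.1, a.2, rfl⟩⟩) (by
    constructor
    · intro a a' h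
      refine Subtype.ext (funext fun i => f.injective ?_)
      exact congrFun (congrArg Subtype.val h) i
    · rintro ⟨a, ha⟩
      obtain ⟨a', ha', rfl⟩ := mem_pu.1 ha
      exact ⟨⟨a', ha'⟩, rfl⟩)
  nat f b v := rfl

/-- naturality of `κ` in the universe -/
theorem kapG_H_mapU (hI : SpecA.HomotopyInv) (R : Type) [CommRing R] [Finite J] (f : U ↪ W)
    (g : Hom B (Tot U)) (lab : U ↪ ℝ) (lab' : W ↪ ℝ) {M M' : ℕ} (k : Fin (M + 1) ↪ J)
    (k' : Fin (M' + 1) ↪ J) (h : 2 * (M + 1) + (M' + 1) ≤ Nat.card J) (x₀ : Ω^ J Z z₀)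
    (hg : ∀ n b, IsSk M (Tot U) (g.app n b))
    (hg' : ∀ n b, IsSk M' (Tot W) (((mapU f).comp g).app n b)) :
    H.map R (kapG lab k x₀ g hg) = H.map R (kapG lab' k' x₀ ((mapU f).comp g) hg') :=
  kapG_H_iso hI R (isoMapU f g) lab lab' k k' h x₀ hg hg'

/-! ### the extended square on threads -/

/-- sign on which a copy lives -/
def sd (β : Bool) : ZMod 2 := cond β 0 1

/-- the family `θ(e; g₁, g₂)` -/
def thF (e : Hom B (EG (ZMod 2))) (g₁ g₂ : Hom B (Tot U)) : Hom B (Tot (U ⊕ U)) :=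
  (tht U).comp (pair e (pair g₁ g₂))

theorem thF_val (e : Hom B (EG (ZMod 2))) (g₁ g₂ : Hom B (Tot U)) {n : ℕ} (b : B.S n) :
    ((thF e g₁ g₂).app n b).1 = th (e.app n b) (g₁.app n b).1 (g₂.app n b).1 := rfl

theorem mem_thF {e : Hom B (EG (ZMod 2))} {g₁ g₂ : Hom B (Tot U)} {n : ℕ} {b : B.S n}
    {c : Fin (n + 1) → U ⊕ U} : c ∈ ((thF e g₁ g₂).app n b).1 ↔
      ∃ (β : Bool) (a : Fin (n + 1) → U), a ∈ ((cond β g₁ g₂).app n b).1 ∧
        side (e.app n b) (sd β) a = c := by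
  refine Iff.trans (mem_th (g := e.app n b) (A := (g₁.app n b).1) (B := (g₂.app n b).1)) ?_
  constructor
  · rintro (⟨a, ha, h⟩ | ⟨a, ha, h⟩)
    · exact ⟨true, a, ha, h⟩
    · exact ⟨false, a, ha, h⟩
  · rintro ⟨β, a, ha, h⟩
    cases β
    · exact Or.inr ⟨a, ha, h⟩
    · exact Or.inl ⟨a, ha, h⟩

/-- threads of `θ(e; g₁, g₂)` -/
def thIso (e : Hom B (EG (ZMod 2))) (g₁ g₂ : Hom B (Tot U)) :
    Sys.Iso (Sys.sigma fun β : Bool => ofHom (cond β g₁ g₂)) (ofHom (thF e g₁ g₂)) where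
  s n b := Equiv.ofBijective (fun p => ⟨side (e.app n b) (sd p.1) p.2.1,
      mem_thF.2 ⟨p.1, p.2.1, p.2.2, rfl⟩⟩) (by
    constructor
    · rintro ⟨β, a⟩ ⟨β', a'⟩ h
      have h' : side (e.app n b) (sd β) a.1 = side (e.app n b) (sd β') a'.1 :=
        congrArg Subtype.val h
      cases β <;> cases β'
      · have : a = a' := Subtype.ext (side_inj _ _ h')
        rw [this]
      · exact absurd (congrFun h' 0).symm (side_ne _ _ _ _)
      · exact absurd (congrFun h' 0) (side_ne _ _ _ _)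
      · have : a = a' := Subtype.ext (side_inj _ _ h')
        rw [this]
    · rintro ⟨c, hc⟩
      obtain ⟨β, a, ha, h⟩ := mem_thF.1 hc
      exact ⟨⟨β, ⟨a, ha⟩⟩, Subtype.ext h⟩)
  nat {m n} f b v := by
    refine Subtype.ext ?_
    show side (e.app m (B.act f b)) (sd v.1) (v.2.1 ∘ f) = side (e.app n b) (sd v.1) v.2.1 ∘ f
    rw [e.nat]
    rfl

/-- an operation given by a family of pairs of boxes -/
def opB [Finite J] (o : Bx (Sys.const B Bool) A) (k : A ↪ J)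
    (f₁ f₂ : Hom B (Sing (Ω^ J Z z₀))) : Hom B (Sing (Ω^ J Z z₀)) where
  app n b := mkS (fun t => mu ((show BoxConf Bool A from o.c n b t).extend k)
      (fun β => cond β (ev (f₁.app n b) t) (ev (f₂.app n b) t))) (by
    refine continuous_mu (BoxConf.continuous_extend (o.c n b).continuous k)
      (continuous_pi fun β => ?_)
    cases β
    · exact continuous_ev _
    · exact continuous_ev _)
  nat {m n} f b := by
    refine sing_ext fun t => ?_
    rw [ev_mkS, ev_act, ev_mkS, f₁.nat, f₂.nat]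
    have h1 : (show BoxConf Bool A from o.c m (B.act f b) t) =
      (show BoxConf Bool A from o.c n b (stdSimplex.map f t)) := o.nat f b t
    rw [h1]
    rfl

theorem ev_opB [Finite J] (o : Bx (Sys.const B Bool) A) (k : A ↪ J)
    (f₁ f₂ : Hom B (Sing (Ω^ J Z z₀))) {n : ℕ} (b : B.S n) (t : stdSimplex ℝ (Fin (n + 1))) :
    ev ((opB o k f₁ f₂).app n b) t = mu ((show BoxConf Bool A from o.c n b t).extend k)
      (fun β => cond β (ev (f₁.app n b) t) (ev (f₂.app n b) t)) := rfl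

/-- the box families of two thread families -/
def bx2 {M : ℕ} (lab : U ↪ ℝ) (g₁ g₂ : Hom B (Tot U))
    (hg₁ : ∀ n b, IsSk M (Tot U) (g₁.app n b)) (hg₂ : ∀ n b, IsSk M (Tot U) (g₂.app n b))
    (β : Bool) : Bx (ofHom (cond β g₁ g₂)) (Fin (M + 1)) :=
  (rlOf lab (cond β g₁ g₂) (by cases β; exacts [hg₂, hg₁])).bx

/-- `opB` of two `κ`'s is a cover transfer -/
theorem opB_kapG [Finite J] {M : ℕ} (o : Bx (Sys.const B Bool) (Fin (M + 1)))
    (k : Fin (M + 1) ↪ J) (lab : U ↪ ℝ) (x₀ : Ω^ J Z z₀) (g₁ g₂ : Hom B (Tot U))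
    (hg₁ : ∀ n b, IsSk M (Tot U) (g₁.app n b)) (hg₂ : ∀ n b, IsSk M (Tot U) (g₂.app n b)) :
    opB o k (kapG lab k x₀ g₁ hg₁) (kapG lab k x₀ g₂ hg₂) =
      CovT761.M ((o.comp (bx2 lab g₁ g₂ hg₁ hg₂)).extend k) (Lb.const _ x₀) := by
  refine eq_M' _ _ _ fun n b t => ?_
  rw [ev_opB, Bx.comp_extend]
  refine Eq.trans ?_ (mu_comp ((show BoxConf Bool (Fin (M + 1)) from o.c n b t).extend k)
    (fun β => (((bx2 lab g₁ g₂ hg₁ hg₂ β).extend k).c n b t)) (fun _ _ => x₀)).symm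
  congr 1
  funext β
  cases β <;> rfl

section
variable (hI : SpecA.HomotopyInv) (R : Type) [CommRing R] [Finite J]
include hI

/-- **(K2), (K3)**: a two-fold operation on `κ`'s is `κ` of `θ(e; g₁, g₂)`, on homology -/
theorem opB_kapG_H {M M' : ℕ} (o : Bx (Sys.const B Bool) (Fin (M + 1)))
    (k : Fin (M + 1) ↪ J) (k' : Fin (M' + 1) ↪ J) (h : 2 * (M + 1) + (M' + 1) ≤ Nat.card J)
    (lab : U ↪ ℝ) (lab' : U ⊕ U ↪ ℝ) (x₀ : Ω^ J Z z₀) (e : Hom B (EG (ZMod 2)))
    (g₁ g₂ : Hom B (Tot U)) (hg₁ : ∀ n b, IsSk M (Tot U) (g₁.app n b))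
    (hg₂ : ∀ n b, IsSk M (Tot U) (g₂.app n b))
    (hg' : ∀ n b, IsSk M' (Tot (U ⊕ U)) ((thF e g₁ g₂).app n b)) :
    H.map R (opB o k (kapG lab k x₀ g₁ hg₁) (kapG lab k x₀ g₂ hg₂)) =
      H.map R (kapG lab' k' x₀ (thF e g₁ g₂) hg') := by
  rw [opB_kapG]
  exact M_H_eq_iso hI R k k' (by simpa using h) (thIso e g₁ g₂) _ _ (Lb.const _ x₀)

end

/-! ### the orbit version -/

open DK742

/-- equality of sets of threads gives an equivalence of fibres -/
def thEq {n : ℕ} {S S' : Finset (Fin (n + 1) → U)} (h : S = S') : {a // a ∈ S} ≃ {a // a ∈ S'} :=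
  Equiv.subtypeEquivRight (fun a => by rw [h])

theorem bx_thEq {B B' : SS} {M : ℕ} (lab : U ↪ ℝ) (g : Hom B (Tot U)) (g' : Hom B' (Tot U))
    (hg : ∀ n b, IsSk M (Tot U) (g.app n b)) (hg' : ∀ n b, IsSk M (Tot U) (g'.app n b)) {n : ℕ}
    (b : B.S n) (b' : B'.S n) (h : (g.app n b).1 = (g'.app n b').1)
    (t : stdSimplex ℝ (Fin (n + 1))) :
    ((rlOf lab g' hg').bx.c n b' t).relabel (thEq h) = (rlOf lab g hg).bx.c n b t := by
  show (cubesF (momConf M ((rlOf lab g' hg').w n b') _ t)).relabel (thEq h) =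
    cubesF (momConf M ((rlOf lab g hg).w n b) _ t)
  exact (cubesF_relabel (F' := {a // a ∈ (g.app n b).1}) _ (thEq h)).symm

/-- the action on the fibres of a disjoint union of two thread families which are exchanged -/
theorem cond_tau {τ : Invo B} {g₁ g₂ : Hom B (Tot U)}
    (hg : ∀ n b, g₁.app n (τ.g.app n b) = g₂.app n b) (β : Bool) (n : ℕ) (b : B.S n) :
    (cond (!β) g₁ g₂).app n (τ.g.app n b) = (cond β g₁ g₂).app n b := by
  cases β
  · exact hg n b
  · have := hg n (τ.g.app n b)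
    rw [τ.invol] at this
    exact this.symm

/-- the action on the fibres of a disjoint union of two thread families which are exchanged -/
def actSig (τ : Invo B) (g₁ g₂ : Hom B (Tot U))
    (hg : ∀ n b, g₁.app n (τ.g.app n b) = g₂.app n b) :
    Act (Sys.sigma fun β : Bool => ofHom (cond β g₁ g₂)) τ.g where
  s n b :=
    { toFun := fun p => ⟨!p.1, thEq (congrArg Subtype.val (cond_tau hg p.1 n b)).symm p.2⟩
      invFun := fun p => ⟨!p.1, thEq (congrArg Subtype.val (by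
        have := cond_tau hg (!p.1) n b
        rwa [Bool.not_not] at this)) p.2⟩
      left_inv := by
        rintro ⟨β, a⟩
        cases β <;> rfl
      right_inv := by
        rintro ⟨β, a⟩
        cases β <;> rfl }

/-- the action on the threads of an invariant family -/
def actOf {τ : Invo B} (g : Hom B (Tot U)) (hg : ∀ n b, g.app n (τ.g.app n b) = g.app n b) :
    Act (ofHom g) τ.g where
  s n b := thEq (congrArg Subtype.val (hg n b)).symm

theorem rlOf_inv {τ : Invo B} {M : ℕ} (lab : U ↪ ℝ) (g : Hom B (Tot U))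
    (hg : ∀ n b, g.app n (τ.g.app n b) = g.app n b) (hM : ∀ n b, IsSk M (Tot U) (g.app n b)) :
    (rlOf lab g hM).Inv (actOf g hg) := fun _ _ _ => rfl

/-- the flip -/
def actBool (g : Hom B B) : Act (Sys.const B Bool) g := ⟨fun _ _ => Equiv.boolNot⟩

theorem comp_inv {τ : Invo B} {M : ℕ} (lab : U ↪ ℝ) {g₁ g₂ : Hom B (Tot U)}
    (hg : ∀ n b, g₁.app n (τ.g.app n b) = g₂.app n b)
    (hg₁ : ∀ n b, IsSk M (Tot U) (g₁.app n b)) (hg₂ : ∀ n b, IsSk M (Tot U) (g₂.app n b))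
    {o : Bx (Sys.const B Bool) (Fin (M + 1))} (ho : o.Inv (actBool τ.g)) :
    (o.comp (bx2 lab g₁ g₂ hg₁ hg₂)).Inv (actSig τ g₁ g₂ hg) := by
  intro n b t
  have h1 : (show BoxConf Bool (Fin (M + 1)) from o.c n (τ.g.app n b) t).relabel Equiv.boolNot =
    (show BoxConf Bool (Fin (M + 1)) from o.c n b t) := ho n b t
  have h2 : ∀ β : Bool, ((bx2 lab g₁ g₂ hg₁ hg₂ (!β)).c n (τ.g.app n b) t).relabel
      (thEq (congrArg Subtype.val (cond_tau hg β n b)).symm) =
      (bx2 lab g₁ g₂ hg₁ hg₂ β).c n b t := fun β => bx_thEq lab _ _ _ _ _ _ _ t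
  refine BoxConf.ext' (fun v j => ?_) (fun v j => ?_)
  · have e1 : ((show BoxConf Bool (Fin (M + 1)) from o.c n (τ.g.app n b) t).relabel
          Equiv.boolNot).a v.1 j +
        ((show BoxConf Bool (Fin (M + 1)) from o.c n (τ.g.app n b) t).relabel
          Equiv.boolNot).r v.1 j *
        (((bx2 lab g₁ g₂ hg₁ hg₂ (!v.1)).c n (τ.g.app n b) t).relabel
          (thEq (congrArg Subtype.val (cond_tau hg v.1 n b)).symm)).a v.2 j =
        (show BoxConf Bool (Fin (M + 1)) from o.c n b t).a v.1 j +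
        (show BoxConf Bool (Fin (M + 1)) from o.c n b t).r v.1 j *
        ((bx2 lab g₁ g₂ hg₁ hg₂ v.1).c n b t).a v.2 j := by rw [h1, h2]; rfl
    exact e1
  · have e1 : ((show BoxConf Bool (Fin (M + 1)) from o.c n (τ.g.app n b) t).relabel
          Equiv.boolNot).r v.1 j *
        (((bx2 lab g₁ g₂ hg₁ hg₂ (!v.1)).c n (τ.g.app n b) t).relabel
          (thEq (congrArg Subtype.val (cond_tau hg v.1 n b)).symm)).r v.2 j =
        (show BoxConf Bool (Fin (M + 1)) from o.c n b t).r v.1 j *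
        ((bx2 lab g₁ g₂ hg₁ hg₂ v.1).c n b t).r v.2 j := by rw [h1, h2]; rfl
    exact e1

theorem Bx.Inv.pull {Φ Ψ : Sys B} {φ : Sys.Iso Φ Ψ} {g : Hom B B} {sg : Act Φ g} {sg' : Act Ψ g}
    (hs : ∀ n b v, φ.s n (g.app n b) (sg.s n b v) = sg'.s n b (φ.s n b v)) {c : Bx Ψ A}
    (hc : c.Inv sg') : (c.pull φ).Inv sg := by
  intro n b t
  show ((c.c n (g.app n b) t).relabel (φ.s n (g.app n b))).relabel (sg.s n b) =
    (c.c n b t).relabel (φ.s n b)
  rw [← hc n b t]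
  refine BoxConf.ext' (fun v j => ?_) (fun v j => ?_)
  · show (c.c n (g.app n b) t).a (φ.s n (g.app n b) (sg.s n b v)) j =
      (c.c n (g.app n b) t).a (sg'.s n b (φ.s n b v)) j
    rw [hs]
  · show (c.c n (g.app n b) t).r (φ.s n (g.app n b) (sg.s n b v)) j =
      (c.c n (g.app n b) t).r (sg'.s n b (φ.s n b v)) j
    rw [hs]

theorem thF_inv {τ : Invo B} {e : Hom B (EG (ZMod 2))} {g₁ g₂ : Hom B (Tot U)}
    (he : ∀ n b, e.app n (τ.g.app n b) = fun i => e.app n b i + 1)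
    (hg : ∀ n b, g₁.app n (τ.g.app n b) = g₂.app n b) (n : ℕ) (b : B.S n) :
    (thF e g₁ g₂).app n (τ.g.app n b) = (thF e g₁ g₂).app n b := by
  refine Subtype.ext ?_
  have h2 : g₂.app n (τ.g.app n b) = g₁.app n b := cond_tau hg true n b
  rw [thF_val, thF_val, he, hg, h2]
  exact th_swap _ _ _

/-- **(K3)** orbit version: an equivariant two-fold operation on `κ`'s is `κ` of `θ(e; g₁, g₂)`, on
the homology of the orbits -/
theorem opB_kapG_H_orb (hI : SpecA.HomotopyInv) (R : Type) [CommRing R] [Finite J]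
    {τ : Invo B} {M M' : ℕ} (o : Bx (Sys.const B Bool) (Fin (M + 1)))
    (k : Fin (M + 1) ↪ J) (k' : Fin (M' + 1) ↪ J) (h : 2 * (M + 1) + (M' + 1) ≤ Nat.card J)
    (lab : U ↪ ℝ) (lab' : U ⊕ U ↪ ℝ) (x₀ : Ω^ J Z z₀) (e : Hom B (EG (ZMod 2)))
    (g₁ g₂ : Hom B (Tot U)) (hg₁ : ∀ n b, IsSk M (Tot U) (g₁.app n b))
    (hg₂ : ∀ n b, IsSk M (Tot U) (g₂.app n b))
    (hg' : ∀ n b, IsSk M' (Tot (U ⊕ U)) ((thF e g₁ g₂).app n b))
    (ho : o.Inv (actBool τ.g)) (he : ∀ n b, e.app n (τ.g.app n b) = fun i => e.app n b i + 1)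
    (hg : ∀ n b, g₁.app n (τ.g.app n b) = g₂.app n b)
    {f f' : Hom (orb B τ) (Sing (Ω^ J Z z₀))}
    (hf : f.comp (proj τ) = opB o k (kapG lab k x₀ g₁ hg₁) (kapG lab k x₀ g₂ hg₂))
    (hf' : f'.comp (proj τ) = kapG lab' k' x₀ (thF e g₁ g₂) hg') :
    H.map R f = H.map R f' := by
  rw [opB_kapG] at hf
  have hcomp : ∀ n b v, (thIso e g₁ g₂).s n (τ.g.app n b) ((actSig τ g₁ g₂ hg).s n b v) =
      (actOf (thF e g₁ g₂) (thF_inv he hg)).s n b ((thIso e g₁ g₂).s n b v) := by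
    rintro n b ⟨β, a⟩
    refine Subtype.ext ?_
    show side (e.app n (τ.g.app n b)) (sd (!β)) a.1 = side (e.app n b) (sd β) a.1
    rw [he]
    refine (side_add_one (e.app n b) (sd (!β)) a.1).trans ?_
    cases β <;> rfl
  refine M_H_eq_orb hI R k k' (by simpa using h) (o.comp (bx2 lab g₁ g₂ hg₁ hg₂))
    ((rlOf lab' (thF e g₁ g₂) hg').bx.pull (thIso e g₁ g₂)) (Lb.const _ x₀)
    (sg := actSig τ g₁ g₂ hg) (comp_inv lab hg hg₁ hg₂ ho) ?_ (fun _ _ _ _ => rfl) hf ?_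
  · exact Bx.Inv.pull hcomp (rlOf_inv lab' _ _ hg').bx
  · rw [hf', Bx.pull_extend]
    exact (M_pull (thIso e g₁ g₂) ((rlOf lab' (thF e g₁ g₂) hg').bx.extend k')
      (Lb.const _ x₀)).symm

end Crest.Agent.R204.CovT761
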