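import Crest.Agent.R204.Kap2_761

/-!
# Row 204, block G (helper761): `κ` and the operations of `Sing (Ω^J Z)`

* `mulS_kap` : products; `Theta_kap` : the extended square;
* `kapG_zero`, `kapG_one` : no thread, one thread.
-/

set_option autoImplicit false
set_option linter.unusedSectionVars false

open scoped Topology unitInterval Topology.Homotopy
open Set

noncomputable section

namespace Crest.Agent.R204.CovT761

open Crest.Agent.R204.Cubes735 Crest.Agent.R204.Htpy761 SingAct265 SS Thr328 Fs348 DK742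
open ThetaSS265 HspSS696

variable {B : SS} {A A' J : Type} {X Z : Type} [TopologicalSpace X]
  [TopologicalSpace Z] {z₀ : Z} {U W : Type}

/-! ### products -/

/-- constant family of pairs of boxes -/
def constBx (B : SS) (c : BoxConf Bool A) : Bx (Sys.const B Bool) A where
  c _ _ := ContinuousMap.const _ c
  nat _ _ _ := rfl

/-- `true ↦ 0`, `false ↦ 1` -/
def b2 : Bool ≃ Fin 2 where
  toFun β := cond β 0 1
  invFun i := decide (i = 0)
  left_inv β := by cases β <;> rfl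
  right_inv i := by fin_cases i <;> rfl

theorem mulS_eq_opB [Finite J] (c : BoxConf (Fin 2) A) (k : A ↪ J)
    (f₁ f₂ : Hom B (Sing (Ω^ J Z z₀))) :
    (mulS (c.extend k)).comp (pair f₁ f₂) = opB (constBx B (c.relabel b2)) k f₁ f₂ := by
  refine Hom.ext' fun n b => sing_ext fun t => ?_
  have h := mu_relabel (c.extend k) b2 (![ev (f₁.app n b) t, ev (f₂.app n b) t])
  refine Eq.trans h.symm ?_
  show mu ((c.extend k).relabel b2) _ = mu ((c.extend k).relabel b2) _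
  congr 1
  funext β
  cases β <;> rfl

/-- the zero family in `EG` -/
def zE (B : SS) : Hom B (EG (ZMod 2)) := ⟨fun _ _ _ => 0, fun _ _ => rfl⟩

theorem thF_zero (g₁ g₂ : Hom B (Tot U)) :
    thF (zE B) g₁ g₂ = (dj U U).comp (pair g₁ g₂) :=
  Hom.ext' fun _ _ => Subtype.ext (th_zero _ _)

/-- a pair of boxes in few coordinates -/
theorem exists_conf (M : ℕ) : Nonempty (BoxConf (Fin 2) (Fin (M + 1))) := by
  refine ⟨cubesF ⟨fun v _ => ((v : ℕ) : ℝ), fun v v' h => ?_⟩⟩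
  have := congrFun h 0
  exact Fin.ext (Nat.cast_injective this)

section
variable (hI : SpecA.HomotopyInv) (R : Type) [CommRing R] [Finite J]
include hI

/-- **(K2)** products of `κ`'s, on homology; arbitrary multiplication `mulS c` -/
theorem mulS_kapG (c : BoxConf (Fin 2) J) {M M' : ℕ} (k : Fin (M + 1) ↪ J)
    (k' : Fin (M' + 1) ↪ J) (h : 2 * (M + 1) + (M' + 1) ≤ Nat.card J)
    (lab : U ↪ ℝ) (lab' : U ⊕ U ↪ ℝ) (x₀ : Ω^ J Z z₀)
    (g₁ g₂ : Hom B (Tot U)) (hg₁ : ∀ n b, IsSk M (Tot U) (g₁.app n b))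
    (hg₂ : ∀ n b, IsSk M (Tot U) (g₂.app n b))
    (hg' : ∀ n b, IsSk M' (Tot (U ⊕ U)) (((dj U U).comp (pair g₁ g₂)).app n b)) :
    H.map R ((mulS c).comp (pair (kapG lab k x₀ g₁ hg₁) (kapG lab k x₀ g₂ hg₂))) =
      H.map R (kapG lab' k' x₀ ((dj U U).comp (pair g₁ g₂)) hg') := by
  have hnt : Nontrivial J := by
    rw [← Finite.one_lt_card_iff_nontrivial]
    omega
  obtain ⟨d⟩ := exists_conf M
  obtain ⟨H1⟩ := mulS_htpy' (Z := Z) (z₀ := z₀) c (d.extend k)
  have e1 : H.map R ((mulS c).comp (pair (kapG lab k x₀ g₁ hg₁) (kapG lab k x₀ g₂ hg₂))) =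
      H.map R ((mulS (d.extend k)).comp (pair (kapG lab k x₀ g₁ hg₁) (kapG lab k x₀ g₂ hg₂))) :=
    Htpy_homology hI R (H1.pre _)
  rw [e1, mulS_eq_opB]
  have hg'' : ∀ n b, IsSk M' (Tot (U ⊕ U)) ((thF (zE B) g₁ g₂).app n b) := by
    rw [thF_zero]; exact hg'
  rw [opB_kapG_H hI R (constBx B (d.relabel b2)) k k' h lab lab' x₀ (zE B) g₁ g₂ hg₁ hg₂ hg'']
  congr 2

end

/-! ### the extended square -/

/-- the family of pairs of boxes of `theta` -/
def thetaBx {M : ℕ} (e : Hom B (EM M)) : Bx (Sys.const B Bool) (Fin (M + 1)) where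
  c n b := (⟨fun t => thetaConf (ev ((nz M).app n (e.app n b)) t),
    continuous_thetaConf.comp (continuous_ev _)⟩ :
      C(stdSimplex ℝ (Fin (n + 1)), BoxConf Bool (Fin (M + 1))))
  nat {m n} f b t := by
    show thetaConf (ev ((nz M).app m (e.app m (B.act f b))) t) =
      thetaConf (ev ((nz M).app n (e.app n b)) (stdSimplex.map f t))
    rw [e.nat, (nz M).nat]
    rfl

theorem thetaSS_eq_opB [Finite J] {M : ℕ} (k : Fin (M + 1) ↪ J) (e : Hom B (EM M))
    (f₁ f₂ : Hom B (Sing (Ω^ J Z z₀))) :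
    (thetaSS k).comp (pair e (pair f₁ f₂)) = opB (thetaBx e) k f₁ f₂ := rfl

theorem thetaBx_inv {τ : Invo B} {M : ℕ} {e : Hom B (EM M)}
    (he : ∀ n b, e.app n (τ.g.app n b) = (invEM M).g.app n (e.app n b)) :
    (thetaBx e).Inv (actBool τ.g) := by
  intro n b t
  show (thetaConf (ev ((nz M).app n (e.app n (τ.g.app n b))) t)).relabel Equiv.boolNot =
    thetaConf (ev ((nz M).app n (e.app n b)) t)
  rw [he, nz_neg, thetaConf_neg]
  refine BoxConf.ext' (fun v j => ?_) (fun v j => ?_) <;> cases v <;> rfl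

/-- the family of sets of threads over `sk_M E(Z/2) ×_{Z/2} (Tot U)²` -/
def thD (M : ℕ) (U : Type) : Hom (DM M (Tot U)) (Tot (U ⊕ U)) :=
  orbLift _ ((tht U).comp (prodMap (skIncl M (EG (ZMod 2))) (Hom.id _)))
    (fun _ _ => Subtype.ext (th_swap _ _ _))

theorem thD_proj (M : ℕ) (U : Type) {n : ℕ} (x : ((EM M).prod ((Tot U).prod (Tot U))).S n) :
    (thD M U).app n ((proj _).app n x) = (tht U).app n (x.1.1, x.2) := rfl

/-- the same over the skeleton of `Tot U` -/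
def thDs (M : ℕ) (U : Type) : Hom (DM M (sk M (Tot U))) (Tot (U ⊕ U)) :=
  (thD M U).comp (DMmap M (skIncl M (Tot U)))

theorem thDs_sk (M : ℕ) (U : Type) (n : ℕ) (b : (DM M (sk M (Tot U))).S n) :
    IsSk (M + (M + M)) (Tot (U ⊕ U)) ((thDs M U).app n b) := by
  obtain ⟨x, rfl⟩ := proj_surj _ n b
  have h1 : IsSk (M + (M + M)) ((EG (ZMod 2)).prod ((Tot U).prod (Tot U)))
      (x.1.1, (x.2.1.1, x.2.2.1)) :=
    IsSk.prod x.1.2 (IsSk.prod x.2.1.2 x.2.2.2)
  exact h1.map (tht U)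

/-- **(K3)** the extended square: `Theta ∘ κ` corresponds to `θ` on threads, on homology -/
theorem Theta_kap (hI : SpecA.HomotopyInv) (R : Type) [CommRing R] [Finite J] {M M' : ℕ}
    (k : Fin (M + 1) ↪ J) (k' : Fin (M' + 1) ↪ J) (h : 2 * (M + 1) + (M' + 1) ≤ Nat.card J)
    (lab : U ↪ ℝ) (lab' : U ⊕ U ↪ ℝ) (x₀ : Ω^ J Z z₀)
    (hg' : ∀ n b, IsSk M' (Tot (U ⊕ U)) ((thDs M U).app n b)) :
    H.map R ((Theta k).comp (DMmap M (kap lab M k x₀))) =
      H.map R (kapG lab' k' x₀ (thDs M U) hg') := by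
  let B : SS := (EM M).prod ((sk M (Tot U)).prod (sk M (Tot U)))
  let τ : Invo B := (invEM M).prod (Invo.swap (sk M (Tot U)))
  let e' : Hom B (EM M) := SS.fst _ _
  let e : Hom B (EG (ZMod 2)) := (skIncl M (EG (ZMod 2))).comp e'
  let g₁ : Hom B (Tot U) := (skIncl M (Tot U)).comp ((SS.fst _ _).comp (SS.snd _ _))
  let g₂ : Hom B (Tot U) := (skIncl M (Tot U)).comp ((SS.snd _ _).comp (SS.snd _ _))
  have hg₁ : ∀ n b, IsSk M (Tot U) (g₁.app n b) := fun n b => b.2.1.2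
  have hg₂ : ∀ n b, IsSk M (Tot U) (g₂.app n b) := fun n b => b.2.2.2
  have hgg : ∀ n b, IsSk M' (Tot (U ⊕ U)) ((thF e g₁ g₂).app n b) := fun n b =>
    hg' n ((proj τ).app n b)
  exact opB_kapG_H_orb hI R (τ := τ) (thetaBx e') k k' h lab lab' x₀ e g₁ g₂ hg₁ hg₂ hgg
    (thetaBx_inv fun _ _ => rfl) (fun _ _ => rfl) (fun _ _ => rfl) rfl rfl

/-! ### no thread, one thread -/

/-- no thread -/
theorem kapG_zero [Finite J] (lab : U ↪ ℝ) {M : ℕ} (k : Fin (M + 1) ↪ J) (x₀ : Ω^ J Z z₀)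
    (g : Hom B (Tot U)) (hg : ∀ n b, IsSk M (Tot U) (g.app n b))
    (h0 : ∀ n b, (g.app n b).1 = ∅) :
    kapG lab k x₀ g hg = constHom B (Sing (Ω^ J Z z₀)) (ptS GenLoop.const) := by
  refine Hom.ext' fun n b => sing_ext fun t => ?_
  have h1 : ∀ a : Fin (n + 1) → U, a ∉ (g.app n b).1 := by
    intro a; rw [h0]; exact Finset.notMem_empty a
  have h2 : (fun _ : (ofHom g).F n b => x₀) = fun _ => (GenLoop.const : Ω^ J Z z₀) := by
    funext a
    exact absurd a.2 (h1 a.1)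
  show mu (((rlOf lab g hg).bx.extend k).c n b t) (fun _ : (ofHom g).F n b => x₀) = GenLoop.const
  rw [h2]
  exact mu_const _

/-- the full box -/
def oneBx (Φ : Sys B) (hΦ : ∀ n b, Subsingleton (Φ.F n b)) (A : Type) : Bx Φ A where
  c n b := ContinuousMap.const _ (letI := hΦ n b; BoxConf.one (Φ.F n b) A)
  nat _ _ _ := rfl

/-- one thread -/
theorem kapG_one (hI : SpecA.HomotopyInv) (R : Type) [CommRing R] [Finite J] (lab : U ↪ ℝ)
    {M : ℕ} (k : Fin (M + 1) ↪ J) (h : 2 * (M + 1) ≤ Nat.card J) (x₀ : Ω^ J Z z₀)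
    (g : Hom B (Tot U)) (hg : ∀ n b, IsSk M (Tot U) (g.app n b))
    (h1 : ∀ n b, (g.app n b).1.card = 1) :
    H.map R (kapG lab k x₀ g hg) = H.map R (constHom B (Sing (Ω^ J Z z₀)) (ptS x₀)) := by
  have hss : ∀ n b, Subsingleton ((ofHom g).F n b) := by
    intro n b
    obtain ⟨a, ha⟩ := Finset.card_eq_one.1 (h1 n b)
    have key : ∀ x : (ofHom g).F n b, x.1 = a := fun x =>
      Finset.mem_singleton.1 (show x.1 ∈ ({a} : Finset (Fin (n + 1) → U)) from ha ▸ x.2)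
    exact ⟨fun x y => Subtype.ext ((key x).trans (key y).symm)⟩
  have e1 := M_H_eq hI R k (⟨Fin.elim0, fun a => a.elim0⟩ : Fin 0 ↪ J) (by simpa using h)
    (rlOf lab g hg).bx (oneBx (ofHom g) hss (Fin 0)) (Lb.const _ x₀)
  refine e1.trans ?_
  congr 1
  refine Hom.ext' fun n b => sing_ext fun t => ?_
  obtain ⟨a, ha⟩ := Finset.card_eq_one.1 (h1 n b)
  let _ : Unique ((ofHom g).F n b) :=
    { default := ⟨a, by rw [ha]; exact Finset.mem_singleton_self a⟩
      uniq := fun x => (hss n b).elim _ _ }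
  refine Eq.trans ?_ (mu_one (F := (ofHom g).F n b) (J := J) (fun _ => x₀))
  show mu _ _ = mu _ _
  congr 1
  refine BoxConf.ext' (fun v j => ?_) (fun v j => ?_)
  · exact BoxConf.extend_a_not _ _ _ (fun ⟨i, _⟩ => i.elim0)
  · exact BoxConf.extend_r_not _ _ _ (fun ⟨i, _⟩ => i.elim0)

end Crest.Agent.R204.CovT761
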