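import Crest.Agent.R204.Kap3_761
import Crest.Agent.R204.Sk_761
import Crest.Agent.R204.Ops_265

/-!
# Row 204, block G (helper761): `κ` on homology

`kapH lab M k x₀ : H R (Tot U) →ₗ[R] H R (Sing (Ω^J Z))` (zero in degrees `≥ M`).

* `kapH_map` : `kapH (g_* z) = (kapG g)_* z` for every family `g : Hom B (Tot U)` of thread sets;
* `kapH_gr` : degrees; `kapH_mul` : products; `kapH_Q` : operations; `kapH_vtx_empty`,
  `kapH_vtx_one` : the classes of vertices.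
-/

set_option autoImplicit false
set_option linter.unusedSectionVars false

open scoped Topology unitInterval Topology.Homotopy
open Set

noncomputable section

namespace Crest.Agent.R204.CovT761

open Crest.Agent.R204.Cubes735 Crest.Agent.R204.Htpy761 SingAct265 SS Thr328 Fs348 DK742
open ThetaSS265 HspSS696 Sk761 Gr334 ThAlg265 Ops265 C5265

variable {B : SS} {A A' J : Type} {X Z : Type} [TopologicalSpace X]
  [TopologicalSpace Z] {z₀ : Z} {U W : Type}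

/-- `κ` on homology -/
def kapH (R : Type) [CommRing R] [Finite J] (lab : U ↪ ℝ) (M : ℕ) (k : Fin (M + 1) ↪ J)
    (x₀ : Ω^ J Z z₀) : H R (Tot U) →ₗ[R] H R (Sing (Ω^ J Z z₀)) :=
  H.map R (kap lab M k x₀) ∘ₗ skH R M (Tot U)

section
variable (R : Type) [CommRing R] [Finite J] (lab : U ↪ ℝ) (M : ℕ) (k : Fin (M + 1) ↪ J)
  (x₀ : Ω^ J Z z₀)

theorem kapH_apply (x : H R (Tot U)) :
    kapH R lab M k x₀ x = H.map R (kap lab M k x₀) (skH R M (Tot U) x) := rfl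

theorem kapH_gr {j : ℕ} {x : H R (Tot U)} (hx : x ∈ H.gr R (Tot U) j) :
    kapH R lab M k x₀ x ∈ H.gr R _ j := H_map_mem_gr _ (skH_mem hx)

theorem kapH_of_ge {j : ℕ} (hj : M ≤ j) {x : H R (Tot U)} (hx : x ∈ H.gr R (Tot U) j) :
    kapH R lab M k x₀ x = 0 := by
  rw [kapH_apply, skH_of_ge hj hx, map_zero]

/-- on classes of the skeleton -/
theorem kapH_incl {j : ℕ} (hj : j < M) {x : H R (sk M (Tot U))} (hx : x ∈ H.gr R _ j) :
    kapH R lab M k x₀ (H.map R (skIncl M (Tot U)) x) = H.map R (kap lab M k x₀) x := by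
  rw [kapH_apply, skH_incl hj hx]

/-- **the universal property of `kapH`** -/
theorem kapH_map {M' : ℕ} (lab' : U ↪ ℝ) (k' : Fin (M' + 1) ↪ J)
    (h : 2 * (M + 1) + (M' + 1) ≤ Nat.card J) (g : Hom B (Tot U))
    (hg : ∀ n b, IsSk M' (Tot U) (g.app n b)) {j : ℕ} (hj : j < M) {z : H R B}
    (hz : z ∈ H.gr R B j) :
    kapH R lab M k x₀ (H.map R g z) = H.map R (kapG lab' k' x₀ g hg) z := by
  have h1 : H.map R (kapG lab' k' x₀ g hg) z =
      H.map R ((kapG lab' k' x₀ g hg).comp (skIncl M B)) (skH R M B z) := by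
    rw [Sk761.Hmap_comp, incl_skH hj hz]
  have hgM : ∀ n b, IsSk M (Tot U) ((g.comp (skIncl M B)).app n b) := fun n b => b.2.map g
  have hgM' : ∀ n b, IsSk M' (Tot U) ((g.comp (skIncl M B)).app n b) := fun n b => hg n b.1
  rw [h1, kapG_comp, kapH_apply, skH_map g hj hz, ← Sk761.Hmap_comp]
  have h2 := kapG_H_eq HtpInv334.homotopyInv R (g.comp (skIncl M B)) lab lab' k k' h x₀ hgM hgM'
  rw [← h2]
  rfl

end

/-! ### products -/

section
variable [Finite J]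

/-- cross product of classes -/
def crH {K L : SS} (x : H F2 K) (y : H F2 L) : H F2 (K.prod L) :=
  DK742.Hd2 (EZ271.cross F2) (fun a b => bd_cross_F2 a b) x y

theorem mulH_eq {K : SS} (mu : Hom (K.prod K) K) (x y : H F2 K) :
    mulH mu x y = H.map F2 mu (crH x y) := rfl

theorem crH_map {K L K' L' : SS} (f : Hom K K') (g : Hom L L') (x : H F2 K) (y : H F2 L) :
    H.map F2 (SS.prodMap f g) (crH x y) = crH (H.map F2 f x) (H.map F2 g y) := by
  obtain ⟨x, hx, rfl⟩ := Hd.mk_surj _ x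
  obtain ⟨y, hy, rfl⟩ := Hd.mk_surj _ y
  refine Hd.mk_eq_mk.2 ⟨0, ?_⟩
  show N.bd F2 _ 0 = N.map F2 (SS.prodMap f g) (EZ271.cross F2 x y) -
    EZ271.cross F2 (N.map F2 f x) (N.map F2 g y)
  rw [EZ271.map_cross, map_zero, sub_self]

theorem crH_gr {K L : SS} {s t : ℕ} {x : H F2 K} {y : H F2 L} (hx : x ∈ H.gr F2 K s)
    (hy : y ∈ H.gr F2 L t) : crH x y ∈ H.gr F2 (K.prod L) (s + t) := by
  obtain ⟨x, hx, hxn, rfl⟩ := DK742.exists_rep_gr hx
  obtain ⟨y, hy, hyn, rfl⟩ := DK742.exists_rep_gr hy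
  exact DK742.mk_mem_gr _ (DK742.cross_gr hxn hyn)

theorem pw_gr {K : SS} {M i t : ℕ} (h : i ≤ M) {x : H F2 K} (hx : x ∈ H.gr F2 K t) :
    pw M K i x ∈ H.gr F2 (DM M K) (i + (t + t)) := by
  obtain ⟨z, hz, hn, rfl⟩ := DK742.exists_rep_gr hx
  rw [pw_mk h]
  refine DK742.mk_mem_gr _ ?_
  rw [PhiC_apply]
  exact DK742.map_gr _ (DK742.cross_gr (ee_mem_gr M i) (DK742.cross_gr hn hn))

/-- existence of embeddings -/
theorem exists_emb {n : ℕ} (h : n ≤ Nat.card J) : Nonempty (Fin n ↪ J) := by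
  classical
  let _ := Fintype.ofFinite J
  refine Function.Embedding.nonempty_of_card_le ?_
  simpa using h

/-- first component of the product of skeleta -/
def pr₁ (M : ℕ) (U : Type) : Hom ((sk M (Tot U)).prod (sk M (Tot U))) (Tot U) :=
  (skIncl M (Tot U)).comp (SS.fst _ _)
/-- second component of the product of skeleta -/
def pr₂ (M : ℕ) (U : Type) : Hom ((sk M (Tot U)).prod (sk M (Tot U))) (Tot U) :=
  (skIncl M (Tot U)).comp (SS.snd _ _)

/-- disjoint union on the skeleta -/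
def djs (M : ℕ) (U : Type) : Hom ((sk M (Tot U)).prod (sk M (Tot U))) (Tot (U ⊕ U)) :=
  (dj U U).comp (pair (pr₁ M U) (pr₂ M U))

theorem djs_sk (M : ℕ) (U : Type) (n : ℕ) (b : ((sk M (Tot U)).prod (sk M (Tot U))).S n) :
    IsSk (M + M) (Tot (U ⊕ U)) ((djs M U).app n b) :=
  (IsSk.prod b.1.2 b.2.2).map (dj U U)

theorem djs_eq (M : ℕ) (U : Type) :
    djs M U = (dj U U).comp (SS.prodMap (skIncl M (Tot U)) (skIncl M (Tot U))) := rfl

/-- `κ × κ` followed by the multiplication -/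
theorem mulS_kap (c : BoxConf (Fin 2) J) {M M' : ℕ} (k : Fin (M + 1) ↪ J)
    (k' : Fin (M' + 1) ↪ J) (h : 2 * (M + 1) + (M' + 1) ≤ Nat.card J)
    (lab : U ↪ ℝ) (lab' : U ⊕ U ↪ ℝ) (x₀ : Ω^ J Z z₀)
    (hg' : ∀ n b, IsSk M' (Tot (U ⊕ U)) ((djs M U).app n b)) :
    H.map F2 ((mulS c).comp (SS.prodMap (kap lab M k x₀) (kap lab M k x₀))) =
      H.map F2 (kapG lab' k' x₀ (djs M U) hg') :=
  mulS_kapG HtpInv334.homotopyInv F2 c k k' h lab lab' x₀ (pr₁ M U) (pr₂ M U)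
    (fun _ b => b.1.2) (fun _ b => b.2.2) hg'

/-- **(K2)** `κ` is multiplicative -/
theorem kapH_mul (lab : U ↪ ℝ) (M : ℕ) (k : Fin (M + 1) ↪ J) (x₀ : Ω^ J Z z₀)
    (e : U ⊕ U ↪ U) (c : BoxConf (Fin 2) J) (hJ : 9 * (M + 1) ≤ Nat.card J) {s t : ℕ}
    (hst : s + t < M) {x y : H F2 (Tot U)} (hx : x ∈ H.gr F2 (Tot U) s)
    (hy : y ∈ H.gr F2 (Tot U) t) :
    kapH F2 lab M k x₀ (mulH ((mapU e).comp (dj U U)) x y) =
      mulH (mulS c) (kapH F2 lab M k x₀ x) (kapH F2 lab M k x₀ y) := by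
  have ex : H.map F2 (skIncl M (Tot U)) (skH F2 M (Tot U) x) = x := incl_skH (by omega) hx
  have ey : H.map F2 (skIncl M (Tot U)) (skH F2 M (Tot U) y) = y := incl_skH (by omega) hy
  have hx'' : skH F2 M (Tot U) x ∈ H.gr F2 (sk M (Tot U)) s := skH_mem hx
  have hy'' : skH F2 M (Tot U) y ∈ H.gr F2 (sk M (Tot U)) t := skH_mem hy
  obtain ⟨k2⟩ := exists_emb (J := J) (n := M + M + 1) (by omega)
  have hd' : ∀ n b, IsSk (M + M) (Tot U) (((mapU e).comp (djs M U)).app n b) :=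
    fun n b => (djs_sk M U n b).map (mapU e)
  have e1 : mulH ((mapU e).comp (dj U U)) x y =
      H.map F2 ((mapU e).comp (djs M U)) (crH (skH F2 M (Tot U) x) (skH F2 M (Tot U) y)) := by
    have h1 := crH_map (skIncl M (Tot U)) (skIncl M (Tot U)) (skH F2 M (Tot U) x)
      (skH F2 M (Tot U) y)
    rw [ex, ey] at h1
    rw [mulH_eq, ← h1, ← Sk761.Hmap_comp, djs_eq]
    rfl
  have e2 := kapH_map F2 lab M k x₀ lab k2 (by omega) ((mapU e).comp (djs M U)) hd' hst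
    (crH_gr hx'' hy'')
  have e3 := kapG_H_mapU HtpInv334.homotopyInv F2 e (djs M U) (e.trans lab) lab k2 k2
    (by omega) x₀ (djs_sk M U) hd'
  have e4 := mulS_kap c k k2 (by omega) lab (e.trans lab) x₀ (djs_sk M U)
  rw [e1, e2, ← e3, ← e4, Sk761.Hmap_comp, crH_map]
  rfl

/-- **(K3)** `κ` commutes with the operations -/
theorem kapH_Q (lab : U ↪ ℝ) (M : ℕ) (k : Fin (M + 1) ↪ J) (x₀ : Ω^ J Z z₀)
    (e : U ⊕ U ↪ U) (A : ThAlg M (Tot U)) (hA : A.Th = (mapU e).comp (thD M U))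
    (B : ThAlg M (Sing (Ω^ J Z z₀))) (hB : B.Th = Theta k)
    (hJ : 9 * (M + 1) ≤ Nat.card J) {i t : ℕ} (hit : 2 * t + i < M) {x : H F2 (Tot U)}
    (hx : x ∈ H.gr F2 (Tot U) t) :
    kapH F2 lab M k x₀ (Ops265.Q A i x) = Ops265.Q B i (kapH F2 lab M k x₀ x) := by
  have ex : H.map F2 (skIncl M (Tot U)) (skH F2 M (Tot U) x) = x := incl_skH (by omega) hx
  have hx'' : skH F2 M (Tot U) x ∈ H.gr F2 (sk M (Tot U)) t := skH_mem hx
  obtain ⟨k3⟩ := exists_emb (J := J) (n := M + (M + M) + 1) (by omega)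
  have hd' : ∀ n b, IsSk (M + (M + M)) (Tot U) (((mapU e).comp (thDs M U)).app n b) :=
    fun n b => (thDs_sk M U n b).map (mapU e)
  have e1 : Ops265.Q A i x =
      H.map F2 ((mapU e).comp (thDs M U)) (C5265.pw M _ i (skH F2 M (Tot U) x)) := by
    have h1 := C5265.pw_map (M := M) (skIncl M (Tot U)) (i := i) (by omega) (skH F2 M (Tot U) x)
    rw [ex] at h1
    rw [Ops265.Q, ← h1, ← Sk761.Hmap_comp, hA]
    rfl
  have e2 := kapH_map F2 lab M k x₀ lab k3 (by omega) ((mapU e).comp (thDs M U)) hd'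
    (show i + (t + t) < M by omega) (pw_gr (M := M) (by omega) hx'')
  have e3 := kapG_H_mapU HtpInv334.homotopyInv F2 e (thDs M U) (e.trans lab) lab k3 k3
    (by omega) x₀ (thDs_sk M U) hd'
  have e4 := Theta_kap HtpInv334.homotopyInv F2 k k3 (by omega) lab (e.trans lab) x₀ (thDs_sk M U)
  have e5 := C5265.pw_map (M := M) (kap lab M k x₀) (i := i) (by omega) (skH F2 M (Tot U) x)
  rw [e1, e2, ← e3, ← e4, Sk761.Hmap_comp, e5, Ops265.Q, hB]
  rfl

end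

/-! ### vertices -/

section
variable [Finite J]

theorem map_vtx {K L : SS} (f : Hom K L) (v : K.S 0) :
    H.map F2 f (C5T557.vtx F2 v) = C5T557.vtx F2 (f.app 0 v) := by
  refine Hd.mk_eq_mk.2 ⟨0, ?_⟩
  show N.bd F2 _ 0 = N.map F2 f (N.sx F2 v) - N.sx F2 (f.app 0 v)
  rw [N.map_sx, map_zero, sub_self]

theorem vtx_gr {K : SS} (v : K.S 0) : C5T557.vtx F2 v ∈ H.gr F2 K 0 :=
  DK742.mk_mem_gr _ (DK742.sx_mem_gr _)

/-- a vertex of the skeleton -/
def skV (M : ℕ) {K : SS} (v : K.S 0) : (sk M K).S 0 := ⟨v, isSk_of_le (Nat.zero_le M) v⟩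

/-- the vertex of the point -/
def ptV : SS.pt.S 0 := ()

theorem skH_vtx {K : SS} {M : ℕ} (hM : 0 < M) (v : K.S 0) :
    skH F2 M K (C5T557.vtx F2 v) = C5T557.vtx F2 (skV M v) := by
  rw [← skH_incl hM (vtx_gr (skV M v)), map_vtx]
  rfl

/-- value of `κ` on the class of a vertex -/
theorem kapH_vtx (lab : U ↪ ℝ) {M : ℕ} (hM : 0 < M) (k : Fin (M + 1) ↪ J) (x₀ : Ω^ J Z z₀)
    (v : (Tot U).S 0) : kapH F2 lab M k x₀ (C5T557.vtx F2 v) =
      C5T557.vtx F2 ((kap lab M k x₀).app 0 (skV M v)) := by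
  rw [kapH_apply, skH_vtx hM, map_vtx]

/-- a vertex as a family over the point -/
def vHom {K : SS} (v : K.S 0) : Hom SS.pt K := constHom SS.pt K v

theorem vHom_sk {K : SS} {M : ℕ} (v : K.S 0) (n : ℕ) (b : SS.pt.S n) :
    IsSk M K ((vHom v).app n b) := ⟨0, Nat.zero_le _, _, v, rfl⟩

theorem vtx_eq {K : SS} (v : K.S 0) :
    C5T557.vtx F2 v = H.map F2 (vHom v) (C5T557.vtx F2 ptV) := by
  rw [map_vtx]
  congr 1
  have h : (OrderHom.id : Op 0 0) = ⟨fun _ => 0, fun _ _ _ => le_rfl⟩ :=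
    OrderHom.ext _ _ (funext fun i => Fin.ext (by
      show (i : ℕ) = 0
      omega))
  conv_lhs => rw [← K.act_id v, h]
  rfl

/-- the empty set of threads -/
theorem kapH_vtx_empty (lab : U ↪ ℝ) {M : ℕ} (hM : 0 < M) (k : Fin (M + 1) ↪ J)
    (x₀ : Ω^ J Z z₀) (hJ : 9 * (M + 1) ≤ Nat.card J) (v : (Tot U).S 0) (hv : v.1 = ∅) :
    kapH F2 lab M k x₀ (C5T557.vtx F2 v) =
      C5T557.vtx F2 (ptS (GenLoop.const : Ω^ J Z z₀)) := by
  have h0 : ∀ n b, ((vHom (K := Tot U) v).app n b).1 = ∅ := by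
    intro n b
    show re _ v.1 = ∅
    rw [hv]
    ext a
    simp [mem_re]
  have e2 := kapH_map F2 lab M k x₀ lab k (by omega) (vHom (K := Tot U) v) (vHom_sk v) hM
    (vtx_gr ptV)
  rw [vtx_eq v, e2, kapG_zero lab k x₀ _ _ h0, map_vtx]
  congr 1

/-- one thread -/
theorem kapH_vtx_one (lab : U ↪ ℝ) {M : ℕ} (hM : 0 < M) (k : Fin (M + 1) ↪ J)
    (x₀ : Ω^ J Z z₀) (hJ : 9 * (M + 1) ≤ Nat.card J) (v : (Tot U).S 0) (hv : v.1.card = 1) :
    kapH F2 lab M k x₀ (C5T557.vtx F2 v) = C5T557.vtx F2 (ptS x₀) := by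
  have h1 : ∀ n b, ((vHom (K := Tot U) v).app n b).1.card = 1 := by
    intro n b
    show (re _ v.1).card = 1
    rw [v.2.card_re, hv]
  have e2 := kapH_map F2 lab M k x₀ lab k (by omega) (vHom (K := Tot U) v) (vHom_sk v) hM
    (vtx_gr ptV)
  have e3 := kapG_one HtpInv334.homotopyInv F2 lab k (by omega) x₀ (vHom (K := Tot U) v)
    (vHom_sk v) h1
  rw [vtx_eq v, e2, e3, map_vtx]
  congr 1

end

end Crest.Agent.R204.CovT761
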