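import Crest.Agent.R204.Spec_114

/-!
# Row 204, block G: the squeeze (helper103)

Pure algebra.  `Src A D` = the homology of the thread model `Tot ℕ` (bigraded by the number of
threads and by the degree, operations `Q_i`, generated by one thread, admissible words span all
words).  `Cmp` = comparison map to `H_*(X_0)`.  Result: the comparison map is injective in degrees
`≤ D` on every weight, and onto the base component as soon as `v ≥ 2 t`.
-/

set_option autoImplicit false

namespace Crest.Agent.R204.Squ103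

open MvPolynomial Spec114 Finset

/-- iterated operations on `x` -/
def wdA {A : Type} (Q : ℕ → A → A) (x : A) (I : List ℕ) : A := I.foldr (fun i y => Q i y) x

/-- the source algebra -/
structure Src (A : Type) [CommRing A] [Algebra F2 A] (D : ℕ) where
  /-- weight `v`, degree `t` -/
  W : ℕ → ℕ → Submodule F2 A
  /-- operations -/
  Q : ℕ → A → A
  /-- the class of one thread -/
  x1 : A
  one_mem : (1 : A) ∈ W 0 0
  x1_mem : x1 ∈ W 1 0
  mul_mem : ∀ {a s b t : ℕ} {y z : A}, s + t ≤ D → y ∈ W a s → z ∈ W b t → y * z ∈ W (a + b) (s + t)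
  Q_mem : ∀ {i v t : ℕ} {y : A}, 2 * t + i ≤ D → y ∈ W v t → Q i y ∈ W (2 * v) (2 * t + i)
  Q_add : ∀ {i v t : ℕ} {y z : A}, 2 * t + i ≤ D → y ∈ W v t → z ∈ W v t →
    Q i (y + z) = Q i y + Q i z
  Q_sq : ∀ {v t : ℕ} {y : A}, 2 * t ≤ D → y ∈ W v t → Q 0 y = y * y
  Q_one : ∀ i, 1 ≤ i → i ≤ D → Q i 1 = 0
  cartan : ∀ {i a s b t : ℕ} {y z : A}, 2 * (s + t) + i ≤ D → y ∈ W a s → z ∈ W b t →
    Q i (y * z) = ∑ p ∈ HasAntidiagonal.antidiagonal i, Q p.1 y * Q p.2 z
  adm : ∀ I : List ℕ, Tower.wdeg 0 I ≤ D → wdA Q x1 I ∈ Submodule.span F2 {y | ∃ J : List ℕ,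
    J.length = I.length ∧ Tower.wdeg 0 J = Tower.wdeg 0 I ∧ J.Pairwise (· ≤ ·) ∧ y = wdA Q x1 J}
  W0 : W 0 0 ≤ Submodule.span F2 {1}
  W0' : ∀ t, 1 ≤ t → t ≤ D → W 0 t = ⊥
  W1 : W 1 0 ≤ Submodule.span F2 {x1}
  W1' : ∀ t, 1 ≤ t → t ≤ D → W 1 t = ⊥
  span : ∀ S : ℕ → ℕ → Submodule F2 A, (∀ v t, S v t ≤ W v t) → (∀ t ≤ D, W 0 t ≤ S 0 t) →
    (∀ t ≤ D, W 1 t ≤ S 1 t) →
    (∀ (a s b t : ℕ) (y z : A), s + t ≤ D → y ∈ S a s → z ∈ S b t → y * z ∈ S (a + b) (s + t)) →
    (∀ (i v t : ℕ) (y : A), 2 * t + i ≤ D → y ∈ S v t → Q i y ∈ S (2 * v) (2 * t + i)) →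
    ∀ v t, t ≤ D → W v t ≤ S v t

theorem wdeg_cons (k i : ℕ) (I : List ℕ) : Tower.wdeg k (i :: I) = 2 * Tower.wdeg k I + i := rfl
theorem wdeg_nil (k : ℕ) : Tower.wdeg k [] = k := rfl
theorem wdA_cons {A : Type} (Q : ℕ → A → A) (x : A) (i : ℕ) (I : List ℕ) :
    wdA Q x (i :: I) = Q i (wdA Q x I) := rfl

/-- weights of the polynomial generators -/
def wt : Option Tower.Wd0 → ℕ × ℕ
  | none => (1, 0)
  | some I => (2 ^ I.1.1.length, Tower.wdeg 0 I.1.1)

theorem le_wdeg : ∀ (I : List ℕ), (∀ i ∈ I, 1 ≤ i) → 2 ^ I.length ≤ Tower.wdeg 0 I + 1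
  | [], _ => by simp [wdeg_nil]
  | i :: I, h => by
    have h1 := le_wdeg I fun j hj => h j (List.mem_cons_of_mem _ hj)
    have h2 := h i List.mem_cons_self
    rw [wdeg_cons, List.length_cons, pow_succ]
    omega

theorem wt_le (I : Tower.Wd0) : (wt (some I)).1 ≤ 2 * (wt (some I)).2 := by
  have h1 := le_wdeg I.1.1 I.1.2.2
  have h2 : I.1.1 ≠ [] := I.2
  have h3 : 1 ≤ I.1.1.length := List.length_pos_iff.2 h2
  have h4 : 2 ^ 1 ≤ 2 ^ I.1.1.length := Nat.pow_le_pow_right (by norm_num) h3
  show 2 ^ I.1.1.length ≤ 2 * Tower.wdeg 0 I.1.1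
  omega

section gen

variable {A : Type} [CommRing A] [Algebra F2 A]

/-- span of the monomials of bidegree `(v, t)` -/
noncomputable def Mono (g : Option Tower.Wd0 → A) (v t : ℕ) : Submodule F2 A :=
  (weightedHomogeneousSubmodule F2 wt (v, t)).map (aeval g : MvPolynomial (Option Tower.Wd0) F2 →ₐ[F2] A).toLinearMap

variable (g : Option Tower.Wd0 → A)

theorem mem_Mono {v t : ℕ} {y : A} : y ∈ Mono g v t ↔ ∃ p : MvPolynomial (Option Tower.Wd0) F2,
    IsWeightedHomogeneous wt p (v, t) ∧ aeval g p = y := Iff.rfl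

theorem one_mem_Mono : (1 : A) ∈ Mono g 0 0 :=
  (mem_Mono g).2 ⟨1, isWeightedHomogeneous_one F2 wt, map_one _⟩

theorem gen_mem_Mono (i : Option Tower.Wd0) : g i ∈ Mono g (wt i).1 (wt i).2 :=
  (mem_Mono g).2 ⟨X i, isWeightedHomogeneous_X F2 wt i, aeval_X _ _⟩

theorem mul_mem_Mono {a s b t : ℕ} {y z : A} (hy : y ∈ Mono g a s) (hz : z ∈ Mono g b t) :
    y * z ∈ Mono g (a + b) (s + t) := by
  obtain ⟨p, hp, rfl⟩ := (mem_Mono g).1 hy
  obtain ⟨q, hq, rfl⟩ := (mem_Mono g).1 hz
  exact (mem_Mono g).2 ⟨p * q, hp.mul hq, map_mul _ _ _⟩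

/-- the coefficients of a polynomial over `F2` on its support are `1` -/
theorem eq_sum_monomial {σ : Type} (p : MvPolynomial σ F2) : p = ∑ d ∈ p.support, monomial d 1 := by
  conv_lhs => rw [p.as_sum]
  refine Finset.sum_congr rfl fun d hd => ?_
  have h : coeff d p ≠ 0 := mem_support_iff.1 hd
  have h' : ∀ c : ZMod 2, c ≠ 0 → c = 1 := by decide
  rw [h' _ h]

/-- to check a statement on homogeneous polynomials it is enough to look at monomials -/
theorem hom_induction {σ M : Type} [AddCommMonoid M] {w : σ → M} {m : M}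
    {P : MvPolynomial σ F2 → Prop} (h0 : P 0)
    (h1 : ∀ (d : σ →₀ ℕ) (p : MvPolynomial σ F2), Finsupp.weight w d = m →
      IsWeightedHomogeneous w p m → P p → P (monomial d 1 + p))
    {p : MvPolynomial σ F2} (hp : IsWeightedHomogeneous w p m) : P p := by
  classical
  have key : ∀ s : Finset (σ →₀ ℕ), (∀ d ∈ s, Finsupp.weight w d = m) →
      IsWeightedHomogeneous w (∑ d ∈ s, monomial d (1 : F2)) m ∧ P (∑ d ∈ s, monomial d (1 : F2)) := by
    intro s
    induction s using Finset.induction_on with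
    | empty => intro _; exact ⟨by simpa using isWeightedHomogeneous_zero F2 w m, by simpa using h0⟩
    | insert d s hd ih =>
      intro h
      obtain ⟨h2, h3⟩ := ih fun d' hd' => h d' (Finset.mem_insert_of_mem hd')
      rw [Finset.sum_insert hd]
      refine ⟨?_, h1 d _ (h d (Finset.mem_insert_self _ _)) h2 h3⟩
      exact (isWeightedHomogeneous_monomial w d (1 : F2) (h d (Finset.mem_insert_self _ _))).add h2
  rw [eq_sum_monomial p]
  exact (key p.support fun d hd => hp (mem_support_iff.1 hd)).2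

theorem weight_single_add {σ M : Type} [AddCommMonoid M] (w : σ → M) (i : σ) (d : σ →₀ ℕ) :
    Finsupp.weight w (Finsupp.single i 1 + d) = w i + Finsupp.weight w d := by
  rw [map_add, Finsupp.weight_single, one_smul]

/-- induction on monomials -/
theorem mon_induction {σ : Type} {P : (σ →₀ ℕ) → Prop} (h0 : P 0)
    (h1 : ∀ (i : σ) (d : σ →₀ ℕ), P d → P (Finsupp.single i 1 + d)) (d : σ →₀ ℕ) : P d := by
  classical
  induction hn : d.degree generalizing d with
  | zero => rw [Finsupp.degree_eq_zero_iff] at hn; rw [hn]; exact h0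
  | succ n ih =>
    have hne : d ≠ 0 := by rintro rfl; simp at hn
    obtain ⟨i, hi⟩ := Finsupp.ne_iff.1 hne
    have hi' : 1 ≤ d i := Nat.one_le_iff_ne_zero.2 hi
    have e : d = Finsupp.single i 1 + (d - Finsupp.single i 1) := by
      ext j
      rw [Finsupp.add_apply, Finsupp.tsub_apply]
      by_cases hj : i = j
      · subst hj; rw [Finsupp.single_eq_same]; omega
      · rw [Finsupp.single_eq_of_ne (Ne.symm hj)]; omega
    rw [e]
    apply h1
    apply ih
    have := congrArg Finsupp.degree e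
    rw [map_add, Finsupp.degree_single] at this
    omega

theorem monomial_single_add {σ : Type} (i : σ) (d : σ →₀ ℕ) :
    (monomial (Finsupp.single i 1 + d) (1 : F2)) = X i * monomial d 1 := by
  rw [X, monomial_mul, one_mul]

end gen

/-! ## generation -/

namespace Src

variable {A : Type} [CommRing A] [Algebra F2 A] {D : ℕ} (S : Src A D)

/-- the generators -/
def gen : Option Tower.Wd0 → A
  | none => S.x1
  | some I => wdA S.Q S.x1 I.1.1

theorem wd_mem_W : ∀ (I : List ℕ), Tower.wdeg 0 I ≤ D →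
    wdA S.Q S.x1 I ∈ S.W (2 ^ I.length) (Tower.wdeg 0 I)
  | [], _ => by simpa [wdA, wdeg_nil] using S.x1_mem
  | i :: I, h => by
    rw [wdeg_cons] at h ⊢
    rw [wdA_cons, List.length_cons, pow_succ, mul_comm (2 ^ I.length)]
    exact S.Q_mem h (wd_mem_W I (by omega))

theorem gen_mem_W (i : Option Tower.Wd0) (h : (wt i).2 ≤ D) : S.gen i ∈ S.W (wt i).1 (wt i).2 := by
  cases i with
  | none => exact S.x1_mem
  | some I => exact S.wd_mem_W I.1.1 h

theorem mon_mem_W (d : Option Tower.Wd0 →₀ ℕ) : (Finsupp.weight wt d).2 ≤ D →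
    aeval S.gen (monomial d (1 : F2)) ∈ S.W (Finsupp.weight wt d).1 (Finsupp.weight wt d).2 := by
  induction d using mon_induction with
  | h0 =>
    intro _
    rw [map_zero]
    simpa using S.one_mem
  | h1 i d ih =>
    intro h
    rw [weight_single_add, Prod.snd_add] at h
    rw [weight_single_add, monomial_single_add, map_mul, aeval_X, Prod.snd_add, Prod.fst_add]
    exact S.mul_mem h (S.gen_mem_W i (by omega)) (ih (by omega))

theorem Mono_le_W {v t : ℕ} (ht : t ≤ D) : Mono S.gen v t ≤ S.W v t := by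
  intro y hy
  obtain ⟨p, hp, rfl⟩ := (mem_Mono _).1 hy
  refine hom_induction (P := fun p => aeval S.gen p ∈ S.W v t) (by simp) ?_ hp
  intro d p hd _ ih
  rw [map_add]
  refine Submodule.add_mem _ ?_ ih
  have := S.mon_mem_W d (by rw [hd]; exact ht)
  rwa [hd] at this

theorem adm_mem_Mono : ∀ (J : List ℕ), J.Pairwise (· ≤ ·) → Tower.wdeg 0 J ≤ D →
    wdA S.Q S.x1 J ∈ Mono S.gen (2 ^ J.length) (Tower.wdeg 0 J)
  | [], _, _ => by simpa [wdA, wdeg_nil, wt, gen] using gen_mem_Mono S.gen none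
  | i :: J, h, hD => by
    rcases Nat.eq_zero_or_pos i with rfl | hi
    · rw [wdeg_cons] at hD ⊢
      have ih := adm_mem_Mono J (List.Pairwise.of_cons h) (by omega)
      rw [wdA_cons, S.Q_sq (by omega) (S.wd_mem_W J (by omega))]
      have := mul_mem_Mono S.gen ih ih
      convert this using 1
      rw [List.length_cons, pow_succ, mul_two, add_zero, two_mul]
    · have hpos : ∀ j ∈ i :: J, 1 ≤ j := by
        intro j hj
        rcases List.mem_cons.1 hj with rfl | hj
        · exact hi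
        · exact le_trans hi (List.rel_of_pairwise_cons h hj)
      exact gen_mem_Mono S.gen (some ⟨⟨i :: J, h, hpos⟩, List.cons_ne_nil _ _⟩)

theorem wd_mem_Mono (I : List ℕ) (hI : Tower.wdeg 0 I ≤ D) :
    wdA S.Q S.x1 I ∈ Mono S.gen (2 ^ I.length) (Tower.wdeg 0 I) := by
  refine (Submodule.span_le.2 ?_) (S.adm I hI)
  rintro _ ⟨J, h1, h2, h3, rfl⟩
  have := S.adm_mem_Mono J h3 (by omega)
  rwa [h1, h2] at this

theorem Q_gen_mem (i : ℕ) (s : Option Tower.Wd0) (h : 2 * (wt s).2 + i ≤ D) :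
    S.Q i (S.gen s) ∈ Mono S.gen (2 * (wt s).1) (2 * (wt s).2 + i) := by
  cases s with
  | none =>
    have := S.wd_mem_Mono [i] (by simpa [wdeg_cons, wdeg_nil, wt] using h)
    simpa [wdeg_cons, wdeg_nil, wt, wdA, gen] using this
  | some I =>
    have := S.wd_mem_Mono (i :: I.1.1) h
    rw [wdA_cons, List.length_cons, pow_succ, mul_comm (2 ^ _)] at this
    exact this

theorem Q_zero_eq {i v t : ℕ} (h : 2 * t + i ≤ D) : S.Q i 0 = 0 := by
  have := S.Q_add h (Submodule.zero_mem (S.W v t)) (Submodule.zero_mem (S.W v t))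
  rw [add_zero] at this
  exact left_eq_add.1 this

theorem Q_mon_mem (d : Option Tower.Wd0 →₀ ℕ) : ∀ i, 2 * (Finsupp.weight wt d).2 + i ≤ D →
    S.Q i (aeval S.gen (monomial d (1 : F2))) ∈
      Mono S.gen (2 * (Finsupp.weight wt d).1) (2 * (Finsupp.weight wt d).2 + i) := by
  induction d using mon_induction with
  | h0 =>
    intro i h
    rw [map_zero] at h ⊢
    rw [show (monomial (0 : Option Tower.Wd0 →₀ ℕ) (1 : F2)) = 1 from rfl, map_one]
    simp only [Prod.snd_zero, Prod.fst_zero, mul_zero, zero_add] at h ⊢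
    rcases Nat.eq_zero_or_pos i with rfl | hi
    · rw [S.Q_sq (t := 0) (by omega) S.one_mem, one_mul]
      exact one_mem_Mono _
    · rw [S.Q_one i hi h]
      exact Submodule.zero_mem _
  | h1 s d ih =>
    intro i h
    rw [weight_single_add, Prod.snd_add] at h
    rw [weight_single_add, monomial_single_add, map_mul, aeval_X, Prod.snd_add, Prod.fst_add,
      S.cartan h (S.gen_mem_W s (by omega)) (S.mon_mem_W d (by omega))]
    refine Submodule.sum_mem _ fun p hp => ?_
    rw [HasAntidiagonal.mem_antidiagonal] at hp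
    have h1 := S.Q_gen_mem p.1 s (by omega)
    have h2 := ih p.2 (by omega)
    have := mul_mem_Mono S.gen h1 h2
    have e1 : 2 * ((wt s).1 + (Finsupp.weight wt d).1) = 2 * (wt s).1 + 2 * (Finsupp.weight wt d).1 := by
      ring
    have e2 : 2 * ((wt s).2 + (Finsupp.weight wt d).2) + i =
        2 * (wt s).2 + p.1 + (2 * (Finsupp.weight wt d).2 + p.2) := by omega
    rw [e1, e2]
    exact this

theorem Q_Mono_mem {i v t : ℕ} (h : 2 * t + i ≤ D) {y : A} (hy : y ∈ Mono S.gen v t) :
    S.Q i y ∈ Mono S.gen (2 * v) (2 * t + i) := by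
  obtain ⟨p, hp, rfl⟩ := (mem_Mono _).1 hy
  refine hom_induction (P := fun p => S.Q i (aeval S.gen p) ∈ Mono S.gen (2 * v) (2 * t + i)) ?_ ?_ hp
  · rw [map_zero, S.Q_zero_eq (v := v) h]; exact Submodule.zero_mem _
  · intro d p hd hp' ih
    have h1 := S.mon_mem_W d (by rw [hd]; show t ≤ D; omega)
    rw [hd] at h1
    have h2 : aeval S.gen p ∈ S.W v t := S.Mono_le_W (by omega) ((mem_Mono _).2 ⟨p, hp', rfl⟩)
    rw [map_add, S.Q_add h h1 h2]
    refine Submodule.add_mem _ ?_ ih
    have := S.Q_mon_mem d i (by rw [hd]; exact h)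
    rwa [hd] at this

/-- GENERATION: in degrees `≤ D` everything is a polynomial in the admissible words. -/
theorem W_le_Mono {v t : ℕ} (ht : t ≤ D) : S.W v t ≤ Mono S.gen v t := by
  have key := S.span (fun v t => if t ≤ D then Mono S.gen v t else ⊥) ?_ ?_ ?_ ?_ ?_ v t ht
  · rwa [if_pos ht] at key
  · intro v t
    split_ifs with h
    · exact S.Mono_le_W h
    · exact bot_le
  · intro t ht
    rw [if_pos ht]
    rcases Nat.eq_zero_or_pos t with rfl | h
    · refine S.W0.trans (Submodule.span_le.2 ?_)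
      rintro _ rfl
      exact one_mem_Mono _
    · rw [S.W0' t h ht]; exact bot_le
  · intro t ht
    rw [if_pos ht]
    rcases Nat.eq_zero_or_pos t with rfl | h
    · refine S.W1.trans (Submodule.span_le.2 ?_)
      rintro _ rfl
      exact gen_mem_Mono S.gen none
    · rw [S.W1' t h ht]; exact bot_le
  · intro a s b t y z h hy hz
    rw [if_pos (by omega)] at hy hz ⊢
    exact mul_mem_Mono _ hy hz
  · intro i v t y h hy
    rw [if_pos (by omega)] at hy ⊢
    exact S.Q_Mono_mem h hy

end Src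

/-! ## comparison -/

/-- comparison map -/
structure Cmp {A : Type} [CommRing A] [Algebra F2 A] {D : ℕ} (S : Src A D) (T : Tower)
    (κ : A →ₗ[F2] T.H 0) : Prop where
  one : κ 1 = 1
  x1 : κ S.x1 = T.x 0
  mul : ∀ (a s b t : ℕ) (y z : A), s + t ≤ D → y ∈ S.W a s → z ∈ S.W b t → κ (y * z) = κ y * κ z
  Q : ∀ (i v t : ℕ) (y : A), 2 * t + i ≤ D → y ∈ S.W v t → κ (S.Q i y) = T.Q 0 i (κ y)

/-- the substitution `[1] ↦ 1` -/
noncomputable def sub1 : MvPolynomial (Option Tower.Wd0) F2 →ₐ[F2] MvPolynomial Tower.Wd0 F2 :=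
  aeval (fun o : Option Tower.Wd0 => o.elim 1 X)

theorem sub1_monomial (d : Option Tower.Wd0 →₀ ℕ) :
    sub1 (monomial d 1) = monomial d.some 1 := by
  induction d using mon_induction with
  | h0 => simp [sub1]
  | h1 i d ih =>
    rw [monomial_single_add, map_mul, ih, Finsupp.some_add, sub1, aeval_X]
    cases i with
    | none => simp
    | some I => simp [monomial_single_add]

/-- weight of a monomial in the generators of positive degree -/
theorem weight_some (d : Option Tower.Wd0 →₀ ℕ) :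
    (Finsupp.weight wt d).1 = d none + Finsupp.weight (fun I : Tower.Wd0 => (wt (some I)).1) d.some ∧
    (Finsupp.weight wt d).2 = Finsupp.weight (fun I : Tower.Wd0 => Tower.wdeg 0 I.1.1) d.some := by
  induction d using mon_induction with
  | h0 => simp
  | h1 i d ih =>
    rw [weight_single_add, Finsupp.some_add, Prod.fst_add, Prod.snd_add, ih.1, ih.2]
    cases i with
    | none => simp [wt, add_assoc]
    | some I =>
      rw [Finsupp.some_single_some, weight_single_add, weight_single_add]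
      constructor
      · simp [wt]; ring
      · simp [wt]

theorem sub1_inj {v t : ℕ} {p : MvPolynomial (Option Tower.Wd0) F2}
    (hp : IsWeightedHomogeneous wt p (v, t)) (h : sub1 p = 0) : p = 0 := by
  classical
  by_contra hne
  obtain ⟨d0, hd0⟩ := ne_zero_iff.1 hne
  have h1 : coeff d0.some (sub1 p) = 1 := by
    conv_lhs => rw [eq_sum_monomial p, map_sum, coeff_sum]
    rw [Finset.sum_eq_single d0]
    · rw [sub1_monomial, coeff_monomial, if_pos rfl]
    · intro d hd hne
      rw [sub1_monomial, coeff_monomial, if_neg]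
      intro he
      apply hne
      have w1 := hp (mem_support_iff.1 hd)
      have w2 := hp hd0
      have e1 := (weight_some d).1
      have e2 := (weight_some d0).1
      rw [w1] at e1
      rw [w2] at e2
      rw [he] at e1
      have e3 : d none = d0 none := by omega
      ext o
      cases o with
      | none => exact e3
      | some I => exact DFunLike.congr_fun he I
    · intro hd
      exact (hd (mem_support_iff.2 hd0)).elim
  rw [h, coeff_zero] at h1
  exact zero_ne_one h1

theorem sub1_homog {v t : ℕ} {p : MvPolynomial (Option Tower.Wd0) F2}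
    (hp : IsWeightedHomogeneous wt p (v, t)) :
    IsWeightedHomogeneous (fun I : Tower.Wd0 => Tower.wdeg 0 I.1.1) (sub1 p) t := by
  refine hom_induction (P := fun p => IsWeightedHomogeneous (fun I : Tower.Wd0 => Tower.wdeg 0 I.1.1)
    (sub1 p) t) (by simpa using isWeightedHomogeneous_zero F2 _ t) ?_ hp
  intro d p hd _ ih
  rw [map_add]
  refine IsWeightedHomogeneous.add ?_ ih
  rw [sub1_monomial]
  exact isWeightedHomogeneous_monomial _ _ _ (by rw [← (weight_some d).2, hd])

theorem weight_le (e : Tower.Wd0 →₀ ℕ) : Finsupp.weight (fun I : Tower.Wd0 => (wt (some I)).1) e ≤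
    2 * Finsupp.weight (fun I : Tower.Wd0 => Tower.wdeg 0 I.1.1) e := by
  induction e using mon_induction with
  | h0 => simp
  | h1 i d ih =>
    rw [weight_single_add, weight_single_add]
    have h1 := wt_le i
    have h2 : (wt (some i)).2 = Tower.wdeg 0 i.1.1 := rfl
    omega

theorem sub1_surj {v t : ℕ} (h : 2 * t ≤ v) {q : MvPolynomial Tower.Wd0 F2}
    (hq : IsWeightedHomogeneous (fun I : Tower.Wd0 => Tower.wdeg 0 I.1.1) q t) :
    ∃ p : MvPolynomial (Option Tower.Wd0) F2, IsWeightedHomogeneous wt p (v, t) ∧ sub1 p = q := by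
  refine hom_induction (P := fun q => ∃ p : MvPolynomial (Option Tower.Wd0) F2,
    IsWeightedHomogeneous wt p (v, t) ∧ sub1 p = q)
    ⟨0, isWeightedHomogeneous_zero F2 _ _, map_zero _⟩ ?_ hq
  rintro e q he _ ⟨p, hp, rfl⟩
  let d : Option Tower.Wd0 →₀ ℕ := Finsupp.optionElim
    (v - Finsupp.weight (fun I : Tower.Wd0 => (wt (some I)).1) e) e
  have hd1 : d.some = e := by ext I; simp [d]
  have hd2 : d none = v - Finsupp.weight (fun I : Tower.Wd0 => (wt (some I)).1) e := by
    simp [d]
  have hle := weight_le e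
  rw [he] at hle
  have hw : Finsupp.weight wt d = (v, t) := by
    refine Prod.ext ?_ ?_
    · rw [(weight_some d).1, hd1, hd2]; show _ = v; omega
    · rw [(weight_some d).2, hd1, he]
  exact ⟨monomial d 1 + p, (isWeightedHomogeneous_monomial wt d 1 hw).add hp, by
    rw [map_add, sub1_monomial, hd1]⟩

namespace Cmp

variable {A : Type} [CommRing A] [Algebra F2 A] {D : ℕ} {S : Src A D} {T : Tower}
  {κ : A →ₗ[F2] T.H 0} (h : Cmp S T κ)

include h

theorem map_wd : ∀ (I : List ℕ), Tower.wdeg 0 I ≤ D → κ (wdA S.Q S.x1 I) = T.word 0 I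
  | [], _ => h.x1
  | i :: I, hI => by
    rw [wdeg_cons] at hI
    rw [wdA_cons, h.Q i _ _ _ hI (S.wd_mem_W I (by omega)), map_wd I (by omega)]
    rfl

/-- a monomial goes to the monomial in the words of `X_0`, shifted to the base component -/
theorem map_mon (hx : T.x 0 * T.xinv = 1) (d : Option Tower.Wd0 →₀ ℕ) :
    (Finsupp.weight wt d).2 ≤ D →
    κ (aeval S.gen (monomial d (1 : F2))) * T.xinv ^ (Finsupp.weight wt d).1 =
      aeval (fun I : Tower.Wd0 => T.word0 I.1.1) (sub1 (monomial d 1)) := by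
  induction d using mon_induction with
  | h0 =>
    intro _
    rw [map_zero]
    simp [h.one]
  | h1 i d ih =>
    intro hD
    rw [weight_single_add, Prod.snd_add] at hD
    rw [weight_single_add, monomial_single_add, map_mul (aeval S.gen), map_mul sub1, aeval_X,
      Prod.fst_add, h.mul _ _ _ _ _ _ hD (S.gen_mem_W i (by omega)) (S.mon_mem_W d (by omega)),
      pow_add, map_mul (aeval _), ← ih (by omega)]
    have : κ (S.gen i) * T.xinv ^ (wt i).1 =
        aeval (fun I : Tower.Wd0 => T.word0 I.1.1) (sub1 (X i)) := by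
      cases i with
      | none =>
        rw [sub1, aeval_X]
        show κ S.x1 * T.xinv ^ 1 = _
        rw [h.x1, pow_one, hx]
        simp
      | some I =>
        rw [sub1, aeval_X]
        show κ (wdA S.Q S.x1 I.1.1) * T.xinv ^ (2 ^ I.1.1.length) = _
        rw [h.map_wd _ (by simpa [wt] using (show (wt (some I)).2 ≤ D by omega))]
        simp [Tower.word0]
    rw [← this]
    ring

theorem map_poly (hx : T.x 0 * T.xinv = 1) {v t : ℕ} (ht : t ≤ D)
    {p : MvPolynomial (Option Tower.Wd0) F2} (hp : IsWeightedHomogeneous wt p (v, t)) :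
    κ (aeval S.gen p) * T.xinv ^ v = aeval (fun I : Tower.Wd0 => T.word0 I.1.1) (sub1 p) := by
  refine hom_induction (P := fun p => κ (aeval S.gen p) * T.xinv ^ v =
    aeval (fun I : Tower.Wd0 => T.word0 I.1.1) (sub1 p)) (by simp) ?_ hp
  intro d p hd _ ih
  have := h.map_mon hx d (by rw [hd]; exact ht)
  rw [hd] at this
  rw [map_add, map_add, map_add, map_add, add_mul, this, ih]

/-- SQUEEZE, injectivity. -/
theorem injective (hx : T.x 0 * T.xinv = 1) (hP : T.FactPoly0 D) {v t : ℕ} (ht : t ≤ D) {y : A}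
    (hy : y ∈ S.W v t) (h0 : κ y = 0) : y = 0 := by
  obtain ⟨p, hp, rfl⟩ := (mem_Mono _).1 (S.W_le_Mono ht hy)
  have h1 := h.map_poly hx ht hp
  rw [h0, zero_mul] at h1
  have h2 := hP.1 t ht (sub1 p) (sub1_homog hp) h1.symm
  rw [sub1_inj hp h2, map_zero]

/-- SQUEEZE, surjectivity onto the base component. -/
theorem surjective (hx : T.x 0 * T.xinv = 1) (hP : T.FactPoly0 D) {v t : ℕ} (ht : t ≤ D)
    (hv : 2 * t ≤ v) {b : T.H 0} (hb : b ∈ T.gr 0 t) (hb' : b ∈ T.base) :
    ∃ y ∈ S.W v t, κ y * T.xinv ^ v = b := by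
  obtain ⟨q, hq, rfl⟩ := hP.2 t ht ⟨hb, hb'⟩
  obtain ⟨p, hp, rfl⟩ := sub1_surj hv hq
  exact ⟨aeval S.gen p, S.Mono_le_W ht ((mem_Mono _).2 ⟨p, hp, rfl⟩), h.map_poly hx ht hp⟩

/-- the image lies in the base component -/
theorem mem_base (hx : T.x 0 * T.xinv = 1) (hB : T.FactBase D) {v t : ℕ} (ht : t ≤ D) {y : A}
    (hy : y ∈ S.W v t) : κ y * T.xinv ^ v ∈ T.base := by
  obtain ⟨p, hp, rfl⟩ := (mem_Mono _).1 (S.W_le_Mono ht hy)
  rw [h.map_poly hx ht hp]
  refine hom_induction (w := fun I : Tower.Wd0 => Tower.wdeg 0 I.1.1) (m := t)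
    (P := fun q => aeval (fun I : Tower.Wd0 => T.word0 I.1.1) q ∈ T.base) (by simp) ?_ (sub1_homog hp)
  intro d q hd _ ih
  rw [map_add]
  refine T.base.add_mem ?_ ih
  have key : ∀ e : Tower.Wd0 →₀ ℕ, Finsupp.weight (fun I : Tower.Wd0 => Tower.wdeg 0 I.1.1) e ≤ D →
      aeval (fun I : Tower.Wd0 => T.word0 I.1.1) (monomial e (1 : F2)) ∈ T.base := by
    intro e
    induction e using mon_induction with
    | h0 => intro _; simp
    | h1 i e ih =>
      intro he
      rw [weight_single_add] at he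
      rw [monomial_single_add, map_mul, aeval_X]
      refine T.base.mul_mem (hB.1 _ fun j hj => ?_) (ih (by omega))
      have : ∀ (I : List ℕ), j ∈ I → j ≤ Tower.wdeg 0 I := by
        intro I
        induction I with
        | nil => intro h; cases h
        | cons a I ih =>
          intro h
          rw [wdeg_cons]
          rcases List.mem_cons.1 h with rfl | h
          · omega
          · have := ih h; omega
      have := this _ hj
      omega
  exact key d (by rw [hd]; exact ht)

end Cmp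

end Crest.Agent.R204.Squ103
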