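import Crest.Agent.R204.Kap5_761
import Crest.Agent.R204.Squ_103
import Crest.Agent.R204.Inst_194
import Crest.Agent.R204.Hopf4i_450

/-!
# Row 204, block G (helper761): `Squ103.Cmp` for the concrete tower
-/

set_option autoImplicit false
set_option linter.unusedSectionVars false

open scoped Topology unitInterval Topology.Homotopy

noncomputable section

namespace Crest.Agent.R204.CovT761

open Crest.Agent.R204.Cubes735 SS Thr328 HspSS696 ThAlg265 Ops265 Hopf450 Inst194 Freu297 Hsp696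

/-- `κ` with values in the bottom stage of the concrete tower -/
def kapT (p : Par) (lab : ℕ ↪ ℝ) : H F2 (Tot ℕ) →ₗ[F2] H F2 (p.S 0) :=
  kapH F2 lab p.M (emb (p.hc 0)) (iotaL p.n)

theorem kapT_gr (p : Par) (lab : ℕ ↪ ℝ) {t : ℕ} {y : H F2 (Tot ℕ)} (hy : y ∈ H.gr F2 (Tot ℕ) t) :
    kapT p lab y ∈ H.gr F2 (p.S 0) t := kapH_gr F2 lab p.M _ _ hy

theorem mul_N (p : Par) (k : ℕ) (x y : H F2 (p.S k)) :
    (p.N k).mulL EE x y = mulH (mu0 (p.hc k)) x y :=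
  LinearMap.congr_fun (LinearMap.congr_fun (mulL_eq_mulH (p.N k)) x) y

theorem tower_mul (p : Par) (k : ℕ) (x y : H F2 (p.S k)) :
    letI := p.tower.ring k
    (show p.tower.H k from x) * (show p.tower.H k from y) = mulH (mu0 (p.hc k)) x y :=
  mul_N p k x y

theorem mul_P (P : HMon (Tot ℕ)) (x y : H F2 (Tot ℕ)) :
    letI := P.ring EE
    x * y = mulH P.mu x y :=
  LinearMap.congr_fun (LinearMap.congr_fun (mulL_eq_mulH P) x) y

section
variable (p : Par) (lab : ℕ ↪ ℝ) (e : ℕ ⊕ ℕ ↪ ℕ)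

theorem card_J (hn : 9 * (p.M + 1) ≤ p.n) : 9 * (p.M + 1) ≤ Nat.card (Fin (cd p.J0 p.K 0)) := by
  rw [Nat.card_eq_fintype_card, Fintype.card_fin]
  exact hn

theorem kapT_mul (hn : 9 * (p.M + 1) ≤ p.n) {s t : ℕ} (hst : s + t < p.M) {y z : H F2 (Tot ℕ)}
    (hy : y ∈ H.gr F2 (Tot ℕ) s) (hz : z ∈ H.gr F2 (Tot ℕ) t) :
    kapT p lab (mulH ((mapU e).comp (dj ℕ ℕ)) y z) =
      mulH (mu0 (p.hc 0)) (kapT p lab y) (kapT p lab z) :=
  kapH_mul lab p.M (emb (p.hc 0)) (iotaL p.n) e (halves (i0 (p.hc 0))) (card_J p hn) hst hy hz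

theorem kapT_Q (hn : 9 * (p.M + 1) ≤ p.n) {i t : ℕ} (hit : 2 * t + i < p.M) {y : H F2 (Tot ℕ)}
    (hy : y ∈ H.gr F2 (Tot ℕ) t) :
    kapT p lab (Ops265.Q (TotAlg328.totAlg e p.M) i y) = Ops265.Q (p.A 0) i (kapT p lab y) :=
  kapH_Q' lab p.M (emb (p.hc 0)) (iotaL p.n) e (mu0 (p.hc 0)) (card_J p hn) hit hy

theorem kapT_empty (hn : 9 * (p.M + 1) ≤ p.n) (v : (Tot ℕ).S 0) (hv : v.1 = ∅) :
    kapT p lab (C5T557.vtx F2 v) = C5T557.vtx F2 (eS : (p.S 0).S 0) :=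
  kapH_vtx_empty lab p.hM (emb (p.hc 0)) (iotaL p.n) (card_J p hn) v hv

theorem kapT_one (hn : 9 * (p.M + 1) ≤ p.n) (v : (Tot ℕ).S 0) (hv : v.1.card = 1) :
    kapT p lab (C5T557.vtx F2 v) = p.x 0 :=
  kapH_vtx_one lab p.hM (emb (p.hc 0)) (iotaL p.n) (card_J p hn) v hv

end

/-- **the comparison data of `Squ103` for the concrete tower** -/
theorem cmp_of (p : Par) {D : ℕ} (hD : D + 1 ≤ p.M) (hn : 9 * (p.M + 1) ≤ p.n) (lab : ℕ ↪ ℝ)
    (e : ℕ ⊕ ℕ ↪ ℕ) (P : HMon (Tot ℕ)) (hP : P.mu = (mapU e).comp (dj ℕ ℕ)) (hPe : P.e.1 = ∅) :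
    letI := P.ring EE
    letI := P.alg EE
    ∀ (S : Squ103.Src (H F2 (Tot ℕ)) D),
      (∀ i y, S.Q i y = Ops265.Q (TotAlg328.totAlg e p.M) i y) →
      (∃ v : (Tot ℕ).S 0, v.1.card = 1 ∧ S.x1 = C5T557.vtx F2 v) →
      (∀ v t, S.W v t ≤ H.gr F2 (Tot ℕ) t) →
      Squ103.Cmp S p.tower (kapT p lab) := by
  let _ := P.ring EE
  let _ := P.alg EE
  intro S hQ hx hW
  refine ⟨?_, ?_, ?_, ?_⟩
  · exact kapT_empty p lab hn P.e hPe
  · obtain ⟨v, hv, hx⟩ := hx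
    exact (congrArg (kapT p lab) hx).trans (kapT_one p lab hn v hv)
  · intro a s b t y z hst hy hz
    have h1 : y * z = mulH ((mapU e).comp (dj ℕ ℕ)) y z := by
      rw [← hP]
      exact mul_P P y z
    refine (congrArg (kapT p lab) h1).trans ?_
    exact (kapT_mul p lab e hn (by omega : s + t < p.M) (hW a s hy) (hW b t hz)).trans
      (tower_mul p 0 _ _).symm
  · intro i v t y hit hy
    refine (congrArg (kapT p lab) (hQ i y)).trans ?_
    exact kapT_Q p lab e hn (by omega : 2 * t + i < p.M) (hW v t hy)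

end Crest.Agent.R204.CovT761
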