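import Crest.Agent.R204.Fs_348
import Crest.Agent.R204.EG_265
import Crest.Agent.R204.Orb_742

/-!
# Row 204, block G: structure maps of the thread model (on top of `Fs_348`)

* `Tot U` : all finite sets of threads (no condition on the cardinality), `inc v : Fs U v → Tot U`.
* `mapU f`, `map v f` : functoriality in injections of the universe; `hmt f g`, `hmtV` : any two
  injections of universes are simplicially homotopic.
* `dj`, `djV` : disjoint union; commutative, associative, natural, unital.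
* `ins`, `insV` : add a point.
* `tht`, `thtV` : `θ : EG(Z/2) × K × K → K`, strictly swap invariant, orbit version `thtO`.
-/

set_option autoImplicit false

namespace Crest.Agent.R204.Thr328

open Finsupp Crest.Agent.R204 Fs348 SS DK742

/-! ## images of finite sets of threads -/

section img

variable {U W X : Type} {l m n : ℕ}

open Classical in
/-- image of a finite set of threads -/
noncomputable def img (φ : (Fin (m + 1) → U) → (Fin (n + 1) → W))
    (A : Finset (Fin (m + 1) → U)) : Finset (Fin (n + 1) → W) := A.image φ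

@[simp] theorem mem_img {φ : (Fin (m + 1) → U) → (Fin (n + 1) → W)}
    {A : Finset (Fin (m + 1) → U)} {g : Fin (n + 1) → W} : g ∈ img φ A ↔ ∃ a ∈ A, φ a = g := by
  simp [img]

open Classical in
/-- union -/
noncomputable def un {α : Type} (A B : Finset α) : Finset α := A ∪ B

@[simp] theorem mem_un {α : Type} {A B : Finset α} {a : α} : a ∈ un A B ↔ a ∈ A ∨ a ∈ B := by
  simp [un]

theorem card_un {α : Type} {A B : Finset α} (h : Disjoint A B) :
    (un A B).card = A.card + B.card := by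
  classical
  unfold un
  exact Finset.card_union_of_disjoint h

/-- `φ` is injective on `A` at every time -/
def TI (φ : (Fin (m + 1) → U) → (Fin (n + 1) → W)) (A : Finset (Fin (m + 1) → U)) : Prop :=
  ∀ i, ∀ a ∈ A, ∀ b ∈ A, φ a i = φ b i → a = b

theorem TI.ci {φ : (Fin (m + 1) → U) → (Fin (n + 1) → W)} {A : Finset (Fin (m + 1) → U)}
    (h : TI φ A) : CI (img φ A) := by
  intro i a ha b hb hab
  obtain ⟨a, ha', rfl⟩ := mem_img.1 ha
  obtain ⟨b, hb', rfl⟩ := mem_img.1 hb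
  rw [h i a ha' b hb' hab]

theorem TI.card {φ : (Fin (m + 1) → U) → (Fin (n + 1) → W)} {A : Finset (Fin (m + 1) → U)}
    (h : TI φ A) : (img φ A).card = A.card := by
  classical
  unfold img
  refine Finset.card_image_of_injOn ?_
  intro a ha b hb hab
  exact h 0 a ha b hb (congrFun hab 0)

theorem TI.card_of_inj {φ : (Fin (m + 1) → U) → (Fin (n + 1) → W)} (h : Function.Injective φ)
    (A : Finset (Fin (m + 1) → U)) : (img φ A).card = A.card := by
  classical
  unfold img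
  exact Finset.card_image_of_injective _ h

theorem img_img (φ : (Fin (m + 1) → U) → (Fin (n + 1) → W))
    (ψ : (Fin (n + 1) → W) → (Fin (l + 1) → X)) (A : Finset (Fin (m + 1) → U)) :
    img ψ (img φ A) = img (fun a => ψ (φ a)) A := by
  ext g
  simp only [mem_img]
  constructor
  · rintro ⟨_, ⟨a, ha, rfl⟩, rfl⟩; exact ⟨a, ha, rfl⟩
  · rintro ⟨a, ha, rfl⟩; exact ⟨_, ⟨a, ha, rfl⟩, rfl⟩

theorem img_congr {φ ψ : (Fin (m + 1) → U) → (Fin (n + 1) → W)} {A : Finset (Fin (m + 1) → U)}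
    (h : ∀ a ∈ A, φ a = ψ a) : img φ A = img ψ A := by
  ext g
  simp only [mem_img]
  constructor
  · rintro ⟨a, ha, rfl⟩; exact ⟨a, ha, (h a ha).symm⟩
  · rintro ⟨a, ha, rfl⟩; exact ⟨a, ha, h a ha⟩

theorem img_id (A : Finset (Fin (m + 1) → U)) : img (fun a => a) A = A := by
  ext g; simp

theorem img_mono {φ : (Fin (m + 1) → U) → (Fin (n + 1) → W)} {A B : Finset (Fin (m + 1) → U)}
    (h : A ⊆ B) : img φ A ⊆ img φ B := by
  intro g hg
  obtain ⟨a, ha, rfl⟩ := mem_img.1 hg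
  exact mem_img.2 ⟨a, h ha, rfl⟩

theorem re_eq_img (f : Fin (m + 1) → Fin (n + 1)) (A : Finset (Fin (n + 1) → U)) :
    re f A = img (fun a => a ∘ f) A := by
  ext g; rw [mem_re, mem_img]

theorem re_img {p q : ℕ} (f : Fin (q + 1) → Fin (n + 1))
    (φ : (Fin (m + 1) → U) → (Fin (n + 1) → W)) (f' : Fin (p + 1) → Fin (m + 1))
    (φ' : (Fin (p + 1) → U) → (Fin (q + 1) → W)) (A : Finset (Fin (m + 1) → U))
    (h : ∀ a ∈ A, φ a ∘ f = φ' (a ∘ f')) : re f (img φ A) = img φ' (re f' A) := by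
  rw [re_eq_img, re_eq_img, img_img, img_img]
  exact img_congr h

end img

/-! ## the total model -/

/-- finite sets of threads with injective coordinates, any cardinality -/
noncomputable def Tot (U : Type) : SS where
  S n := {A : Finset (Fin (n + 1) → U) // CI A}
  act f A := ⟨re f A.1, A.2.re f⟩
  act_id A := Subtype.ext (re_id A.1)
  act_comp f g A := Subtype.ext (re_comp f g A.1)

/-- `Fs U v → Tot U` -/
noncomputable def inc (U : Type) (v : ℕ) : Hom (Fs U v) (Tot U) :=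
  ⟨fun _ A => ⟨A.1, A.2.1⟩, fun _ _ => rfl⟩

/-- transport along an equality of cardinalities -/
noncomputable def cst (U : Type) {v w : ℕ} (h : v = w) : Hom (Fs U v) (Fs U w) :=
  ⟨fun _ A => ⟨A.1, A.2.1, A.2.2.trans h⟩, fun _ _ => rfl⟩

variable {U W X Y : Type}

@[simp] theorem Tot_act_val {m n : ℕ} (f : Op m n) (A : (Tot U).S n) :
    ((Tot U).act f A).1 = re f A.1 := rfl
@[simp] theorem Fs_act_val {v m n : ℕ} (f : Op m n) (A : (Fs U v).S n) :
    ((Fs U v).act f A).1 = re f A.1 := rfl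
@[simp] theorem inc_val {v n : ℕ} (A : (Fs U v).S n) : ((inc U v).app n A).1 = A.1 := rfl
@[simp] theorem cst_val {v w : ℕ} (h : v = w) {n : ℕ} (A : (Fs U v).S n) :
    ((cst U h).app n A).1 = A.1 := rfl

/-! ## functoriality in the universe -/

/-- push a set of threads forward -/
noncomputable def pu (f : U → W) {n : ℕ} (A : Finset (Fin (n + 1) → U)) :
    Finset (Fin (n + 1) → W) := img (fun a => f ∘ a) A

@[simp] theorem mem_pu {f : U → W} {n : ℕ} {A : Finset (Fin (n + 1) → U)} {g : Fin (n + 1) → W} :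
    g ∈ pu f A ↔ ∃ a ∈ A, f ∘ a = g := mem_img

theorem TI_pu (f : U ↪ W) {n : ℕ} {A : Finset (Fin (n + 1) → U)} (hA : CI A) :
    TI (fun a : Fin (n + 1) → U => f ∘ a) A :=
  fun i _ ha _ hb h => hA i ha hb (f.injective h)

theorem pu_pu (f : U → W) (g : W → X) {n : ℕ} (A : Finset (Fin (n + 1) → U)) :
    pu g (pu f A) = pu (g ∘ f) A := img_img _ _ _

theorem pu_id {n : ℕ} (A : Finset (Fin (n + 1) → U)) : pu id A = A := img_id A

theorem re_pu {m n : ℕ} (f : Fin (m + 1) → Fin (n + 1)) (g : U → W)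
    (A : Finset (Fin (n + 1) → U)) : re f (pu g A) = pu g (re f A) :=
  re_img f _ f _ A fun _ _ => rfl

/-- functoriality of `Tot` -/
noncomputable def mapU (f : U ↪ W) : Hom (Tot U) (Tot W) where
  app _ A := ⟨pu f A.1, (TI_pu f A.2).ci⟩
  nat g A := Subtype.ext (re_pu g f A.1).symm

/-- functoriality of `Fs` -/
noncomputable def map (v : ℕ) (f : U ↪ W) : Hom (Fs U v) (Fs W v) where
  app _ A := ⟨pu f A.1, (TI_pu f A.2.1).ci, (TI_pu f A.2.1).card.trans A.2.2⟩
  nat g A := Subtype.ext (re_pu g f A.1).symm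

@[simp] theorem mapU_val (f : U ↪ W) {n : ℕ} (A : (Tot U).S n) :
    ((mapU f).app n A).1 = pu f A.1 := rfl
@[simp] theorem map_val (v : ℕ) (f : U ↪ W) {n : ℕ} (A : (Fs U v).S n) :
    ((map v f).app n A).1 = pu f A.1 := rfl

theorem mapU_comp (f : U ↪ W) (g : W ↪ X) : (mapU g).comp (mapU f) = mapU (f.trans g) := by
  ext n A
  exact Subtype.ext (pu_pu _ _ _)

theorem map_comp (v : ℕ) (f : U ↪ W) (g : W ↪ X) : (map v g).comp (map v f) = map v (f.trans g) := by
  ext n A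
  exact Subtype.ext (pu_pu _ _ _)

theorem mapU_id : mapU (Function.Embedding.refl U) = Hom.id (Tot U) := by
  ext n A
  exact Subtype.ext (pu_id _)

theorem map_id (v : ℕ) : map v (Function.Embedding.refl U) = Hom.id (Fs U v) := by
  ext n A
  exact Subtype.ext (pu_id _)

theorem inc_map (v : ℕ) (f : U ↪ W) : (inc W v).comp (map v f) = (mapU f).comp (inc U v) := rfl

/-! ## any two injections are homotopic -/

/-- the thread which uses `f` at times with `p = 0` and `g` at times with `p = 1` -/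
def mixT (f g : U → W) {n : ℕ} (p : Op n 1) (a : Fin (n + 1) → U) : Fin (n + 1) → W :=
  fun i => if p i = 0 then f (a i) else g (a i)

theorem TI_mix (f g : U ↪ W) {n : ℕ} (p : Op n 1) {A : Finset (Fin (n + 1) → U)} (hA : CI A) :
    TI (mixT f g p) A := by
  intro i a ha b hb h
  unfold mixT at h
  split_ifs at h with h0
  · exact hA i ha hb (f.injective h)
  · exact hA i ha hb (g.injective h)

theorem re_mix {m n : ℕ} (φ : Op m n) (f g : U → W) (p : Op n 1) (A : Finset (Fin (n + 1) → U)) :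
    re φ (img (mixT f g p) A) = img (mixT f g (p.comp φ)) (re φ A) :=
  re_img φ _ φ _ A fun _ _ => rfl

/-- the homotopy between `mapU f` and `mapU g` -/
noncomputable def hmt (f g : U ↪ W) : Hom ((Tot U).prod (std 1)) (Tot W) where
  app _ x := ⟨img (mixT f g x.2) x.1.1, (TI_mix f g x.2 x.1.2).ci⟩
  nat φ x := Subtype.ext (re_mix φ f g x.2 x.1.1).symm

/-- the homotopy between `map v f` and `map v g` -/
noncomputable def hmtV (v : ℕ) (f g : U ↪ W) : Hom ((Fs U v).prod (std 1)) (Fs W v) where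
  app _ x := ⟨img (mixT f g x.2) x.1.1, (TI_mix f g x.2 x.1.2.1).ci,
    (TI_mix f g x.2 x.1.2.1).card.trans x.1.2.2⟩
  nat φ x := Subtype.ext (re_mix φ f g x.2 x.1.1).symm

theorem mix_zero (f g : U → W) {n : ℕ} (p : Op n 1) (hp : ∀ i, p i = 0)
    (A : Finset (Fin (n + 1) → U)) : img (mixT f g p) A = pu f A :=
  img_congr fun a _ => by funext i; simp [mixT, hp i]

theorem mix_one (f g : U → W) {n : ℕ} (p : Op n 1) (hp : ∀ i, p i = 1)
    (A : Finset (Fin (n + 1) → U)) : img (mixT f g p) A = pu g A :=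
  img_congr fun a _ => by funext i; simp [mixT, hp i]

theorem hmt_zero (f g : U ↪ W) {n : ℕ} (A : (Tot U).S n) (p : Op n 1) (hp : ∀ i, p i = 0) :
    (hmt f g).app n (A, p) = (mapU f).app n A := Subtype.ext (mix_zero f g p hp A.1)

theorem hmt_one (f g : U ↪ W) {n : ℕ} (A : (Tot U).S n) (p : Op n 1) (hp : ∀ i, p i = 1) :
    (hmt f g).app n (A, p) = (mapU g).app n A := Subtype.ext (mix_one f g p hp A.1)

theorem hmtV_zero (v : ℕ) (f g : U ↪ W) {n : ℕ} (A : (Fs U v).S n) (p : Op n 1)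
    (hp : ∀ i, p i = 0) : (hmtV v f g).app n (A, p) = (map v f).app n A :=
  Subtype.ext (mix_zero f g p hp A.1)

theorem hmtV_one (v : ℕ) (f g : U ↪ W) {n : ℕ} (A : (Fs U v).S n) (p : Op n 1)
    (hp : ∀ i, p i = 1) : (hmtV v f g).app n (A, p) = (map v g).app n A :=
  Subtype.ext (mix_one f g p hp A.1)

/-! ## disjoint union -/

section dju

/-- disjoint union of sets of threads -/
noncomputable def du {n : ℕ} (A : Finset (Fin (n + 1) → U)) (B : Finset (Fin (n + 1) → W)) :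
    Finset (Fin (n + 1) → U ⊕ W) := un (pu Sum.inl A) (pu Sum.inr B)

variable {n : ℕ} {A : Finset (Fin (n + 1) → U)} {B : Finset (Fin (n + 1) → W)}

@[simp] theorem mem_du {g : Fin (n + 1) → U ⊕ W} :
    g ∈ du A B ↔ (∃ a ∈ A, Sum.inl ∘ a = g) ∨ (∃ b ∈ B, Sum.inr ∘ b = g) := by
  simp [du]

theorem CI.du (hA : CI A) (hB : CI B) : CI (Thr328.du A B) := by
  intro i a ha b hb h
  rcases mem_du.1 ha with ⟨a, ha', rfl⟩ | ⟨a, ha', rfl⟩ <;>
    rcases mem_du.1 hb with ⟨b, hb', rfl⟩ | ⟨b, hb', rfl⟩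
  · rw [hA i ha' hb' (Sum.inl_injective h)]
  · simp at h
  · simp at h
  · rw [hB i ha' hb' (Sum.inr_injective h)]

theorem disjoint_du (A : Finset (Fin (n + 1) → U)) (B : Finset (Fin (n + 1) → W)) :
    Disjoint (pu (Sum.inl : U → U ⊕ W) A) (pu (Sum.inr : W → U ⊕ W) B) := by
  rw [Finset.disjoint_left]
  intro g h1 h2
  obtain ⟨a, _, rfl⟩ := mem_pu.1 h1
  obtain ⟨b, _, h⟩ := mem_pu.1 h2
  simpa using congrFun h 0

theorem card_pu_of_inj {f : U → W} (hf : Function.Injective f) (A : Finset (Fin (n + 1) → U)) :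
    (pu f A).card = A.card := by
  classical
  unfold pu img
  exact Finset.card_image_of_injective _ hf.comp_left

theorem card_du (A : Finset (Fin (n + 1) → U)) (B : Finset (Fin (n + 1) → W)) :
    (du A B).card = A.card + B.card := by
  rw [du, card_un (disjoint_du A B), card_pu_of_inj Sum.inl_injective,
    card_pu_of_inj Sum.inr_injective]

theorem re_du {m : ℕ} (f : Fin (m + 1) → Fin (n + 1)) (A : Finset (Fin (n + 1) → U))
    (B : Finset (Fin (n + 1) → W)) : re f (du A B) = du (re f A) (re f B) := by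
  ext g
  simp only [mem_re, mem_du]
  constructor
  · rintro ⟨_, (⟨a, ha, rfl⟩ | ⟨a, ha, rfl⟩), rfl⟩
    · exact Or.inl ⟨_, ⟨a, ha, rfl⟩, rfl⟩
    · exact Or.inr ⟨_, ⟨a, ha, rfl⟩, rfl⟩
  · rintro (⟨_, ⟨a, ha, rfl⟩, rfl⟩ | ⟨_, ⟨a, ha, rfl⟩, rfl⟩)
    · exact ⟨_, Or.inl ⟨a, ha, rfl⟩, rfl⟩
    · exact ⟨_, Or.inr ⟨a, ha, rfl⟩, rfl⟩

theorem pu_swap_du (A : Finset (Fin (n + 1) → U)) (B : Finset (Fin (n + 1) → W)) :
    pu Sum.swap (du A B) = du B A := by
  ext g
  simp only [mem_pu, mem_du]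
  constructor
  · rintro ⟨_, (⟨a, ha, rfl⟩ | ⟨a, ha, rfl⟩), rfl⟩
    · exact Or.inr ⟨a, ha, rfl⟩
    · exact Or.inl ⟨a, ha, rfl⟩
  · rintro (⟨a, ha, rfl⟩ | ⟨a, ha, rfl⟩)
    · exact ⟨_, Or.inr ⟨a, ha, rfl⟩, rfl⟩
    · exact ⟨_, Or.inl ⟨a, ha, rfl⟩, rfl⟩

theorem pu_assoc_du (A : Finset (Fin (n + 1) → U)) (B : Finset (Fin (n + 1) → W))
    (C : Finset (Fin (n + 1) → X)) :
    pu (Equiv.sumAssoc U W X) (du (du A B) C) = du A (du B C) := by
  ext g
  simp only [mem_pu, mem_du]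
  constructor
  · rintro ⟨_, (⟨_, (⟨a, ha, rfl⟩ | ⟨a, ha, rfl⟩), rfl⟩ | ⟨a, ha, rfl⟩), rfl⟩
    · exact Or.inl ⟨a, ha, rfl⟩
    · exact Or.inr ⟨_, Or.inl ⟨a, ha, rfl⟩, rfl⟩
    · exact Or.inr ⟨_, Or.inr ⟨a, ha, rfl⟩, rfl⟩
  · rintro (⟨a, ha, rfl⟩ | ⟨_, (⟨a, ha, rfl⟩ | ⟨a, ha, rfl⟩), rfl⟩)
    · exact ⟨_, Or.inl ⟨_, Or.inl ⟨a, ha, rfl⟩, rfl⟩, rfl⟩
    · exact ⟨_, Or.inl ⟨_, Or.inr ⟨a, ha, rfl⟩, rfl⟩, rfl⟩
    · exact ⟨_, Or.inr ⟨a, ha, rfl⟩, rfl⟩

theorem pu_map_du {U' W' : Type} (f : U → U') (g : W → W') (A : Finset (Fin (n + 1) → U))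
    (B : Finset (Fin (n + 1) → W)) : pu (Sum.map f g) (du A B) = du (pu f A) (pu g B) := by
  ext g
  simp only [mem_pu, mem_du]
  constructor
  · rintro ⟨_, (⟨a, ha, rfl⟩ | ⟨a, ha, rfl⟩), rfl⟩
    · exact Or.inl ⟨_, ⟨a, ha, rfl⟩, rfl⟩
    · exact Or.inr ⟨_, ⟨a, ha, rfl⟩, rfl⟩
  · rintro (⟨_, ⟨a, ha, rfl⟩, rfl⟩ | ⟨_, ⟨a, ha, rfl⟩, rfl⟩)
    · exact ⟨_, Or.inl ⟨a, ha, rfl⟩, rfl⟩
    · exact ⟨_, Or.inr ⟨a, ha, rfl⟩, rfl⟩

theorem du_empty (A : Finset (Fin (n + 1) → U)) :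
    du A (∅ : Finset (Fin (n + 1) → W)) = pu Sum.inl A := by
  ext g; simp

theorem empty_du (B : Finset (Fin (n + 1) → W)) :
    du (∅ : Finset (Fin (n + 1) → U)) B = pu Sum.inr B := by
  ext g; simp

end dju

/-- disjoint union, total -/
noncomputable def dj (U W : Type) : Hom ((Tot U).prod (Tot W)) (Tot (U ⊕ W)) where
  app _ x := ⟨du x.1.1 x.2.1, CI.du x.1.2 x.2.2⟩
  nat f x := Subtype.ext (re_du f x.1.1 x.2.1).symm

/-- disjoint union, fixed cardinalities -/
noncomputable def djV (U W : Type) (v w : ℕ) :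
    Hom ((Fs U v).prod (Fs W w)) (Fs (U ⊕ W) (v + w)) where
  app _ x := ⟨du x.1.1 x.2.1, CI.du x.1.2.1 x.2.2.1, by rw [card_du, x.1.2.2, x.2.2.2]⟩
  nat f x := Subtype.ext (re_du f x.1.1 x.2.1).symm

@[simp] theorem dj_val {n : ℕ} (x : (Tot U).S n × (Tot W).S n) :
    ((dj U W).app n x).1 = du x.1.1 x.2.1 := rfl
@[simp] theorem djV_val {v w n : ℕ} (x : (Fs U v).S n × (Fs W w).S n) :
    ((djV U W v w).app n x).1 = du x.1.1 x.2.1 := rfl

/-- the disjoint union is commutative up to the bijection `U ⊕ W ≃ W ⊕ U` -/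
theorem dj_comm : (mapU (Equiv.sumComm U W).toEmbedding).comp (dj U W) =
    (dj W U).comp (SS.swap (Tot U) (Tot W)) := by
  ext n x
  exact Subtype.ext (pu_swap_du _ _)

theorem djV_comm (v w : ℕ) : (map (v + w) (Equiv.sumComm U W).toEmbedding).comp (djV U W v w) =
    (cst (W ⊕ U) (Nat.add_comm w v)).comp ((djV W U w v).comp (SS.swap (Fs U v) (Fs W w))) := by
  ext n x
  exact Subtype.ext (pu_swap_du _ _)

/-- reassociation of products of simplicial sets -/
def asc (K L M : SS) : Hom ((K.prod L).prod M) (K.prod (L.prod M)) :=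
  ⟨fun _ x => (x.1.1, x.1.2, x.2), fun _ _ => rfl⟩

theorem dj_assoc : (mapU (Equiv.sumAssoc U W X).toEmbedding).comp
      ((dj (U ⊕ W) X).comp (prodMap (dj U W) (Hom.id (Tot X)))) =
    (dj U (W ⊕ X)).comp ((prodMap (Hom.id (Tot U)) (dj W X)).comp (asc _ _ _)) := by
  ext n x
  exact Subtype.ext (pu_assoc_du _ _ _)

theorem djV_assoc (u v w : ℕ) : (map (u + v + w) (Equiv.sumAssoc U W X).toEmbedding).comp
      ((djV (U ⊕ W) X (u + v) w).comp (prodMap (djV U W u v) (Hom.id (Fs X w)))) =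
    (cst _ (Nat.add_assoc u v w).symm).comp ((djV U (W ⊕ X) u (v + w)).comp
      ((prodMap (Hom.id (Fs U u)) (djV W X v w)).comp (asc _ _ _))) := by
  ext n x
  exact Subtype.ext (pu_assoc_du _ _ _)

/-- naturality of the disjoint union -/
theorem dj_map {U' W' : Type} (f : U ↪ U') (g : W ↪ W') :
    (mapU (f.sumMap g)).comp (dj U W) = (dj U' W').comp (prodMap (mapU f) (mapU g)) := by
  ext n x
  exact Subtype.ext (pu_map_du _ _ _ _)

theorem djV_map {U' W' : Type} (v w : ℕ) (f : U ↪ U') (g : W ↪ W') :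
    (map (v + w) (f.sumMap g)).comp (djV U W v w) =
      (djV U' W' v w).comp (prodMap (map v f) (map w g)) := by
  ext n x
  exact Subtype.ext (pu_map_du _ _ _ _)

theorem inc_djV (v w : ℕ) : (inc (U ⊕ W) (v + w)).comp (djV U W v w) =
    (dj U W).comp (prodMap (inc U v) (inc W w)) := rfl

/-- the empty simplex -/
noncomputable def emp (U : Type) : Hom SS.pt (Fs U 0) :=
  ⟨fun _ _ => ⟨∅, by intro i a ha; simp at ha, rfl⟩, fun f _ => Subtype.ext (by
    ext g; simp [mem_re])⟩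

/-! ## adding a point -/

section ins

open Classical in
/-- add the constant thread at the new point -/
noncomputable def ad {n : ℕ} (A : Finset (Fin (n + 1) → U)) : Finset (Fin (n + 1) → Option U) :=
  insert (fun _ => none) (pu Option.some A)

variable {n : ℕ} {A : Finset (Fin (n + 1) → U)}

@[simp] theorem mem_ad {g : Fin (n + 1) → Option U} :
    g ∈ ad A ↔ g = (fun _ => none) ∨ ∃ a ∈ A, Option.some ∘ a = g := by
  simp [ad]

theorem CI.ad (hA : CI A) : CI (Thr328.ad A) := by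
  intro i a ha b hb h
  rcases mem_ad.1 ha with rfl | ⟨a, ha', rfl⟩ <;> rcases mem_ad.1 hb with rfl | ⟨b, hb', rfl⟩
  · rfl
  · simp at h
  · simp at h
  · rw [hA i ha' hb' (Option.some_injective _ h)]

theorem card_ad (A : Finset (Fin (n + 1) → U)) : (ad A).card = A.card + 1 := by
  classical
  unfold ad
  rw [Finset.card_insert_of_notMem, card_pu_of_inj (Option.some_injective U)]
  intro h
  obtain ⟨a, _, h⟩ := mem_pu.1 h
  simpa using congrFun h 0

theorem re_ad {m : ℕ} (f : Fin (m + 1) → Fin (n + 1)) (A : Finset (Fin (n + 1) → U)) :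
    re f (ad A) = ad (re f A) := by
  ext g
  simp only [mem_re, mem_ad]
  constructor
  · rintro ⟨_, (rfl | ⟨a, ha, rfl⟩), rfl⟩
    · exact Or.inl rfl
    · exact Or.inr ⟨_, ⟨a, ha, rfl⟩, rfl⟩
  · rintro (rfl | ⟨_, ⟨a, ha, rfl⟩, rfl⟩)
    · exact ⟨_, Or.inl rfl, rfl⟩
    · exact ⟨_, Or.inr ⟨a, ha, rfl⟩, rfl⟩

end ins

/-- add a point, total -/
noncomputable def insU (U : Type) : Hom (Tot U) (Tot (Option U)) where
  app _ A := ⟨ad A.1, CI.ad A.2⟩
  nat f A := Subtype.ext (re_ad f A.1).symm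

/-- add a point, fixed cardinality -/
noncomputable def insV (U : Type) (v : ℕ) : Hom (Fs U v) (Fs (Option U) (v + 1)) where
  app _ A := ⟨ad A.1, CI.ad A.2.1, by rw [card_ad, A.2.2]⟩
  nat f A := Subtype.ext (re_ad f A.1).symm

@[simp] theorem insU_val {n : ℕ} (A : (Tot U).S n) : ((insU U).app n A).1 = ad A.1 := rfl
@[simp] theorem insV_val {v n : ℕ} (A : (Fs U v).S n) : ((insV U v).app n A).1 = ad A.1 := rfl

/-! ## the extended square -/

/-- left copy at times with `g i + e = 0`, right copy otherwise -/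
def side {n : ℕ} (g : Fin (n + 1) → ZMod 2) (e : ZMod 2) (a : Fin (n + 1) → U) :
    Fin (n + 1) → U ⊕ U :=
  fun i => if g i + e = 0 then Sum.inl (a i) else Sum.inr (a i)

section tht

/-- `θ` on sets of threads -/
noncomputable def th {n : ℕ} (g : Fin (n + 1) → ZMod 2) (A B : Finset (Fin (n + 1) → U)) :
    Finset (Fin (n + 1) → U ⊕ U) := un (img (side g 0) A) (img (side g 1) B)

variable {n : ℕ} {g : Fin (n + 1) → ZMod 2} {A B : Finset (Fin (n + 1) → U)}

@[simp] theorem mem_th {c : Fin (n + 1) → U ⊕ U} :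
    c ∈ th g A B ↔ (∃ a ∈ A, side g 0 a = c) ∨ (∃ b ∈ B, side g 1 b = c) := by
  simp [th]

theorem side_eq_iff (g : Fin (n + 1) → ZMod 2) (e : ZMod 2) (a b : Fin (n + 1) → U)
    (i : Fin (n + 1)) : side g e a i = side g e b i ↔ a i = b i := by
  unfold side
  split_ifs
  · exact Sum.inl_injective.eq_iff
  · exact Sum.inr_injective.eq_iff

theorem side_ne (g : Fin (n + 1) → ZMod 2) (a b : Fin (n + 1) → U)
    (i : Fin (n + 1)) : side g 0 a i ≠ side g 1 b i := by
  have hz : ∀ z : ZMod 2, z = 0 ∨ z = 1 := by decide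
  have h11 : (1 : ZMod 2) + 1 = 0 := by decide
  have h10 : (1 : ZMod 2) ≠ 0 := by decide
  unfold side
  rcases hz (g i) with h | h <;> simp [h, h11]

theorem CI.th (g : Fin (n + 1) → ZMod 2) (hA : CI A) (hB : CI B) : CI (Thr328.th g A B) := by
  intro i a ha b hb h
  rcases mem_th.1 ha with ⟨a, ha', rfl⟩ | ⟨a, ha', rfl⟩ <;>
    rcases mem_th.1 hb with ⟨b, hb', rfl⟩ | ⟨b, hb', rfl⟩
  · rw [hA i ha' hb' ((side_eq_iff g 0 a b i).1 h)]
  · exact absurd h (side_ne g a b i)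
  · exact absurd h.symm (side_ne g b a i)
  · rw [hB i ha' hb' ((side_eq_iff g 1 a b i).1 h)]

theorem side_inj (g : Fin (n + 1) → ZMod 2) (e : ZMod 2) :
    Function.Injective (side (U := U) g e) := by
  intro a b h
  funext i
  exact (side_eq_iff g e a b i).1 (congrFun h i)

theorem card_th (g : Fin (n + 1) → ZMod 2) (A B : Finset (Fin (n + 1) → U)) :
    (th g A B).card = A.card + B.card := by
  have hd : Disjoint (img (side g 0) A) (img (side g 1) B) := by
    rw [Finset.disjoint_left]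
    intro c h1 h2
    obtain ⟨a, _, rfl⟩ := mem_img.1 h1
    obtain ⟨b, _, h⟩ := mem_img.1 h2
    exact side_ne g a b 0 (congrFun h 0).symm
  have h0 : (img (side g 0) A).card = A.card :=
    TI.card_of_inj (side_inj g 0) A
  have h1 : (img (side g 1) B).card = B.card :=
    TI.card_of_inj (side_inj g 1) B
  rw [← h0, ← h1]
  exact card_un hd

theorem re_th {m : ℕ} (f : Fin (m + 1) → Fin (n + 1)) (g : Fin (n + 1) → ZMod 2)
    (A B : Finset (Fin (n + 1) → U)) :
    re f (th g A B) = th (fun i => g (f i)) (re f A) (re f B) := by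
  ext c
  simp only [mem_re, mem_th]
  constructor
  · rintro ⟨_, (⟨a, ha, rfl⟩ | ⟨a, ha, rfl⟩), rfl⟩
    · exact Or.inl ⟨_, ⟨a, ha, rfl⟩, rfl⟩
    · exact Or.inr ⟨_, ⟨a, ha, rfl⟩, rfl⟩
  · rintro (⟨_, ⟨a, ha, rfl⟩, rfl⟩ | ⟨_, ⟨a, ha, rfl⟩, rfl⟩)
    · exact ⟨_, Or.inl ⟨a, ha, rfl⟩, rfl⟩
    · exact ⟨_, Or.inr ⟨a, ha, rfl⟩, rfl⟩

theorem side_add_one (g : Fin (n + 1) → ZMod 2) (e : ZMod 2) (a : Fin (n + 1) → U) :
    side (fun i => g i + 1) e a = side g (e + 1) a := by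
  funext i
  unfold side
  rw [add_assoc, add_comm 1 e]

/-- strict invariance under the swap -/
theorem th_swap (g : Fin (n + 1) → ZMod 2) (A B : Finset (Fin (n + 1) → U)) :
    th (fun i => g i + 1) B A = th g A B := by
  have h11 : (1 : ZMod 2) + 1 = 0 := by decide
  ext c
  simp only [mem_th, side_add_one, zero_add, h11]
  exact or_comm

theorem th_zero (A B : Finset (Fin (n + 1) → U)) : th (fun _ => 0) A B = du A B := by
  have e1 : ∀ a : Fin (n + 1) → U, side (fun _ => 0) 0 a = Sum.inl ∘ a := by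
    intro a; funext i; simp [side]
  have h10 : (1 : ZMod 2) ≠ 0 := by decide
  have e2 : ∀ a : Fin (n + 1) → U, side (fun _ => 0) 1 a = Sum.inr ∘ a := by
    intro a; funext i; simp [side]
  ext c
  simp only [mem_th, e1, e2, mem_du]

/-- naturality of `θ` in the universe -/
theorem pu_th (f : U → W) (g : Fin (n + 1) → ZMod 2) (A B : Finset (Fin (n + 1) → U)) :
    pu (Sum.map f f) (th g A B) = th g (pu f A) (pu f B) := by
  have e : ∀ (e : ZMod 2) (a : Fin (n + 1) → U), Sum.map f f ∘ side g e a = side g e (f ∘ a) := by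
    intro e a; funext i; simp only [side, Function.comp_apply]; split_ifs <;> rfl
  ext c
  simp only [mem_pu, mem_th]
  constructor
  · rintro ⟨_, (⟨a, ha, rfl⟩ | ⟨a, ha, rfl⟩), rfl⟩
    · exact Or.inl ⟨_, ⟨a, ha, rfl⟩, (e _ _).symm⟩
    · exact Or.inr ⟨_, ⟨a, ha, rfl⟩, (e _ _).symm⟩
  · rintro (⟨_, ⟨a, ha, rfl⟩, rfl⟩ | ⟨_, ⟨a, ha, rfl⟩, rfl⟩)
    · exact ⟨_, Or.inl ⟨a, ha, rfl⟩, e _ _⟩
    · exact ⟨_, Or.inr ⟨a, ha, rfl⟩, e _ _⟩

end tht

/-- `θ : EG(Z/2) × (Tot U)² → Tot (U ⊕ U)` -/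
noncomputable def tht (U : Type) :
    Hom ((EG (ZMod 2)).prod ((Tot U).prod (Tot U))) (Tot (U ⊕ U)) where
  app _ x := ⟨th x.1 x.2.1.1 x.2.2.1, CI.th x.1 x.2.1.2 x.2.2.2⟩
  nat f x := Subtype.ext (re_th f x.1 x.2.1.1 x.2.2.1).symm

/-- `θ : EG(Z/2) × (Fs U v)² → Fs (U ⊕ U) (v + v)` -/
noncomputable def thtV (U : Type) (v : ℕ) :
    Hom ((EG (ZMod 2)).prod ((Fs U v).prod (Fs U v))) (Fs (U ⊕ U) (v + v)) where
  app _ x := ⟨th x.1 x.2.1.1 x.2.2.1, CI.th x.1 x.2.1.2.1 x.2.2.2.1, by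
    rw [card_th, x.2.1.2.2, x.2.2.2.2]⟩
  nat f x := Subtype.ext (re_th f x.1 x.2.1.1 x.2.2.1).symm

@[simp] theorem tht_val {n : ℕ} (g : (EG (ZMod 2)).S n) (A B : (Tot U).S n) :
    ((tht U).app n (g, A, B)).1 = th g A.1 B.1 := rfl
@[simp] theorem thtV_val {v n : ℕ} (g : (EG (ZMod 2)).S n) (A B : (Fs U v).S n) :
    ((thtV U v).app n (g, A, B)).1 = th g A.1 B.1 := rfl

/-- the free involution of `EG (Z/2)` -/
def invE : Invo (EG (ZMod 2)) :=
  ⟨⟨fun _ g i => g i + 1, fun _ _ => rfl⟩, fun _ g => by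
    have h11 : (1 : ZMod 2) + 1 = 0 := by decide
    funext i
    show g i + 1 + 1 = g i
    rw [add_assoc, h11, add_zero]⟩

/-- strict invariance of `θ` -/
theorem tht_invo {n : ℕ} (x : ((EG (ZMod 2)).prod ((Tot U).prod (Tot U))).S n) :
    (tht U).app n ((invE.prod (Invo.swap (Tot U))).g.app n x) = (tht U).app n x :=
  Subtype.ext (th_swap _ _ _)

theorem thtV_invo {v n : ℕ} (x : ((EG (ZMod 2)).prod ((Fs U v).prod (Fs U v))).S n) :
    (thtV U v).app n ((invE.prod (Invo.swap (Fs U v))).g.app n x) = (thtV U v).app n x :=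
  Subtype.ext (th_swap _ _ _)

/-- `θ` on the orbits `EG(Z/2) ×_{Z/2} (Tot U)²` -/
noncomputable def thtO (U : Type) :
    Hom (orb ((EG (ZMod 2)).prod ((Tot U).prod (Tot U))) (invE.prod (Invo.swap (Tot U))))
      (Tot (U ⊕ U)) := orbLift _ (tht U) (fun _ x => tht_invo x)

/-- `θ` on the orbits `EG(Z/2) ×_{Z/2} (Fs U v)²` -/
noncomputable def thtVO (U : Type) (v : ℕ) :
    Hom (orb ((EG (ZMod 2)).prod ((Fs U v).prod (Fs U v))) (invE.prod (Invo.swap (Fs U v))))
      (Fs (U ⊕ U) (v + v)) := orbLift _ (thtV U v) (fun _ x => thtV_invo x)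

/-- naturality of `θ` in the universe -/
theorem tht_map (f : U ↪ W) : (mapU (f.sumMap f)).comp (tht U) =
    (tht W).comp (prodMap (Hom.id _) (prodMap (mapU f) (mapU f))) := by
  ext n x
  exact Subtype.ext (pu_th _ _ _ _)

theorem thtV_map (v : ℕ) (f : U ↪ W) : (map (v + v) (f.sumMap f)).comp (thtV U v) =
    (thtV W v).comp (prodMap (Hom.id _) (prodMap (map v f) (map v f))) := by
  ext n x
  exact Subtype.ext (pu_th _ _ _ _)

end Crest.Agent.R204.Thr328
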