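import Crest.Agent.R204.CovT2_761
import Crest.Agent.R204.Thr_328
import Crest.Agent.R204.HspSS_696
import Crest.Agent.R204.ThetaSS_265

/-!
# Row 204, block G (helper761): the map `κ : (skeleton of) Tot U → Sing (Ω^J Z)`

* `IsSk.prod` : products of skeleta;
* `Sys.Iso`, `Bx.pull`, `Lb.pull`, `M_pull` : isomorphisms of local systems;
* `ofHom g` : the local system of threads of `g : Hom B (Tot U)`; `rlOf` : its real labels;
* `kapG` : cover transfer of `g` with constant label `x₀`; `kap` : the case of the skeleton of `Tot U`;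
* `kapG_H_eq` : on homology `kapG` does not depend on any choice.
-/

set_option autoImplicit false
set_option linter.unusedSectionVars false

open scoped Topology unitInterval Topology.Homotopy
open Set

noncomputable section

namespace Crest.Agent.R204

namespace SS

/-! ### skeleta of products -/

/-- the sum of two simplicial operators -/
def opAdd {n p q : ℕ} (f : Op n p) (g : Op n q) : Op n (p + q) :=
  ⟨fun i => ⟨(f i : ℕ) + (g i : ℕ), by omega⟩, fun i j h => by
    have h1 : (f i : ℕ) ≤ f j := f.monotone h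
    have h2 : (g i : ℕ) ≤ g j := g.monotone h
    show (f i : ℕ) + (g i : ℕ) ≤ (f j : ℕ) + (g j : ℕ)
    omega⟩

theorem opAdd_val {n p q : ℕ} (f : Op n p) (g : Op n q) (i : Fin (n + 1)) :
    (opAdd f g i : ℕ) = (f i : ℕ) + (g i : ℕ) := rfl

/-- an operator which recovers `f` from `r` -/
def opRec {n p r : ℕ} (f : Op n p) (s : Op n r) : Op r p :=
  ⟨fun k => (Finset.univ.filter (fun i => s i ≤ k)).sup f, fun _ _ h =>
    Finset.sup_mono (Finset.monotone_filter_right _ fun _ _ hi => le_trans hi h)⟩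

theorem opRec_comp {n p r : ℕ} (f : Op n p) (s : Op n r)
    (h : ∀ i j, s i ≤ s j → f i ≤ f j) : (opRec f s).comp s = f := by
  refine OrderHom.ext _ _ (funext fun i => le_antisymm ?_ ?_)
  · show (Finset.univ.filter (fun j => s j ≤ s i)).sup f ≤ f i
    refine Finset.sup_le fun j hj => h j i ?_
    exact (Finset.mem_filter.1 hj).2
  · show f i ≤ (Finset.univ.filter (fun j => s j ≤ s i)).sup f
    exact Finset.le_sup (f := f) (Finset.mem_filter.2 ⟨Finset.mem_univ _, le_rfl⟩)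

theorem IsSk.fst {M : ℕ} {K L : SS} {n : ℕ} {x : (K.prod L).S n} (h : IsSk M (K.prod L) x) :
    IsSk M K x.1 := h.map (SS.fst K L)

theorem IsSk.snd {M : ℕ} {K L : SS} {n : ℕ} {x : (K.prod L).S n} (h : IsSk M (K.prod L) x) :
    IsSk M L x.2 := h.map (SS.snd K L)

/-- skeleta of products -/
theorem IsSk.prod {M M' : ℕ} {K L : SS} {n : ℕ} {x : K.S n} {y : L.S n} (hx : IsSk M K x)
    (hy : IsSk M' L y) : IsSk (M + M') (K.prod L) (x, y) := by
  obtain ⟨p, hp, f, x, rfl⟩ := hx
  obtain ⟨q, hq, g, y, rfl⟩ := hy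
  have e1 : (opRec f (opAdd f g)).comp (opAdd f g) = f := opRec_comp f _ fun i j hij => by
    have h1 : (f i : ℕ) + (g i : ℕ) ≤ (f j : ℕ) + (g j : ℕ) := hij
    rcases le_total i j with h | h
    · exact f.monotone h
    · have h2 : (f j : ℕ) ≤ f i := f.monotone h
      have h3 : (g j : ℕ) ≤ g i := g.monotone h
      show (f i : ℕ) ≤ f j
      omega
  have e2 : (opRec g (opAdd f g)).comp (opAdd f g) = g := opRec_comp g _ fun i j hij => by
    have h1 : (f i : ℕ) + (g i : ℕ) ≤ (f j : ℕ) + (g j : ℕ) := hij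
    rcases le_total i j with h | h
    · exact g.monotone h
    · have h2 : (f j : ℕ) ≤ f i := f.monotone h
      have h3 : (g j : ℕ) ≤ g i := g.monotone h
      show (g i : ℕ) ≤ g j
      omega
  refine ⟨p + q, by omega, opAdd f g,
    (K.act (opRec f (opAdd f g)) x, L.act (opRec g (opAdd f g)) y), ?_⟩
  show (K.act f x, L.act g y) = (K.act (opAdd f g) (K.act (opRec f (opAdd f g)) x),
    L.act (opAdd f g) (L.act (opRec g (opAdd f g)) y))
  rw [← K.act_comp, ← L.act_comp, e1, e2]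

/-- a simplex of the skeleton is in the skeleton -/
theorem isSk_sk {M : ℕ} {K : SS} {n : ℕ} (x : (sk M K).S n) : IsSk M K x.1 := x.2

end SS

namespace CovT761

open Crest.Agent.R204.Cubes735 Crest.Agent.R204.Htpy761 SingAct265 SS

variable {B : SS} {Φ Ψ : Sys B} {A A' J : Type} {X Z : Type} [TopologicalSpace X]
  [TopologicalSpace Z] {z₀ : Z}

/-! ### isomorphisms of local systems -/

/-- isomorphism of local systems -/
structure Sys.Iso (Φ Ψ : Sys B) where
  s : ∀ (n : ℕ) (b : B.S n), Φ.F n b ≃ Ψ.F n b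
  nat : ∀ {m n : ℕ} (f : Op m n) (b : B.S n) (v : Φ.F n b),
    s m (B.act f b) (Φ.e f b v) = Ψ.e f b (s n b v)

theorem continuous_relabel {P F F' A : Type} [TopologicalSpace P] {c : P → BoxConf F A}
    (hc : Continuous c) (e : F' ≃ F) : Continuous fun p => (c p).relabel e :=
  BoxConf.continuous_mk (fun v j => (BoxConf.continuous_a (e v) j).comp hc)
    (fun v j => (BoxConf.continuous_r (e v) j).comp hc)

/-- transport of box families -/
def Bx.pull (φ : Sys.Iso Φ Ψ) (c : Bx Ψ A) : Bx Φ A where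
  c n b := ⟨fun t => (c.c n b t).relabel (φ.s n b), continuous_relabel (c.c n b).continuous _⟩
  nat {m n} f b t := by
    show ((c.c m (B.act f b) t).relabel (φ.s m (B.act f b))).relabel (Φ.e f b) =
      (c.c n b (stdSimplex.map f t)).relabel (φ.s n b)
    rw [← c.nat f b t]
    refine BoxConf.ext' (fun v j => ?_) (fun v j => ?_)
    · show (c.c m (B.act f b) t).a (φ.s m (B.act f b) (Φ.e f b v)) j =
        (c.c m (B.act f b) t).a (Ψ.e f b (φ.s n b v)) j
      rw [φ.nat]
    · show (c.c m (B.act f b) t).r (φ.s m (B.act f b) (Φ.e f b v)) j =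
        (c.c m (B.act f b) t).r (Ψ.e f b (φ.s n b v)) j
      rw [φ.nat]

/-- transport of labels -/
def Lb.pull (φ : Sys.Iso Φ Ψ) (l : Lb Ψ X) : Lb Φ X where
  l n b v := l.l n b (φ.s n b v)
  nat f b v t := by rw [φ.nat]; exact l.nat f b _ t

theorem Lb.pull_const (φ : Sys.Iso Φ Ψ) (x : X) : (Lb.const Ψ x).pull φ = Lb.const Φ x := rfl

theorem Bx.pull_extend (φ : Sys.Iso Φ Ψ) (c : Bx Ψ A) (k : A ↪ J) :
    (c.pull φ).extend k = (c.extend k).pull φ := rfl

theorem M_pull [Finite J] (φ : Sys.Iso Φ Ψ) (c : Bx Ψ J) (l : Lb Ψ (Ω^ J Z z₀)) :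
    M (c.pull φ) (l.pull φ) = M c l :=
  eq_M' _ _ _ fun n b t => by
    rw [ev_M]
    exact mu_relabel (c.c n b t) (φ.s n b) (fun v => l.l n b v t)

/-- independence of the boxes across isomorphic local systems -/
theorem M_H_eq_iso (hI : SpecA.HomotopyInv) (R : Type) [CommRing R] [Finite A] [Finite A']
    [Finite J] (ι : A ↪ J) (ι' : A' ↪ J) (h : 2 * Nat.card A + Nat.card A' ≤ Nat.card J)
    (φ : Sys.Iso Φ Ψ) (c : Bx Φ A) (c' : Bx Ψ A') (l : Lb Ψ (Ω^ J Z z₀)) :
    H.map R (M (c.extend ι) (l.pull φ)) = H.map R (M (c'.extend ι') l) := by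
  rw [M_H_eq hI R ι ι' h c (c'.pull φ) (l.pull φ), Bx.pull_extend, M_pull]

/-! ### the local system of threads -/

open Thr328 Fs348

variable {U W : Type}

/-- the local system of threads -/
def ofHom (g : Hom B (Tot U)) : Sys B where
  F n b := {a : Fin (n + 1) → U // a ∈ (g.app n b).1}
  fin n b := inferInstance
  e {m n} f b := Equiv.ofBijective (fun a => ⟨a.1 ∘ f, by
      rw [g.nat]; exact mem_re.2 ⟨a.1, a.2, rfl⟩⟩) (by
    constructor
    · intro a a' h
      exact Subtype.ext ((g.app n b).2.injOn f a.2 a'.2 (congrArg Subtype.val h))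
    · rintro ⟨a, ha⟩
      rw [g.nat] at ha
      obtain ⟨a', ha', rfl⟩ := mem_re.1 ha
      exact ⟨⟨a', ha'⟩, rfl⟩)

@[simp] theorem ofHom_e_val (g : Hom B (Tot U)) {m n : ℕ} (f : Op m n) (b : B.S n)
    (a : (ofHom g).F n b) : ((ofHom g).e f b a).1 = a.1 ∘ f := rfl

/-- real labels of threads -/
def rlOf (lab : U ↪ ℝ) {M : ℕ} (g : Hom B (Tot U)) (hg : ∀ n b, IsSk M (Tot U) (g.app n b)) :
    Rl (ofHom g) M where
  w n b a i := lab (a.1 i)
  nat f b a := rfl
  sep n b := by
    obtain ⟨p, hp, f, y, hy⟩ := hg n b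
    have key : ∀ a : (ofHom g).F n b, ∃ c ∈ y.1, c ∘ f = a.1 := by
      intro a
      have h1 : a.1 ∈ ((Tot U).act f y).1 := hy ▸ a.2
      exact mem_re.1 h1
    choose c hc hca using key
    refine ⟨p, hp, f, fun a i => lab (c a i), fun a => ?_, fun a a' h k hk => h ?_⟩
    · funext i
      show lab (a.1 i) = lab (c a (f i))
      rw [← hca a]; rfl
    · have h1 : c a = c a' := y.2 k (hc a) (hc a') (lab.injective hk)
      exact Subtype.ext (by rw [← hca a, ← hca a', h1])

/-- the cover transfer of a family of sets of threads, with constant label `x₀` -/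
def kapG [Finite J] (lab : U ↪ ℝ) {M : ℕ} (k : Fin (M + 1) ↪ J) (x₀ : Ω^ J Z z₀)
    (g : Hom B (Tot U)) (hg : ∀ n b, IsSk M (Tot U) (g.app n b)) :
    Hom B (Sing (Ω^ J Z z₀)) :=
  CovT761.M ((rlOf lab g hg).bx.extend k) (Lb.const _ x₀)

/-- `κ` on the `M`-skeleton of `Tot U` -/
def kap [Finite J] (lab : U ↪ ℝ) (M : ℕ) (k : Fin (M + 1) ↪ J) (x₀ : Ω^ J Z z₀) :
    Hom (sk M (Tot U)) (Sing (Ω^ J Z z₀)) :=
  kapG lab k x₀ (skIncl M (Tot U)) (fun _ b => b.2)

/-- restriction to the skeleton -/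
def skLift {M : ℕ} (g : Hom B (Tot U)) (hg : ∀ n b, IsSk M (Tot U) (g.app n b)) :
    Hom B (sk M (Tot U)) := ⟨fun n b => ⟨g.app n b, hg n b⟩, fun f b => Subtype.ext (g.nat f b)⟩

theorem kapG_eq [Finite J] (lab : U ↪ ℝ) {M : ℕ} (k : Fin (M + 1) ↪ J) (x₀ : Ω^ J Z z₀)
    (g : Hom B (Tot U)) (hg : ∀ n b, IsSk M (Tot U) (g.app n b)) :
    kapG lab k x₀ g hg = (kap lab M k x₀).comp (skLift g hg) := rfl

theorem kapG_comp [Finite J] (lab : U ↪ ℝ) {M : ℕ} (k : Fin (M + 1) ↪ J) (x₀ : Ω^ J Z z₀)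
    (g : Hom B (Tot U)) (hg : ∀ n b, IsSk M (Tot U) (g.app n b)) {C : SS} (f : Hom C B) :
    (kapG lab k x₀ g hg).comp f = kapG lab k x₀ (g.comp f) (fun n b => hg n (f.app n b)) := rfl

end CovT761

end Crest.Agent.R204
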