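import Crest.Agent.R204.Defs

/-!
# Row 204, block B: abstract filtered complexes with leading terms (captain B, helper170)

`LeadCx` = a filtered `F2`-complex (`F n P` = total degree `n`, horizontal degree `< P`) together with an
elementwise form of its `E¹`-term: for `z ∈ F n (P+1)` with `d z ∈ F (n-1) P` a leading class
`lead n P z ∈ E P`, such that
* (L1) `lead z = 0` iff `z ∈ F n P + d (F (n+1) (P+1))`;
* (L2) `lead` is onto `Eg P q` (`n = q + P`);
* (L3) `lead (d z) = dE (lead z)`.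

`BrPkg` adds the identification of `E P` with the `P`-fold tensor power of `A / F2·1` (universal multilinear
brackets `br P`), `BarPkg` the formula for `dE` on brackets (bar differential).
-/

set_option autoImplicit false

namespace Crest.Agent.R204.Bar170

open Crest.Agent.R204

/-- Filtered complex with leading terms. -/
structure LeadCx where
  T : Type
  [acgT : AddCommGroup T]
  [modT : Module F2 T]
  d : T →ₗ[F2] T
  /-- elements of total degree `n` and horizontal degree `< P` -/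
  F : ℕ → ℕ → Submodule F2 T
  E : ℕ → Type
  [acgE : ∀ P, AddCommGroup (E P)]
  [modE : ∀ P, Module F2 (E P)]
  /-- internal degree `q` part of `E P` -/
  Eg : ∀ P : ℕ, ℕ → Submodule F2 (E P)
  /-- `d¹` -/
  dE : ∀ P, E (P + 1) →ₗ[F2] E P
  /-- leading class of `z ∈ F n (P+1)` with `d z ∈ F (n-1) P` -/
  lead : ∀ n P : ℕ, ↥(F n (P + 1) ⊓ (F (n - 1) P).comap d) →ₗ[F2] E P
  dd : ∀ x, d (d x) = 0
  F_zero : ∀ n, F n 0 = ⊥
  F_mono : ∀ n P, F n P ≤ F n (P + 1)
  F_top : ∀ n P, F n P ≤ F n (n + 1)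
  d_mem : ∀ n P x, x ∈ F (n + 1) P → d x ∈ F n P
  d_zero : ∀ P x, x ∈ F 0 P → d x = 0
  /-- (L1) -/
  lead_eq_zero : ∀ n P z, lead n P z = 0 →
    ∃ η ∈ F (n + 1) (P + 1), (z : T) - d η ∈ F n P
  /-- (L1') lower filtration has leading class `0` -/
  lead_of_lower : ∀ n P (z : T) (hz : z ∈ F n (P + 1) ⊓ (F (n - 1) P).comap d), z ∈ F n P →
    lead n P ⟨z, hz⟩ = 0
  /-- (L1'') boundaries from the same filtration have leading class `0` -/
  lead_of_bd : ∀ n P (η : T) (hz : d η ∈ F n (P + 1) ⊓ (F (n - 1) P).comap d), η ∈ F (n + 1) (P + 1) →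
    lead n P ⟨d η, hz⟩ = 0
  /-- (L2) onto -/
  lead_onto : ∀ q P (e : E P), e ∈ Eg P q → ∃ z, lead (q + P) P z = e
  /-- (L2') degree -/
  lead_mem : ∀ q P z, lead (q + P) P z ∈ Eg P q
  /-- (L3) -/
  lead_d : ∀ n P (z : T) (hz : z ∈ F (n + 1) (P + 2) ⊓ (F (n + 1 - 1) (P + 1)).comap d)
    (hdz : d z ∈ F n (P + 1) ⊓ (F (n - 1) P).comap d),
    lead n P ⟨d z, hdz⟩ = dE P (lead (n + 1) (P + 1) ⟨z, hz⟩)

attribute [instance] LeadCx.acgT LeadCx.modT LeadCx.acgE LeadCx.modE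

/-- `E P` identified with `(A / F2·one)^{⊗ P}` through brackets. `𝒜` = grading of `A`. -/
structure BrPkg (A : Type) [AddCommGroup A] [Module F2 A] (𝒜 : ℕ → Submodule F2 A) (one : A)
    extends LeadCx where
  br : ∀ P, MultilinearMap F2 (fun _ : Fin P => A) (E P)
  br_one : ∀ P (a : Fin P → A) (i : Fin P), a i = one → br P a = 0
  br_mem : ∀ P (a : Fin P → A) (e : Fin P → ℕ), (∀ i, a i ∈ 𝒜 (e i)) → br P a ∈ Eg P (∑ i, e i)
  /-- for EVERY basis containing `one`, the words in the other basis elements form a basis of `E P` -/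
  br_indep : ∀ {κ : Type} (b : Module.Basis κ F2 A) (k0 : κ), b k0 = one → ∀ P,
    LinearIndependent F2 (fun w : Fin P → {k : κ // k ≠ k0} => br P (fun i => b (w i)))
  br_span : ∀ {κ : Type} (b : Module.Basis κ F2 A) (k0 : κ), b k0 = one → ∀ P,
    Submodule.span F2 (Set.range (fun w : Fin P → {k : κ // k ≠ k0} => br P (fun i => b (w i)))) = ⊤

/-- bar construction: `A` a graded algebra; the differential `dE` is the bar differential on brackets of
elements of positive degree. -/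
structure BarPkg (A : Type) [Ring A] [Algebra F2 A] (𝒜 : ℕ → Submodule F2 A)
    extends BrPkg A 𝒜 (1 : A) where
  dE_br : ∀ P (a : Fin (P + 1) → A), (∀ i, ∃ e, 0 < e ∧ a i ∈ 𝒜 e) →
    dE P (br (P + 1) a) = ∑ i : Fin P, br P (Fin.contractNth i.castSucc (· * ·) a)

/-- Sum over all orderings of a finite set `S` of the bracket of the corresponding elements. -/
noncomputable def antisym {A : Type} [AddCommGroup A] [Module F2 A] {𝒜 : ℕ → Submodule F2 A} {one : A}
    (X : BrPkg A 𝒜 one) {ι : Type} (v : ι → A) (S : Finset ι) : X.E S.card :=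
  open Classical in ∑ e : Fin S.card ≃ S, X.br S.card (fun i => v (e i))

/-- **(B.K2) RANGE LOOP THEOREM, abstract form (owner helper334).** -/
def K2 : Prop :=
  ∀ (A : Type) [CommRing A] [Algebra F2 A] [Nontrivial A] (𝒜 : ℕ → Submodule F2 A) [GradedAlgebra 𝒜]
    (_h0 : ∀ a ∈ 𝒜 0, ∃ c : F2, a = algebraMap F2 A c) (X : BarPkg A 𝒜)
    (ι : Type) (deg : ι → ℕ) (_hdeg : ∀ i, 0 < deg i) (v : ι → A) (_hv : ∀ i, v i ∈ 𝒜 (deg i))
    (Ψ : Finset ι → X.T)
    (hΨ : ∀ S, Ψ S ∈ X.F (∑ i ∈ S, (deg i + 1)) (S.card + 1) ⊓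
      (X.F (∑ i ∈ S, (deg i + 1) - 1) S.card).comap X.d)
    (_hΨd : ∀ S, X.d (Ψ S) = 0)
    (_hlead : ∀ S, X.lead (∑ i ∈ S, (deg i + 1)) S.card ⟨Ψ S, hΨ S⟩ = antisym X.toBrPkg v S)
    (N : ℕ)
    (_hind : ∀ n ≤ N, ∀ c : Finset ι →₀ F2, (∀ S ∈ c.support, ∑ i ∈ S, (deg i + 1) = n) →
      (∃ η ∈ X.F (n + 1) (n + 2), c.sum (fun S r => r • Ψ S) = X.d η) → c = 0)
    (_hspan : ∀ n ≤ N + 1, ∀ z ∈ X.F n (n + 1), X.d z = 0 →
      ∃ c : Finset ι →₀ F2, (∀ S ∈ c.support, ∑ i ∈ S, (deg i + 1) = n) ∧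
        ∃ η ∈ X.F (n + 1) (n + 2), z = c.sum (fun S r => r • Ψ S) + X.d η),
    (∀ t, t + 1 ≤ N → ∀ p : MvPolynomial ι F2, MvPolynomial.IsWeightedHomogeneous deg p t →
      MvPolynomial.aeval v p = 0 → p = 0) ∧
    (∀ t, t ≤ N → ∀ a ∈ 𝒜 t, ∃ p : MvPolynomial ι F2, MvPolynomial.IsWeightedHomogeneous deg p t ∧
      MvPolynomial.aeval v p = a)

end Crest.Agent.R204.Bar170
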