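import Crest.Agent.R204.LineT_357

/-!
# Row 204, block H: the class `b_T` (helper357), part 2
-/

set_option autoImplicit false
set_option linter.unusedSectionVars false
set_option linter.unusedSimpArgs false

open Matrix Topology
open scoped unitInterval Kronecker
open Crest.Agent.R204.K357 Crest.Agent.R204.BottLoop313 Crest.Agent.R204.Clutch369

namespace Crest.Agent.R204.LineT357

noncomputable section

section line

variable {A : Type*} [NormedCommRing A] [NormedAlgebra ℂ A]
variable {n m k l : Type*} [Fintype n] [DecidableEq n] [Fintype m] [DecidableEq m]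
  [Fintype k] [DecidableEq k] [Fintype l] [DecidableEq l]

/-- a unit as a `1 × 1` matrix -/
def mu (u : Aˣ) : (Matrix Unit Unit A)ˣ where
  val := u.val • 1
  inv := u.inv • 1
  val_inv := by simp [smul_smul, u.val_inv, u.inv_val]
  inv_val := by simp [smul_smul, u.val_inv, u.inv_val]

theorem mu_val (u : Aˣ) : (mu u : Matrix Unit Unit A) = (u : A) • 1 := rfl

theorem mu_mul (u v : Aˣ) : mu (u * v) = mu u * mu v := by
  ext i j
  simp [mu_val, Units.val_mul, smul_smul]
  ring

/-- an idempotent clutched by a `1 × 1` unit is a line -/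
theorem IsCl.isLine {e : Matrix k k (LA A)} {g : Matrix Unit Unit A} (H : IsCl e g) :
    IsLine e := by
  obtain ⟨a, b, -, -, hab, -, -⟩ := H
  have key : ∀ s i j, (e i j).fn s = a s i () * b s () j := by
    intro s i j
    have := congrFun (congrFun (hab s) i) j
    rw [Matrix.mul_apply] at this
    simpa using this.symm
  intro i j k' l'
  refine LA.ext fun s => ?_
  change (e i j).fn s * (e k' l').fn s = (e i l').fn s * (e k' j).fn s
  rw [key, key, key, key]
  ring

/-- tensor product of lines -/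
theorem EL_mu_kron (u v : Aˣ) : IsCl (EL (mu u) ⊗ₖ EL (mu v)) ((mu (u * v) : (Matrix Unit Unit A)ˣ) :
    Matrix Unit Unit A) := by
  have h := (isCl_EL (mu u)).kron (isCl_EL (mu v))
  have h2 := h.conj (m := Unit) (Matrix.of fun _ _ => (1 : A)) (Matrix.of fun _ _ => (1 : A))
    (by ext ⟨i, i'⟩ ⟨j, j'⟩; simp [Matrix.mul_apply]) (by ext i j; simp [Matrix.mul_apply])
  convert h2 using 1
  ext i j
  simp [mu_val, Matrix.mul_apply, Units.val_mul]

theorem cls_EL_mu (u : Aˣ) : K0.cls (EL (mu u)) = dL (mu u) + 1 := by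
  rw [(isCl_EL (mu u)).cls]
  simp

/-- products of line classes vanish -/
theorem dL_mu_mul (u v : Aˣ) : dL (mu u) * dL (mu v) = 0 := by
  have h1 : K0.cls (EL (mu u)) * K0.cls (EL (mu v)) = dL (mu (u * v)) + 1 := by
    rw [← K0.cls_kron (EL_idem _) (EL_idem _), (EL_mu_kron u v).cls]
    simp
  rw [mu_mul, dL_mul, cls_EL_mu, cls_EL_mu] at h1
  have h2 : dL (mu u) * dL (mu v) = (dL (mu u) + 1) * (dL (mu v) + 1) -
    (dL (mu u) + dL (mu v) + 1) := by ring
  rw [h2, h1, sub_self]

theorem psi_dL_mu {p : ℕ} [Fact p.Prime] (u : Aˣ) : psi p (LA A) (dL (mu u)) = p * dL (mu u) := by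
  have h := psi_line_sub_one (p := p) (A := LA A) (EL_idem (mu u)) (isCl_EL (mu u)).isLine
    (by rw [cls_EL_mu]; simpa using dL_mu_mul u u)
  rw [cls_EL_mu] at h
  simpa using h

/-- naturality of clutching -/
theorem IsCl.map {B : Type*} [NormedCommRing B] [NormedAlgebra ℂ B] (φ : A →ₐ[ℂ] B)
    (hφ : Continuous φ) {e : Matrix k k (LA A)} {g : Matrix n n A} (H : IsCl e g) :
    IsCl (e.map (LA.map φ hφ)) (g.map φ) := by
  obtain ⟨a, b, ca, cb, hab, hba, h1⟩ := H
  refine ⟨fun s => (a s).map φ, fun s => (b s).map φ, ?_, ?_, fun s => ?_, fun s => ?_, ?_⟩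
  · exact continuous_matrix fun i j => hφ.comp (ca.matrix_elem i j)
  · exact continuous_matrix fun i j => hφ.comp (cb.matrix_elem i j)
  · have : ((e.map (LA.map φ hφ)).map (LA.ev s)) = (e.map (LA.ev s)).map φ := rfl
    rw [this, ← hab]
    ext i j
    rw [Matrix.map_apply, Matrix.mul_apply, Matrix.mul_apply, map_sum]
    exact Finset.sum_congr rfl fun _ _ => (map_mul φ _ _).symm
  · have h2 : (b s * a s).map φ = (b s).map φ * (a s).map φ := by
      ext i j
      rw [Matrix.map_apply, Matrix.mul_apply, Matrix.mul_apply, map_sum]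
      exact Finset.sum_congr rfl fun _ _ => map_mul _ _ _
    rw [← h2, hba]
    exact Matrix.map_one _ (map_zero _) (map_one _)
  · change (a 1).map φ = (a 0).map φ * g.map φ
    rw [h1]
    ext i j
    rw [Matrix.map_apply, Matrix.mul_apply, Matrix.mul_apply, map_sum]
    exact Finset.sum_congr rfl fun _ _ => map_mul _ _ _

/-- image of a unit matrix -/
def umap {B : Type*} [NormedCommRing B] [NormedAlgebra ℂ B] (φ : A →ₐ[ℂ] B)
    (g : (Matrix n n A)ˣ) : (Matrix n n B)ˣ where
  val := g.val.map φ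
  inv := g.inv.map φ
  val_inv := by
    have : (g.val * g.inv).map φ = g.val.map φ * g.inv.map φ :=
      Matrix.map_mul (f := (φ : A →+* B))
    rw [← this, g.val_inv]
    exact Matrix.map_one _ (map_zero _) (map_one _)
  inv_val := by
    have : (g.inv * g.val).map φ = g.inv.map φ * g.val.map φ :=
      Matrix.map_mul (f := (φ : A →+* B))
    rw [← this, g.inv_val]
    exact Matrix.map_one _ (map_zero _) (map_one _)

theorem map_dL {B : Type*} [NormedCommRing B] [NormedAlgebra ℂ B] (φ : A →ₐ[ℂ] B)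
    (hφ : Continuous φ) (g : (Matrix n n A)ˣ) :
    K0.map ((LA.map φ hφ : LA A →ₐ[ℂ] LA B) : LA A →+* LA B) (dL g) = dL (umap φ g) := by
  have h1 : IsCl ((EL g).map (LA.map φ hφ)) ((umap φ g : (Matrix n n B)ˣ) : Matrix n n B) :=
    (isCl_EL g).map φ hφ
  have h2 := h1.cls
  have h3 : K0.map ((LA.map φ hφ : LA A →ₐ[ℂ] LA B) : LA A →+* LA B) (K0.cls (EL g)) =
      K0.cls ((EL g).map (LA.map φ hφ)) := K0.map_cls _ (EL_idem g)
  rw [dL, map_sub, h3, h2, K0.cls_one, ← K0.mapRing_apply, map_natCast]
  ring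

/-! ### the clutching of `u q + (1 - q)` -/

theorem mulR {p : Type*} (Q : Matrix n n A) (α : k → A) (M : Matrix n p A) :
    (Matrix.of fun (i : n × k) (j : n) => Q i.1 j * α i.2) * M =
      Matrix.of fun i j => (Q * M) i.1 j * α i.2 := by
  ext i j
  rw [Matrix.mul_apply, Matrix.of_apply, Matrix.mul_apply, Finset.sum_mul]
  refine Finset.sum_congr rfl fun x _ => ?_
  simp only [Matrix.of_apply]
  ring

theorem mulC {p : Type*} (Q : Matrix n n A) (β : k → A) (M : Matrix p n A) :
    M * (Matrix.of fun (i : n) (j : n × k) => Q i j.1 * β j.2) =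
      Matrix.of fun i j => (M * Q) i j.1 * β j.2 := by
  ext i j
  rw [Matrix.mul_apply, Matrix.of_apply, Matrix.mul_apply, Finset.sum_mul]
  refine Finset.sum_congr rfl fun x _ => ?_
  simp only [Matrix.of_apply]
  ring

@[simp] theorem LA.fn_one (t : I) : (1 : LA A).fn t = 1 := rfl
@[simp] theorem LA.fn_zero (t : I) : (0 : LA A).fn t = 0 := rfl

theorem isCl_lam {q : Matrix n n A} (hq : q * q = q) (u : Aˣ) {f : Matrix k k (LA A)}
    (H : IsCl f (mu u : Matrix Unit Unit A)) :
    IsCl (fromBlocks (q.map (LA.cst (A := A)) ⊗ₖ f) 0 0 (1 - q.map (LA.cst (A := A))))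
      ((u : A) • q + (1 - q)) := by
  obtain ⟨a, b, ca, cb, hab, hba, h1⟩ := H
  have hqc : (1 - q) * q = 0 := by rw [Matrix.sub_mul, Matrix.one_mul, hq, sub_self]
  have hcq : q * (1 - q) = 0 := by rw [Matrix.mul_sub, Matrix.mul_one, hq, sub_self]
  have hcc : (1 - q) * (1 - q) = 1 - q := by rw [Matrix.mul_sub, hqc, Matrix.mul_one, sub_zero]
  -- auxiliary matrices
  let R : I → Matrix (n × k) n A := fun s => Matrix.of fun i j => q i.1 j * a s i.2 ()
  let C : I → Matrix n (n × k) A := fun s => Matrix.of fun i j => q i j.1 * b s () j.2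
  have hRm : ∀ s (M : Matrix n n A), R s * M =
      Matrix.of fun i j => (q * M) i.1 j * a s i.2 () := fun s M =>
    mulR q (fun x => a s x ()) M
  have hRm2 : ∀ s (M : Matrix n (n × k) A), R s * M =
      Matrix.of fun i j => (q * M) i.1 j * a s i.2 () := fun s M =>
    mulR q (fun x => a s x ()) M
  have hmC : ∀ s (M : Matrix n n A), M * C s =
      Matrix.of fun i j => (M * q) i j.1 * b s () j.2 := fun s M =>
    mulC q (fun y => b s () y) M
  have hba1 : ∀ s, ∑ x, b s () x * a s x () = 1 := by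
    intro s
    have := congrFun (congrFun (hba s) ()) ()
    rw [Matrix.mul_apply] at this
    simpa using this
  have hCR : ∀ s, C s * R s = q := by
    intro s
    ext i j
    rw [Matrix.mul_apply, Fintype.sum_prod_type]
    simp only [R, C, Matrix.of_apply]
    have : ∀ x, ∑ y, q i x * b s () y * (q x j * a s y ()) = q i x * q x j := by
      intro x
      have : ∀ y, q i x * b s () y * (q x j * a s y ()) = q i x * q x j * (b s () y * a s y ()) := by
        intro y; ring
      rw [Finset.sum_congr rfl fun y _ => this y, ← Finset.mul_sum, hba1, mul_one]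
    rw [Finset.sum_congr rfl fun x _ => this x, ← Matrix.mul_apply, hq]
  have hRC : ∀ s, R s * C s = (q.map (LA.cst (A := A)) ⊗ₖ f).map (LA.ev s) := by
    intro s
    ext ⟨i, x⟩ ⟨j, y⟩
    rw [hRm2, Matrix.of_apply, hmC, Matrix.of_apply, hq]
    have h2 := congrFun (congrFun (hab s) x) y
    rw [Matrix.mul_apply] at h2
    have h3 : a s x () * b s () y = (f x y).fn s := by simpa using h2
    change q i j * b s () y * a s x () = q i j * (f x y).fn s
    rw [← h3]
    ring
  refine ⟨fun s => fromRows (R s) (1 - q), fun s => fromCols (C s) (1 - q), ?_, ?_, fun s => ?_,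
    fun s => ?_, ?_⟩
  · refine continuous_matrix fun i j => ?_
    rcases i with i | i
    · simp only [fromRows_apply_inl, R, Matrix.of_apply]
      exact continuous_const.mul (ca.matrix_elem _ _)
    · simp only [fromRows_apply_inr]
      exact continuous_const
  · refine continuous_matrix fun i j => ?_
    rcases j with j | j
    · simp only [fromCols_apply_inl, C, Matrix.of_apply]
      exact continuous_const.mul (cb.matrix_elem _ _)
    · simp only [fromCols_apply_inr]
      exact continuous_const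
  · rw [fromRows_mul_fromCols, evL_fb, hRC]
    have e1 : R s * (1 - q) = 0 := by
      rw [hRm, hcq]
      ext i j
      simp
    have e2 : (1 - q) * C s = 0 := by
      rw [hmC, hqc]
      ext i j
      simp
    have e3 : (1 - q.map (LA.cst (A := A))).map (LA.ev s) = 1 - q := by
      ext i j
      rw [Matrix.map_apply, Matrix.sub_apply, Matrix.sub_apply, map_sub]
      congr 1
      by_cases h : i = j
      · subst h; simp
      · simp [Matrix.one_apply_ne h]
    rw [e1, e2, e3, hcc]
  · rw [fromCols_mul_fromRows, hCR, hcc]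
    abel
  · change fromRows (R 1) (1 - q) = fromRows (R 0) (1 - q) * ((u : A) • q + (1 - q))
    rw [fromRows_mul, hRm]
    congr 1
    · ext ⟨i, x⟩ j
      simp only [R, Matrix.of_apply]
      rw [Matrix.mul_add, Matrix.mul_smul, hq, hcq, add_zero, Matrix.smul_apply]
      have h2 := congrFun (congrFun h1 x) ()
      rw [Matrix.mul_apply] at h2
      have h3 : a 1 x () = a 0 x () * (u : A) := by simpa [mu_val] using h2
      rw [h3, smul_eq_mul]
      ring
    · rw [Matrix.mul_add, Matrix.mul_smul, hqc, smul_zero, zero_add, hcc]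

/-- the unit `u q + (1 - q)` -/
def lam {q : Matrix n n A} (hq : q * q = q) (u : Aˣ) : (Matrix n n A)ˣ where
  val := (u : A) • q + (1 - q)
  inv := (u.inv) • q + (1 - q)
  val_inv := by
    have hqc : (1 - q) * q = 0 := by rw [Matrix.sub_mul, Matrix.one_mul, hq, sub_self]
    have hcq : q * (1 - q) = 0 := by rw [Matrix.mul_sub, Matrix.mul_one, hq, sub_self]
    have hcc : (1 - q) * (1 - q) = 1 - q := by rw [Matrix.mul_sub, hqc, Matrix.mul_one, sub_zero]
    rw [Matrix.add_mul, Matrix.mul_add, Matrix.mul_add, Matrix.smul_mul, Matrix.smul_mul,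
      Matrix.mul_smul, Matrix.mul_smul, hq, hqc, hcq, hcc, smul_smul, u.val_inv]
    simp
  inv_val := by
    have hqc : (1 - q) * q = 0 := by rw [Matrix.sub_mul, Matrix.one_mul, hq, sub_self]
    have hcq : q * (1 - q) = 0 := by rw [Matrix.mul_sub, Matrix.mul_one, hq, sub_self]
    have hcc : (1 - q) * (1 - q) = 1 - q := by rw [Matrix.mul_sub, hqc, Matrix.mul_one, sub_zero]
    rw [Matrix.add_mul, Matrix.mul_add, Matrix.mul_add, Matrix.smul_mul, Matrix.smul_mul,
      Matrix.mul_smul, Matrix.mul_smul, hq, hqc, hcq, hcc, smul_smul, u.inv_val]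
    simp

theorem dL_lam {q : Matrix n n A} (hq : q * q = q) (u : Aˣ) :
    dL (lam hq u) = K0.map ((LA.cst : A →ₐ[ℂ] LA A) : A →+* LA A) (K0.cls q) * dL (mu u) := by
  have hq' : q.map (LA.cst (A := A)) * q.map (LA.cst (A := A)) = q.map (LA.cst (A := A)) :=
    idem_map ((LA.cst : A →ₐ[ℂ] LA A) : A →+* LA A) hq
  have h1 : IsCl (fromBlocks (q.map (LA.cst (A := A)) ⊗ₖ EL (mu u)) 0 0
      (1 - q.map (LA.cst (A := A)))) ((lam hq u : (Matrix n n A)ˣ) : Matrix n n A) :=
    isCl_lam hq u (isCl_EL (mu u))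
  have h2 := h1.cls
  rw [K0.cls_sum (idem_kron hq' (EL_idem _)) (K0.idem_compl hq'), K0.cls_kron hq' (EL_idem _),
    cls_EL_mu] at h2
  have h3 := K0.cls_compl hq'
  rw [K0.cls_one] at h3
  have h4 : K0.map ((LA.cst : A →ₐ[ℂ] LA A) : A →+* LA A) (K0.cls q) =
      K0.cls (q.map (LA.cst (A := A))) := K0.map_cls _ hq
  rw [h4]
  have h5 : dL (lam hq u) = (dL (lam hq u) + Fintype.card n) - Fintype.card n := by ring
  rw [h5, ← h2, ← h3]
  ring

end line

end

end Crest.Agent.R204.LineT357
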