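import Crest.Agent.R204.Clutch3_369
import Crest.Agent.R204.BottLoop_313
import Crest.Agent.R204.PsiD_357

/-!
# Row 204, block H: clutching over free loops, the class `b_T` (helper357)

`A` a commutative complex normed algebra, `LA A` = free loops (313's `LoopAlg A` with frozen
instances, so that `K0 (LA (LA A))` is a commutative ring with Adams operations).

* `IsCl e g`   : the idempotent `e` over `LA A` is clutched by the unit `g` over `A`.
* `IsCl.mvn`   : uniqueness.
* `EL g`, `dL g = [EL g] - [1]` : the clutching idempotent and class; `dL_mul`, `dL_sum`,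
  `dL_homotopy`.
* `bT A = dL z ∈ K0 (LA (LA A))`; `bT_sq : bT * bT = 0`, `psi_bT : psi p bT = p * bT`.
* `dL_Lam : dL (z p + 1 - p) = cls p * bT`.
* `map_incl1_d`, `map_incl2_d` : compatibility with 369's reduced clutching `d`.
-/

set_option autoImplicit false
set_option linter.unusedSectionVars false
set_option linter.unusedSimpArgs false

open Matrix Topology
open scoped unitInterval Kronecker
open Crest.Agent.R204.K357 Crest.Agent.R204.BottLoop313 Crest.Agent.R204.Clutch369

namespace Crest.Agent.R204.LineT357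

noncomputable section

section defs

variable (A : Type*) [NormedCommRing A] [NormedAlgebra ℂ A]

/-- free loops, with frozen instances -/
def LA : Type _ := LoopAlg A

instance : NormedCommRing (LA A) := inferInstanceAs (NormedCommRing (LoopAlg A))
instance : NormedAlgebra ℂ (LA A) := inferInstanceAs (NormedAlgebra ℂ (LoopAlg A))
instance [CompleteSpace A] : CompleteSpace (LA A) := inferInstanceAs (CompleteSpace (LoopAlg A))

variable {A}

/-- the underlying path -/
def LA.fn (a : LA A) : C(I, A) := Subtype.val a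

theorem LA.fn01 (a : LA A) : a.fn 0 = a.fn 1 := Subtype.property a

/-- constructor -/
def LA.mk (f : C(I, A)) (h : f 0 = f 1) : LA A := ⟨f, h⟩

@[simp] theorem LA.mk_fn (f : C(I, A)) (h : f 0 = f 1) : (LA.mk f h).fn = f := rfl

theorem LA.ext {a b : LA A} (h : ∀ t, a.fn t = b.fn t) : a = b :=
  Subtype.ext (ContinuousMap.ext h)

/-- evaluation -/
def LA.ev (t : I) : LA A →ₐ[ℂ] A where
  toFun a := a.fn t
  map_one' := rfl
  map_mul' _ _ := rfl
  map_zero' := rfl
  map_add' _ _ := rfl
  commutes' _ := rfl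

@[simp] theorem LA.ev_apply (t : I) (a : LA A) : LA.ev t a = a.fn t := rfl

theorem LA.continuous_fn : Continuous (LA.fn : LA A → C(I, A)) := continuous_subtype_val

theorem LA.continuous_ev (t : I) : Continuous (LA.ev t : LA A → A) :=
  (continuous_eval_const t).comp LA.continuous_fn

/-- constant loops -/
def LA.cst : A →ₐ[ℂ] LA A where
  toFun a := LA.mk (ContinuousMap.const I a) rfl
  map_one' := rfl
  map_mul' _ _ := rfl
  map_zero' := rfl
  map_add' _ _ := rfl
  commutes' _ := rfl

@[simp] theorem LA.cst_fn (a : A) (t : I) : (LA.cst a).fn t = a := rfl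

variable {B : Type*} [NormedCommRing B] [NormedAlgebra ℂ B]

/-- functoriality of free loops -/
def LA.map (φ : A →ₐ[ℂ] B) (hφ : Continuous φ) : LA A →ₐ[ℂ] LA B where
  toFun a := LA.mk ⟨fun t => φ (a.fn t), hφ.comp a.fn.continuous⟩ (by
    change φ (a.fn 0) = φ (a.fn 1)
    rw [a.fn01])
  map_one' := LA.ext fun t => map_one φ
  map_mul' a b := LA.ext fun t => map_mul φ (a.fn t) (b.fn t)
  map_zero' := LA.ext fun t => map_zero φ
  map_add' a b := LA.ext fun t => map_add φ (a.fn t) (b.fn t)
  commutes' r := LA.ext fun t => AlgHomClass.commutes φ r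

@[simp] theorem LA.map_fn (φ : A →ₐ[ℂ] B) (hφ : Continuous φ) (a : LA A) (t : I) :
    (LA.map φ hφ a).fn t = φ (a.fn t) := rfl

theorem LA.continuous_map (φ : A →ₐ[ℂ] B) (hφ : Continuous φ) :
    Continuous (LA.map φ hφ) := by
  have h : Continuous fun a : LA A => (⟨φ, hφ⟩ : C(A, B)).comp a.fn :=
    (ContinuousMap.continuous_postcomp (⟨φ, hφ⟩ : C(A, B))).comp LA.continuous_fn
  exact Continuous.subtype_mk h _

end defs

section mat

variable {A : Type*} [NormedCommRing A] [NormedAlgebra ℂ A]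
variable {n m k l : Type*}

/-- matrices over `LA A` from loops of matrices -/
def mkL (F : I → Matrix n m A) (hF : Continuous F) (h : F 0 = F 1) : Matrix n m (LA A) :=
  fun i j => LA.mk ⟨fun t => F t i j, hF.matrix_elem i j⟩ (by
    change F 0 i j = F 1 i j
    rw [h])

@[simp] theorem mkL_ev (F : I → Matrix n m A) (hF : Continuous F) (h : F 0 = F 1) (t : I) :
    (mkL F hF h).map (LA.ev t) = F t := rfl

theorem matL_ext {M N : Matrix n m (LA A)} (h : ∀ t, M.map (LA.ev t) = N.map (LA.ev t)) :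
    M = N := by
  ext i j
  exact LA.ext fun t => congrFun (congrFun (h t) i) j

theorem matL_continuous (M : Matrix n m (LA A)) : Continuous fun t => M.map (LA.ev t) := by
  refine continuous_matrix fun i j => ?_
  exact (M i j).fn.continuous

theorem matL_01 (M : Matrix n m (LA A)) : M.map (LA.ev 0) = M.map (LA.ev 1) := by
  ext i j
  exact (M i j).fn01

theorem evL_mul {p : Type*} [Fintype m] (t : I) (M : Matrix n m (LA A)) (N : Matrix m p (LA A)) :
    (M * N).map (LA.ev t) = M.map (LA.ev t) * N.map (LA.ev t) := by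
  ext i j
  rw [Matrix.map_apply, Matrix.mul_apply, Matrix.mul_apply, map_sum]
  exact Finset.sum_congr rfl fun _ _ => map_mul _ _ _

theorem evL_fb {p q : Type*} (t : I) (a : Matrix n m (LA A)) (b : Matrix p q (LA A)) :
    (fromBlocks a 0 0 b).map (LA.ev t) =
      fromBlocks (a.map (LA.ev t)) 0 0 (b.map (LA.ev t)) := by
  rw [fromBlocks_map]
  congr 1

theorem evL_one [DecidableEq n] (t : I) : (1 : Matrix n n (LA A)).map (LA.ev t) = 1 :=
  Matrix.map_one _ (map_zero _) (map_one _)

variable [Fintype n] [DecidableEq n] [Fintype m] [DecidableEq m]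
  [Fintype k] [DecidableEq k] [Fintype l] [DecidableEq l]

/-- Murray-von Neumann equivalence over `LA A` from loops of matrices -/
theorem mvnL_of_paths {e : Matrix k k (LA A)} {f : Matrix l l (LA A)} (x : I → Matrix k l A)
    (y : I → Matrix l k A) (hx : Continuous x) (hy : Continuous y) (x01 : x 0 = x 1)
    (y01 : y 0 = y 1) (xy : ∀ t, x t * y t = e.map (LA.ev t))
    (yx : ∀ t, y t * x t = f.map (LA.ev t)) : MvN e f := by
  refine ⟨mkL x hx x01, mkL y hy y01, matL_ext fun t => ?_, matL_ext fun t => ?_⟩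
  · rw [evL_mul, mkL_ev, mkL_ev, xy]
  · rw [evL_mul, mkL_ev, mkL_ev, yx]

/-- `e` is clutched by `g`. -/
def IsCl (e : Matrix k k (LA A)) (g : Matrix n n A) : Prop :=
  ∃ (a : I → Matrix k n A) (b : I → Matrix n k A), Continuous a ∧ Continuous b ∧
    (∀ s, a s * b s = e.map (LA.ev s)) ∧ (∀ s, b s * a s = 1) ∧ a 1 = a 0 * g

theorem IsCl.b_one {e : Matrix k k (LA A)} {g : Matrix n n A} {a : I → Matrix k n A}
    {b : I → Matrix n k A} (hab : ∀ s, a s * b s = e.map (LA.ev s)) (hba : ∀ s, b s * a s = 1)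
    (h : a 1 = a 0 * g) : g * b 1 = b 0 := by
  have h1 : a 1 * b 1 = a 0 * b 0 := by rw [hab, hab, matL_01]
  calc g * b 1 = (b 0 * a 0) * (g * b 1) := by rw [hba, Matrix.one_mul]
    _ = b 0 * (a 1 * b 1) := by rw [h]; simp only [Matrix.mul_assoc]
    _ = (b 0 * a 0) * b 0 := by rw [h1]; simp only [Matrix.mul_assoc]
    _ = b 0 := by rw [hba, Matrix.one_mul]

theorem IsCl.idem {e : Matrix k k (LA A)} {g : Matrix n n A} (H : IsCl e g) : e * e = e := by
  obtain ⟨a, b, -, -, hab, hba, -⟩ := H
  refine matL_ext fun t => ?_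
  rw [evL_mul, ← hab]
  calc a t * b t * (a t * b t) = a t * (b t * a t) * b t := by simp only [Matrix.mul_assoc]
    _ = _ := by rw [hba, Matrix.mul_one]

/-- **uniqueness of clutching** -/
theorem IsCl.mvn {e : Matrix k k (LA A)} {f : Matrix l l (LA A)} {g : Matrix n n A}
    (H : IsCl e g) (H' : IsCl f g) : MvN e f := by
  obtain ⟨a, b, ca, cb, hab, hba, h1⟩ := H
  obtain ⟨a', b', ca', cb', hab', hba', h1'⟩ := H'
  have hb := IsCl.b_one hab hba h1
  have hb' := IsCl.b_one hab' hba' h1'
  refine mvnL_of_paths (fun s => a s * b' s) (fun s => a' s * b s) (ca.matrix_mul cb')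
    (ca'.matrix_mul cb) ?_ ?_ (fun t => ?_) (fun t => ?_)
  · rw [h1, Matrix.mul_assoc, hb']
  · rw [h1', Matrix.mul_assoc, hb]
  · calc a t * b' t * (a' t * b t) = a t * (b' t * a' t) * b t := by simp only [Matrix.mul_assoc]
      _ = _ := by rw [hba', Matrix.mul_one, hab]
  · calc a' t * b t * (a t * b' t) = a' t * (b t * a t) * b' t := by simp only [Matrix.mul_assoc]
      _ = _ := by rw [hba, Matrix.mul_one, hab']

theorem IsCl.cls_eq {e : Matrix k k (LA A)} {f : Matrix l l (LA A)} {g : Matrix n n A}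
    (H : IsCl e g) (H' : IsCl f g) : K0.cls e = K0.cls f :=
  K0.cls_eq H.idem H'.idem (H.mvn H')

/-- change of frame -/
theorem IsCl.path {e : Matrix k k (LA A)} {g : Matrix n n A} (H : IsCl e g)
    (c : I → Matrix n m A) (c' : I → Matrix m n A) (hc : Continuous c) (hc' : Continuous c')
    (cc' : ∀ t, c t * c' t = 1) (c'c : ∀ t, c' t * c t = 1) : IsCl e (c' 0 * g * c 1) := by
  obtain ⟨a, b, ca, cb, hab, hba, h1⟩ := H
  refine ⟨fun s => a s * c s, fun s => c' s * b s, ca.matrix_mul hc, hc'.matrix_mul cb,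
    fun s => ?_, fun s => ?_, ?_⟩
  · calc a s * c s * (c' s * b s) = a s * (c s * c' s) * b s := by simp only [Matrix.mul_assoc]
      _ = _ := by rw [cc', Matrix.mul_one, hab]
  · calc c' s * b s * (a s * c s) = c' s * (b s * a s) * c s := by simp only [Matrix.mul_assoc]
      _ = _ := by rw [hba, Matrix.mul_one, c'c]
  · calc a 1 * c 1 = a 0 * (c 0 * c' 0) * g * c 1 := by rw [h1, cc', Matrix.mul_one]
      _ = _ := by simp only [Matrix.mul_assoc]

theorem IsCl.conj {e : Matrix k k (LA A)} {g : Matrix n n A} (H : IsCl e g)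
    (c : Matrix n m A) (c' : Matrix m n A)
    (cc' : c * c' = 1) (c'c : c' * c = 1) : IsCl e (c' * g * c) :=
  H.path (fun _ => c) (fun _ => c') continuous_const continuous_const (fun _ => cc') (fun _ => c'c)

theorem IsCl.sum {e : Matrix k k (LA A)} {g : Matrix n n A} {f : Matrix l l (LA A)}
    {h : Matrix m m A} (H : IsCl e g) (H' : IsCl f h) :
    IsCl (fromBlocks e 0 0 f) (fromBlocks g 0 0 h) := by
  obtain ⟨a, b, ca, cb, hab, hba, h1⟩ := H
  obtain ⟨a', b', ca', cb', hab', hba', h1'⟩ := H'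
  refine ⟨fun s => fromBlocks (a s) 0 0 (a' s), fun s => fromBlocks (b s) 0 0 (b' s),
    ca.matrix_fromBlocks continuous_const continuous_const ca',
    cb.matrix_fromBlocks continuous_const continuous_const cb', fun s => ?_, fun s => ?_, ?_⟩
  · rw [fromBlocks_multiply, evL_fb]
    simp [hab, hab']
  · rw [fromBlocks_multiply]
    simp [hba, hba']
  · rw [fromBlocks_multiply]
    simp [h1, h1']

theorem continuous_kron {p q r s : Type*} {F : I → Matrix p q A} {G : I → Matrix r s A}
    (hF : Continuous F) (hG : Continuous G) : Continuous fun t => F t ⊗ₖ G t := by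
  refine continuous_matrix fun i j => ?_
  simp only [kroneckerMap_apply]
  exact (hF.matrix_elem i.1 j.1).mul (hG.matrix_elem i.2 j.2)

theorem IsCl.kron {e : Matrix k k (LA A)} {g : Matrix n n A} {f : Matrix l l (LA A)}
    {h : Matrix m m A} (H : IsCl e g) (H' : IsCl f h) : IsCl (e ⊗ₖ f) (g ⊗ₖ h) := by
  obtain ⟨a, b, ca, cb, hab, hba, h1⟩ := H
  obtain ⟨a', b', ca', cb', hab', hba', h1'⟩ := H'
  refine ⟨fun s => a s ⊗ₖ a' s, fun s => b s ⊗ₖ b' s, continuous_kron ca ca',
    continuous_kron cb cb', fun s => ?_, fun s => ?_, ?_⟩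
  · rw [← mul_kronecker_mul, hab, hab']
    ext ⟨i, i'⟩ ⟨j, j'⟩
    simp only [kroneckerMap_apply, Matrix.map_apply, map_mul]
  · rw [← mul_kronecker_mul, hba, hba', one_kronecker_one]
  · change a 1 ⊗ₖ a' 1 = (a 0 ⊗ₖ a' 0) * (g ⊗ₖ h)
    rw [h1, h1', mul_kronecker_mul]

theorem isCl_one : IsCl (1 : Matrix n n (LA A)) (1 : Matrix n n A) :=
  ⟨fun _ => 1, fun _ => 1, continuous_const, continuous_const,
    fun s => by rw [Matrix.mul_one, evL_one], fun s => by rw [Matrix.mul_one],
    by rw [Matrix.mul_one]⟩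

/-- the clutching idempotent over free loops -/
def EL (g : (Matrix n n A)ˣ) : Matrix (n ⊕ n) (n ⊕ n) (LA A) :=
  mkL (fun s => W g.val g.inv s * fromBlocks 1 0 0 0 * W' g.val g.inv s)
    (((continuous_W _ _).matrix_mul continuous_const).matrix_mul (continuous_W' _ _))
    (by simp only [W_zero _ _ g.val_inv, W'_zero _ _ g.val_inv, Matrix.one_mul, Matrix.mul_one,
          W_one, W'_one, fromBlocks_multiply]
        simp only [Matrix.mul_zero, Matrix.zero_mul, add_zero, Matrix.mul_one]
        rw [g.val_inv])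

theorem EL_ev (g : (Matrix n n A)ˣ) (s : I) :
    (EL g).map (LA.ev s) = W g.val g.inv s * fromBlocks 1 0 0 0 * W' g.val g.inv s := rfl

theorem isCl_EL (g : (Matrix n n A)ˣ) : IsCl (EL g) (g : Matrix n n A) := by
  refine ⟨fun s => W g.val g.inv s * J1 n A, fun s => J1' n A * W' g.val g.inv s,
    (continuous_W _ _).matrix_mul continuous_const, continuous_const.matrix_mul (continuous_W' _ _),
    fun s => ?_, fun s => ?_, ?_⟩
  · rw [EL_ev, ← J1_mul]
    simp only [Matrix.mul_assoc]
  · calc J1' n A * W' g.val g.inv s * (W g.val g.inv s * J1 n A)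
        = J1' n A * (W' g.val g.inv s * W g.val g.inv s) * J1 n A := by
          simp only [Matrix.mul_assoc]
      _ = 1 := by rw [W'_mul _ _ g.val_inv g.inv_val, Matrix.mul_one, J1'_mul]
  · change W g.val g.inv 1 * J1 n A = W g.val g.inv 0 * J1 n A * g.val
    rw [W_one, W_zero _ _ g.val_inv, Matrix.one_mul]
    simp [J1, fromBlocks_mul_fromRows, fromRows_mul]

theorem EL_idem (g : (Matrix n n A)ˣ) : EL g * EL g = EL g := (isCl_EL g).idem

/-- the clutching class over free loops -/
def dL (g : (Matrix n n A)ˣ) : K0 (LA A) := K0.cls (EL g) - K0.cls (1 : Matrix n n (LA A))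

theorem IsCl.cls {e : Matrix k k (LA A)} {g : (Matrix n n A)ˣ} (H : IsCl e (g : Matrix n n A)) :
    K0.cls e = dL g + Fintype.card n := by
  unfold dL
  rw [H.cls_eq (isCl_EL g), K0.cls_one]
  ring

theorem dL_eq_of {g : (Matrix n n A)ˣ} {h : (Matrix m m A)ˣ} {e : Matrix k k (LA A)}
    (H : IsCl e (g : Matrix n n A)) (H' : IsCl e (h : Matrix m m A))
    (hc : Fintype.card n = Fintype.card m) : dL g = dL h := by
  have h1 := H.cls
  have h2 := H'.cls
  rw [h1, hc] at h2
  exact add_right_cancel h2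

/-- block sum of units -/
def usum (g : (Matrix n n A)ˣ) (h : (Matrix m m A)ˣ) : (Matrix (n ⊕ m) (n ⊕ m) A)ˣ where
  val := fromBlocks g.val 0 0 h.val
  inv := fromBlocks g.inv 0 0 h.inv
  val_inv := by simp [fromBlocks_multiply, g.val_inv, h.val_inv]
  inv_val := by simp [fromBlocks_multiply, g.inv_val, h.inv_val]

theorem dL_sum (g : (Matrix n n A)ˣ) (h : (Matrix m m A)ˣ) : dL (usum g h) = dL g + dL h := by
  have h1 : IsCl (fromBlocks (EL g) 0 0 (EL h)) ((usum g h : (Matrix (n ⊕ m) (n ⊕ m) A)ˣ) :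
    Matrix (n ⊕ m) (n ⊕ m) A) := (isCl_EL g).sum (isCl_EL h)
  have h2 := h1.cls
  rw [K0.cls_sum (EL_idem g) (EL_idem h), (isCl_EL g).cls, (isCl_EL h).cls, Fintype.card_sum] at h2
  push_cast at h2
  have : dL (usum g h) = (dL g + Fintype.card n + (dL h + Fintype.card m)) -
    (Fintype.card n + Fintype.card m) := by rw [h2]; ring
  rw [this]
  ring

theorem dL_one : dL (1 : (Matrix n n A)ˣ) = 0 := by
  have h := (isCl_one (n := n) (A := A)).cls (g := 1)
  rw [K0.cls_one] at h
  have : dL (1 : (Matrix n n A)ˣ) = (dL (1 : (Matrix n n A)ˣ) + Fintype.card n) -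
    (Fintype.card n : K0 (LA A)) := by ring
  rw [this, ← h, sub_self]

/-- homotopy invariance -/
theorem dL_homotopy (g h : (Matrix n n A)ˣ) (c c' : I → Matrix n n A) (hc : Continuous c)
    (hc' : Continuous c') (cc' : ∀ t, c t * c' t = 1) (c'c : ∀ t, c' t * c t = 1)
    (e : c' 0 * g.val * c 1 = h.val) : dL g = dL h := by
  refine dL_eq_of (isCl_EL g) (e := EL g) ?_ rfl
  have := (isCl_EL g).path c c' hc hc' cc' c'c
  rwa [e] at this

theorem dL_joined (g h : (Matrix n n A)ˣ) (c c' : I → Matrix n n A) (hc : Continuous c)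
    (hc' : Continuous c') (cc' : ∀ t, c t * c' t = 1) (c'c : ∀ t, c' t * c t = 1)
    (e0 : c 0 = g.val) (e1 : c 1 = h.val) : dL g = dL h := by
  have e0' : c' 0 = g.inv := by
    calc c' 0 = c' 0 * (g.val * g.inv) := by rw [g.val_inv, Matrix.mul_one]
      _ = g.inv := by rw [← e0, ← Matrix.mul_assoc, c'c, Matrix.one_mul]
  refine dL_homotopy g h c c' hc hc' cc' c'c ?_
  rw [e0', e1, g.inv_val, Matrix.one_mul]

/-- additivity in the form `dL (g h) = dL g + dL h` -/
theorem dL_mul (g h : (Matrix n n A)ˣ) : dL (g * h) = dL g + dL h := by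
  -- `g ⊕ h` is joined to `g h ⊕ 1` via `W`: `(g h ⊕ 1) * W h⁻¹ h`
  have h1 : dL (usum g h) = dL (usum (g * h) (1 : (Matrix n n A)ˣ)) := by
    refine (dL_homotopy (usum (g * h) (1 : (Matrix n n A)ˣ)) (usum g h)
      (fun s => W h.inv h.val s) (fun s => W' h.inv h.val s) (continuous_W _ _)
      (continuous_W' _ _) (fun t => W_mul _ _ h.inv_val h.val_inv t)
      (fun t => W'_mul _ _ h.inv_val h.val_inv t) ?_).symm
    rw [W'_zero _ _ h.inv_val, W_one, Matrix.one_mul]
    simp only [usum, fromBlocks_multiply, Units.val_mul, Units.val_one, Matrix.mul_zero,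
      Matrix.zero_mul, add_zero, zero_add, Matrix.one_mul]
    have : g.val * h.val * h.inv = g.val := by rw [Matrix.mul_assoc, h.val_inv, Matrix.mul_one]
    rw [this]
  rw [dL_sum, dL_sum, dL_one, add_zero] at h1
  exact h1.symm

end mat

end

end Crest.Agent.R204.LineT357
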