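import Crest.Agent.R204.PFibMap_872
import Crest.Agent.R204.HspSS_696

/-!
# Row 204, block B: the null homotopic based loops `G0` of `Ω^n Z` are (the base component of)
`Ω^(n+1) Z`, last coordinate = loop coordinate (helper872)
-/

set_option autoImplicit false

noncomputable section

open Set unitInterval Topology

namespace Crest.Agent.R204.PF872

open Crest.Agent.R204 Crest.Agent.R204.SS Crest.Agent.R204.Cov892 Crest.Agent.R204.Bis343
  Crest.Agent.R204.SingAct265 Crest.Agent.R204.Bar170 Crest.Agent.R204.Cubes735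
open Crest.Agent.R204.HspSS696 (Om)

/-! ## based loops -/

section loops
variable {B : Type} [TopologicalSpace B] {b : B}

/-- based loops as a subtype of `PB` -/
abbrev LB (b : B) : Type := {γ : PB b // γ.1 1 = b}

/-- null homotopic loops are loops -/
def G0toLB : C(G0 b, LB b) :=
  ⟨fun g => ⟨g.1, G0_one g⟩, Continuous.subtype_mk continuous_subtype_val _⟩

/-- Mathlib's loops -/
def pathLB (b : B) : Path b b ≃ₜ LB b where
  toFun p := ⟨ofPath p, ofPath_one p⟩
  invFun γ := pa γ.1 b γ.2
  left_inv _ := rfl
  right_inv _ := rfl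
  continuous_toFun := by
    refine Continuous.subtype_mk (Continuous.subtype_mk ?_ _) _
    exact continuous_induced_dom
  continuous_invFun := by
    refine continuous_induced_rng.2 ?_
    exact continuous_subtype_val.comp continuous_subtype_val

/-- `PEq` of loops is being joined in the space of loops -/
theorem pEq_iff_joined (γ γ' : LB b) : PEq γ.1 γ'.1 ↔ Joined γ γ' := by
  constructor
  · rintro ⟨F⟩
    have hc : Continuous fun z : I × I => F z := F.continuous
    refine ⟨{ toFun := fun s => ⟨⟨⟨fun t => F (s, t), by fun_prop⟩, ?_⟩, ?_⟩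
              continuous_toFun := ?_
              source' := ?_
              target' := ?_ }⟩
    · show F (s, 0) = b
      rw [F.eq_fst s (x := (0 : I)) (by simp)]
      exact γ.1.2
    · show F (s, 1) = b
      rw [F.eq_fst s (x := (1 : I)) (by simp)]
      exact γ.2
    · refine Continuous.subtype_mk (Continuous.subtype_mk ?_ _) _
      exact ContinuousMap.continuous_of_continuous_uncurry _ hc
    · refine Subtype.ext (PB_ext fun t => ?_)
      exact F.apply_zero t
    · refine Subtype.ext (PB_ext fun t => ?_)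
      exact F.apply_one t
  · rintro ⟨p⟩
    have h := pEq_of_path (b := b) ⟨fun s => (p s).1, by fun_prop⟩ (fun s => by
      show (p s).1.1 1 = (p 0).1.1 1
      rw [(p s).2, (p 0).2]) 0 1
    have h0 : (⟨fun s => (p s).1, by fun_prop⟩ : C(I, PB b)) 0 = γ.1 := by
      show (p 0).1 = _
      rw [p.source]
    have h1 : (⟨fun s => (p s).1, by fun_prop⟩ : C(I, PB b)) 1 = γ'.1 := by
      show (p 1).1 = _
      rw [p.target]
    rw [h0, h1] at h
    exact h

/-- the constant loop -/
def cstL : LB b := ⟨cst, rfl⟩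

/-- if all loops are null homotopic -/
def G0eqLB (h : ∀ γ : LB b, PEq γ.1 cst) : G0 b ≃ₜ LB b where
  toFun g := G0toLB g
  invFun γ := ⟨γ.1, h γ⟩
  left_inv _ := rfl
  right_inv _ := rfl
  continuous_toFun := G0toLB.continuous
  continuous_invFun := Continuous.subtype_mk continuous_subtype_val _

end loops

/-! ## `Ω^(n+1) Z` -/

variable {Z : Type} [TopologicalSpace Z] {z₀ : Z} {n : ℕ}

variable (Z z₀ n) in
/-- base point of `Ω^n Z` -/
abbrev bo : Om (Fin n) Z z₀ := GenLoop.const

/-- `Ω^(n+1) Z` as the space of based loops in `Ω^n Z` -/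
def loopH : Om (Fin (n + 1)) Z z₀ ≃ₜ LB (bo Z z₀ n) := (Hsp696.loopLast n).trans (pathLB _)

@[simp] theorem loopH_apply (x : Om (Fin (n + 1)) Z z₀) (s : I) :
    (loopH x).1.1 s = Cubes735.ev s x := rfl

theorem loopH_const : loopH (GenLoop.const : Om (Fin (n + 1)) Z z₀) = cstL := rfl

/-- the component of the constant loop -/
abbrev Om0 (n : ℕ) (Z : Type) [TopologicalSpace Z] (z₀ : Z) : Type :=
  {x : Om (Fin (n + 1)) Z z₀ // Joined x GenLoop.const}

theorem joined_iff (x : Om (Fin (n + 1)) Z z₀) :
    Joined x GenLoop.const ↔ PEq (loopH x).1 cst := by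
  rw [show (cst : PB (bo Z z₀ n)) = (cstL : LB (bo Z z₀ n)).1 from rfl, pEq_iff_joined, ← loopH_const]
  constructor
  · rintro ⟨p⟩
    exact ⟨p.map loopH.continuous⟩
  · rintro ⟨p⟩
    have := p.map (loopH (Z := Z) (z₀ := z₀) (n := n)).symm.continuous
    rw [Homeomorph.symm_apply_apply, Homeomorph.symm_apply_apply] at this
    exact ⟨this⟩

/-- `G0 = (Ω^(n+1) Z)_0` -/
def G0H : Om0 n Z z₀ ≃ₜ G0 (bo Z z₀ n) where
  toFun x := ⟨(loopH x.1).1, (joined_iff x.1).1 x.2⟩
  invFun g := ⟨loopH.symm (G0toLB g), (joined_iff _).2 (by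
    rw [Homeomorph.apply_symm_apply]; exact g.2)⟩
  left_inv x := Subtype.ext (loopH.symm_apply_apply x.1)
  right_inv g := Subtype.ext (by
    have := congrArg Subtype.val (loopH.apply_symm_apply (G0toLB g))
    exact this)
  continuous_toFun := Continuous.subtype_mk
    (continuous_subtype_val.comp (loopH.continuous.comp continuous_subtype_val)) _
  continuous_invFun := Continuous.subtype_mk (loopH.symm.continuous.comp G0toLB.continuous) _

@[simp] theorem G0H_apply (x : Om0 n Z z₀) (s : I) : (G0H x).1.1 s = Cubes735.ev s x.1 := rfl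

/-- all of `Ω^(n+1) Z`, if it is path connected -/
def G0H' (h : ∀ x : Om (Fin (n + 1)) Z z₀, Joined x GenLoop.const) :
    Om (Fin (n + 1)) Z z₀ ≃ₜ G0 (bo Z z₀ n) where
  toFun x := ⟨(loopH x).1, (joined_iff x).1 (h x)⟩
  invFun g := loopH.symm (G0toLB g)
  left_inv x := loopH.symm_apply_apply x
  right_inv g := Subtype.ext (by
    have := congrArg Subtype.val (loopH.apply_symm_apply (G0toLB g))
    exact this)
  continuous_toFun := Continuous.subtype_mk (continuous_subtype_val.comp loopH.continuous) _
  continuous_invFun := loopH.symm.continuous.comp G0toLB.continuous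

@[simp] theorem G0H'_apply (h : ∀ x : Om (Fin (n + 1)) Z z₀, Joined x GenLoop.const)
    (x : Om (Fin (n + 1)) Z z₀) (s : I) : (G0H' h x).1.1 s = Cubes735.ev s x := rfl

/-- concatenation of loops = concatenation in the last coordinate -/
theorem ev_transAt_last (x y : Om (Fin (n + 1)) Z z₀) (t : I) :
    Cubes735.ev t (GenLoop.transAt (Fin.last n) x y) = catF (loopH x).1.1 (loopH y).1.1 t := by
  rw [← Hsp696.loopLast_apply, Hsp696.loopLast_transAt]
  rfl

/-- `mul` corresponds to concatenation in the last coordinate -/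
theorem G0H'_trans (h : ∀ x : Om (Fin (n + 1)) Z z₀, Joined x GenLoop.const)
    (x y : Om (Fin (n + 1)) Z z₀) :
    G0H' h (GenLoop.transAt (Fin.last n) x y) = mul (G0H' h x, G0H' h y) :=
  Subtype.ext (PB_ext fun t => ev_transAt_last x y t)

/-- `mul` corresponds to the little cube product given by the halves of the last coordinate -/
theorem G0H'_halves (h : ∀ x : Om (Fin (n + 1)) Z z₀, Joined x GenLoop.const)
    (x y : Om (Fin (n + 1)) Z z₀) :
    G0H' h (mu (Hsp696.halves (Fin.last n)) ![x, y]) = mul (G0H' h x, G0H' h y) := by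
  rw [Hsp696.mu_halves, G0H'_trans]

theorem G0H'_const (h : ∀ x : Om (Fin (n + 1)) Z z₀, Joined x GenLoop.const) :
    G0H' h GenLoop.const = one := rfl

/-- products of elements of the base component -/
theorem joined_mu (c : BoxConf (Fin 2) (Fin (n + 1))) (x y : Om0 n Z z₀) :
    Joined (mu c ![x.1, y.1]) GenLoop.const := by
  obtain ⟨p⟩ := x.2
  obtain ⟨q⟩ := y.2
  have hc : Continuous fun s : I => mu c ![p s, q s] :=
    continuous_mu continuous_const (Hsp696.continuous_pair p.continuous q.continuous)
  refine ⟨{ toFun := fun s => mu c ![p s, q s]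
            continuous_toFun := hc
            source' := by rw [p.source, q.source]
            target' := ?_ }⟩
  rw [p.target, q.target, Hsp696.cons_const, mu_const]

/-- the little cube product on the base component -/
def mu0 (c : BoxConf (Fin 2) (Fin (n + 1))) : C(Om0 n Z z₀ × Om0 n Z z₀, Om0 n Z z₀) where
  toFun z := ⟨mu c ![z.1.1, z.2.1], joined_mu c z.1 z.2⟩
  continuous_toFun := Continuous.subtype_mk
    (continuous_mu continuous_const (Hsp696.continuous_pair (by fun_prop) (by fun_prop))) _

/-- `mul` corresponds to the little cube product given by the halves of the last coordinate -/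
theorem G0H_halves (x y : Om0 n Z z₀) :
    G0H (mu0 (Hsp696.halves (Fin.last n)) (x, y)) = mul (G0H x, G0H y) := by
  refine Subtype.ext (PB_ext fun t => ?_)
  show Cubes735.ev t (mu (Hsp696.halves (Fin.last n)) ![x.1, y.1]) = _
  rw [Hsp696.mu_halves, ev_transAt_last]
  rfl

/-! ## simplicial level -/

/-- a homeomorphism as a continuous map -/
def hc {X Y : Type} [TopologicalSpace X] [TopologicalSpace Y] (e : X ≃ₜ Y) : C(X, Y) :=
  ⟨e, e.continuous⟩

@[simp] theorem hc_apply {X Y : Type} [TopologicalSpace X] [TopologicalSpace Y] (e : X ≃ₜ Y) (x : X) :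
    hc e x = e x := rfl

/-- simplicial maps of a homeomorphism are inverse to each other -/
theorem singMap_homeo {X Y : Type} [TopologicalSpace X] [TopologicalSpace Y] (e : X ≃ₜ Y) :
    (SingMap (hc e.symm)).comp (SingMap (hc e)) = SS.Hom.id _ := by
  ext q x
  exact sing_ext (Y := X) fun t => e.symm_apply_apply (ev (Y := X) x t)

theorem singMap_homeo' {X Y : Type} [TopologicalSpace X] [TopologicalSpace Y] (e : X ≃ₜ Y) :
    (SingMap (hc e)).comp (SingMap (hc e.symm)) = SS.Hom.id _ := by
  ext q x
  exact sing_ext (Y := Y) fun t => e.apply_symm_apply (ev (Y := Y) x t)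

/-- `Sing Ω^(n+1) Z → Sing G0` is multiplicative (strictly, for the halves of the last coordinate) -/
theorem mulS_G0H' (h : ∀ x : Om (Fin (n + 1)) Z z₀, Joined x GenLoop.const) :
    (SingMap (hc (G0H' h))).comp (HspSS696.mulS (Hsp696.halves (Fin.last n))) =
      (mulS (b := bo Z z₀ n)).comp (SS.prodMap (SingMap (hc (G0H' h))) (SingMap (hc (G0H' h)))) := by
  ext q x
  exact sing_ext (Y := G0 (bo Z z₀ n)) fun t => G0H'_halves h _ _

/-- `Sing (Ω^(n+1) Z)_0 → Sing G0` is multiplicative -/
theorem mulS_G0H :
    (SingMap (hc (G0H (n := n) (Z := Z) (z₀ := z₀)))).comp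
        ((SingMap (mu0 (Hsp696.halves (Fin.last n)))).comp (singPair _ _)) =
      (mulS (b := bo Z z₀ n)).comp (SS.prodMap (SingMap (hc G0H)) (SingMap (hc G0H))) := by
  ext q x
  exact sing_ext (Y := G0 (bo Z z₀ n)) fun t => G0H_halves _ _

end Crest.Agent.R204.PF872
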