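import Crest.Agent.R204.CapI_979
import Crest.Agent.R204.GeoD_979
import Crest.Agent.R204.Cov6_892

/-!
# Row 204, block B, `k = 0`: the loop theorem on the base component of `Ω^(b+1) Z`
-/

set_option autoImplicit false
set_option linter.style.haveILetI false

noncomputable section

namespace Crest.Agent.R204.LoopZ979

open Crest.Agent.R204 Crest.Agent.R204.SS Crest.Agent.R204.Bis343 Crest.Agent.R204.Bar170
  Crest.Agent.R204.Coalg847 Crest.Agent.R204.PF872 Crest.Agent.R204.Cov892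
open Crest.Agent.R204.SingAct265 (mkS singPair sing_ext)
open Crest.Agent.R204.HspSS696 (Om)
open Crest.Agent.R204.Cubes735 (BoxConf mu)
open Crest.Agent.R204.Hopf450 (HMon)
open Crest.Agent.R204.Inst194
open Crest.Agent.R204.Ind979
open TensorProduct unitInterval

variable {Z : Type} [TopologicalSpace Z] {z₀ : Z} {n : ℕ}

/-- null homotopic loops in `Ω^n Z` as elements of `Ω^(n+1) Z` -/
def jG : C(G0 (bo Z z₀ n), Om (Fin (n + 1)) Z z₀) :=
  ⟨fun g => (G0H.symm g).1, continuous_subtype_val.comp G0H.symm.continuous⟩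

theorem jG_one : jG (PF872.one : G0 (bo Z z₀ n)) = GenLoop.const := by
  have h : (G0H (n := n) (Z := Z) (z₀ := z₀)).symm PF872.one =
      ⟨GenLoop.const, Joined.refl _⟩ := by
    rw [Homeomorph.symm_apply_eq]
    exact Subtype.ext rfl
  exact congrArg Subtype.val h

theorem jG_joined (g : G0 (bo Z z₀ n)) : Joined (jG g) GenLoop.const := (G0H.symm g).2

theorem jG_mul (g h : G0 (bo Z z₀ n)) :
    jG (PF872.mul (g, h)) = mu (Hsp696.halves (Fin.last n)) ![jG g, jG h] := by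
  have e : PF872.mul (g, h) = G0H (mu0 (Hsp696.halves (Fin.last n)) (G0H.symm g, G0H.symm h)) := by
    rw [G0H_halves, Homeomorph.apply_symm_apply, Homeomorph.apply_symm_apply]
  show (G0H.symm _).1 = _
  rw [e, Homeomorph.symm_apply_apply]
  rfl

theorem toPB_jG (g : G0 (bo Z z₀ n)) : toPB (Sus330.genLoop n) (jG g) = g.1 := by
  have h : G0H (G0H.symm g) = g := Homeomorph.apply_symm_apply _ _
  conv_rhs => rw [← h]
  rfl

/-- simplicial level -/
def jS : SS.Hom (Sing (G0 (bo Z z₀ n))) (Sing (Om (Fin (n + 1)) Z z₀)) := SingMap jG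

theorem jS_c (q : ℕ) (x : (Sing (G0 (bo Z z₀ n))).S q) :
    (Comp696.cOm (Fin (n + 1)) Z z₀).app q (jS.app q x) = 1 := by
  rw [Comp696.cOm_app _ (stdSimplex.vertex 0)]
  exact Comp696.cls_eq_iff.2 (jG_joined _)

/-- `G0` is the base component -/
def uS : SS.Hom (Sing (G0 (bo Z z₀ n))) (Comp696.fib (Comp696.cOm (Fin (n + 1)) Z z₀) 1) :=
  Comp696.fibLift _ 1 jS jS_c

theorem incl_uS : (Comp696.fibIncl (Comp696.cOm (Fin (n + 1)) Z z₀) 1).comp uS = jS := rfl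

theorem joined_of_c {q : ℕ} (x : (Comp696.fib (Comp696.cOm (Fin (n + 1)) Z z₀) 1).S q)
    (t : stdSimplex ℝ (Fin (q + 1))) :
    Joined (SingAct265.ev ((Comp696.fibIncl (Comp696.cOm (Fin (n + 1)) Z z₀) 1).app q x) t)
      GenLoop.const :=
  Comp696.cls_eq_iff.1 ((Comp696.cOm_app _ t).symm.trans (Comp696.fib_prop _ 1 x))

/-- inverse map -/
def wS : SS.Hom (Comp696.fib (Comp696.cOm (Fin (n + 1)) Z z₀) 1) (Sing (G0 (bo Z z₀ n))) where
  app q x := mkS (fun t => G0H ⟨SingAct265.ev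
      ((Comp696.fibIncl (Comp696.cOm (Fin (n + 1)) Z z₀) 1).app q x) t, joined_of_c x t⟩)
    (G0H.continuous.comp (Continuous.subtype_mk (SingAct265.continuous_ev _) _))
  nat _ _ := rfl

theorem wS_uS : (wS (Z := Z) (z₀ := z₀) (n := n)).comp uS = SS.Hom.id _ := by
  ext q x
  exact sing_ext (Y := G0 (bo Z z₀ n)) fun t => G0H.apply_symm_apply (SingAct265.ev x t)

theorem uS_wS : (uS (Z := Z) (z₀ := z₀) (n := n)).comp wS = SS.Hom.id _ := by
  refine SS.Hom.ext (funext fun q => funext fun x => Subtype.ext ?_)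
  exact sing_ext (Y := Om (Fin (n + 1)) Z z₀) fun t =>
    congrArg Subtype.val (G0H.symm_apply_apply _)

/-- `H (G0) → H (Ω^(n+1) Z)` -/
def th : H F2 (Sing (G0 (bo Z z₀ n))) →ₗ[F2] H F2 (Sing (Om (Fin (n + 1)) Z z₀)) := H.map F2 jS

theorem th_apply (x : H F2 (Sing (G0 (bo Z z₀ n)))) :
    th x = H.map F2 (Comp696.fibIncl (Comp696.cOm (Fin (n + 1)) Z z₀) 1) (H.map F2 uS x) := by
  rw [th, ← hMap_comp, incl_uS]

theorem wu (x : H F2 (Sing (G0 (bo Z z₀ n)))) : H.map F2 wS (H.map F2 uS x) = x := by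
  rw [← hMap_comp, wS_uS, hMap_id]

theorem uw (x : H F2 (Comp696.fib (Comp696.cOm (Fin (n + 1)) Z z₀) 1)) :
    H.map F2 uS (H.map F2 wS x) = x := by
  rw [← hMap_comp, uS_wS, hMap_id]

theorem th_inj : Function.Injective (th (Z := Z) (z₀ := z₀) (n := n)) := by
  intro x y h
  rw [th_apply, th_apply] at h
  rw [← wu x, ← wu y, Comp696.incl_injective F2 _ 1 h]

theorem th_range (y : H F2 (Sing (Om (Fin (n + 1)) Z z₀)))
    (hy : y ∈ Comp696.Hc F2 (Comp696.cOm (Fin (n + 1)) Z z₀) 1) : ∃ x, th (n := n) x = y := by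
  obtain ⟨x, rfl⟩ := hy
  exact ⟨H.map F2 wS x, by rw [th_apply, uw]⟩

theorem th_mem (x : H F2 (Sing (G0 (bo Z z₀ n)))) :
    th x ∈ Comp696.Hc F2 (Comp696.cOm (Fin (n + 1)) Z z₀) 1 := by
  rw [th_apply]; exact ⟨_, rfl⟩

theorem th_gr (t : ℕ) (x : H F2 (Sing (G0 (bo Z z₀ n))))
    (h : th x ∈ H.gr F2 (Sing (Om (Fin (n + 1)) Z z₀)) t) : x ∈ H.gr F2 _ t := by
  rw [th_apply] at h
  have h2 := Comp696.hret_mem_gr F2 (Comp696.cOm (Fin (n + 1)) Z z₀) 1 h
  rw [Comp696.hret_incl] at h2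
  rw [← wu x]
  exact hMap_mem_gr _ h2

theorem th_one : th (Coalg847.vtx (PF94.pf (bo Z z₀ n)).e) =
    Coalg847.vtx (HspSS696.eS (J := Fin (n + 1)) (Z := Z) (z₀ := z₀)) := by
  unfold th
  rw [show (H.map F2 (jS (Z := Z) (z₀ := z₀) (n := n))) (Coalg847.vtx (PF94.pf (bo Z z₀ n)).e) =
    Coalg847.vtx (jS.app 0 (PF94.pf (bo Z z₀ n)).e) from hMap_vtx _ _]
  congr 1

theorem jS_mulS : (jS (Z := Z) (z₀ := z₀) (n := n)).comp (PF872.mulS (b := bo Z z₀ n)) =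
    (HspSS696.mulS (Hsp696.halves (Fin.last n))).comp (SS.prodMap jS jS) := by
  ext q x
  exact sing_ext (Y := Om (Fin (n + 1)) Z z₀) fun t => jG_mul _ _

theorem gen_mulL {G K : SS} (j : SS.Hom G K) (m : SS.Hom (G.prod G) G) (m' : SS.Hom (K.prod K) K)
    (h : j.comp m = m'.comp (SS.prodMap j j)) (E : EZData) (M : HMon K)
    (hM : H.map F2 M.mu = H.map F2 m') (x y : H F2 G) :
    H.map F2 j (H.map F2 m (E.cr _ _ (x ⊗ₜ y))) = M.mulL E (H.map F2 j x) (H.map F2 j y) := by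
  rw [← hMap_comp, h, hMap_comp, E.cr_nat, HMon.mulL_apply, hM]

theorem th_mul [Nontrivial (Fin (n + 1))] (E : EZData) (M : HMon (Sing (Om (Fin (n + 1)) Z z₀)))
    (c : BoxConf (Fin 2) (Fin (n + 1))) (hM : M.mu = HspSS696.mulS c)
    (x y : H F2 (Sing (G0 (bo Z z₀ n)))) :
    th ((PF94.pf (bo Z z₀ n)).mulH E x y) = M.mulL E (th x) (th y) := by
  refine gen_mulL jS _ _ jS_mulS E M ?_ x y
  rw [hM]
  exact Hopf450.omMon_map_mu (Z := Z) (z₀ := z₀) c (Hsp696.halves (Fin.last n))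

variable [Nontrivial (Fin (n + 1))] in
theorem th_conn (x : H F2 (PF94.pf (bo Z z₀ n)).G) (hx : x ∈ H.gr F2 (PF94.pf (bo Z z₀ n)).G 0) :
    ∃ r : F2, x = r • Coalg847.vtx (PF94.pf (bo Z z₀ n)).e := by
  obtain ⟨r, hr⟩ := PolyZ979.Hc_zero (J := Fin (n + 1)) (th x)
    (hMap_mem_gr _ hx) (th_mem (Z := Z) (z₀ := z₀) (n := n) x)
  refine ⟨r, th_inj ?_⟩
  exact hr.trans ((congrArg (r • ·) th_one.symm).trans (map_smul th r _).symm)

/-- **the loop theorem on the base component**, `Ω^(b+1) Z` over `Ω^b Z` -/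
theorem loopBase {M b : ℕ} (hM : 1 ≤ M) (hb : M + 1 ≤ b) (hb' : M + 1 ≤ b + 1) (Z : Type)
    [TopologicalSpace Z] (z₀ : Z) :
    letI := (hmonA hM hb' : HMon (SS.Sing (Om (Fin (b + 1)) Z z₀))).ring EE
    letI := (hmonA hM hb' : HMon (SS.Sing (Om (Fin (b + 1)) Z z₀))).alg EE
    letI := (hmonA hM hb : HMon (SS.Sing (Om (Fin b) Z z₀))).ring EE
    letI := (hmonA hM hb : HMon (SS.Sing (Om (Fin b) Z z₀))).alg EE
    ∀ (C : Subalgebra F2 (H F2 (SS.Sing (Om (Fin b) Z z₀))))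
      (_ : Function.Injective (H.map F2 (prj (bo Z z₀ b))))
      (_ : ∀ x, H.map F2 (prj (bo Z z₀ b)) x ∈ C)
      (s : H F2 (SS.Sing (Om (Fin (b + 1)) Z z₀)) →ₗ[F2] C)
      (_ : ∀ y ∈ baseA hM hb', (s y : H F2 (SS.Sing (Om (Fin b) Z z₀))) =
        (Sus330.genLoop b).sigma y)
      (J : Type) (v : J → H F2 (SS.Sing (Om (Fin (b + 1)) Z z₀))) (e : J → ℕ) (_ : ∀ j, 1 ≤ e j)
      (_ : ∀ j, v j ∈ H.gr F2 (SS.Sing (Om (Fin (b + 1)) Z z₀)) (e j) ⊓
        Subalgebra.toSubmodule (baseA hM hb')) (N : ℕ),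
      SimR (fun t => (H.gr F2 (SS.Sing (Om (Fin b) Z z₀)) t).comap C.val.toLinearMap)
        (fun j => s (v j)) (fun j => e j + 1) (N + 1) →
      PolyR (fun t => H.gr F2 (SS.Sing (Om (Fin (b + 1)) Z z₀)) t ⊓
        Subalgebra.toSubmodule (baseA hM hb')) v e N := by
  letI := (hmonA hM hb' : HMon (SS.Sing (Om (Fin (b + 1)) Z z₀))).ring EE
  letI := (hmonA hM hb' : HMon (SS.Sing (Om (Fin (b + 1)) Z z₀))).alg EE
  letI := (hmonA hM hb : HMon (SS.Sing (Om (Fin b) Z z₀))).ring EE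
  letI := (hmonA hM hb : HMon (SS.Sing (Om (Fin b) Z z₀))).alg EE
  intro C hinj hC s hs J v e he hv N hS
  haveI : Nontrivial (Fin (b + 1)) := Fin.nontrivial_iff_two_le.2 (by omega)
  let c : BoxConf (Fin 2) (Fin b) := Hsp696.halves (Inst194.i0 hb)
  let ψ : H F2 (Bt (bo Z z₀ b)) →ₗ[F2] C :=
    LinearMap.codRestrict (Subalgebra.toSubmodule C) (H.map F2 (prj (bo Z z₀ b))) hC
  have hψ : ∀ x, (ψ x : H F2 (SS.Sing (Om (Fin b) Z z₀))) = H.map F2 (prj (bo Z z₀ b)) x :=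
    fun x => rfl
  refine loop_range_base (X := PF94.pf (bo Z z₀ b)) (PF94.psus (bo Z z₀ b))
    (PF94.pmul (hsp (Z := Z) (z₀ := z₀) c)) he th_conn (baseA hM hb')
    (H.gr F2 (SS.Sing (Om (Fin (b + 1)) Z z₀))) th th_inj (fun y hy => th_range y hy)
    th_gr th_one (fun x y => th_mul EE (hmonA hM hb') _ rfl x y) (vtx_mem_gr _)
    (fun s t x y hx hy => HMon.mulL_mem_gr _ _ hx hy) v hv ψ
    (fun t => (H.gr F2 (SS.Sing (Om (Fin b) Z z₀)) t).comap C.val.toLinearMap) ?_ ?_ ?_ ?_ s ?_ hS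
  · intro x y hxy
    exact hinj (congrArg Subtype.val hxy)
  · intro t a ha
    exact hMap_mem_gr _ ha
  · exact Subtype.ext (hMap_vtx _ _)
  · intro x y
    exact Subtype.ext (Geo979.prj_mul _ _ _ x y)
  · intro x hx
    refine Subtype.ext ((hs _ hx).trans ?_)
    exact (prj_sus (Sus330.genLoop b) jG toPB_jG x).symm

/-- along an equality `a = b + 1` -/
theorem loopBase_cast {M a b : ℕ} (hM : 1 ≤ M) (hb : M + 1 ≤ b) (ha : M + 1 ≤ a) (h : a = b + 1)
    (Z : Type) [TopologicalSpace Z] (z₀ : Z) :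
    letI := (hmonA hM ha : HMon (SS.Sing (Om (Fin a) Z z₀))).ring EE
    letI := (hmonA hM ha : HMon (SS.Sing (Om (Fin a) Z z₀))).alg EE
    letI := (hmonA hM hb : HMon (SS.Sing (Om (Fin b) Z z₀))).ring EE
    letI := (hmonA hM hb : HMon (SS.Sing (Om (Fin b) Z z₀))).alg EE
    ∀ (C : Subalgebra F2 (H F2 (SS.Sing (Om (Fin b) Z z₀))))
      (_ : Function.Injective (H.map F2 (prj (bo Z z₀ b))))
      (_ : ∀ x, H.map F2 (prj (bo Z z₀ b)) x ∈ C)
      (s : H F2 (SS.Sing (Om (Fin a) Z z₀)) →ₗ[F2] C)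
      (_ : ∀ y ∈ baseA hM ha, (s y : H F2 (SS.Sing (Om (Fin b) Z z₀))) = (loopC h).sigma y)
      (J : Type) (v : J → H F2 (SS.Sing (Om (Fin a) Z z₀))) (e : J → ℕ) (_ : ∀ j, 1 ≤ e j)
      (_ : ∀ j, v j ∈ H.gr F2 (SS.Sing (Om (Fin a) Z z₀)) (e j) ⊓
        Subalgebra.toSubmodule (baseA hM ha)) (N : ℕ),
      SimR (fun t => (H.gr F2 (SS.Sing (Om (Fin b) Z z₀)) t).comap C.val.toLinearMap)
        (fun j => s (v j)) (fun j => e j + 1) (N + 1) →
      PolyR (fun t => H.gr F2 (SS.Sing (Om (Fin a) Z z₀)) t ⊓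
        Subalgebra.toSubmodule (baseA hM ha)) v e N := by
  subst h
  exact loopBase hM hb ha Z z₀

open Spec114 PolyZ979 Wang905 Pi808

variable (p : Par) {D : ℕ}

/-- the loop statement for the concrete tower -/
theorem loop0 (hM : D + 2 ≤ p.M) (hK : D + 2 ≤ p.K) (hP : p.tower.FactPoly D) (J : Type)
    (v : J → p.tower.H 0) (e : J → ℕ) (he : ∀ j, 1 ≤ e j)
    (hv : ∀ j, v j ∈ p.tower.gr 0 (e j) ⊓ Subalgebra.toSubmodule p.tower.base)
    (hS : SimR (capData p hM hK hP).grC (fun j => (capData p hM hK hP).s (v j)) (fun j => e j + 1)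
      (D + 1)) :
    PolyR (fun t => p.tower.gr 0 t ⊓ Subalgebra.toSubmodule p.tower.base) v e D := by
  have h : 0 < p.K := by omega
  haveI := pathConnected_XT (J0 := p.J0) (K := p.K) (k := 1) h le_rfl
  haveI : Nontrivial (Fin (cd p.J0 p.K 1)) := Fin.nontrivial_iff_two_le.2 (two_le p.hM (p.hc 1))
  have hsp := PF872.hsp (Z := Freu297.Sph p.n) (z₀ := Freu297.pt p.n) (n := cd p.J0 p.K 1)
    (Hsp696.halves (i0 (p.hc 1)))
  refine loopBase_cast p.hM (p.hc 1) (p.hc 0) (cd_succ h) (Freu297.Sph p.n) (Freu297.pt p.n)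
    (capData p hM hK hP).C ?_ ?_ (capData p hM hK hP).s ?_ J v e he hv D hS
  · exact prj_injective hsp _ (hgen_XT h) (hinf p h hP)
  · intro x
    exact (range_prj_iff hsp _ (hgen_XT h) (hinf p h hP) _).1 ⟨x, rfl⟩
  · intro y hy
    refine ((capData p hM hK hP).s_spec y hy).trans ?_
    exact Par.sig_of_lt p h y

/-- **`FactPoly0` for the concrete tower** -/
theorem factPoly0_of_base (hM : D + 2 ≤ p.M) (hK : D + 2 ≤ p.K) (hB : p.tower.FactBase D) :
    p.tower.FactPoly0 D :=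
  have hP := PolyU979.factPoly' p hM hK
  factPoly0_of_cover (p.factGr D) (p.factEps D) (p.factQ hM) (p.factSigma hM hK) (p.factX hM hK) hP
    (cover0 (capData p hM hK hP) (p.factGr D) (p.factQ hM) (p.factSigma hM hK) (p.factX hM hK) hP
      (loop0 p hM hK hP)) hB

end Crest.Agent.R204.LoopZ979
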