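import Crest.Agent.R204.Thm3f_737
import Crest.Agent.R204.GlueD_114
import Crest.Agent.R204.HopfZ_407

/-!
# Row 204, Theorem 3, part g: `T3Out` (the interface of `GlueD_114`) from the facts (owner helper737)
-/

set_option autoImplicit false

noncomputable section

namespace Crest.Agent.R204.Thm3Glue

open Thm3 Finset Spec114 TowerOps85 Glue114 MvPolynomial
open Crest.Agent.R204.DickInst91 (dick)

variable {Y : Spec114.Tower} {S : Sph Y} {D d : ℕ}

/-- the hypotheses of helper407's `k = 0` analysis -/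
theorem hyp (hF : Facts Y S D d) : HopfZ407.Hyp Y D where
  gr := hF.gr
  eps := hF.eps
  delta := hF.delta
  sq := hF.sq
  t := hF.t
  t0 := hF.t0
  q := hF.q
  sigma := hF.sigma
  x := hF.x
  base := hF.base
  poly0 := hF.poly0
  w := fun _ _ _ ht1 ht => TowerOps85.W0 hF.sq hF.t hF.gl2 hF.q hF.f13 hF.t0 hF.x hF.poly0 ht1 ht
  lin1 := fun _ ht => Glue114.adm_li hF le_rfl (by omega) (by omega)

theorem c0_x (hF : Facts Y S D d) (ξ : P Y d) (hξ : ξ ∈ deg Y d d) (h0 : c0 hF d ξ ≠ 0)
    (hr : ∀ r, comp hF d r ξ = 0) : (ξ : Y.H d) = Y.x d := by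
  have hD := hF.dD
  have hd := hF.d_pos
  have hk : d ≤ D + 2 := by omega
  set x' : P Y d := ⟨Y.x d, hF.x.2.1 d hd hk⟩ with hx'
  have hx'd : x' ∈ deg Y d d := by
    rw [mem_deg, grB_pos Y hd]
    exact (hF.x.1 d hk).1
  have h1 : c0 hF d x' = 1 := by
    rw [c0_apply hF hd hk]; exact (stage hF hd hk).c0_x
  have h2 : ∀ r, comp hF d r x' = 0 := fun r => by
    rw [comp_apply hF hd hk]; exact (stage hF hd hk).comp_x r
  have h3 : c0 hF d ξ = 1 := by
    generalize c0 hF d ξ = c at h0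
    revert c; decide
  have h4 : ξ - x' = 0 := comp_inj hF hd hk (i := d) (by omega) _ (Submodule.sub_mem _ hξ hx'd)
    (by rw [map_sub, h1, h3, sub_self]) (fun r => by rw [map_sub, hr r, h2 r, sub_self])
  rw [sub_eq_zero.1 h4]

/-- **the outputs of Theorem 3 and of the `k = 0` analysis** -/
def t3out (hF : Facts Y S D d) (hL : LowL Y D) : T3Out dick Y d where
  c0 := c0 hF
  comp := comp hF
  c1 := c1 hF
  frob_inj0 i hi x hx h0 := by
    have hD := hF.dD
    apply Subtype.ext
    exact (hyp hF).frob_inj (j := i) (by omega) hx.1 hx.2 (congrArg Subtype.val h0)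
  ker_sig0 i hi1 hi x hx hne h0 := by
    have hD := hF.dD
    have h2 : Y.σ 0 (x : Y.H 0) = 0 := by
      rw [← coe_sig hF.sigma (Nat.zero_le _), h0]; rfl
    obtain ⟨j, hj, y, hy, hyb, hyp, he⟩ := (hyp hF).ker_sigma hi1 (by omega) hx.1 hx.2 x.2
      (fun h => hne (Subtype.ext h)) h2
    exact ⟨j, hj, ⟨y, hyp⟩, ⟨hy, hyb⟩, Subtype.ext he⟩
  comp_Sq k h1 hk i hi x hx r a := by
    have hD := hF.dD
    exact comp_Sq hF h1 (by omega) (by omega) x hx r a
  comp_deg k h1 hk i hi x hx r g j hg hj := by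
    have hD := hF.dD
    exact comp_deg hF h1 (by omega) (by omega) x hx r g j hg hj
  c0_deg k h1 hk i hi x hx hne := by
    have hD := hF.dD
    exact c0_deg hF h1 (by omega) (by omega) x hx hne
  c0_Sq k h1 hk i hi x hx a ha := by
    have hD := hF.dD
    exact c0_Sq hF h1 (by omega) (by omega) x hx a ha
  comp_inj k h1 hk i hi x hx h0 hr := by
    have hD := hF.dD
    exact comp_inj hF h1 (by omega) (by omega) x hx h0 hr
  comp_sig k h1 hk i hi x hx r := by
    have hD := hF.dD
    exact comp_sig hF h1 (by omega) (by omega) x hx r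
  c0_x := c0_x hF
  lowest i hi1 hi x hx hne := by
    have hD := hF.dD
    exact lowest hF hL hi1 (by omega) x hx hne

end Crest.Agent.R204.Thm3Glue
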