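import Crest.Agent.R204.HopfZ2_407
import Crest.Agent.R204.Thm3g_737

/-!
Row 204: `LowL` (the lowest weight component) in the form of `Thm3f_737` (helper407).
-/

set_option autoImplicit false

noncomputable section

namespace Crest.Agent.R204.HopfZ407

open Crest.Agent.R204 Crest.Agent.R204.Spec114

theorem Hyp.lowL {X : Tower} {D : ℕ} (h : Hyp X D) : Thm3Glue.LowL X D := by
  intro i hi1 hi x hx hb hp hne
  obtain ⟨r, hr, _, h2, h3, h4, h5⟩ := h.lowest hi1 hi hx hb hp hne
  exact ⟨r, hr, h.wc (2 ^ r) x, h3, h2, h4, h5⟩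

/-- all the outputs of Theorem 3 and of the `k = 0` analysis, unconditionally -/
def t3out {Y : Spec114.Tower} {S : Sph Y} {D d : ℕ} (hF : Facts Y S D d) :
    Glue114.T3Out DickInst91.dick Y d :=
  Thm3Glue.t3out hF (Thm3Glue.hyp hF).lowL

end Crest.Agent.R204.HopfZ407
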