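import Crest.Agent.R204.Defs

/-!
# Row 204, block C (helper265): moments of step functions

`EG V` : simplices are tuples; `sk M K` : skeleton; explicit simplicial maps
`sk M (EG (Inj F)) → Sing (Conf F (Fin (M+1) → ℝ))`, equivariant for relabelling of `F`.
-/

set_option autoImplicit false

namespace Crest.Agent.R204

open Finset

namespace Moment265

/-! ## step functions on the simplex -/

section Step

variable {n : ℕ}

/-- partial sum strictly below `k` -/
def lo (t : Fin n → ℝ) (k : Fin n) : ℝ := ∑ l ∈ univ.filter (fun l => l < k), t l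

/-- partial sum up to `k` -/
def hi (t : Fin n → ℝ) (k : Fin n) : ℝ := ∑ l ∈ univ.filter (fun l => l ≤ k), t l

theorem hi_eq (t : Fin n → ℝ) (k : Fin n) : hi t k = lo t k + t k := by
  unfold hi lo
  have : univ.filter (fun l : Fin n => l ≤ k) = insert k (univ.filter (fun l => l < k)) := by
    ext l; simp [le_iff_eq_or_lt]
  rw [this, sum_insert (by simp), add_comm]

/-- telescoping along a down-closed set of indices -/
theorem tele (F : ℝ → ℝ) (t : Fin n → ℝ) (S : Finset (Fin n))
    (hS : ∀ a ∈ S, ∀ b, b ≤ a → b ∈ S) :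
    ∑ k ∈ S, (F (hi t k) - F (lo t k)) = F (∑ k ∈ S, t k) - F 0 := by
  induction S using Finset.induction_on_max with
  | empty => simp
  | insert a s ha ih =>
    have hs : s = univ.filter (fun l => l < a) := by
      ext b
      simp only [mem_filter, mem_univ, true_and]
      constructor
      · exact ha b
      · intro hb
        have := hS a (mem_insert_self _ _) b hb.le
        rcases mem_insert.1 this with h | h
        · exact absurd h hb.ne
        · exact h
    have hna : a ∉ s := fun h => lt_irrefl _ (ha a h)
    rw [sum_insert hna, sum_insert hna, ih]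
    · have h1 : ∑ k ∈ s, t k = lo t a := by rw [hs]; rfl
      rw [h1, hi_eq, add_comm (t a)]
      ring
    · intro x hx b hb
      rw [hs]
      simp only [mem_filter, mem_univ, true_and]
      exact lt_of_le_of_lt hb (ha x hx)

/-- Stieltjes sum of the step function with values `w` against `dF` -/
def MF (F : ℝ → ℝ) (w : Fin n → ℝ) (t : Fin n → ℝ) : ℝ := ∑ k, w k * (F (hi t k) - F (lo t k))

/-- push-forward of a weight along a map of index sets -/
def push {m n : ℕ} (f : Fin m → Fin n) (t : Fin m → ℝ) : Fin n → ℝ :=
  fun i => ∑ k ∈ univ.filter (fun k => f k = i), t k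

theorem sum_filter_push {m n : ℕ} (f : Fin m → Fin n) (t : Fin m → ℝ) (p : Fin n → Prop)
    [DecidablePred p] :
    ∑ i ∈ univ.filter p, push f t i = ∑ k ∈ univ.filter (fun k => p (f k)), t k := by
  unfold push
  rw [← sum_biUnion]
  · congr 1
    ext k
    simp
  · intro i _ j _ hij
    simp only [Function.onFun]
    rw [disjoint_left]
    intro k hk hk'
    simp only [mem_filter, mem_univ, true_and] at hk hk'
    exact hij (hk.symm.trans hk')

theorem MF_push {m n : ℕ} (f : Fin m → Fin n) (hf : Monotone f) (F : ℝ → ℝ) (w : Fin n → ℝ)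
    (t : Fin m → ℝ) : MF F (w ∘ f) t = MF F w (push f t) := by
  unfold MF
  have key : ∀ i : Fin n, ∑ k ∈ univ.filter (fun k => f k = i), (F (hi t k) - F (lo t k)) =
      F (hi (push f t) i) - F (lo (push f t) i) := by
    intro i
    have h1 := tele F t (univ.filter (fun k => f k ≤ i)) (by
      intro a ha b hb
      simp only [mem_filter, mem_univ, true_and] at ha ⊢
      exact (hf hb).trans ha)
    have h2 := tele F t (univ.filter (fun k => f k < i)) (by
      intro a ha b hb
      simp only [mem_filter, mem_univ, true_and] at ha ⊢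
      exact lt_of_le_of_lt (hf hb) ha)
    have h3 : univ.filter (fun k => f k ≤ i) =
        univ.filter (fun k => f k = i) ∪ univ.filter (fun k => f k < i) := by
      ext k; simp [le_iff_eq_or_lt]
    have h4 : Disjoint (univ.filter (fun k => f k = i)) (univ.filter (fun k => f k < i)) := by
      rw [disjoint_left]
      intro k hk hk'
      simp only [mem_filter, mem_univ, true_and] at hk hk'
      exact absurd hk hk'.ne
    have h5 : hi (push f t) i = ∑ k ∈ univ.filter (fun k => f k ≤ i), t k :=
      sum_filter_push f t (fun l => l ≤ i)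
    have h6 : lo (push f t) i = ∑ k ∈ univ.filter (fun k => f k < i), t k :=
      sum_filter_push f t (fun l => l < i)
    have h8 : ∑ k ∈ univ.filter (fun k => f k ≤ i), (F (hi t k) - F (lo t k)) =
        ∑ k ∈ univ.filter (fun k => f k = i), (F (hi t k) - F (lo t k)) +
        ∑ k ∈ univ.filter (fun k => f k < i), (F (hi t k) - F (lo t k)) := by
      rw [h3, sum_union h4]
    rw [h5, h6]
    linarith
  have h7 : ∀ i : Fin n, w i * (F (hi (push f t) i) - F (lo (push f t) i)) =
      ∑ k ∈ univ.filter (fun k => f k = i), (w ∘ f) k * (F (hi t k) - F (lo t k)) := by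
    intro i
    rw [← key, mul_sum]
    refine sum_congr rfl fun k hk => ?_
    simp only [mem_filter, mem_univ, true_and] at hk
    simp [hk]
  rw [sum_congr rfl (fun i _ => h7 i)]
  rw [← sum_biUnion]
  · refine sum_congr ?_ fun _ _ => rfl
    ext k; simp
  · intro i _ j _ hij
    simp only [Function.onFun]
    rw [disjoint_left]
    intro k hk hk'
    simp only [mem_filter, mem_univ, true_and] at hk hk'
    exact hij (hk.symm.trans hk')

/-! ## non-vanishing -/

/-- indices where the weight changes sign -/
noncomputable def chg (w : Fin n → ℝ) : Finset (Fin n) :=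
  univ.filter (fun i => ∃ i' : Fin n, (i' : ℕ) + 1 = i ∧ w i' * w i < 0)

theorem sign_chg (w : Fin (n + 1) → ℝ) (hw : ∀ k, w k ≠ 0) (k : Fin (n + 1)) :
    0 < w k * (-1) ^ ((chg w).filter (fun i => k < i)).card * w (Fin.last n) := by
  induction k using Fin.reverseInduction with
  | last =>
    have : (chg w).filter (fun i => Fin.last n < i) = ∅ := by
      ext i
      simp only [mem_filter, notMem_empty, iff_false, not_and, not_lt]
      exact fun _ => Fin.le_last i
    rw [this]
    simp only [card_empty, pow_zero, mul_one]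
    exact mul_self_pos.2 (hw _)
  | cast i ih =>
    by_cases h : w i.castSucc * w i.succ < 0
    · have h1 : (chg w).filter (fun j => i.castSucc < j) =
          insert i.succ ((chg w).filter (fun j => i.succ < j)) := by
        ext j
        simp only [mem_filter, mem_insert, chg, mem_univ, true_and]
        constructor
        · rintro ⟨h2, h3⟩
          rcases (Fin.castSucc_lt_iff_succ_le.1 h3).eq_or_lt with h4 | h4
          · exact Or.inl h4.symm
          · exact Or.inr ⟨h2, h4⟩
        · rintro (rfl | ⟨h2, h3⟩)
          · exact ⟨⟨i.castSucc, by simp, h⟩, Fin.castSucc_lt_succ⟩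
          · exact ⟨h2, Fin.castSucc_lt_succ.trans h3⟩
      rw [h1, card_insert_of_notMem (by simp), pow_succ]
      set e : ℝ := (-1) ^ ((chg w).filter (fun j => i.succ < j)).card with he
      have h5 : (w i.castSucc * w i.succ) * (w i.succ * e * w (Fin.last n)) < 0 :=
        mul_neg_of_neg_of_pos h ih
      have h6 : 0 ≤ w i.succ ^ 2 := sq_nonneg _
      by_contra hcon
      have hcon' : 0 ≤ w i.castSucc * e * w (Fin.last n) := by linarith [not_lt.1 hcon]
      have := mul_nonneg h6 hcon'
      linarith [this, h5, show w i.succ ^ 2 * (w i.castSucc * e * w (Fin.last n)) =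
        (w i.castSucc * w i.succ) * (w i.succ * e * w (Fin.last n)) by ring]
    · have h1 : (chg w).filter (fun j => i.castSucc < j) =
          ((chg w).filter (fun j => i.succ < j)) := by
        ext j
        simp only [mem_filter, chg, mem_univ, true_and]
        constructor
        · rintro ⟨h2, h3⟩
          rcases (Fin.castSucc_lt_iff_succ_le.1 h3).eq_or_lt with h4 | h4
          · exfalso
            obtain ⟨i', hi', h5⟩ := h2
            have : i' = i.castSucc := by
              ext
              rw [← h4] at hi'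
              simp at hi'
              simp [hi']
            rw [this, ← h4] at h5
            exact h h5
          · exact ⟨h2, h4⟩
        · rintro ⟨h2, h3⟩
          exact ⟨h2, Fin.castSucc_lt_succ.trans h3⟩
      rw [h1]
      have h5 : 0 < w i.castSucc * w i.succ :=
        lt_of_le_of_ne (not_lt.1 h) (mul_ne_zero (hw _) (hw _)).symm
      have h6 : 0 < w i.succ ^ 2 := by
        have := hw i.succ
        positivity
      have h7 : 0 < (w i.castSucc * (-1) ^ ((chg w).filter (fun i_1 => i.succ < i_1)).card *
        w (Fin.last n)) * w i.succ ^ 2 := by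
        have := mul_pos h5 ih
        calc _ < _ := this
          _ = _ := by ring
      exact (pos_iff_pos_of_mul_pos h7).2 h6

/-- the polynomial with simple zeros at the sign changes -/
noncomputable def chgPoly (w : Fin n → ℝ) (t : Fin n → ℝ) : Polynomial ℝ :=
  ∏ i ∈ chg w, (Polynomial.X - Polynomial.C (lo t i))

theorem lo_mono (t : Fin n → ℝ) (ht : ∀ k, 0 ≤ t k) {i j : Fin n} (h : i ≤ j) : lo t i ≤ lo t j := by
  unfold lo
  apply sum_le_sum_of_subset_of_nonneg
  · intro l hl
    simp only [mem_filter, mem_univ, true_and] at hl ⊢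
    exact lt_of_lt_of_le hl h
  · exact fun _ _ _ => ht _

theorem hi_le_lo (t : Fin n → ℝ) (ht : ∀ k, 0 ≤ t k) {i j : Fin n} (h : i < j) : hi t i ≤ lo t j := by
  unfold lo hi
  apply sum_le_sum_of_subset_of_nonneg
  · intro l hl
    simp only [mem_filter, mem_univ, true_and] at hl ⊢
    exact lt_of_le_of_lt hl h
  · exact fun _ _ _ => ht _

theorem chgPoly_sign (w : Fin n → ℝ) (t : Fin n → ℝ) (ht : ∀ k, 0 ≤ t k) (k : Fin n) (s : ℝ)
    (h1 : lo t k < s) (h2 : s < hi t k) :
    0 < (chgPoly w t).eval s * (-1) ^ ((chg w).filter (fun i => k < i)).card := by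
  unfold chgPoly
  rw [Polynomial.eval_prod, ← prod_filter_mul_prod_filter_not (chg w) (fun i => k < i),
    mul_assoc, mul_comm (∏ x ∈ (chg w).filter (fun i => ¬ k < i), _), ← mul_assoc, ← prod_const,
    ← prod_mul_distrib]
  refine mul_pos (prod_pos fun i hi => ?_) (prod_pos fun i hi => ?_)
  · simp only [mem_filter] at hi
    simp only [Polynomial.eval_sub, Polynomial.eval_X, Polynomial.eval_C]
    have := hi_le_lo t ht hi.2
    linarith
  · simp only [mem_filter, not_lt] at hi
    simp only [Polynomial.eval_sub, Polynomial.eval_X, Polynomial.eval_C]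
    have := lo_mono t ht hi.2
    linarith

theorem chg_card (w : Fin (n + 1) → ℝ) : (chg w).card ≤ n := by
  have : chg w ⊆ univ.erase 0 := by
    intro i hi
    simp only [chg, mem_filter, mem_univ, true_and, mem_erase, and_true] at hi ⊢
    rintro rfl
    obtain ⟨i', h, _⟩ := hi
    simp at h
  calc (chg w).card ≤ (univ.erase (0 : Fin (n + 1))).card := card_le_card this
    _ = n := by simp

theorem chgPoly_natDegree (w : Fin (n + 1) → ℝ) (t : Fin (n + 1) → ℝ) :
    (chgPoly w t).natDegree ≤ n := by
  unfold chgPoly
  refine (Polynomial.natDegree_prod_le _ _).trans ?_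
  refine le_trans (sum_le_card_nsmul _ _ 1 fun i _ => ?_) ?_
  · simp
  · simpa using chg_card w

/-- antiderivative -/
noncomputable def anti (P : Polynomial ℝ) (M : ℕ) (s : ℝ) : ℝ :=
  ∑ j ∈ range (M + 1), P.coeff j / (j + 1) * s ^ (j + 1)

theorem anti_hasDerivAt (P : Polynomial ℝ) (M : ℕ) (hM : P.natDegree ≤ M) (s : ℝ) :
    HasDerivAt (anti P M) (P.eval s) s := by
  unfold anti
  have h : P.eval s = ∑ j ∈ range (M + 1), P.coeff j / (j + 1) * ((j + 1 : ℕ) * s ^ j) := by
    rw [Polynomial.eval_eq_sum_range' (Nat.lt_succ_of_le hM)]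
    refine sum_congr rfl fun j _ => ?_
    have : (j : ℝ) + 1 ≠ 0 := by positivity
    push_cast
    field_simp
  rw [h]
  apply HasDerivAt.fun_sum
  intro j _
  have := (hasDerivAt_pow (j + 1) s).const_mul (P.coeff j / (j + 1))
  simpa using this

theorem MF_anti (P : Polynomial ℝ) (M : ℕ) (w t : Fin n → ℝ) :
    MF (anti P M) w t = ∑ j ∈ range (M + 1), P.coeff j / (j + 1) * MF (fun s => s ^ (j + 1)) w t := by
  unfold MF anti
  simp only [← sum_sub_distrib, mul_sum]
  rw [sum_comm]
  refine sum_congr rfl fun j _ => sum_congr rfl fun k _ => by ring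

theorem MF_ne (w : Fin (n + 1) → ℝ) (hw : ∀ k, w k ≠ 0) (t : Fin (n + 1) → ℝ) (ht : ∀ k, 0 ≤ t k)
    (hsum : ∑ k, t k = 1) {M : ℕ} (hM : n ≤ M) :
    ∃ j : Fin (M + 1), MF (fun s => s ^ ((j : ℕ) + 1)) w t ≠ 0 := by
  by_contra hcon
  push Not at hcon
  have h0 : MF (anti (chgPoly w t) M) w t = 0 := by
    rw [MF_anti]
    refine sum_eq_zero fun j hj => ?_
    rw [hcon ⟨j, mem_range.1 hj⟩, mul_zero]
  have hd := anti_hasDerivAt (chgPoly w t) M ((chgPoly_natDegree w t).trans hM)
  have key : ∀ k, 0 ≤ w k * (anti (chgPoly w t) M (hi t k) - anti (chgPoly w t) M (lo t k)) *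
      w (Fin.last n) ∧ (0 < t k → 0 < w k * (anti (chgPoly w t) M (hi t k) -
        anti (chgPoly w t) M (lo t k)) * w (Fin.last n)) := by
    intro k
    rcases (ht k).eq_or_lt with h | h
    · rw [hi_eq, ← h]
      simp
    · have hlt : lo t k < hi t k := by rw [hi_eq]; linarith
      obtain ⟨s, hs, hs'⟩ := exists_hasDerivAt_eq_slope (anti (chgPoly w t) M)
        (fun s => (chgPoly w t).eval s) hlt (fun x _ => (hd x).continuousAt.continuousWithinAt)
        (fun x _ => hd x)
      have h1 := chgPoly_sign w t ht k s hs.1 hs.2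
      have h2 := sign_chg w hw k
      have h3 : 0 < hi t k - lo t k := by linarith
      have h4 : anti (chgPoly w t) M (hi t k) - anti (chgPoly w t) M (lo t k) =
          (chgPoly w t).eval s * (hi t k - lo t k) := by
        rw [hs']; field_simp
      have h5 : 0 < w k * (anti (chgPoly w t) M (hi t k) - anti (chgPoly w t) M (lo t k)) *
          w (Fin.last n) := by
        rw [h4]
        set e : ℝ := (-1) ^ ((chg w).filter (fun i => k < i)).card with he
        have he2 : e * e = 1 := by
          rw [he, ← pow_add, ← two_mul, pow_mul]; simp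
        have := mul_pos (mul_pos h1 h2) h3
        calc 0 < _ := this
          _ = (e * e) * (w k * ((chgPoly w t).eval s * (hi t k - lo t k)) * w (Fin.last n)) := by ring
          _ = _ := by rw [he2, one_mul]
      exact ⟨h5.le, fun _ => h5⟩
  have hpos : ∃ k, 0 < t k := by
    by_contra h
    push Not at h
    have : ∑ k, t k ≤ 0 := sum_nonpos fun k _ => h k
    linarith
  obtain ⟨k0, hk0⟩ := hpos
  have : 0 < MF (anti (chgPoly w t) M) w t * w (Fin.last n) := by
    unfold MF
    rw [sum_mul]
    exact sum_pos' (fun k _ => (key k).1) ⟨k0, mem_univ _, (key k0).2 hk0⟩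
  rw [h0, zero_mul] at this
  exact lt_irrefl _ this

end Step

end Moment265

end Crest.Agent.R204
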