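import Crest.Agent.R204.GeoB_979
import Crest.Agent.R204.BarOf_170

/-!
# Row 204, leaf B.S (helper94), general part

* associativity of the Pontryagin product of a `PFib` from the simplicial identities,
* powers `pw x j`, the multiplicative family `phi1 x : (Unit →₀ ℕ) → H G`,
* the loop theorem for a base whose homology is that of a sphere: every class of positive degree of
  `H_* G` is a power of `x`.
-/

set_option autoImplicit false

noncomputable section

namespace Crest.Agent.R204.OmS94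

open Crest.Agent.R204 Crest.Agent.R204.Bis343 Crest.Agent.R204.Bis343.BSS Crest.Agent.R204.Bar170
  Crest.Agent.R204.Coalg847 Crest.Agent.R204.Bar334 Crest.Agent.R204.Geo979
open TensorProduct

variable (X : PFib) (hi : SpecA.HomotopyInv) (Z : EZData)

include hi in
theorem mulH_assoc (a b c : H F2 X.G) :
    X.mulH Z (X.mulH Z a b) c = X.mulH Z a (X.mulH Z b c) := by
  refine X.al_ptE_inj hi Z ?_
  have ff : ((cech X.π).colMap (Op.face (1 : Fin 3))).comp ((cech X.π).colMap (Op.face (2 : Fin 4))) =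
      ((cech X.π).colMap (Op.face (1 : Fin 3))).comp ((cech X.π).colMap (Op.face (1 : Fin 4))) := by
    rw [← BSS.colMap_comp, ← BSS.colMap_comp]
    rw [Ch.face_face (n := 1) 2 1 1 1 (by decide) rfl (by decide)]
  have h1 : ∀ y, X.fa 1 1 (X.fa 2 2 y) = X.fa 1 1 (X.fa 2 1 y) := fun y => by
    rw [PFib.fa, PFib.fa, PFib.fa, map_comp', map_comp', ff]
  have h2 := h1 (X.alL Z 2 a (X.alL Z 1 b (X.alL Z 0 c X.ptE)))
  have e2 : X.fa 2 2 (X.alL Z 2 a (X.alL Z 1 b (X.alL Z 0 c X.ptE))) =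
      X.alL Z 1 a (X.alL Z 0 (X.mulH Z b c) X.ptE) := by
    have e : (2 : Fin 4) = Fin.succ (Fin.succ 0) := rfl
    rw [PFib.alL_apply X Z 2 a, e, X.fa_succ_alpha Z 1 0 a]
    have e' : (Fin.succ 0 : Fin 3) = 1 := rfl
    rw [e', PFib.alL_apply X Z 1 b, PFib.alL_apply X Z 0 c, X.fa_one_alpha hi Z]
    rfl
  have e1 : X.fa 2 1 (X.alL Z 2 a (X.alL Z 1 b (X.alL Z 0 c X.ptE))) =
      X.alL Z 1 (X.mulH Z a b) (X.alL Z 0 c X.ptE) := by
    rw [PFib.alL_apply X Z 2 a, PFib.alL_apply X Z 1 b, X.fa_one_alpha hi Z]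
    rfl
  rw [e2, e1] at h2
  have f : ∀ u v : H F2 X.G, X.fa 1 1 (X.alL Z 1 u (X.alL Z 0 v X.ptE)) =
      X.alL Z 0 (X.mulH Z u v) X.ptE := fun u v => by
    rw [PFib.alL_apply X Z 1 u, PFib.alL_apply X Z 0 v, X.fa_one_alpha hi Z]
    rfl
  rw [f, f] at h2
  exact h2.symm

/-- powers of a class -/
def pw (x : H F2 X.G) : ℕ → H F2 X.G
  | 0 => vtx X.e
  | n + 1 => X.mulH Z x (pw x n)

@[simp] theorem pw_zero (x : H F2 X.G) : pw X Z x 0 = vtx X.e := rfl
theorem pw_succ (x : H F2 X.G) (n : ℕ) : pw X Z x (n + 1) = X.mulH Z x (pw X Z x n) := rfl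

include hi in
theorem pw_one (x : H F2 X.G) : pw X Z x 1 = x := X.mulH_one_right hi Z x

include hi in
theorem pw_add (x : H F2 X.G) (m n : ℕ) :
    X.mulH Z (pw X Z x m) (pw X Z x n) = pw X Z x (m + n) := by
  induction m with
  | zero => rw [pw_zero, Nat.zero_add]; exact X.mulH_one_left hi Z _
  | succ m ih => rw [pw_succ, mulH_assoc X hi Z, ih, Nat.succ_add, pw_succ]

theorem pw_mem {k : ℕ} {x : H F2 X.G} (hx : x ∈ H.gr F2 X.G k) (n : ℕ) :
    pw X Z x n ∈ H.gr F2 X.G (n * k) := by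
  induction n with
  | zero => rw [pw_zero, Nat.zero_mul]; exact vtx_mem_gr _
  | succ n ih =>
    rw [pw_succ, Nat.succ_mul, add_comm]
    exact hMap_mem_gr _ (Z.cr_mem_gr hx ih)

/-- the multiplicative family of powers -/
def phi1 (x : H F2 X.G) (m : Unit →₀ ℕ) : H F2 X.G := pw X Z x (m ())

theorem phi1_mem {k : ℕ} {x : H F2 X.G} (hx : x ∈ H.gr F2 X.G k) (m : Unit →₀ ℕ) :
    phi1 X Z x m ∈ H.gr F2 X.G (wt1 (fun _ : Unit => k) m) := by
  have : wt1 (fun _ : Unit => k) m = m () * k := by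
    rw [wt1, Finsupp.sum_fintype _ _ (by simp)]
    simp
  rw [this]
  exact pw_mem X Z hx _

theorem phi1_mult (conn : ∀ x ∈ H.gr F2 X.G 0, ∃ r : F2, x = r • vtx X.e) {k : ℕ} (hk : 1 ≤ k)
    {x : H F2 X.G} (hx : x ∈ H.gr F2 X.G k) :
    E1_459.BarMod.Mult (X.barMod hi Z conn) (phi1 X Z x) where
  zero := rfl
  add a b := pw_add X hi Z x _ _
  eps m hm := by
    have h : m () ≠ 0 := fun h => hm (Finsupp.ext fun u => by
      obtain rfl : u = () := rfl
      exact h)
    exact eps_gr (Nat.mul_ne_zero h (by omega)) (pw_mem X Z hx (m ()))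

/-! ### the theorem -/

section main
variable {X}
variable {k : ℕ} (hk : 1 ≤ k) {x : H F2 X.G} (hx : x ∈ H.gr F2 X.G k)
  {Ps : Finset Unit → H F2 X.K}
  {B : BarData (FCof (cech X.π)) (fun _ : Unit => k) (Koszul459.bd (ι := Unit))
    (Koszul459.asym (ι := Unit))}
  (O : BarOK X Z (phi1 X Z x) (fun _ : Unit => k) Ps B)
  (hK : ∀ t, 1 ≤ t → t ≠ k + 1 → H.gr F2 X.K t = ⊥)
  (hKk : H.gr F2 X.K (k + 1) ≤ Submodule.span F2 {Ps {()}})
  (hne : Ps {()} ≠ 0)

include O hne in
theorem indepU (N : ℕ) : Indep (FCof (cech X.π)) B N := by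
  rintro t ht c hc ⟨y, -, hy⟩
  have e : (c.sum fun i r => r • B.Psi {i}) = c () • B.Psi {()} := by
    rw [Finsupp.sum_fintype _ _ (by simp)]
    simp
  rw [e] at hy
  have h1 : evK X.π ⟨B.Psi {()}, B.Psi_d {()}⟩ = Ps {()} := O.Psi_ev _
  have h2 := evK_bd X.π ((c ()) • ⟨B.Psi {()}, B.Psi_d {()}⟩) ⟨y, hy⟩
  rw [map_smul, h1] at h2
  have h3 : c () = 0 := by
    by_contra h
    exact hne ((smul_eq_zero.1 h2).resolve_left h)
  exact Finsupp.ext fun _ => h3

include O hK hKk in
theorem spanU (N : ℕ) : Span (FCof (cech X.π)) B N := by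
  intro n hn1 hn z hz hdz
  have h0 := evK_gr X.π n ⟨z, hdz⟩ hz
  by_cases h : n = k + 1
  · subst h
    obtain ⟨r, hr⟩ := Submodule.mem_span_singleton.1 (hKk h0)
    have hP : B.Psi {()} ∈ (cech X.π).grT (k + 1) := by
      have := B.Psi_gr {()}
      have e : degS (fun _ : Unit => k) {()} = k + 1 := by
        rw [degS]; simp [add_comm]
      rw [e] at this
      exact this
    obtain ⟨y, hy, hyd⟩ := evK_ker X.π X.onto (k + 1)
      (⟨z, hdz⟩ - r • ⟨B.Psi {()}, B.Psi_d {()}⟩) (Submodule.sub_mem _ hz (Submodule.smul_mem _ _ hP))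
      (by rw [map_sub, map_smul, O.Psi_ev, hr, sub_self])
    refine ⟨Finsupp.single {()} r, ?_, y, hy, ?_⟩
    · intro S hS
      have := Finsupp.support_single_subset hS
      rw [Finset.mem_singleton] at this
      subst this
      rw [degS]; simp [add_comm]
    · rw [Finsupp.sum_single_index (by simp)]
      have : z - r • B.Psi {()} = Tot.D _ y := hyd.symm
      have h2 : z = r • B.Psi {()} + (z - r • B.Psi {()}) := by abel
      rw [h2, this]
  · have h1 : evK X.π ⟨z, hdz⟩ = 0 := by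
      rw [hK n hn1 h] at h0
      exact (Submodule.mem_bot _).1 h0
    obtain ⟨y, hy, hyd⟩ := evK_ker X.π X.onto n ⟨z, hdz⟩ hz h1
    refine ⟨0, by simp, y, hy, ?_⟩
    rw [Finsupp.sum_zero_index, zero_add]
    exact hyd.symm

/-- the word of one letter `x^j` -/
def w1 (j : ℕ) (hj : j ≠ 0) : NMon Unit :=
  ⟨Finsupp.single () j, fun h => hj (by simpa using DFunLike.congr_fun h ())⟩

theorem nmon_unit (m : NMon Unit) : ∃ hj : m.1 () ≠ 0, m = w1 (m.1 ()) hj := by
  have hj : m.1 () ≠ 0 := fun h => m.2 (Finsupp.ext fun _ => h)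
  refine ⟨hj, Subtype.ext (Finsupp.ext fun _ => ?_)⟩
  show m.1 () = Finsupp.single () (m.1 ()) ()
  rw [Finsupp.single_eq_same]

theorem wt_w1 (j : ℕ) (hj : j ≠ 0) : wt (fun _ : Unit => k) [w1 j hj] = j * k := by
  rw [wt, List.map_cons, List.map_nil, List.sum_cons, List.sum_nil, add_zero, wt1, w1]
  simp

include hi hx hk O hK hKk hne in
/-- **every class of positive degree is a power of `x`** -/
theorem loop_sphere {t : ℕ} (ht : 1 ≤ t) {y : H F2 X.G} (hy : y ∈ H.gr F2 X.G t) :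
    y = 0 ∨ ∃ j, j * k = t ∧ y = pw X Z x j := by
  have key := k2 (FCof (cech X.π)) Unit (fun _ => k) _ _ B (K1_459.k1 _) (t + 1)
    (indepU Z O hne (t + 1)) (spanU Z O hK hKk (t + 1)) t ht
  obtain ⟨θ, h1, h2⟩ := j1_lead X Z t hy
  obtain ⟨b, hb, hbW⟩ := key.2 (by omega) θ h1
  have hW : O.jE (j1 X Z y) = B.W b := by rw [← h2, ← O.lead_eq, hbW]
  -- the support of `b`
  by_cases hdiv : ∃ j, j * k = t
  · obtain ⟨j, hj⟩ := hdiv
    have hj0 : j ≠ 0 := by rintro rfl; omega
    have hbs : b = Finsupp.single [w1 j hj0] (b [w1 j hj0]) := by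
      refine Finsupp.ext fun w => ?_
      by_cases hw : w = [w1 j hj0]
      · subst hw; rw [Finsupp.single_eq_same]
      · rw [Finsupp.single_eq_of_ne hw]
        by_contra hne'
        have hmem := (Finsupp.mem_supported _ _).1 hb (Finsupp.mem_support_iff.2 hne')
        obtain ⟨hl, hwt⟩ := hmem
        obtain ⟨m, rfl⟩ := List.length_eq_one_iff.1 hl
        obtain ⟨hm, e⟩ := nmon_unit m
        apply hw
        rw [e, wt_w1] at hwt
        have : m.1 () = j := Nat.eq_of_mul_eq_mul_right (by omega) (hwt.trans hj.symm)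
        rw [e]
        simp only [this]
    have hc : b [w1 j hj0] = 0 ∨ b [w1 j hj0] = 1 := by
      generalize b [w1 j hj0] = c
      revert c; decide
    have hWc : B.W b = b [w1 j hj0] • O.jE (j1 X Z (pw X Z x j)) := by
      conv_lhs => rw [hbs]
      have : Finsupp.single [w1 j hj0] (b [w1 j hj0]) = b [w1 j hj0] • Finsupp.single [w1 j hj0] (1 : F2) := by
        rw [Finsupp.smul_single, smul_eq_mul, mul_one]
      have e2 : phi1 X Z x (w1 j hj0).1 = pw X Z x j := by
        show pw X Z x (Finsupp.single () j ()) = _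
        rw [Finsupp.single_eq_same]
      rw [this, map_smul, O.W_eq, e2]
    rw [hWc, ← map_smul, ← map_smul] at hW
    have h3 := O.jE_inj hW
    have h4 : y = b [w1 j hj0] • pw X Z x j := by
      have h5 : y - b [w1 j hj0] • pw X Z x j ∈ H.gr F2 X.G t :=
        Submodule.sub_mem _ hy (Submodule.smul_mem _ _ (hj ▸ pw_mem X Z hx j))
      have h6 := j1_inj X hi Z ht h5 (by rw [map_sub, h3, sub_self])
      exact sub_eq_zero.1 h6
    rcases hc with hc | hc
    · left; rw [h4, hc, zero_smul]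
    · right; exact ⟨j, hj, by rw [h4, hc, one_smul]⟩
  · left
    have hb0 : b = 0 := by
      refine Finsupp.ext fun w => ?_
      by_contra hne'
      have hmem := (Finsupp.mem_supported _ _).1 hb (Finsupp.mem_support_iff.2 hne')
      obtain ⟨hl, hwt⟩ := hmem
      obtain ⟨m, rfl⟩ := List.length_eq_one_iff.1 hl
      obtain ⟨hm, e⟩ := nmon_unit m
      rw [e, wt_w1] at hwt
      exact hdiv ⟨_, hwt⟩
    rw [hb0, map_zero] at hW
    exact j1_inj X hi Z ht hy (O.jE_inj (by rw [hW, map_zero]))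

include hk O hK hKk hne in
/-- the powers of `x` are nonzero -/
theorem pw_ne {j : ℕ} (hj : j ≠ 0) : pw X Z x j ≠ 0 := by
  intro h0
  have ht : 1 ≤ j * k := Nat.mul_pos (by omega) (by omega)
  have key := k2 (FCof (cech X.π)) Unit (fun _ => k) _ _ B (K1_459.k1 _) (j * k + 1)
    (indepU Z O hne (j * k + 1)) (spanU Z O hK hKk (j * k + 1)) (j * k) ht
  have h1 := key.1 le_rfl (Finsupp.single [w1 j hj] 1) (by
    rw [Wd, Finsupp.mem_supported]
    intro w hw
    have := Finsupp.support_single_subset hw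
    rw [Finset.mem_singleton] at this
    subst this
    exact ⟨rfl, wt_w1 j hj⟩) (by
    rw [O.W_eq]
    have : phi1 X Z x (w1 j hj).1 = pw X Z x j := by
      show pw X Z x (Finsupp.single () j ()) = _
      rw [Finsupp.single_eq_same]
    rw [this, h0, map_zero, map_zero])
  exact one_ne_zero (Finsupp.single_eq_zero.1 h1)

end main

end Crest.Agent.R204.OmS94
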