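import Crest.Agent.R204.PF_94
import Crest.Agent.R204.LoopId_872
import Crest.Agent.R204.HZ_76
import Crest.Agent.R204.Cov2_892
import Crest.Agent.R204.Coalg_847

/-!
# Row 204, leaf B.S (helper94): topological facts about `pf b` for a simply connected base

* `G0 b` is path connected, `H_0 (Sing (G0 b)) = F2 [e]`,
* `simplyConnected_of` : `B` path connected with null homotopic loops at `b`,
* `grK_eq_bot` etc.: homology of `K = Bt b` is the homology of `B`.
-/

set_option autoImplicit false

noncomputable section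

open Set unitInterval Topology

namespace Crest.Agent.R204.OmS94

open Crest.Agent.R204 Crest.Agent.R204.SS Crest.Agent.R204.Cov892 Crest.Agent.R204.Bar170
open Crest.Agent.R204.PF872 Crest.Agent.R204.PF94

variable {B : Type} [TopologicalSpace B] {b : B}

/-- elements of `G0` are joined to the constant loop -/
theorem G0_joined (g : G0 b) : Joined g one := by
  obtain ⟨c, c0, c1⟩ := Ep755.G0.path (b0 := b) g
  exact ⟨⟨c, c0, c1⟩⟩

instance pathConnected_G0 : PathConnectedSpace (G0 b) :=
  ⟨⟨one⟩, fun g h => (G0_joined g).trans (G0_joined h).symm⟩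

/-- `H_0` of a path connected space -/
theorem gr_zero {Y : Type} [TopologicalSpace Y] [PathConnectedSpace Y] (y : Y) (x : H F2 (Sing Y))
    (hx : x ∈ H.gr F2 (Sing Y) 0) : ∃ r : F2, x = r • Coalg847.vtx (K := Sing Y) (HZ76.vtx y) := by
  obtain ⟨⟨z, hz⟩, hz', rfl⟩ := hx
  obtain ⟨w, -, hw⟩ := HZ76.exists_bd F2 y z hz'
  refine ⟨EZ271.aug F2 z, ?_⟩
  have e : EZ271.aug F2 z • Coalg847.vtx (K := Sing Y) (HZ76.vtx y) =
      Hd.mk (N.bd F2 (Sing Y)) (EZ271.aug F2 z • N.sx F2 (HZ76.vtx y)) (by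
        rw [map_smul, Gr334.bd_sx_zero, smul_zero]) := rfl
  rw [e]
  exact Hd.mk_eq_mk.2 ⟨w, hw⟩

theorem conn_pf (b : B) (x : H F2 (pf b).G) (hx : x ∈ H.gr F2 (pf b).G 0) :
    ∃ r : F2, x = r • Coalg847.vtx (pf b).e :=
  gr_zero (Y := G0 b) one x hx

/-! ## simply connected base -/

/-- path connected and all loops at one point null homotopic -/
theorem simplyConnected_of [PathConnectedSpace B] (h : ∀ γ : LB b, PEq γ.1 cst) :
    SimplyConnectedSpace B := by
  rw [simply_connected_iff_loops_nullhomotopic]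
  refine ⟨inferInstance, fun x γ => ?_⟩
  obtain ⟨p⟩ := PathConnectedSpace.joined b x
  -- `p γ p⁻¹` is null homotopic
  have h1 := h ⟨ofPath ((p.trans γ).trans p.symm), ofPath_one _⟩
  have h2 : ((p.trans γ).trans p.symm).Homotopic (Path.refl b) :=
    (pEq_iff (ofPath_one ((p.trans γ).trans p.symm)) rfl).1 h1
  -- conjugate back
  rw [← Path.Homotopic.Quotient.eq] at h2 ⊢
  simp only [Path.Homotopic.Quotient.mk_trans, Path.Homotopic.Quotient.mk_symm,
    Path.Homotopic.Quotient.mk_refl] at h2 ⊢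
  generalize Path.Homotopic.Quotient.mk p = P at h2
  generalize Path.Homotopic.Quotient.mk γ = Γ at h2
  have e : Γ = (P.symm.trans ((P.trans Γ).trans P.symm)).trans P := by
    simp only [Path.Homotopic.Quotient.trans_assoc, Path.Homotopic.Quotient.symm_trans,
      Path.Homotopic.Quotient.trans_refl]
    rw [← Path.Homotopic.Quotient.trans_assoc, Path.Homotopic.Quotient.symm_trans,
      Path.Homotopic.Quotient.refl_trans]
  rw [e, h2]
  simp

/-! ## homology of `Bt b` for a simply connected space -/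

theorem prj_H_bijective [SimplyConnectedSpace B] (x : H F2 (Bt b)) :
    H.map F2 (prjInv (b := b)) (H.map F2 (prj b) x) = x := by
  rw [← Hmap_comp, prjInv_prj, Hmap_id]

theorem prj_H_inj [SimplyConnectedSpace B] {x : H F2 (Bt b)} (h : H.map F2 (prj b) x = 0) : x = 0 := by
  rw [← prj_H_bijective x, h, map_zero]

theorem grK_eq_bot [SimplyConnectedSpace B] {t : ℕ} (h : H.gr F2 (Sing B) t = ⊥) :
    H.gr F2 (Bt b) t = ⊥ := by
  rw [eq_bot_iff]
  intro x hx
  have h1 := Gr334.H_map_mem_gr (prj b) hx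
  rw [h, Submodule.mem_bot] at h1
  rw [Submodule.mem_bot]
  exact prj_H_inj h1

theorem grK_le_span [SimplyConnectedSpace B] {t : ℕ} {y : H F2 (Bt b)}
    (h : H.gr F2 (Sing B) t ≤ Submodule.span F2 {H.map F2 (prj b) y}) :
    H.gr F2 (Bt b) t ≤ Submodule.span F2 {y} := by
  intro x hx
  obtain ⟨r, hr⟩ := Submodule.mem_span_singleton.1 (h (Gr334.H_map_mem_gr (prj b) hx))
  refine Submodule.mem_span_singleton.2 ⟨r, ?_⟩
  have : H.map F2 (prj b) (r • y - x) = 0 := by rw [map_sub, map_smul, hr, sub_self]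
  exact sub_eq_zero.1 (prj_H_inj this)

end Crest.Agent.R204.OmS94
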