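import Crest.Agent.R204.Psi3_755

/-!
# Row 204, block B (leaf P3, helper755): `BarData` of a path fibration with one generator, without any
product on the base: `Psi ∅` = the vertex, `Psi {x}` = the cycle of `x`.
-/

set_option autoImplicit false

namespace Crest.Agent.R204.Psi755

open Crest.Agent.R204 Crest.Agent.R204.Bis343 Crest.Agent.R204.EZ271 Crest.Agent.R204.Bar170
open Crest.Agent.R204.Coalg847 Crest.Agent.R204.Bar334 Crest.Agent.R204.Ind979
open Finsupp BSS BSS.Tot EZ847 TensorProduct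

section one

variable {X : PFib} (S : PSus X)
  (conn : ∀ x ∈ H.gr F2 X.G 0, ∃ r : F2, x = r • vtx X.e)
  (z : N F2 X.G) (hb : N.bd F2 X.G z = 0) {d : ℕ} (hd : 1 ≤ d) (hz : z ∈ N.gr F2 X.G d)
  (φ : (Unit →₀ ℕ) → H F2 X.G) (hv : Hd.mk (N.bd F2 X.G) z hb = φ (Finsupp.single () 1))

/-- the cycles -/
noncomputable def Psi1 (T : Finset Unit) : (cech X.π).Tot := if () ∈ T then cyc S z else psi0 X

theorem unit_cases (T : Finset Unit) : (() ∈ T ∧ T = {()} ∧ T.card = 1) ∨ (() ∉ T ∧ T = ∅ ∧ T.card = 0) := by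
  by_cases h : () ∈ T
  · have : T = {()} := by
      ext x
      simp [h]
    exact Or.inl ⟨h, this, by rw [this]; rfl⟩
  · have : T = ∅ := by
      ext x
      simp [h]
    exact Or.inr ⟨h, this, by rw [this]; rfl⟩

include hb hd hz in
theorem D_Psi1 (T : Finset Unit) : D _ (Psi1 S z T) = 0 := by
  rw [Psi1]
  split_ifs
  · obtain ⟨e, rfl⟩ : ∃ e, d = e + 1 := ⟨d - 1, by omega⟩
    exact D_cyc S hz hb
  · exact D_psi0

theorem Psi1_F (T : Finset Unit) : Psi1 S z T ∈ (cech X.π).Fp T.card := by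
  rcases unit_cases T with ⟨h, -, hc⟩ | ⟨h, -, hc⟩
  · rw [Psi1, if_pos h, hc]; exact cyc_F S z
  · rw [Psi1, if_neg h, hc]; exact psi0_F

include hz in
theorem Psi1_gr (T : Finset Unit) : Psi1 S z T ∈ (cech X.π).grT (degS (fun _ => d) T) := by
  rcases unit_cases T with ⟨h, hT, hc⟩ | ⟨h, hT, hc⟩
  · rw [Psi1, if_pos h, degS, Finset.sum_const, hc, one_smul, add_comm]; exact cyc_gr S hz
  · rw [Psi1, if_neg h, degS, Finset.sum_const, hc, zero_smul]; exact psi0_gr

include hb hv in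
theorem Psi1_lead (p : ℕ) (T : Finset Unit) (hT : T.card = p + 1)
    (h : Psi1 S z T ∈ (BSS.FCof (cech X.π)).Z (p + 1)) :
    BSS.lead (cech X.π) (p + 1) ⟨Psi1 S z T, h⟩ =
      (X.barMod hI ezd conn).Wp φ (p + 1) (Koszul459.asym T) := by
  rcases unit_cases T with ⟨hm, hT', hc⟩ | ⟨hm, -, hc⟩
  swap
  · omega
  obtain rfl : p = 0 := by omega
  have e : Psi1 S z T = cyc S z := by rw [Psi1, if_pos hm]
  have hbz : N.bd F2 (X.E 1) (N.map F2 (beta1 S) z) = 0 := by rw [← EZ271.map_bd', hb, map_zero]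
  have h1 : BSS.lead (cech X.π) 1 ⟨Psi1 S z T, h⟩ =
      Submodule.Quotient.mk (Hd.mk (N.bd F2 (X.E 1)) (N.map F2 (beta1 S) z) hbz) :=
    BSS.lead_eq_of_sub _ _ hbz (by
      show Psi1 S z T - _ ∈ _
      rw [e]; exact cyc_sub S z)
  have h2 : Hd.mk (N.bd F2 (X.E 1)) (N.map F2 (beta1 S) z) hbz =
      X.br ezd 1 (fun _ => φ (Finsupp.single () 1)) := by
    rw [← hv, ← beta1_br S]
    rfl
  have h3 := E1_459.BarMod.Wp_single (X := X.barMod hI ezd conn) (φ := φ) 1 [Koszul459.lt ()] 1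
  have h4 : Koszul459.asym T = Finsupp.single [Koszul459.lt ()] 1 := by
    rw [hT']; exact (K1_459.k1 (fun _ : Unit => 0)).asym_one ()
  rw [h4]
  refine Eq.trans ?_ h3.symm
  refine h1.trans ?_
  rw [one_smul]
  exact congrArg Submodule.Quotient.mk h2

/-- **`BarData`** with one generator -/
noncomputable def barData1 (h0 : φ 0 = vtx X.e) (hadd : ∀ a b, X.mulH ezd (φ a) (φ b) = φ (a + b))
    (hgr : ∀ m, φ m ∈ H.gr F2 X.G (wt1 (fun _ => d) m)) :
    BarData (BSS.FCof (cech X.π)) (fun _ : Unit => d) (Koszul459.bd (ι := Unit))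
      (Koszul459.asym (ι := Unit)) :=
  X.barData hI ezd conn (fun _ => d) φ (fun _ => hd)
    (X.mult_of hI ezd conn (fun _ => d) (fun _ => hd) h0 hadd hgr) hgr
    (Psi1 S z) (D_Psi1 S z hb hd hz) (Psi1_F S z) (Psi1_gr S z hz) (Psi1_lead S conn z hb φ hv)

/-- values of `Psi` in the homology of the base -/
noncomputable def Ps1 (v : H F2 X.G) (T : Finset Unit) : H F2 X.K :=
  if () ∈ T then sus S v else vtx (X.π.app 0 X.p0)

noncomputable def barOK1 (h0 : φ 0 = vtx X.e) (hadd : ∀ a b, X.mulH ezd (φ a) (φ b) = φ (a + b))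
    (hgr : ∀ m, φ m ∈ H.gr F2 X.G (wt1 (fun _ => d) m)) :
    Geo979.BarOK X ezd φ (fun _ : Unit => d) (Ps1 S (Hd.mk (N.bd F2 X.G) z hb))
      (barData1 S conn z hb hd hz φ hv h0 hadd hgr) where
  jE := (X.barMod hI ezd conn).inc 1
  jE_inj := (X.barMod hI ezd conn).inc_injective 1
  lead_eq θ := rfl
  W_eq m := by
    have hw : ∀ w ∈ (Finsupp.single [m] (1 : F2)).support, w.length = 1 := fun w hw => by
      have := Finsupp.support_single_subset hw
      rw [Finset.mem_singleton] at this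
      rw [this]; rfl
    refine ((X.barMod hI ezd conn).W_eq φ hw).trans ?_
    refine congrArg ((X.barMod hI ezd conn).inc 1) ?_
    have h3 := E1_459.BarMod.Wp_single (X := X.barMod hI ezd conn) (φ := φ) 1 [m] 1
    refine h3.trans ?_
    rw [one_smul, Geo979.j1_apply]
    rfl
  Psi_ev T := by
    rw [Geo979.evK_mk]
    rcases unit_cases T with ⟨hm, -, -⟩ | ⟨hm, -, -⟩
    · rw [Ps1, if_pos hm]
      have e : Cech.aug X.π (Psi1 S z T) = Sigma88.sgN (susE S) z := by
        rw [Psi1, if_pos hm, aug_cyc]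
      exact BSS.Hd_mk_congr e _ _
    · rw [Ps1, if_neg hm]
      have e : Cech.aug X.π (Psi1 S z T) = N.sx F2 (X.π.app 0 X.p0) := by
        rw [Psi1, if_neg hm, aug_psi0]
      exact BSS.Hd_mk_congr e _ _

end one

end Crest.Agent.R204.Psi755
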