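import Crest.Agent.R204.OmSA_94
import Crest.Agent.R204.OmSB_94
import Crest.Agent.R204.GeoC_979
import Crest.Agent.R204.Psi4_755
import Crest.Agent.R204.PiC_808
import Crest.Agent.R204.XNe_194
import Crest.Agent.R204.Sph_94d

/-!
# Row 204, leaf B.S (helper94): the homology algebra of `Ω S^(k+1)`, `k ≥ 1`

`Om (Fin 1) (Sph (k+1)) (pt (k+1))` with the product `mulS (halves 0)`:
every class of positive degree is `0` or a power of the unique nonzero class `x` of degree `k`, and all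
powers of `x` are nonzero.
-/

set_option autoImplicit false

noncomputable section

namespace Crest.Agent.R204.OmS94

open Crest.Agent.R204 Crest.Agent.R204.SS Crest.Agent.R204.Bis343 Crest.Agent.R204.Bar170
  Crest.Agent.R204.Coalg847 Crest.Agent.R204.PF872 Crest.Agent.R204.Cov892 Crest.Agent.R204.Geo979
open Crest.Agent.R204.HspSS696 (Om mulS eS)
open Crest.Agent.R204.Freu297 (Sph pt)
open TensorProduct unitInterval

/-! ### path fibration with one generator -/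

section one
variable {X : PFib} (S : PSus X)
  (conn : ∀ x ∈ H.gr F2 X.G 0, ∃ r : F2, x = r • Coalg847.vtx X.e)
  {k : ℕ} (hk : 1 ≤ k) {x : H F2 X.G} (hx : x ∈ H.gr F2 X.G k)
  (hK : ∀ t, 1 ≤ t → t ≠ k + 1 → H.gr F2 X.K t = ⊥)
  (hKk : H.gr F2 X.K (k + 1) ≤ Submodule.span F2 {Psi755.sus S x})
  (hne : Psi755.sus S x ≠ 0)

include S conn hk hx hK hKk hne in
theorem pfib_sphere : (∀ t, 1 ≤ t → ∀ y ∈ H.gr F2 X.G t,
    y = 0 ∨ ∃ j, j * k = t ∧ y = pw X EZ847.ezd x j) ∧ ∀ j, j ≠ 0 → pw X EZ847.ezd x j ≠ 0 := by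
  obtain ⟨z, hz, hb, rfl⟩ := Gr334.mem_H_gr.1 hx
  have hi := HtpInv334.homotopyInv
  have hv : Hd.mk (N.bd F2 X.G) z hb = phi1 X EZ847.ezd (Hd.mk (N.bd F2 X.G) z hb)
      (Finsupp.single () 1) := by
    show _ = pw X EZ847.ezd _ (Finsupp.single () 1 ())
    rw [Finsupp.single_eq_same, pw_one X hi]
  have O := Psi755.barOK1 S conn z hb hk hz (phi1 X EZ847.ezd (Hd.mk (N.bd F2 X.G) z hb)) hv rfl
    (fun a b => pw_add X hi EZ847.ezd _ _ _) (fun m => phi1_mem X EZ847.ezd hx m)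
  have hP : Psi755.Ps1 S (Hd.mk (N.bd F2 X.G) z hb) {()} = Psi755.sus S (Hd.mk (N.bd F2 X.G) z hb) := by
    rw [Psi755.Ps1, if_pos (by simp)]
  have hKk' : H.gr F2 X.K (k + 1) ≤
      Submodule.span F2 {Psi755.Ps1 S (Hd.mk (N.bd F2 X.G) z hb) {()}} := by rw [hP]; exact hKk
  have hne' : Psi755.Ps1 S (Hd.mk (N.bd F2 X.G) z hb) {()} ≠ 0 := by rw [hP]; exact hne
  exact ⟨fun t ht y hy => loop_sphere hi EZ847.ezd hk hx O hK hKk' hne' ht hy,
    fun j hj => pw_ne EZ847.ezd hk O hK hKk' hne' hj⟩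

end one

theorem f2_cases (c : F2) : c = 0 ∨ c = 1 := by revert c; decide

/-! ### `Ω S^(k+1)` -/

section sphere
variable {k : ℕ} (hk : 1 ≤ k)

/-- `Ω^1 S^(k+1)` -/
abbrev OS (k : ℕ) : Type := Om (Fin (0 + 1)) (Sph (k + 1)) (pt (k + 1))

theorem joined0 (x : Om (Fin 0) (Sph (k + 1)) (pt (k + 1))) : Joined x GenLoop.const :=
  Pi808.joined_const (m := k + 1) (by omega) 0 x

include hk in
theorem joined1 (x : OS k) : Joined x GenLoop.const := Pi808.joined_const (m := k) hk 1 x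

/-- homeomorphism `Ω^0 S ≃ S` -/
def e0S (k : ℕ) : Om (Fin 0) (Sph (k + 1)) (pt (k + 1)) ≃ₜ Sph (k + 1) :=
  genLoopHomeoOfIsEmpty (Fin 0) (pt (k + 1))

theorem eS_inj {a b : H F2 (Sing (Om (Fin 0) (Sph (k + 1)) (pt (k + 1))))}
    (h : H.map F2 (SingMap (hc (e0S k))) a = H.map F2 (SingMap (hc (e0S k))) b) : a = b := by
  have h2 := congrArg (H.map F2 (SingMap (hc (e0S k).symm))) h
  rwa [← hMap_comp, ← hMap_comp, singMap_homeo, hMap_id, hMap_id] at h2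

theorem gr_OS0 {t : ℕ} (h1 : t ≠ 0) (h2 : t ≠ k + 1) :
    H.gr F2 (Sing (Om (Fin 0) (Sph (k + 1)) (pt (k + 1)))) t = ⊥ := by
  obtain ⟨s, -, -, hs⟩ := Sph94.spheres k (pt (k + 1))
  rw [eq_bot_iff]
  intro x hx
  have h3 := hMap_mem_gr (SingMap (hc (e0S k))) hx
  have h4 : H.gr F2 (Sing (Sph (k + 1))) t = ⊥ := hs t h1 h2
  rw [h4, Submodule.mem_bot] at h3
  rw [Submodule.mem_bot]
  exact eS_inj (by rw [h3, map_zero])

theorem bd_sx_of_faces {Y : Type} [TopologicalSpace Y] {n : ℕ} (hn : 1 ≤ n) (y : Y)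
    (s : (Sing Y).S (n + 1)) (hs : ∀ i, (Sing Y).act (Op.face i) s = SpecA.cst y n) :
    N.bd F2 (Sing Y) (N.sx F2 s) = 0 := by
  rw [Gr334.bd_sx_succ]
  refine Finset.sum_eq_zero fun i _ => ?_
  have h : N.sx F2 ((Sing Y).act (⟨fun _ => 0, fun _ _ _ => le_rfl⟩ : Op n 0) (SpecA.cst y 0)) = 0 :=
    Gr334.sx_act_of_lt (by omega) _ _
  rw [hs i]
  have e : (Sing Y).act (⟨fun _ => 0, fun _ _ _ => le_rfl⟩ : Op n 0) (SpecA.cst y 0) = SpecA.cst y n := rfl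
  rw [e] at h
  rw [h, smul_zero]

theorem gr_OS0_top (hk : 1 ≤ k) {w : H F2 (Sing (Om (Fin 0) (Sph (k + 1)) (pt (k + 1))))}
    (hw : w ∈ H.gr F2 _ (k + 1)) (hw0 : w ≠ 0) :
    H.gr F2 (Sing (Om (Fin 0) (Sph (k + 1)) (pt (k + 1)))) (k + 1) ≤ Submodule.span F2 {w} := by
  obtain ⟨s, hs, hs2, -⟩ := Sph94.spheres k (pt (k + 1))
  have hz : N.bd F2 (Sing (Sph (k + 1))) (N.sx F2 s) = 0 := bd_sx_of_faces hk _ s hs
  have h4 : H.gr F2 (Sing (Sph (k + 1))) (k + 1) = Submodule.span F2 {Hd.mk _ (N.sx F2 s) hz} :=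
    (hs2 hz).2
  have key : ∀ u ∈ H.gr F2 (Sing (Om (Fin 0) (Sph (k + 1)) (pt (k + 1)))) (k + 1), u = 0 ∨
      H.map F2 (SingMap (hc (e0S k))) u = Hd.mk _ (N.sx F2 s) hz := by
    intro u hu
    have h5 := hMap_mem_gr (SingMap (hc (e0S k))) hu
    rw [h4] at h5
    obtain ⟨c, hc⟩ := Submodule.mem_span_singleton.1 h5
    have hc' : c = 0 ∨ c = 1 := f2_cases c
    rcases hc' with rfl | rfl
    · left
      rw [zero_smul] at hc
      exact eS_inj (by rw [← hc, map_zero])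
    · right
      rw [← hc, one_smul]
  intro u hu
  rcases key u hu with rfl | h
  · exact Submodule.zero_mem _
  · rcases key w hw with h' | h'
    · exact absurd h' hw0
    · have : u = w := eS_inj (h.trans h'.symm)
      rw [this]; exact Submodule.mem_span_singleton_self _

/-- the Pontryagin product of `Ω S^(k+1)` -/
def mO (x y : H F2 (Sing (OS k))) : H F2 (Sing (OS k)) :=
  H.map F2 (mulS (Hsp696.halves (Fin.last 0))) (EZ847.ezd.cr _ _ (x ⊗ₜ y))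

/-- powers -/
def pO (x : H F2 (Sing (OS k))) : ℕ → H F2 (Sing (OS k))
  | 0 => Coalg847.vtx (eS (J := Fin (0 + 1)) (Z := Sph (k + 1)) (z₀ := pt (k + 1)))
  | n + 1 => mO x (pO x n)

theorem pO_zero (x : H F2 (Sing (OS k))) :
    pO x 0 = Coalg847.vtx (eS (J := Fin (0 + 1)) (Z := Sph (k + 1)) (z₀ := pt (k + 1))) := rfl

theorem pO_succ (x : H F2 (Sing (OS k))) (n : ℕ) : pO x (n + 1) = mO x (pO x n) := rfl

theorem gG_pO (h1 : ∀ x : OS k, Joined x GenLoop.const) (x : H F2 (Sing (OS k))) (j : ℕ) :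
    gG h1 (pO x j) = pw (PF94.pf (bo (Sph (k + 1)) (pt (k + 1)) 0)) EZ847.ezd (gG h1 x) j := by
  induction j with
  | zero => exact (congrArg (gG h1) (pO_zero x)).trans ((gG_one h1).trans (pw_zero _ _ _).symm)
  | succ j ih =>
    exact (congrArg (gG h1) (pO_succ x j)).trans ((gG_mul h1 EZ847.ezd x (pO x j)).trans
      ((congrArg ((PF94.pf (bo (Sph (k + 1)) (pt (k + 1)) 0)).mulH EZ847.ezd (gG h1 x)) ih).trans
        (pw_succ _ _ _ _).symm))

section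
variable (h1 : ∀ x : OS k, Joined x GenLoop.const)
  (hsig : ∀ x : H F2 (Sing (OS k)), H.map F2 (prj (bo (Sph (k + 1)) (pt (k + 1)) 0))
    (Psi755.sus (PF94.psus (bo (Sph (k + 1)) (pt (k + 1)) 0)) (gG h1 x)) =
      (Sus330.genLoop 0).sigma x)

include hk hsig in
/-- **`H_*(Ω S^(k+1)) = F2[x]`** -/
theorem omS_main {x : H F2 (Sing (OS k))} (hx : x ∈ H.gr F2 _ k)
    (hx0 : (Sus330.genLoop 0).sigma x ≠ 0) :
    (∀ t, 1 ≤ t → ∀ y ∈ H.gr F2 (Sing (OS k)) t, y = 0 ∨ ∃ j, j * k = t ∧ y = pO x j) ∧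
      ∀ j, j ≠ 0 → pO x j ≠ 0 := by
  have hsc : SimplyConnectedSpace (Om (Fin 0) (Sph (k + 1)) (pt (k + 1))) := simplyConn joined0 h1
  have hgx : gG h1 x ∈ H.gr F2 (PF94.pf (bo (Sph (k + 1)) (pt (k + 1)) 0)).G k := gG_gr h1 hx
  have hw : H.map F2 (prj (bo (Sph (k + 1)) (pt (k + 1)) 0))
      (Psi755.sus (PF94.psus (bo (Sph (k + 1)) (pt (k + 1)) 0)) (gG h1 x)) ∈ H.gr F2 _ (k + 1) :=
    hMap_mem_gr _ (Sigma88.sgH_mem_gr _ hgx)
  have hw0 : H.map F2 (prj (bo (Sph (k + 1)) (pt (k + 1)) 0))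
      (Psi755.sus (PF94.psus (bo (Sph (k + 1)) (pt (k + 1)) 0)) (gG h1 x)) ≠ 0 := by
    rw [hsig]; exact hx0
  have hK : ∀ t, 1 ≤ t → t ≠ k + 1 →
      H.gr F2 (PF94.pf (bo (Sph (k + 1)) (pt (k + 1)) 0)).K t = ⊥ := fun t ht ht' =>
    grK_eq_bot (gr_OS0 (by omega) ht')
  have hKk : H.gr F2 (PF94.pf (bo (Sph (k + 1)) (pt (k + 1)) 0)).K (k + 1) ≤
      Submodule.span F2 {Psi755.sus (PF94.psus (bo (Sph (k + 1)) (pt (k + 1)) 0)) (gG h1 x)} :=
    grK_le_span (gr_OS0_top hk hw hw0)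
  have hne : Psi755.sus (PF94.psus (bo (Sph (k + 1)) (pt (k + 1)) 0)) (gG h1 x) ≠ 0 := fun h =>
    hw0 ((congrArg (H.map F2 (prj (bo (Sph (k + 1)) (pt (k + 1)) 0))) h).trans (LinearMap.map_zero _))
  obtain ⟨A, C⟩ := pfib_sphere (PF94.psus (bo (Sph (k + 1)) (pt (k + 1)) 0)) (conn_G h1) hk hgx
    hK hKk hne
  refine ⟨fun t ht y hy => ?_, fun j hj h => ?_⟩
  · rcases A t ht (gG h1 y) (gG_gr h1 hy) with h | ⟨j, hj, h⟩
    · left; exact gG_inj h1 (h.trans (LinearMap.map_zero _).symm)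
    · right
      exact ⟨j, hj, gG_inj h1 (h.trans (gG_pO h1 x j).symm)⟩
  · exact C j hj ((gG_pO h1 x j).symm.trans ((congrArg (gG h1) h).trans (LinearMap.map_zero _)))

end

end sphere

end Crest.Agent.R204.OmS94
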