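import Crest.Agent.R204.OmSC_94
import Crest.Agent.R204.SigEval_343

/-!
# Row 204, leaf B.S (helper94): `H_*(Ω S^(k+1); F2) = F2[x]`, final form
-/

set_option autoImplicit false

noncomputable section

namespace Crest.Agent.R204.OmS94

open Crest.Agent.R204 Crest.Agent.R204.SS Crest.Agent.R204.Bis343 Crest.Agent.R204.Bar170
  Crest.Agent.R204.Coalg847 Crest.Agent.R204.PF872 Crest.Agent.R204.Cov892 Crest.Agent.R204.Geo979
open Crest.Agent.R204.HspSS696 (Om mulS eS)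
open Crest.Agent.R204.Freu297 (Sph pt)
open TensorProduct unitInterval

/-- `IsX` classes exist -/
theorem exists_IsX (n : ℕ) : ∀ k j, k + j = n →
    ∃ x : H F2 (Sing (Om (Fin j) (Sph n) (pt n))), Inst194.IsX n k j x
  | 0, j, h => by
    obtain rfl : j = n := by omega
    exact ⟨_, Inst194.IsX.zero⟩
  | k + 1, j, h => by
    obtain ⟨x, hx⟩ := exists_IsX n k (j + 1) (by omega)
    exact ⟨_, hx.succ⟩

theorem IsX_mem {n k j : ℕ} {x : H F2 (Sing (Om (Fin j) (Sph n) (pt n)))} (h : Inst194.IsX n k j x) :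
    x ∈ H.gr F2 (Sing (Om (Fin j) (Sph n) (pt n))) k := by
  obtain ⟨a, hz, -, rfl⟩ := h.exists_simplex
  exact Gr334.mk_mem_gr (Gr334.sx_mem_gr a) hz

variable {k : ℕ}

/-- there is a class of degree `k` with nonzero suspension -/
theorem exists_gen (k : ℕ) : ∃ x ∈ H.gr F2 (Sing (OS k)) k, (Sus330.genLoop 0).sigma x ≠ 0 := by
  obtain ⟨x, hx⟩ := exists_IsX (k + 1) k (0 + 1) rfl
  exact ⟨x, IsX_mem hx, hx.succ.ne_zero (by omega)⟩

/-- the suspension of the path fibration is evaluation of loops (from helper343's `SigEval`) -/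
theorem sigOK (h1 : ∀ x : OS k, Joined x GenLoop.const) (x : H F2 (Sing (OS k))) :
    H.map F2 (prj (bo (Sph (k + 1)) (pt (k + 1)) 0))
      (Psi755.sus (PF94.psus (bo (Sph (k + 1)) (pt (k + 1)) 0)) (gG h1 x)) =
        (Sus330.genLoop 0).sigma x := by
  obtain ⟨z, hz, rfl⟩ := Hd.mk_surj _ x
  exact SigEval343.mk_congr (SigEval343.prj_sgN_toG' h1 z) _ _

variable (hk : 1 ≤ k)

include hk in
/-- the nonzero class of degree `k` is unique -/
theorem uniq {x y : H F2 (Sing (OS k))} (hx : x ∈ H.gr F2 _ k) (hx0 : x ≠ 0)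
    (hy : y ∈ H.gr F2 (Sing (OS k)) k) : y = 0 ∨ y = x := by
  obtain ⟨x0, h0, h00⟩ := exists_gen k
  obtain ⟨A, -⟩ := omS_main hk (joined1 hk) (sigOK (joined1 hk)) h0 h00
  have key : ∀ z ∈ H.gr F2 (Sing (OS k)) k, z = 0 ∨ z = pO x0 1 := by
    intro z hz
    rcases A k hk z hz with h | ⟨j, hj, h⟩
    · exact Or.inl h
    · have : j = 1 := Nat.eq_of_mul_eq_mul_right (by omega) (hj.trans (one_mul k).symm)
      subst this
      exact Or.inr h
  rcases key x hx with h | h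
  · exact absurd h hx0
  · rcases key y hy with h' | h'
    · exact Or.inl h'
    · exact Or.inr (h'.trans h.symm)

include hk in
theorem sigma_ne {x : H F2 (Sing (OS k))} (hx : x ∈ H.gr F2 _ k) (hx0 : x ≠ 0) :
    (Sus330.genLoop 0).sigma x ≠ 0 := by
  obtain ⟨x0, h0, h00⟩ := exists_gen k
  rcases uniq hk hx hx0 h0 with h | h
  · exact absurd (by rw [h]; exact LinearMap.map_zero _) h00
  · rwa [h] at h00

include hk in
/-- **`H_*(Ω S^(k+1)) = F2[x]`, `x` = the nonzero class of degree `k`** -/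
theorem omS {x : H F2 (Sing (OS k))} (hx : x ∈ H.gr F2 _ k) (hx0 : x ≠ 0) :
    (∀ t, 1 ≤ t → ∀ y ∈ H.gr F2 (Sing (OS k)) t, y = 0 ∨ ∃ j, j * k = t ∧ y = pO x j) ∧
      ∀ j, j ≠ 0 → pO x j ≠ 0 :=
  omS_main hk (joined1 hk) (sigOK (joined1 hk)) hx (sigma_ne hk hx hx0)

theorem mO_one (hk : 1 ≤ k) (x : H F2 (Sing (OS k))) :
    mO x (Coalg847.vtx (eS (J := Fin (0 + 1)) (Z := Sph (k + 1)) (z₀ := pt (k + 1)))) = x := by
  have h1 := joined1 hk
  refine gG_inj h1 ?_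
  refine (gG_mul h1 EZ847.ezd x _).trans ?_
  refine (congrArg ((PF94.pf (bo (Sph (k + 1)) (pt (k + 1)) 0)).mulH EZ847.ezd (gG h1 x)) (gG_one h1)).trans ?_
  exact (PF94.pf (bo (Sph (k + 1)) (pt (k + 1)) 0)).mulH_one_right HtpInv334.homotopyInv EZ847.ezd _

theorem pO_one (hk : 1 ≤ k) (x : H F2 (Sing (OS k))) : pO x 1 = x := mO_one hk x

theorem pO_two (hk : 1 ≤ k) (x : H F2 (Sing (OS k))) : pO x 2 = mO x x := by
  have := pO_one hk x
  exact congrArg (mO x) this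

include hk in
/-- `H_{2k}(Ω S^(k+1)) = {0, x²}` -/
theorem omS_sq {x : H F2 (Sing (OS k))} (hx : x ∈ H.gr F2 _ k) (hx0 : x ≠ 0)
    {y : H F2 (Sing (OS k))} (hy : y ∈ H.gr F2 _ (2 * k)) : y = 0 ∨ y = mO x x := by
  rcases (omS hk hx hx0).1 (2 * k) (by omega) y hy with h | ⟨j, hj, h⟩
  · exact Or.inl h
  · have : j = 2 := Nat.eq_of_mul_eq_mul_right (by omega) hj
    subst this
    exact Or.inr (h.trans (pO_two hk x))

include hk in
theorem omS_sq_ne {x : H F2 (Sing (OS k))} (hx : x ∈ H.gr F2 _ k) (hx0 : x ≠ 0) : mO x x ≠ 0 := by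
  have := (omS hk hx hx0).2 2 two_ne_zero
  rwa [pO_two hk] at this

end Crest.Agent.R204.OmS94
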