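import Crest.Agent.R204.P4a_742
import Crest.Agent.R204.Pw_742
import Crest.Agent.R204.Sq_252
import Crest.Agent.R204.C5_265
import Crest.Agent.R204.Gr_334

/-!
# Row 204, S-block P4 = formula (1.3) (helper742)

`d_*(a_i × x) = Σ_{a ≤ i} e_a ⊗ (R_{i-a} x)^2` in `H(D_M K)`, `i < M`, `R_k = Sq_{(n-k)/2}` on `H_n`.
-/

set_option autoImplicit false
set_option linter.unusedSectionVars false

noncomputable section

namespace Crest.Agent.R204.P4

open Finsupp TensorProduct QC134 AMU898 SS EZ271 DK742 ThetaSS265 C5265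

/-! ## the functor `K ↦ N(K × K)` -/

theorem mapSq_comp {K L M : SS} (f : Hom K L) (g : Hom L M) (x : N F2 (K.prod K)) :
    N.map F2 (prodMap (g.comp f) (g.comp f)) x =
      N.map F2 (prodMap g g) (N.map F2 (prodMap f f) x) := by
  rw [EZ271.map_map]; rfl

/-- the functor `K ↦ N(K × K)`, with `ker aug` as acyclic part -/
def sqMF : MF F2 where
  T K := N F2 (K.prod K)
  map f := N.map F2 (prodMap f f)
  map_id K x := by rw [prodMap_id, map_idHom]
  map_comp f g x := mapSq_comp f g x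
  d K := N.bd F2 (K.prod K)
  map_d f x := EZ271.map_bd' F2 _ _
  T0 K := LinearMap.ker (EZ271.aug F2)
  T0_map f x hx := by
    rw [LinearMap.mem_ker] at hx ⊢
    rw [EZ271.aug_map, hx]
  acyc n z hz hd := by
    rw [LinearMap.mem_ker] at hz
    refine ⟨(Cpq n n).c F2 z, ?_, ?_⟩
    · rw [LinearMap.mem_ker, Cone.aug_c]
    · rw [Cone.bd_c, hd, hz, map_zero, zero_smul, sub_zero, sub_zero]

/-- `swap` on `N(K × K)` -/
abbrev swp (K : SS) : N F2 (K.prod K) →ₗ[F2] N F2 (K.prod K) := N.map F2 (SS.swap K K)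

theorem swp_swp (K : SS) (x : N F2 (K.prod K)) : swp K (swp K x) = x := by
  rw [EZ271.map_map]
  exact map_idHom F2 x

theorem bd_swp (K : SS) (x : N F2 (K.prod K)) :
    N.bd F2 _ (swp K x) = swp K (N.bd F2 _ x) := (EZ271.map_bd' F2 _ _).symm

/-- `∇ : N K ⊗ N K → N(K × K)` -/
def nabla (K : SS) : N F2 K ⊗[F2] N F2 K →ₗ[F2] N F2 (K.prod K) := TensorProduct.lift (cross F2)

@[simp] theorem nabla_tmul (K : SS) (x y : N F2 K) : nabla K (x ⊗ₜ y) = cross F2 x y := rfl

theorem nabla_dT (K : SS) (x : N F2 K ⊗[F2] N F2 K) :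
    nabla K (dT (N.bd F2 K) (N.bd F2 K) x) = N.bd F2 _ (nabla K x) := by
  induction x using TensorProduct.induction_on with
  | zero => simp
  | add x y hx hy => simp only [map_add, hx, hy]
  | tmul x y => rw [dT_tmul, map_add, nabla_tmul, nabla_tmul, nabla_tmul, bd_cross2]

theorem nabla_tau (K : SS) (x : N F2 K ⊗[F2] N F2 K) :
    nabla K (tau _ x) = swp K (nabla K x) := by
  induction x using TensorProduct.induction_on with
  | zero => simp
  | add x y hx hy => simp only [map_add, hx, hy]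
  | tmul x y => rw [tau_tmul, nabla_tmul, nabla_tmul, swap_cross]

theorem nabla_nm {K L : SS} (f : Hom K L) (x : N F2 K ⊗[F2] N F2 K) :
    N.map F2 (prodMap f f) (nabla K x) = nabla L (Phi252.nm f x) := by
  induction x using TensorProduct.induction_on with
  | zero => simp
  | add x y hx hy => simp only [map_add, hx, hy]
  | tmul x y => rw [Phi252.nm_tmul, nabla_tmul, nabla_tmul, map_cross]

theorem aug_eq (K : SS) (x : N F2 K) : EZ271.aug F2 x = Phi252.aug K x := by
  have : EZ271.aug F2 (K := K) = Phi252.aug K := by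
    refine DK742.N_ext F2 fun n x => ?_
    rcases n with _ | n
    · rw [EZ271.aug_sx_zero, Phi252.aug_zero]
    · rw [EZ271.aug_sx_succ, Phi252.aug_succ]
  rw [this]

theorem aug_nabla (K : SS) (x : N F2 K ⊗[F2] N F2 K) :
    EZ271.aug F2 (nabla K x) = Phi252.aa K x := by
  induction x using TensorProduct.induction_on with
  | zero => simp
  | add x y hx hy => simp only [map_add, hx, hy]
  | tmul x y => rw [nabla_tmul, EZ271.aug_cross, Phi252.aa_tmul, aug_eq, aug_eq]

/-! ## the two families -/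

/-- the diagonal, concentrated in index zero -/
def thD (K : SS) : ℕ → N F2 K →ₗ[F2] N F2 (K.prod K)
  | 0 => N.map F2 (SS.diag K)
  | _ + 1 => 0

theorem swp_diag (K : SS) (x : N F2 K) :
    swp K (N.map F2 (SS.diag K) x) = N.map F2 (SS.diag K) x := by
  rw [EZ271.map_map]; rfl

theorem exists_w (K : SS) (x : N F2 K) (hx : N.bd F2 K x = 0) :
    ∃ w : ℕ → N F2 (K.prod K), ∀ i, thD K i x + nabla K (Phi252.Phi K i x) =
      N.bd F2 _ (w i) + (prev w i + swp K (prev w i)) := by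
  refine sqMF.family (fun K => swp K) ?_ bd_swp swp_swp ?_ thD
    (fun K i => nabla K ∘ₗ Phi252.Phi K i) ?_ ?_ ?_ ?_ ?_ K x hx
  · intro K L f (x : N F2 (K.prod K))
    change N.map F2 (prodMap f f) (N.map F2 (SS.swap K K) x) =
      N.map F2 (SS.swap L L) (N.map F2 (prodMap f f) x)
    rw [EZ271.map_map, EZ271.map_map]; rfl
  · intro K (x : N F2 (K.prod K)) hx
    change EZ271.aug F2 x = 0 at hx
    change EZ271.aug F2 (N.map F2 (SS.swap K K) x) = 0
    rw [EZ271.aug_map, hx]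
  · intro K L f i x
    rcases i with _ | i
    · change N.map F2 (prodMap f f) (N.map F2 (SS.diag K) x) =
        N.map F2 (SS.diag L) (N.map F2 f x)
      rw [EZ271.map_map, EZ271.map_map]; rfl
    · change N.map F2 (prodMap f f) 0 = 0
      rw [map_zero]
  · intro K L f i x
    change N.map F2 (prodMap f f) (nabla K (Phi252.Phi K i x)) = nabla L (Phi252.Phi L i (N.map F2 f x))
    rw [nabla_nm, Phi252.nm_Phi]
  · intro K i x
    rcases i with _ | _ | i
    · change N.bd F2 _ (N.map F2 (SS.diag K) x) + N.map F2 (SS.diag K) (N.bd F2 K x) =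
        0 + swp K 0
      rw [EZ271.map_bd', add_self2, map_zero, add_zero]
    · change N.bd F2 _ (0 : N F2 (K.prod K)) + 0 =
        N.map F2 (SS.diag K) x + swp K (N.map F2 (SS.diag K) x)
      rw [swp_diag, add_self2, map_zero, add_zero]
    · change N.bd F2 _ (0 : N F2 (K.prod K)) + 0 = (0 : N F2 (K.prod K)) + swp K 0
      rw [map_zero, map_zero]
  · intro K i x
    rcases i with _ | i
    · change N.bd F2 _ (nabla K (Phi252.Phi K 0 x)) + nabla K (Phi252.Phi K 0 (N.bd F2 K x)) =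
        0 + swp K 0
      rw [← nabla_dT, ← Phi252.dd_Phi_zero, Sq252.dd_eq, add_self2, map_zero, add_zero]
    · change N.bd F2 _ (nabla K (Phi252.Phi K (i + 1) x)) +
        nabla K (Phi252.Phi K (i + 1) (N.bd F2 K x)) =
        nabla K (Phi252.Phi K i x) + swp K (nabla K (Phi252.Phi K i x))
      rw [← nabla_dT, ← Sq252.dd_eq, Phi252.dd_Phi_succ, map_add, map_add, ← nabla_tau,
        ← Sq252.tt_eq, add_comm (nabla K (Phi252.Phi K (i + 1) (N.bd F2 K x))), add_add_self]
  · intro K i x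
    change EZ271.aug F2 (thD K i x + nabla K (Phi252.Phi K i x)) = 0
    rw [map_add, aug_nabla]
    rcases i with _ | i
    · change EZ271.aug F2 (N.map F2 (SS.diag K) x) + _ = 0
      rw [EZ271.aug_map, Phi252.aa_Phi_zero, aug_eq, add_self2]
    · change EZ271.aug F2 (0 : N F2 (K.prod K)) + _ = 0
      rw [Phi252.aa_Phi_succ, map_zero, add_zero]

/-! ## filtrations -/

theorem Fil.comp {Y Y' Z : Type} [AddCommGroup Y] [Module F2 Y] [AddCommGroup Y'] [Module F2 Y']
    [AddCommGroup Z] [Module F2 Z] {M : ℕ∞} {d τ : Y →ₗ[F2] Y} {dZ : Z →ₗ[F2] Z}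
    {P : ℕ → Y →ₗ[F2] Z} (F : Fil M d τ dZ P) {d' τ' : Y' →ₗ[F2] Y'} (f : Y' →ₗ[F2] Y)
    (hd : ∀ c, f (d' c) = d (f c)) (ht : ∀ c, f (τ' c) = τ (f c)) (hi : ∀ c, τ' (τ' c) = c)
    (hc : ∀ c, d' (τ' c) = τ' (d' c)) : Fil M d' τ' dZ (fun a => P a ∘ₗ f) where
  inv := hi
  comm := hc
  zero c := by rw [LinearMap.comp_apply, LinearMap.comp_apply, F.zero, hd]
  succ a h c := by
    simp only [LinearMap.comp_apply]
    rw [F.succ a h, hd, map_add f, ht]

theorem tot_comp {Y Y' Z : Type} [AddCommGroup Y] [Module F2 Y] [AddCommGroup Y'] [Module F2 Y']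
    [AddCommGroup Z] [Module F2 Z] {τ : Y →ₗ[F2] Y} {P : ℕ → Y →ₗ[F2] Z} {τ' : Y' →ₗ[F2] Y'}
    (f : Y' →ₗ[F2] Y) (ht : ∀ c, f (τ' c) = τ (f c)) (i : ℕ) (y : ℕ → Y') :
    tot τ P i (fun b => f (y b)) = tot τ' (fun a => P a ∘ₗ f) i y := by
  have hp : ∀ (a : ℕ) (c : Y'), f ((τ' ^ a) c) = (τ ^ a) (f c) := by
    intro a c
    induction a with
    | zero => simp
    | succ a ih => rw [pow_succ', pow_succ', Module.End.mul_apply, Module.End.mul_apply, ht, ih]
  induction i generalizing y with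
  | zero => rfl
  | succ i ih => rw [tot_succ, tot_succ, ih, LinearMap.comp_apply, hp]

section

variable (M : ℕ) (K : SS)

theorem filPhiC : Fil (M : ℕ∞) (N.bd F2 (K.prod K)) (swp K) (N.bd F2 (DM M K)) (PhiC M K) where
  inv := swp_swp K
  comm := bd_swp K
  zero c := bd_PhiC_zero c
  succ a h c := bd_PhiC_succ (by exact_mod_cast h) c

theorem filT : Fil (M : ℕ∞) (dT (N.bd F2 K) (N.bd F2 K)) (tau (N F2 K)) (N.bd F2 (DM M K))
    (fun a => PhiC M K a ∘ₗ nabla K) :=
  (filPhiC M K).comp (nabla K) (nabla_dT K) (nabla_tau K) tau_tau (fun c => (tau_dT _ c).symm)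

variable {M K}

theorem swp_pow_diag (x : N F2 K) (i : ℕ) :
    ((swp K) ^ i) (N.map F2 (SS.diag K) x) = N.map F2 (SS.diag K) x := by
  induction i with
  | zero => simp
  | succ i ih => rw [pow_succ', Module.End.mul_apply, ih, swp_diag]

theorem thD_eq_sgl (x : N F2 K) : (fun b => thD K b x) = sgl (N.map F2 (SS.diag K) x) := by
  funext b
  rcases b with _ | b <;> rfl

theorem ten_eq_uu (u : N F2 K →ₗ[F2] F2) (x : N F2 K ⊗[F2] N F2 K) :
    ten u u x = Sq252.uu u x := by
  induction x using TensorProduct.induction_on with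
  | zero => simp
  | add x y hx hy => simp only [map_add, hx, hy]
  | tmul x y => rfl

/-- **(1.3) on chains** -/
theorem chain13 {i : ℕ} (hi : i + 1 ≤ M) (z : N F2 K) (hz : N.bd F2 K z = 0) (s : ℕ → N F2 K)
    (hs : ∀ b, N.bd F2 K (s b) = 0)
    (hu : ∀ b (u : N F2 K →ₗ[F2] F2), (∀ x, u (N.bd F2 K x) = 0) →
      u (s b) = Sq252.uu u (Phi252.Phi K b z)) :
    ∃ w, PhiC M K i (N.map F2 (SS.diag K) z) =
      ∑ a ∈ Finset.range (i + 1), PhiC M K a (cross F2 (s (i - a)) (s (i - a))) +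
        N.bd F2 (DM M K) w := by
  obtain ⟨w, hw⟩ := exists_w K z hz
  have hi' : ((i : ℕ) : ℕ∞) ≤ (M : ℕ∞) := by exact_mod_cast (by omega : i ≤ M)
  have h1 := tot_bd (filPhiC M K) i hi' w
  have h2 : tot (swp K) (PhiC M K) i (fun b => N.bd F2 _ (w b) + (prev w b + swp K (prev w b))) =
      tot (swp K) (PhiC M K) i (fun b => thD K b z + nabla K (Phi252.Phi K b z)) :=
    tot_congr _ _ i fun b _ => (hw b).symm
  rw [h2, tot_add, thD_eq_sgl, tot_sgl, swp_pow_diag, tot_comp (nabla K) (nabla_tau K)] at h1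
  obtain ⟨w', hw'⟩ := tot_sq (fun x => N.bd_bd x) (filT M K) i (by exact_mod_cast hi)
    (fun b => Phi252.Phi K b z) s
    (by
      have := Phi252.dd_Phi_zero (K := K) z
      rw [hz, map_zero] at this
      exact this)
    (by
      intro b
      have := Phi252.dd_Phi_succ (K := K) b z
      rw [hz, map_zero, zero_add] at this
      exact this)
    hs (fun b u hu' => by rw [ten_eq_uu]; exact hu b u hu')
  have h3 : tot (tau (N F2 K)) (fun a => PhiC M K a ∘ₗ nabla K) i (fun b => s b ⊗ₜ s b) =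
      ∑ a ∈ Finset.range (i + 1), PhiC M K a (cross F2 (s (i - a)) (s (i - a))) := by
    rw [tot_eq_sum]
    refine Finset.sum_congr rfl fun a _ => ?_
    rw [tau_pow_sq, LinearMap.comp_apply, nabla_tmul]
  rw [h3] at hw'
  rw [hw'] at h1
  refine ⟨tot (swp K) (PhiC M K) i w + w', ?_⟩
  rw [map_add, h1]
  generalize PhiC M K i (N.map F2 (SS.diag K) z) = A
  generalize (∑ a ∈ Finset.range (i + 1), PhiC M K a (cross F2 (s (i - a)) (s (i - a)))) = B
  generalize N.bd F2 (DM M K) w' = C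
  have e1 := add_self2 B
  have e2 := add_self2 C
  calc A = A + (B + B) + (C + C) := by rw [e1, e2, add_zero, add_zero]
    _ = _ := by abel

theorem diagD_cross (i : ℕ) (z : N F2 K) :
    N.map F2 (diagD M K) (cross F2 (aa M i) z) = PhiC M K i (N.map F2 (SS.diag K) z) := by
  have h1 : cross F2 (aa M i) z = N.map F2 (prodMap (proj (invEM M)) (Hom.id K)) (cross F2 (ee M i) z) := by
    rw [map_cross, map_idHom]; rfl
  rw [h1, EZ271.map_map]
  have h2 : (diagD M K).comp (prodMap (proj (invEM M)) (Hom.id K)) =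
      (proj ((invEM M).prod (Invo.swap K))).comp (prodMap (Hom.id (EM M)) (SS.diag K)) := rfl
  rw [h2, ← EZ271.map_map, map_cross, map_idHom]
  rfl

/-- **(1.3)** -/
theorem diagD_eq {i : ℕ} (hi : i + 1 ≤ M) (x : H F2 K) :
    H.map F2 (diagD M K) (crossL (aa M i) (bd_aa (by omega)) x) =
      ∑ a ∈ Finset.range (i + 1), C5265.pw M K a (Sq252.Rk K (i - a) x) := by
  classical
  obtain ⟨z, hz, rfl⟩ := Hd.mk_surj _ x
  choose s hs hs' using fun b => Hd.mk_surj (N.bd F2 K) (Sq252.Rk K b (Hd.mk _ z hz))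
  have hu : ∀ b (u : N F2 K →ₗ[F2] F2), (∀ x, u (N.bd F2 K x) = 0) →
      u (s b) = Sq252.uu u (Phi252.Phi K b z) := by
    intro b u hu
    rw [← Sq252.uH_Rk K b u hu z hz, hs' b, Sq252.uH_mk]
  obtain ⟨w, hw⟩ := chain13 hi z hz s hs hu
  have hcyc : ∀ a ∈ Finset.range (i + 1),
      N.bd F2 (DM M K) (PhiC M K a (cross F2 (s (i - a)) (s (i - a)))) = 0 := by
    intro a ha
    rw [Finset.mem_range] at ha
    exact bd_PhiC_sq (by omega) (hs _)
  have hR : ∀ a ∈ Finset.range (i + 1), C5265.pw M K a (Sq252.Rk K (i - a) (Hd.mk _ z hz)) =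
      Submodule.mkQ _ (if h : N.bd F2 (DM M K) (PhiC M K a (cross F2 (s (i - a)) (s (i - a)))) = 0 then
        (⟨_, h⟩ : LinearMap.ker (N.bd F2 (DM M K))) else 0) := by
    intro a ha
    rw [dif_pos (hcyc a ha), hs', C5265.pw_mk (by rw [Finset.mem_range] at ha; omega)]
    rfl
  rw [Finset.sum_congr rfl hR, ← map_sum, crossL_mk, H.map, Hd.map_mk]
  have : ((∑ a ∈ Finset.range (i + 1),
      (if h : N.bd F2 (DM M K) (PhiC M K a (cross F2 (s (i - a)) (s (i - a)))) = 0 then
        (⟨_, h⟩ : LinearMap.ker (N.bd F2 (DM M K))) else 0) : LinearMap.ker (N.bd F2 (DM M K))) :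
        N F2 (DM M K)) = ∑ a ∈ Finset.range (i + 1), PhiC M K a (cross F2 (s (i - a)) (s (i - a))) := by
    rw [AddSubmonoidClass.coe_finsetSum]
    refine Finset.sum_congr rfl fun a ha => ?_
    rw [dif_pos (hcyc a ha)]
  show Submodule.mkQ _ _ = _
  rw [← sub_eq_zero, ← map_sub, Submodule.mkQ_apply, Submodule.Quotient.mk_eq_zero,
    Submodule.mem_comap]
  refine ⟨w, ?_⟩
  rw [map_sub]
  show _ = N.map F2 (diagD M K) (cross F2 (aa M i) z) - _
  rw [Submodule.subtype_apply, this, diagD_cross, hw, add_sub_cancel_left]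

end

end Crest.Agent.R204.P4
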