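import Crest.Agent.R204.PontF_718
import Crest.Agent.R204.Comp_696
import Crest.Agent.R204.Spec_114

/-!
# Row 204, leaf G4 (helper718): `P5` for the unit component of an H-space `Y`

`Y : SS`, component map `c : Cm Y π`, product `μ`, unit vertex `e0`.  Classes in the component `1`.
-/

set_option autoImplicit false

namespace Crest.Agent.R204.Pont718

open EZ271 Coef947 Sq252 Prd328 Comp696

section inj

variable {R : Type} [CommRing R] {Y Z : SS} {π π' : Type}

/-- product component map -/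
def cmProd (c : Cm Y π) (c' : Cm Z π') : Cm (Y.prod Z) (π × π') :=
  ⟨fun n p => (c.app n p.1, c'.app n p.2), fun f p => Prod.ext (c.nat f p.1) (c'.nat f p.2)⟩

def prodToFib (c : Cm Y π) (c' : Cm Z π') (g : π) (g' : π') :
    SS.Hom ((fib c g).prod (fib c' g')) (fib (cmProd c c') (g, g')) :=
  ⟨fun _ p => ⟨(p.1.1, p.2.1), Prod.ext p.1.2 p.2.2⟩, fun _ _ => rfl⟩

def fibToProd (c : Cm Y π) (c' : Cm Z π') (g : π) (g' : π') :
    SS.Hom (fib (cmProd c c') (g, g')) ((fib c g).prod (fib c' g')) :=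
  ⟨fun _ p => (⟨p.1.1, congrArg Prod.fst p.2⟩, ⟨p.1.2, congrArg Prod.snd p.2⟩), fun _ _ => rfl⟩

theorem map_prodMap_incl_injective (c : Cm Y π) (c' : Cm Z π') (g : π) (g' : π') :
    Function.Injective (H.map R (SS.prodMap (fibIncl c g) (fibIncl c' g'))) := by
  have h1 : (SS.prodMap (fibIncl c g) (fibIncl c' g')) =
      (fibIncl (cmProd c c') (g, g')).comp (prodToFib c c' g g') := rfl
  have h2 : (fibToProd c c' g g').comp (prodToFib c c' g g') = SS.Hom.id _ := rfl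
  intro x y h
  rw [h1, H_map_comp, H_map_comp] at h
  have h3 := Comp696.incl_injective R (cmProd c c') (g, g') h
  have h4 := congrArg (H.map R (fibToProd c c' g g')) h3
  rwa [← H_map_comp, ← H_map_comp, h2, H_map_id, H_map_id] at h4

end inj

variable {Y : SS} {π : Type} [Monoid π]

/-- **8.6 in the unit component of an H-space** -/
theorem pont_fib {m k : ℕ} (hm : 0 < m) (hm2 : Even m) (hk : k + 1 = 2 * m)
    (μ : SS.Hom (Y.prod Y) Y) (c : Cm Y π)
    (hmu : ∀ (n : ℕ) (x y : Y.S n), c.app n (μ.app n (x, y)) = c.app n x * c.app n y)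
    (e0 : Y.S 0) (he : c.app 0 e0 = 1)
    (hμ1 : ∀ x ∈ H.gr F2 Y m, H.map F2 μ (crossH F2 x (vt F2 e0)) = x)
    (hμ2 : ∀ x ∈ H.gr F2 Y m, H.map F2 μ (crossH F2 (vt F2 e0) x) = x)
    (h0 : ∀ x ∈ H.gr F2 Y 0, x ∈ Hc F2 c 1 → ∃ r : F2, x = r • vt F2 e0)
    (hfin : ∀ i, 0 < i → i < m → Module.Finite F2 (H.gr F2 Y i ⊓ Hc F2 c 1 : Submodule F2 (H F2 Y)))
    (z : H (ZMod 4) Y) (hz : z ∈ H.gr (ZMod 4) Y m) (hzc : z ∈ Hc (ZMod 4) c 1)
    (hprim : H.map F2 (SS.diag Y) (coH (Coef947.rho 4 2 (by norm_num)) Y z) =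
      crossH F2 (coH (Coef947.rho 4 2 (by norm_num)) Y z) (vt F2 e0) +
      crossH F2 (vt F2 e0) (coH (Coef947.rho 4 2 (by norm_num)) Y z))
    (A : Y.S (k + 1))
    (hA : ∀ i : Fin (k + 2), Y.act (Op.face i) A = Y.act (⟨fun _ => 0, fun _ _ _ => le_rfl⟩ : Op k 0) e0)
    (hA' : N.bd (ZMod 4) Y (N.sx (ZMod 4) A) = 0)
    (c0 : H F2 Y) (hc : c0 ∈ H.gr F2 Y (2 * m)) (hcc : c0 ∈ Hc F2 c 1)
    (hrel : Hd.mk (N.bd (ZMod 4) Y) (N.sx (ZMod 4) A) hA' =
      H.map (ZMod 4) μ (crossH (ZMod 4) z z) + coH (inj 2 4 2 rfl) Y c0) :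
    Rk Y 0 c0 = coH (Coef947.rho 4 2 (by norm_num)) Y z := by
  set X : SS := fib c 1 with hX
  set j : SS.Hom X Y := fibIncl c 1 with hj
  have hinj : ∀ (R : Type) [CommRing R], Function.Injective (H.map R j) := fun R _ =>
    Comp696.incl_injective R c 1
  let e : X.S 0 := fmk c 1 e0 he
  let μX : SS.Hom (X.prod X) X := fibLift c 1 (μ.comp (SS.prodMap j j)) (fun n x => by
    show c.app n (μ.app n (x.1.1, x.2.1)) = 1
    rw [hmu, x.1.2, x.2.2, one_mul])
  have hjμ : ∀ (R : Type) [CommRing R] (x y : H R X), H.map R j (H.map R μX (crossH R x y)) =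
      H.map R μ (crossH R (H.map R j x) (H.map R j y)) := by
    intro R _ x y
    rw [← map_crossH, Prd328.map_comp, Prd328.map_comp]
    rfl
  have hje : ∀ (R : Type) [CommRing R], H.map R j (vt R e) = vt R e0 := fun R _ => map_vt R j e
  obtain ⟨z, rfl⟩ := hzc
  obtain ⟨c1, rfl⟩ := hcc
  have hz' : z ∈ H.gr (ZMod 4) X m := by
    have := hret_mem_gr (ZMod 4) c 1 hz
    rwa [hret_incl] at this
  have hc' : c1 ∈ H.gr F2 X (2 * m) := by
    have := hret_mem_gr F2 c 1 hc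
    rwa [hret_incl] at this
  have hAc : c.app (k + 1) A = 1 := by
    have h1 := congrArg (c.app k) (hA 0)
    rwa [c.nat, c.nat, he] at h1
  let A' : X.S (k + 1) := fmk c 1 A hAc
  have hA1 : ∀ i : Fin (k + 2), X.act (Op.face i) A' =
      X.act (⟨fun _ => 0, fun _ _ _ => le_rfl⟩ : Op k 0) e := fun i => Subtype.ext (hA i)
  have hbd : N.bd (ZMod 4) X (N.sx (ZMod 4) A') = 0 := sph_bd (by omega) A' e hA1
  have key : Rk X 0 c1 = coH (Coef947.rho 4 2 (by norm_num)) X z := by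
    refine pont hm hm2 hk μX e ?_ ?_ ?_ ?_ z hz' ?_ A' hA1 hbd c1 hc' ?_
    · intro x hx
      apply hinj F2
      rw [hjμ, hje]
      exact hμ1 _ (Gr334.H_map_mem_gr _ hx)
    · intro x hx
      apply hinj F2
      rw [hjμ, hje]
      exact hμ2 _ (Gr334.H_map_mem_gr _ hx)
    · intro x hx
      obtain ⟨r, hr⟩ := h0 (H.map F2 j x) (Gr334.H_map_mem_gr _ hx) ⟨x, rfl⟩
      refine ⟨r, hinj F2 ?_⟩
      rw [map_smul, hje, hr]
    · intro i hi hi'
      haveI := hfin i hi hi'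
      refine Module.Finite.of_injective
        (M := H.gr F2 X i) (N := (H.gr F2 Y i ⊓ Hc F2 c 1 : Submodule F2 (H F2 Y)))
        (LinearMap.restrict (H.map F2 j) (fun x hx => ⟨Gr334.H_map_mem_gr _ hx, ⟨x, rfl⟩⟩)) ?_
      intro x y hxy
      exact Subtype.ext (hinj F2 (congrArg Subtype.val hxy))
    · apply map_prodMap_incl_injective c c 1 1
      have h0' : coH (Coef947.rho 4 2 (by norm_num)) Y (H.map (ZMod 4) (fibIncl c 1) z) =
          H.map F2 j (coH (Coef947.rho 4 2 (by norm_num)) X z) := coH_map _ j z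
      rw [h0'] at hprim
      have h1 : H.map F2 (SS.prodMap (fibIncl c 1) (fibIncl c 1)) (H.map F2 (SS.diag X)
          (coH (Coef947.rho 4 2 (by norm_num)) X z)) = H.map F2 (SS.diag Y) (H.map F2 j
          (coH (Coef947.rho 4 2 (by norm_num)) X z)) := by
        rw [Prd328.map_comp, Prd328.map_comp]; rfl
      rw [h1, hprim, map_add, map_crossH, map_crossH]
      rw [← hje F2]
    · apply hinj (ZMod 4)
      rw [map_add, hjμ, ← coH_map]
      rw [← hrel]
      rw [H_map_mk, Hd.mk_eq_mk]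
      exact ⟨0, by rw [map_zero, N.map_sx]; exact (sub_self _).symm⟩
  have := congrArg (H.map F2 j) key
  rw [Rk_map] at this
  rw [this, coH_map]

end Crest.Agent.R204.Pont718
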