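import Crest.Agent.R204.Cov_892

/-!
# Row 204, block B (B.P1): concatenation of based paths and null homotopic loops, the homotopies
(H1)-(H4), space level (helper872)
-/

set_option autoImplicit false

noncomputable section

open Set unitInterval Topology

namespace Crest.Agent.R204.PF872

open Crest.Agent.R204 Crest.Agent.R204.SS Crest.Agent.R204.Cov892

/-! ## the clamp `ℝ → [0,1]` -/

/-- clamp -/
def pj (r : ℝ) : I := projIcc 0 1 zero_le_one r

theorem pj_val (r : ℝ) : (pj r : ℝ) = max 0 (min 1 r) := rfl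

@[fun_prop] theorem continuous_pj : Continuous pj := continuous_projIcc (h := zero_le_one)

theorem pj_of_mem {r : ℝ} (h0 : 0 ≤ r) (h1 : r ≤ 1) : (pj r : ℝ) = r := by
  rw [pj_val, min_eq_right h1, max_eq_right h0]

@[simp] theorem pj_coe (t : I) : pj (t : ℝ) = t := projIcc_val zero_le_one t

theorem pj_of_nonpos {r : ℝ} (h : r ≤ 0) : pj r = 0 := projIcc_of_le_left zero_le_one h

theorem pj_of_one_le {r : ℝ} (h : 1 ≤ r) : pj r = 1 := projIcc_of_right_le zero_le_one h

/-! ## maps into the space of based paths -/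

variable {B : Type} [TopologicalSpace B] {b : B} {X : Type} [TopologicalSpace X]

/-- constructor for maps into `PB` -/
def mkPB (f : X × I → B) (hf : Continuous f) (h0 : ∀ x, f (x, 0) = b) : C(X, PB b) where
  toFun x := ⟨⟨fun t => f (x, t), by fun_prop⟩, h0 x⟩
  continuous_toFun := by
    refine Continuous.subtype_mk ?_ _
    exact ContinuousMap.continuous_of_continuous_uncurry _ hf

@[simp] theorem mkPB_apply (f : X × I → B) (hf : Continuous f) (h0 : ∀ x, f (x, 0) = b) (x : X) (t : I) :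
    (mkPB f hf h0 x).1 t = f (x, t) := rfl

theorem PB_ext {γ γ' : PB b} (h : ∀ t, γ.1 t = γ'.1 t) : γ = γ' := Subtype.ext (ContinuousMap.ext h)

theorem continuous_evalPB {Y : Type} [TopologicalSpace Y] {Φ : Y → PB b} (hΦ : Continuous Φ) {ψ : Y → I}
    (hψ : Continuous ψ) : Continuous fun y => (Φ y).1 (ψ y) := by fun_prop

instance : PathConnectedSpace I :=
  isPathConnected_iff_pathConnectedSpace.1 ((convex_Icc (0 : ℝ) 1).isPathConnected ⟨0, by simp⟩)

/-- the constant path -/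
def cst : PB b := ⟨ContinuousMap.const _ b, rfl⟩

@[simp] theorem cst_apply (t : I) : (cst (b := b)).1 t = b := rfl

/-- a path of based paths with fixed end point consists of `PEq` paths -/
theorem pEq_of_path (h : C(I, PB b)) (he : ∀ s, (h s).1 1 = (h 0).1 1) (s s' : I) :
    PEq (h s) (h s') := by
  refine pEq_of_one h ⟨fun _ => h s', continuous_const⟩ (fun t => ?_) (t₀ := s') (PEq.refl _) s
  show (h t).1 1 = (h s').1 1
  rw [he t, he s']

/-- the null homotopic loops -/
abbrev G0 (b : B) : Type := {γ : PB b // PEq γ cst}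

theorem G0_one (g : G0 b) : g.1.1 1 = b := g.2.end_eq

/-- pairs of `PEq` paths -/
abbrev E1 (b : B) : Type := {z : PB b × PB b // PEq z.1 z.2}

/-! ## concatenation -/

/-- concatenation of functions -/
def catF (g x : C(I, B)) (t : I) : B := if (t : ℝ) ≤ 1 / 2 then g (pj (2 * t)) else x (pj (2 * t - 1))

theorem continuous_catF (g x : C(X, C(I, B))) (h : ∀ y, g y 1 = x y 0) :
    Continuous fun z : X × I => catF (g z.1) (x z.1) z.2 := by
  unfold catF
  refine Continuous.if_le (by fun_prop) (by fun_prop) (by fun_prop) (by fun_prop) ?_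
  rintro ⟨y, s⟩ hs
  have hs' : (s : ℝ) = 1 / 2 := hs
  simp only [hs']
  have e1 : pj (2 * (1 / 2)) = 1 := pj_of_one_le (by norm_num)
  have e2 : pj (2 * (1 / 2) - 1) = 0 := pj_of_nonpos (by norm_num)
  rw [e1, e2, h]

/-- `(g, x) ↦ g · x` -/
def cat : C(G0 b × PB b, PB b) :=
  mkPB (fun z => catF z.1.1.1.1 z.1.2.1 z.2)
    (continuous_catF (X := G0 b × PB b) ⟨fun y => y.1.1.1, by fun_prop⟩ ⟨fun y => y.2.1, by fun_prop⟩
      (fun y => (G0_one y.1).trans y.2.2.symm))
    (fun y => by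
      have : ((0 : I) : ℝ) ≤ 1 / 2 := by norm_num
      simp only [catF, this, if_true]
      rw [pj_of_nonpos (by norm_num)]
      exact y.1.1.2)

theorem cat_apply (g : G0 b) (x : PB b) (t : I) : (cat (g, x)).1 t = catF g.1.1 x.1 t := rfl

theorem cat_eq (g : G0 b) (x : PB b) :
    cat (g, x) = ofPath ((pa g.1 b (G0_one g)).trans (pa x _ rfl)) := PB_ext fun _ => rfl

theorem cat_end (g : G0 b) (x : PB b) : (cat (g, x)).1 1 = x.1 1 := by
  rw [cat_eq]; exact ofPath_one _

theorem cat_pEq (g : G0 b) (x : PB b) : PEq (cat (g, x)) x := by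
  rw [cat_eq]
  have h1 : (pa g.1 b (G0_one g)).Homotopic (Path.refl b) := (pEq_iff (G0_one g) rfl).1 g.2
  exact PEq.of_path ((h1.hcomp (Path.Homotopic.refl (pa x _ rfl))).trans
    (Path.Homotopic.refl_trans (pa x _ rfl)))

/-- product of null homotopic loops -/
def mul : C(G0 b × G0 b, G0 b) where
  toFun z := ⟨cat (z.1, z.2.1), (cat_pEq _ _).trans z.2.2⟩
  continuous_toFun := by
    refine Continuous.subtype_mk ?_ _
    exact cat.continuous.comp (by fun_prop)

theorem mul_val (g h : G0 b) : (mul (g, h)).1 = cat (g, h.1) := rfl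

/-- the unit -/
def one : G0 b := ⟨cst, PEq.refl _⟩

/-- `(x, y) ↦ x · y⁻¹` for all pairs with the same end point -/
def difP : C({z : PB b × PB b // z.1.1 1 = z.2.1 1}, PB b) :=
  mkPB (fun z => catF z.1.1.1.1 (z.1.1.2.1.comp ⟨unitInterval.symm, by fun_prop⟩) z.2)
    (continuous_catF (X := {z : PB b × PB b // z.1.1 1 = z.2.1 1}) ⟨fun y => y.1.1.1, by fun_prop⟩
      ⟨fun y => y.1.2.1.comp ⟨unitInterval.symm, by fun_prop⟩, by fun_prop⟩
      (fun y => by
        show y.1.1.1 1 = y.1.2.1 (unitInterval.symm 0)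
        rw [unitInterval.symm_zero]
        exact y.2))
    (fun y => by
      have : ((0 : I) : ℝ) ≤ 1 / 2 := by norm_num
      simp only [catF, this, if_true]
      rw [pj_of_nonpos (by norm_num)]
      exact y.1.1.2)

theorem difP_eq (z : {z : PB b × PB b // z.1.1 1 = z.2.1 1}) :
    difP z = ofPath ((pa z.1.1 _ z.2).trans (pa z.1.2 _ rfl).symm) := PB_ext fun _ => rfl

/-- `(x, y) ↦ x · y⁻¹` -/
def dif : C(E1 b, G0 b) where
  toFun z := ⟨difP ⟨z.1, z.2.end_eq⟩, by
    rw [difP_eq]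
    have h1 : (pa z.1.1 _ z.2.end_eq).Homotopic (pa z.1.2 _ rfl) := (pEq_iff z.2.end_eq rfl).1 z.2
    exact PEq.of_path ((h1.hcomp (Path.Homotopic.refl _)).trans (Path.Homotopic.trans_symm _))⟩
  continuous_toFun := by
    refine Continuous.subtype_mk ?_ _
    exact difP.continuous.comp (by fun_prop)

theorem dif_apply (z : E1 b) (t : I) : (dif z).1.1 t =
    if (t : ℝ) ≤ 1 / 2 then z.1.1.1 (pj (2 * t)) else z.1.2.1 (unitInterval.symm (pj (2 * t - 1))) := rfl

/-! ## (H4) `1 · x ~ x` -/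

/-- (H4) -/
def H4 : C(PB b × I, PB b) :=
  mkPB (fun z => z.1.1.1 (pj ((1 - (z.1.2 : ℝ)) * max 0 (2 * (z.2 : ℝ) - 1) + z.1.2 * z.2)))
    (by fun_prop)
    (fun y => by
      have : (1 - (y.2 : ℝ)) * max 0 (2 * ((0 : I) : ℝ) - 1) + y.2 * ((0 : I) : ℝ) = 0 := by
        simp
      simp only [this]
      rw [pj_of_nonpos le_rfl]
      exact y.1.2)

theorem H4_apply (x : PB b) (s t : I) :
    (H4 (x, s)).1 t = x.1 (pj ((1 - (s : ℝ)) * max 0 (2 * (t : ℝ) - 1) + s * t)) := rfl

theorem H4_zero (x : PB b) : H4 (x, 0) = cat (one, x) := by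
  refine PB_ext fun t => ?_
  rw [H4_apply, cat_apply, catF]
  have e : (1 - ((0 : I) : ℝ)) * max 0 (2 * (t : ℝ) - 1) + ((0 : I) : ℝ) * t = max 0 (2 * (t : ℝ) - 1) := by
    simp
  rw [e]
  split_ifs with h
  · rw [max_eq_left (by linarith), pj_of_nonpos le_rfl, x.2]; rfl
  · rw [max_eq_right (by linarith)]

theorem H4_one (x : PB b) : H4 (x, 1) = x := by
  refine PB_ext fun t => ?_
  rw [H4_apply]
  have e : (1 - ((1 : I) : ℝ)) * max 0 (2 * (t : ℝ) - 1) + ((1 : I) : ℝ) * t = t := by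
    simp
  rw [e, pj_coe]

theorem H4_end (x : PB b) (s : I) : (H4 (x, s)).1 1 = x.1 1 := by
  rw [H4_apply]
  have e : (1 - (s : ℝ)) * max 0 (2 * ((1 : I) : ℝ) - 1) + (s : ℝ) * ((1 : I) : ℝ) = 1 := by
    norm_num
  rw [e, pj_of_one_le le_rfl]

/-- a homotopy in `PB` with fixed end point which ends at `x` -/
theorem pEq_of_htpy (Φ : C(X × I, PB b)) (x : X) (y : PB b) (h1 : Φ (x, 1) = y)
    (he : ∀ s, (Φ (x, s)).1 1 = y.1 1) (s : I) : PEq (Φ (x, s)) y := by
  have := pEq_of_path (b := b) (Φ.comp ⟨fun s => (x, s), by fun_prop⟩) (fun s => by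
    show (Φ (x, s)).1 1 = (Φ (x, 0)).1 1
    rw [he, he]) s 1
  have h2 : (Φ.comp ⟨fun s => (x, s), by fun_prop⟩) (1 : I) = y := h1
  rw [h2] at this
  exact this

theorem H4_pEq (x : PB b) (s : I) : PEq (H4 (x, s)) x :=
  pEq_of_htpy H4 x x (H4_one x) (H4_end x) s

/-! ## (H3) `g · (h · x) ~ (g · h) · x` -/

/-- the reparametrisation of (H3) -/
def rho (t : ℝ) : ℝ := max (min (t / 2) (1 / 4)) (min (t - 1 / 4) (1 / 2)) + max 0 (2 * t - 3 / 2)

@[fun_prop] theorem continuous_rho : Continuous rho := by unfold rho; fun_prop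

/-- (H3) -/
def H3 : C((G0 b × G0 b × PB b) × I, PB b) :=
  mkPB (fun z => (cat (mul (z.1.1.1, z.1.1.2.1), z.1.1.2.2)).1
      (pj ((1 - (z.1.2 : ℝ)) * rho z.2 + z.1.2 * z.2)))
    (continuous_evalPB (cat.continuous.comp ((mul.continuous.comp (by fun_prop)).prodMk (by fun_prop)))
      (by fun_prop))
    (fun y => by
      have e : (1 - (y.2 : ℝ)) * rho ((0 : I) : ℝ) + y.2 * ((0 : I) : ℝ) = 0 := by
        have : rho ((0 : I) : ℝ) = 0 := by
          simp only [rho, Set.Icc.coe_zero]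
          norm_num
        rw [this]; simp
      simp only [e]
      rw [pj_of_nonpos le_rfl]
      exact (cat (mul (y.1.1, y.1.2.1), y.1.2.2)).2)

theorem H3_apply (g h : G0 b) (x : PB b) (s t : I) : (H3 ((g, h, x), s)).1 t =
    (cat (mul (g, h), x)).1 (pj ((1 - (s : ℝ)) * rho t + s * t)) := rfl

theorem H3_one (g h : G0 b) (x : PB b) : H3 ((g, h, x), 1) = cat (mul (g, h), x) := by
  refine PB_ext fun t => ?_
  rw [H3_apply]
  have e : (1 - ((1 : I) : ℝ)) * rho (t : ℝ) + ((1 : I) : ℝ) * t = t := by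
    simp
  rw [e, pj_coe]

theorem H3_end (g h : G0 b) (x : PB b) (s : I) : (H3 ((g, h, x), s)).1 1 = x.1 1 := by
  rw [H3_apply]
  have e : (1 - (s : ℝ)) * rho ((1 : I) : ℝ) + (s : ℝ) * ((1 : I) : ℝ) = 1 := by
    have : rho ((1 : I) : ℝ) = 1 := by
      simp only [rho, Set.Icc.coe_one]
      norm_num
    rw [this]; ring_nf; norm_num
  rw [e, pj_of_one_le le_rfl, cat_end]

theorem H3_zero (g h : G0 b) (x : PB b) : H3 ((g, h, x), 0) = cat (g, cat (h, x)) := by
  refine PB_ext fun t => ?_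
  rw [H3_apply]
  have e : (1 - ((0 : I) : ℝ)) * rho (t : ℝ) + ((0 : I) : ℝ) * t = rho t := by
    simp
  have ht0 : (0 : ℝ) ≤ t := t.2.1
  have ht1 : (t : ℝ) ≤ 1 := t.2.2
  rw [e, cat_apply, cat_apply, mul_val]
  simp only [catF, cat_apply]
  rcases le_or_gt (t : ℝ) (1 / 2) with h1 | h1
  · have e1 : rho t = t / 2 := by
      simp only [rho]
      rw [min_eq_left (by linarith), min_eq_left (by linarith), max_eq_left (by linarith),
        max_eq_left (by linarith), add_zero]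
    have e2 : (pj (rho t) : ℝ) = t / 2 := by rw [e1, pj_of_mem (by linarith) (by linarith)]
    have e3 : (pj (2 * (pj (rho t) : ℝ)) : ℝ) = t := by
      rw [e2, pj_of_mem (by linarith) (by linarith)]; ring
    rw [if_pos h1, e3, e2, if_pos (by linarith), if_pos h1]
  · rcases le_or_gt (t : ℝ) (3 / 4) with h2 | h2
    · have e1 : rho t = t - 1 / 4 := by
        simp only [rho]
        rw [min_eq_right (by linarith), min_eq_left (by linarith), max_eq_right (by linarith),
          max_eq_left (by linarith), add_zero]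
      have e2 : (pj (rho t) : ℝ) = t - 1 / 4 := by rw [e1, pj_of_mem (by linarith) (by linarith)]
      have e3 : (pj (2 * (pj (rho t) : ℝ)) : ℝ) = 2 * t - 1 / 2 := by
        rw [e2, pj_of_mem (by linarith) (by linarith)]; ring
      have e4 : (pj (2 * (t : ℝ) - 1) : ℝ) = 2 * t - 1 := pj_of_mem (by linarith) (by linarith)
      rw [e3, e2, if_pos (by linarith), if_neg (by linarith), if_neg (by linarith), e4,
        if_pos (by linarith)]
      congr 2
      ring
    · have e1 : rho t = 2 * t - 1 := by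
        simp only [rho]
        rw [min_eq_right (by linarith), min_eq_right (by linarith), max_eq_right (by linarith),
          max_eq_right (by linarith)]
        ring
      have e2 : (pj (rho t) : ℝ) = 2 * t - 1 := by rw [e1, pj_of_mem (by linarith) (by linarith)]
      have e4 : (pj (2 * (t : ℝ) - 1) : ℝ) = 2 * t - 1 := pj_of_mem (by linarith) (by linarith)
      rw [e2, if_neg (by linarith), if_neg (by linarith), e4, if_neg (by linarith)]

theorem H3_pEq (g h : G0 b) (x : PB b) (s : I) : PEq (H3 ((g, h, x), s)) x := by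
  refine PEq.trans ?_ (cat_pEq (mul (g, h)) x)
  exact pEq_of_htpy H3 (g, h, x) _ (H3_one g h x) (fun s => by rw [H3_end, cat_end]) s

/-! ## (H1) `(x · y⁻¹) · y ~ x` and (H2) `(g · y) · y⁻¹ ~ g` -/

/-- common continuity -/
theorem continuous_cut (x y : C(X, C(I, B))) (u : I → I) (hu : Continuous u)
    (h : ∀ z, x z 1 = y z (u 0)) :
    Continuous fun z : (X × I) × I => if (z.2 : ℝ) ≤ (1 + 3 * (z.1.2 : ℝ)) / 4 then
      x z.1.1 (pj (4 * z.2 / (1 + 3 * (z.1.2 : ℝ)))) else
      y z.1.1 (u (pj (min (4 * (z.2 : ℝ) - 1 - 3 * z.1.2) (2 - 2 * z.2)))) := by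
  have hne : ∀ z : (X × I) × I, 1 + 3 * (z.1.2 : ℝ) ≠ 0 := by
    intro z
    have : (0 : ℝ) ≤ z.1.2 := z.1.2.2.1
    positivity
  have h1 : Continuous fun z : (X × I) × I => pj (4 * (z.2 : ℝ) / (1 + 3 * (z.1.2 : ℝ))) := by
    refine continuous_pj.comp ?_
    exact Continuous.div (by fun_prop) (by fun_prop) hne
  refine Continuous.if_le (by fun_prop) (by fun_prop) (by fun_prop) (by fun_prop) ?_
  rintro ⟨⟨z, s⟩, t⟩ hs
  have hs' : (t : ℝ) = (1 + 3 * (s : ℝ)) / 4 := hs
  have hne' := hne ((z, s), t)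
  simp only at hne'
  simp only [hs']
  have e1 : pj (4 * ((1 + 3 * (s : ℝ)) / 4) / (1 + 3 * (s : ℝ))) = 1 :=
    pj_of_one_le (by rw [mul_div_cancel₀ _ (by norm_num : (4 : ℝ) ≠ 0), div_self hne'])
  have e2 : pj (min (4 * ((1 + 3 * (s : ℝ)) / 4) - 1 - 3 * s) (2 - 2 * ((1 + 3 * (s : ℝ)) / 4))) = 0 :=
    pj_of_nonpos (min_le_of_left_le (by linarith))
  rw [e1, e2, h]

theorem cut_zero (x y : C(X, C(I, B))) (u : I → I) (z : X) (s : I) (hx : x z 0 = b) :
    (if ((0 : I) : ℝ) ≤ (1 + 3 * (s : ℝ)) / 4 then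
      x z (pj (4 * (0 : I) / (1 + 3 * (s : ℝ)))) else
      y z (u (pj (min (4 * ((0 : I) : ℝ) - 1 - 3 * s) (2 - 2 * (0 : I)))))) = b := by
  have hs : (0 : ℝ) ≤ s := s.2.1
  rw [if_pos (by simp only [Set.Icc.coe_zero]; positivity)]
  rw [pj_of_nonpos (by simp), hx]

/-- (H1) -/
def H1 : C(E1 b × I, PB b) :=
  mkPB _ (continuous_cut (X := E1 b) ⟨fun z => z.1.1.1, by fun_prop⟩ ⟨fun z => z.1.2.1, by fun_prop⟩
    unitInterval.symm (by fun_prop) (fun z => by
      rw [unitInterval.symm_zero]; exact z.2.end_eq))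
    (fun z => cut_zero _ _ _ z.1 z.2 z.1.1.1.2)

theorem H1_apply (z : E1 b) (s t : I) : (H1 (z, s)).1 t =
    if (t : ℝ) ≤ (1 + 3 * (s : ℝ)) / 4 then z.1.1.1 (pj (4 * t / (1 + 3 * (s : ℝ)))) else
      z.1.2.1 (unitInterval.symm (pj (min (4 * (t : ℝ) - 1 - 3 * s) (2 - 2 * t)))) := rfl

theorem H1_zero (z : E1 b) : H1 (z, 0) = cat (dif z, z.1.2) := by
  refine PB_ext fun t => ?_
  have ht0 : (0 : ℝ) ≤ t := t.2.1
  have ht1 : (t : ℝ) ≤ 1 := t.2.2
  rw [H1_apply, cat_apply, catF, dif_apply]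
  simp only [Set.Icc.coe_zero, mul_zero, add_zero, div_one, sub_zero]
  rcases le_or_gt (t : ℝ) (1 / 4) with h1 | h1
  · have e2 : (pj (2 * (t : ℝ)) : ℝ) = 2 * t := pj_of_mem (by linarith) (by linarith)
    rw [if_pos h1, if_pos (by linarith), e2, if_pos (by linarith)]
    congr 2
    ring
  · rcases le_or_gt (t : ℝ) (1 / 2) with h2 | h2
    · have e2 : (pj (2 * (t : ℝ)) : ℝ) = 2 * t := pj_of_mem (by linarith) (by linarith)
      rw [if_neg (by linarith), if_pos (by linarith), e2, if_neg (by linarith), min_eq_left (by linarith)]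
      congr 3
      ring
    · rw [if_neg (by linarith), if_neg (by linarith), min_eq_right (by linarith)]
      congr 1
      refine Subtype.ext ?_
      rw [unitInterval.coe_symm_eq, pj_of_mem (by linarith) (by linarith),
        pj_of_mem (by linarith) (by linarith)]
      ring

theorem H1_one (z : E1 b) : H1 (z, 1) = z.1.1 := by
  refine PB_ext fun t => ?_
  have ht1 : (t : ℝ) ≤ 1 := t.2.2
  rw [H1_apply]
  simp only [Set.Icc.coe_one]
  rw [if_pos (by linarith)]
  have : 4 * (t : ℝ) / (1 + 3 * 1) = t := by ring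
  rw [this, pj_coe]

theorem H1_end (z : E1 b) (s : I) : (H1 (z, s)).1 1 = z.1.1.1 1 := by
  have hs0 : (0 : ℝ) ≤ s := s.2.1
  have hs1 : (s : ℝ) ≤ 1 := s.2.2
  rw [H1_apply]
  simp only [Set.Icc.coe_one]
  split_ifs with h
  · have : (s : ℝ) = 1 := by linarith
    rw [this, pj_of_one_le (by norm_num)]
  · rw [pj_of_nonpos (min_le_of_right_le (by norm_num)), unitInterval.symm_zero]
    exact z.2.end_eq.symm

theorem H1_pEq (z : E1 b) (s : I) : PEq (H1 (z, s)) z.1.1 :=
  pEq_of_htpy H1 z _ (H1_one z) (H1_end z) s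

/-- (H2), values in `PB` -/
def H2P : C((G0 b × PB b) × I, PB b) :=
  mkPB _ (continuous_cut (X := G0 b × PB b) ⟨fun z => z.1.1.1, by fun_prop⟩
    ⟨fun z => z.2.1, by fun_prop⟩ id continuous_id (fun z => by
      rw [id]; exact (G0_one z.1).trans z.2.2.symm))
    (fun z => cut_zero _ _ _ z.1 z.2 z.1.1.1.2)

theorem H2P_apply (g : G0 b) (y : PB b) (s t : I) : (H2P ((g, y), s)).1 t =
    if (t : ℝ) ≤ (1 + 3 * (s : ℝ)) / 4 then g.1.1 (pj (4 * t / (1 + 3 * (s : ℝ)))) else
      y.1 (pj (min (4 * (t : ℝ) - 1 - 3 * s) (2 - 2 * t))) := rfl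

theorem H2P_one (g : G0 b) (y : PB b) : H2P ((g, y), 1) = g.1 := by
  refine PB_ext fun t => ?_
  have ht1 : (t : ℝ) ≤ 1 := t.2.2
  rw [H2P_apply]
  simp only [Set.Icc.coe_one]
  rw [if_pos (by linarith)]
  have : 4 * (t : ℝ) / (1 + 3 * 1) = t := by ring
  rw [this, pj_coe]

theorem H2P_end (g : G0 b) (y : PB b) (s : I) : (H2P ((g, y), s)).1 1 = g.1.1 1 := by
  have hs0 : (0 : ℝ) ≤ s := s.2.1
  have hs1 : (s : ℝ) ≤ 1 := s.2.2
  rw [H2P_apply]
  simp only [Set.Icc.coe_one]
  split_ifs with h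
  · have : (s : ℝ) = 1 := by linarith
    rw [this, pj_of_one_le (by norm_num)]
  · rw [pj_of_nonpos (min_le_of_right_le (by norm_num)), y.2, G0_one]

/-- the pair `(g · y, y)` -/
def catE : C(G0 b × PB b, E1 b) where
  toFun z := ⟨(cat z, z.2), cat_pEq _ _⟩
  continuous_toFun := Continuous.subtype_mk (by fun_prop) _

theorem H2P_zero (g : G0 b) (y : PB b) : H2P ((g, y), 0) = (dif (catE (g, y))).1 := by
  refine PB_ext fun t => ?_
  have ht0 : (0 : ℝ) ≤ t := t.2.1
  have ht1 : (t : ℝ) ≤ 1 := t.2.2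
  rw [H2P_apply, dif_apply]
  simp only [catE, ContinuousMap.coe_mk, Set.Icc.coe_zero, mul_zero, add_zero, div_one, sub_zero]
  rw [cat_apply, catF]
  rcases le_or_gt (t : ℝ) (1 / 4) with h1 | h1
  · have e2 : (pj (2 * (t : ℝ)) : ℝ) = 2 * t := pj_of_mem (by linarith) (by linarith)
    rw [if_pos h1, if_pos (by linarith), e2, if_pos (by linarith)]
    congr 2
    ring
  · rcases le_or_gt (t : ℝ) (1 / 2) with h2 | h2
    · have e2 : (pj (2 * (t : ℝ)) : ℝ) = 2 * t := pj_of_mem (by linarith) (by linarith)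
      rw [if_neg (by linarith), if_pos (by linarith), e2, if_neg (by linarith), min_eq_left (by linarith)]
      congr 2
      ring
    · rw [if_neg (by linarith), if_neg (by linarith), min_eq_right (by linarith)]
      congr 1
      refine Subtype.ext ?_
      rw [unitInterval.coe_symm_eq, pj_of_mem (by linarith) (by linarith),
        pj_of_mem (by linarith) (by linarith)]
      ring

theorem H2P_pEq (g : G0 b) (y : PB b) (s : I) : PEq (H2P ((g, y), s)) cst :=
  (pEq_of_htpy H2P (g, y) _ (H2P_one g y) (H2P_end g y) s).trans g.2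

/-- (H2) -/
def H2 : C((G0 b × PB b) × I, G0 b) where
  toFun z := ⟨H2P z, H2P_pEq z.1.1 z.1.2 z.2⟩
  continuous_toFun := Continuous.subtype_mk H2P.continuous _

theorem H2_zero (g : G0 b) (y : PB b) : H2 ((g, y), 0) = dif (catE (g, y)) :=
  Subtype.ext (H2P_zero g y)

theorem H2_one (g : G0 b) (y : PB b) : H2 ((g, y), 1) = g := Subtype.ext (H2P_one g y)

end Crest.Agent.R204.PF872
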