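import Crest.Agent.R204.PFibTop_872

/-!
# Row 204, block B (B.P1): based maps `f : B → B'` induce maps of the principal fibrations (helper872)
-/

set_option autoImplicit false

noncomputable section

open Set unitInterval Topology

namespace Crest.Agent.R204.PF872

open Crest.Agent.R204 Crest.Agent.R204.SS Crest.Agent.R204.Cov892 Crest.Agent.R204.Bis343
  Crest.Agent.R204.SingAct265 Crest.Agent.R204.Bar170

variable {B B' : Type} [TopologicalSpace B] [TopologicalSpace B'] {b : B} {b' : B'}

/-- postcomposition of a based path with a based map -/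
def mapPf (f : C(B, B')) (hf : f b = b') (γ : PB b) : PB b' :=
  ⟨f.comp γ.1, by rw [ContinuousMap.comp_apply, γ.2, hf]⟩

theorem continuous_mapPf (f : C(B, B')) (hf : f b = b') : Continuous (mapPf f hf) := by
  refine Continuous.subtype_mk ?_ _
  exact (ContinuousMap.continuous_postcomp f).comp continuous_subtype_val

/-- `PB b → PB b'` -/
def mapP (f : C(B, B')) (hf : f b = b') : C(PB b, PB b') := ⟨mapPf f hf, continuous_mapPf f hf⟩

@[simp] theorem mapP_apply (f : C(B, B')) (hf : f b = b') (γ : PB b) (t : I) :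
    (mapP f hf γ).1 t = f (γ.1 t) := rfl

theorem mapP_pEq (f : C(B, B')) (hf : f b = b') {γ γ' : PB b} (h : PEq γ γ') :
    PEq (mapP f hf γ) (mapP f hf γ') := ContinuousMap.HomotopicRel.comp_continuousMap h f

theorem mapP_cst (f : C(B, B')) (hf : f b = b') : mapP f hf cst = cst := PB_ext fun _ => hf

theorem mapP_mem (f : C(B, B')) (hf : f b = b') (g : G0 b) : PEq (mapP f hf g.1) cst := by
  have := mapP_pEq f hf g.2
  rwa [mapP_cst] at this

/-- `G0 b → G0 b'` -/
def mapG (f : C(B, B')) (hf : f b = b') : C(G0 b, G0 b') :=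
  ⟨fun g => ⟨mapP f hf g.1, mapP_mem f hf g⟩,
    Continuous.subtype_mk ((mapP f hf).continuous.comp continuous_subtype_val) _⟩

theorem mapG_val (f : C(B, B')) (hf : f b = b') (g : G0 b) : (mapG f hf g).1 = mapP f hf g.1 := rfl

theorem mapG_one (f : C(B, B')) (hf : f b = b') : mapG f hf one = one := Subtype.ext (mapP_cst f hf)

theorem map_catF (f : C(B, B')) (g x : C(I, B)) (t : I) : f (catF g x t) = catF (f.comp g) (f.comp x) t := by
  simp only [catF, ContinuousMap.comp_apply]
  split_ifs <;> rfl

theorem mapP_cat (f : C(B, B')) (hf : f b = b') (g : G0 b) (x : PB b) :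
    mapP f hf (cat (g, x)) = cat (mapG f hf g, mapP f hf x) := PB_ext fun t => map_catF f _ _ t

theorem mapG_mul (f : C(B, B')) (hf : f b = b') (g h : G0 b) :
    mapG f hf (mul (g, h)) = mul (mapG f hf g, mapG f hf h) := Subtype.ext (mapP_cat f hf g h.1)

/-- `Bt b → Bt b'` -/
def mapK (f : C(B, B')) (hf : f b = b') : SS.Hom (Bt b) (Bt b') where
  app n := Quotient.map' ((SingMap (mapP f hf)).app n) (fun _ _ h t => mapP_pEq f hf (h t))
  nat a x := by
    induction x using Quotient.inductionOn with
    | h x => rfl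

@[simp] theorem mapK_quo (f : C(B, B')) (hf : f b = b') (n : ℕ) (x : (Sing (PB b)).S n) :
    (mapK f hf).app n ((quo b).app n x) = (quo b').app n ((SingMap (mapP f hf)).app n x) := rfl

/-- compatibility with the projection to `Sing B` -/
theorem prj_mapK (f : C(B, B')) (hf : f b = b') (n : ℕ) (x : (Bt b).S n) :
    (prj b').app n ((mapK f hf).app n x) = (SingMap f).app n ((prj b).app n x) := by
  obtain ⟨x, rfl⟩ := quo_surjective b n x
  rfl

theorem mapK_deck (f : C(B, B')) (hf : f b = b') (L : Path b b) (n : ℕ) (x : (Bt b).S n) :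
    (mapK f hf).app n ((deck L).app n x) =
      (deck ((L.map f.continuous).cast hf.symm hf.symm)).app n ((mapK f hf).app n x) := by
  obtain ⟨x, rfl⟩ := quo_surjective b n x
  refine congrArg ((quo b').app n) ?_
  refine sing_ext (Y := PB b') fun t => PB_ext fun s => ?_
  exact map_catF f ⟨L, L.continuous⟩ (ev (Y := PB b) x t).1 s

/-- **the map of principal fibrations** induced by a based map -/
def pfibMap (f : C(B, B')) (hf : f b = b')
    (ac : ∀ x : H F2 (Sing (PB b)), ∃ c : F2, x = c • H.pt (K := Sing (PB b)) (vtx cst))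
    (ac' : ∀ x : H F2 (Sing (PB b')), ∃ c : F2, x = c • H.pt (K := Sing (PB b')) (vtx cst)) :
    PFibMap (pfib b ac) (pfib b' ac') where
  fP := SingMap (mapP f hf)
  fK := mapK f hf
  fG := SingMap (mapG f hf)
  π_f _ _ := rfl
  p0_f := sing_ext (Y := PB b') fun _ => mapP_cst f hf
  e_f := sing_ext (Y := G0 b') fun _ => mapG_one f hf
  cat_f q g x := sing_ext (Y := PB b') fun t => mapP_cat f hf (ev (Y := G0 b) g t) (ev (Y := PB b) x t)

/-! ## functoriality -/

variable {B'' : Type} [TopologicalSpace B''] {b'' : B''}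

theorem mapP_comp (f : C(B, B')) (hf : f b = b') (g : C(B', B'')) (hg : g b' = b'') (γ : PB b) :
    mapP g hg (mapP f hf γ) = mapP (g.comp f) (by rw [ContinuousMap.comp_apply, hf, hg]) γ := rfl

theorem mapP_id (γ : PB b) : mapP (ContinuousMap.id B) rfl γ = γ := rfl

theorem mapG_comp (f : C(B, B')) (hf : f b = b') (g : C(B', B'')) (hg : g b' = b'') (γ : G0 b) :
    mapG g hg (mapG f hf γ) = mapG (g.comp f) (by rw [ContinuousMap.comp_apply, hf, hg]) γ := rfl

theorem mapG_id (γ : G0 b) : mapG (ContinuousMap.id B) rfl γ = γ := rfl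

end Crest.Agent.R204.PF872
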