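import Crest.Agent.R204.Span3_348

/-!
# Parity of the binomials used in the generation theorem (row 204, block G)
-/

set_option autoImplicit false

namespace Crest.Agent.R204.Fs348

theorem odd_choose_pow (r : ℕ) : ∀ b : ℕ, b < 2 ^ r → Odd ((2 ^ r + b).choose (2 ^ r)) := by
  induction r with
  | zero => intro b hb; interval_cases b; decide
  | succ r ih =>
    intro b hb
    have h := Choose.choose_modEq_choose_mod_mul_choose_div_nat (n := 2 ^ (r + 1) + b)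
      (k := 2 ^ (r + 1)) (p := 2)
    have e1 : 2 ^ (r + 1) % 2 = 0 := by rw [pow_succ]; omega
    have e2 : 2 ^ (r + 1) / 2 = 2 ^ r := by rw [pow_succ]; omega
    have e3 : (2 ^ (r + 1) + b) / 2 = 2 ^ r + b / 2 := by rw [pow_succ]; omega
    rw [e1, e2, e3, Nat.choose_zero_right, one_mul] at h
    have h2 := ih (b / 2) (by rw [pow_succ] at hb; omega)
    rw [Nat.odd_iff] at h2 ⊢
    exact Eq.trans h h2

theorem choose_two_pow (r : ℕ) : ∃ m, Odd m ∧ (2 ^ r + 2 ^ r).choose (2 ^ r) = m * 2 := by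
  have hpos : 0 < 2 ^ r := Nat.two_pow_pos r
  refine ⟨(2 ^ r + (2 ^ r - 1)).choose (2 ^ r), odd_choose_pow r _ (by omega), ?_⟩
  obtain ⟨n, hn⟩ : ∃ n, 2 ^ r = n + 1 := ⟨2 ^ r - 1, by omega⟩
  rw [hn]
  have e : n + 1 + (n + 1) = (2 * n + 1) + 1 := by ring
  have e' : n + 1 + (n + 1 - 1) = 2 * n + 1 := by omega
  rw [e, e', Nat.choose_succ_succ', Nat.choose_symm_half]
  ring

/-- every `v ≥ 2` is either `a + b` with `C(a+b,a)` odd, `0 < a, b`, or `a + a` with `C(2a,a) = 2·odd` -/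
theorem split_cases (v : ℕ) (hv : 2 ≤ v) :
    (∃ a b, 0 < a ∧ 0 < b ∧ v = a + b ∧ Odd ((a + b).choose a)) ∨
    (∃ a m, 0 < a ∧ v = a + a ∧ (a + a).choose a = m * 2 ∧ Odd m) := by
  have h1 : 2 ^ Nat.log 2 v ≤ v := Nat.pow_log_le_self 2 (by omega)
  have h2 : v < 2 ^ (Nat.log 2 v + 1) := Nat.lt_pow_succ_log_self (by norm_num) v
  rcases Nat.eq_or_lt_of_le h1 with h | h
  · right
    have h3 : 0 < Nat.log 2 v := Nat.log_pos (by norm_num) hv
    obtain ⟨r, hr⟩ : ∃ r, Nat.log 2 v = r + 1 := ⟨Nat.log 2 v - 1, by omega⟩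
    obtain ⟨m, hm, hm'⟩ := choose_two_pow r
    refine ⟨2 ^ r, m, Nat.two_pow_pos r, ?_, hm', hm⟩
    rw [← h, hr, pow_succ]; ring
  · left
    rw [pow_succ] at h2
    refine ⟨2 ^ Nat.log 2 v, v - 2 ^ Nat.log 2 v, Nat.two_pow_pos _, by omega, by omega, ?_⟩
    exact odd_choose_pow _ _ (by omega)

end Crest.Agent.R204.Fs348
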