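import Crest.Agent.R204.BZ2b_498
import Crest.Agent.R204.Sq2_252

/-!
# Row 204, block S (helper498): `Φ_0 = ` Alexander-Whitney coproduct (exactly), `⟨u, Sq_n x⟩ = ⟨u ∪ u, x⟩`,
and `Sq_l a_n = C(n-l,l) a_{n-l}` given Cartan
-/

set_option autoImplicit false

noncomputable section

namespace Crest.Agent.R204.PhiCop498

open Finsupp SS DK742 TensorProduct Phi252 Sq252

/-- the two cone operators agree -/
theorem h_eq_c (n : ℕ) (z : N F2 (std n)) : Phi252.h n z = (EZ271.Cone.std n).c F2 z := by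
  have : Phi252.h n = (EZ271.Cone.std n).c F2 := by
    refine N_ext F2 fun m α => ?_
    rw [h_sx, EZ271.Cone.c_sx]
    rfl
  rw [this]

theorem v0_eq (n : ℕ) : v0 n = (EZ271.Cone.std n).bot := rfl

/-- `(pt ⊗ h)(cop z) = bot ⊗ h z` -/
theorem ptm_h_cop {n : ℕ} (z : N F2 (std n)) :
    TensorProduct.map (ptm n) (Phi252.h n) (EZ271.cop F2 z) = N.sx F2 (v0 n) ⊗ₜ Phi252.h n z := by
  have h1 : TensorProduct.map (ptm n) (Phi252.h n) =
      TensorProduct.mk F2 (N F2 (std n)) (N F2 (std n)) (N.sx F2 (v0 n)) ∘ₗ Phi252.h n ∘ₗ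
        (TensorProduct.lid F2 _).toLinearMap ∘ₗ
        TensorProduct.map (EZ271.aug F2 (K := std n)) LinearMap.id := by
    refine TensorProduct.ext' fun x y => ?_
    simp only [TensorProduct.map_tmul, LinearMap.comp_apply, LinearEquiv.coe_coe,
      TensorProduct.lid_tmul, LinearMap.id_apply, TensorProduct.mk_apply, map_smul]
    have h0 : Phi252.aug (std n) = EZ271.aug F2 := by
      refine N_ext F2 fun m α => ?_
      rcases m with _ | m
      · rw [aug_zero, EZ271.aug_sx_zero]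
      · rw [aug_succ, EZ271.aug_sx_succ]
    rw [ptm_apply, h0, TensorProduct.smul_tmul']
  rw [h1]
  simp only [LinearMap.comp_apply, LinearEquiv.coe_coe, TensorProduct.mk_apply]
  rw [EZ271.aug_cop_left]

/-- `hh (cop z) = cop (h z)` -/
theorem hh_cop {n : ℕ} (z : N F2 (std n)) : hh n (EZ271.cop F2 z) = EZ271.cop F2 (Phi252.h n z) := by
  have h1 : hh n (EZ271.cop F2 z) = TensorProduct.map (Phi252.h n) LinearMap.id (EZ271.cop F2 z) +
      TensorProduct.map (ptm n) (Phi252.h n) (EZ271.cop F2 z) := rfl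
  rw [h1, ptm_h_cop, h_eq_c, EZ271.cop_c, ← v0_eq, add_comm]
  congr 2

theorem h_bd_iota (n : ℕ) : Phi252.h (n + 1) (N.bd F2 _ (N.sx F2 (EZ271.iota (n + 1)))) =
    N.sx F2 (EZ271.iota (n + 1)) := by
  have h0 : Phi252.h (n + 1) (N.sx F2 (EZ271.iota (n + 1))) = 0 := by
    rw [h_eq_c, EZ271.iota_succ, EZ271.Cone.c_c]
  have h1 := bd_h (N.sx F2 (EZ271.iota (n + 1)))
  have h2 : ptm (n + 1) (N.sx F2 (EZ271.iota (n + 1))) = 0 := by
    rw [ptm_apply, aug_succ, zero_smul]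
  rw [h0, map_zero, h2, add_zero] at h1
  -- 0 = ι + h (bd ι)
  have h3 := Phi252.two_eq (N.sx F2 (EZ271.iota (n + 1)))
  calc Phi252.h (n + 1) (N.bd F2 _ (N.sx F2 (EZ271.iota (n + 1))))
      = Phi252.h (n + 1) (N.bd F2 _ (N.sx F2 (EZ271.iota (n + 1)))) +
        (N.sx F2 (EZ271.iota (n + 1)) + N.sx F2 (EZ271.iota (n + 1))) := by rw [h3, add_zero]
    _ = (N.sx F2 (EZ271.iota (n + 1)) + Phi252.h (n + 1) (N.bd F2 _ (N.sx F2 (EZ271.iota (n + 1))))) +
        N.sx F2 (EZ271.iota (n + 1)) := by abel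
    _ = _ := by rw [← h1, zero_add]

theorem stdMap_app_iota {m n : ℕ} (f : Op m n) :
    (Phi252.stdMap f).app m (EZ271.iota m) = (std n).act f (EZ271.iota n) := rfl

theorem phi_zero_eq (n : ℕ) : phi n 0 = EZ271.cop F2 (N.sx F2 (EZ271.iota n)) := by
  induction n with
  | zero =>
    rw [phi_zero_zero, EZ271.cop_vertex]
    have : v0 0 = EZ271.iota 0 := OrderHom.ext _ _ (funext fun a => Fin.ext (by omega))
    rw [this]
  | succ n ih =>
    rw [phi_succ_zero, ih]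
    have h1 : fsum n (EZ271.cop F2 (N.sx F2 (EZ271.iota n))) =
        EZ271.cop F2 (N.bd F2 _ (N.sx F2 (EZ271.iota (n + 1)))) := by
      rw [fsum_apply, bd_sx, map_sum]
      refine Finset.sum_congr rfl fun k _ => ?_
      show TensorProduct.map (N.map F2 _) (N.map F2 _) _ = _
      rw [← EZ271.cop_map, N.map_sx, stdMap_app_iota]
    rw [h1, hh_cop, h_bd_iota]

/-- **`Φ_0` is the Alexander-Whitney coproduct** -/
theorem Phi_zero_eq_cop (K : SS) (z : N F2 K) : Phi K 0 z = EZ271.cop F2 z := by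
  have : Phi K 0 = EZ271.cop F2 := by
    refine N_ext F2 fun n x => ?_
    rw [Phi_sx, phi_zero_eq]
    show TensorProduct.map (N.map F2 _) (N.map F2 _) _ = _
    rw [← EZ271.cop_map, N.map_sx]
    congr 2
    exact K.act_id x
  rw [this]

/-- the top square is the cup square: `⟨u, Sq_m x⟩ = ⟨u ∪ u, x⟩` for `x` of degree `2 m` -/
theorem uH_Sq_top {K : SS} {m : ℕ} (u : N F2 K →ₗ[F2] F2)
    (hu : ∀ x, u (N.bd F2 K x) = 0) {z : N F2 K} (hzn : z ∈ N.gr F2 K (2 * m))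
    (hz : N.bd F2 K z = 0) :
    uH _ u hu (Sq K m (Hd.mk _ z hz)) = uu u (EZ271.cop F2 z) := by
  rw [uH_Sq (le_refl _) u hu hzn hz, Nat.sub_self, Phi_zero_eq_cop]

/-! ## `B Z/2` -/

open BZ498

theorem uu_cop_c (u : N F2 BZ →ₗ[F2] F2) (h1 : u (N.sx F2 (c 1)) = 1) (h0 : u (N.sx F2 (c 0)) = 0) :
    uu u (EZ271.cop F2 (N.sx F2 (c 2))) = 1 := by
  rw [cop_c, map_sum]
  simp only [uu_tmul]
  rw [Finset.sum_range_succ, Finset.sum_range_succ, Finset.sum_range_one]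
  simp [h0, h1]

theorem sq_one_aZ_two : Sq BZ 1 (aZ 2) = aZ 1 := by
  have hm : Sq BZ 1 (aZ 2) ∈ H.gr F2 BZ (2 - 1) := Sq_mem_gr (K := BZ) (l := 1) (n := 2) (aZ_mem_gr 2)
  obtain ⟨r, hr⟩ := memZ_gr (2 - 1) _ hm
  rw [show 2 - 1 = 1 from rfl] at hr
  obtain ⟨u, hu1, hu0⟩ : ∃ u : N F2 BZ →ₗ[F2] F2, u (N.sx F2 (c 1)) = 1 ∧ u (N.sx F2 (c 0)) = 0 := by
    refine ⟨basisNZ.coord 1, ?_, ?_⟩
    · rw [← basisNZ_apply, Module.Basis.coord_apply, Module.Basis.repr_self,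
        Finsupp.single_eq_same]
    · rw [← basisNZ_apply, Module.Basis.coord_apply, Module.Basis.repr_self,
        Finsupp.single_eq_of_ne (by decide)]
  have hu : ∀ x, u (N.bd F2 BZ x) = 0 := fun x => by rw [bd_BZ, map_zero]
  have h1 : uH _ u hu (Sq BZ 1 (aZ 2)) = uu u (EZ271.cop F2 (N.sx F2 (c 2))) :=
    uH_Sq_top (K := BZ) (m := 1) u hu (z := N.sx F2 (c 2)) (mem_N_gr (c 2)) (bd_c 2)
  have h2 : uH _ u hu (aZ 1) = 1 := hu1
  rw [hr, map_smul, h2, uu_cop_c u hu1 hu0, smul_eq_mul, mul_one] at h1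
  rw [hr, h1, one_smul]

/-- **Steenrod operations of `B Z/2`**, given the external Cartan formula on `B Z/2 × B Z/2` -/
theorem sq_aZ_of_cartan
    (hcart : ∀ l p q, Sq (BZ.prod BZ) l (Q888.crH (aZ p) (aZ q)) =
      ∑ i ∈ Finset.range (l + 1), Q888.crH (Sq BZ i (aZ p)) (Sq BZ (l - i) (aZ q))) (n l : ℕ) :
    Sq BZ l (aZ n) = ((Nat.choose (n - l) l : ℕ) : F2) • aZ (n - l) := by
  refine sq_aZ (fun l => Sq BZ l) (fun l => Sq (BZ.prod BZ) l) (fun l n => ?_) hcart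
    (fun l n _ => Sq_mem_gr (aZ_mem_gr n)) (fun n => Sq_zero _)
    (fun l n h => Sq_unst (aZ_mem_gr n) h) sq_one_aZ_two n l
  exact (Sq_map (diag BZ) l (aZ n)).symm

end Crest.Agent.R204.PhiCop498
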