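import Crest.Agent.R204.Defs
import Crest.Agent.R204.Orb_742

/-!
# Row 204, block S: the equivariant diagonal `Φ i : N K → N K ⊗ N K`   (helper252)

`Φ` is defined by recursion on the universal simplex with the cone contraction; it is natural, kills
degenerate simplices and satisfies `d Φ_{i+1} + Φ_{i+1} d = (1 + t) Φ_i`.
-/

set_option autoImplicit false

noncomputable section

open TensorProduct

namespace Crest.Agent.R204.Phi252

open SS DK742

/-! ## the cone contraction of the standard simplex -/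

/-- prepend the vertex `0` -/
def cone {m n : ℕ} (α : Op m n) : Op (m + 1) n where
  toFun := Fin.cons 0 α
  monotone' := by
    intro i j hij
    induction i using Fin.cases with
    | zero => simp
    | succ i =>
      induction j using Fin.cases with
      | zero => exact absurd hij (by simp)
      | succ j => simpa using α.monotone (Fin.succ_le_succ_iff.1 hij)

@[simp] theorem cone_zero {m n : ℕ} (α : Op m n) : cone α 0 = 0 := rfl
@[simp] theorem cone_succ {m n : ℕ} (α : Op m n) (i : Fin (m + 1)) : cone α i.succ = α i := rfl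

theorem cone_dgn {m n : ℕ} (α : Op m n) (j : Fin (m + 1)) :
    cone (α.comp (Op.dgn j)) = (cone α).comp (Op.dgn j.succ) := by
  ext i
  induction i using Fin.cases with
  | zero =>
    have : (Op.dgn j.succ 0 : Fin (m + 2)) = 0 := by
      apply Fin.ext; rw [Ch.dgn_val]; simp
    simp [this]
  | succ i =>
    have : (Op.dgn j.succ i.succ : Fin (m + 2)) = (Op.dgn j i).succ := by
      apply Fin.ext
      rw [Ch.dgn_val, Fin.val_succ, Fin.val_succ, Fin.val_succ, Ch.dgn_val]
      split_ifs <;> omega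
    simp [this]

theorem cone_face_succ {m n : ℕ} (α : Op (m + 1) n) (k : Fin (m + 2)) :
    (cone α).comp (Op.face k.succ) = cone (α.comp (Op.face k)) := by
  ext i
  induction i using Fin.cases with
  | zero =>
    have : (Op.face k.succ 0 : Fin (m + 3)) = 0 := by
      apply Fin.ext; rw [Ch.face_val]; simp
    simp [this]
  | succ i =>
    have : (Op.face k.succ i.succ : Fin (m + 3)) = (Op.face k i).succ := by
      apply Fin.ext
      rw [Ch.face_val, Fin.val_succ, Fin.val_succ, Fin.val_succ, Ch.face_val]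
      split_ifs <;> omega
    simp [this]

theorem cone_face_zero {m n : ℕ} (α : Op m n) : (cone α).comp (Op.face 0) = α := by
  ext i
  have : (Op.face (0 : Fin (m + 2)) i : Fin (m + 2)) = i.succ := by
    apply Fin.ext; rw [Ch.face_val]; simp
  simp [this]

theorem cone_face_one {n : ℕ} (α : Op 0 n) :
    (cone α).comp (Op.face 1) = ⟨fun _ => 0, fun _ _ _ => le_rfl⟩ := by
  ext i
  have : (Op.face (1 : Fin 2) i : Fin 2) = 0 := by
    apply Fin.ext; rw [Ch.face_val]
    have : (i : ℕ) = 0 := by omega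
    simp [this]
  simp [this]

theorem cone_comp {m n n' : ℕ} (α : Op m n) (f : Op n n') (hf : f 0 = 0) :
    f.comp (cone α) = cone (f.comp α) := by
  ext i
  induction i using Fin.cases with
  | zero => simp [hf]
  | succ i => simp

/-- base vertex -/
def v0 (n : ℕ) : (std n).S 0 := (⟨fun _ => 0, fun _ _ _ => le_rfl⟩ : Op 0 n)

/-- augmentation -/
def aug (K : SS) : N F2 K →ₗ[F2] F2 :=
  nLift F2 (fun n _ => if n = 0 then 1 else 0) (fun _ _ _ => by simp)

@[simp] theorem aug_zero {K : SS} (x : K.S 0) : aug K (N.sx F2 x) = 1 := by simp [aug]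
@[simp] theorem aug_succ {K : SS} {n : ℕ} (x : K.S (n + 1)) : aug K (N.sx F2 x) = 0 := by simp [aug]

theorem aug_map {K L : SS} (f : Hom K L) (c : N F2 K) : aug L (N.map F2 f c) = aug K c := by
  have : aug L ∘ₗ N.map F2 f = aug K := by
    refine N_ext F2 fun n x => ?_
    rw [LinearMap.comp_apply, N.map_sx]
    rcases n with _ | n <;> simp
  exact LinearMap.congr_fun this c

theorem aug_bd {K : SS} (c : N F2 K) : aug K (N.bd F2 K c) = 0 := by
  have : aug K ∘ₗ N.bd F2 K = 0 := by
    refine N_ext F2 fun n x => ?_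
    rw [LinearMap.comp_apply]
    rcases n with _ | n
    · rw [bd_sx_zero, map_zero]; rfl
    · rw [bd_sx_succ, map_sum]
      simp only [map_smul]
      rcases n with _ | n
      · simp only [aug_zero, Fin.sum_univ_two, LinearMap.zero_apply]
        decide
      · simp
  exact LinearMap.congr_fun this c

/-- the cone contraction -/
def h (n : ℕ) : N F2 (std n) →ₗ[F2] N F2 (std n) :=
  nLift F2 (fun m (α : Op m n) => (N.sx F2 (K := std n) (n := m + 1) (cone α)))
    (fun m j α => by
      have : cone ((std n).act (Op.dgn j) α) = (std n).act (Op.dgn j.succ) (cone α) := cone_dgn α j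
      rw [this, N.sx_dgn])

theorem h_sx {n m : ℕ} (α : (std n).S m) :
    h n (N.sx F2 α) = N.sx F2 (K := std n) (n := m + 1) (cone (α : Op m n)) := by
  simp [h]

/-- projection to the base vertex -/
def ptm (n : ℕ) : N F2 (std n) →ₗ[F2] N F2 (std n) :=
  (LinearMap.toSpanSingleton F2 _ (N.sx F2 (v0 n))) ∘ₗ aug (std n)

theorem ptm_apply {n : ℕ} (c : N F2 (std n)) : ptm n c = aug (std n) c • N.sx F2 (v0 n) := rfl

theorem two_eq {M : Type*} [AddCommGroup M] [Module F2 M] (x : M) : x + x = 0 := by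
  have : (2 : F2) • x = 0 := by
    have h2 : (2 : F2) = 0 := by decide
    rw [h2, zero_smul]
  rwa [two_smul] at this

theorem neg_eq {M : Type*} [AddCommGroup M] [Module F2 M] (x : M) : -x = x :=
  neg_eq_of_add_eq_zero_left (two_eq x)

theorem sub_eq' {M : Type*} [AddCommGroup M] [Module F2 M] (x y : M) : x - y = x + y := by
  rw [sub_eq_add_neg, neg_eq]

theorem bd_sx {K : SS} {n : ℕ} (x : K.S (n + 1)) :
    N.bd F2 K (N.sx F2 x) = ∑ i : Fin (n + 2), N.sx F2 (K.act (Op.face i) x) := by
  rw [bd_sx_succ]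
  refine Finset.sum_congr rfl fun i _ => ?_
  have : (-1 : F2) = 1 := by decide
  rw [this, one_pow, one_smul]

theorem bd_h {n : ℕ} (c : N F2 (std n)) :
    N.bd F2 _ (h n c) = c + h n (N.bd F2 _ c) + ptm n c := by
  have : N.bd F2 _ ∘ₗ h n = LinearMap.id + h n ∘ₗ N.bd F2 _ + ptm n := by
    refine N_ext F2 fun m α => ?_
    simp only [LinearMap.comp_apply, LinearMap.add_apply, LinearMap.id_apply]
    rw [h_sx, bd_sx, Fin.sum_univ_succ]
    have e0 : (std n).act (Op.face 0) (cone (α : Op m n)) = α := cone_face_zero α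
    rw [e0]
    rcases m with _ | m
    · rw [bd_sx_zero, map_zero, ptm_apply, aug_zero, one_smul, add_zero]
      congr 1
      have : (std n).act (Op.face (Fin.succ 0)) (cone (α : Op 0 n)) = v0 n := cone_face_one α
      rw [Fin.sum_univ_succ, Fin.sum_univ_zero, add_zero]
      exact congrArg _ this
    · rw [bd_sx, map_sum, ptm_apply, aug_succ, zero_smul, add_zero]
      congr 1
      refine Finset.sum_congr rfl fun k _ => ?_
      rw [h_sx]
      congr 1
      exact cone_face_succ α k
  exact LinearMap.congr_fun this c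

theorem aug_h {n : ℕ} (c : N F2 (std n)) : aug _ (h n c) = 0 := by
  have : aug _ ∘ₗ h n = 0 := by
    refine N_ext F2 fun m α => ?_
    rw [LinearMap.comp_apply, h_sx, aug_succ]; rfl
  exact LinearMap.congr_fun this c

/-- map of standard simplices -/
abbrev stdMap {n n' : ℕ} (f : Op n n') : Hom (std n) (std n') := yo (std n') (n := n) f

theorem map_h {n n' : ℕ} (f : Op n n') (hf : f 0 = 0) (c : N F2 (std n)) :
    N.map F2 (stdMap f) (h n c) = h n' (N.map F2 (stdMap f) c) := by
  have : N.map F2 (stdMap f) ∘ₗ h n = h n' ∘ₗ N.map F2 (stdMap f) := by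
    refine N_ext F2 fun m α => ?_
    rw [LinearMap.comp_apply, LinearMap.comp_apply, h_sx, N.map_sx, N.map_sx, h_sx]
    congr 1
    exact cone_comp α f hf
  exact LinearMap.congr_fun this c

theorem map_ptm {n n' : ℕ} (f : Op n n') (hf : f 0 = 0) (c : N F2 (std n)) :
    N.map F2 (stdMap f) (ptm n c) = ptm n' (N.map F2 (stdMap f) c) := by
  rw [ptm_apply, ptm_apply, map_smul, N.map_sx, aug_map]
  have : (stdMap f).app 0 (v0 n) = v0 n' := OrderHom.ext _ _ (funext fun _ => hf)
  rw [this]

/-! ## tensor squares -/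

/-- `N K ⊗ N K` -/
abbrev NN (K : SS) : Type := N F2 K ⊗[F2] N F2 K

/-- differential of the tensor square -/
def dd (K : SS) : NN K →ₗ[F2] NN K :=
  TensorProduct.map (N.bd F2 K) LinearMap.id + TensorProduct.map LinearMap.id (N.bd F2 K)

@[simp] theorem dd_tmul {K : SS} (x y : N F2 K) :
    dd K (x ⊗ₜ y) = N.bd F2 K x ⊗ₜ y + x ⊗ₜ N.bd F2 K y := rfl

theorem dd_dd {K : SS} (z : NN K) : dd K (dd K z) = 0 := by
  induction z using TensorProduct.induction_on with
  | zero => simp
  | tmul x y =>
    simp only [dd_tmul, map_add, N.bd_bd, TensorProduct.zero_tmul, TensorProduct.tmul_zero,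
      zero_add, add_zero]
    exact two_eq _
  | add a b ha hb => rw [map_add, map_add, ha, hb, add_zero]

/-- the swap -/
def tt (K : SS) : NN K →ₗ[F2] NN K := (TensorProduct.comm F2 (N F2 K) (N F2 K)).toLinearMap

@[simp] theorem tt_tmul {K : SS} (x y : N F2 K) : tt K (x ⊗ₜ y) = y ⊗ₜ x := rfl

theorem tt_tt {K : SS} (z : NN K) : tt K (tt K z) = z := by
  induction z using TensorProduct.induction_on with
  | zero => simp
  | tmul x y => simp
  | add a b ha hb => rw [map_add, map_add, ha, hb]

theorem dd_tt {K : SS} (z : NN K) : dd K (tt K z) = tt K (dd K z) := by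
  induction z using TensorProduct.induction_on with
  | zero => simp
  | tmul x y => simp [add_comm]
  | add a b ha hb => simp only [map_add, ha, hb]

/-- functoriality -/
def nm {K L : SS} (f : Hom K L) : NN K →ₗ[F2] NN L := TensorProduct.map (N.map F2 f) (N.map F2 f)

@[simp] theorem nm_tmul {K L : SS} (f : Hom K L) (x y : N F2 K) :
    nm f (x ⊗ₜ y) = N.map F2 f x ⊗ₜ N.map F2 f y := rfl

theorem map_comp {K L M : SS} (g : Hom L M) (f : Hom K L) (c : N F2 K) :
    N.map F2 (g.comp f) c = N.map F2 g (N.map F2 f c) := by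
  have : N.map F2 (g.comp f) = N.map F2 g ∘ₗ N.map F2 f := by
    refine N_ext F2 fun n x => ?_
    rw [LinearMap.comp_apply, N.map_sx, N.map_sx, N.map_sx]; rfl
  exact LinearMap.congr_fun this c

theorem map_bd' {K L : SS} (f : Hom K L) (c : N F2 K) :
    N.map F2 f (N.bd F2 K c) = N.bd F2 L (N.map F2 f c) := LinearMap.congr_fun (N.map_bd f) c

theorem nm_comp {K L M : SS} (g : Hom L M) (f : Hom K L) (z : NN K) :
    nm (g.comp f) z = nm g (nm f z) := by
  induction z using TensorProduct.induction_on with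
  | zero => simp
  | tmul x y => simp [map_comp]
  | add a b ha hb => simp only [map_add, ha, hb]

theorem map_id {K : SS} (c : N F2 K) : N.map F2 (Hom.id K) c = c := by
  have : N.map F2 (Hom.id K) = LinearMap.id := by
    refine N_ext F2 fun n x => ?_
    rw [N.map_sx]; rfl
  exact LinearMap.congr_fun this c

theorem nm_id {K : SS} (z : NN K) : nm (Hom.id K) z = z := by
  induction z using TensorProduct.induction_on with
  | zero => simp
  | tmul x y => simp [map_id]
  | add a b ha hb => simp only [map_add, ha, hb]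

theorem nm_dd {K L : SS} (f : Hom K L) (z : NN K) : nm f (dd K z) = dd L (nm f z) := by
  induction z using TensorProduct.induction_on with
  | zero => simp
  | tmul x y => simp [map_bd']
  | add a b ha hb => simp only [map_add, ha, hb]

theorem nm_tt {K L : SS} (f : Hom K L) (z : NN K) : nm f (tt K z) = tt L (nm f z) := by
  induction z using TensorProduct.induction_on with
  | zero => simp
  | tmul x y => simp
  | add a b ha hb => simp only [map_add, ha, hb]

/-- contraction of the tensor square of the standard simplex -/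
def hh (n : ℕ) : NN (std n) →ₗ[F2] NN (std n) :=
  TensorProduct.map (h n) LinearMap.id + TensorProduct.map (ptm n) (h n)

@[simp] theorem hh_tmul {n : ℕ} (x y : N F2 (std n)) :
    hh n (x ⊗ₜ y) = h n x ⊗ₜ y + ptm n x ⊗ₜ h n y := rfl

/-- double augmentation -/
def aa (K : SS) : NN K →ₗ[F2] F2 := TensorProduct.lift ((LinearMap.mul F2 F2).compl₁₂ (aug K) (aug K))

@[simp] theorem aa_tmul {K : SS} (x y : N F2 K) : aa K (x ⊗ₜ y) = aug K x * aug K y := rfl

theorem aa_tt {K : SS} (z : NN K) : aa K (tt K z) = aa K z := by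
  induction z using TensorProduct.induction_on with
  | zero => simp
  | tmul x y => simp [mul_comm]
  | add a b ha hb => simp only [map_add, ha, hb]

theorem aa_nm {K L : SS} (f : Hom K L) (z : NN K) : aa L (nm f z) = aa K z := by
  induction z using TensorProduct.induction_on with
  | zero => simp
  | tmul x y => simp [aug_map]
  | add a b ha hb => simp only [map_add, ha, hb]

theorem aa_hh {n : ℕ} (z : NN (std n)) : aa _ (hh n z) = 0 := by
  induction z using TensorProduct.induction_on with
  | zero => simp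
  | tmul x y => simp [aug_h]
  | add a b ha hb => simp only [map_add, ha, hb, add_zero]

theorem dd_hh {n : ℕ} (z : NN (std n)) :
    dd _ (hh n z) = z + hh n (dd _ z) + aa _ z • (N.sx F2 (v0 n) ⊗ₜ N.sx F2 (v0 n)) := by
  induction z using TensorProduct.induction_on with
  | zero => simp
  | tmul x y =>
    simp only [hh_tmul, map_add, dd_tmul, bd_h, ptm_apply, aug_bd, zero_smul,
      TensorProduct.zero_tmul, add_zero, zero_add, map_smul, aa_tmul, TensorProduct.add_tmul,
      TensorProduct.tmul_add, bd_sx_zero, smul_zero, TensorProduct.smul_tmul', TensorProduct.tmul_smul,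
      mul_smul]
    rw [smul_comm (aug (std n) x) (aug (std n) y)]
    linear_combination (norm := module) two_eq ((aug (std n) x • N.sx F2 (v0 n)) ⊗ₜ[F2] y)
  | add a b ha hb => 
    simp only [map_add, ha, hb, add_smul]; abel

/-! ## the recursion -/

/-- sum over the faces of the standard simplex -/
def fsum (n : ℕ) : NN (std n) →ₗ[F2] NN (std (n + 1)) :=
  ∑ k : Fin (n + 2), nm (stdMap (Op.face k))

/-- the universal elements `phi n i ∈ N Δⁿ ⊗ N Δⁿ` -/
def phi : (n : ℕ) → ℕ → NN (std n)
  | 0 => fun i => if i = 0 then N.sx F2 (v0 0) ⊗ₜ N.sx F2 (v0 0) else 0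
  | n + 1 => fun i => Nat.rec (hh (n + 1) (fsum n (phi n 0)))
      (fun i prev => hh (n + 1) (fsum n (phi n (i + 1)) + (prev + tt _ prev))) i

theorem phi_zero_zero : phi 0 0 = N.sx F2 (v0 0) ⊗ₜ N.sx F2 (v0 0) := rfl
theorem phi_zero_succ (i : ℕ) : phi 0 (i + 1) = 0 := rfl
theorem phi_succ_zero (n : ℕ) : phi (n + 1) 0 = hh (n + 1) (fsum n (phi n 0)) := rfl
theorem phi_succ_succ (n i : ℕ) : phi (n + 1) (i + 1) =
    hh (n + 1) (fsum n (phi n (i + 1)) + (phi (n + 1) i + tt _ (phi (n + 1) i))) := rfl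

theorem fsum_apply (n : ℕ) (z : NN (std n)) : fsum n z = ∑ k, nm (stdMap (Op.face k)) z := by
  simp [fsum]

theorem fsum_dd (n : ℕ) (z : NN (std n)) : fsum n (dd _ z) = dd _ (fsum n z) := by
  simp only [fsum_apply, map_sum, nm_dd]

theorem fsum_tt (n : ℕ) (z : NN (std n)) : fsum n (tt _ z) = tt _ (fsum n z) := by
  simp only [fsum_apply, map_sum, nm_tt]

theorem stdMap_comp {l m n : ℕ} (f : Op l m) (g : Op m n) :
    (stdMap g).comp (stdMap f) = stdMap (g.comp f) := rfl

theorem aa_fsum (n : ℕ) (z : NN (std n)) : aa _ (fsum n z) = (n : F2) * aa _ z := by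
  rw [fsum_apply, map_sum]
  simp only [aa_nm, Finset.sum_const, Finset.card_univ, Fintype.card_fin]
  rw [nsmul_eq_mul]
  push_cast
  have h2 : (2 : F2) = 0 := by decide
  rw [h2, add_zero]

/-- the double sum over faces vanishes -/
theorem fsum_fsum (n : ℕ) (z : NN (std n)) : fsum (n + 1) (fsum n z) = 0 := by
  rw [fsum_apply]
  simp only [fsum_apply, map_sum]
  simp only [← nm_comp, stdMap_comp]
  rw [← Finset.sum_product']
  refine Finset.sum_involution
    (fun (p : Fin (n + 3) × Fin (n + 2)) _ =>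
      if h : (p.2 : ℕ) < p.1 then
        ((⟨p.2, by omega⟩ : Fin (n + 3)), (⟨p.1 - 1, by omega⟩ : Fin (n + 2)))
      else ((⟨p.2 + 1, by omega⟩ : Fin (n + 3)), (⟨p.1, by omega⟩ : Fin (n + 2)))) ?_ ?_ ?_ ?_
  · rintro ⟨i, j⟩ -
    dsimp only
    by_cases h : (j : ℕ) < i
    · rw [dif_pos h]
      dsimp only
      rw [Ch.face_face i j ⟨j, by omega⟩ ⟨i - 1, by omega⟩ h rfl (by simp; omega)]
      exact two_eq _
    · rw [dif_neg h]
      dsimp only
      rw [Ch.face_face ⟨j + 1, by omega⟩ ⟨i, by omega⟩ i j (by simp; omega) rfl (by simp)]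
      exact two_eq _
  · rintro ⟨i, j⟩ - _
    dsimp only
    split_ifs with h
    · intro h'
      simp only [Prod.mk.injEq, Fin.ext_iff] at h'
      omega
    · intro h'
      simp only [Prod.mk.injEq, Fin.ext_iff] at h'
      omega
  · intros; exact Finset.mem_univ _
  · rintro ⟨i, j⟩ -
    dsimp only
    by_cases h : (j : ℕ) < i
    · have e1 : ¬ ((i : ℕ) - 1 < (j : ℕ)) := by omega
      rw [dif_pos h]
      refine (dif_neg (c := (i : ℕ) - 1 < (j : ℕ)) e1).trans ?_
      refine Prod.ext (Fin.ext ?_) (Fin.ext ?_)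
      · show (i : ℕ) - 1 + 1 = i
        omega
      · rfl
    · have e1 : (i : ℕ) < (j : ℕ) + 1 := by omega
      rw [dif_neg h]
      refine (dif_pos (c := (i : ℕ) < (j : ℕ) + 1) e1).trans ?_
      refine Prod.ext (Fin.ext ?_) (Fin.ext ?_)
      · rfl
      · show (j : ℕ) + 1 - 1 = j
        omega

theorem aa_phi_zero (n : ℕ) : aa _ (phi n 0) = if n = 0 then 1 else 0 := by
  rcases n with _ | n
  · simp [phi_zero_zero]
  · rw [phi_succ_zero, aa_hh]; simp

theorem aa_phi_succ (n i : ℕ) : aa _ (phi n (i + 1)) = 0 := by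
  rcases n with _ | n
  · rw [phi_zero_succ, map_zero]
  · rw [phi_succ_succ, aa_hh]

theorem aa_fsum_phi (n i : ℕ) : aa _ (fsum n (phi n i)) = 0 := by
  rw [aa_fsum]
  rcases i with _ | i
  · rw [aa_phi_zero]
    rcases n with _ | n <;> simp
  · rw [aa_phi_succ, mul_zero]

theorem aa_add_tt {K : SS} (z : NN K) : aa K (z + tt K z) = 0 := by
  rw [map_add, aa_tt]; exact two_eq _

/-- boundary of `phi (n+1) 0` -/
theorem dd_phi_zero (n : ℕ) : dd _ (phi (n + 1) 0) = fsum n (phi n 0) := by
  induction n with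
  | zero =>
    rw [phi_succ_zero, dd_hh, aa_fsum_phi, zero_smul, add_zero, ← fsum_dd]
    rw [phi_zero_zero]
    simp [bd_sx_zero]
  | succ n ih =>
    rw [phi_succ_zero, dd_hh, aa_fsum_phi, zero_smul, add_zero, ← fsum_dd]
    rw [ih, fsum_fsum, map_zero, add_zero]

theorem add_tt_tt {K : SS} (z : NN K) : (z + tt K z) + tt K (z + tt K z) = 0 := by
  rw [map_add, tt_tt, add_comm (tt K z) z]
  exact two_eq _

theorem dd_phi_of_key {n i : ℕ}
    (key : dd _ (fsum n (phi n (i + 1)) + (phi (n + 1) i + tt _ (phi (n + 1) i))) = 0) :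
    dd _ (phi (n + 1) (i + 1)) =
    fsum n (phi n (i + 1)) + (phi (n + 1) i + tt _ (phi (n + 1) i)) := by
  rw [phi_succ_succ, dd_hh, key, map_zero, add_zero, map_add, aa_fsum_phi, aa_add_tt, add_zero,
    zero_smul, add_zero]

/-- boundary of `phi (n+1) (i+1)` -/
theorem dd_phi_succ (n : ℕ) : ∀ i, dd _ (phi (n + 1) (i + 1)) =
    fsum n (phi n (i + 1)) + (phi (n + 1) i + tt _ (phi (n + 1) i)) := by
  induction n with
  | zero =>
    intro i
    induction i with
    | zero =>
      apply dd_phi_of_key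
      rw [map_add, map_add, dd_tt, ← fsum_dd, phi_zero_succ, map_zero, map_zero, zero_add,
        dd_phi_zero, phi_zero_zero, ← fsum_tt, tt_tmul, zero_add]
      exact two_eq (M := NN (std (0 + 1))) _
    | succ i ih =>
      apply dd_phi_of_key
      rw [map_add, map_add, dd_tt, ← fsum_dd, phi_zero_succ, map_zero, map_zero, zero_add,
        ih, phi_zero_succ, map_zero]
      simp only [zero_add]
      exact add_tt_tt (phi (0 + 1) i)
  | succ n ihn =>
    intro i
    induction i with
    | zero =>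
      apply dd_phi_of_key
      rw [map_add, map_add, dd_tt, ← fsum_dd, ihn, map_add, fsum_fsum, zero_add, dd_phi_zero,
        map_add, fsum_tt]
      exact two_eq _
    | succ i ih =>
      apply dd_phi_of_key
      rw [map_add, map_add, dd_tt, ← fsum_dd, ihn, map_add, fsum_fsum, zero_add, ih,
        map_add, fsum_tt]
      have := add_tt_tt (phi (n + 1 + 1) i)
      simp only [map_add] at this ⊢
      linear_combination (norm := module) this + two_eq (fsum (n + 1) (phi (n + 1) (i + 1))) +
        two_eq (tt _ (fsum (n + 1) (phi (n + 1) (i + 1))))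

/-! ## the recursion kills degenerate simplices -/

theorem nm_hh {n n' : ℕ} (f : Op n n') (hf : f 0 = 0) (z : NN (std n)) :
    nm (stdMap f) (hh n z) = hh n' (nm (stdMap f) z) := by
  induction z using TensorProduct.induction_on with
  | zero => simp
  | tmul x y => simp only [hh_tmul, map_add, nm_tmul, map_h f hf, map_ptm f hf]
  | add a b ha hb => simp only [map_add, ha, hb]

theorem dgn_zero {n : ℕ} (j : Fin (n + 1)) : (Op.dgn j 0 : Fin (n + 1)) = 0 := by
  apply Fin.ext; rw [Ch.dgn_val]; simp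

theorem nm_dgn_fsum {n : ℕ} (j : Fin (n + 1)) (z : NN (std n))
    (hz : ∀ m (hm : n = m + 1) (j' : Fin (m + 1)), nm (stdMap (Op.dgn j')) (hm ▸ z) = 0) :
    nm (stdMap (Op.dgn j)) (fsum n z) = 0 := by
  rw [fsum_apply, map_sum]
  simp only [← nm_comp, stdMap_comp]
  rw [← Finset.sum_add_sum_compl ({j.castSucc, j.succ} : Finset (Fin (n + 2)))]
  rw [Finset.sum_pair (by simp [Fin.ext_iff]), Ch.face_dgn_eq _ _ (Or.inl rfl),
    Ch.face_dgn_eq _ _ (Or.inr rfl), two_eq, zero_add]
  refine Finset.sum_eq_zero fun i hi => ?_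
  simp only [Finset.mem_compl, Finset.mem_insert, Finset.mem_singleton, not_or] at hi
  rcases n with _ | n
  · exfalso
    have h1 := hi.1; have h2 := hi.2
    simp only [Fin.ext_iff, Fin.val_castSucc, Fin.val_succ] at h1 h2
    omega
  · obtain ⟨i', j', h⟩ := Ch.face_dgn_ne i j hi.1 hi.2
    rw [h, ← stdMap_comp, nm_comp, hz n rfl j', map_zero]

theorem nm_dgn_phi (n : ℕ) : ∀ (i : ℕ) (j : Fin (n + 1)), nm (stdMap (Op.dgn j)) (phi (n + 1) i) = 0 := by
  induction n with
  | zero =>
    intro i
    induction i with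
    | zero =>
      intro j
      rw [phi_succ_zero, nm_hh _ (dgn_zero j), nm_dgn_fsum, map_zero]
      intro m hm; omega
    | succ i ih =>
      intro j
      rw [phi_succ_succ, nm_hh _ (dgn_zero j), map_add (nm (stdMap (Op.dgn j))),
        map_add (nm (stdMap (Op.dgn j))), nm_tt, ih j, map_zero, add_zero,
        nm_dgn_fsum, add_zero, map_zero]
      intro m hm; omega
  | succ n ihn =>
    intro i
    induction i with
    | zero =>
      intro j
      rw [phi_succ_zero, nm_hh _ (dgn_zero j), nm_dgn_fsum, map_zero]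
      intro m hm j'
      obtain rfl : n = m := by omega
      exact ihn 0 j'
    | succ i ih =>
      intro j
      rw [phi_succ_succ, nm_hh _ (dgn_zero j), map_add (nm (stdMap (Op.dgn j))),
        map_add (nm (stdMap (Op.dgn j))), nm_tt, ih j, map_zero, add_zero,
        nm_dgn_fsum, add_zero, map_zero]
      intro m hm j'
      obtain rfl : n = m := by omega
      exact ihn (i + 1) j'

/-! ## the equivariant diagonal -/

/-- **The equivariant diagonal** -/
def Phi (K : SS) (i : ℕ) : N F2 K →ₗ[F2] NN K :=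
  nLift F2 (fun n (x : K.S n) => nm (yo K x) (phi n i))
    (fun n j y => by
      have : yo K (K.act (Op.dgn j) y) = (yo K y).comp (stdMap (Op.dgn j)) := by
        ext m g
        exact (K.act_comp g (Op.dgn j) y).symm
      rw [this, nm_comp, nm_dgn_phi, map_zero])

theorem Phi_sx {K : SS} {n : ℕ} (x : K.S n) (i : ℕ) : Phi K i (N.sx F2 x) = nm (yo K x) (phi n i) := by
  simp [Phi]

/-- naturality -/
theorem nm_Phi {K L : SS} (f : Hom K L) (i : ℕ) (c : N F2 K) :
    nm f (Phi K i c) = Phi L i (N.map F2 f c) := by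
  have : nm f ∘ₗ Phi K i = Phi L i ∘ₗ N.map F2 f := by
    refine N_ext F2 fun n x => ?_
    rw [LinearMap.comp_apply, LinearMap.comp_apply, Phi_sx, N.map_sx, Phi_sx, ← nm_comp]
    congr 2
    ext m g
    exact f.nat g x
  exact LinearMap.congr_fun this c

theorem Phi_bd_sx {K : SS} {n : ℕ} (x : K.S (n + 1)) (i : ℕ) :
    Phi K i (N.bd F2 K (N.sx F2 x)) = nm (yo K x) (fsum n (phi n i)) := by
  rw [bd_sx, map_sum, fsum_apply, map_sum]
  refine Finset.sum_congr rfl fun k _ => ?_
  rw [Phi_sx, ← nm_comp]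
  congr 2
  ext m g
  exact (K.act_comp g (Op.face k) x).symm

theorem dd_Phi_zero {K : SS} (c : N F2 K) : dd K (Phi K 0 c) = Phi K 0 (N.bd F2 K c) := by
  have : dd K ∘ₗ Phi K 0 = Phi K 0 ∘ₗ N.bd F2 K := by
    refine N_ext F2 fun n x => ?_
    rw [LinearMap.comp_apply, LinearMap.comp_apply]
    rcases n with _ | n
    · rw [bd_sx_zero, map_zero, Phi_sx, ← nm_dd, phi_zero_zero]
      simp [bd_sx_zero]
    · rw [Phi_bd_sx, Phi_sx, ← nm_dd, dd_phi_zero]
  exact LinearMap.congr_fun this c

/-- the boundary formula `d Φ_{i+1} = Φ_{i+1} d + (1 + t) Φ_i` -/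
theorem dd_Phi_succ {K : SS} (i : ℕ) (c : N F2 K) :
    dd K (Phi K (i + 1) c) = Phi K (i + 1) (N.bd F2 K c) + (Phi K i c + tt K (Phi K i c)) := by
  have : dd K ∘ₗ Phi K (i + 1) = Phi K (i + 1) ∘ₗ N.bd F2 K + (Phi K i + tt K ∘ₗ Phi K i) := by
    refine N_ext F2 fun n x => ?_
    simp only [LinearMap.comp_apply, LinearMap.add_apply]
    rcases n with _ | n
    · rw [bd_sx_zero, map_zero, Phi_sx, Phi_sx, ← nm_dd, ← nm_tt, phi_zero_succ, map_zero, map_zero,
        zero_add, ← map_add]
      rcases i with _ | i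
      · rw [phi_zero_zero, tt_tmul, two_eq, map_zero]
      · rw [phi_zero_succ]; simp
    · rw [Phi_bd_sx, Phi_sx, Phi_sx, ← nm_dd, dd_phi_succ, map_add, map_add, nm_tt]
  exact LinearMap.congr_fun this c

/-! ## degrees -/

/-- the part of total degree `m` of `N K ⊗ N K` -/
def TG (K : SS) (m : ℕ) : Submodule F2 (NN K) :=
  Submodule.span F2 {z | ∃ (a b : ℕ) (x : K.S a) (y : K.S b), a + b = m ∧ z = N.sx F2 x ⊗ₜ N.sx F2 y}

theorem tmul_mem_TG {K : SS} {a b m : ℕ} (h : a + b = m) (x : K.S a) (y : K.S b) :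
    (N.sx F2 x ⊗ₜ N.sx F2 y : NN K) ∈ TG K m := Submodule.subset_span ⟨a, b, x, y, h, rfl⟩

theorem nm_mem_TG {K L : SS} (f : Hom K L) {m : ℕ} {z : NN K} (hz : z ∈ TG K m) :
    nm f z ∈ TG L m := by
  refine Submodule.span_induction (p := fun z _ => nm f z ∈ TG L m) ?_ ?_ ?_ ?_ hz
  · rintro _ ⟨a, b, x, y, h, rfl⟩
    rw [nm_tmul, N.map_sx, N.map_sx]
    exact tmul_mem_TG h _ _
  · simp
  · intro a b _ _ ha hb; rw [map_add]; exact Submodule.add_mem _ ha hb
  · intro r a _ ha; rw [map_smul]; exact Submodule.smul_mem _ _ ha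

theorem tt_mem_TG {K : SS} {m : ℕ} {z : NN K} (hz : z ∈ TG K m) : tt K z ∈ TG K m := by
  refine Submodule.span_induction (p := fun z _ => tt K z ∈ TG K m) ?_ ?_ ?_ ?_ hz
  · rintro _ ⟨a, b, x, y, h, rfl⟩
    rw [tt_tmul]
    exact tmul_mem_TG (by omega) _ _
  · simp
  · intro a b _ _ ha hb; rw [map_add]; exact Submodule.add_mem _ ha hb
  · intro r a _ ha; rw [map_smul]; exact Submodule.smul_mem _ _ ha

theorem hh_mem_TG {n m : ℕ} {z : NN (std n)} (hz : z ∈ TG (std n) m) : hh n z ∈ TG (std n) (m + 1) := by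
  refine Submodule.span_induction (p := fun z _ => hh n z ∈ TG (std n) (m + 1)) ?_ ?_ ?_ ?_ hz
  · rintro _ ⟨a, b, x, y, h, rfl⟩
    rw [hh_tmul, h_sx, h_sx, ptm_apply]
    refine Submodule.add_mem _ (tmul_mem_TG (K := std n) (by omega) _ _) ?_
    rcases a with _ | a
    · rw [aug_zero, one_smul]
      exact tmul_mem_TG (K := std n) (a := 0) (b := b + 1) (by omega) _ _
    · rw [aug_succ, zero_smul, TensorProduct.zero_tmul]
      exact Submodule.zero_mem _
  · simp
  · intro a b _ _ ha hb; rw [map_add]; exact Submodule.add_mem _ ha hb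
  · intro r a _ ha; rw [map_smul]; exact Submodule.smul_mem _ _ ha

theorem fsum_mem_TG {n m : ℕ} {z : NN (std n)} (hz : z ∈ TG (std n) m) :
    fsum n z ∈ TG (std (n + 1)) m := by
  rw [fsum_apply]
  exact Submodule.sum_mem _ fun k _ => nm_mem_TG _ hz

theorem phi_mem_TG (n : ℕ) : ∀ i, phi n i ∈ TG (std n) (n + i) := by
  induction n with
  | zero =>
    intro i
    rcases i with _ | i
    · exact tmul_mem_TG (by omega) _ _
    · rw [phi_zero_succ]; exact Submodule.zero_mem _
  | succ n ih =>
    intro i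
    induction i with
    | zero => exact hh_mem_TG (fsum_mem_TG (ih 0))
    | succ i ihi =>
      rw [phi_succ_succ]
      have e : n + 1 + (i + 1) = n + (i + 1) + 1 := by omega
      rw [e]
      refine hh_mem_TG (Submodule.add_mem _ (fsum_mem_TG (ih (i + 1))) ?_)
      have e' : n + (i + 1) = n + 1 + i := by omega
      rw [e']
      exact Submodule.add_mem _ ihi (tt_mem_TG ihi)

theorem sx_eq_zero_of_not_inj {n m : ℕ} (α : Op m n)
    (hα : ¬ Function.Injective α) : N.sx F2 (K := std n) (n := m) α = 0 := by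
  rcases m with _ | m
  · exact absurd (fun a b _ => Subsingleton.elim (α := Fin 1) a b) hα
  · have hmono := α.monotone
    have hex : ∃ j : Fin (m + 1), α j.castSucc = α j.succ := by
      by_contra hcon
      push Not at hcon
      refine hα (StrictMono.injective (Fin.strictMono_iff_lt_succ.2 fun j => ?_))
      exact lt_of_le_of_ne (hmono (Fin.castSucc_le_succ j)) (hcon j)
    obtain ⟨j, hj⟩ := hex
    have : (α : (std n).S (m + 1)) = (std n).act (Op.dgn j) ((std n).act (Op.face j.castSucc) α) := by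
      rw [← (std n).act_comp]
      refine OrderHom.ext _ _ (funext fun a => ?_)
      show α a = α ((Op.face j.castSucc) (Op.dgn j a))
      by_cases ha : a = j.castSucc
      · have : (Op.face j.castSucc) (Op.dgn j a) = j.succ := by
          apply Fin.ext
          rw [Ch.face_val, Ch.dgn_val, ha]
          simp
        rw [this, ha, hj]
      · have : (Op.face j.castSucc) (Op.dgn j a) = a := by
          apply Fin.ext
          have ha' : (a : ℕ) ≠ j := fun h => ha (Fin.ext h)
          rw [Ch.face_val, Ch.dgn_val]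
          simp only [Fin.val_castSucc]
          split_ifs <;> omega
        rw [this]
    rw [this, N.sx_dgn]

theorem sx_eq_zero_of_lt {n m : ℕ} (α : (std n).S m) (h : n < m) : N.sx F2 (K := std n) α = 0 := by
  refine sx_eq_zero_of_not_inj (α : Op m n) fun hinj => ?_
  have := Fintype.card_le_of_injective _ hinj
  simp at this
  omega

/-- the top simplex -/
def io (n : ℕ) : (std n).S n := (OrderHom.id : Op n n)

theorem eq_io {n : ℕ} (α : Op n n) (hα : Function.Injective α) : α = io n := by
  have hs : StrictMono α := α.monotone.strictMono_of_injective hα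
  refine OrderHom.ext _ _ ?_
  exact (StrictMono.range_inj hs strictMono_id).1 (by
    rw [Set.range_id, (Finite.surjective_of_injective hα).range_eq])

theorem sx_top {n : ℕ} (α : Op n n) :
    N.sx F2 (K := std n) (n := n) α = 0 ∨ N.sx F2 (K := std n) (n := n) α = N.sx F2 (io n) := by
  by_cases h : Function.Injective α
  · right; rw [eq_io α h]
  · left; exact sx_eq_zero_of_not_inj α h

theorem phi_eq_zero {n i : ℕ} (h : n < i) : phi n i = 0 := by
  have h1 := phi_mem_TG n i
  suffices hs : TG (std n) (n + i) ≤ ⊥ by simpa using hs h1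
  refine Submodule.span_le.2 ?_
  rintro _ ⟨a, b, x, y, hab, rfl⟩
  simp only [Submodule.bot_coe, Set.mem_singleton_iff]
  by_cases ha : n < a
  · rw [sx_eq_zero_of_lt x ha, TensorProduct.zero_tmul]
  · rw [sx_eq_zero_of_lt y (by omega), TensorProduct.tmul_zero]

theorem exists_top (n : ℕ) : ∃ c : F2, phi n n = c • (N.sx F2 (io n) ⊗ₜ N.sx F2 (io n)) := by
  have h1 := phi_mem_TG n n
  suffices hs : TG (std n) (n + n) ≤ Submodule.span F2 {(N.sx F2 (io n) ⊗ₜ N.sx F2 (io n) : NN (std n))} by
    obtain ⟨c, hc⟩ := Submodule.mem_span_singleton.1 (hs h1)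
    exact ⟨c, hc.symm⟩
  refine Submodule.span_le.2 ?_
  rintro _ ⟨a, b, x, y, hab, rfl⟩
  show _ ∈ Submodule.span F2 _
  by_cases ha : n < a
  · rw [sx_eq_zero_of_lt x ha, TensorProduct.zero_tmul]; exact Submodule.zero_mem _
  by_cases hb : n < b
  · rw [sx_eq_zero_of_lt y hb, TensorProduct.tmul_zero]; exact Submodule.zero_mem _
  obtain rfl : a = n := by omega
  obtain rfl : b = a := by omega
  rcases sx_top x with hx | hx <;> rcases sx_top y with hy | hy <;> rw [hx, hy] <;>
    simp [Submodule.mem_span_singleton_self]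

/-- coefficient functional of a nondegenerate simplex of the standard simplex -/
def chi {n m : ℕ} (β : Op m n) (hβ : Function.Injective β) : N F2 (std n) →ₗ[F2] F2 := by
  classical
  exact nLift F2 (fun k (α : (std n).S k) => if (⟨k, α⟩ : (std n).T) = ⟨m, (β : (std n).S m)⟩ then 1 else 0)
    (fun k j y => by
      rw [if_neg]
      intro h
      obtain rfl : k + 1 = m := congrArg Sigma.fst h
      have h2 : (y : Op k n).comp (Op.dgn j) = β := eq_of_heq (Sigma.mk.inj h).2
      have hinj : Function.Injective ((y : Op k n).comp (Op.dgn j)) := by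
        rw [h2]; exact hβ
      have h3 : (Op.dgn j) j.castSucc = (Op.dgn j) j.succ := by
        apply Fin.ext
        rw [Ch.dgn_val, Ch.dgn_val]; simp
      have h5 : (OrderHom.comp (y : Op k n) (Op.dgn j)) j.castSucc =
          (OrderHom.comp (y : Op k n) (Op.dgn j)) j.succ := congrArg (y : Op k n).toFun h3
      have h4 := hinj h5
      simp [Fin.ext_iff] at h4)

theorem chi_self {n m : ℕ} (β : Op m n) (hβ : Function.Injective β) :
    chi β hβ (N.sx F2 (K := std n) (n := m) β) = 1 := by
  classical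
  simp [chi]

theorem chi_of_ne {n m k : ℕ} (β : Op m n) (hβ : Function.Injective β) (α : (std n).S k)
    (h : (⟨k, α⟩ : (std n).T) ≠ ⟨m, (β : (std n).S m)⟩) : chi β hβ (N.sx F2 (K := std n) α) = 0 := by
  classical
  rw [chi, nLift_sx, if_neg h]

/-- product of two functionals -/
def pf {K L : SS} (f : N F2 K →ₗ[F2] F2) (g : N F2 L →ₗ[F2] F2) : N F2 K ⊗[F2] N F2 L →ₗ[F2] F2 :=
  TensorProduct.lift ((LinearMap.mul F2 F2).compl₁₂ f g)

@[simp] theorem pf_tmul {K L : SS} (f : N F2 K →ₗ[F2] F2) (g : N F2 L →ₗ[F2] F2) (x : N F2 K)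
    (y : N F2 L) : pf f g (x ⊗ₜ y) = f x * g y := rfl

theorem pf_tt {K : SS} (f g : N F2 K →ₗ[F2] F2) (z : NN K) : pf f g (tt K z) = pf g f z := by
  induction z using TensorProduct.induction_on with
  | zero => simp
  | tmul x y => simp [mul_comm]
  | add a b ha hb => simp only [map_add, ha, hb]

section top

variable (n : ℕ)

theorem face0_inj : Function.Injective (Op.face (0 : Fin (n + 2))) := by
  intro a b hab
  have := congrArg Fin.val hab
  rw [Ch.face_val, Ch.face_val] at this
  apply Fin.ext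
  simpa using this

theorem face_ne {k : Fin (n + 2)} (hk : k ≠ 0) : Op.face k ≠ Op.face (0 : Fin (n + 2)) := by
  intro h
  have := congrArg (fun f : Op n (n + 1) => ((f 0 : Fin (n + 2)) : ℕ)) h
  simp only [Ch.face_val] at this
  have hk' : 0 < (k : ℕ) := Nat.pos_of_ne_zero fun h => hk (Fin.ext h)
  simp [hk'] at this

/-- coefficient of the zeroth face -/
abbrev chi0 : N F2 (std (n + 1)) →ₗ[F2] F2 := chi (Op.face (0 : Fin (n + 2))) (face0_inj n)
/-- coefficient of the top simplex -/
abbrev chiI : N F2 (std (n + 1)) →ₗ[F2] F2 := chi (OrderHom.id : Op (n + 1) (n + 1)) Function.injective_id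

theorem chi0_io : chi0 n (N.sx F2 (io (n + 1))) = 0 :=
  chi_of_ne _ _ _ (fun h => by have := congrArg Sigma.fst h; simp at this)

theorem chiI_io : chiI n (N.sx F2 (io (n + 1))) = 1 := chi_self _ _

theorem chiI_lt (α : (std (n + 1)).S n) : chiI n (N.sx F2 α) = 0 :=
  chi_of_ne _ _ _ (fun h => by have := congrArg Sigma.fst h; simp at this)

theorem act_io {n m : ℕ} (f : Op m n) : (std n).act f (io n) = f := rfl

theorem chi0_face (k : Fin (n + 2)) :
    chi0 n (N.sx F2 (K := std (n + 1)) (n := n) (Op.face k)) = if k = 0 then 1 else 0 := by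
  split_ifs with h
  · subst h; exact chi_self _ _
  · refine chi_of_ne _ _ _ (fun h' => face_ne n h ?_)
    exact eq_of_heq (Sigma.mk.inj h').2

theorem chi0_bd_io : chi0 n (N.bd F2 _ (N.sx F2 (io (n + 1)))) = 1 := by
  rw [bd_sx, map_sum]
  simp only [act_io, chi0_face, Finset.sum_ite_eq', Finset.mem_univ, if_true]

theorem chiI_bd_io : chiI n (N.bd F2 _ (N.sx F2 (io (n + 1)))) = 0 := by
  rw [bd_sx, map_sum]
  exact Finset.sum_eq_zero fun k _ => chiI_lt n _

theorem claimA {z : NN (std (n + 1))} (hz : z ∈ TG (std (n + 1)) (2 * n + 1)) :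
    pf (chi0 n) (chi0 n) (dd _ z) = pf (chiI n) (chi0 n) (z + tt _ z) := by
  have h1 : ∀ (x : (std (n + 1)).S (n + 1)) (y : (std (n + 1)).S n),
      pf (chi0 n) (chi0 n) (dd _ (N.sx F2 x ⊗ₜ N.sx F2 y)) =
        pf (chiI n) (chi0 n) (N.sx F2 x ⊗ₜ N.sx F2 y + tt _ (N.sx F2 x ⊗ₜ N.sx F2 y)) := by
    intro x y
    rcases sx_top (n := n + 1) x with hx | hx
    · rw [hx]; simp
    · rw [hx, dd_tmul, tt_tmul, map_add, map_add, pf_tmul, pf_tmul, pf_tmul, pf_tmul, chi0_bd_io,
        chi0_io, chiI_io, chiI_lt]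
      simp
  refine Submodule.span_induction (p := fun z _ => pf (chi0 n) (chi0 n) (dd _ z) =
    pf (chiI n) (chi0 n) (z + tt _ z)) ?_ ?_ ?_ ?_ hz
  · rintro _ ⟨a, b, x, y, hab, rfl⟩
    by_cases ha : n + 1 < a
    · rw [sx_eq_zero_of_lt x ha]; simp
    by_cases hb : n + 1 < b
    · rw [sx_eq_zero_of_lt y hb]; simp
    by_cases ha' : a = n + 1
    · subst ha'
      obtain rfl : b = n := by omega
      exact h1 x y
    · obtain rfl : b = n + 1 := by omega
      obtain rfl : a = n := by omega
      have := h1 y x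
      have e : (N.sx F2 x ⊗ₜ N.sx F2 y : NN (std (a + 1))) = tt _ (N.sx F2 y ⊗ₜ N.sx F2 x) := rfl
      rw [e, dd_tt, pf_tt, this, tt_tt, add_comm (N.sx F2 y ⊗ₜ N.sx F2 x)]
  · simp
  · intro a b _ _ ha hb
    simp only [map_add] at ha hb ⊢
    rw [ha, hb]; ring
  · intro r a _ ha
    simp only [map_add, map_smul] at ha ⊢
    rw [ha, smul_add]

theorem claimB : pf (chi0 n) (chi0 n) (fsum n (N.sx F2 (io n) ⊗ₜ N.sx F2 (io n))) = 1 := by
  rw [fsum_apply, map_sum]
  simp only [nm_tmul, N.map_sx, pf_tmul]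
  have : ∀ k : Fin (n + 2), (stdMap (Op.face k)).app n (io n) = (Op.face k : (std (n + 1)).S n) :=
    fun k => rfl
  simp only [this, chi0_face]
  simp

theorem pf_add_tt {K : SS} (f : N F2 K →ₗ[F2] F2) (z : NN K) : pf f f (z + tt K z) = 0 := by
  rw [map_add, pf_tt]; exact two_eq _

theorem claimC : pf (chi0 n) (chi0 n) (dd _ (phi (n + 1) n)) =
    pf (chi0 n) (chi0 n) (fsum n (phi n n)) := by
  rcases n with _ | n
  · rw [dd_phi_zero]
  · rw [dd_phi_succ, map_add, pf_add_tt, add_zero]

end top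

/-- the top coefficient is `1` -/
theorem phi_top (n : ℕ) : phi n n = N.sx F2 (io n) ⊗ₜ N.sx F2 (io n) := by
  induction n with
  | zero =>
    have : v0 0 = io 0 := OrderHom.ext _ _ (funext fun a => Subsingleton.elim (α := Fin 1) _ _)
    rw [phi_zero_zero, this]
  | succ n ih =>
    obtain ⟨c, hc⟩ := exists_top (n + 1)
    have h1 := claimC n
    rw [ih, claimB] at h1
    have h2 := claimA n (z := phi (n + 1) n) (by
      have := phi_mem_TG (n + 1) n
      have e : n + 1 + n = 2 * n + 1 := by omega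
      rwa [e] at this)
    have h3 := dd_phi_succ n n
    rw [phi_eq_zero (Nat.lt_succ_self n), map_zero, zero_add] at h3
    rw [← h3, h1, hc, map_smul, map_smul, dd_tmul, map_add, pf_tmul, pf_tmul, chiI_bd_io,
      chi0_bd_io, chiI_io] at h2
    simp at h2
    rw [hc, ← h2, one_smul]

theorem Phi_eq_zero {K : SS} {n i : ℕ} (h : n < i) (x : K.S n) : Phi K i (N.sx F2 x) = 0 := by
  rw [Phi_sx, phi_eq_zero h, map_zero]

/-- `Φ_n(σ) = σ ⊗ σ` in dimension `n` -/
theorem Phi_top {K : SS} {n : ℕ} (x : K.S n) : Phi K n (N.sx F2 x) = N.sx F2 x ⊗ₜ N.sx F2 x := by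
  rw [Phi_sx, phi_top, nm_tmul, N.map_sx]
  have : (yo K x).app n (io n) = x := K.act_id x
  rw [this]

theorem Phi_mem_TG {K : SS} {n i : ℕ} (x : K.S n) : Phi K i (N.sx F2 x) ∈ TG K (n + i) := by
  rw [Phi_sx]; exact nm_mem_TG _ (phi_mem_TG n i)

theorem aa_Phi_zero {K : SS} (c : N F2 K) : aa K (Phi K 0 c) = aug K c := by
  have : aa K ∘ₗ Phi K 0 = aug K := by
    refine N_ext F2 fun n x => ?_
    rw [LinearMap.comp_apply, Phi_sx, aa_nm, aa_phi_zero]
    rcases n with _ | n <;> simp
  exact LinearMap.congr_fun this c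

theorem aa_Phi_succ {K : SS} (i : ℕ) (c : N F2 K) : aa K (Phi K (i + 1) c) = 0 := by
  have : aa K ∘ₗ Phi K (i + 1) = 0 := by
    refine N_ext F2 fun n x => ?_
    rw [LinearMap.comp_apply, Phi_sx, aa_nm, aa_phi_succ]; rfl
  exact LinearMap.congr_fun this c

end Crest.Agent.R204.Phi252
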