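import Crest.Agent.R204.PiA_808

/-!
# Row 204, leaf B5 (g), part B: reduction mod 2 of integral normalised chains, 2-divisibility descent,
`π₁(X_1)` is infinite cyclic (helper808)
-/

set_option autoImplicit false

noncomputable section

namespace Crest.Agent.R204.Pi808

open Crest.Agent.R204 Finsupp

/-! ## projection on degree `n` -/

section Pr

variable (R : Type) [CommRing R] (K : SS)

open scoped Classical in
/-- degree `n` part of a chain -/
def chPr (n : ℕ) : Ch R K →ₗ[R] Ch R K :=
  Finsupp.linearCombination R (fun t : K.T => if t.1 = n then single t (1 : R) else 0)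

variable {R K}

open scoped Classical in
theorem chPr_single (n : ℕ) (t : K.T) (r : R) :
    chPr R K n (single t r) = if t.1 = n then single t r else 0 := by
  rw [chPr, Finsupp.linearCombination_single]
  split_ifs <;> simp

theorem chPr_mem_Dg (n : ℕ) {c : Ch R K} (hc : c ∈ Ch.Dg R K) : chPr R K n c ∈ Ch.Dg R K := by
  classical
  refine Submodule.span_induction (p := fun c _ => chPr R K n c ∈ Ch.Dg R K) ?_ ?_ ?_ ?_ hc
  · rintro _ ⟨t, ht, rfl⟩
    rw [chPr_single]
    split_ifs
    · exact Submodule.subset_span ⟨t, ht, rfl⟩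
    · exact Submodule.zero_mem _
  · simp
  · intro a b _ _ ha hb; rw [map_add]; exact Submodule.add_mem _ ha hb
  · intro r a _ ha; rw [map_smul]; exact Submodule.smul_mem _ _ ha

theorem chPr_bd (n : ℕ) (c : Ch R K) :
    Ch.bd R K (chPr R K (n + 1) c) = chPr R K n (Ch.bd R K c) := by
  classical
  induction c using Finsupp.induction_linear with
  | zero => simp
  | add f g hf hg => simp only [map_add, hf, hg]
  | single t r =>
    obtain ⟨m, x⟩ := t
    rcases m with _ | m
    · rw [chPr_single, if_neg (by simp), Ch.bd_single_zero, map_zero, map_zero]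
    · rw [chPr_single, Ch.bd_single_succ, map_sum]
      by_cases h : m = n
      · subst h
        rw [if_pos rfl, Ch.bd_single_succ]
        refine Finset.sum_congr rfl fun i _ => ?_
        rw [chPr_single, if_pos rfl]
      · rw [if_neg (by simpa using h), map_zero]
        symm
        refine Finset.sum_eq_zero fun i _ => ?_
        rw [chPr_single, if_neg h]

variable (R K)

/-- degree `n` part of a normalised chain -/
def nPr (n : ℕ) : N R K →ₗ[R] N R K := Submodule.mapQ _ _ (chPr R K n) (fun _ h => chPr_mem_Dg n h)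

variable {R K}

theorem nPr_bd (n : ℕ) (c : N R K) : N.bd R K (nPr R K (n + 1) c) = nPr R K n (N.bd R K c) := by
  obtain ⟨c, rfl⟩ := Submodule.Quotient.mk_surjective _ c
  rw [nPr, Submodule.mapQ_apply, N.bd_mk, N.bd_mk, nPr, Submodule.mapQ_apply, chPr_bd]

theorem chPr_mem_gr (n : ℕ) (c : Ch R K) : chPr R K n c ∈ Ch.gr R K n := by
  classical
  induction c using Finsupp.induction_linear with
  | zero => simp
  | add f g hf hg => rw [map_add]; exact Submodule.add_mem _ hf hg
  | single t r =>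
    rw [chPr_single]
    split_ifs with h
    · obtain ⟨m, x⟩ := t
      simp only at h
      subst h
      have : (single (⟨m, x⟩ : K.T) r : Ch R K) = r • single ⟨m, x⟩ 1 := by simp
      rw [this]
      exact Submodule.smul_mem _ _ (Submodule.subset_span ⟨x, rfl⟩)
    · exact Submodule.zero_mem _

theorem chPr_of_mem {n : ℕ} {c : Ch R K} (hc : c ∈ Ch.gr R K n) : chPr R K n c = c := by
  classical
  refine Submodule.span_induction (p := fun c _ => chPr R K n c = c) ?_ ?_ ?_ ?_ hc
  · rintro _ ⟨x, rfl⟩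
    rw [chPr_single, if_pos rfl]
  · simp
  · intro a b _ _ ha hb; rw [map_add, ha, hb]
  · intro r a _ ha; rw [map_smul, ha]

theorem nPr_mem_gr (n : ℕ) (c : N R K) : nPr R K n c ∈ N.gr R K n := by
  obtain ⟨c, rfl⟩ := Submodule.Quotient.mk_surjective _ c
  rw [nPr, Submodule.mapQ_apply]
  exact ⟨_, chPr_mem_gr n c, rfl⟩

theorem nPr_of_mem {n : ℕ} {c : N R K} (hc : c ∈ N.gr R K n) : nPr R K n c = c := by
  obtain ⟨c, hc, rfl⟩ := hc
  rw [Submodule.mkQ_apply, nPr, Submodule.mapQ_apply, chPr_of_mem hc]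

theorem sx_mem_gr {n : ℕ} (x : K.S n) : N.sx R x ∈ N.gr R K n :=
  ⟨single ⟨n, x⟩ 1, Submodule.subset_span ⟨x, rfl⟩, rfl⟩

end Pr

/-! ## degenerate chains -/

theorem mem_Dg_iff {R : Type} [CommRing R] {K : SS} (c : Ch R K) :
    c ∈ Ch.Dg R K ↔ ∀ t : K.T, ¬ Ch.IsDgn K t → c t = 0 := by
  have h : Ch.Dg R K = Finsupp.supported R R {t : K.T | Ch.IsDgn K t} := by
    rw [Finsupp.supported_eq_span_single]
    unfold Ch.Dg
    congr 1
    ext c
    constructor
    · rintro ⟨t, ht, rfl⟩; exact ⟨t, ht, rfl⟩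
    · rintro ⟨t, ht, rfl⟩; exact ⟨t, ht, rfl⟩
  rw [h, Finsupp.mem_supported']
  rfl

/-! ## reduction mod 2 -/

section Red

variable (K : SS)

/-- reduction mod 2 of chains -/
def redCh : Ch ℤ K →+ Ch F2 K := Finsupp.mapRange.addMonoidHom (Int.castAddHom F2)

variable {K}

theorem redCh_apply (c : Ch ℤ K) (t : K.T) : redCh K c t = ((c t : ℤ) : F2) := rfl

theorem redCh_single (t : K.T) (r : ℤ) : redCh K (single t r) = single t (r : F2) := by
  simp [redCh]

theorem redCh_bd (c : Ch ℤ K) : redCh K (Ch.bd ℤ K c) = Ch.bd F2 K (redCh K c) := by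
  induction c using Finsupp.induction_linear with
  | zero => simp
  | add f g hf hg => simp only [map_add, hf, hg]
  | single t r =>
    obtain ⟨m, x⟩ := t
    rcases m with _ | m
    · rw [Ch.bd_single_zero, redCh_single, Ch.bd_single_zero, map_zero]
    · rw [Ch.bd_single_succ, map_sum, redCh_single, Ch.bd_single_succ]
      refine Finset.sum_congr rfl fun i _ => ?_
      rw [redCh_single]
      push_cast
      rfl

theorem redCh_mem_Dg {c : Ch ℤ K} (hc : c ∈ Ch.Dg ℤ K) : redCh K c ∈ Ch.Dg F2 K := by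
  rw [mem_Dg_iff] at hc ⊢
  intro t ht
  rw [redCh_apply, hc t ht, Int.cast_zero]

variable (K)

/-- reduction mod 2 of normalised chains -/
def red : N ℤ K →+ N F2 K :=
  QuotientAddGroup.map (Ch.Dg ℤ K).toAddSubgroup (Ch.Dg F2 K).toAddSubgroup (redCh K)
    (fun _ hc => redCh_mem_Dg hc)

variable {K}

theorem red_mk (c : Ch ℤ K) :
    red K (Submodule.Quotient.mk c) = Submodule.Quotient.mk (redCh K c) := rfl

theorem red_sx {n : ℕ} (x : K.S n) : red K (N.sx ℤ x) = N.sx F2 x := by
  rw [N.sx, red_mk, redCh_single, Int.cast_one]; rfl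

theorem red_bd (a : N ℤ K) : red K (N.bd ℤ K a) = N.bd F2 K (red K a) := by
  obtain ⟨c, rfl⟩ := Submodule.Quotient.mk_surjective _ a
  rw [N.bd_mk, red_mk, red_mk, N.bd_mk, redCh_bd]

theorem redCh_surjective : Function.Surjective (redCh K) := by
  intro c
  induction c using Finsupp.induction_linear with
  | zero => exact ⟨0, map_zero _⟩
  | add f g hf hg =>
    obtain ⟨a, rfl⟩ := hf
    obtain ⟨b, rfl⟩ := hg
    exact ⟨a + b, map_add _ _ _⟩
  | single t r =>
    refine ⟨single t (r.val : ℤ), ?_⟩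
    rw [redCh_single]
    congr 1
    simp

theorem red_surjective : Function.Surjective (red K) := by
  intro a
  obtain ⟨c, rfl⟩ := Submodule.Quotient.mk_surjective _ a
  obtain ⟨d, rfl⟩ := redCh_surjective c
  exact ⟨Submodule.Quotient.mk d, red_mk d⟩

open scoped Classical in
theorem red_ker (a : N ℤ K) (h : red K a = 0) : ∃ b, a = b + b := by
  obtain ⟨c, rfl⟩ := Submodule.Quotient.mk_surjective _ a
  rw [red_mk, Submodule.Quotient.mk_eq_zero, mem_Dg_iff] at h
  -- half of the nondegenerate part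
  let e : Ch ℤ K := c.mapRange (fun r => r / 2) (by simp)
  let e' : Ch ℤ K := Finsupp.filter (fun t => ¬ Ch.IsDgn K t) e
  refine ⟨Submodule.Quotient.mk e', ?_⟩
  rw [← Submodule.Quotient.mk_add, Submodule.Quotient.eq, mem_Dg_iff]
  intro t ht
  have h1 := h t ht
  rw [redCh_apply, ZMod.intCast_zmod_eq_zero_iff_dvd] at h1
  have h2 : e' t = c t / 2 := by
    have h3 : e' t = e t := Finsupp.filter_apply_pos (fun t => ¬ Ch.IsDgn K t) e ht
    rw [h3]; rfl
  rw [Finsupp.sub_apply, Finsupp.add_apply, h2]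
  push_cast at h1
  omega

theorem two_tf (a : N ℤ K) (h : a + a = 0) : a = 0 := by
  obtain ⟨c, rfl⟩ := Submodule.Quotient.mk_surjective _ a
  rw [← Submodule.Quotient.mk_add, Submodule.Quotient.mk_eq_zero, mem_Dg_iff] at h
  rw [Submodule.Quotient.mk_eq_zero, mem_Dg_iff]
  intro t ht
  have := h t ht
  rw [Finsupp.add_apply] at this
  omega

theorem red_nPr (n : ℕ) (a : N ℤ K) : red K (nPr ℤ K n a) = nPr F2 K n (red K a) := by
  classical
  obtain ⟨c, rfl⟩ := Submodule.Quotient.mk_surjective _ a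
  rw [nPr, Submodule.mapQ_apply, red_mk, red_mk, nPr, Submodule.mapQ_apply]
  congr 1
  induction c using Finsupp.induction_linear with
  | zero => simp
  | add f g hf hg => simp only [map_add, hf, hg]
  | single t r =>
    rw [chPr_single, redCh_single, chPr_single]
    split_ifs
    · rw [redCh_single]
    · rw [map_zero]

theorem add_self_F2 {M : Type*} [AddCommGroup M] [Module F2 M] (a : M) : a + a = 0 := by
  rw [← two_smul F2 a, show (2 : F2) = 0 from by decide, zero_smul]

/-- **descent**: if `H_2(K; F2)` is spanned by the reduction of an integral cycle `q` and the integral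
1-cycle `a` is not a boundary mod 2, then no nonzero multiple of `a` is an integral boundary. -/
theorem descent (a : N ℤ K) (ha : a ∈ N.gr ℤ K 1) (hne : ¬ ∃ w, N.bd F2 K w = red K a)
    (q : N ℤ K) (hq : N.bd ℤ K q = 0)
    (h2 : ∀ v ∈ N.gr F2 K 2, N.bd F2 K v = 0 → ∃ (e : F2) (w : N F2 K), v = e • red K q + N.bd F2 K w) :
    ∀ (m : ℕ) (k : ℤ), k.natAbs = m → ∀ v : N ℤ K, N.bd ℤ K v = k • a → k = 0 := by
  intro m
  induction m using Nat.strong_induction_on with
  | _ m ih =>
    intro k hk v hv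
    by_contra hk0
    have hv' : N.bd ℤ K (nPr ℤ K 2 v) = k • a := by
      rw [nPr_bd, hv, map_smul, nPr_of_mem ha]
    set u := nPr ℤ K 2 v with hu
    have hugr : u ∈ N.gr ℤ K 2 := nPr_mem_gr 2 v
    rcases Int.even_or_odd' k with ⟨l, hl | hl⟩
    · have e0 : k • a = l • a + l • a := by rw [hl, two_mul, add_smul]
      have h3 : N.bd F2 K (red K u) = 0 := by
        rw [← red_bd, hv', e0, map_add, add_self_F2]
      have h4 : red K u ∈ N.gr F2 K 2 := by
        rw [hu, red_nPr]; exact nPr_mem_gr _ _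
      obtain ⟨e, w, hw⟩ := h2 _ h4 h3
      obtain ⟨w', rfl⟩ := red_surjective w
      have h5 : red K (u - (e.val : ℤ) • q - N.bd ℤ K w') = 0 := by
        rw [map_sub, map_sub, hw, map_zsmul, red_bd]
        have : ((e.val : ℤ) • red K q) = e • red K q := by
          have h6 : ((e.val : ℤ) : F2) = e := by simp
          conv_rhs => rw [← h6]
          rw [Int.cast_smul_eq_zsmul]
        rw [this]; abel
      obtain ⟨b, hb⟩ := red_ker _ h5
      have h7 : l • a - N.bd ℤ K b = 0 := by
        apply two_tf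
        have h8 : N.bd ℤ K (u - (e.val : ℤ) • q - N.bd ℤ K w') = N.bd ℤ K b + N.bd ℤ K b := by
          rw [hb, map_add]
        rw [map_sub, map_sub, hv', map_smul, hq, smul_zero, N.bd_bd, sub_zero, sub_zero, e0] at h8
        calc l • a - N.bd ℤ K b + (l • a - N.bd ℤ K b)
            = (l • a + l • a) - (N.bd ℤ K b + N.bd ℤ K b) := by abel
          _ = 0 := by rw [h8, sub_self]
      have h9 : N.bd ℤ K b = l • a := (sub_eq_zero.1 h7).symm
      have h10 := ih l.natAbs (by omega) l rfl b h9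
      omega
    · apply hne
      refine ⟨red K u, ?_⟩
      rw [← red_bd, hv', hl, add_smul, mul_smul, two_smul, one_smul, map_add, map_add, add_self_F2,
        zero_add]

end Red

/-! ## the torus cycle -/

section Torus

variable {B : Type} [TopologicalSpace B]

open unitInterval

/-- the square of two loops multiplied together -/
def sqm (μ : C(B × B, B)) {b x : B} (p : Path b b) (p' : Path x x) : C(I × I, B) :=
  μ.comp ((p.toContinuousMap.comp ContinuousMap.fst).prodMk (p'.toContinuousMap.comp ContinuousMap.snd))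

theorem sqm_apply (μ : C(B × B, B)) {b x : B} (p : Path b b) (p' : Path x x) (s t : I) :
    sqm μ p p' (s, t) = μ (p s, p' t) := rfl

/-- the torus chain `μ(p × p')` -/
def torus (R : Type) [CommRing R] (μ : C(B × B, B)) {b x : B} (p : Path b b) (p' : Path x x) :
    N R (SS.Sing B) :=
  N.sx R (K := SS.Sing B) (sqx (sqm μ p p') ![0, 0, 1] ![0, 1, 1]) -
    N.sx R (K := SS.Sing B) (sqx (sqm μ p p') ![0, 1, 1] ![0, 0, 1])

theorem bd_torus (R : Type) [CommRing R] (μ : C(B × B, B)) {b x : B} (p : Path b b) (p' : Path x x) :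
    N.bd R (SS.Sing B) (torus R μ p p') = 0 := by
  rw [torus, map_sub, bd_sqx, bd_sqx]
  have c1 : (![1, 1] : Fin 2 → I) = fun _ => 1 := by funext i; fin_cases i <;> rfl
  have c0 : (![0, 0] : Fin 2 → I) = fun _ => 0 := by funext i; fin_cases i <;> rfl
  have e1 : sqx (sqm μ p p') ![0, 1] ![1, 1] = sqx (sqm μ p p') ![0, 1] ![0, 0] := by
    apply ContinuousMap.ext
    intro t
    change sqm μ p p' (crd ![0, 1] t, crd ![1, 1] t) = sqm μ p p' (crd ![0, 1] t, crd ![0, 0] t)
    rw [c1, c0, crd_const, crd_const, sqm_apply, sqm_apply, p'.source, p'.target]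
  have e2 : sqx (sqm μ p p') ![0, 0] ![0, 1] = sqx (sqm μ p p') ![1, 1] ![0, 1] := by
    apply ContinuousMap.ext
    intro t
    change sqm μ p p' (crd ![0, 0] t, crd ![0, 1] t) = sqm μ p p' (crd ![1, 1] t, crd ![0, 1] t)
    rw [c1, c0, crd_const, crd_const, sqm_apply, sqm_apply, p.source, p.target]
  rw [e1, e2]
  abel

/-- `act (dgn 0)`, `act (dgn 1)` of the simplex of a path -/
theorem ps_dgn0 {x y : B} (p : Path x y) :
    (SS.Sing B).act (Op.dgn (0 : Fin 2)) (ps p) = pth p.toContinuousMap ![0, 0, 1] := by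
  rw [ps, pth_act]
  congr 1
  funext i; fin_cases i <;> rfl

theorem ps_dgn1 {x y : B} (p : Path x y) :
    (SS.Sing B).act (Op.dgn (1 : Fin 2)) (ps p) = pth p.toContinuousMap ![0, 1, 1] := by
  rw [ps, pth_act]
  congr 1
  funext i; fin_cases i <;> rfl

theorem sqx_sqm (μ : C(B × B, B)) {b x : B} (p : Path b b) (p' : Path x x) {n : ℕ}
    (g g' : Fin (n + 1) → I) : sqx (sqm μ p p') g g' =
      μ.comp (ContinuousMap.prodMk (pth p.toContinuousMap g) (pth p'.toContinuousMap g')) := rfl

/-- **(g)** the loop `p` has infinite order in `π₁(B,b)`. -/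
theorem free_of_H2 {b : B} (p : Path b b)
    (hne : ¬ ∃ w, N.bd F2 (SS.Sing B) w = N.sx F2 (K := SS.Sing B) (ps p))
    (q : N ℤ (SS.Sing B)) (hq : N.bd ℤ _ q = 0)
    (h2 : ∀ v ∈ N.gr F2 (SS.Sing B) 2, N.bd F2 _ v = 0 →
      ∃ (e : F2) (w : N F2 (SS.Sing B)), v = e • red _ q + N.bd F2 _ w)
    (k : ℤ) (hk : (FundamentalGroup.fromPath (Path.Homotopic.Quotient.mk p)) ^ k = 1) : k = 0 := by
  have h1 := hq_zpow ℤ b (FundamentalGroup.fromPath (Path.Homotopic.Quotient.mk p)) k
  rw [hk] at h1
  have h3 : Pi808.hq ℤ (FundamentalGroup.toPath (1 : FundamentalGroup B b)) = 0 := hq_refl ℤ b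
  rw [h3] at h1
  have h4 : k • hp ℤ p = 0 := h1.symm
  rw [hp, ← Submodule.Quotient.mk_smul, Submodule.Quotient.mk_eq_zero] at h4
  obtain ⟨v, hv⟩ := h4
  refine descent (N.sx ℤ (K := SS.Sing B) (ps p)) (sx_mem_gr _) ?_ q hq h2 _ k rfl v hv
  rwa [red_sx]

end Torus

end Crest.Agent.R204.Pi808
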