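import Crest.Agent.R204.PiB_808
import Crest.Agent.R204.PiC_808
import Crest.Agent.R204.EZInst_847

/-!
# Row 204, B5 (helper808): the class of a loop has infinite order in `π_1` if `H_2` is spanned by its
Pontryagin square

`red_cross` : reduction mod 2 of the (signed) Eilenberg-Zilber product.
`hcl p : H F2 (Sing B)` : the class of a loop.
`free_of_sq` : `hcl p ≠ 0` and `H_2(B)` is spanned by `mu_*(hcl p × hcl p)` imply that
`(lc p) ^ k = 1` only for `k = 0`.
-/

set_option autoImplicit false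
set_option linter.unusedVariables false

noncomputable section

namespace Crest.Agent.R204.Pi808

open scoped Topology unitInterval TensorProduct
open Finsupp EZ271

section Red

variable {K L : SS}

theorem red_hom_ext {A : Type*} [AddCommGroup A] {f g : N ℤ K →+ A}
    (h : ∀ (n : ℕ) (x : K.S n), f (N.sx ℤ x) = g (N.sx ℤ x)) : f = g := by
  ext c
  refine N_induction (R := ℤ) (K := K) (p := fun c => f c = g c) _ ?_ ?_ ?_ ?_
  · simp
  · intro a b ha hb; rw [map_add, map_add, ha, hb]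
  · intro r a ha; rw [map_zsmul, map_zsmul, ha]
  · exact h

theorem red_map (f : SS.Hom K L) (c : N ℤ K) : red L (N.map ℤ f c) = N.map F2 f (red K c) := by
  have : (red L).comp (N.map ℤ f).toAddMonoidHom = (N.map F2 f).toAddMonoidHom.comp (red K) := by
    refine red_hom_ext fun n x => ?_
    show red L (N.map ℤ f (N.sx ℤ x)) = N.map F2 f (red K (N.sx ℤ x))
    rw [N.map_sx, red_sx, red_sx, N.map_sx]
  exact DFunLike.congr_fun this c

theorem red_smul (r : ℤ) (c : N ℤ K) : red K (r • c) = (r : F2) • red K c := by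
  rw [map_zsmul, Int.cast_smul_eq_zsmul]

theorem red_c (A : Cone K) (c : N ℤ K) : red K (A.c ℤ c) = A.c F2 (red K c) := by
  have : (red K).comp (A.c ℤ).toAddMonoidHom = (A.c F2).toAddMonoidHom.comp (red K) := by
    refine red_hom_ext fun n x => ?_
    show red K (A.c ℤ (N.sx ℤ x)) = A.c F2 (red K (N.sx ℤ x))
    rw [Cone.c_sx, red_sx, red_sx, Cone.c_sx]
  exact DFunLike.congr_fun this c

theorem red_E : ∀ n p q : ℕ, p + q = n → red _ (E ℤ p q) = E F2 p q := by
  intro n
  induction n with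
  | zero =>
    intro p q h
    obtain rfl : p = 0 := by omega
    obtain rfl : q = 0 := by omega
    rw [E_zero_zero, E_zero_zero, red_sx]
  | succ n ih =>
    intro p q h
    rcases p with _ | p <;> rcases q with _ | q
    · omega
    · rw [E_zero_succ, E_zero_succ, red_c, red_map, ih 0 q (by omega)]
    · rw [E_succ_zero, E_succ_zero, red_c, red_map, ih p 0 (by omega)]
    · rw [E_succ_succ, E_succ_succ, red_c, map_add, red_map, red_smul, red_map, ih p (q + 1) (by omega),
        ih (p + 1) q (by omega)]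
      push_cast
      rfl

theorem red_cross (a : N ℤ K) (b : N ℤ L) :
    red _ (cross ℤ a b) = cross F2 (red K a) (red L b) := by
  have h1 : ∀ (n : ℕ) (x : K.S n) (b : N ℤ L), red _ (cross ℤ (N.sx ℤ x) b) =
      cross F2 (red K (N.sx ℤ x)) (red L b) := by
    intro n x b
    have : (red _).comp (cross ℤ (N.sx ℤ x) : N ℤ L →ₗ[ℤ] _).toAddMonoidHom =
        (cross F2 (red K (N.sx ℤ x)) : N F2 L →ₗ[F2] _).toAddMonoidHom.comp (red L) := by
      refine red_hom_ext fun m y => ?_
      show red _ (cross ℤ (N.sx ℤ x) (N.sx ℤ y)) = cross F2 (red K (N.sx ℤ x)) (red L (N.sx ℤ y))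
      rw [red_sx, red_sx, cross_sx, cross_sx, red_map, red_E _ _ _ rfl]
    exact DFunLike.congr_fun this b
  have : (red _).comp ((cross ℤ).flip b : N ℤ K →ₗ[ℤ] _).toAddMonoidHom =
      ((cross F2).flip (red L b) : N F2 K →ₗ[F2] _).toAddMonoidHom.comp (red K) :=
    red_hom_ext fun m y => h1 m y b
  exact DFunLike.congr_fun this a

end Red

variable {B : Type} [TopologicalSpace B]

theorem bd_ps (R : Type) [CommRing R] {b : B} (p : Path b b) :
    N.bd R (SS.Sing B) (N.sx R (K := SS.Sing B) (ps p)) = 0 := by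
  rw [bd_sx, Fin.sum_univ_two]
  have e0 : (SS.Sing B).act (Op.face 0) (ps p) = cst b 0 := by
    show (SS.Sing B).act (Op.face 0) (pth p.toContinuousMap ![0, 1]) = _
    rw [pth_act, face0_1]
    refine ContinuousMap.ext fun t => ?_
    show p (crd _ t) = b
    rw [crd_const, p.target]
  have e1 : (SS.Sing B).act (Op.face 1) (ps p) = cst b 0 := by
    show (SS.Sing B).act (Op.face 1) (pth p.toContinuousMap ![0, 1]) = _
    rw [pth_act, face1_1]
    refine ContinuousMap.ext fun t => ?_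
    show p (crd _ t) = b
    rw [crd_const, p.source]
  rw [e0, e1]
  simp

/-- the mod 2 homology class of a loop -/
def hcl {b : B} (p : Path b b) : H F2 (SS.Sing B) := Hd.mk _ (N.sx F2 (K := SS.Sing B) (ps p)) (bd_ps F2 p)

theorem hcl_ne_zero_iff {b : B} (p : Path b b) :
    hcl p ≠ 0 ↔ ¬ ∃ w, N.bd F2 (SS.Sing B) w = N.sx F2 (K := SS.Sing B) (ps p) := by
  rw [hcl, ne_eq, Hd.mk_eq_zero]

theorem free_of_sq {b : B} (p : Path b b) (hne : hcl p ≠ 0)
    (mu : SS.Hom ((SS.Sing B).prod (SS.Sing B)) (SS.Sing B))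
    (h2 : ∀ z ∈ H.gr F2 (SS.Sing B) 2,
      ∃ e : F2, z = e • H.map F2 mu (EZ847.ezd.cr _ _ (hcl p ⊗ₜ hcl p)))
    (k : ℤ) (hk : (Cov892.lc p) ^ k = 1) : k = 0 := by
  set c : N ℤ (SS.Sing B) := N.sx ℤ (K := SS.Sing B) (ps p) with hc
  have hbc : N.bd ℤ _ c = 0 := bd_ps ℤ p
  have hr : red _ (N.map ℤ mu (cross ℤ c c)) =
      N.map F2 mu (cross F2 (N.sx F2 (K := SS.Sing B) (ps p)) (N.sx F2 (K := SS.Sing B) (ps p))) := by
    rw [red_map, red_cross, hc, red_sx]
  refine free_of_H2 p ((hcl_ne_zero_iff p).1 hne) (N.map ℤ mu (cross ℤ c c)) ?_ ?_ k hk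
  · have := LinearMap.congr_fun (N.map_bd (R := ℤ) mu) (cross ℤ c c)
    rw [LinearMap.comp_apply, LinearMap.comp_apply] at this
    rw [← this, bd_cross, hbc, map_zero, LinearMap.zero_apply, map_zero, add_zero, map_zero]
  · intro v hv hbv
    obtain ⟨e, he⟩ := h2 (Hd.mk _ v hbv) (Submodule.mem_map.2 ⟨⟨v, hbv⟩, hv, rfl⟩)
    rw [hcl, Coalg847.EZData.cr_mk, Coalg847.hMap_mk] at he
    rw [hr]
    have h3 : ∀ (z : N F2 (SS.Sing B)) (hz : N.bd F2 _ z = 0), Hd.mk (N.bd F2 _) v hbv = e • Hd.mk _ z hz →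
        ∃ w, v = e • z + N.bd F2 _ w := by
      intro z hz h
      have h4 : e • Hd.mk (N.bd F2 _) z hz = Hd.mk (N.bd F2 _) (e • z) (by rw [map_smul, hz, smul_zero]) := rfl
      rw [h4, Hd.mk_eq_mk] at h
      obtain ⟨w, hw⟩ := h
      exact ⟨w, by rw [hw]; abel⟩
    obtain ⟨w, hw⟩ := h3 _ _ he
    exact ⟨e, w, hw⟩

end Crest.Agent.R204.Pi808
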