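import Crest.Agent.R204.PolyT_979
import Crest.Agent.R204.GeoD_979
import Crest.Agent.R204.BaseR_170
import Crest.Agent.R204.BaseX_170
import Crest.Agent.R204.InstSig_194
import Crest.Agent.R204.InstF_114

/-!
# Row 204, leaf B7: `FactPoly` for the concrete tower, unconditional modulo `FactX`
-/

set_option autoImplicit false

noncomputable section

namespace Crest.Agent.R204.PolyU979

open Crest.Agent.R204 Spec114 Inst194

variable (p : Par) {D : ℕ}

/-- **loop space theorem on the concrete tower** -/
theorem factPoly_of_ne (hM : D + 2 ≤ p.M) (hK : D + 2 ≤ p.K) (hx : p.tower.FactX D)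
    (hx0 : p.tower.x (D + 2) ≠ 0) : p.tower.FactPoly D :=
  PolyT979.factPoly Geo979.loopThm p hK (p.factQ hM) (p.factSigma hM hK) hx
    (BaseR170.tower_one_ne p _) (BaseR170.tower_zero p (by omega) (by omega)) hx0
    (BaseR170.tower_span p (by omega) hK (hx.1 (D + 2) le_rfl).1 hx0)
    (fun t ht h0 h1 => BaseR170.tower_bot p (by omega) hK (by omega) h0 h1)

/-- **loop space theorem on the concrete tower** -/
theorem factPoly (hM : D + 2 ≤ p.M) (hK : D + 2 ≤ p.K) (hx : p.tower.FactX D) :
    p.tower.FactPoly D :=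
  factPoly_of_ne p hM hK hx (BaseR170.tower_x_ne p (show 1 ≤ p.J0 + p.K by omega) hK)

end Crest.Agent.R204.PolyU979
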