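import Crest.Agent.R204.PontMain_718
import Crest.Agent.R204.KDec_810
import Crest.Agent.R204.KSurj_271
import Crest.Agent.R204.Prd_328
import Crest.Agent.R204.Sq2_252

/-!
# Row 204, leaf G4 (helper718): `cup` is the equivariant diagonal `Phi 0` (so `Sq^m_*` on `H_{2m}` is
dual to `u ↦ u ∪ u`), and the main theorem of 8.6 in homology: `A₂ = z·z + i c` spherical, `ρ z = ξ`
primitive, `m` even  ⟹  `Sq^m_* c = ξ`.
-/

set_option autoImplicit false

namespace Crest.Agent.R204.Pont718

open EZ271 Coef947 Phi252 Sq252 DK742 TensorProduct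

variable {K L X : SS}

/-! ## `cup = Phi 0` -/

theorem h_eq (n : ℕ) : Phi252.h n = (Cone.std n).c F2 := by
  refine hom_ext fun m α => ?_
  rw [h_sx, Cone.c_sx]
  rfl

theorem aug_eq : Phi252.aug K = EZ271.aug F2 (K := K) := by
  refine hom_ext fun m x => ?_
  rcases m with _ | m
  · rw [Phi252.aug_zero, aug_sx_zero]
  · rw [Phi252.aug_succ, aug_sx_succ]

theorem pf_nm (f : SS.Hom K L) (a b : Co F2 L) (z : NN K) :
    pf a b (nm f z) = pf (a ∘ₗ N.map F2 f) (b ∘ₗ N.map F2 f) z := by
  induction z using TensorProduct.induction_on with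
  | zero => simp
  | tmul x y => simp
  | add a b ha hb => simp only [map_add, ha, hb]

theorem pf_hh {n : ℕ} (a b : Co F2 (SS.std n)) (z : NN (SS.std n)) :
    pf a b (hh n z) = pf (hk (Cone.std n) a) b z +
      pf (a (N.sx F2 (Cone.std n).bot) • EZ271.aug F2) (hk (Cone.std n) b) z := by
  induction z using TensorProduct.induction_on with
  | zero => simp
  | tmul x y =>
    rw [hh_tmul, map_add, pf_tmul, pf_tmul, pf_tmul, pf_tmul, ptm_apply, map_smul, h_eq, aug_eq]
    simp only [hk, LinearMap.comp_apply, LinearMap.smul_apply, smul_eq_mul]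
    congr 1
    rw [mul_comm (a (N.sx F2 (Cone.std n).bot))]
    rfl
  | add x y hx hy => simp only [map_add, hx, hy]; ring

/-- `a ∪ b = (a ⊗ b) ∘ Phi 0` -/
theorem cup_eq_pf (a b : Co F2 K) (c : N F2 K) : cup a b c = pf a b (Phi K 0 c) := by
  have key : ∀ (n : ℕ) (a b : Co F2 (SS.std n)),
      cup a b (N.sx F2 (K := SS.std n) (OrderHom.id : Op n n)) = pf a b (phi n 0) := by
    intro n
    induction n with
    | zero =>
      intro a b
      rw [iota_zero, cup_bot, phi_zero_zero, pf_tmul]
      rfl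
    | succ n ih =>
      intro a b
      have ih' : ∀ (K : SS) (a b : Co F2 K) (x : K.S n), cup a b (N.sx F2 x) = pf a b (Phi K 0 (N.sx F2 x)) := by
        intro K a b x
        rw [Phi_sx, pf_nm, ← ih, ← cup_map, LinearMap.comp_apply, N.map_sx]
        congr 2
        exact (K.act_id x).symm
      have hb : ∀ (a b : Co F2 (SS.std (n + 1))), pf a b (fsum n (phi n 0)) =
          cup a b (N.bd F2 _ (N.sx F2 (K := SS.std (n + 1)) (OrderHom.id : Op (n + 1) (n + 1)))) := by
        intro a b
        have h1 := Phi_bd_sx (K := SS.std (n + 1)) (n := n) (OrderHom.id : Op (n + 1) (n + 1)) 0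
        have h2 : nm ((SS.std (n + 1)).yo (n := n + 1) (OrderHom.id : Op (n + 1) (n + 1))) (fsum n (phi n 0)) =
            fsum n (phi n 0) := by
          have : (SS.std (n + 1)).yo (n := n + 1) (OrderHom.id : Op (n + 1) (n + 1)) = SS.Hom.id _ := by
            ext m g
            rfl
          rw [this, nm_id]
        rw [h2] at h1
        rw [← h1, bd_sx, map_sum, map_sum, map_sum]
        exact Finset.sum_congr rfl fun k _ => (ih' _ a b _).symm
      rw [phi_succ_zero, pf_hh, hb, hb, iota_succ]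
      set w := N.sx F2 (K := SS.std (n + 1)) (Op.face 0 : Op n (n + 1)) with hw
      set A := Cone.std (n + 1) with hA
      have hbd : N.bd F2 (SS.std (n + 1)) (A.c F2 w) =
          w + A.c F2 (N.bd F2 _ w) + EZ271.aug F2 w • N.sx F2 A.bot := by
        rw [Cone.bd_c, f2_sub, f2_sub]
      rw [hbd]
      have e1 : ∀ (a b : Co F2 (SS.std (n + 1))) (v : N F2 (SS.std (n + 1))), a (N.sx F2 A.bot) = 0 →
          cup (hk A a) b (A.c F2 v) = 0 := by
        intro a b v ha
        rw [cup_cone, hk_bot, zero_mul, hk_hk, cup_zero_left, LinearMap.zero_apply, add_zero]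
      have e2 : ∀ (a b : Co F2 (SS.std (n + 1))) (v : N F2 (SS.std (n + 1))),
          cup (hk A a) b (A.c F2 v) = 0 := by
        intro a b v
        rw [cup_cone, hk_bot, zero_mul, hk_hk, cup_zero_left, LinearMap.zero_apply, add_zero]
      rw [cup_cone, map_add, map_add, e2, map_smul, cup_bot, hk_bot, zero_mul, smul_zero,
        cup_smul_left, cup_aug_left, LinearMap.smul_apply, map_add, map_add, map_smul, hk_bot,
        smul_zero, add_zero, add_zero, add_zero]
      have e3 : hk A b (A.c F2 (N.bd F2 _ w)) = 0 := by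
        simp only [hk, LinearMap.comp_apply, Cone.c_c, map_zero]
      rw [e3, add_zero, smul_eq_mul, add_comm]
      rfl
  refine LinearMap.congr_fun (f := cup a b) (g := pf a b ∘ₗ Phi K 0) (hom_ext fun n x => ?_) c
  rw [LinearMap.comp_apply, Phi_sx, pf_nm, ← key, ← cup_map, LinearMap.comp_apply, N.map_sx]
  congr 2
  exact (K.act_id x).symm

theorem uu_eq_pf (u : Co F2 K) (z : NN K) : uu u z = pf u u z := rfl

/-- **VPair**: `⟨u, Sq^m_* c⟩ = ⟨u ∪ u, c⟩` for `|c| = 2m` -/
theorem uH_Sq_top {m : ℕ} (u : Co F2 K) (hu : ∀ x, u (N.bd F2 K x) = 0) {c : N F2 K}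
    (hc : c ∈ N.gr F2 K (2 * m)) (hc' : N.bd F2 K c = 0) :
    uH _ u hu (Sq K m (Hd.mk _ c hc')) = cup u u c := by
  rw [uH_Sq (by omega) u hu hc hc', uu_eq_pf, cup_eq_pf, Nat.sub_self]

end Crest.Agent.R204.Pont718
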