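import Crest.Agent.R204.Pont_718

/-!
# Row 204, leaf G4 (helper718): evaluation of the Pontryagin square on `z × z` and on spherical
simplices; main theorem of 8.6 in chain form.
-/

set_option autoImplicit false

namespace Crest.Agent.R204.Pont718

open EZ271 Coef947

variable {K L X : SS}

theorem red_comp_sg (a : Co Z4 K) : red (a ∘ₗ sg Z4) = red a := by
  refine hom_ext fun n x => ?_
  rw [← rho_sx, red_eval, LinearMap.comp_apply, ← red_eval, rho_sg]

/-! ## spherical simplices -/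

theorem op_factor {l k : ℕ} (α : Op l (k + 1)) (h : l < k + 1) :
    ∃ (i : Fin (k + 2)) (β : Op l k), α = (Op.face i).comp β := by
  have hns : ¬ Function.Surjective α := by
    intro hs
    have := Fintype.card_le_of_surjective _ hs
    simp only [Fintype.card_fin] at this
    omega
  obtain ⟨i, hi⟩ := not_forall.1 hns
  have hi' : ∀ a, (α a : ℕ) ≠ i := fun a h => hi ⟨a, Fin.ext h⟩
  refine ⟨i, ⟨fun a => ⟨if (α a : ℕ) < i then (α a : ℕ) else α a - 1, ?_⟩, ?_⟩, ?_⟩
  · have h1 := (α a).2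
    have h2 := hi' a
    have h3 := i.2
    split_ifs <;> omega
  · intro a b hab
    have h1 : (α a : ℕ) ≤ α b := α.monotone hab
    have h2 := hi' a
    have h3 := hi' b
    simp only [Fin.mk_le_mk]
    split_ifs <;> omega
  · refine OrderHom.ext _ _ (funext fun a => Fin.ext ?_)
    simp only [OrderHom.comp_coe, Function.comp_apply]
    rw [Ch.face_val]
    simp only [OrderHom.coe_mk]
    have h2 := hi' a
    split_ifs <;> omega

/-- proper faces (of positive dimension) of a simplex all of whose faces are constant vanish -/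
theorem sph_act {R : Type} [CommRing R] {k : ℕ} (A : X.S (k + 1)) (e : X.S 0)
    (hA : ∀ i : Fin (k + 2), X.act (Op.face i) A = X.act (⟨fun _ => 0, fun _ _ _ => le_rfl⟩ : Op k 0) e)
    {l : ℕ} (α : Op l (k + 1)) (hl : 1 ≤ l) (h : l < k + 1) : N.sx R (X.act α A) = 0 := by
  obtain ⟨i, β, rfl⟩ := op_factor α h
  rw [X.act_comp, hA, ← X.act_comp]
  exact sx_act_eq_zero _ _ 0 (by omega) rfl

theorem PC.P_sph {m k : ℕ} (u : PC X m) (hm : 0 < m) (hk : k + 1 = 2 * m) (A : X.S (k + 1)) (e : X.S 0)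
    (hA : ∀ i : Fin (k + 2), X.act (Op.face i) A = X.act (⟨fun _ => 0, fun _ _ _ => le_rfl⟩ : Op k 0) e) :
    u.P (N.sx Z4 A) = 0 := by
  unfold PC.P PC.B
  rw [LinearMap.add_apply, dbl_sx, cup_sx, cup1_sx]
  have h1 : ∑ p ∈ Finset.HasAntidiagonal.antidiagonal (k + 1),
      u.a (N.sx Z4 (X.act (seg (k + 1) 0 p.1) A)) * u.a (N.sx Z4 (X.act (seg (k + 1) p.1 p.2) A)) = 0 := by
    refine Finset.sum_eq_zero fun p hp => ?_
    by_cases hpm : p.1 = m
    · rw [sph_act A e hA _ (by omega) (by omega), map_zero, zero_mul]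
    · rw [u.deg _ _ hpm, zero_mul]
  have h2 : ∑ p ∈ Finset.HasAntidiagonal.antidiagonal (k + 1),
      ∑ q ∈ Finset.HasAntidiagonal.antidiagonal p.2,
      red u.a (N.sx F2 (X.act (gap (k + 1) p.1 q.1 q.2) A)) *
        u.v (N.sx F2 (X.act (seg (k + 1) p.1 q.1) A)) = 0 := by
    refine Finset.sum_eq_zero fun p hp => Finset.sum_eq_zero fun q hq => ?_
    by_cases hpm : q.2 + p.1 + 1 = m
    · rw [sph_act A e hA _ (by omega) (by omega), map_zero, zero_mul]
    · rw [u.deg.red _ _ hpm, zero_mul]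
  rw [h1, h2, map_zero, add_zero]

/-! ## cross products of `PC`s -/

/-- the unit -/
noncomputable def onePC (K : SS) : PC K 0 where
  a := aug Z4
  v := 0
  deg := IsDeg.aug
  bd := by
    rw [dbl_zero]
    exact LinearMap.ext fun c => by rw [LinearMap.comp_apply, aug_bd]; rfl

/-- lift of a mod 2 cocycle -/
noncomputable def lfPC {p : ℕ} (x : Co F2 K) (hx : IsDeg p x) (hd : x ∘ₗ N.bd F2 K = 0) : PC K p where
  a := lf x
  v := hlf (lf x ∘ₗ N.bd Z4 K)
  deg := hx.lf
  bd := by rw [dbl_hlf]; rw [red_bd, red_lf, hd]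

/-- cross product -/
noncomputable def crsPC {p q m : ℕ} (h : p + q = m) (α : PC K p) (β : PC L q) : PC (K.prod L) m where
  a := crs α.a β.a
  v := crs α.v (red β.a) + crs (red α.a) β.v
  deg := by rw [← h]; exact α.deg.crs β.deg
  bd := by
    rw [crs_bd, α.bd, β.bd, crs_dbl_left, crs_dbl_right, red_comp_sg, dbl_add]

theorem B_cross {p q p' q' m : ℕ} (h : p + q = m) (h' : p' + q' = m) (α : PC K p) (α' : PC L q)
    (β : PC K p') (β' : PC L q') (Z : N Z4 K) (Y : N Z4 L) :
    (crsPC h α α').B (crsPC h' β β') (cross Z4 Z Y) =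
      (-1 : Z4) ^ (q * p') * (cup α.a β.a Z * cup α'.a β'.a Y) +
      dblf (cup (red α.a) β.v (rho K Z) * cup1 (red α'.a) (red β'.a) (rho L Y) +
        cup1 (red α.a) β.v (rho K Z) * cup (red β'.a) (red α'.a) (rho L Y) +
        (cup (red α.a) (red β.a) (rho K Z) * cup1 (red α'.a) β'.v (rho L Y) +
        cup1 (red α.a) (red β.a) (rho K Z) * cup β'.v (red α'.a) (rho L Y))) := by
  unfold PC.B crsPC
  simp only
  rw [LinearMap.add_apply, cup_cross Z Y α.a β.a α'.a β'.a q p' α'.deg.sg β.deg.sg, dbl_eval,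
    rho_cross, red_crs, cup1_add_right, LinearMap.add_apply, cup1_cross, cup1_cross]

section sum

variable {m : ℕ} {ι : Type}

/-- sum of a finite family -/
noncomputable def sumPC (s : Finset ι) (W : ι → PC K m) : PC K m where
  a := ∑ i ∈ s, (W i).a
  v := ∑ i ∈ s, (W i).v
  deg := IsDeg.sum s fun i _ => (W i).deg
  bd := by
    rw [dbl_sum]
    refine LinearMap.ext fun c => ?_
    rw [LinearMap.comp_apply, LinearMap.sum_apply, LinearMap.sum_apply]
    exact Finset.sum_congr rfl fun i _ => LinearMap.congr_fun (W i).bd c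

theorem P_sumPC (s : Finset ι) (W : ι → PC K m) :
    (sumPC s W).P = ∑ i ∈ s, ∑ j ∈ s, (W i).B (W j) := by
  unfold PC.P PC.B sumPC
  simp only
  rw [cup_sum_left, red_sum, cup1_sum_left, dbl_sum, ← Finset.sum_add_distrib]
  refine Finset.sum_congr rfl fun i _ => ?_
  rw [cup_sum_right, cup1_sum_right, dbl_sum, ← Finset.sum_add_distrib]

end sum

/-- the hypothesis on `z`: a `Z4`-cycle of degree `m` whose reduction is primitive -/
structure PrimCycle (X : SS) (m : ℕ) (z : N Z4 X) : Prop where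
  gr : z ∈ N.gr Z4 X m
  bd : N.bd Z4 X z = 0
  prim : ∀ (p q : ℕ) (a b : Co F2 X), 0 < p → 0 < q → p + q = m → IsDeg p a → IsDeg q b →
    a ∘ₗ N.bd F2 X = 0 → b ∘ₗ N.bd F2 X = 0 → cup a b (rho X z) = 0

namespace PrimCycle

variable {m : ℕ} {z : N Z4 X} (h : PrimCycle X m z)
include h

theorem rgr : rho X z ∈ N.gr F2 X m := coN_mem_gr _ h.gr

theorem prim' {p q : ℕ} {a b : Co F2 X} (hp : 0 < p) (hq : 0 < q) (ha : IsDeg p a) (hb : IsDeg q b)
    (ha' : a ∘ₗ N.bd F2 X = 0) (hb' : b ∘ₗ N.bd F2 X = 0) : cup a b (rho X z) = 0 := by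
  by_cases hpq : p + q = m
  · exact h.prim p q a b hp hq hpq ha hb ha' hb'
  · exact (ha.cup hb).eval h.rgr (Ne.symm hpq)

theorem v_eval {p : ℕ} (u : PC X p) : u.v (rho X z) = 0 := by
  refine dblf_injective ?_
  rw [← dbl_eval, ← u.bd, LinearMap.comp_apply, h.bd, map_zero, map_zero]

theorem cup_even {p q : ℕ} (hp : 0 < p) (hq : 0 < q) (α : PC X p) (β : PC X q) :
    c42 (cup α.a β.a z) = 0 := by
  rw [← red_eval, red_cup]
  exact h.prim' hp hq α.deg.red β.deg.red α.red_bd β.red_bd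

end PrimCycle

section eval

variable {m : ℕ} {z : N Z4 X} (h : PrimCycle X m z) (hm : 0 < m)
include h

/-- both interior -/
theorem B_int_int {p q p' q' : ℕ} (e : p + q = m) (e' : p' + q' = m) (hp : 0 < p) (hq : 0 < q)
    (hp' : 0 < p') (hq' : 0 < q') (α : PC X p) (α' : PC X q) (β : PC X p') (β' : PC X q') :
    (crsPC e α α').B (crsPC e' β β') (cross Z4 z z) = 0 := by
  rw [B_cross, even_mul_even (h.cup_even hp hp' α β) (h.cup_even hq hq' α' β'),
    h.prim' hp (Nat.succ_pos p') α.deg.red β.v_deg α.red_bd β.v_bd,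
    h.prim' hq' hq β'.deg.red α'.deg.red β'.red_bd α'.red_bd,
    h.prim' hp hp' α.deg.red β.deg.red α.red_bd β.red_bd,
    h.prim' (Nat.succ_pos q') hq β'.v_deg α'.deg.red β'.v_bd α'.red_bd]
  simp

/-- `(u × 1, interior)` -/
theorem B_u1_int {p' q' : ℕ} (e : m + 0 = m) (e' : p' + q' = m) (hp' : 0 < p') (u : PC X m)
    (β : PC X p') (β' : PC X q') :
    (crsPC e u (onePC X)).B (crsPC e' β β') (cross Z4 z z) = 0 := by
  have t1 : cup u.a β.a z = 0 := (u.deg.cup β.deg).eval h.gr (by omega)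
  have t2 : cup (red u.a) β.v (rho X z) = 0 := (u.deg.red.cup β.v_deg).eval h.rgr (by omega)
  have t3 : cup (red β'.a) (red (onePC X).a) (rho X z) = 0 := by
    unfold onePC
    rw [red_aug, cup_aug_right]
    exact β'.deg.red.eval h.rgr (by omega)
  have t4 : cup (red u.a) (red β.a) (rho X z) = 0 := (u.deg.red.cup β.deg.red).eval h.rgr (by omega)
  have t5 : cup β'.v (red (onePC X).a) (rho X z) = 0 := by
    unfold onePC
    rw [red_aug, cup_aug_right]
    exact h.v_eval β'
  rw [B_cross, t1, t2, t3, t4, t5]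
  simp

/-- `(1 × u, interior)` -/
theorem B_1u_int {p' q' : ℕ} (e : 0 + m = m) (e' : p' + q' = m) (hq' : 0 < q') (u : PC X m)
    (β : PC X p') (β' : PC X q') :
    (crsPC e (onePC X) u).B (crsPC e' β β') (cross Z4 z z) = 0 := by
  have t1 : cup (onePC X).a β.a z = 0 := by
    unfold onePC
    rw [cup_aug_left]
    exact β.deg.eval h.gr (by omega)
  have t2 : cup (red (onePC X).a) β.v (rho X z) = 0 := by
    unfold onePC
    rw [red_aug, cup_aug_left]
    exact h.v_eval β
  have t3 : cup1 (red (onePC X).a) β.v = 0 := by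
    unfold onePC
    rw [red_aug, cup1_aug_left]
  have t4 : cup (red (onePC X).a) (red β.a) (rho X z) = 0 := by
    unfold onePC
    rw [red_aug, cup_aug_left]
    exact β.deg.red.eval h.rgr (by omega)
  have t5 : cup1 (red (onePC X).a) (red β.a) = 0 := by
    unfold onePC
    rw [red_aug, cup1_aug_left]
  rw [B_cross, t1, t2, t3, t4, t5]
  simp

/-- `(interior, u × 1)` -/
theorem B_int_u1 {p q : ℕ} (e : p + q = m) (e' : m + 0 = m) (hp : 0 < p) (u : PC X m)
    (α : PC X p) (α' : PC X q) :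
    (crsPC e α α').B (crsPC e' u (onePC X)) (cross Z4 z z) = 0 := by
  have t1 : cup α.a u.a z = 0 := (α.deg.cup u.deg).eval h.gr (by omega)
  have t2 : cup (red α.a) u.v (rho X z) = 0 := (α.deg.red.cup u.v_deg).eval h.rgr (by omega)
  have t3 : cup (red (onePC X).a) (red α'.a) (rho X z) = 0 := by
    unfold onePC
    rw [red_aug, cup_aug_left]
    exact α'.deg.red.eval h.rgr (by omega)
  have t4 : cup (red α.a) (red u.a) (rho X z) = 0 := (α.deg.red.cup u.deg.red).eval h.rgr (by omega)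
  have t5 : cup (onePC X).v (red α'.a) = 0 := by
    unfold onePC
    rw [cup_zero_left]
  rw [B_cross, t1, t2, t3, t4, t5]
  simp

/-- `(interior, 1 × u)` -/
theorem B_int_1u {p q : ℕ} (e : p + q = m) (e' : 0 + m = m) (hq : 0 < q) (u : PC X m)
    (α : PC X p) (α' : PC X q) :
    (crsPC e α α').B (crsPC e' (onePC X) u) (cross Z4 z z) = 0 := by
  have t1 : cup α.a (onePC X).a z = 0 := by
    unfold onePC
    rw [cup_aug_right]
    exact α.deg.eval h.gr (by omega)
  have t2 : cup (red α.a) (onePC X).v = 0 := by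
    unfold onePC
    rw [cup_zero_right]
  have t3 : cup1 (red α.a) (onePC X).v = 0 := by
    unfold onePC
    rw [cup1_zero_right]
  have t4 : cup (red α.a) (red (onePC X).a) (rho X z) = 0 := by
    unfold onePC
    rw [red_aug, cup_aug_right]
    exact α.deg.red.eval h.rgr (by omega)
  have t5 : cup1 (red α.a) (red (onePC X).a) = 0 := by
    unfold onePC
    rw [red_aug, cup1_aug_right]
  rw [B_cross, t1, t2, t3, t4, t5]
  simp

include hm in
theorem B_u1_u1 (e : m + 0 = m) (u : PC X m) :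
    (crsPC e u (onePC X)).B (crsPC e u (onePC X)) (cross Z4 z z) = 0 := by
  have t1 : cup u.a u.a z = 0 := (u.deg.cup u.deg).eval h.gr (by omega)
  have t2 : cup (red u.a) u.v (rho X z) = 0 := (u.deg.red.cup u.v_deg).eval h.rgr (by omega)
  have t3 : cup (red (onePC X).a) (red (onePC X).a) (rho X z) = 0 := by
    unfold onePC
    rw [red_aug, cup_aug_left]
    exact (IsDeg.aug (R := F2)).eval h.rgr (by omega)
  have t4 : cup (red u.a) (red u.a) (rho X z) = 0 := (u.deg.red.cup u.deg.red).eval h.rgr (by omega)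
  have t5 : cup (onePC X).v (red (onePC X).a) = 0 := by
    unfold onePC
    rw [cup_zero_left]
  rw [B_cross, t1, t2, t3, t4, t5]
  simp

include hm in
theorem B_1u_1u (e : 0 + m = m) (u : PC X m) :
    (crsPC e (onePC X) u).B (crsPC e (onePC X) u) (cross Z4 z z) = 0 := by
  have t1 : cup (onePC X).a (onePC X).a z = 0 := by
    unfold onePC
    rw [cup_aug_left]
    exact (IsDeg.aug (R := Z4)).eval h.gr (by omega)
  have t2 : cup (red (onePC X).a) (onePC X).v = 0 := by
    unfold onePC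
    rw [cup_zero_right]
  have t3 : cup1 (red (onePC X).a) (onePC X).v = 0 := by
    unfold onePC
    rw [cup1_zero_right]
  have t4 : cup (red (onePC X).a) (red (onePC X).a) (rho X z) = 0 := by
    unfold onePC
    rw [red_aug, cup_aug_left]
    exact (IsDeg.aug (R := F2)).eval h.rgr (by omega)
  have t5 : cup1 (red (onePC X).a) (red (onePC X).a) = 0 := by
    unfold onePC
    rw [red_aug, cup1_aug_left]
  rw [B_cross, t1, t2, t3, t4, t5]
  simp

omit h in
theorem B_u1_1u (e : m + 0 = m) (e' : 0 + m = m) (u : PC X m) :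
    (crsPC e u (onePC X)).B (crsPC e' (onePC X) u) (cross Z4 z z) = u.a z * u.a z := by
  have t1 : cup u.a (onePC X).a = u.a := by
    unfold onePC
    rw [cup_aug_right]
  have t1' : cup (onePC X).a u.a = u.a := by
    unfold onePC
    rw [cup_aug_left]
  have t2 : cup (red u.a) (onePC X).v = 0 := by
    unfold onePC
    rw [cup_zero_right]
  have t3 : cup1 (red u.a) (onePC X).v = 0 := by
    unfold onePC
    rw [cup1_zero_right]
  have t4 : cup1 (red (onePC X).a) u.v = 0 := by
    unfold onePC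
    rw [red_aug, cup1_aug_left]
  have t5 : cup1 (red u.a) (red (onePC X).a) = 0 := by
    unfold onePC
    rw [red_aug, cup1_aug_right]
  rw [B_cross, t1, t1', t2, t3, t4, t5]
  simp

theorem B_1u_u1 (hm2 : Even m) (e : 0 + m = m) (e' : m + 0 = m) (u : PC X m) :
    (crsPC e (onePC X) u).B (crsPC e' u (onePC X)) (cross Z4 z z) = u.a z * u.a z := by
  have t1 : cup u.a (onePC X).a = u.a := by
    unfold onePC
    rw [cup_aug_right]
  have t1' : cup (onePC X).a u.a = u.a := by
    unfold onePC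
    rw [cup_aug_left]
  have t2 : cup (red (onePC X).a) u.v (rho X z) = 0 := by
    unfold onePC
    rw [red_aug, cup_aug_left]
    exact h.v_eval u
  have t3 : cup1 (red (onePC X).a) u.v = 0 := by
    unfold onePC
    rw [red_aug, cup1_aug_left]
  have t4 : cup1 (red u.a) (onePC X).v = 0 := by
    unfold onePC
    rw [cup1_zero_right]
  have t5 : cup1 (red (onePC X).a) (red u.a) = 0 := by
    unfold onePC
    rw [red_aug, cup1_aug_left]
  rw [B_cross, t1, t1', t2, t3, t4, t5, (hm2.mul_left m).neg_one_pow]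
  simp

end eval

/-- value of the Pontryagin square of `ũ × 1 + 1 × ũ + ∑ x̃ᵢ × ỹᵢ` on `z × z` -/
theorem P_sum_eval {m : ℕ} (hm : 0 < m) (hm2 : Even m) {z : N Z4 X} (h : PrimCycle X m z)
    (u : PC X m) (s : ℕ) (p q : Fin s → ℕ) (hp : ∀ i, 0 < p i) (hq : ∀ i, 0 < q i)
    (hpq : ∀ i, p i + q i = m) (x : ∀ i, PC X (p i)) (y : ∀ i, PC X (q i)) :
    (sumPC (Finset.univ : Finset (Option (Option (Fin s)))) (fun j =>
      match j with
      | none => crsPC (Nat.add_zero m) u (onePC X)
      | some none => crsPC (Nat.zero_add m) (onePC X) u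
      | some (some i) => crsPC (hpq i) (x i) (y i))).P (cross Z4 z z) = dblf (red u.a (rho X z)) := by
  rw [P_sumPC, LinearMap.sum_apply]
  simp only [LinearMap.sum_apply, Fintype.sum_option, LinearMap.add_apply]
  rw [B_u1_u1 h hm, B_u1_1u, B_1u_u1 h hm2, B_1u_1u h hm]
  rw [Finset.sum_eq_zero fun i _ => B_u1_int h _ (hpq i) (hp i) u (x i) (y i),
    Finset.sum_eq_zero fun i _ => B_1u_int h _ (hpq i) (hq i) u (x i) (y i),
    Finset.sum_eq_zero fun i _ => by
      rw [B_int_u1 h (hpq i) _ (hp i) u (x i) (y i), B_int_1u h (hpq i) _ (hq i) u (x i) (y i),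
        Finset.sum_eq_zero fun j _ => B_int_int h (hpq i) (hpq j) (hp i) (hq i) (hp j) (hq j)
          (x i) (y i) (x j) (y j)]
      rfl]
  rw [red_eval, ← two_sq]
  ring

/-- **Main theorem of 8.6, chain form** (decomposition of `μ^*U` as a hypothesis). -/
theorem pont_of_dec {m k : ℕ} (hm : 0 < m) (hm2 : Even m) (hk : k + 1 = 2 * m)
    (μ : SS.Hom (X.prod X) X) (e : X.S 0) {z : N Z4 X} (h : PrimCycle X m z)
    (A : X.S (k + 1))
    (hA : ∀ i : Fin (k + 2), X.act (Op.face i) A = X.act (⟨fun _ => 0, fun _ _ _ => le_rfl⟩ : Op k 0) e)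
    (c : N F2 X) (w : N Z4 X)
    (hrel : N.sx Z4 A = N.map Z4 μ (cross Z4 z z) + inc X c + N.bd Z4 X w)
    (U : Co F2 X) (hU : IsDeg m U) (hU' : U ∘ₗ N.bd F2 X = 0)
    (hdec : ∃ (s : ℕ) (x y : Fin s → Co F2 X) (p q : Fin s → ℕ) (b : Co F2 (X.prod X)),
      (∀ i, 0 < p i ∧ 0 < q i ∧ p i + q i = m ∧ IsDeg (p i) (x i) ∧ IsDeg (q i) (y i) ∧
        x i ∘ₗ N.bd F2 X = 0 ∧ y i ∘ₗ N.bd F2 X = 0) ∧ IsDeg (m - 1) b ∧
      U ∘ₗ N.map F2 μ = crs U (aug F2) + crs (aug F2) U + ∑ i, crs (x i) (y i) +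
        b ∘ₗ N.bd F2 (X.prod X)) :
    cup U U c = U (rho X z) := by
  obtain ⟨s, x, y, p, q, b, hxy, hb, hV⟩ := hdec
  have hp := fun i => (hxy i).1
  have hq := fun i => (hxy i).2.1
  have hpq := fun i => (hxy i).2.2.1
  have hx := fun i => (hxy i).2.2.2.1
  have hy := fun i => (hxy i).2.2.2.2.1
  have hx' := fun i => (hxy i).2.2.2.2.2.1
  have hy' := fun i => (hxy i).2.2.2.2.2.2
  set u : PC X m := lfPC U hU hU' with hu
  have hur : red u.a = U := by rw [hu]; exact red_lf U
  have hcyc : N.bd Z4 _ (cross Z4 z z) = 0 := by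
    rw [bd_cross, h.bd]; simp
  have E1 := P_sum_eval hm hm2 h u s p q hp hq hpq (fun i => lfPC (x i) (hx i) (hx' i))
    (fun i => lfPC (y i) (hy i) (hy' i))
  set W : Option (Option (Fin s)) → PC (X.prod X) m := (fun j =>
      match j with
      | none => crsPC (Nat.add_zero m) u (onePC X)
      | some none => crsPC (Nat.zero_add m) (onePC X) u
      | some (some i) => crsPC (hpq i) (lfPC (x i) (hx i) (hx' i)) (lfPC (y i) (hy i) (hy' i)))
    with hW
  set T : PC (X.prod X) m := sumPC Finset.univ W with hT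
  have hTa : red T.a = crs U (aug F2) + crs (aug F2) U + ∑ i, crs (x i) (y i) := by
    rw [hT]
    unfold sumPC
    simp only
    rw [red_sum]
    simp only [Fintype.sum_option]
    rw [hW]
    unfold crsPC onePC lfPC
    simp only [red_crs, red_lf, red_aug, hur]
    rw [add_assoc]
  -- add the coboundary
  let T' : PC (X.prod X) m :=
    { a := T.a + lf b ∘ₗ N.bd Z4 _
      v := T.v
      deg := T.deg.add (by
        have := hb.lf.bd
        rwa [Nat.sub_add_cancel hm] at this)
      bd := by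
        rw [LinearMap.add_comp, T.bd]
        have : (lf b ∘ₗ N.bd Z4 (X.prod X)) ∘ₗ N.bd Z4 (X.prod X) = 0 := by
          refine LinearMap.ext fun c => ?_
          simp only [LinearMap.comp_apply, N.bd_bd, map_zero, LinearMap.zero_apply]
        rw [this, add_zero] }
  have E2 : T'.P (cross Z4 z z) = T.P (cross Z4 z z) :=
    PC.P_add_bd hm2 hm T T' (lf b) hb.lf rfl _ hcyc
  have hT'a : red T'.a = U ∘ₗ N.map F2 μ := by
    change red (T.a + lf b ∘ₗ N.bd Z4 _) = _
    rw [red_add, hTa, red_bd, red_lf, hV]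
  have E3 : (u.map μ).P (cross Z4 z z) = T'.P (cross Z4 z z) := by
    refine PC.P_add_dbl T' (u.map μ) (hlf ((u.map μ).a - T'.a)) ?_ _ hcyc
    rw [dbl_hlf]
    · abel
    · rw [red_sub, hT'a]
      have : red (u.map μ).a = U ∘ₗ N.map F2 μ := by
        change red (u.a ∘ₗ N.map Z4 μ) = _
        rw [red_map, hur]
      rw [this, f2_add_self]
  have E4 := u.P_sph hm hk A e hA
  rw [hrel, map_add, map_add, ← LinearMap.comp_apply, ← PC.P_map, E3, E2, E1, inc_eval] at E4
  have E5 : u.P (N.bd Z4 X w) = 0 := by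
    have := LinearMap.congr_fun (u.P_bd hm2) w
    exact this
  have E6 : red u.P = cup U U := by
    unfold PC.P PC.B
    rw [red_add, red_cup, red_dbl, add_zero, hur]
  rw [E5, E6, hur, add_zero, ← map_add] at E4
  have E7 : U (rho X z) + cup U U c = 0 := dblf_injective (by rw [E4, map_zero])
  have := eq_neg_of_add_eq_zero_right E7
  rw [this]
  exact f2_neg _

end Crest.Agent.R204.Pont718
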