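import Crest.Agent.R204.Deg_718
import Crest.Agent.R204.Coef_947

/-!
# Row 204, leaf G4 (helper718): the Pontryagin square on cochains, `P(ũ) = ũ ∪ ũ + 2 (u ∪₁ v)`,
`δũ = 2v`.
-/

set_option autoImplicit false

namespace Crest.Agent.R204.Pont718

open EZ271 Finsupp Coef947

abbrev Z4 := ZMod 4

/-- reduction mod 2 -/
def c42 : Z4 →+* F2 := ZMod.castHom (by norm_num) (ZMod 2)

/-- multiplication by two `F2 → Z4` -/
def dblf : F2 →+ Z4 where
  toFun a := if a = 0 then 0 else 2
  map_zero' := by simp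
  map_add' := by decide

theorem dblf_apply (a : F2) : dblf a = if a = 0 then 0 else 2 := rfl

/-- set-theoretic lift -/
def lift4 (a : F2) : Z4 := if a = 0 then 0 else 1

theorem lift4_zero : lift4 0 = 0 := rfl

theorem c42_lift4 (a : F2) : c42 (lift4 a) = a := by
  revert a; decide

theorem dblf_mul (a : F2) (b : Z4) : dblf a * b = dblf (a * c42 b) := by
  revert a b; decide

theorem mul_dblf (a : F2) (b : Z4) : b * dblf a = dblf (c42 b * a) := by
  rw [mul_comm, dblf_mul, mul_comm]

theorem two_mul_c42 (b : Z4) : 2 * b = dblf (c42 b) := by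
  revert b; decide

theorem c42_dblf (a : F2) : c42 (dblf a) = 0 := by
  revert a; decide

theorem dblf_injective : Function.Injective dblf := by
  intro a b; revert a b; decide

theorem c42_surjective : Function.Surjective c42 := fun a => ⟨lift4 a, c42_lift4 a⟩

/-- half of an even element -/
def half4 (b : Z4) : F2 := if b = 2 then 1 else 0

theorem half4_zero : half4 0 = 0 := rfl

theorem dblf_half4 {b : Z4} (h : c42 b = 0) : dblf (half4 b) = b := by
  revert b; decide

theorem even_mul_even {a b : Z4} (ha : c42 a = 0) (hb : c42 b = 0) : a * b = 0 := by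
  revert a b; decide

theorem dblf_even {a b : Z4} (ha : c42 a = 0) : a * dblf (c42 b) = 0 := by
  revert a b; decide

theorem two_sq (a : Z4) : a * a + a * a = dblf (c42 a) := by
  revert a; decide

variable {K L : SS}

/-- reduction of chains mod 2 -/
noncomputable abbrev rho (K : SS) : N Z4 K →+ N F2 K := coN c42.toAddMonoidHom K

/-- twice a mod 2 chain -/
noncomputable abbrev inc (K : SS) : N F2 K →+ N Z4 K := coN dblf K

theorem rho_sx {n : ℕ} (x : K.S n) : rho K (N.sx Z4 x) = N.sx F2 x :=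
  coN_sx _ _ (map_one c42)

theorem rho_smul (r : Z4) (c : N Z4 K) : rho K (r • c) = c42 r • rho K c :=
  coN_smul _ _ _ (fun x => map_mul c42 r x) c

theorem rho_bd (c : N Z4 K) : rho K (N.bd Z4 K c) = N.bd F2 K (rho K c) := coN_bd _ c

theorem rho_map (f : SS.Hom K L) (c : N Z4 K) : rho L (N.map Z4 f c) = N.map F2 f (rho K c) :=
  coN_map _ f c

theorem rho_sg (c : N Z4 K) : rho K (sg Z4 c) = rho K c := by
  refine N_induction (R := Z4) (K := K) (p := fun c => rho K (sg Z4 c) = rho K c) c ?_ ?_ ?_ ?_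
  · simp
  · intro a b ha hb; rw [map_add, map_add, map_add, ha, hb]
  · intro r a ha; rw [map_smul, rho_smul, rho_smul, ha]
  · intro n x
    rw [sg_sx, rho_smul, rho_sx]
    have : c42 ((-1) ^ n) = 1 := by
      rw [map_pow]
      have : c42 (-1) = 1 := by decide
      rw [this, one_pow]
    rw [this, one_smul]

theorem rho_c (A : Cone K) (c : N Z4 K) : rho K (A.c Z4 c) = A.c F2 (rho K c) := by
  refine N_induction (R := Z4) (K := K) (p := fun c => rho K (A.c Z4 c) = A.c F2 (rho K c)) c ?_ ?_ ?_ ?_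
  · simp
  · intro a b ha hb; rw [map_add, map_add, map_add, map_add, ha, hb]
  · intro r a ha; rw [map_smul, rho_smul, rho_smul, ha, map_smul]
  · intro n x
    rw [Cone.c_sx, rho_sx, rho_sx, Cone.c_sx]

theorem rho_aug (c : N Z4 K) : aug F2 (rho K c) = c42 (aug Z4 c) := by
  refine N_induction (R := Z4) (K := K) (p := fun c => aug F2 (rho K c) = c42 (aug Z4 c)) c ?_ ?_ ?_ ?_
  · simp
  · intro a b ha hb; rw [map_add, map_add, map_add, map_add, ha, hb]
  · intro r a ha
    rw [rho_smul, map_smul, map_smul, ha, smul_eq_mul, smul_eq_mul, map_mul]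
  · intro n x
    rcases n with _ | n
    · rw [rho_sx, aug_sx_zero, aug_sx_zero, map_one]
    · rw [rho_sx, aug_sx_succ, aug_sx_succ, map_zero]

theorem rho_E : ∀ (n p q : ℕ) (_ : p + q = n), rho _ (E Z4 p q) = E F2 p q := by
  intro n
  induction n with
  | zero =>
    intro p q h
    obtain rfl : p = 0 := by omega
    obtain rfl : q = 0 := by omega
    rw [E_zero_zero, E_zero_zero, rho_sx]
  | succ n ih =>
    intro p q h
    rcases p with _ | p <;> rcases q with _ | q
    · omega
    · rw [E_zero_succ, E_zero_succ, rho_c, rho_map, ih 0 q (by omega)]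
    · rw [E_succ_zero, E_succ_zero, rho_c, rho_map, ih p 0 (by omega)]
    · rw [E_succ_succ, E_succ_succ, rho_c, map_add, rho_smul, rho_map, rho_map,
        ih p (q + 1) (by omega), ih (p + 1) q (by omega)]
      congr 3
      rw [map_pow, map_neg, map_one]

theorem rho_cross (X : N Z4 K) (Y : N Z4 L) :
    rho (K.prod L) (cross Z4 X Y) = cross F2 (rho K X) (rho L Y) := by
  refine N_induction (R := Z4) (K := K)
    (p := fun X => rho (K.prod L) (cross Z4 X Y) = cross F2 (rho K X) (rho L Y)) X ?_ ?_ ?_ ?_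
  · simp
  · intro a b ha hb
    rw [map_add, LinearMap.add_apply, map_add, map_add, map_add, LinearMap.add_apply, ha, hb]
  · intro r a ha
    rw [map_smul, LinearMap.smul_apply, rho_smul, rho_smul, ha, map_smul, LinearMap.smul_apply]
  · intro p x
    refine N_induction (R := Z4) (K := L)
      (p := fun Y => rho (K.prod L) (cross Z4 (N.sx Z4 x) Y) =
        cross F2 (rho K (N.sx Z4 x)) (rho L Y)) Y ?_ ?_ ?_ ?_
    · simp
    · intro a b ha hb; rw [map_add, map_add, map_add, map_add, ha, hb]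
    · intro r a ha; rw [map_smul, rho_smul, rho_smul, ha, map_smul]
    · intro q y
      rw [cross_sx, rho_map, rho_E _ p q rfl, rho_sx, rho_sx, cross_sx]

/-! ## reduction, doubling and lifting of cochains -/

/-- reduction of a `Z4`-cochain -/
noncomputable def red (a : Co Z4 K) : Co F2 K :=
  liftN (fun _ x => c42 (a (N.sx Z4 x))) (fun n j y => by rw [N.sx_dgn, map_zero, map_zero])

/-- twice an `F2`-cochain -/
noncomputable def dbl (u : Co F2 K) : Co Z4 K :=
  liftN (fun _ x => dblf (u (N.sx F2 x))) (fun n j y => by rw [N.sx_dgn, map_zero, map_zero])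

/-- lift of an `F2`-cochain -/
noncomputable def lf (u : Co F2 K) : Co Z4 K :=
  liftN (fun _ x => lift4 (u (N.sx F2 x))) (fun n j y => by rw [N.sx_dgn, map_zero, lift4_zero])

/-- half of a cochain -/
noncomputable def hlf (a : Co Z4 K) : Co F2 K :=
  liftN (fun _ x => half4 (a (N.sx Z4 x))) (fun n j y => by rw [N.sx_dgn, map_zero, half4_zero])

@[simp] theorem red_sx (a : Co Z4 K) {n : ℕ} (x : K.S n) : red a (N.sx F2 x) = c42 (a (N.sx Z4 x)) := by
  simp [red]
@[simp] theorem dbl_sx (u : Co F2 K) {n : ℕ} (x : K.S n) : dbl u (N.sx Z4 x) = dblf (u (N.sx F2 x)) := by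
  simp [dbl]
@[simp] theorem lf_sx (u : Co F2 K) {n : ℕ} (x : K.S n) : lf u (N.sx Z4 x) = lift4 (u (N.sx F2 x)) := by
  simp [lf]
@[simp] theorem hlf_sx (a : Co Z4 K) {n : ℕ} (x : K.S n) : hlf a (N.sx F2 x) = half4 (a (N.sx Z4 x)) := by
  simp [hlf]

theorem red_eval (a : Co Z4 K) (c : N Z4 K) : red a (rho K c) = c42 (a c) := by
  refine N_induction (R := Z4) (K := K) (p := fun c => red a (rho K c) = c42 (a c)) c ?_ ?_ ?_ ?_
  · simp
  · intro x y hx hy; rw [map_add, map_add, map_add, map_add, hx, hy]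
  · intro r x hx
    rw [rho_smul, map_smul, map_smul, hx, smul_eq_mul, smul_eq_mul, map_mul]
  · intro n x
    rw [rho_sx, red_sx]

theorem dbl_eval (u : Co F2 K) (c : N Z4 K) : dbl u c = dblf (u (rho K c)) := by
  refine N_induction (R := Z4) (K := K) (p := fun c => dbl u c = dblf (u (rho K c))) c ?_ ?_ ?_ ?_
  · simp
  · intro x y hx hy; rw [map_add, map_add, map_add, map_add, hx, hy]
  · intro r x hx
    rw [rho_smul, map_smul, map_smul, hx, smul_eq_mul, smul_eq_mul, mul_dblf]
  · intro n x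
    rw [rho_sx, dbl_sx]

theorem inc_smul (r : F2) (c : N F2 K) : inc K (r • c) = lift4 r • inc K c :=
  coN_smul _ _ _ (fun x => by revert r x; decide) c

theorem inc_eval (a : Co Z4 K) (c : N F2 K) : a (inc K c) = dblf (red a c) := by
  refine N_induction (R := F2) (K := K) (p := fun c => a (inc K c) = dblf (red a c)) c ?_ ?_ ?_ ?_
  · simp
  · intro x y hx hy; rw [map_add, map_add, map_add, map_add, hx, hy]
  · intro r x hx
    rw [inc_smul, map_smul, map_smul, hx, smul_eq_mul, smul_eq_mul]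
    generalize red a x = t
    revert r t; decide
  · intro n x
    have : inc K (N.sx F2 x) = (2 : Z4) • N.sx Z4 x := by
      rw [N.sx, coN_mk, coC_single, N.sx, ← Submodule.Quotient.mk_smul]
      congr 1
      rw [Finsupp.smul_single]
      congr 1
    rw [this, map_smul, red_sx, smul_eq_mul, two_mul_c42]

theorem red_lf (u : Co F2 K) : red (lf u) = u := by
  refine hom_ext fun n x => ?_
  rw [red_sx, lf_sx, c42_lift4]

theorem red_add (a b : Co Z4 K) : red (a + b) = red a + red b := by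
  refine hom_ext fun n x => ?_
  simp

theorem red_neg (a : Co Z4 K) : red (-a) = red a := by
  refine hom_ext fun n x => ?_
  rw [red_sx, LinearMap.neg_apply, map_neg, red_sx]
  exact f2_neg _

theorem red_sub (a b : Co Z4 K) : red (a - b) = red a + red b := by
  rw [sub_eq_add_neg, red_add, red_neg]

theorem red_zero : red (0 : Co Z4 K) = 0 := by
  refine hom_ext fun n x => ?_
  simp

theorem red_sum {ι : Type*} (s : Finset ι) (a : ι → Co Z4 K) :
    red (∑ i ∈ s, a i) = ∑ i ∈ s, red (a i) := by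
  classical
  induction s using Finset.induction_on with
  | empty => simp [red_zero]
  | insert i s hi ih => rw [Finset.sum_insert hi, Finset.sum_insert hi, red_add, ih]

theorem dbl_add (u v : Co F2 K) : dbl (u + v) = dbl u + dbl v := by
  refine hom_ext fun n x => ?_
  simp

theorem dbl_zero : dbl (0 : Co F2 K) = 0 := by
  refine hom_ext fun n x => ?_
  simp

theorem dbl_sum {ι : Type*} (s : Finset ι) (a : ι → Co F2 K) :
    dbl (∑ i ∈ s, a i) = ∑ i ∈ s, dbl (a i) := by
  classical
  induction s using Finset.induction_on with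
  | empty => simp [dbl_zero]
  | insert i s hi ih => rw [Finset.sum_insert hi, Finset.sum_insert hi, dbl_add, ih]

theorem dbl_injective : Function.Injective (dbl (K := K)) := by
  intro u v h
  refine hom_ext fun n x => ?_
  have := LinearMap.congr_fun h (N.sx Z4 x)
  rw [dbl_sx, dbl_sx] at this
  exact dblf_injective this

theorem dbl_add_self (u : Co F2 K) : dbl u + dbl u = 0 := by
  rw [← dbl_add, f2_add_self, dbl_zero]

theorem dbl_neg (u : Co F2 K) : - dbl u = dbl u :=
  neg_eq_of_add_eq_zero_left (dbl_add_self u)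

theorem red_dbl (u : Co F2 K) : red (dbl u) = 0 := by
  refine hom_ext fun n x => ?_
  rw [red_sx, dbl_sx, c42_dblf]; rfl

theorem dbl_hlf {a : Co Z4 K} (h : red a = 0) : dbl (hlf a) = a := by
  refine hom_ext fun n x => ?_
  rw [dbl_sx, hlf_sx]
  refine dblf_half4 ?_
  rw [← red_sx, h]; rfl

theorem red_map (f : SS.Hom K L) (a : Co Z4 L) : red (a ∘ₗ N.map Z4 f) = red a ∘ₗ N.map F2 f := by
  refine hom_ext fun n x => ?_
  simp

theorem dbl_map (f : SS.Hom K L) (a : Co F2 L) : dbl (a ∘ₗ N.map F2 f) = dbl a ∘ₗ N.map Z4 f := by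
  refine hom_ext fun n x => ?_
  simp

theorem red_bd (a : Co Z4 K) : red (a ∘ₗ N.bd Z4 K) = red a ∘ₗ N.bd F2 K := by
  refine hom_ext fun n x => ?_
  rw [← rho_sx, red_eval, LinearMap.comp_apply, LinearMap.comp_apply, ← rho_bd, red_eval]

theorem dbl_bd (a : Co F2 K) : dbl (a ∘ₗ N.bd F2 K) = dbl a ∘ₗ N.bd Z4 K := by
  refine LinearMap.ext fun c => ?_
  rw [dbl_eval, LinearMap.comp_apply, LinearMap.comp_apply, dbl_eval, rho_bd]

theorem red_aug : red (aug Z4 (K := K)) = aug F2 := by
  refine hom_ext fun n x => ?_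
  rcases n with _ | n <;> simp

theorem red_cup (a b : Co Z4 K) : red (cup a b) = cup (red a) (red b) := by
  refine hom_ext fun n x => ?_
  rw [red_sx, cup_sx, cup_sx, map_sum]
  refine Finset.sum_congr rfl fun p _ => ?_
  rw [map_mul, red_sx, red_sx]

theorem cup_dbl_left (u : Co F2 K) (b : Co Z4 K) : cup (dbl u) b = dbl (cup u (red b)) := by
  refine hom_ext fun n x => ?_
  rw [dbl_sx, cup_sx, cup_sx, map_sum]
  refine Finset.sum_congr rfl fun p _ => ?_
  rw [dbl_sx, dblf_mul, red_sx]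

theorem cup_dbl_right (u : Co F2 K) (b : Co Z4 K) : cup b (dbl u) = dbl (cup (red b) u) := by
  refine hom_ext fun n x => ?_
  rw [dbl_sx, cup_sx, cup_sx, map_sum]
  refine Finset.sum_congr rfl fun p _ => ?_
  rw [dbl_sx, mul_dblf, red_sx]

theorem red_crs (a : Co Z4 K) (b : Co Z4 L) : red (crs a b) = crs (red a) (red b) := by
  unfold crs
  rw [red_cup, red_map, red_map]

theorem crs_dbl_left (u : Co F2 K) (b : Co Z4 L) : crs (dbl u) b = dbl (crs u (red b)) := by
  unfold crs
  rw [← dbl_map, cup_dbl_left, red_map]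

theorem crs_dbl_right (a : Co Z4 K) (u : Co F2 L) : crs a (dbl u) = dbl (crs (red a) u) := by
  unfold crs
  rw [← dbl_map, cup_dbl_right, red_map]

theorem IsDeg.red {m : ℕ} {a : Co Z4 K} (ha : IsDeg m a) : IsDeg m (Pont718.red a) :=
  fun n x h => by rw [red_sx, ha n x h, map_zero]

theorem IsDeg.lf {m : ℕ} {a : Co F2 K} (ha : IsDeg m a) : IsDeg m (Pont718.lf a) :=
  fun n x h => by rw [lf_sx, ha n x h, lift4_zero]

theorem IsDeg.dbl {m : ℕ} {a : Co F2 K} (ha : IsDeg m a) : IsDeg m (Pont718.dbl a) :=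
  fun n x h => by rw [dbl_sx, ha n x h, map_zero]

theorem IsDeg.hlf {m : ℕ} {a : Co Z4 K} (ha : IsDeg m a) : IsDeg m (Pont718.hlf a) :=
  fun n x h => by rw [hlf_sx, ha n x h, half4_zero]

/-! ## Pontryagin square -/

/-- a `Z4`-cochain of even degree whose coboundary is `2v` -/
structure PC (K : SS) (m : ℕ) where
  a : Co Z4 K
  v : Co F2 K
  deg : IsDeg m a
  bd : a ∘ₗ N.bd Z4 K = dbl v

namespace PC

variable {m : ℕ}

theorem red_bd (u : PC K m) : red u.a ∘ₗ N.bd F2 K = 0 := by
  rw [← Pont718.red_bd, u.bd, red_dbl]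

theorem v_bd (u : PC K m) : u.v ∘ₗ N.bd F2 K = 0 := by
  refine dbl_injective ?_
  rw [dbl_bd, ← u.bd, dbl_zero]
  refine LinearMap.ext fun c => ?_
  simp only [LinearMap.comp_apply, N.bd_bd, map_zero, LinearMap.zero_apply]

theorem v_deg (u : PC K m) : IsDeg (m + 1) u.v := fun n x h => by
  have h1 := u.deg.bd n x h
  rw [u.bd, dbl_sx] at h1
  exact dblf_injective (by rw [h1, map_zero])

/-- the bilinear form `a ∪ b + 2 (red a ∪₁ v_b)` -/
noncomputable def B (u w : PC K m) : Co Z4 K := cup u.a w.a + dbl (cup1 (red u.a) w.v)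

/-- the Pontryagin square -/
noncomputable def P (u : PC K m) : Co Z4 K := B u u

/-- sum -/
noncomputable def add (u w : PC K m) : PC K m where
  a := u.a + w.a
  v := u.v + w.v
  deg := u.deg.add w.deg
  bd := by rw [LinearMap.add_comp, u.bd, w.bd, dbl_add]

/-- pull back -/
noncomputable def map (f : SS.Hom K L) (u : PC L m) : PC K m where
  a := u.a ∘ₗ N.map Z4 f
  v := u.v ∘ₗ N.map F2 f
  deg := u.deg.map f
  bd := by rw [comp_map_bd, u.bd, dbl_map]

theorem P_map (f : SS.Hom K L) (u : PC L m) : (u.map f).P = u.P ∘ₗ N.map Z4 f := by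
  unfold P B map
  simp only
  rw [LinearMap.add_comp, cup_map, ← dbl_map, cup1_map, red_map]

theorem P_bd (hm : Even m) (u : PC K m) : u.P ∘ₗ N.bd Z4 K = 0 := by
  unfold P B
  rw [LinearMap.add_comp, cup_bd, u.deg.sg_even hm, u.bd, cup_dbl_left, cup_dbl_right, ← dbl_bd,
    cup1_bd, u.red_bd, u.v_bd, cup1_zero_left, cup1_zero_right]
  rw [← dbl_add, ← dbl_add, add_zero, add_zero,
    show cup u.v (red u.a) + cup (red u.a) u.v + (cup (red u.a) u.v + cup u.v (red u.a)) =
      (cup u.v (red u.a) + cup (red u.a) u.v) + (cup u.v (red u.a) + cup (red u.a) u.v) by abel,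
    f2_add_self, dbl_zero]

/-- `P` only depends on the cochain mod 2 (evaluated on cycles) -/
theorem P_add_dbl (u w : PC K m) (c : Co F2 K) (h : w.a = u.a + dbl c) (z : N Z4 K)
    (hz : N.bd Z4 K z = 0) : w.P z = u.P z := by
  have hv : w.v = u.v + c ∘ₗ N.bd F2 K := by
    refine dbl_injective ?_
    rw [← w.bd, h, LinearMap.add_comp, u.bd, ← dbl_bd, dbl_add]
  have hr : red w.a = red u.a := by rw [h, red_add, red_dbl, add_zero]
  have key : w.P = u.P + dbl (cup1 (red u.a) c) ∘ₗ N.bd Z4 K := by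
    unfold P B
    rw [hv, hr, h, cup_add_left, cup_add_right, cup_add_right, cup_dbl_left, cup_dbl_left,
      cup_dbl_right, red_dbl, cup_zero_right, dbl_zero, cup1_add_right, dbl_add, ← dbl_bd,
      cup1_bd, u.red_bd, cup1_zero_left, dbl_add, dbl_add, dbl_add, dbl_zero]
    abel
  rw [key, LinearMap.add_apply, LinearMap.comp_apply, hz, map_zero, add_zero]

/-- adding a coboundary does not change `P` on cycles -/
theorem P_add_bd (hm : Even m) (hm0 : 0 < m) (u w : PC K m) (b : Co Z4 K) (hb : IsDeg (m - 1) b)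
    (h : w.a = u.a + b ∘ₗ N.bd Z4 K) (z : N Z4 K) (hz : N.bd Z4 K z = 0) : w.P z = u.P z := by
  have hbb : (b ∘ₗ N.bd Z4 K) ∘ₗ N.bd Z4 K = 0 := by
    refine LinearMap.ext fun c => ?_
    simp only [LinearMap.comp_apply, N.bd_bd, map_zero, LinearMap.zero_apply]
  have hv : w.v = u.v := by
    refine dbl_injective ?_
    rw [← w.bd, h, LinearMap.add_comp, hbb, add_zero, u.bd]
  have hr : red w.a = red u.a + red b ∘ₗ N.bd F2 K := by rw [h, red_add, Pont718.red_bd]
  have hbs : b ∘ₗ sg Z4 = -b := by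
    have hodd : Odd (m - 1) := Nat.Even.sub_odd hm0 hm odd_one
    rw [hb.sg, hodd.neg_one_pow]
    exact LinearMap.ext fun c => by
      rw [LinearMap.smul_apply, LinearMap.neg_apply, smul_eq_mul, neg_mul, one_mul]
  have e1 := cup_bd u.a b
  rw [u.deg.sg_even hm, u.bd, cup_dbl_left] at e1
  have e2 := cup_bd b u.a
  rw [hbs, u.bd, cup_neg_left, cup_dbl_right, dbl_neg] at e2
  have e3 := cup_bd b (b ∘ₗ N.bd Z4 K)
  rw [hbb, cup_zero_right, add_zero] at e3
  have e4 : dbl (cup1 (red b) u.v) ∘ₗ N.bd Z4 K = dbl (cup (red b) u.v) + dbl (cup u.v (red b)) +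
      dbl (cup1 (red b ∘ₗ N.bd F2 K) u.v) := by
    rw [← dbl_bd, cup1_bd, u.v_bd, cup1_zero_right, dbl_add, dbl_add, dbl_add, dbl_zero, add_zero]
  have key : w.P = u.P + (cup u.a b ∘ₗ N.bd Z4 K + cup b u.a ∘ₗ N.bd Z4 K +
      cup b (b ∘ₗ N.bd Z4 K) ∘ₗ N.bd Z4 K + dbl (cup1 (red b) u.v) ∘ₗ N.bd Z4 K) := by
    rw [e1, e2, e3, e4]
    unfold P B
    rw [hv, hr, h, cup_add_left, cup_add_right, cup_add_right, cup1_add_left, dbl_add]
    have t1 := dbl_add_self (cup (red b) u.v)
    have t2 := dbl_add_self (cup u.v (red b))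
    rw [← sub_eq_zero]
    have : ∀ (x1 x2 x3 x4 x5 x6 y1 y2 : Co Z4 K), y1 + y1 = 0 → y2 + y2 = 0 →
        x1 + x2 + (x3 + x4) + (x5 + x6) -
        (x1 + x5 + (y2 + x2 + (x3 + y1) + x4 + (y1 + y2 + x6))) = 0 := by
      intro x1 x2 x3 x4 x5 x6 y1 y2 h1 h2
      have : x1 + x2 + (x3 + x4) + (x5 + x6) -
        (x1 + x5 + (y2 + x2 + (x3 + y1) + x4 + (y1 + y2 + x6))) = -(y1 + y1) - (y2 + y2) := by abel
      rw [this, h1, h2]; simp
    exact this _ _ _ _ _ _ _ _ t1 t2
  rw [key]
  simp only [LinearMap.add_apply, LinearMap.comp_apply, hz, map_zero, add_zero]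

end PC

end Crest.Agent.R204.Pont718
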