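import Crest.Agent.R204.Psi_755
import Crest.Agent.R204.BrF_170
import Crest.Agent.R204.Bis4_343
import Crest.Agent.R204.EZInst_847
import Crest.Agent.R204.Sigma_88
import Crest.Agent.R204.HtpInv_334

/-!
# Row 204, block B (leaf P3, helper755): the cycles `Psi`

For `X : PFib`, `S : PSus X`, `M : PMul X`:

* `cyc S z`   : the cycle of `Tot (cech π)` attached to a cycle `z` of `G` of positive degree;
* `psi S M l` : the product of the `cyc S z`, `z ∈ l` (list of chains of `G`);
* `D_psi`, `psi_F`, `psi_gr`, `psi_col` (leading chain and its class), `aug_psi`.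
-/

set_option autoImplicit false

namespace Crest.Agent.R204.Psi755

open Crest.Agent.R204 Crest.Agent.R204.Bis343 Crest.Agent.R204.EZ271 Crest.Agent.R204.Bar170
open Finsupp BSS BSS.Tot

/-! ## degrees and filtration of products -/

section gr

variable {E E' : BSS}

/-- bidegree `(m, n)` -/
noncomputable def bi (E : BSS) (m n : ℕ) : Submodule F2 E.Tot := Submodule.span F2 {c | ∃ x : E.S m n, c = bx x}

theorem bx_mem_bi {m n : ℕ} (x : E.S m n) : bx x ∈ bi E m n := Submodule.subset_span ⟨x, rfl⟩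

theorem bi_le {m n : ℕ} {S : Submodule F2 E.Tot} (h : ∀ x : E.S m n, bx x ∈ S) : bi E m n ≤ S := by
  rw [bi, Submodule.span_le]
  rintro _ ⟨x, rfl⟩
  exact h x

theorem bi_le_Fp {m n P : ℕ} (h : m ≤ P) : bi E m n ≤ E.Fp P := bi_le fun x => BSS.bx_mem_Fp x h

theorem bi_le_grT {m n k : ℕ} (h : m + n = k) : bi E m n ≤ E.grT k := bi_le fun x => BSS.bx_mem_grT x h

theorem map_bi (φ : BSS.Hom E E') {m n : ℕ} {x : E.Tot} (hx : x ∈ bi E m n) :
    Tot.map φ x ∈ bi E' m n := by
  have : bi E m n ≤ (bi E' m n).comap (Tot.map φ) := bi_le fun x => by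
    rw [Submodule.mem_comap, map_bx]; exact bx_mem_bi _
  exact this hx

theorem map_Fp (φ : BSS.Hom E E') {P : ℕ} {x : E.Tot} (hx : x ∈ E.Fp P) :
    Tot.map φ x ∈ E'.Fp P := by
  have : E.Fp P ≤ (E'.Fp P).comap (Tot.map φ) := BSS.Fp_le fun p q x hp => by
    rw [Submodule.mem_comap, map_bx]; exact BSS.bx_mem_Fp _ hp
  exact this hx

theorem map_grT (φ : BSS.Hom E E') {n : ℕ} {x : E.Tot} (hx : x ∈ E.grT n) :
    Tot.map φ x ∈ E'.grT n := by
  have : E.grT n ≤ (E'.grT n).comap (Tot.map φ) := BSS.grT_le fun p q x hp => by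
    rw [Submodule.mem_comap, map_bx]; exact BSS.bx_mem_grT _ hp
  exact this hx

theorem box_mem {K L : SS} {m n : ℕ} {a : N F2 K} {b : N F2 L} (ha : a ∈ N.gr F2 K m)
    (hb : b ∈ N.gr F2 L n) : box K L a b ∈ bi (boxP K L) m n := by
  refine Gr334.gr_induction (p := fun a => box K L a b ∈ bi (boxP K L) m n) ha ?_ ?_ ?_ ?_
  · rw [map_zero, LinearMap.zero_apply]; exact Submodule.zero_mem _
  · intro a b ha hb; rw [map_add, LinearMap.add_apply]; exact Submodule.add_mem _ ha hb
  · intro r a ha; rw [map_smul, LinearMap.smul_apply]; exact Submodule.smul_mem _ _ ha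
  · intro x
    refine Gr334.gr_induction (p := fun b => box K L (N.sx F2 x) b ∈ bi (boxP K L) m n) hb ?_ ?_ ?_ ?_
    · rw [map_zero]; exact Submodule.zero_mem _
    · intro a b ha hb; rw [map_add]; exact Submodule.add_mem _ ha hb
    · intro r a ha; rw [map_smul]; exact Submodule.smul_mem _ _ ha
    · intro y
      rw [box_sx]
      exact bx_mem_bi _

theorem xT_bx_mem {p q p' q' : ℕ} (x : E.S p q) (y : E'.S p' q') :
    xT (bx x) (bx y) ∈ bi (E.prod E') (p + p') (q + q') := by
  rw [xT_bx, evP]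
  exact map_bi _ (box_mem (Sigma88.E_mem_gr _ _ _ rfl) (Sigma88.E_mem_gr _ _ _ rfl))

theorem xT_Fp {P P' : ℕ} {a : E.Tot} {b : E'.Tot} (ha : a ∈ E.Fp P) (hb : b ∈ E'.Fp P') :
    xT a b ∈ (E.prod E').Fp (P + P') := by
  have h1 : E.Fp P ≤ ((E.prod E').Fp (P + P')).comap (xT.flip b) := BSS.Fp_le fun p q x hp => by
    have h2 : E'.Fp P' ≤ ((E.prod E').Fp (P + P')).comap (xT (bx x)) := BSS.Fp_le fun p' q' y hp' => by
      rw [Submodule.mem_comap]
      exact bi_le_Fp (by omega) (xT_bx_mem x y)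
    exact h2 hb
  exact h1 ha

theorem xT_grT {n n' : ℕ} {a : E.Tot} {b : E'.Tot} (ha : a ∈ E.grT n) (hb : b ∈ E'.grT n') :
    xT a b ∈ (E.prod E').grT (n + n') := by
  have h1 : E.grT n ≤ ((E.prod E').grT (n + n')).comap (xT.flip b) := BSS.grT_le fun p q x hp => by
    have h2 : E'.grT n' ≤ ((E.prod E').grT (n + n')).comap (xT (bx x)) := BSS.grT_le fun p' q' y hp' => by
      rw [Submodule.mem_comap]
      exact bi_le_grT (by omega) (xT_bx_mem x y)
    exact h2 hb
  exact h1 ha

variable {X : PFib} (M : PMul X)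

theorem mulT_Fp {P P' : ℕ} {a b : (cech X.π).Tot} (ha : a ∈ (cech X.π).Fp P) (hb : b ∈ (cech X.π).Fp P') :
    mulT M a b ∈ (cech X.π).Fp (P + P') := map_Fp _ (xT_Fp ha hb)

theorem mulT_grT {n n' : ℕ} {a b : (cech X.π).Tot} (ha : a ∈ (cech X.π).grT n)
    (hb : b ∈ (cech X.π).grT n') : mulT M a b ∈ (cech X.π).grT (n + n') := map_grT _ (xT_grT ha hb)

end gr

/-! ## the cycle of a cycle of `G` -/

theorem bd_sgN2 {P Y : SS} (e : SS.Hom ((SS.std 1).prod P) Y) (e0 e1 : SS.Hom P Y)
    (h0 : ∀ (n : ℕ) (x : P.S n), e.app n (Sigma88.oS (Sigma88.cst n 0), x) = e0.app n x)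
    (h1 : ∀ (n : ℕ) (x : P.S n), e.app n (Sigma88.oS (Sigma88.cst n 1), x) = e1.app n x) (w : N F2 P) :
    N.bd F2 Y (Sigma88.sgN e w) = N.map F2 e1 w + N.map F2 e0 w + Sigma88.sgN e (N.bd F2 P w) := by
  have hc0 : ∀ (n : ℕ) (θ : Op n 0), θ = Sigma88.c0 n := fun n θ => Sigma88.op_zero_ext _ _
  have f0 : Sigma88.fF e 0 = e1.comp (SS.snd _ P) := by
    refine SS.Hom.ext (funext fun n => funext fun x => ?_)
    obtain ⟨θ, x⟩ := x
    have e1' : (Op.face (0 : Fin 2)).comp θ = Sigma88.cst n 1 := by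
      refine OrderHom.ext _ _ (funext fun a => ?_)
      rw [hc0 n θ]; rfl
    show e.app n (Sigma88.oS ((Op.face (0 : Fin 2)).comp θ), x) = _
    rw [e1', h1]
    rfl
  have f1 : Sigma88.fF e 1 = e0.comp (SS.snd _ P) := by
    refine SS.Hom.ext (funext fun n => funext fun x => ?_)
    obtain ⟨θ, x⟩ := x
    have e1' : (Op.face (1 : Fin 2)).comp θ = Sigma88.cst n 0 := by
      refine OrderHom.ext _ _ (funext fun a => ?_)
      rw [hc0 n θ]; rfl
    show e.app n (Sigma88.oS ((Op.face (1 : Fin 2)).comp θ), x) = _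
    rw [e1', h0]
    rfl
  have hs : N.map F2 (SS.snd (SS.std 0) P) (cross F2 (Sigma88.io F2 0) w) = w := by
    rw [Sigma88.cross_vertex, EZ271.map_map]
    exact EZ271.map_idHom F2 w
  rw [Sigma88.sgN_apply, Sigma88.bd_fam, Fin.sum_univ_two, f0, f1]
  simp only [neg_one_pow_F2, one_smul]
  rw [← EZ271.map_map, ← EZ271.map_map, hs]
  rfl

theorem map_constHom_gr {K L : SS} (v : L.S 0) {n : ℕ} {z : N F2 K} (hz : z ∈ N.gr F2 K (n + 1)) :
    N.map F2 (SS.constHom K L v) z = 0 := by
  refine Gr334.gr_induction (p := fun z => N.map F2 (SS.constHom K L v) z = 0) hz ?_ ?_ ?_ ?_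
  · rw [map_zero]
  · intro a b ha hb; rw [map_add, ha, hb, add_zero]
  · intro r a ha; rw [map_smul, ha, smul_zero]
  · intro x
    rw [N.map_sx]
    exact Gr334.sx_act_of_lt (Nat.succ_pos n) _ v

section cyc

variable {X : PFib} (S : PSus X)

/-- loops as a pair of paths -/
def beta1 : SS.Hom X.G (X.E 1) := pairE (f := X.π) S.inc (cmap X.G X.p0) S.π_inc

/-- the contraction, interval first -/
def hsw : SS.Hom ((SS.std 1).prod X.G) X.P := S.hs.h.comp (SS.swap _ _)

theorem hsw_zero (n : ℕ) (x : X.G.S n) :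
    (hsw S).app n (Sigma88.oS (Sigma88.cst n 0), x) = (cmap X.G X.p0).app n x := S.hs.zero n x

theorem hsw_one (n : ℕ) (x : X.G.S n) :
    (hsw S).app n (Sigma88.oS (Sigma88.cst n 1), x) = S.inc.app n x := S.hs.one n x

/-- the contraction in the base: `Δ¹ × G → K` -/
def susE : SS.Hom ((SS.std 1).prod X.G) X.K := X.π.comp (hsw S)

theorem susE_ends : Sigma88.Ends (susE S) (X.π.app 0 X.p0) where
  zero n x := (congrArg (X.π.app n) (hsw_zero S n x)).trans (X.π.nat _ _)
  one n x := (congrArg (X.π.app n) (hsw_one S n x)).trans ((S.π_inc n x).trans (X.π.nat _ _))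

/-- **the suspension** `H_*(G) → H_{*+1}(K)` -/
noncomputable def sus : H F2 X.G →ₗ[F2] H F2 X.K := Sigma88.sgH (susE_ends S)

/-- the cycle attached to a cycle of `G` -/
noncomputable def cyc : N F2 X.G →ₗ[F2] (cech X.π).Tot :=
  ofCol (cech X.π) 1 ∘ₗ N.map F2 (beta1 S) +
    ofCol (cech X.π) 0 ∘ₗ N.map F2 (toE0 X.π) ∘ₗ Sigma88.sgN (hsw S)

theorem cyc_apply (z : N F2 X.G) : cyc S z = ofCol (cech X.π) 1 (N.map F2 (beta1 S) z) +
    ofCol (cech X.π) 0 (N.map F2 (toE0 X.π) (Sigma88.sgN (hsw S) z)) := rfl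

theorem face0_beta1 : ((cech X.π).colMap (Op.face (0 : Fin 2))).comp (beta1 S) =
    (toE0 X.π).comp (cmap X.G X.p0) := by
  refine SS.Hom.ext (funext fun q => funext fun x => ?_)
  refine E_ext fun i => ?_
  obtain rfl : i = 0 := Fin.ext (by omega)
  rfl

theorem face1_beta1 : ((cech X.π).colMap (Op.face (1 : Fin 2))).comp (beta1 S) =
    (toE0 X.π).comp S.inc := by
  refine SS.Hom.ext (funext fun q => funext fun x => ?_)
  refine E_ext fun i => ?_
  obtain rfl : i = 0 := Fin.ext (by omega)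
  rfl

theorem D_cyc {n : ℕ} {z : N F2 X.G} (hz : z ∈ N.gr F2 X.G (n + 1)) (hb : N.bd F2 X.G z = 0) :
    D _ (cyc S z) = 0 := by
  have h1 : D _ (ofCol (cech X.π) 1 (N.map F2 (beta1 S) z)) =
      ofCol (cech X.π) 0 (N.map F2 (toE0 X.π) (N.map F2 S.inc z)) := by
    have e0 : N.map F2 ((cech X.π).colMap (Op.face (0 : Fin 2))) (N.map F2 (beta1 S) z) = 0 := by
      rw [EZ271.map_map, face0_beta1, ← EZ271.map_map, map_constHom_gr _ hz, map_zero]
    have e1 : N.map F2 ((cech X.π).colMap (Op.face (1 : Fin 2))) (N.map F2 (beta1 S) z) =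
        N.map F2 (toE0 X.π) (N.map F2 S.inc z) := by
      rw [EZ271.map_map, face1_beta1, ← EZ271.map_map]
    rw [D_apply, dV_ofCol, ← EZ271.map_bd', hb, map_zero, map_zero, add_zero]
    refine (dH_ofCol_succ 0 _).trans ?_
    refine (Fin.sum_univ_two _).trans ?_
    rw [e0, e1, map_zero, zero_add]
  have h2 : D _ (ofCol (cech X.π) 0 (N.map F2 (toE0 X.π) (Sigma88.sgN (hsw S) z))) =
      ofCol (cech X.π) 0 (N.map F2 (toE0 X.π) (N.map F2 S.inc z)) := by
    rw [D_apply, dV_ofCol, dH_ofCol_zero, zero_add, ← EZ271.map_bd',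
      bd_sgN2 (hsw S) (cmap X.G X.p0) S.inc (hsw_zero S) (hsw_one S), hb, map_zero, add_zero,
      map_constHom_gr _ hz, add_zero]
  rw [cyc_apply, map_add, h1, h2]
  exact f2_add_self _

theorem cyc_F (z : N F2 X.G) : cyc S z ∈ (cech X.π).Fp 1 :=
  Submodule.add_mem _ (BSS.ofCol_mem_Fp 1 _) (BSS.Fp_mono (Nat.zero_le 1) (BSS.ofCol_mem_Fp 0 _))

theorem cyc_gr {n : ℕ} {z : N F2 X.G} (hz : z ∈ N.gr F2 X.G n) : cyc S z ∈ (cech X.π).grT (n + 1) := by
  rw [cyc_apply]
  refine Submodule.add_mem _ ?_ ?_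
  · have := BSS.ofCol_mem_grT (E := cech X.π) (p := 1) (Gr334.map_mem_gr (beta1 S) hz)
    rwa [add_comm] at this
  · have := BSS.ofCol_mem_grT (E := cech X.π) (p := 0)
      (Gr334.map_mem_gr (toE0 X.π) (Sigma88.sgN_mem_gr (hsw S) hz))
    rwa [zero_add] at this

theorem cyc_sub (z : N F2 X.G) :
    cyc S z - ofCol (cech X.π) 1 (N.map F2 (beta1 S) z) ∈ (cech X.π).Fp 0 := by
  rw [cyc_apply, add_sub_cancel_left]
  exact BSS.ofCol_mem_Fp 0 _

theorem aug_cyc (z : N F2 X.G) : Cech.aug X.π (cyc S z) = Sigma88.sgN (susE S) z := by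
  rw [cyc_apply, map_add, aug_ofCol_succ, zero_add, aug_ofCol_zero, EZ271.map_map, susE,
    Sigma88.sgN_post]
  rfl

end cyc

/-! ## products of the cycles -/

section psi

variable {X : PFib} (S : PSus X) (M : PMul X) {ι : Type} (zr : ι → N F2 X.G)

/-- the unit of the product -/
noncomputable def psi0 (X : PFib) : (cech X.π).Tot :=
  ofCol (cech X.π) 0 (N.map F2 (toE0 X.π) (N.sx F2 X.p0))

/-- iterated product of the cycles of the `zr i` -/
noncomputable def psi : List ι → (cech X.π).Tot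
  | [] => psi0 X
  | i :: l => mulT M (cyc S (zr i)) (psi l)

theorem bd_vertex {K : SS} (v : K.S 0) : N.bd F2 K (N.sx F2 v) = 0 := Gr334.bd_sx_zero v

theorem D_psi0 : D _ (psi0 X) = 0 := by
  rw [psi0, D_apply, dH_ofCol_zero, dV_ofCol, ← EZ271.map_bd', bd_vertex, map_zero, map_zero, add_zero]

theorem psi0_F : psi0 X ∈ (cech X.π).Fp 0 := BSS.ofCol_mem_Fp 0 _

theorem psi0_gr : psi0 X ∈ (cech X.π).grT 0 :=
  BSS.ofCol_mem_grT (E := cech X.π) (p := 0) (q := 0) (Gr334.map_mem_gr _ (Gr334.sx_mem_gr _))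

variable {deg : ι → ℕ}

theorem D_psi (hpos : ∀ i, 1 ≤ deg i) (hz : ∀ i, zr i ∈ N.gr F2 X.G (deg i))
    (hb : ∀ i, N.bd F2 X.G (zr i) = 0) (l : List ι) : D _ (psi S M zr l) = 0 := by
  induction l with
  | nil => exact D_psi0
  | cons i l ih =>
    have h : zr i ∈ N.gr F2 X.G ((deg i - 1) + 1) := by
      rw [Nat.sub_add_cancel (hpos i)]; exact hz i
    show D _ (mulT M (cyc S (zr i)) (psi S M zr l)) = 0
    rw [D_mulT, ih, D_cyc S h (hb i), map_zero, map_zero, LinearMap.zero_apply, add_zero]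

theorem psi_F (l : List ι) : psi S M zr l ∈ (cech X.π).Fp l.length := by
  induction l with
  | nil => exact psi0_F
  | cons i l ih =>
    have := mulT_Fp M (cyc_F S (zr i)) ih
    rw [add_comm] at this
    exact this

theorem psi_gr (hz : ∀ i, zr i ∈ N.gr F2 X.G (deg i)) (l : List ι) :
    psi S M zr l ∈ (cech X.π).grT ((l.map fun i => deg i + 1).sum) := by
  induction l with
  | nil => exact psi0_gr
  | cons i l ih =>
    rw [List.map_cons, List.sum_cons]
    exact mulT_grT M (cyc_gr S (hz i)) ih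

/-- the leading chain -/
noncomputable def cl : ∀ p : ℕ, List ι → N F2 (X.E p)
  | 0, [] => N.map F2 (toE0 X.π) (N.sx F2 X.p0)
  | 0, _ :: _ => 0
  | _ + 1, [] => 0
  | p + 1, i :: l => ∑ j : Fin (p + 1), insE M p j j.2 (N.map F2 (beta1 S) (zr i)) (cl p l)

theorem cl_nil : cl S M zr 0 [] = N.map F2 (toE0 X.π) (N.sx F2 X.p0) := rfl

theorem cl_cons (p : ℕ) (i : ι) (l : List ι) : cl S M zr (p + 1) (i :: l) =
    ∑ j : Fin (p + 1), insE M p j j.2 (N.map F2 (beta1 S) (zr i)) (cl S M zr p l) := rfl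

theorem bd_cl (hb : ∀ i, N.bd F2 X.G (zr i) = 0) : ∀ (p : ℕ) (l : List ι),
    N.bd F2 _ (cl S M zr p l) = 0
  | 0, [] => by rw [cl_nil, ← EZ271.map_bd', bd_vertex, map_zero]
  | 0, _ :: _ => map_zero _
  | _ + 1, [] => map_zero _
  | p + 1, i :: l => by
    rw [cl_cons, map_sum]
    refine Finset.sum_eq_zero fun j _ => ?_
    rw [bd_insE, bd_cl hb p l, ← EZ271.map_bd', hb i, map_zero, map_zero, map_zero,
      LinearMap.zero_apply, add_zero]

/-- the leading term of `psi` -/
theorem psi_sub : ∀ (p : ℕ) (l : List ι), l.length = p →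
    psi S M zr l - ofCol (cech X.π) p (cl S M zr p l) ∈ (BSS.FCof (cech X.π)).F' p
  | 0, [], _ => by
    show psi0 X - psi0 X ∈ _
    rw [sub_self]; exact Submodule.zero_mem _
  | 0, _ :: _, h => absurd h (by simp)
  | _ + 1, [], h => absurd h (by simp)
  | p + 1, i :: l, h => by
    have hl : l.length = p := by simpa using h
    have ih := psi_sub p l hl
    show mulT M (cyc S (zr i)) (psi S M zr l) - _ ∈ (cech X.π).Fp p
    have e1 : psi S M zr l = (psi S M zr l - ofCol (cech X.π) p (cl S M zr p l)) +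
        ofCol (cech X.π) p (cl S M zr p l) := by abel
    have e2 : mulT M (cyc S (zr i)) (psi S M zr l) =
        ofCol (cech X.π) (p + 1) (cl S M zr (p + 1) (i :: l)) +
          (mulT M (ofCol (cech X.π) 1 (N.map F2 (beta1 S) (zr i)))
            (psi S M zr l - ofCol (cech X.π) p (cl S M zr p l)) +
          mulT M (ofCol (cech X.π) 0 (N.map F2 (toE0 X.π) (Sigma88.sgN (hsw S) (zr i))))
            (psi S M zr l)) := by
      rw [cyc_apply, map_add, LinearMap.add_apply, ← add_assoc]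
      congr 1
      conv_lhs => rw [e1]
      rw [map_add, mulT_col, ← map_sum, ← cl_cons, add_comm]
    rw [e2, add_sub_cancel_left]
    refine Submodule.add_mem _ ?_ ?_
    · rcases p with _ | p
      · have : psi S M zr l - ofCol (cech X.π) 0 (cl S M zr 0 l) = 0 := ih
        rw [this, map_zero]; exact Submodule.zero_mem _
      · have ih' : psi S M zr l - ofCol (cech X.π) (p + 1) (cl S M zr (p + 1) l) ∈
          (cech X.π).Fp p := ih
        have := mulT_Fp M (BSS.ofCol_mem_Fp (E := cech X.π) 1 (N.map F2 (beta1 S) (zr i))) ih'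
        rwa [add_comm] at this
    · have := mulT_Fp M (BSS.ofCol_mem_Fp (E := cech X.π) 0
        (N.map F2 (toE0 X.π) (Sigma88.sgN (hsw S) (zr i)))) (psi_F S M zr l)
      rwa [hl, zero_add] at this

end psi

/-! ## homology classes of the leading chains -/

section cls

open EZ847 TensorProduct

variable {X : PFib} (S : PSus X) (M : PMul X) {ι : Type} (zr : ι → N F2 X.G)

/-- `[v]`: the class of the loops as pairs of paths -/
theorem beta1_br (x : H F2 X.G) : H.map F2 (beta1 S) x = X.br ezd 1 (fun _ => x) := by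
  have h1 : X.br ezd 1 (fun _ => x) =
      H.map F2 (pairE (f := X.π) (X.cat.comp (SS.pair (SS.Hom.id X.G) (cmap X.G X.p0)))
        (cmap X.G X.p0) (fun q y => X.π_cat q _ _)) x := by
    rw [X.br_succ, X.br_zero]
    have e1 : ezd.cr X.G (X.E 0) (x ⊗ₜ H.map F2 (toE0 X.π) (Coalg847.vtx X.p0)) =
        H.map F2 (SS.prodMap (SS.Hom.id X.G) (toE0 X.π))
          (H.map F2 (SS.pair (SS.Hom.id X.G) (SS.constHom X.G X.P X.p0)) x) := by
      rw [← ezd.cr_vtx_right, ezd.cr_nat, Coalg847.hMap_id]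
    rw [e1, Bar170.map_comp', Bar170.map_comp']
    rfl
  rw [h1]
  have h := consHtpy ((toE0 X.π).comp (cmap X.G X.p0)) S.h5
    (fun q y => S.π_inc q y) (fun q y => X.π_cat q _ _)
  have := map_eq_of_htpy HtpInv334.homotopyInv h
  exact LinearMap.congr_fun this x

theorem step_eq (p : ℕ) (j : Fin (p + 1)) : Op.step (p + 1) (j : ℕ) = Bar170.step p j := rfl

theorem mE_eq (p : ℕ) : mE M p = M.ME p := rfl

/-- one shuffle on homology -/
noncomputable def insC (p : ℕ) (j : Fin (p + 1)) (v : H F2 X.G) (x : H F2 (X.E p)) :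
    H F2 (X.E (p + 1)) :=
  M.mE ezd (p + 1) (H.map F2 ((cech X.π).colMap (Bar170.step p j)) (X.br ezd 1 fun _ => v)) (X.dg p j x)

theorem insC_br (p : ℕ) (j : Fin (p + 1)) (v : H F2 X.G) (a : Fin p → H F2 X.G) :
    insC M p j v (X.br ezd p a) =
      X.br ezd (p + 1) (Fin.insertNth (α := fun _ => H F2 X.G) j v a) :=
  M.shuffle_br HtpInv334.homotopyInv ezd p j v a

theorem insC_add (p : ℕ) (j : Fin (p + 1)) (v : H F2 X.G) (x y : H F2 (X.E p)) :
    insC M p j v (x + y) = insC M p j v x + insC M p j v y := by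
  simp only [insC, PMul.mE, map_add, TensorProduct.tmul_add]

theorem insC_zero (p : ℕ) (j : Fin (p + 1)) (v : H F2 X.G) :
    insC M p j v (0 : H F2 (X.E p)) = 0 := by
  simp only [insC, PMul.mE, map_zero, TensorProduct.tmul_zero]

theorem mk_insE (p : ℕ) (j : Fin (p + 1)) (z : N F2 X.G) (hz : N.bd F2 X.G z = 0) (c : N F2 (X.E p))
    (hc : N.bd F2 (X.E p) c = 0) (h : N.bd F2 _ (insE M p j j.2 (N.map F2 (beta1 S) z) c) = 0) :
    Hd.mk (N.bd F2 (X.E (p + 1))) (insE M p j j.2 (N.map F2 (beta1 S) z) c) h =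
      insC M p j (Hd.mk (N.bd F2 X.G) z hz) (Hd.mk (N.bd F2 (X.E p)) c hc) := by
  rw [insC, ← beta1_br S, PMul.mE, PFib.dg, Coalg847.hMap_mk, Coalg847.hMap_mk, Coalg847.hMap_mk,
    Coalg847.EZData.cr_mk, Coalg847.hMap_mk]
  rfl

variable {deg : ι → ℕ} (hb : ∀ i, N.bd F2 X.G (zr i) = 0)

/-- class of the leading chain -/
noncomputable def cls (p : ℕ) (l : List ι) : H F2 (X.E p) :=
  Hd.mk (N.bd F2 (X.E p)) (cl S M zr p l) (bd_cl S M zr hb p l)

/-- class of `zr i` -/
noncomputable def vc (i : ι) : H F2 X.G := Hd.mk (N.bd F2 X.G) (zr i) (hb i)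

theorem cls_nil (a : Fin 0 → H F2 X.G) : cls S M zr hb 0 [] = X.br ezd 0 a := rfl

theorem cls_cons (p : ℕ) (i : ι) (l : List ι) : cls S M zr hb (p + 1) (i :: l) =
    ∑ j : Fin (p + 1), insC M p j (vc zr hb i) (cls S M zr hb p l) := by
  have h1 : ∀ j : Fin (p + 1), N.bd F2 (X.E (p + 1))
      (insE M p j j.2 (N.map F2 (beta1 S) (zr i)) (cl S M zr p l)) = 0 := fun j => by
    rw [bd_insE, bd_cl S M zr hb p l, ← EZ271.map_bd', hb i, map_zero, map_zero, map_zero,
      LinearMap.zero_apply, add_zero]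
  have h2 : N.bd F2 (X.E (p + 1)) (∑ j : Fin (p + 1),
      insE M p j j.2 (N.map F2 (beta1 S) (zr i)) (cl S M zr p l)) = 0 := by
    rw [map_sum]; exact Finset.sum_eq_zero fun j _ => h1 j
  have h3 : cls S M zr hb (p + 1) (i :: l) = Hd.mk (N.bd F2 (X.E (p + 1))) (∑ j : Fin (p + 1),
      insE M p j j.2 (N.map F2 (beta1 S) (zr i)) (cl S M zr p l)) h2 := rfl
  rw [h3, Gr334.mk_sum Finset.univ _ h1 h2]
  exact Finset.sum_congr rfl fun j _ => mk_insE S M p j (zr i) (hb i) _ (bd_cl S M zr hb p l) (h1 j)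

/-- **the leading term of `psi`** -/
theorem lead_psi (p : ℕ) (l : List ι) (hl : l.length = p + 1)
    (h : psi S M zr l ∈ (BSS.FCof (cech X.π)).Z (p + 1)) :
    BSS.lead (cech X.π) (p + 1) ⟨psi S M zr l, h⟩ =
      Submodule.Quotient.mk (cls S M zr hb (p + 1) l) :=
  BSS.lead_eq_of_sub _ _ _ (psi_sub S M zr (p + 1) l hl)

/-! ## words -/

/-- brackets of lists -/
noncomputable def brL (X : PFib) : ∀ p : ℕ, List (H F2 X.G) → H F2 (X.E p)
  | 0, [] => X.br ezd 0 Fin.elim0
  | 0, _ :: _ => 0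
  | _ + 1, [] => 0
  | p + 1, a :: w => H.map F2 (X.alpha p) (ezd.cr X.G (X.E p) (a ⊗ₜ brL X p w))

theorem brL_eq : ∀ (p : ℕ) (w : List (H F2 X.G)) (h : w.length = p),
    brL X p w = X.br ezd p (fun i => w.get (i.cast h.symm))
  | 0, [], _ => by
    show X.br ezd 0 Fin.elim0 = _
    congr 1
    exact funext fun i => i.elim0
  | 0, _ :: _, h => absurd h (by simp)
  | _ + 1, [], h => absurd h (by simp)
  | p + 1, a :: w, h => by
    show H.map F2 (X.alpha p) (ezd.cr X.G (X.E p) (a ⊗ₜ brL X p w)) = _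
    rw [brL_eq p w (by simpa using h), X.br_succ]
    rfl

theorem insC_brL (p : ℕ) (j : Fin (p + 1)) (v : H F2 X.G) (w : List (H F2 X.G)) (h : w.length = p) :
    insC M p j v (brL X p w) = brL X (p + 1) (w.insertIdx j v) := by
  have h' : (w.insertIdx j v).length = p + 1 := by
    rw [List.length_insertIdx_of_le_length (by rw [h]; omega), h]
  rw [brL_eq p w h, insC_br, brL_eq (p + 1) _ h']
  congr 1
  funext i
  refine Fin.succAboveCases j ?_ (fun k => ?_) i
  · rw [Fin.insertNth_apply_same]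
    simp
  · rw [Fin.insertNth_apply_succAbove]
    simp only [List.get_eq_getElem, Fin.val_cast]
    by_cases hk : k.castSucc < j
    · have hk' : (k : ℕ) < j := hk
      have e : ((j.succAbove k : Fin (p + 1)) : ℕ) = k := by
        rw [Fin.succAbove_of_castSucc_lt _ _ hk]; rfl
      simp only [e]
      rw [List.getElem_insertIdx_of_lt hk']
    · have hk' : (j : ℕ) ≤ k := not_lt.1 hk
      have e : ((j.succAbove k : Fin (p + 1)) : ℕ) = k + 1 := by
        rw [Fin.succAbove_of_le_castSucc _ _ (not_lt.1 hk)]; rfl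
      simp only [e]
      rw [List.getElem_insertIdx_of_gt (by omega)]
      simp

/-- **class of the leading chain**: the sum of the brackets over all orderings -/
theorem cls_eq : ∀ (p : ℕ) (l : List ι), l.length = p →
    cls S M zr hb p l = (l.permutations'.map fun w => brL X p (w.map (vc zr hb))).sum
  | 0, [], _ => by
    simp only [List.permutations', List.map_cons, List.map_nil, List.sum_cons, List.sum_nil, add_zero]
    rfl
  | 0, _ :: _, h => absurd h (by simp)
  | _ + 1, [], h => absurd h (by simp)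
  | p + 1, i :: l, h => by
    have hl : l.length = p := by simpa using h
    rw [cls_cons, cls_eq p l hl, List.permutations', List.map_flatMap]
    have h1 : ∀ (L : List (List ι)), (∀ w ∈ L, w.length = p) → ∀ j : Fin (p + 1),
        insC M p j (vc zr hb i) (L.map fun w => brL X p (w.map (vc zr hb))).sum =
          (L.map fun w => brL X (p + 1) ((w.insertIdx j i).map (vc zr hb))).sum := by
      intro L hL j
      induction L with
      | nil => simp only [List.map_nil, List.sum_nil, insC_zero]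
      | cons w L ih =>
        rw [List.map_cons, List.sum_cons, insC_add, ih (fun w hw => hL w (List.mem_cons_of_mem _ hw)),
          List.map_cons, List.sum_cons, insC_brL M p j _ _ (by
            rw [List.length_map]; exact hL w List.mem_cons_self)]
        congr 2
        rw [List.map_insertIdx]
    have h2 : ∀ w : List ι, w.length = p →
        ∑ j : Fin (p + 1), brL X (p + 1) ((w.insertIdx j i).map (vc zr hb)) =
          ((List.permutations'Aux i w).map fun u => brL X (p + 1) (u.map (vc zr hb))).sum := by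
      intro w hw
      have e : List.permutations'Aux i w = List.ofFn (fun j : Fin (p + 1) => w.insertIdx j i) := by
        refine List.ext_getElem (by simp [hw]) fun n h1 h2 => ?_
        rw [List.getElem_permutations'Aux, List.getElem_ofFn]
      rw [e, List.map_ofFn, List.sum_ofFn]
      rfl
    have hperm : ∀ w ∈ l.permutations', w.length = p := fun w hw => by
      rw [List.mem_permutations'] at hw
      rw [hw.length_eq, hl]
    rw [Finset.sum_congr rfl fun j _ => h1 _ hperm j]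
    generalize l.permutations' = L at hperm
    induction L with
    | nil => simp
    | cons w L ih =>
      simp only [List.map_cons, List.sum_cons, List.flatMap_cons, List.sum_append]
      rw [Finset.sum_add_distrib, ih (fun w hw => hperm w (List.mem_cons_of_mem _ hw)),
        h2 w (hperm w List.mem_cons_self)]

/-! ## augmentation -/

/-- the product of `H(K)` -/
noncomputable def mulK (a b : H F2 X.K) : H F2 X.K := H.map F2 M.MK (ezd.cr X.K X.K (a ⊗ₜ b))

theorem bd_aug {x : (cech X.π).Tot} (h : D _ x = 0) : N.bd F2 X.K (Cech.aug X.π x) = 0 := by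
  rw [← Cech.aug_D, h, map_zero]

theorem aug_psi0 : Cech.aug X.π (psi0 X) = N.sx F2 (X.π.app 0 X.p0) := by
  rw [psi0, aug_ofCol_zero, EZ271.map_map, N.map_sx]
  rfl

theorem aug_psi_cons (i : ι) (l : List ι) : Cech.aug X.π (psi S M zr (i :: l)) =
    N.map F2 M.MK (cross F2 (Sigma88.sgN (susE S) (zr i)) (Cech.aug X.π (psi S M zr l))) := by
  show Cech.aug X.π (mulT M (cyc S (zr i)) (psi S M zr l)) = _
  rw [aug_mulT, aug_cyc]

include hb in
theorem bd_sg (i : ι) : N.bd F2 X.K (Sigma88.sgN (susE S) (zr i)) = 0 := by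
  rw [Sigma88.bd_sgN (susE_ends S), hb i, map_zero, neg_zero]

include hb in
theorem bd_aug_psi (l : List ι) : N.bd F2 X.K (Cech.aug X.π (psi S M zr l)) = 0 := by
  induction l with
  | nil => exact (congrArg _ aug_psi0).trans (bd_vertex _)
  | cons i l ih =>
    rw [aug_psi_cons, ← EZ271.map_bd', bd_cross, EZ847.sg_F2, bd_sg S zr hb, ih, map_zero, map_zero,
      LinearMap.zero_apply, add_zero, map_zero]

/-- the product of the suspensions -/
noncomputable def sigL : List (H F2 X.G) → H F2 X.K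
  | [] => Coalg847.vtx (X.π.app 0 X.p0)
  | v :: l => mulK M (sus S v) (sigL l)

/-- **the class of the augmentation of `psi`** -/
theorem aug_psi : ∀ (l : List ι) (h : N.bd F2 X.K (Cech.aug X.π (psi S M zr l)) = 0),
    Hd.mk (N.bd F2 X.K) (Cech.aug X.π (psi S M zr l)) h = sigL S M (l.map (vc zr hb))
  | [], h => BSS.Hd_mk_congr aug_psi0 h _
  | i :: l, h => by
    have hl := bd_aug_psi S M zr hb l
    have e2 : sigL S M ((i :: l).map (vc zr hb)) =
        mulK M (sus S (vc zr hb i)) (sigL S M (l.map (vc zr hb))) := rfl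
    rw [e2, ← aug_psi l hl, mulK, sus, vc, Sigma88.sgH_mk, Coalg847.EZData.cr_mk, Coalg847.hMap_mk]
    exact BSS.Hd_mk_congr (aug_psi_cons S M zr i l) h _

end cls

end Crest.Agent.R204.Psi755
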