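import Crest.Agent.R204.KDefs_357

/-!
# Adams operations on `K0 A` (row 204, block H, leaf H1), part A

Isotypical projectors of matrix representations of `ZMod p`, tensor powers of matrices.
-/

open Matrix
open scoped Kronecker BigOperators

namespace Crest.Agent.R204.K357

universe u v w

noncomputable section

/-! ### characters -/

section chi

variable (p : ℕ) [Fact p.Prime] (A : Type u) [CommRing A] [Algebra ℂ A]

/-- the standard character of `ZMod p` with values in `A` -/
def chi (a : ZMod p) : A := algebraMap ℂ A (ZMod.stdAddChar a)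

/-- `1/p` -/
def ip : A := algebraMap ℂ A ((p : ℂ)⁻¹)

variable {p A}

@[simp] theorem chi_zero : chi p A 0 = 1 := by simp [chi]

theorem chi_add (a b : ZMod p) : chi p A (a + b) = chi p A a * chi p A b := by
  simp [chi, AddChar.map_add_eq_mul]

theorem chi_mul_neg (a : ZMod p) : chi p A a * chi p A (-a) = 1 := by
  rw [← chi_add, add_neg_cancel, chi_zero]

theorem ip_mul : ip p A * (p : A) = 1 := by
  have hp : (p : ℂ) ≠ 0 := by exact_mod_cast (Fact.out : p.Prime).ne_zero
  have : (p : A) = algebraMap ℂ A (p : ℂ) := by simp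
  rw [ip, this, ← map_mul, inv_mul_cancel₀ hp, map_one]

theorem sum_chi (k : ZMod p) : ∑ j : ZMod p, chi p A (j * k) = if k = 0 then (p : A) else 0 := by
  have := AddChar.sum_mulShift k (ZMod.isPrimitive_stdAddChar p)
  unfold chi
  rw [← map_sum, this]
  split_ifs <;> simp

theorem sum_chi' (k : ZMod p) : ∑ j : ZMod p, chi p A (k * j) = if k = 0 then (p : A) else 0 := by
  rw [← sum_chi]
  exact Finset.sum_congr rfl fun j _ => by rw [mul_comm]

end chi

/-! ### matrix representations of `ZMod p` -/

section rep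

open Classical in
/-- a matrix representation of `ZMod p` -/
structure MRep (p : ℕ) (X : Type*) [Fintype X] (A : Type*) [CommRing A] where
  /-- the matrices -/
  ρ : ZMod p → Matrix X X A
  zero' : ρ 0 = 1
  add' : ∀ a b, ρ (a + b) = ρ a * ρ b

variable {p : ℕ} [Fact p.Prime] {A : Type u} [CommRing A] [Algebra ℂ A]
variable {X Y Z : Type*} [Fintype X] [Fintype Y] [Fintype Z]

namespace MRep

/-- the isotypical projector -/
def proj (R : MRep p X A) (j : ZMod p) : Matrix X X A :=
  ∑ a, (ip p A * chi p A (-(j * a))) • R.ρ a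

theorem proj_mul_rho (R : MRep p X A) (j b : ZMod p) :
    R.proj j * R.ρ b = chi p A (j * b) • R.proj j := by
  unfold proj
  rw [Finset.sum_mul, Finset.smul_sum]
  rw [← Equiv.sum_comp (Equiv.addRight b) (fun a => chi p A (j * b) •
    (ip p A * chi p A (-(j * a))) • R.ρ a)]
  refine Finset.sum_congr rfl fun a _ => ?_
  rw [Equiv.coe_addRight, smul_mul_assoc, ← R.add', smul_smul]
  congr 1
  have : -(j * a) = j * b + -(j * (a + b)) := by ring
  rw [this, chi_add]
  ring

theorem rho_mul_proj (R : MRep p X A) (j b : ZMod p) :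
    R.ρ b * R.proj j = chi p A (j * b) • R.proj j := by
  unfold proj
  rw [Finset.mul_sum, Finset.smul_sum]
  rw [← Equiv.sum_comp (Equiv.addRight b) (fun a => chi p A (j * b) •
    (ip p A * chi p A (-(j * a))) • R.ρ a)]
  refine Finset.sum_congr rfl fun a _ => ?_
  rw [Equiv.coe_addRight, mul_smul_comm, ← R.add', smul_smul, add_comm b a]
  congr 1
  have : -(j * a) = j * b + -(j * (a + b)) := by ring
  rw [this, chi_add]
  ring

omit [Fintype Y] in
/-- `proj` multiplied by a common eigenmatrix -/
theorem mul_proj_of_eigen (R : MRep p X A) (M : Matrix Y X A) (i : ZMod p)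
    (hM : ∀ a, M * R.ρ a = chi p A (i * a) • M) (j : ZMod p) :
    M * R.proj j = if i = j then M else 0 := by
  unfold proj
  rw [Matrix.mul_sum]
  have h1 : ∀ a, M * ((ip p A * chi p A (-(j * a))) • R.ρ a) =
      (ip p A * chi p A ((i - j) * a)) • M := by
    intro a
    rw [Matrix.mul_smul, hM, smul_smul]
    congr 1
    have : (i - j) * a = -(j * a) + i * a := by ring
    rw [this, chi_add]
    ring
  rw [Finset.sum_congr rfl fun a _ => h1 a, ← Finset.sum_smul, ← Finset.mul_sum, sum_chi']
  by_cases h : i = j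
  · simp [h, ip_mul]
  · simp [h, sub_eq_zero]

theorem proj_mul_proj (R : MRep p X A) (i j : ZMod p) :
    R.proj i * R.proj j = if i = j then R.proj i else 0 :=
  R.mul_proj_of_eigen _ i (fun a => R.proj_mul_rho i a) j

theorem proj_idem (R : MRep p X A) (j : ZMod p) : R.proj j * R.proj j = R.proj j := by
  rw [proj_mul_proj, if_pos rfl]

theorem proj_orth (R : MRep p X A) {i j : ZMod p} (h : i ≠ j) : R.proj i * R.proj j = 0 := by
  rw [proj_mul_proj, if_neg h]

open Classical in
theorem sum_proj (R : MRep p X A) : ∑ j, R.proj j = 1 := by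
  unfold proj
  rw [Finset.sum_comm]
  have h1 : ∀ a, ∑ j : ZMod p, (ip p A * chi p A (-(j * a))) • R.ρ a =
      if a = 0 then (1 : Matrix X X A) else 0 := by
    intro a
    rw [← Finset.sum_smul, ← Finset.mul_sum]
    have : ∀ j : ZMod p, chi p A (-(j * a)) = chi p A (j * (-a)) := fun j => by
      rw [mul_neg]
    rw [Finset.sum_congr rfl fun j _ => this j, sum_chi]
    by_cases h : a = 0
    · simp [h, ip_mul, R.zero']
    · simp [h]
  rw [Finset.sum_congr rfl fun a _ => h1 a]
  simp

/-- intertwiners, twisted by a character -/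
theorem proj_mul_of_twist (R : MRep p X A) (R' : MRep p Y A) (M : Matrix X Y A) (c : ZMod p)
    (h : ∀ a, R.ρ a * M = chi p A (c * a) • (M * R'.ρ a)) (j : ZMod p) :
    R.proj j * M = M * R'.proj (j - c) := by
  unfold proj
  rw [Matrix.mul_sum, Matrix.sum_mul]
  refine Finset.sum_congr rfl fun a _ => ?_
  rw [Matrix.smul_mul, h, Matrix.mul_smul, smul_smul]
  congr 1
  have : -((j - c) * a) = -(j * a) + c * a := by ring
  rw [this, chi_add]
  ring

theorem proj_mul_of_comm (R : MRep p X A) (R' : MRep p Y A) (M : Matrix X Y A)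
    (h : ∀ a, R.ρ a * M = M * R'.ρ a) (j : ZMod p) :
    R.proj j * M = M * R'.proj j := by
  have := R.proj_mul_of_twist R' M 0 (by intro a; rw [zero_mul, chi_zero, one_smul, h]) j
  rwa [sub_zero] at this

/-- intertwiners up to an automorphism of `ZMod p` -/
theorem proj_mul_of_mul (R : MRep p X A) (R' : MRep p Y A) (M : Matrix X Y A) (c : ZMod p)
    (hc : c ≠ 0) (h : ∀ a, R.ρ a * M = M * R'.ρ (c * a)) (j : ZMod p) :
    R.proj (c * j) * M = M * R'.proj j := by
  unfold proj
  rw [Matrix.mul_sum, Matrix.sum_mul]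
  rw [← Equiv.sum_comp (Equiv.mulLeft₀ c hc) (fun a => M * ((ip p A * chi p A (-(j * a))) • R'.ρ a))]
  refine Finset.sum_congr rfl fun a _ => ?_
  rw [Equiv.mulLeft₀_apply, Matrix.smul_mul, h, Matrix.mul_smul]
  congr 3
  ring

end MRep

omit [Algebra ℂ A] in
/-- the main comparison lemma for components -/
theorem cl_comp_eq {e P : Matrix X X A} {f Q : Matrix Y Y A} (hf : f * f = f)
    (he : e * e = e)
    (hP : P * P = P) (hQ : Q * Q = Q) (heP : e * P = P * e) (hfQ : f * Q = Q * f)
    (M : Matrix X Y A) (M' : Matrix Y X A) (h1 : M * M' = e) (h2 : M' * M = f)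
    (h : P * M = M * Q) : cl (e * P) = cl (f * Q) := by
  have h3 : (e * P) * (e * P) = e * P := by
    calc (e * P) * (e * P) = e * (P * e) * P := by simp only [Matrix.mul_assoc]
      _ = (e * e) * (P * P) := by rw [← heP]; simp only [Matrix.mul_assoc]
      _ = e * P := by rw [he, hP]
  have h4 : (f * Q) * (f * Q) = f * Q := by
    calc (f * Q) * (f * Q) = f * (Q * f) * Q := by simp only [Matrix.mul_assoc]
      _ = (f * f) * (Q * Q) := by rw [← hfQ]; simp only [Matrix.mul_assoc]
      _ = f * Q := by rw [hf, hQ]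
  refine cl_eq h3 h4 ⟨M * Q, Q * M', ?_, ?_⟩
  · calc M * Q * (Q * M') = M * (Q * Q) * M' := by simp only [Matrix.mul_assoc]
      _ = P * (M * M') := by rw [hQ, ← h]; simp only [Matrix.mul_assoc]
      _ = e * P := by rw [h1, heP]
  · calc Q * M' * (M * Q) = Q * (M' * M) * Q := by simp only [Matrix.mul_assoc]
      _ = f * (Q * Q) := by rw [h2, ← hfQ]; simp only [Matrix.mul_assoc]
      _ = f * Q := by rw [hQ]

omit [Algebra ℂ A] in
theorem idem_mul_of_comm {e P : Matrix X X A} (he : e * e = e) (hP : P * P = P)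
    (heP : e * P = P * e) : (e * P) * (e * P) = e * P := by
  calc (e * P) * (e * P) = e * (P * e) * P := by simp only [Matrix.mul_assoc]
    _ = (e * e) * (P * P) := by rw [← heP]; simp only [Matrix.mul_assoc]
    _ = e * P := by rw [he, hP]

/-- Kronecker product of representations -/
def MRep.kron (R : MRep p X A) (R' : MRep p Y A) : MRep p (X × Y) A where
  ρ a := R.ρ a ⊗ₖ R'.ρ a
  zero' := by
    classical
    rw [R.zero', R'.zero', one_kronecker_one]
    congr!
  add' a b := by rw [R.add', R'.add', mul_kronecker_mul]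

omit [Algebra ℂ A] [Fintype X] [Fintype Y] in
theorem kron_sum' {ι : Type*} (s : Finset ι) (M : Matrix X X A) (N : ι → Matrix Y Y A) :
    M ⊗ₖ (∑ i ∈ s, N i) = ∑ i ∈ s, M ⊗ₖ N i := by
  classical
  induction s using Finset.induction_on with
  | empty => simp
  | insert a s ha ih => rw [Finset.sum_insert ha, Finset.sum_insert ha, kronecker_add, ih]

omit [Algebra ℂ A] [Fintype X] [Fintype Y] in
theorem sum_kron' {ι : Type*} (s : Finset ι) (M : ι → Matrix X X A) (N : Matrix Y Y A) :
    (∑ i ∈ s, M i) ⊗ₖ N = ∑ i ∈ s, M i ⊗ₖ N := by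
  classical
  induction s using Finset.induction_on with
  | empty => simp
  | insert a s ha ih => rw [Finset.sum_insert ha, Finset.sum_insert ha, add_kronecker, ih]

omit [Fintype Y] in
theorem MRep.proj_mul_eigen (R : MRep p X A) (M : Matrix X Y A) (i : ZMod p)
    (hM : ∀ a, R.ρ a * M = chi p A (i * a) • M) (j : ZMod p) :
    R.proj j * M = if i = j then M else 0 := by
  unfold proj
  rw [Matrix.sum_mul]
  have h1 : ∀ a, ((ip p A * chi p A (-(j * a))) • R.ρ a) * M =
      (ip p A * chi p A ((i - j) * a)) • M := by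
    intro a
    rw [Matrix.smul_mul, hM, smul_smul]
    congr 1
    have : (i - j) * a = -(j * a) + i * a := by ring
    rw [this, chi_add]
    ring
  rw [Finset.sum_congr rfl fun a _ => h1 a, ← Finset.sum_smul, ← Finset.mul_sum, sum_chi']
  by_cases h : i = j
  · simp [h, ip_mul]
  · simp [h, sub_eq_zero]

theorem MRep.proj_kron (R : MRep p X A) (R' : MRep p Y A) (j : ZMod p) :
    (R.kron R').proj j = ∑ i, R.proj i ⊗ₖ R'.proj (j - i) := by
  classical
  have h0 : (∑ i, ∑ l, R.proj i ⊗ₖ R'.proj l) = 1 := by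
    have h1 : ∀ i, ∑ l, R.proj i ⊗ₖ R'.proj l = R.proj i ⊗ₖ (1 : Matrix Y Y A) := by
      intro i
      rw [← R'.sum_proj, kron_sum']
    rw [Finset.sum_congr rfl fun i _ => h1 i, ← sum_kron', R.sum_proj, one_kronecker_one]
  calc (R.kron R').proj j = (R.kron R').proj j * (∑ i, ∑ l, R.proj i ⊗ₖ R'.proj l) := by
        rw [h0, Matrix.mul_one]
    _ = ∑ i, ∑ l, (if i + l = j then R.proj i ⊗ₖ R'.proj l else 0) := by
        rw [Finset.mul_sum]
        refine Finset.sum_congr rfl fun i _ => ?_
        rw [Finset.mul_sum]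
        refine Finset.sum_congr rfl fun l _ => ?_
        refine MRep.proj_mul_eigen _ _ _ (fun a => ?_) j
        have h3 : (R.kron R').ρ a = R.ρ a ⊗ₖ R'.ρ a := rfl
        rw [h3, ← mul_kronecker_mul, R.rho_mul_proj, R'.rho_mul_proj,
          smul_kronecker, kronecker_smul, smul_smul, ← chi_add]
        congr 2
        ring
    _ = _ := by
        refine Finset.sum_congr rfl fun i _ => ?_
        rw [Finset.sum_eq_single (j - i)]
        · simp
        · intro l _ hl
          rw [if_neg]
          rintro rfl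
          simp at hl
        · simp

end rep

/-! ### tensor powers of matrices -/

section tpf

variable {A : Type u} [CommRing A]
variable {ι : Type*} {I J K : Type*}

/-- tensor product of a family of matrices -/
def tpf [Fintype ι] (u : ι → Matrix I J A) : Matrix (ι → I) (ι → J) A :=
  Matrix.of fun x y => ∏ k, u k (x k) (y k)

@[simp] theorem tpf_apply [Fintype ι] (u : ι → Matrix I J A) (x : ι → I) (y : ι → J) :
    tpf u x y = ∏ k, u k (x k) (y k) := rfl

theorem tpf_mul [Fintype ι] [DecidableEq ι] [Fintype J] (u : ι → Matrix I J A)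
    (v : ι → Matrix J K A) :
    tpf u * tpf v = tpf (fun k => u k * v k) := by
  ext x y
  simp only [Matrix.mul_apply, tpf_apply]
  rw [Finset.prod_univ_sum, Fintype.piFinset_univ]
  refine Finset.sum_congr rfl fun z _ => ?_
  rw [Finset.prod_mul_distrib]

theorem tpf_sum [Fintype ι] [DecidableEq ι] {σ : Type*} [Fintype σ] (u : ι → σ → Matrix I J A) :
    tpf (fun k => ∑ s, u k s) = ∑ t : ι → σ, tpf (fun k => u k (t k)) := by
  ext x y
  simp only [tpf_apply, Matrix.sum_apply]
  rw [Finset.prod_univ_sum, Fintype.piFinset_univ]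

theorem tpf_one [Fintype ι] [DecidableEq ι] [DecidableEq I] :
    tpf (fun _ : ι => (1 : Matrix I I A)) = 1 := by
  ext x y
  simp only [tpf_apply, Matrix.one_apply]
  by_cases h : x = y
  · simp [h]
  · rw [if_neg h]
    obtain ⟨k, hk⟩ := Function.ne_iff.1 h
    exact Finset.prod_eq_zero (Finset.mem_univ k) (if_neg hk)

theorem tpf_smul [Fintype ι] (c : ι → A) (u : ι → Matrix I J A) :
    tpf (fun k => c k • u k) = (∏ k, c k) • tpf u := by
  ext x y
  simp [Finset.prod_mul_distrib]

theorem tpf_zero [Fintype ι] (u : ι → Matrix I J A) (k : ι) (hk : u k = 0) : tpf u = 0 := by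
  ext x y
  rw [tpf_apply]
  exact Finset.prod_eq_zero (Finset.mem_univ k) (by rw [hk]; rfl)

theorem tpf_map [Fintype ι] {B : Type v} [CommRing B] (φ : A →+* B) (u : ι → Matrix I J A) :
    (tpf u).map φ = tpf (fun k => (u k).map φ) := by
  ext x y
  simp [map_prod]

/-- tensor power of a matrix -/
def tp (ι : Type*) [Fintype ι] (e : Matrix I J A) : Matrix (ι → I) (ι → J) A :=
  tpf (fun _ => e)

theorem tp_def [Fintype ι] (e : Matrix I J A) : tp ι e = tpf (fun _ => e) := rfl

@[simp] theorem tp_apply [Fintype ι] (e : Matrix I J A) (x : ι → I) (y : ι → J) :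
    tp ι e x y = ∏ k, e (x k) (y k) := rfl

theorem tp_mul [Fintype ι] [DecidableEq ι] [Fintype J] (u : Matrix I J A) (v : Matrix J K A) :
    tp ι u * tp ι v = tp ι (u * v) := by
  rw [tp_def, tp_def, tpf_mul]; rfl

theorem tp_idem [Fintype ι] [DecidableEq ι] [Fintype I] {e : Matrix I I A} (he : e * e = e) :
    tp ι e * tp ι e = tp ι e := by rw [tp_mul, he]

end tpf

/-! ### the shift -/

section shift

variable {p : ℕ} [Fact p.Prime] {A : Type u} [CommRing A] [Algebra ℂ A]
variable {I J K : Type*} [Fintype I] [Fintype J] [Fintype K]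

open Classical in
/-- permutation matrix of the shift by `a` -/
def shiftMat (p : ℕ) [Fact p.Prime] (I : Type*) (A : Type u) [CommRing A] (a : ZMod p) :
    Matrix (ZMod p → I) (ZMod p → I) A :=
  Matrix.of fun x y => if (fun k => x (k + a)) = y then 1 else 0

omit [Algebra ℂ A] in
theorem shiftMat_mul {Y : Type*} (a : ZMod p) (M : Matrix (ZMod p → I) Y A) (x : ZMod p → I)
    (y : Y) : (shiftMat p I A a * M) x y = M (fun k => x (k + a)) y := by
  classical
  rw [Matrix.mul_apply, Finset.sum_eq_single (fun k => x (k + a))]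
  · simp [shiftMat]
  · intro z _ hz
    simp only [shiftMat, Matrix.of_apply]
    rw [if_neg (fun h => hz h.symm), zero_mul]
  · simp

omit [Algebra ℂ A] in
theorem mul_shiftMat {Y : Type*} (a : ZMod p) (M : Matrix Y (ZMod p → I) A) (x : Y)
    (y : ZMod p → I) : (M * shiftMat p I A a) x y = M x (fun k => y (k - a)) := by
  classical
  rw [Matrix.mul_apply, Finset.sum_eq_single (fun k => y (k - a))]
  · simp [shiftMat]
  · intro z _ hz
    simp only [shiftMat, Matrix.of_apply]
    rw [if_neg, mul_zero]
    intro h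
    apply hz
    funext k
    rw [← h]
    simp
  · simp

/-- the shift representation on `(ZMod p → I)` -/
def shift (p : ℕ) [Fact p.Prime] (I : Type*) [Fintype I] (A : Type u) [CommRing A] :
    MRep p (ZMod p → I) A where
  ρ a := shiftMat p I A a
  zero' := by
    ext x y
    have h : (fun k => x (k + 0)) = x := by funext k; rw [add_zero]
    rw [shiftMat, Matrix.of_apply]
    by_cases hxy : x = y
    · rw [if_pos (h.trans hxy), hxy]
      exact (@Matrix.one_apply_eq _ _ (fun a b => Classical.propDecidable (a = b)) _ _ y).symm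
    · rw [if_neg (fun h' => hxy (h.symm.trans h'))]
      exact (@Matrix.one_apply_ne _ _ (fun a b => Classical.propDecidable (a = b)) _ _ x y hxy).symm
  add' a b := by
    ext x y
    have h : (fun k => x (k + (a + b))) = fun k => x (k + b + a) := by
      funext k; rw [add_assoc, add_comm b a]
    rw [shiftMat_mul, shiftMat, Matrix.of_apply, shiftMat, Matrix.of_apply]
    by_cases hxy : (fun k => x (k + b + a)) = y
    · rw [if_pos hxy, if_pos (h.trans hxy)]
    · rw [if_neg hxy, if_neg (fun h' => hxy (h.symm.trans h'))]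

omit [Algebra ℂ A] in
theorem shift_rho (a : ZMod p) : (shift p I A).ρ a = shiftMat p I A a := rfl

omit [Algebra ℂ A] in
theorem shiftMat_mul_tpf (a : ZMod p) (u : ZMod p → Matrix I J A) :
    shiftMat p I A a * tpf u = tpf (fun k => u (k - a)) * shiftMat p J A a := by
  ext x y
  rw [shiftMat_mul, mul_shiftMat, tpf_apply, tpf_apply]
  rw [← Equiv.prod_comp (Equiv.addRight a) (fun k => u (k - a) (x k) (y (k - a)))]
  simp

omit [Algebra ℂ A] in
theorem shiftMat_mul_tp (a : ZMod p) (u : Matrix I J A) :
    shiftMat p I A a * tp (ZMod p) u = tp (ZMod p) u * shiftMat p J A a :=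
  shiftMat_mul_tpf a (fun _ => u)

theorem proj_mul_tp (j : ZMod p) (u : Matrix I J A) :
    (shift p I A).proj j * tp (ZMod p) u = tp (ZMod p) u * (shift p J A).proj j :=
  MRep.proj_mul_of_comm _ _ _ (fun a => shiftMat_mul_tp a u) j

variable (p)

/-- the `j`-th component of the `p`-th tensor power -/
def compMat (j : ZMod p) (e : Matrix I I A) : Matrix (ZMod p → I) (ZMod p → I) A :=
  tp (ZMod p) e * (shift p I A).proj j

variable {p}

theorem compMat_idem (j : ZMod p) {e : Matrix I I A} (he : e * e = e) :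
    compMat p j e * compMat p j e = compMat p j e :=
  idem_mul_of_comm (tp_idem he) (MRep.proj_idem _ _) (proj_mul_tp j e).symm

theorem compMat_congr (j : ZMod p) {e : Matrix I I A} {f : Matrix J J A} (he : e * e = e)
    (hf : f * f = f) (h : MvN e f) : cl (compMat p j e) = cl (compMat p j f) := by
  obtain ⟨u, v, h1, h2⟩ := h
  exact cl_comp_eq (tp_idem hf) (tp_idem he) (MRep.proj_idem _ _) (MRep.proj_idem _ _)
    (proj_mul_tp j e).symm (proj_mul_tp j f).symm (tp (ZMod p) u) (tp (ZMod p) v)
    (by rw [tp_mul, h1]) (by rw [tp_mul, h2]) (proj_mul_tp j u)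

variable (p)

/-- the components of the `p`-th tensor power on classes -/
def V.comp (j : ZMod p) (x : V A) : V A :=
  Quotient.liftOn x (fun e => cl (compMat p j e.e)) (fun a b h => compMat_congr j a.idem b.idem h)

variable {p}

theorem V.comp_cl (j : ZMod p) {e : Matrix I I A} (he : e * e = e) :
    V.comp p j (cl e) = cl (compMat p j e) := by
  obtain ⟨n, e', he', h1⟩ := V.exists_rep (cl e)
  have h3 : V.comp p j (cl e) = cl (compMat p j e') := by
    rw [← h1]
    have := cl_mk ⟨n, e', he'⟩
    simp only at this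
    rw [this]
    rfl
  rw [h3]
  exact compMat_congr j he' he ((cl_eq_iff he' he).1 h1)

end shift

end

end Crest.Agent.R204.K357
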