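import Mathlib

/-!
# Row 204, block H, Adams operations (helper988), part A

Actions of `Z/6` on idempotents and their eigen-idempotents.
-/

set_option autoImplicit false
set_option linter.unusedSectionVars false
set_option linter.unusedSimpArgs false

namespace Crest.Agent.R204.Psi988

open Matrix
open scoped Kronecker

/-! ### the character -/

/-- the standard character of `Z/6` -/
noncomputable def ch (k : ZMod 6) : ℂ := ZMod.stdAddChar k

lemma ch_zero : ch 0 = 1 := AddChar.map_zero_eq_one _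

lemma ch_add (a b : ZMod 6) : ch (a + b) = ch a * ch b := AddChar.map_add_eq_mul _ a b

lemma ch_neg_mul (a : ZMod 6) : ch (-a) * ch a = 1 := by
  rw [← ch_add, neg_add_cancel, ch_zero]

lemma ch_sum (j : ZMod 6) : ∑ k, ch (k * j) = if j = 0 then 6 else 0 := by
  have h := AddChar.sum_mulShift (R := ZMod 6) (ψ := ZMod.stdAddChar) j
    (ZMod.isPrimitive_stdAddChar 6)
  unfold ch
  rw [h]
  simp [ZMod.card]

lemma ch_eq_one {a : ZMod 6} (h : ch a = 1) : a = 0 := by
  apply ZMod.injective_stdAddChar (N := 6)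
  rw [AddChar.map_zero_eq_one]
  exact h

/-! ### actions -/

/-- an action of `Z/6` by matrices -/
@[ext] structure Act (ι A : Type*) [Fintype ι] [DecidableEq ι] [CommRing A] where
  ρ : ZMod 6 → Matrix ι ι A
  zero : ρ 0 = 1
  add : ∀ a b, ρ (a + b) = ρ a * ρ b

section act

variable {A : Type*} [CommRing A] [Algebra ℂ A] {ι κ : Type*} [Fintype ι] [DecidableEq ι]
  [Fintype κ] [DecidableEq κ]

/-- commuting with an action -/
def Com (r : Act ι A) (e : Matrix ι ι A) : Prop := ∀ k, r.ρ k * e = e * r.ρ k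

lemma Com.add {r : Act ι A} {e f : Matrix ι ι A} (he : Com r e) (hf : Com r f) :
    Com r (e + f) := fun k => by rw [Matrix.mul_add, Matrix.add_mul, he k, hf k]

/-- eigen-projection -/
noncomputable def E (r : Act ι A) (e : Matrix ι ι A) (j : ZMod 6) : Matrix ι ι A :=
  (6 : ℂ)⁻¹ • ∑ k, ch (-(j * k)) • (r.ρ k * e)

lemma E_zero_mat (r : Act ι A) (j : ZMod 6) : E r (0 : Matrix ι ι A) j = 0 := by
  simp [E]

lemma E_add (r : Act ι A) (e f : Matrix ι ι A) (j : ZMod 6) :
    E r (e + f) j = E r e j + E r f j := by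
  unfold E
  rw [← smul_add, ← Finset.sum_add_distrib]
  simp only [Matrix.mul_add, smul_add]

/-- equivariance -/
lemma rho_mul_E (r : Act ι A) (e : Matrix ι ι A) (j k : ZMod 6) :
    r.ρ k * E r e j = ch (j * k) • E r e j := by
  unfold E
  rw [Matrix.mul_smul, Finset.mul_sum, smul_comm (ch (j * k))]
  congr 1
  rw [Finset.smul_sum, ← Equiv.sum_comp (Equiv.addLeft k) (fun l =>
    ch (j * k) • ch (-(j * l)) • (r.ρ l * e))]
  refine Finset.sum_congr rfl fun l _ => ?_
  rw [Equiv.coe_addLeft, r.add, Matrix.mul_smul, smul_smul, ← ch_add, Matrix.mul_assoc]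
  congr 2
  ring

lemma E_mul_rho {r : Act ι A} {e : Matrix ι ι A} (hc : Com r e) (j k : ZMod 6) :
    E r e j * r.ρ k = ch (j * k) • E r e j := by
  rw [← rho_mul_E]
  unfold E
  rw [Matrix.mul_smul, Matrix.smul_mul, Finset.mul_sum, Finset.sum_mul]
  congr 1
  refine Finset.sum_congr rfl fun l _ => ?_
  rw [Matrix.mul_smul, Matrix.smul_mul, ← Matrix.mul_assoc, ← r.add, Matrix.mul_assoc, ← hc k,
    ← Matrix.mul_assoc, ← r.add, add_comm]

lemma E_mul_self {r : Act ι A} {e : Matrix ι ι A} (he : e * e = e) (j : ZMod 6) :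
    E r e j * e = E r e j := by
  unfold E
  rw [Matrix.smul_mul, Finset.sum_mul]
  congr 1
  refine Finset.sum_congr rfl fun l _ => ?_
  rw [Matrix.smul_mul, Matrix.mul_assoc, he]

lemma self_mul_E {r : Act ι A} {e : Matrix ι ι A} (he : e * e = e) (hc : Com r e) (j : ZMod 6) :
    e * E r e j = E r e j := by
  unfold E
  rw [Matrix.mul_smul, Finset.mul_sum]
  congr 1
  refine Finset.sum_congr rfl fun l _ => ?_
  rw [Matrix.mul_smul, ← Matrix.mul_assoc, ← hc l, Matrix.mul_assoc, he]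

lemma E_mul_E {r : Act ι A} {e : Matrix ι ι A} (he : e * e = e) (hc : Com r e) (i j : ZMod 6) :
    E r e i * E r e j = if i = j then E r e j else 0 := by
  have h1 : E r e i * E r e j = (6 : ℂ)⁻¹ • (∑ k, ch (k * (j - i))) • E r e j := by
    conv_lhs => rw [show E r e i = (6 : ℂ)⁻¹ • ∑ k, ch (-(i * k)) • (r.ρ k * e) from rfl]
    rw [Matrix.smul_mul, Finset.sum_mul, Finset.sum_smul]
    congr 1
    refine Finset.sum_congr rfl fun k _ => ?_
    rw [Matrix.smul_mul, Matrix.mul_assoc, self_mul_E he hc, rho_mul_E, smul_smul, ← ch_add]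
    congr 2
    ring
  rw [h1, ch_sum]
  by_cases h : i = j
  · subst h
    rw [sub_self, if_pos rfl, if_pos rfl, smul_smul, inv_mul_cancel₀ (by norm_num), one_smul]
  · rw [if_neg (sub_ne_zero.2 (Ne.symm h)), if_neg h, zero_smul, smul_zero]

lemma E_idem {r : Act ι A} {e : Matrix ι ι A} (he : e * e = e) (hc : Com r e) (j : ZMod 6) :
    E r e j * E r e j = E r e j := by rw [E_mul_E he hc, if_pos rfl]

lemma E_orth {r : Act ι A} {e : Matrix ι ι A} (he : e * e = e) (hc : Com r e) {i j : ZMod 6}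
    (h : i ≠ j) : E r e i * E r e j = 0 := by rw [E_mul_E he hc, if_neg h]

lemma sum_E (r : Act ι A) (e : Matrix ι ι A) : ∑ j, E r e j = e := by
  unfold E
  rw [← Finset.smul_sum, Finset.sum_comm]
  have h1 : ∀ k : ZMod 6, ∑ j, ch (-(j * k)) • (r.ρ k * e) =
      (if k = 0 then (6 : ℂ) else 0) • (r.ρ k * e) := by
    intro k
    rw [← Finset.sum_smul]
    congr 1
    have h2 := ch_sum (-k)
    simp only [neg_eq_zero, mul_neg] at h2
    exact h2
  rw [Finset.sum_congr rfl fun k _ => h1 k]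
  simp only [ite_smul, zero_smul]
  rw [Finset.sum_ite_eq' Finset.univ (0 : ZMod 6), if_pos (Finset.mem_univ _), r.zero,
    Matrix.one_mul, smul_smul, inv_mul_cancel₀ (by norm_num), one_smul]

/-- orthogonality of eigen-projections of orthogonal idempotents -/
lemma E_mul_E_of_orth {r : Act ι A} {e f : Matrix ι ι A} (hc : Com r e) (h : e * f = 0)
    (i j : ZMod 6) : E r e i * E r f j = 0 := by
  unfold E
  rw [Matrix.smul_mul, Matrix.mul_smul, Finset.sum_mul]
  have h1 : ∀ k : ZMod 6, ch (-(i * k)) • (r.ρ k * e) * ∑ l, ch (-(j * l)) • (r.ρ l * f) = 0 := by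
    intro k
    rw [Finset.mul_sum]
    refine Finset.sum_eq_zero fun l _ => ?_
    rw [Matrix.smul_mul, Matrix.mul_smul]
    have : r.ρ k * e * (r.ρ l * f) = 0 := by
      calc r.ρ k * e * (r.ρ l * f) = r.ρ k * (e * r.ρ l) * f := by simp only [Matrix.mul_assoc]
        _ = r.ρ k * (r.ρ l * e) * f := by rw [hc l]
        _ = r.ρ k * r.ρ l * (e * f) := by simp only [Matrix.mul_assoc]
        _ = 0 := by rw [h, Matrix.mul_zero]
    rw [this, smul_zero, smul_zero]
  rw [Finset.sum_eq_zero fun k _ => h1 k, smul_zero, smul_zero]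

/-! ### operations on actions -/

/-- tensor product -/
def Act.kron (r : Act ι A) (r' : Act κ A) : Act (ι × κ) A where
  ρ k := r.ρ k ⊗ₖ r'.ρ k
  zero := by rw [r.zero, r'.zero, Matrix.one_kronecker_one]
  add a b := by rw [r.add, r'.add, Matrix.mul_kronecker_mul]

lemma Com.kron {r : Act ι A} {r' : Act κ A} {e : Matrix ι ι A} {f : Matrix κ κ A}
    (he : Com r e) (hf : Com r' f) : Com (r.kron r') (e ⊗ₖ f) := by
  intro k
  change (r.ρ k ⊗ₖ r'.ρ k) * (e ⊗ₖ f) = (e ⊗ₖ f) * (r.ρ k ⊗ₖ r'.ρ k)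
  rw [← Matrix.mul_kronecker_mul, ← Matrix.mul_kronecker_mul, he k, hf k]

lemma smul_kron' (c c' : ℂ) (M : Matrix ι ι A) (N : Matrix κ κ A) :
    (c • M) ⊗ₖ (c' • N) = (c * c') • (M ⊗ₖ N) := by
  ext ⟨i, i'⟩ ⟨j, j'⟩
  simp only [Matrix.kroneckerMap_apply, Matrix.smul_apply, Algebra.smul_mul_assoc,
    Algebra.mul_smul_comm, smul_smul, mul_comm]

lemma sum_kron {α β : Type*} (s : Finset α) (t : Finset β) (M : α → Matrix ι ι A)
    (N : β → Matrix κ κ A) :
    (∑ a ∈ s, M a) ⊗ₖ (∑ b ∈ t, N b) = ∑ a ∈ s, ∑ b ∈ t, M a ⊗ₖ N b := by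
  ext ⟨i, i'⟩ ⟨j, j'⟩
  simp only [Matrix.kroneckerMap_apply, Matrix.sum_apply, Finset.sum_mul_sum]

/-- eigen-projections of a tensor product -/
lemma E_kron (r : Act ι A) (r' : Act κ A) (e : Matrix ι ι A) (f : Matrix κ κ A) (j : ZMod 6) :
    E (r.kron r') (e ⊗ₖ f) j = ∑ a, E r e a ⊗ₖ E r' f (j - a) := by
  have h1 : ∀ a : ZMod 6, E r e a ⊗ₖ E r' f (j - a) =
      ((6 : ℂ)⁻¹ * (6 : ℂ)⁻¹) • ∑ k, ∑ l, (ch (-(j * l)) * ch (a * (l - k))) •
        ((r.ρ k * e) ⊗ₖ (r'.ρ l * f)) := by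
    intro a
    unfold E
    rw [smul_kron', sum_kron]
    congr 1
    refine Finset.sum_congr rfl fun k _ => Finset.sum_congr rfl fun l _ => ?_
    rw [smul_kron', ← ch_add, ← ch_add]
    congr 2
    ring
  rw [Finset.sum_congr rfl fun a _ => h1 a, ← Finset.smul_sum, Finset.sum_comm]
  have h2 : ∀ k : ZMod 6, ∑ a, ∑ l, (ch (-(j * l)) * ch (a * (l - k))) •
        ((r.ρ k * e) ⊗ₖ (r'.ρ l * f)) =
      (6 : ℂ) • ch (-(j * k)) • ((r.ρ k * e) ⊗ₖ (r'.ρ k * f)) := by
    intro k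
    rw [Finset.sum_comm]
    have h3 : ∀ l : ZMod 6, ∑ a, (ch (-(j * l)) * ch (a * (l - k))) •
        ((r.ρ k * e) ⊗ₖ (r'.ρ l * f)) =
        if l = k then (6 : ℂ) • ch (-(j * l)) • ((r.ρ k * e) ⊗ₖ (r'.ρ l * f)) else 0 := by
      intro l
      rw [← Finset.sum_smul, ← Finset.mul_sum, ch_sum]
      by_cases h : l = k
      · subst h
        rw [sub_self, if_pos rfl, if_pos rfl, smul_smul, mul_comm]
      · rw [if_neg (sub_ne_zero.2 h), if_neg h, mul_zero, zero_smul]
    rw [Finset.sum_congr rfl fun l _ => h3 l, Finset.sum_ite_eq' Finset.univ k,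
      if_pos (Finset.mem_univ _)]
  rw [Finset.sum_congr rfl fun k _ => h2 k, ← Finset.smul_sum, smul_smul]
  unfold E
  congr 1
  · norm_num
  · refine Finset.sum_congr rfl fun k _ => ?_
    change ch (-(j * k)) • ((r.ρ k ⊗ₖ r'.ρ k) * (e ⊗ₖ f)) = _
    rw [← Matrix.mul_kronecker_mul]

/-- twist by a character -/
noncomputable def Act.twist (r : Act ι A) (c : ZMod 6) : Act ι A where
  ρ k := ch (c * k) • r.ρ k
  zero := by rw [mul_zero, ch_zero, one_smul, r.zero]
  add a b := by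
    rw [r.add, mul_add, ch_add, Matrix.smul_mul, Matrix.mul_smul, smul_smul]

lemma E_twist (r : Act ι A) (c : ZMod 6) (e : Matrix ι ι A) (j : ZMod 6) :
    E (r.twist c) e j = E r e (j - c) := by
  unfold E
  congr 1
  refine Finset.sum_congr rfl fun k _ => ?_
  change ch (-(j * k)) • (ch (c * k) • r.ρ k * e) = _
  rw [Matrix.smul_mul, smul_smul, ← ch_add]
  congr 2
  ring

lemma Com.twist {r : Act ι A} {e : Matrix ι ι A} (h : Com r e) (c : ZMod 6) :
    Com (r.twist c) e := by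
  intro k
  change ch (c * k) • r.ρ k * e = e * (ch (c * k) • r.ρ k)
  rw [Matrix.smul_mul, Matrix.mul_smul, h k]

/-- an eigen-projection only depends on the action on `e` -/
lemma E_congr {r r' : Act ι A} {e : Matrix ι ι A} (h : ∀ k, r.ρ k * e = r'.ρ k * e)
    (j : ZMod 6) : E r e j = E r' e j := by
  unfold E
  congr 1
  exact Finset.sum_congr rfl fun k _ => by rw [h k]

/-- transport along an equivalence -/
def Act.reindex (r : Act ι A) (φ : ι ≃ κ) : Act κ A where
  ρ k := (r.ρ k).submatrix φ.symm φ.symm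
  zero := by rw [r.zero, Matrix.submatrix_one_equiv]
  add a b := by rw [r.add, Matrix.submatrix_mul_equiv]

lemma E_reindex (r : Act ι A) (φ : ι ≃ κ) (e : Matrix ι ι A) (j : ZMod 6) :
    E (r.reindex φ) (e.submatrix φ.symm φ.symm) j = (E r e j).submatrix φ.symm φ.symm := by
  unfold E
  rw [show ((6 : ℂ)⁻¹ • ∑ k, ch (-(j * k)) • (r.ρ k * e)).submatrix φ.symm φ.symm =
    (6 : ℂ)⁻¹ • ∑ k, ch (-(j * k)) • ((r.ρ k * e).submatrix φ.symm φ.symm) from ?_]
  · congr 1
    refine Finset.sum_congr rfl fun k _ => ?_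
    change ch (-(j * k)) • ((r.ρ k).submatrix φ.symm φ.symm * e.submatrix φ.symm φ.symm) = _
    rw [Matrix.submatrix_mul_equiv]
  · ext a b
    simp only [Matrix.submatrix_apply, Matrix.smul_apply, Matrix.sum_apply]

lemma Com.reindex {r : Act ι A} {e : Matrix ι ι A} (h : Com r e) (φ : ι ≃ κ) :
    Com (r.reindex φ) (e.submatrix φ.symm φ.symm) := by
  intro k
  change (r.ρ k).submatrix φ.symm φ.symm * e.submatrix φ.symm φ.symm =
    e.submatrix φ.symm φ.symm * (r.ρ k).submatrix φ.symm φ.symm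
  rw [Matrix.submatrix_mul_equiv, Matrix.submatrix_mul_equiv, h k]

end act

end Crest.Agent.R204.Psi988
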