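import Crest.Agent.R204.PsiA_357

/-!
# Adams operations on `K0 A` (row 204, block H, leaf H1), part B

The grading trick; additivity of `comp 0 - comp 1`.
-/

open Matrix
open scoped Kronecker BigOperators

namespace Crest.Agent.R204.K357

universe u v w

set_option linter.unusedSectionVars false

noncomputable section

section deg

variable {p : ℕ} [Fact p.Prime] {S : Type*}

/-- a value of `t`, depending only on the range of `t` -/
def lev (t : ZMod p → S) : S := (Set.range_nonempty t).some

theorem lev_mem (t : ZMod p → S) : lev t ∈ Set.range t := (Set.range_nonempty t).some_mem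

theorem some_congr {s s' : Set S} (h : s.Nonempty) (h' : s'.Nonempty) (e : s = s') :
    h.some = h'.some := by
  subst e
  rfl

theorem lev_shift (t : ZMod p → S) (a : ZMod p) : lev (fun k => t (k + a)) = lev t := by
  refine some_congr _ _ ?_
  ext s
  constructor
  · rintro ⟨k, rfl⟩
    exact ⟨k + a, rfl⟩
  · rintro ⟨k, rfl⟩
    exact ⟨k - a, by simp⟩

open Classical in
/-- the level set -/
def levSet (t : ZMod p → S) : Finset (ZMod p) := Finset.univ.filter (fun k => t k = lev t)

/-- the degree of a non-constant function -/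
def deg (t : ZMod p → S) : ZMod p := ((levSet t).card : ZMod p)⁻¹ * ∑ k ∈ levSet t, k

theorem mem_levSet_shift (t : ZMod p → S) (a k : ZMod p) :
    k ∈ levSet (fun k => t (k + a)) ↔ k + a ∈ levSet t := by
  simp [levSet, lev_shift]

theorem levSet_shift (t : ZMod p → S) (a : ZMod p) :
    (levSet (fun k => t (k + a))).map (addRightEmbedding a) = levSet t := by
  ext k
  simp only [Finset.mem_map, addRightEmbedding_apply]
  constructor
  · rintro ⟨l, hl, rfl⟩
    exact (mem_levSet_shift t a l).1 hl
  · intro h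
    refine ⟨k - a, (mem_levSet_shift t a _).2 (by simpa using h), by simp⟩

theorem card_levSet_ne (t : ZMod p → S) (ht : ∀ s, t ≠ fun _ => s) :
    ((levSet t).card : ZMod p) ≠ 0 := by
  have hp : p.Prime := Fact.out
  intro h
  rw [ZMod.natCast_eq_zero_iff] at h
  have h1 : 0 < (levSet t).card := by
    rw [Finset.card_pos]
    obtain ⟨k, hk⟩ := lev_mem t
    exact ⟨k, by simp [levSet, hk]⟩
  have h2 : (levSet t).card ≤ p := by
    have := Finset.card_le_univ (levSet t)
    rwa [ZMod.card] at this
  have h3 : (levSet t).card = p := le_antisymm h2 (Nat.le_of_dvd h1 h)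
  have h4 : levSet t = Finset.univ := by
    rw [← Finset.card_eq_iff_eq_univ, h3, ZMod.card]
  refine ht (lev t) ?_
  funext k
  have : k ∈ levSet t := by rw [h4]; exact Finset.mem_univ k
  simpa [levSet] using this

theorem deg_shift (t : ZMod p → S) (ht : ∀ s, t ≠ fun _ => s) (a : ZMod p) :
    deg (fun k => t (k + a)) = deg t - a := by
  have h := card_levSet_ne t ht
  have e := levSet_shift t a
  have h1 : (levSet (fun k => t (k + a))).card = (levSet t).card := by
    rw [← e, Finset.card_map]
  have h2 : ∑ k ∈ levSet t, k = ∑ k ∈ levSet (fun k => t (k + a)), k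
      + ((levSet t).card : ZMod p) * a := by
    conv_lhs => rw [← e]
    rw [Finset.sum_map, ← h1]
    simp only [addRightEmbedding_apply]
    rw [Finset.sum_add_distrib, Finset.sum_const, nsmul_eq_mul]
  unfold deg
  rw [h1, h2, mul_add, ← mul_assoc, inv_mul_cancel₀ h]
  ring

/-- shifting functions, as an equivalence -/
def shEquiv (a : ZMod p) : (ZMod p → S) ≃ (ZMod p → S) where
  toFun t := fun k => t (k - a)
  invFun t := fun k => t (k + a)
  left_inv t := by funext k; simp
  right_inv t := by funext k; simp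

end deg

section graded

variable {p : ℕ} [Fact p.Prime] {A : Type u} [CommRing A] [Algebra ℂ A]
variable {X : Type*} [Fintype X] {S : Type*}

theorem sum_mul_sum_orth {ι : Type*} (T : Finset ι) (F : ι → Matrix X X A)
    (hF : ∀ t ∈ T, F t * F t = F t) (ho : ∀ t ∈ T, ∀ t' ∈ T, t ≠ t' → F t * F t' = 0)
    (c d : ι → A) : (∑ t ∈ T, c t • F t) * (∑ t ∈ T, d t • F t) = ∑ t ∈ T, (c t * d t) • F t := by
  rw [Finset.sum_mul]
  refine Finset.sum_congr rfl fun t ht => ?_
  rw [Finset.mul_sum, Finset.sum_eq_single_of_mem t ht]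
  · rw [smul_mul_smul_comm, hF t ht]
  · intro t' ht' hne
    rw [smul_mul_smul_comm, ho t ht t' ht' (Ne.symm hne), smul_zero]

/-- **The grading trick**: all isotypical components of `∑ t ∈ T, F t` are equivalent. -/
theorem cl_graded (R : MRep p X A) (F : (ZMod p → S) → Matrix X X A) (T : Finset (ZMod p → S))
    (hF : ∀ t ∈ T, F t * F t = F t) (ho : ∀ t ∈ T, ∀ t' ∈ T, t ≠ t' → F t * F t' = 0)
    (hT : ∀ t ∈ T, ∀ a : ZMod p, (fun k => t (k + a)) ∈ T) (hnc : ∀ t ∈ T, ∀ s, t ≠ fun _ => s)
    (hR : ∀ t a, R.ρ a * F t = F (fun k => t (k - a)) * R.ρ a)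
    (i j : ZMod p) : cl ((∑ t ∈ T, F t) * R.proj i) = cl ((∑ t ∈ T, F t) * R.proj j) := by
  classical
  -- the twisted identity
  have key : ∀ c a : ZMod p, R.ρ a * (∑ t ∈ T, chi p A (c * deg t) • F t) =
      chi p A (-c * a) • ((∑ t ∈ T, chi p A (c * deg t) • F t) * R.ρ a) := by
    intro c a
    rw [Finset.mul_sum, Finset.sum_mul, Finset.smul_sum]
    refine Finset.sum_equiv (shEquiv a) ?_ ?_
    · intro t
      constructor
      · intro ht
        have := hT t ht (-a)
        simpa [shEquiv, sub_eq_add_neg] using this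
      · intro ht
        have := hT _ ht a
        simpa [shEquiv] using this
    · intro t ht
      have h1 : shEquiv a t = fun k => t (k - a) := rfl
      have h2 : t = fun k => (shEquiv a t) (k + a) := by
        funext k; simp [shEquiv]
      have h3 : (shEquiv a t) ∈ T := by
        have := hT t ht (-a)
        simpa [shEquiv, sub_eq_add_neg] using this
      have h4 : deg t = deg (shEquiv a t) - a := by
        conv_lhs => rw [h2]
        exact deg_shift _ (hnc _ h3) a
      rw [Matrix.mul_smul, hR, ← h1, Matrix.smul_mul, smul_smul, h4, ← chi_add]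
      congr 2
      ring
  have key0 : ∀ a : ZMod p, R.ρ a * (∑ t ∈ T, F t) = (∑ t ∈ T, F t) * R.ρ a := by
    intro a
    have := key 0 a
    simpa using this
  have hN : (∑ t ∈ T, F t) * (∑ t ∈ T, F t) = ∑ t ∈ T, F t := idem_finset_sum T F hF ho
  have hD : ∀ c : ZMod p, (∑ t ∈ T, chi p A (c * deg t) • F t) *
      (∑ t ∈ T, chi p A (-c * deg t) • F t) = ∑ t ∈ T, F t := by
    intro c
    rw [sum_mul_sum_orth T F hF ho]
    refine Finset.sum_congr rfl fun t _ => ?_
    have : -c * deg t = -(c * deg t) := by ring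
    rw [this, chi_mul_neg, one_smul]
  have hcomm : ∀ l, (∑ t ∈ T, F t) * R.proj l = R.proj l * (∑ t ∈ T, F t) := fun l =>
    (MRep.proj_mul_of_comm R R _ key0 l).symm
  refine cl_comp_eq hN hN (R.proj_idem i) (R.proj_idem j) (hcomm i) (hcomm j)
    (∑ t ∈ T, chi p A ((j - i) * deg t) • F t) (∑ t ∈ T, chi p A (-(j - i) * deg t) • F t)
    (hD _) ?_ ?_
  · have := hD (-(j - i))
    rwa [neg_neg] at this
  · have := MRep.proj_mul_of_twist R R _ (-(j - i)) (key (j - i)) i
    rw [this]
    congr 2
    ring

end graded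

section additive

variable {p : ℕ} [Fact p.Prime] {A : Type u} [CommRing A] [Algebra ℂ A]
variable {I J : Type*} [Fintype I] [Fintype J] {S : Type*} [Fintype S] [DecidableEq S]

/-- constant functions -/
def consts (p : ℕ) [Fact p.Prime] (S : Type*) [Fintype S] [DecidableEq S] :
    Finset (ZMod p → S) := Finset.univ.image (fun s => fun _ => s)

theorem mem_consts {t : ZMod p → S} : t ∈ consts p S ↔ ∃ s, t = fun _ => s := by
  simp only [consts, Finset.mem_image, Finset.mem_univ, true_and]
  exact ⟨fun ⟨s, h⟩ => ⟨s, h.symm⟩, fun ⟨s, h⟩ => ⟨s, h.symm⟩⟩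

theorem sum_consts {M : Type*} [AddCommMonoid M] (F : (ZMod p → S) → M) :
    ∑ t ∈ consts p S, F t = ∑ s, F (fun _ => s) := by
  unfold consts
  rw [Finset.sum_image]
  intro s _ s' _ h
  exact congrFun h 0

/-- non-constant functions -/
def ncs (p : ℕ) [Fact p.Prime] (S : Type*) [Fintype S] [DecidableEq S] :
    Finset (ZMod p → S) := (consts p S)ᶜ

theorem mem_ncs {t : ZMod p → S} : t ∈ ncs p S ↔ ∀ s, t ≠ fun _ => s := by
  rw [ncs, Finset.mem_compl, mem_consts, not_exists]

theorem ncs_shift {t : ZMod p → S} (ht : t ∈ ncs p S) (a : ZMod p) :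
    (fun k => t (k + a)) ∈ ncs p S := by
  rw [mem_ncs] at ht ⊢
  intro s hs
  refine ht s ?_
  funext k
  have := congrFun hs (k - a)
  simpa using this

theorem tpf_idem (E : S → Matrix I I A) (hE : ∀ s, E s * E s = E s) (t : ZMod p → S) :
    tpf (fun k => E (t k)) * tpf (fun k => E (t k)) = tpf (fun k => E (t k)) := by
  rw [tpf_mul]
  congr 1
  funext k
  exact hE _

theorem tpf_orth (E : S → Matrix I I A) (ho : ∀ s s', s ≠ s' → E s * E s' = 0)
    (t t' : ZMod p → S) (h : t ≠ t') :
    tpf (fun k => E (t k)) * tpf (fun k => E (t' k)) = 0 := by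
  rw [tpf_mul]
  obtain ⟨k, hk⟩ := Function.ne_iff.1 h
  exact tpf_zero _ k (ho _ _ hk)

/-- decomposition of the components of the tensor power of a sum of orthogonal idempotents -/
theorem cl_compMat_sum (E : S → Matrix I I A) (hE : ∀ s, E s * E s = E s)
    (ho : ∀ s s', s ≠ s' → E s * E s' = 0) (j : ZMod p) :
    cl (compMat p j (∑ s, E s)) = ∑ s, cl (compMat p j (E s)) +
      cl ((∑ t ∈ ncs p S, tpf (fun k => E (t k))) * (shift p I A).proj 0) := by
  classical
  set F : (ZMod p → S) → Matrix (ZMod p → I) (ZMod p → I) A := fun t => tpf (fun k => E (t k))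
    with hFdef
  have hF : ∀ t, F t * F t = F t := tpf_idem E hE
  have hFo : ∀ t t', t ≠ t' → F t * F t' = 0 := tpf_orth E ho
  have hR : ∀ t a, (shift p I A).ρ a * F t = F (fun k => t (k - a)) * (shift p I A).ρ a :=
    fun t a => shiftMat_mul_tpf a (fun k => E (t k))
  have hgr := cl_graded (shift p I A) F (ncs p S) (fun t _ => hF t) (fun t _ t' _ => hFo t t')
    (fun t ht a => ncs_shift ht a) (fun t ht => mem_ncs.1 ht) hR j 0
  rw [← hgr]
  have h1 : tp (ZMod p) (∑ s, E s) = ∑ s, F (fun _ => s) + ∑ t ∈ ncs p S, F t := by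
    rw [tp_def, tpf_sum (fun _ => E), ← sum_consts F, ncs, Finset.sum_add_sum_compl]
  have hcR : ∀ s a, (shift p I A).ρ a * F (fun _ => s) = F (fun _ => s) * (shift p I A).ρ a :=
    fun s a => hR _ a
  have hcP : ∀ s, (shift p I A).proj j * F (fun _ => s) = F (fun _ => s) * (shift p I A).proj j :=
    fun s => MRep.proj_mul_of_comm _ _ _ (hcR s) j
  have hNcomm : ∀ a, (shift p I A).ρ a * (∑ t ∈ ncs p S, F t) =
      (∑ t ∈ ncs p S, F t) * (shift p I A).ρ a := by
    intro a
    rw [Finset.mul_sum, Finset.sum_mul]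
    refine Finset.sum_equiv (shEquiv a) ?_ ?_
    · intro t
      constructor
      · intro ht
        have := ncs_shift ht (-a)
        simpa [shEquiv, sub_eq_add_neg] using this
      · intro ht
        have := ncs_shift ht a
        simpa [shEquiv] using this
    · intro t _
      exact hR t a
  have hNP : (shift p I A).proj j * (∑ t ∈ ncs p S, F t) =
      (∑ t ∈ ncs p S, F t) * (shift p I A).proj j := MRep.proj_mul_of_comm _ _ _ hNcomm j
  have hNN : (∑ t ∈ ncs p S, F t) * (∑ t ∈ ncs p S, F t) = ∑ t ∈ ncs p S, F t :=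
    idem_finset_sum _ F (fun t _ => hF t) (fun t _ t' _ => hFo t t')
  have hPP := (shift p I A).proj_idem j
  have hcN : ∀ s, F (fun _ => s) * (∑ t ∈ ncs p S, F t) = 0 := by
    intro s
    rw [Finset.mul_sum]
    exact Finset.sum_eq_zero fun t ht => hFo _ _ (Ne.symm (mem_ncs.1 ht s))
  have hNc : ∀ s, (∑ t ∈ ncs p S, F t) * F (fun _ => s) = 0 := by
    intro s
    rw [Finset.sum_mul]
    exact Finset.sum_eq_zero fun t ht => hFo _ _ (mem_ncs.1 ht s)
  have hci : ∀ s, (F (fun _ => s) * (shift p I A).proj j) * (F (fun _ => s) * (shift p I A).proj j)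
      = F (fun _ => s) * (shift p I A).proj j := fun s => idem_mul_of_comm (hF _) hPP (hcP s).symm
  have hco : ∀ s s', s ≠ s' → (F (fun _ => s) * (shift p I A).proj j) *
      (F (fun _ => s') * (shift p I A).proj j) = 0 := by
    intro s s' hs
    have h0 : F (fun _ => s) * F (fun _ => s') = 0 := hFo _ _ (fun h => hs (congrFun h 0))
    calc (F (fun _ => s) * (shift p I A).proj j) * (F (fun _ => s') * (shift p I A).proj j)
        = F (fun _ => s) * ((shift p I A).proj j * F (fun _ => s')) * (shift p I A).proj j := by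
          simp only [Matrix.mul_assoc]
      _ = (F (fun _ => s) * F (fun _ => s')) * ((shift p I A).proj j * (shift p I A).proj j) := by
          rw [hcP]; simp only [Matrix.mul_assoc]
      _ = 0 := by rw [h0, Matrix.zero_mul]
  have h2 : compMat p j (∑ s, E s) = (∑ s, F (fun _ => s) * (shift p I A).proj j) +
      (∑ t ∈ ncs p S, F t) * (shift p I A).proj j := by
    rw [compMat, h1, Matrix.add_mul, Finset.sum_mul]
  rw [h2, cl_add (idem_finset_sum _ _ (fun s _ => hci s) (fun s _ s' _ => hco s s'))
    (idem_mul_of_comm hNN hPP hNP.symm) ?_ ?_,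
    cl_finset_sum _ _ (fun s _ => hci s) (fun s _ s' _ => hco s s')]
  · rfl
  · rw [Finset.sum_mul]
    refine Finset.sum_eq_zero fun s _ => ?_
    calc F (fun _ => s) * (shift p I A).proj j * ((∑ t ∈ ncs p S, F t) * (shift p I A).proj j)
        = F (fun _ => s) * ((shift p I A).proj j * (∑ t ∈ ncs p S, F t)) * (shift p I A).proj j := by
          simp only [Matrix.mul_assoc]
      _ = (F (fun _ => s) * (∑ t ∈ ncs p S, F t)) * ((shift p I A).proj j *
          (shift p I A).proj j) := by rw [hNP]; simp only [Matrix.mul_assoc]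
      _ = 0 := by rw [hcN, Matrix.zero_mul]
  · rw [Finset.mul_sum]
    refine Finset.sum_eq_zero fun s _ => ?_
    calc (∑ t ∈ ncs p S, F t) * (shift p I A).proj j * (F (fun _ => s) * (shift p I A).proj j)
        = (∑ t ∈ ncs p S, F t) * ((shift p I A).proj j * F (fun _ => s)) * (shift p I A).proj j := by
          simp only [Matrix.mul_assoc]
      _ = ((∑ t ∈ ncs p S, F t) * F (fun _ => s)) * ((shift p I A).proj j *
          (shift p I A).proj j) := by rw [hcP]; simp only [Matrix.mul_assoc]
      _ = 0 := by rw [hNc, Matrix.zero_mul]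

end additive

end

end Crest.Agent.R204.K357
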