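import Crest.Agent.R204.PsiA_988

/-!
# Row 204, block H, Adams operations (helper988), part B

Class functions on idempotents and their traces.
-/

set_option autoImplicit false
set_option linter.unusedSectionVars false
set_option linter.unusedSimpArgs false

namespace Crest.Agent.R204.Psi988

open Matrix
open scoped Kronecker

/-- a class function on idempotent matrices over `A` with values in `S`: invariant, additive,
multiplicative, unital.  (Ring homs `K₀ A → S`.) -/
structure KCls (A S : Type*) [CommRing A] [CommRing S] where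
  cls : ∀ {ι : Type} [Fintype ι] [DecidableEq ι], Matrix ι ι A → S
  sim : ∀ {ι κ : Type} [Fintype ι] [DecidableEq ι] [Fintype κ] [DecidableEq κ]
    (e : Matrix ι ι A) (f : Matrix κ κ A) (u : Matrix ι κ A) (v : Matrix κ ι A),
    e * e = e → f * f = f → u * v = e → v * u = f → cls e = cls f
  add : ∀ {ι : Type} [Fintype ι] [DecidableEq ι] (e f : Matrix ι ι A),
    e * e = e → f * f = f → e * f = 0 → f * e = 0 → cls (e + f) = cls e + cls f
  mul : ∀ {ι κ : Type} [Fintype ι] [DecidableEq ι] [Fintype κ] [DecidableEq κ]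
    (e : Matrix ι ι A) (f : Matrix κ κ A), e * e = e → f * f = f →
    cls (e ⊗ₖ f) = cls e * cls f
  one : cls (1 : Matrix Unit Unit A) = 1

section basic

variable {A S : Type*} [CommRing A] [CommRing S] (C : KCls A S)
  {ι κ : Type} [Fintype ι] [DecidableEq ι] [Fintype κ] [DecidableEq κ]

lemma KCls.zero : C.cls (0 : Matrix ι ι A) = 0 := by
  have h := C.add (0 : Matrix ι ι A) 0 (by simp) (by simp) (by simp) (by simp)
  rw [add_zero] at h
  simpa using h

lemma KCls.sum {α : Type*} [DecidableEq α] (s : Finset α) (e : α → Matrix ι ι A)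
    (he : ∀ a ∈ s, e a * e a = e a) (ho : ∀ a ∈ s, ∀ b ∈ s, a ≠ b → e a * e b = 0) :
    (∑ a ∈ s, e a) * (∑ a ∈ s, e a) = ∑ a ∈ s, e a ∧
    C.cls (∑ a ∈ s, e a) = ∑ a ∈ s, C.cls (e a) := by
  induction s using Finset.induction_on with
  | empty => simp [C.zero]
  | insert a s ha ih =>
    have he' : ∀ b ∈ s, e b * e b = e b := fun b hb => he b (Finset.mem_insert_of_mem hb)
    have ho' : ∀ b ∈ s, ∀ c ∈ s, b ≠ c → e b * e c = 0 := fun b hb c hc h =>
      ho b (Finset.mem_insert_of_mem hb) c (Finset.mem_insert_of_mem hc) h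
    obtain ⟨h1, h2⟩ := ih he' ho'
    have ha1 : e a * e a = e a := he a (Finset.mem_insert_self a s)
    have h3 : e a * ∑ b ∈ s, e b = 0 := by
      rw [Finset.mul_sum]
      refine Finset.sum_eq_zero fun b hb => ho a (Finset.mem_insert_self a s) b
        (Finset.mem_insert_of_mem hb) ?_
      rintro rfl
      exact ha hb
    have h4 : (∑ b ∈ s, e b) * e a = 0 := by
      rw [Finset.sum_mul]
      refine Finset.sum_eq_zero fun b hb => ho b (Finset.mem_insert_of_mem hb) a
        (Finset.mem_insert_self a s) ?_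
      rintro rfl
      exact ha hb
    rw [Finset.sum_insert ha, Finset.sum_insert ha]
    refine ⟨?_, ?_⟩
    · rw [Matrix.mul_add, Matrix.add_mul, Matrix.add_mul, ha1, h3, h4, h1, add_zero, zero_add]
    · rw [C.add _ _ ha1 h1 h3 h4, h2]

lemma KCls.reindex (φ : ι ≃ κ) (e : Matrix ι ι A) (he : e * e = e) :
    C.cls (e.submatrix φ.symm φ.symm) = C.cls e := by
  refine (C.sim e (e.submatrix φ.symm φ.symm) (e.submatrix id φ.symm) (e.submatrix φ.symm id)
    he ?_ ?_ ?_).symm
  · rw [Matrix.submatrix_mul_equiv, he]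
  · rw [Matrix.submatrix_mul_equiv, he, Matrix.submatrix_id_id]
  · have := Matrix.submatrix_mul_equiv e e φ.symm (Equiv.refl ι) φ.symm
    simp only [Equiv.coe_refl] at this
    rw [this, he]

end basic

/-! ### the values `z^j`, `z` a primitive sixth root of unity over `S` -/

section zl

variable (S : Type*) [CommRing S]

/-- a primitive sixth root of unity in the `2 × 2` matrices -/
def zm : Matrix (Fin 2) (Fin 2) S := !![0, -1; 1, 1]

lemma zm_sq : zm S ^ 2 = !![-1, -1; 1, 0] := by
  rw [sq, zm, Matrix.mul_fin_two]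
  simp

lemma zm_cube : zm S ^ 3 = -1 := by
  rw [pow_succ, zm_sq, zm, Matrix.mul_fin_two]
  ext i j
  fin_cases i <;> fin_cases j <;> simp

lemma zm_six : zm S ^ 6 = 1 := by
  rw [show 6 = 3 * 2 from rfl, pow_mul, zm_cube]
  simp

/-- powers with exponents in `Z/6` -/
def zl (j : ZMod 6) : Matrix (Fin 2) (Fin 2) S := zm S ^ j.val

lemma zl_add (i j : ZMod 6) : zl S (i + j) = zl S i * zl S j := by
  unfold zl
  rw [← pow_add, ZMod.val_add]
  conv_rhs => rw [← Nat.mod_add_div (i.val + j.val) 6]
  rw [pow_add, pow_mul, zm_six, one_pow, mul_one]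

lemma zl_zero : zl S 0 = 1 := by simp [zl]

lemma zl_three : zl S 3 = -1 := by
  have : (3 : ZMod 6).val = 3 := rfl
  rw [zl, this, zm_cube]

lemma zl_two_four : zl S 2 + zl S 4 = -1 := by
  have h2 : (2 : ZMod 6).val = 2 := rfl
  have h4 : (4 : ZMod 6).val = 4 := rfl
  rw [zl, zl, h2, h4, pow_succ (zm S) 3, zm_cube, zm_sq, zm]
  ext i j
  fin_cases i <;> fin_cases j <;> simp

end zl

/-! ### traces -/

section trace

variable {A S : Type*} [CommRing A] [Algebra ℂ A] [CommRing S] (C : KCls A S)
  {ι κ : Type} [Fintype ι] [DecidableEq ι] [Fintype κ] [DecidableEq κ]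

/-- the trace of the action on the idempotent -/
noncomputable def Tr (r : Act ι A) (e : Matrix ι ι A) : Matrix (Fin 2) (Fin 2) S :=
  ∑ j, C.cls (E r e j) • zl S j

lemma Tr_zero (r : Act ι A) : Tr C r 0 = 0 := by
  unfold Tr
  simp [E_zero_mat, C.zero]

/-- (T1) -/
lemma Tr_add {r : Act ι A} {e f : Matrix ι ι A} (he : e * e = e) (hf : f * f = f)
    (hef : e * f = 0) (hfe : f * e = 0) (ce : Com r e) (cf : Com r f) :
    Tr C r (e + f) = Tr C r e + Tr C r f := by
  unfold Tr
  rw [← Finset.sum_add_distrib]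
  refine Finset.sum_congr rfl fun j _ => ?_
  rw [E_add, C.add _ _ (E_idem he ce j) (E_idem hf cf j) (E_mul_E_of_orth ce hef j j)
    (E_mul_E_of_orth cf hfe j j), add_smul]

/-- (T2) -/
lemma Tr_kron {r : Act ι A} {r' : Act κ A} {e : Matrix ι ι A} {f : Matrix κ κ A}
    (he : e * e = e) (hf : f * f = f) (ce : Com r e) (cf : Com r' f) :
    Tr C (r.kron r') (e ⊗ₖ f) = Tr C r e * Tr C r' f := by
  unfold Tr
  have h1 : ∀ j : ZMod 6, C.cls (E (r.kron r') (e ⊗ₖ f) j) =
      ∑ a, C.cls (E r e a) * C.cls (E r' f (j - a)) := by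
    intro j
    rw [E_kron, (C.sum Finset.univ (fun a => E r e a ⊗ₖ E r' f (j - a)) ?_ ?_).2]
    · exact Finset.sum_congr rfl fun a _ => C.mul _ _ (E_idem he ce a) (E_idem hf cf (j - a))
    · intro a _
      rw [← Matrix.mul_kronecker_mul, E_idem he ce, E_idem hf cf]
    · intro a _ b _ hab
      rw [← Matrix.mul_kronecker_mul, E_orth he ce hab, Matrix.zero_kronecker]
  rw [Finset.sum_congr rfl fun j _ => by rw [h1 j], Finset.sum_mul_sum]
  rw [Finset.sum_congr rfl fun j _ => Finset.sum_smul]
  rw [Finset.sum_comm]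
  refine Finset.sum_congr rfl fun a _ => ?_
  rw [← Equiv.sum_comp (Equiv.addLeft a)]
  refine Finset.sum_congr rfl fun b _ => ?_
  rw [Equiv.coe_addLeft, add_sub_cancel_left, zl_add, smul_mul_smul_comm]

/-- (T3) -/
lemma cls_E_sim {r : Act ι A} {r' : Act κ A} {e : Matrix ι ι A} {f : Matrix κ κ A}
    (he : e * e = e) (hf : f * f = f) (ce : Com r e) (cf : Com r' f) (u : Matrix ι κ A)
    (v : Matrix κ ι A) (huv : u * v = e) (hvu : v * u = f)
    (hv : ∀ k, v * r.ρ k = r'.ρ k * v) (j : ZMod 6) :
    C.cls (E r e j) = C.cls (E r' f j) := by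
  have hvE : v * E r e j = E r' f j * v := by
    unfold E
    rw [Matrix.mul_smul, Matrix.smul_mul, Matrix.mul_sum, Matrix.sum_mul]
    congr 1
    refine Finset.sum_congr rfl fun k _ => ?_
    rw [Matrix.mul_smul, Matrix.smul_mul, ← Matrix.mul_assoc, hv k, Matrix.mul_assoc,
      Matrix.mul_assoc, ← huv, ← hvu]
    simp only [Matrix.mul_assoc]
  refine C.sim (E r e j) (E r' f j) (E r e j * u) (v * E r e j) (E_idem he ce j)
    (E_idem hf cf j) ?_ ?_
  · rw [Matrix.mul_assoc, ← Matrix.mul_assoc u v, huv, self_mul_E he ce, E_idem he ce]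
  · calc v * E r e j * (E r e j * u) = v * (E r e j * E r e j) * u := by
          simp only [Matrix.mul_assoc]
      _ = E r' f j * (v * u) := by rw [E_idem he ce, hvE, Matrix.mul_assoc]
      _ = E r' f j := by rw [hvu, E_mul_self hf]

lemma Tr_sim {r : Act ι A} {r' : Act κ A} {e : Matrix ι ι A} {f : Matrix κ κ A}
    (he : e * e = e) (hf : f * f = f) (ce : Com r e) (cf : Com r' f) (u : Matrix ι κ A)
    (v : Matrix κ ι A) (huv : u * v = e) (hvu : v * u = f)
    (hv : ∀ k, v * r.ρ k = r'.ρ k * v) : Tr C r e = Tr C r' f := by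
  unfold Tr
  exact Finset.sum_congr rfl fun j _ => by rw [cls_E_sim C he hf ce cf u v huv hvu hv]

lemma Tr_reindex {r : Act ι A} {e : Matrix ι ι A} (he : e * e = e) (ce : Com r e) (φ : ι ≃ κ) :
    Tr C (r.reindex φ) (e.submatrix φ.symm φ.symm) = Tr C r e := by
  unfold Tr
  refine Finset.sum_congr rfl fun j _ => ?_
  rw [E_reindex, C.reindex φ _ (E_idem he ce j)]

lemma Tr_congr {r r' : Act ι A} {e : Matrix ι ι A} (h : ∀ k, r.ρ k * e = r'.ρ k * e) :
    Tr C r e = Tr C r' e := by
  unfold Tr
  exact Finset.sum_congr rfl fun j _ => by rw [E_congr h]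

/-- (T5) -/
lemma Tr_twist (r : Act ι A) (c : ZMod 6) (e : Matrix ι ι A) :
    Tr C (r.twist c) e = zl S c * Tr C r e := by
  unfold Tr
  rw [Finset.mul_sum, ← Equiv.sum_comp (Equiv.addLeft c)]
  refine Finset.sum_congr rfl fun j _ => ?_
  rw [Equiv.coe_addLeft, E_twist, add_sub_cancel_left, zl_add, mul_smul_comm]

/-- (T4) the trace vanishes on free orbits of length `6 / w` -/
lemma Tr_orbit {w : ℕ} (hw : w = 2 ∨ w = 3) {r : Act ι A} {e q : Matrix ι ι A} (he : e * e = e)
    (ce : Com r e) (hq : q * q = q) (heq : e * q = q)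
    (h1 : ∑ k, r.ρ k * q * r.ρ (-k) = (w : ℂ) • e)
    (h2 : ∀ k, q * r.ρ k * q = if (w : ZMod 6) * k = 0 then q else 0)
    (h3 : ∀ k, (w : ZMod 6) * k = 0 → r.ρ k * e = e) : Tr C r e = 0 := by
  have hw0 : (w : ℂ) ≠ 0 := by rcases hw with rfl | rfl <;> norm_num
  -- the other eigen-projections vanish
  have hz : ∀ j k : ZMod 6, (w : ZMod 6) * k = 0 → j * k ≠ 0 → E r e j = 0 := by
    intro j k hk hjk
    have h4 : r.ρ k * E r e j = E r e j := by
      rw [← self_mul_E he ce j, ← Matrix.mul_assoc, h3 k hk, self_mul_E he ce j]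
    rw [rho_mul_E] at h4
    have h5 : (ch (j * k) - 1) • E r e j = 0 := by rw [sub_smul, h4, one_smul, sub_self]
    have h6 : ch (j * k) - 1 ≠ 0 := fun h => hjk (ch_eq_one (sub_eq_zero.1 h))
    rw [← one_smul ℂ (E r e j), ← inv_mul_cancel₀ h6, mul_smul, h5, smul_zero]
  -- the remaining ones are equivalent to `q`
  have hs : ∀ j : ZMod 6, (∀ k : ZMod 6, (w : ZMod 6) * k = 0 → j * k = 0) →
      C.cls (E r e j) = C.cls q := by
    intro j hj
    refine C.sim (E r e j) q (E r e j * q) (((6 : ℂ) / w) • (q * E r e j)) (E_idem he ce j) hq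
      ?_ ?_
    · have h4 : (6 : ℂ) • (E r e j * q * E r e j) = (w : ℂ) • E r e j := by
        have h5 : ∑ k, E r e j * (r.ρ k * q * r.ρ (-k)) * E r e j = (w : ℂ) • E r e j := by
          rw [← Finset.sum_mul, ← Finset.mul_sum, h1, Matrix.mul_smul, Matrix.smul_mul,
            E_mul_self he, E_idem he ce]
        rw [← h5]
        have h6 : ∀ k : ZMod 6, E r e j * (r.ρ k * q * r.ρ (-k)) * E r e j =
            E r e j * q * E r e j := by
          intro k
          calc E r e j * (r.ρ k * q * r.ρ (-k)) * E r e j =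
              (E r e j * r.ρ k) * q * (r.ρ (-k) * E r e j) := by simp only [Matrix.mul_assoc]
            _ = _ := by
              rw [E_mul_rho ce, rho_mul_E, Matrix.smul_mul, Matrix.smul_mul, Matrix.mul_smul,
                smul_smul, ← ch_add]
              rw [show j * k + j * -k = 0 by ring, ch_zero, one_smul]
        rw [Finset.sum_congr rfl fun k _ => h6 k, Finset.sum_const, Finset.card_univ, ZMod.card,
          ← Nat.cast_smul_eq_nsmul ℂ]
        norm_num
      rw [Matrix.mul_smul, Matrix.mul_assoc, ← Matrix.mul_assoc q q, hq, ← Matrix.mul_assoc,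
        div_eq_mul_inv, mul_comm, mul_smul, h4, smul_smul, inv_mul_cancel₀ hw0, one_smul]
    · have h4 : q * E r e j * q = (6 : ℂ)⁻¹ • (w : ℂ) • q := by
        unfold E
        rw [Matrix.mul_smul, Matrix.smul_mul, Finset.mul_sum, Finset.sum_mul]
        congr 1
        have h5 : ∀ k : ZMod 6, q * ch (-(j * k)) • (r.ρ k * e) * q =
            if (w : ZMod 6) * k = 0 then q else 0 := by
          intro k
          rw [Matrix.mul_smul, Matrix.smul_mul, Matrix.mul_assoc, Matrix.mul_assoc, heq,
            ← Matrix.mul_assoc, h2 k]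
          by_cases hk : (w : ZMod 6) * k = 0
          · rw [if_pos hk, hj k hk, neg_zero, ch_zero, one_smul]
          · rw [if_neg hk, smul_zero]
        rw [Finset.sum_congr rfl fun k _ => h5 k, ← Finset.sum_filter, Finset.sum_const,
          ← Nat.cast_smul_eq_nsmul ℂ]
        congr 2
        rcases hw with rfl | rfl
        · have : (Finset.univ.filter fun k : ZMod 6 => ((2 : ℕ) : ZMod 6) * k = 0).card = 2 := by
            decide
          exact_mod_cast this
        · have : (Finset.univ.filter fun k : ZMod 6 => ((3 : ℕ) : ZMod 6) * k = 0).card = 3 := by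
            decide
          exact_mod_cast this
      rw [Matrix.smul_mul, Matrix.mul_assoc, ← Matrix.mul_assoc (E r e j), E_idem he ce,
        ← Matrix.mul_assoc, h4, smul_smul, smul_smul]
      have h7 : (6 : ℂ) / w * 6⁻¹ * w = 1 := by field_simp
      rw [h7, one_smul]
  unfold Tr
  rcases hw with rfl | rfl
  · -- orbits of length 3
    have e1 : ∀ j ∈ (Finset.univ : Finset (ZMod 6)), C.cls (E r e j) • zl S j =
        if j = 0 then C.cls q • zl S 0 else if j = 2 then C.cls q • zl S 2 else
          if j = 4 then C.cls q • zl S 4 else 0 := by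
      intro j _
      by_cases j0 : j = 0
      · subst j0
        rw [if_pos rfl, hs 0 (by decide)]
      rw [if_neg j0]
      by_cases j2 : j = 2
      · subst j2
        rw [if_pos rfl, hs 2 (by decide)]
      rw [if_neg j2]
      by_cases j4 : j = 4
      · subst j4
        rw [if_pos rfl, hs 4 (by decide)]
      rw [if_neg j4, hz j 3 (by decide) (by revert j; decide), C.zero, zero_smul]
    rw [Finset.sum_congr rfl e1]
    have e2 : ∀ j ∈ (Finset.univ : Finset (ZMod 6)),
        (if j = 0 then C.cls q • zl S 0 else if j = 2 then C.cls q • zl S 2 else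
          if j = 4 then C.cls q • zl S 4 else 0) =
        (if j = 0 then C.cls q • zl S 0 else 0) + (if j = 2 then C.cls q • zl S 2 else 0) +
          (if j = 4 then C.cls q • zl S 4 else 0) := by
      intro j _
      by_cases j0 : j = 0
      · subst j0
        rw [if_pos rfl, if_pos rfl, if_neg (by decide), if_neg (by decide), add_zero, add_zero]
      rw [if_neg j0, if_neg j0]
      by_cases j2 : j = 2
      · subst j2
        rw [if_pos rfl, if_pos rfl, if_neg (by decide), add_zero, zero_add]
      rw [if_neg j2, if_neg j2, zero_add, zero_add]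
    rw [Finset.sum_congr rfl e2, Finset.sum_add_distrib, Finset.sum_add_distrib,
      Finset.sum_ite_eq', Finset.sum_ite_eq', Finset.sum_ite_eq']
    simp only [Finset.mem_univ, if_true]
    rw [add_assoc, ← smul_add, zl_two_four, zl_zero, ← smul_add, add_neg_cancel, smul_zero]
  · have e1 : ∀ j ∈ (Finset.univ : Finset (ZMod 6)), C.cls (E r e j) • zl S j =
        (if j = 0 then C.cls q • zl S 0 else 0) + if j = 3 then C.cls q • zl S 3 else 0 := by
      intro j _
      by_cases j0 : j = 0
      · subst j0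
        rw [if_pos rfl, hs 0 (by decide), if_neg (by decide), add_zero]
      rw [if_neg j0]
      by_cases j3 : j = 3
      · subst j3
        rw [if_pos rfl, hs 3 (by decide), zero_add]
      rw [if_neg j3, add_zero]
      have h7 : j * 2 ≠ 0 := by revert j; decide
      rw [hz j 2 (by decide) h7, C.zero, zero_smul]
    rw [Finset.sum_congr rfl e1, Finset.sum_add_distrib, Finset.sum_ite_eq', Finset.sum_ite_eq']
    simp only [Finset.mem_univ, if_true]
    rw [zl_three, zl_zero, ← smul_add, add_neg_cancel, smul_zero]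

end trace

end Crest.Agent.R204.Psi988
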