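import Crest.Agent.R204.PsiB_357

/-!
# Adams operations on `K0 A` (row 204, block H, leaf H1), part C

Definition of `psi p : K0 A →+* K0 A`.
-/

open Matrix
open scoped Kronecker BigOperators

namespace Crest.Agent.R204.K357

universe u v w

set_option linter.unusedSectionVars false

noncomputable section

section perm

variable {ι : Type*} [Fintype ι] [DecidableEq ι] {A : Type u} [CommRing A]
variable {I J : Type*} [Fintype I] [Fintype J]

open Classical in
/-- permutation matrix on `ι → I` -/
def permMat (I : Type*) (A : Type u) [CommRing A] (σ : Equiv.Perm ι) :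
    Matrix (ι → I) (ι → I) A :=
  Matrix.of fun x y => if (fun k => x (σ k)) = y then 1 else 0

theorem permMat_mul {Y : Type*} (σ : Equiv.Perm ι) (M : Matrix (ι → I) Y A) (x : ι → I)
    (y : Y) : (permMat I A σ * M) x y = M (fun k => x (σ k)) y := by
  classical
  rw [Matrix.mul_apply, Finset.sum_eq_single (fun k => x (σ k))]
  · simp [permMat]
  · intro z _ hz
    simp only [permMat, Matrix.of_apply]
    rw [if_neg (fun h => hz h.symm), zero_mul]
  · simp

theorem mul_permMat {Y : Type*} (σ : Equiv.Perm ι) (M : Matrix Y (ι → I) A) (x : Y)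
    (y : ι → I) : (M * permMat I A σ) x y = M x (fun k => y (σ.symm k)) := by
  classical
  rw [Matrix.mul_apply, Finset.sum_eq_single (fun k => y (σ.symm k))]
  · simp [permMat]
  · intro z _ hz
    simp only [permMat, Matrix.of_apply]
    rw [if_neg, mul_zero]
    intro h
    apply hz
    funext k
    rw [← h]
    simp
  · simp

theorem permMat_mul_symm_mul {Y : Type*} (σ : Equiv.Perm ι) (M : Matrix (ι → I) Y A) :
    permMat I A σ * (permMat I A σ.symm * M) = M := by
  ext x y
  rw [permMat_mul, permMat_mul]
  simp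

theorem mul_permMat_mul_symm {Y : Type*} (σ : Equiv.Perm ι) (M : Matrix Y (ι → I) A) :
    M * permMat I A σ * permMat I A σ.symm = M := by
  ext x y
  rw [mul_permMat, mul_permMat]
  simp

theorem permMat_mul_tp (σ : Equiv.Perm ι) (u : Matrix I J A) :
    permMat I A σ * tp ι u = tp ι u * permMat J A σ := by
  ext x y
  rw [permMat_mul, mul_permMat, tp_apply, tp_apply]
  rw [← Equiv.prod_comp σ (fun k => u (x k) (y (σ.symm k)))]
  simp

end perm

section comp

variable {p : ℕ} [Fact p.Prime] {A : Type u} [CommRing A] [Algebra ℂ A]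
variable {I J : Type*} [Fintype I] [Fintype J]

theorem MRep.mul_sum_proj {X Y : Type*} [Fintype X] (R : MRep p X A) (M : Matrix Y X A) :
    M * ∑ j, R.proj j = M := by
  classical
  rw [R.sum_proj, Matrix.mul_one]

theorem compMat_apply (j : ZMod p) (e : Matrix I I A) (x y : ZMod p → I) :
    compMat p j e x y = ∑ a, ip p A * chi p A (-(j * a)) * ∏ k, e (x k) (y (k - a)) := by
  rw [compMat, MRep.proj, Matrix.mul_sum, Matrix.sum_apply]
  refine Finset.sum_congr rfl fun a _ => ?_
  rw [Matrix.mul_smul, Matrix.smul_apply, shift_rho, mul_shiftMat, tp_apply, smul_eq_mul]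

/-- the nontrivial components are all equivalent -/
theorem cl_compMat_mul {e : Matrix I I A} (he : e * e = e) (c : ZMod p) (hc : c ≠ 0)
    (j : ZMod p) : cl (compMat p (c * j) e) = cl (compMat p j e) := by
  -- permutation `k ↦ c⁻¹ k`
  set σ : Equiv.Perm (ZMod p) := (Equiv.mulLeft₀ c hc).symm with hσ
  have hσa : ∀ k, σ k = c⁻¹ * k := fun k => rfl
  have hσs : ∀ k, σ.symm k = c * k := fun k => rfl
  have h1 : ∀ a, (shift p I A).ρ a * permMat I A σ = permMat I A σ * (shift p I A).ρ (c * a) := by
    intro a
    ext x y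
    rw [shift_rho, shift_rho, shiftMat_mul, permMat_mul, permMat, shiftMat, Matrix.of_apply,
      Matrix.of_apply]
    have : (fun k => x (σ k + a)) = fun k => x (σ (k + c * a)) := by
      funext k
      rw [hσa, hσa]
      congr 1
      field_simp
    by_cases h : (fun k => x (σ k + a)) = y
    · rw [if_pos h, if_pos (this.symm.trans h)]
    · rw [if_neg h, if_neg (fun h' => h (this.trans h'))]
  refine cl_comp_eq (tp_idem he) (tp_idem he) (MRep.proj_idem _ _) (MRep.proj_idem _ _)
    (proj_mul_tp _ e).symm (proj_mul_tp _ e).symm (permMat I A σ * tp (ZMod p) e)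
    (tp (ZMod p) e * permMat I A σ.symm) ?_ ?_ ?_
  · calc permMat I A σ * tp (ZMod p) e * (tp (ZMod p) e * permMat I A σ.symm)
        = permMat I A σ * ((tp (ZMod p) e * tp (ZMod p) e) * permMat I A σ.symm) := by
          simp only [Matrix.mul_assoc]
      _ = tp (ZMod p) e := by
          rw [tp_idem he, ← permMat_mul_tp, permMat_mul_symm_mul]
  · calc (tp (ZMod p) e * permMat I A σ.symm) * (permMat I A σ * tp (ZMod p) e)
        = tp (ZMod p) e * (permMat I A σ.symm * (permMat I A σ.symm.symm * tp (ZMod p) e)) := by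
          simp only [Matrix.mul_assoc, Equiv.symm_symm]
      _ = tp (ZMod p) e := by rw [permMat_mul_symm_mul, tp_idem he]
  · rw [← Matrix.mul_assoc, MRep.proj_mul_of_mul _ _ _ c hc h1, Matrix.mul_assoc, proj_mul_tp,
      Matrix.mul_assoc]

theorem V.comp_eq_comp_one (i : ZMod p) (hi : i ≠ 0) (x : V A) :
    V.comp p i x = V.comp p 1 x := by
  induction x using V.ind with
  | _ n e he =>
    rw [V.comp_cl i he, V.comp_cl 1 he]
    have := cl_compMat_mul he i hi 1
    rwa [mul_one] at this

theorem V.comp_zero (j : ZMod p) : V.comp p j (0 : V A) = 0 := by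
  rw [cl_zero_def, V.comp_cl j (by simp)]
  have : compMat p j (0 : Matrix Empty Empty A) = 0 := by
    rw [compMat, tp_def, tpf_zero _ 0 rfl, Matrix.zero_mul]
  rw [this, cl_zero, ← cl_zero_def]

/-- additivity up to a term independent of `j` -/
theorem V.comp_add (x y : V A) : ∃ z : V A, ∀ j : ZMod p,
    V.comp p j (x + y) = V.comp p j x + V.comp p j y + z := by
  induction x using V.ind with
  | _ n e he =>
  induction y using V.ind with
  | _ m f hf =>
    set E : Bool → Matrix (Fin n ⊕ Fin m) (Fin n ⊕ Fin m) A :=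
      fun b => if b then fromBlocks e 0 0 0 else fromBlocks 0 0 0 f with hE
    have hEt : E true = fromBlocks e 0 0 0 := rfl
    have hEf : E false = fromBlocks 0 0 0 f := rfl
    have hEi : ∀ s, E s * E s = E s := by
      intro s
      cases s
      · simp [hEf, fromBlocks_multiply, hf]
      · simp [hEt, fromBlocks_multiply, he]
    have hEo : ∀ s s', s ≠ s' → E s * E s' = 0 := by
      intro s s' hs
      cases s <;> cases s' <;> simp_all [fromBlocks_multiply]
    have hsum : ∑ s, E s = fromBlocks e 0 0 f := by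
      rw [Fintype.sum_bool, hEt, hEf, fromBlocks_add]
      simp
    have h1 : cl (E true) = cl e := by
      rw [hEt, cl_sum he (by simp), cl_zero, add_zero]
    have h2 : cl (E false) = cl f := by
      rw [hEf, cl_sum (by simp) hf, cl_zero, zero_add]
    refine ⟨cl ((∑ t ∈ ncs p Bool, tpf (fun k => E (t k))) *
      (shift p (Fin n ⊕ Fin m) A).proj 0), fun j => ?_⟩
    have h3 := cl_compMat_sum (p := p) E hEi hEo j
    rw [hsum, ← V.comp_cl j (idem_sum he hf), Fintype.sum_bool, ← V.comp_cl j (hEi true),
      ← V.comp_cl j (hEi false), h1, h2, cl_sum he hf] at h3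
    exact h3

theorem tp_kron_equiv (j : ZMod p) {e : Matrix I I A} {f : Matrix J J A} (he : e * e = e)
    (hf : f * f = f) : cl (compMat p j (e ⊗ₖ f)) =
      cl ((tp (ZMod p) e ⊗ₖ tp (ZMod p) f) * ((shift p I A).kron (shift p J A)).proj j) := by
  refine cl_of_equiv (compMat_idem j (idem_kron he hf))
    (Equiv.arrowProdEquivProdArrow (ZMod p) (fun _ => I) (fun _ => J)) ?_
  intro x y
  rw [compMat_apply, MRep.proj, Matrix.mul_sum, Matrix.sum_apply]
  refine Finset.sum_congr rfl fun a _ => ?_
  have h3 : ((shift p I A).kron (shift p J A)).ρ a = shiftMat p I A a ⊗ₖ shiftMat p J A a := rfl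
  rw [Matrix.mul_smul, Matrix.smul_apply, h3, ← mul_kronecker_mul, kroneckerMap_apply,
    mul_shiftMat, mul_shiftMat, tp_apply, tp_apply, smul_eq_mul, ← Finset.prod_mul_distrib]
  rfl

/-- components of a product -/
theorem V.comp_mul (j : ZMod p) (x y : V A) :
    V.comp p j (x * y) = ∑ i, V.comp p i x * V.comp p (j - i) y := by
  classical
  induction x using V.ind with
  | _ n e he =>
  induction y using V.ind with
  | _ m f hf =>
    rw [← cl_kron he hf, V.comp_cl j (idem_kron he hf), tp_kron_equiv j he hf, MRep.proj_kron,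
      Finset.mul_sum]
    have h1 : ∀ i, (tp (ZMod p) e ⊗ₖ tp (ZMod p) f) * ((shift p (Fin n) A).proj i ⊗ₖ
        (shift p (Fin m) A).proj (j - i)) = compMat p i e ⊗ₖ compMat p (j - i) f := by
      intro i
      rw [← mul_kronecker_mul]; rfl
    rw [Finset.sum_congr rfl fun i _ => h1 i, cl_finset_sum]
    · refine Finset.sum_congr rfl fun i _ => ?_
      rw [cl_kron (compMat_idem i he) (compMat_idem _ hf), V.comp_cl i he, V.comp_cl _ hf]
    · intro i _
      exact idem_kron (compMat_idem i he) (compMat_idem _ hf)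
    · intro i _ l _ hil
      rw [← mul_kronecker_mul]
      have : compMat p i e * compMat p l e = 0 := by
        rw [compMat, compMat]
        calc tp (ZMod p) e * (shift p (Fin n) A).proj i * (tp (ZMod p) e *
              (shift p (Fin n) A).proj l)
            = tp (ZMod p) e * ((shift p (Fin n) A).proj i * tp (ZMod p) e) *
              (shift p (Fin n) A).proj l := by simp only [Matrix.mul_assoc]
          _ = (tp (ZMod p) e * tp (ZMod p) e) * ((shift p (Fin n) A).proj i *
              (shift p (Fin n) A).proj l) := by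
              rw [proj_mul_tp]; simp only [Matrix.mul_assoc]
          _ = 0 := by rw [MRep.proj_orth _ hil, Matrix.mul_zero]
      rw [this, zero_kronecker]

/-- `tp` of a class is a power -/
theorem cl_tp_fin (n : ℕ) {e : Matrix I I A} (he : e * e = e) :
    cl (tp (Fin n) e) = (cl e) ^ n := by
  induction n with
  | zero =>
    rw [pow_zero, cl_one_def]
    refine cl_of_equiv (tp_idem he) (Equiv.equivPUnit _) ?_
    intro x y
    simp
  | succ n ih =>
    rw [pow_succ', ← ih, ← cl_kron he (tp_idem he)]
    refine (cl_of_equiv (idem_kron he (tp_idem he)) (Fin.consEquiv (fun _ => I)) ?_).symm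
    rintro ⟨x, x'⟩ ⟨y, y'⟩
    simp [Fin.prod_univ_succ, Fin.consEquiv]

theorem cl_tp {ι : Type*} [Fintype ι] [DecidableEq ι] {e : Matrix I I A} (he : e * e = e) :
    cl (tp ι e) = (cl e) ^ Fintype.card ι := by
  rw [← cl_tp_fin _ he]
  refine cl_of_equiv (tp_idem he) ((Fintype.equivFin ι).arrowCongr (Equiv.refl I)) ?_
  intro x y
  rw [tp_apply, tp_apply]
  rw [← Equiv.prod_comp (Fintype.equivFin ι)]
  simp

/-- the sum of all components is the `p`-th power -/
theorem V.sum_comp (x : V A) : ∑ j, V.comp p j x = x ^ p := by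
  classical
  induction x using V.ind with
  | _ n e he =>
    have h := cl_tp (ι := ZMod p) he
    rw [ZMod.card] at h
    rw [← h]
    have h2 : tp (ZMod p) e = ∑ j, compMat p j e := by
      simp only [compMat]
      rw [← Finset.mul_sum, MRep.mul_sum_proj]
    rw [h2, cl_finset_sum]
    · exact Finset.sum_congr rfl fun j _ => V.comp_cl j he
    · intro i _
      exact compMat_idem i he
    · intro i _ l _ hil
      rw [compMat, compMat]
      calc tp (ZMod p) e * (shift p (Fin n) A).proj i * (tp (ZMod p) e *
              (shift p (Fin n) A).proj l)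
            = tp (ZMod p) e * ((shift p (Fin n) A).proj i * tp (ZMod p) e) *
              (shift p (Fin n) A).proj l := by simp only [Matrix.mul_assoc]
          _ = (tp (ZMod p) e * tp (ZMod p) e) * ((shift p (Fin n) A).proj i *
              (shift p (Fin n) A).proj l) := by
              rw [proj_mul_tp]; simp only [Matrix.mul_assoc]
          _ = 0 := by rw [MRep.proj_orth _ hil, Matrix.mul_zero]

/-- an idempotent of rank one -/
def IsLine (e : Matrix I I A) : Prop := ∀ i j k l, e i j * e k l = e i l * e k j

theorem IsLine.tp_perm {ι : Type*} [Fintype ι] [DecidableEq ι] {e : Matrix I I A}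
    (hl : IsLine e) (σ : Equiv.Perm ι) (x y : ι → I) :
    ∏ k, e (x k) (y (σ k)) = ∏ k, e (x k) (y k) := by
  induction σ using Equiv.Perm.swap_induction_on' with
  | one => simp
  | mul_swap f a b hab ih =>
    rw [← ih]
    rw [← Finset.mul_prod_erase _ _ (Finset.mem_univ a),
      ← Finset.mul_prod_erase _ _ (Finset.mem_erase.2 ⟨hab.symm, Finset.mem_univ b⟩),
      ← Finset.mul_prod_erase Finset.univ (fun k => e (x k) (y (f k))) (Finset.mem_univ a),
      ← Finset.mul_prod_erase _ (fun k => e (x k) (y (f k)))
        (Finset.mem_erase.2 ⟨hab.symm, Finset.mem_univ b⟩)]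
    rw [← mul_assoc, ← mul_assoc]
    congr 1
    · simp only [Equiv.Perm.mul_apply, Equiv.swap_apply_left, Equiv.swap_apply_right]
      rw [hl]
    · refine Finset.prod_congr rfl fun k hk => ?_
      rw [Finset.mem_erase, Finset.mem_erase] at hk
      rw [Equiv.Perm.mul_apply, Equiv.swap_apply_of_ne_of_ne hk.2.1 hk.1]

theorem IsLine.tp_mul_rho {e : Matrix I I A} (hl : IsLine e) (a : ZMod p) :
    tp (ZMod p) e * (shift p I A).ρ a = tp (ZMod p) e := by
  ext x y
  rw [shift_rho, mul_shiftMat, tp_apply, tp_apply]
  have := hl.tp_perm (Equiv.subRight a) x y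
  simpa using this

theorem IsLine.compMat {e : Matrix I I A} (hl : IsLine e) (j : ZMod p) :
    compMat p j e = if j = 0 then tp (ZMod p) e else 0 := by
  rw [K357.compMat, MRep.mul_proj_of_eigen _ _ 0 (fun a => by
    rw [zero_mul, chi_zero, one_smul, hl.tp_mul_rho])]
  by_cases h : j = 0
  · simp [h]
  · rw [if_neg h, if_neg (Ne.symm h)]

/-- components of a line -/
theorem IsLine.comp {e : Matrix I I A} (he : e * e = e) (hl : IsLine e) (j : ZMod p) :
    V.comp p j (cl e) = if j = 0 then (cl e) ^ p else 0 := by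
  rw [V.comp_cl j he, hl.compMat]
  split_ifs
  · rw [cl_tp he, ZMod.card]
  · exact cl_zero

theorem isLine_one : IsLine (1 : Matrix Unit Unit A) := by
  intro i j k l
  simp

end comp

/-! ### the operation -/

section psi

variable (p : ℕ) [Fact p.Prime] (A : Type u) [CommRing A] [Algebra ℂ A]

/-- the Adams operation on classes -/
def psiV : V A →+* K0 A where
  toFun x := K0.of (V.comp p 0 x) - K0.of (V.comp p 1 x)
  map_zero' := by rw [V.comp_zero, V.comp_zero, sub_self]
  map_one' := by
    rw [cl_one_def, IsLine.comp (by simp) isLine_one, IsLine.comp (by simp) isLine_one,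
      if_pos rfl, if_neg one_ne_zero, ← cl_one_def, one_pow, K0.of_one, map_zero, sub_zero]
  map_add' x y := by
    obtain ⟨z, hz⟩ := V.comp_add (p := p) x y
    rw [hz, hz, map_add, map_add, map_add, map_add]
    abel
  map_mul' x y := by
    have hx : ∀ i : ZMod p, K0.of (V.comp p i x) = K0.of (V.comp p 1 x) +
        (if i = 0 then K0.of (V.comp p 0 x) - K0.of (V.comp p 1 x) else 0) := by
      intro i
      split_ifs with h
      · rw [h]; abel
      · rw [V.comp_eq_comp_one i h, add_zero]
    have hy : ∀ i : ZMod p, K0.of (V.comp p i y) = K0.of (V.comp p 1 y) +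
        (if i = 0 then K0.of (V.comp p 0 y) - K0.of (V.comp p 1 y) else 0) := by
      intro i
      split_ifs with h
      · rw [h]; abel
      · rw [V.comp_eq_comp_one i h, add_zero]
    have key : ∀ j : ZMod p, K0.of (V.comp p j (x * y)) =
        (p : K0 A) * (K0.of (V.comp p 1 x) * K0.of (V.comp p 1 y)) +
        (K0.of (V.comp p 0 x) - K0.of (V.comp p 1 x)) * K0.of (V.comp p 1 y) +
        K0.of (V.comp p 1 x) * (K0.of (V.comp p 0 y) - K0.of (V.comp p 1 y)) +
        (if j = 0 then (K0.of (V.comp p 0 x) - K0.of (V.comp p 1 x)) *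
          (K0.of (V.comp p 0 y) - K0.of (V.comp p 1 y)) else 0) := by
      intro j
      rw [V.comp_mul, map_sum]
      have h1 : ∀ i : ZMod p, K0.of (V.comp p i x * V.comp p (j - i) y) =
          K0.of (V.comp p 1 x) * K0.of (V.comp p 1 y) +
          (if i = 0 then (K0.of (V.comp p 0 x) - K0.of (V.comp p 1 x)) *
            K0.of (V.comp p 1 y) else 0) +
          (if i = j then K0.of (V.comp p 1 x) *
            (K0.of (V.comp p 0 y) - K0.of (V.comp p 1 y)) else 0) +
          (if i = 0 then (if j = 0 then (K0.of (V.comp p 0 x) - K0.of (V.comp p 1 x)) *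
            (K0.of (V.comp p 0 y) - K0.of (V.comp p 1 y)) else 0) else 0) := by
        intro i
        rw [K0.of_mul, hx i, hy (j - i)]
        by_cases h : i = 0
        · subst h
          by_cases h' : j = 0
          · subst h'
            simp
            ring
          · have h'' : ¬ (0 : ZMod p) = j := fun h => h' h.symm
            simp [h', h'']
            ring
        · by_cases h' : i = j
          · subst h'
            simp [h]
            ring
          · have h'' : ¬ (j - i = 0) := fun h => h' (sub_eq_zero.1 h).symm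
            simp [h, h', h'']
      rw [Finset.sum_congr rfl fun i _ => h1 i, Finset.sum_add_distrib, Finset.sum_add_distrib,
        Finset.sum_add_distrib, Finset.sum_const, Finset.card_univ, ZMod.card, nsmul_eq_mul]
      simp
    rw [key 0, key 1, if_pos rfl, if_neg one_ne_zero]
    ring

/-- **The Adams operation** `ψ^p`, `p` prime, on the Grothendieck ring of idempotent matrices over a
commutative `ℂ`-algebra. -/
def psi : K0 A →+* K0 A := K0.liftRing (psiV p A)

variable {p A}

theorem psi_of (x : V A) : psi p A (K0.of x) = K0.of (V.comp p 0 x) - K0.of (V.comp p 1 x) :=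
  K0.liftRing_of _ _

/-- naturality of components -/
theorem V.comp_map {B : Type v} [CommRing B] [Algebra ℂ B] (φ : A →ₐ[ℂ] B) (j : ZMod p) (x : V A) :
    V.comp p j (V.mapAdd (φ : A →+* B) x) = V.mapAdd (φ : A →+* B) (V.comp p j x) := by
  induction x using V.ind with
  | _ n e he =>
    rw [V.mapAdd_cl _ he, V.comp_cl j (idem_map _ he), V.comp_cl j he,
      V.mapAdd_cl _ (compMat_idem j he)]
    congr 1
    ext x y
    rw [Matrix.map_apply, compMat_apply, compMat_apply, map_sum]
    refine Finset.sum_congr rfl fun a _ => ?_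
    rw [map_mul, map_mul, map_prod]
    simp [ip, chi]

/-- naturality of the Adams operations -/
theorem psi_map {B : Type v} [CommRing B] [Algebra ℂ B] (φ : A →ₐ[ℂ] B) (x : K0 A) :
    psi p B (K0.map (φ : A →+* B) x) = K0.map (φ : A →+* B) (psi p A x) := by
  have key : ∀ y : V A, psi p B (K0.map (φ : A →+* B) (K0.of y)) =
      K0.map (φ : A →+* B) (psi p A (K0.of y)) := by
    intro y
    rw [K0.map_of, psi_of, psi_of, map_sub, K0.map_of, K0.map_of, V.comp_map, V.comp_map]
  induction x using K0.ind with
  | _ n m e f he hf =>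
    rw [map_sub, map_sub, map_sub, map_sub, K0.cls_def, K0.cls_def, key, key]

/-- the Adams operation on a line -/
theorem psi_line {I : Type*} [Fintype I] {e : Matrix I I A} (he : e * e = e) (hl : IsLine e) :
    psi p A (K0.cls e) = K0.cls e ^ p := by
  rw [K0.cls_def, psi_of, hl.comp he, hl.comp he, if_pos rfl, if_neg one_ne_zero, map_zero,
    sub_zero, ← K0.ofRing_apply, map_pow]
  rfl

/-- `x ^ p = ψ^p x + p * (component)` for classes of idempotents -/
theorem psi_of_pow (x : V A) : (K0.of x) ^ p = psi p A (K0.of x) + p * K0.of (V.comp p 1 x) := by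
  have h : (K0.of x) ^ p = K0.of (x ^ p) := by
    rw [← K0.ofRing_apply, ← K0.ofRing_apply, map_pow]
  rw [h, ← V.sum_comp, map_sum, psi_of]
  have hx : ∀ i : ZMod p, K0.of (V.comp p i x) = K0.of (V.comp p 1 x) +
        (if i = 0 then K0.of (V.comp p 0 x) - K0.of (V.comp p 1 x) else 0) := by
      intro i
      split_ifs with h
      · rw [h]; abel
      · rw [V.comp_eq_comp_one i h, add_zero]
  rw [Finset.sum_congr rfl fun i _ => hx i, Finset.sum_add_distrib, Finset.sum_const,
    Finset.card_univ, ZMod.card, nsmul_eq_mul]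
  simp
  ring

/-- `ψ² x ≡ x² mod 2` -/
theorem psi_two (x : K0 A) : ∃ y : K0 A, psi 2 A x = x ^ 2 + 2 * y := by
  obtain ⟨n, m, e, f, he, hf, rfl⟩ := K0.exists_rep x
  have h1 := psi_of_pow (p := 2) (cl e)
  have h2 := psi_of_pow (p := 2) (cl f)
  rw [K0.cls_def, K0.cls_def]
  refine ⟨-K0.of (V.comp 2 1 (cl e)) + K0.of (V.comp 2 1 (cl f)) - K0.of (cl f) ^ 2 +
    K0.of (cl e) * K0.of (cl f), ?_⟩
  rw [map_sub]
  have h3 : psi 2 A (K0.of (cl e)) = K0.of (cl e) ^ 2 - 2 * K0.of (V.comp 2 1 (cl e)) := by
    rw [h1]; push_cast; ring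
  have h4 : psi 2 A (K0.of (cl f)) = K0.of (cl f) ^ 2 - 2 * K0.of (V.comp 2 1 (cl f)) := by
    rw [h2]; push_cast; ring
  rw [h3, h4]
  ring

/-- `ψ^p (L - 1) = p (L - 1)` for a line with `(L - 1)^2 = 0` -/
theorem psi_line_sub_one {I : Type*} [Fintype I] {e : Matrix I I A} (he : e * e = e)
    (hl : IsLine e) (h : (K0.cls e - 1) * (K0.cls e - 1) = 0) :
    psi p A (K0.cls e - 1) = p * (K0.cls e - 1) := by
  have h1 : ∀ n : ℕ, (K0.cls e) ^ n = 1 + n * (K0.cls e - 1) := by
    intro n
    induction n with
    | zero => simp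
    | succ n ih =>
      rw [pow_succ, ih]
      have : (1 + (n : K0 A) * (K0.cls e - 1)) * K0.cls e =
          1 + ((n : K0 A) + 1) * (K0.cls e - 1) + n * ((K0.cls e - 1) * (K0.cls e - 1)) := by ring
      rw [this, h]
      push_cast
      ring
  rw [map_sub, map_one, psi_line he hl, h1]
  ring

end psi

end

end Crest.Agent.R204.K357
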