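import Crest.Agent.R204.PsiB_988

/-!
# Row 204, block H, Adams operations (helper988), part C

Permutation actions, `ψ²`.
-/

set_option autoImplicit false
set_option linter.unusedSectionVars false
set_option linter.unusedSimpArgs false
set_option linter.unusedVariables false

namespace Crest.Agent.R204.Psi988

open Matrix
open scoped Kronecker

lemma sum6 {M : Type*} [AddCommMonoid M] (f : ZMod 6 → M) :
    ∑ k, f k = f 0 + f 1 + f 2 + f 3 + f 4 + f 5 := Fin.sum_univ_six f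

lemma all6 {p : ZMod 6 → Prop} (h0 : p 0) (h1 : p 1) (h2 : p 2) (h3 : p 3) (h4 : p 4)
    (h5 : p 5) : ∀ k, p k := by
  intro k
  fin_cases k <;> assumption

/-! ### permutation matrices -/

section perm

variable {A : Type*} [CommRing A] {α β : Type} [Fintype α] [DecidableEq α] [Fintype β]
  [DecidableEq β]

variable (A) in
/-- permutation matrix -/
def pm (σ : Equiv.Perm α) : Matrix α α A := Matrix.of fun x y => if x = σ y then 1 else 0

lemma pm_mul_mat (σ : Equiv.Perm α) (M : Matrix α β A) : pm A σ * M = M.submatrix σ.symm id := by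
  ext x y
  rw [Matrix.mul_apply, Matrix.submatrix_apply, id]
  rw [Finset.sum_eq_single (σ.symm x)]
  · simp [pm]
  · intro z _ hz
    have : x ≠ σ z := fun h => hz (by rw [h, Equiv.symm_apply_apply])
    simp [pm, this]
  · simp

lemma mat_mul_pm (σ : Equiv.Perm α) (M : Matrix β α A) : M * pm A σ = M.submatrix id σ := by
  ext x y
  rw [Matrix.mul_apply, Matrix.submatrix_apply, id]
  rw [Finset.sum_eq_single (σ y)]
  · simp [pm]
  · intro z _ hz
    simp [pm, hz]
  · simp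

lemma pm_one : pm A (1 : Equiv.Perm α) = 1 := by
  ext x y
  by_cases h : x = y
  · subst h
    simp [pm]
  · rw [Matrix.one_apply_ne h]
    simp [pm, h]

lemma pm_mul (σ τ : Equiv.Perm α) : pm A (σ * τ) = pm A σ * pm A τ := by
  rw [pm_mul_mat]
  ext x y
  simp only [pm, Matrix.of_apply, Matrix.submatrix_apply, id, Equiv.Perm.mul_apply]
  congr 1
  rw [eq_iff_iff, Equiv.symm_apply_eq]

lemma pow_val_add {σ : Equiv.Perm α} (h : σ ^ 6 = 1) (a b : ZMod 6) :
    σ ^ (a + b).val = σ ^ a.val * σ ^ b.val := by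
  rw [← pow_add, ZMod.val_add]
  conv_rhs => rw [← Nat.mod_add_div (a.val + b.val) 6]
  rw [pow_add, pow_mul, h, one_pow, mul_one]

/-- action by powers of a permutation -/
def actPerm (σ : Equiv.Perm α) (h : σ ^ 6 = 1) : Act α A where
  ρ k := pm A (σ ^ k.val)
  zero := by simp [pm_one]
  add a b := by rw [pow_val_add h, pm_mul]

lemma submatrix_pow {σ : Equiv.Perm α} {M : Matrix α α A} (h : M.submatrix σ σ = M) (n : ℕ) :
    M.submatrix (σ ^ n : Equiv.Perm α) (σ ^ n : Equiv.Perm α) = M := by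
  induction n with
  | zero => simp
  | succ n ih =>
    calc M.submatrix (σ ^ (n + 1) : Equiv.Perm α) (σ ^ (n + 1) : Equiv.Perm α) =
        (M.submatrix (σ ^ n : Equiv.Perm α) (σ ^ n : Equiv.Perm α)).submatrix σ σ := by
          rw [pow_succ]; rfl
      _ = M := by rw [ih, h]

lemma pm_comm {σ : Equiv.Perm α} {M : Matrix α α A} (h : M.submatrix σ σ = M) :
    pm A σ * M = M * pm A σ := by
  rw [pm_mul_mat, mat_mul_pm]
  conv_lhs => rw [← h]
  rw [Matrix.submatrix_submatrix]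
  congr 1
  funext x
  simp

variable [Algebra ℂ A]

lemma com_perm {σ : Equiv.Perm α} (h6 : σ ^ 6 = 1) {M : Matrix α α A}
    (h : M.submatrix σ σ = M) : Com (actPerm σ h6) M := fun k => pm_comm (submatrix_pow h _)

lemma pm_conj (σ : Equiv.Perm α) (M : Matrix α α A) :
    pm A σ * M * pm A σ⁻¹ = M.submatrix σ.symm σ.symm := by
  rw [pm_mul_mat, mat_mul_pm]
  rfl

end perm

/-! ### eigen-projections of actions of small order -/

section small

variable {A S : Type*} [CommRing A] [Algebra ℂ A] [CommRing S] (C : KCls A S)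
  {ι κ : Type} [Fintype ι] [DecidableEq ι] [Fintype κ] [DecidableEq κ]

lemma E_eq_zero {r : Act ι A} {e : Matrix ι ι A} (he : e * e = e) (ce : Com r e)
    {j k : ZMod 6} (h : r.ρ k * e = e) (hjk : j * k ≠ 0) : E r e j = 0 := by
  have h4 : r.ρ k * E r e j = E r e j := by
    rw [← self_mul_E he ce j, ← Matrix.mul_assoc, h, self_mul_E he ce j]
  rw [rho_mul_E] at h4
  have h5 : (ch (j * k) - 1) • E r e j = 0 := by rw [sub_smul, h4, one_smul, sub_self]
  have h6 : ch (j * k) - 1 ≠ 0 := fun h => hjk (ch_eq_one (sub_eq_zero.1 h))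
  rw [← one_smul ℂ (E r e j), ← inv_mul_cancel₀ h6, mul_smul, h5, smul_zero]

lemma Tr_two {r : Act ι A} {e : Matrix ι ι A} (he : e * e = e) (ce : Com r e)
    (h : r.ρ 2 * e = e) : Tr C r e = (C.cls (E r e 0) - C.cls (E r e 3)) • 1 := by
  unfold Tr
  rw [sum6, E_eq_zero he ce h (show (1 : ZMod 6) * 2 ≠ 0 by decide),
    E_eq_zero he ce h (show (2 : ZMod 6) * 2 ≠ 0 by decide),
    E_eq_zero he ce h (show (4 : ZMod 6) * 2 ≠ 0 by decide),
    E_eq_zero he ce h (show (5 : ZMod 6) * 2 ≠ 0 by decide), C.zero, zl_zero, zl_three, sub_smul]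
  simp [sub_eq_add_neg]

lemma Tr_three {r : Act ι A} {e : Matrix ι ι A} (he : e * e = e) (ce : Com r e)
    (h : r.ρ 3 * e = e) (h24 : C.cls (E r e 2) = C.cls (E r e 4)) :
    Tr C r e = (C.cls (E r e 0) - C.cls (E r e 2)) • 1 := by
  unfold Tr
  rw [sum6, E_eq_zero he ce h (show (1 : ZMod 6) * 3 ≠ 0 by decide),
    E_eq_zero he ce h (show (3 : ZMod 6) * 3 ≠ 0 by decide),
    E_eq_zero he ce h (show (5 : ZMod 6) * 3 ≠ 0 by decide), C.zero, zl_zero, ← h24, sub_smul]
  simp only [zero_smul, add_zero]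
  rw [add_assoc, ← smul_add, zl_two_four, smul_neg, sub_eq_add_neg]

lemma smul_one_inj {a b : S} (h : a • (1 : Matrix (Fin 2) (Fin 2) S) = b • 1) : a = b := by
  have := congrFun (congrFun h 0) 0
  simpa using this

end small

/-! ### `ψ²` -/

section psi2

variable {A S : Type*} [CommRing A] [Algebra ℂ A] [CommRing S] (C : KCls A S)
  {ι κ : Type} [Fintype ι] [DecidableEq ι] [Fintype κ] [DecidableEq κ]

/-- the swap -/
def sg (ι : Type) : Equiv.Perm (ι × ι) := Equiv.prodComm ι ι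

lemma sg_sq : sg ι ^ 2 = 1 := by
  ext x <;> simp [sg, sq]

lemma sg_six : sg ι ^ 6 = 1 := by
  rw [show 6 = 2 * 3 from rfl, pow_mul, sg_sq, one_pow]

lemma sg_symm : (sg ι).symm = sg ι := rfl

/-- the swap action -/
noncomputable def sw (ι : Type) [Fintype ι] [DecidableEq ι] (A : Type*) [CommRing A] :
    Act (ι × ι) A := actPerm (sg ι) sg_six

lemma sw_even {k : ZMod 6} (h : k.val % 2 = 0) : (sw ι A).ρ k = 1 := by
  change pm A (sg ι ^ k.val) = 1
  rw [← Nat.div_add_mod k.val 2, h, add_zero, pow_mul, sg_sq, one_pow, pm_one]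

lemma sw_odd {k : ZMod 6} (h : k.val % 2 = 1) : (sw ι A).ρ k = pm A (sg ι) := by
  change pm A (sg ι ^ k.val) = _
  rw [← Nat.div_add_mod k.val 2, h, pow_succ, pow_mul, sg_sq, one_pow, one_mul]

lemma sg_kron (M : Matrix ι κ A) (N : Matrix ι κ A) :
    (M ⊗ₖ N).submatrix (sg ι) (sg κ) = N ⊗ₖ M := by
  ext ⟨a, b⟩ ⟨c, d⟩
  simp [sg, Matrix.kroneckerMap_apply, mul_comm]

lemma com_sw (e : Matrix ι ι A) : Com (sw ι A) (e ⊗ₖ e) := com_perm sg_six (sg_kron e e)

lemma com_sw2 (e f : Matrix ι ι A) : Com (sw ι A) (e ⊗ₖ f + f ⊗ₖ e) := by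
  refine com_perm sg_six ?_
  rw [Matrix.submatrix_add, Pi.add_apply, Pi.add_apply, sg_kron, sg_kron, add_comm]

lemma kron_idem {e : Matrix ι ι A} {f : Matrix κ κ A} (he : e * e = e) (hf : f * f = f) :
    (e ⊗ₖ f) * (e ⊗ₖ f) = e ⊗ₖ f := by rw [← Matrix.mul_kronecker_mul, he, hf]

/-- `ψ²` of a class function, on matrices -/
noncomputable def KCls.p2 (e : Matrix ι ι A) : S :=
  C.cls (E (sw ι A) (e ⊗ₖ e) 0) - C.cls (E (sw ι A) (e ⊗ₖ e) 3)

lemma sw_two : (sw ι A).ρ 2 = 1 := sw_even rfl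

lemma Tr_sw {e : Matrix ι ι A} (he : e * e = e) : Tr C (sw ι A) (e ⊗ₖ e) = C.p2 e • 1 :=
  Tr_two C (kron_idem he he) (com_sw e) (by rw [sw_two, Matrix.one_mul])

/-- mixed terms do not contribute -/
lemma Tr_sw_mixed {e f : Matrix ι ι A} (he : e * e = e) (hf : f * f = f) (hef : e * f = 0)
    (hfe : f * e = 0) : Tr C (sw ι A) (e ⊗ₖ f + f ⊗ₖ e) = 0 := by
  have i1 := kron_idem he hf
  have i2 := kron_idem hf he
  have o1 : (e ⊗ₖ f) * (f ⊗ₖ e) = 0 := by
    rw [← Matrix.mul_kronecker_mul, hef, Matrix.zero_kronecker]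
  have o2 : (f ⊗ₖ e) * (e ⊗ₖ f) = 0 := by
    rw [← Matrix.mul_kronecker_mul, hfe, Matrix.zero_kronecker]
  have cj : pm A (sg ι) * (e ⊗ₖ f) * pm A (sg ι) = f ⊗ₖ e := by
    have := pm_conj (A := A) (sg ι) (e ⊗ₖ f)
    rw [sg_symm, sg_kron] at this
    exact this
  have cj2 : (e ⊗ₖ f) * pm A (sg ι) * (e ⊗ₖ f) = 0 := by
    have h1 : pm A (sg ι) * (e ⊗ₖ f) = (f ⊗ₖ e) * pm A (sg ι) := by
      rw [pm_mul_mat, mat_mul_pm, sg_symm, ← sg_kron f e, Matrix.submatrix_submatrix]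
      congr 1
    rw [Matrix.mul_assoc, h1, ← Matrix.mul_assoc, o1, Matrix.zero_mul]
  refine Tr_orbit C (w := 3) (Or.inr rfl) (q := e ⊗ₖ f) ?_ (com_sw2 e f) i1 ?_ ?_ ?_ ?_
  · rw [Matrix.mul_add, Matrix.add_mul, Matrix.add_mul, i1, i2, o1, o2, add_zero, zero_add]
  · rw [Matrix.add_mul, i1, o2, add_zero]
  · have n0 : (-0 : ZMod 6) = 0 := by decide
    have n1 : (-1 : ZMod 6) = 5 := by decide
    have n2 : (-2 : ZMod 6) = 4 := by decide
    have n3 : (-3 : ZMod 6) = 3 := by decide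
    have n4 : (-4 : ZMod 6) = 2 := by decide
    have n5 : (-5 : ZMod 6) = 1 := by decide
    rw [sum6, n0, n1, n2, n3, n4, n5, sw_even (k := 0) rfl, sw_odd (k := 1) rfl,
      sw_even (k := 2) rfl, sw_odd (k := 3) rfl, sw_even (k := 4) rfl, sw_odd (k := 5) rfl, cj,
      Matrix.one_mul, Matrix.mul_one]
    have : ((3 : ℕ) : ℂ) = 1 + 1 + 1 := by norm_num
    rw [this, add_smul, add_smul, one_smul]
    abel
  · refine all6 ?_ ?_ ?_ ?_ ?_ ?_
    · rw [sw_even (k := 0) rfl, Matrix.mul_one, i1, if_pos (by decide)]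
    · rw [sw_odd (k := 1) rfl, cj2, if_neg (by decide)]
    · rw [sw_even (k := 2) rfl, Matrix.mul_one, i1, if_pos (by decide)]
    · rw [sw_odd (k := 3) rfl, cj2, if_neg (by decide)]
    · rw [sw_even (k := 4) rfl, Matrix.mul_one, i1, if_pos (by decide)]
    · rw [sw_odd (k := 5) rfl, cj2, if_neg (by decide)]
  · refine all6 ?_ ?_ ?_ ?_ ?_ ?_
    · intro _; rw [sw_even (k := 0) rfl, Matrix.one_mul]
    · intro h; exact absurd h (by decide)
    · intro _; rw [sw_even (k := 2) rfl, Matrix.one_mul]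
    · intro h; exact absurd h (by decide)
    · intro _; rw [sw_even (k := 4) rfl, Matrix.one_mul]
    · intro h; exact absurd h (by decide)

lemma p2_add {e f : Matrix ι ι A} (he : e * e = e) (hf : f * f = f) (hef : e * f = 0)
    (hfe : f * e = 0) : C.p2 (e + f) = C.p2 e + C.p2 f := by
  have hs : (e + f) * (e + f) = e + f := by
    rw [Matrix.mul_add, Matrix.add_mul, Matrix.add_mul, he, hf, hef, hfe, add_zero, zero_add]
  apply smul_one_inj
  rw [← Tr_sw C hs, add_smul, ← Tr_sw C he, ← Tr_sw C hf]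
  have e1 : (e + f) ⊗ₖ (e + f) = (e ⊗ₖ e + f ⊗ₖ f) + (e ⊗ₖ f + f ⊗ₖ e) := by
    rw [Matrix.add_kronecker, Matrix.kronecker_add, Matrix.kronecker_add]
    abel
  have i1 := kron_idem he hf
  have i2 := kron_idem hf he
  have i3 := kron_idem he he
  have i4 := kron_idem hf hf
  have z : ∀ a b c d : Matrix ι ι A, a * c = 0 ∨ b * d = 0 → (a ⊗ₖ b) * (c ⊗ₖ d) = 0 := by
    intro a b c d h
    rw [← Matrix.mul_kronecker_mul]
    rcases h with h | h
    · rw [h, Matrix.zero_kronecker]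
    · rw [h, Matrix.kronecker_zero]
  have o1 : (e ⊗ₖ e) * (f ⊗ₖ f) = 0 := z _ _ _ _ (Or.inl hef)
  have o2 : (f ⊗ₖ f) * (e ⊗ₖ e) = 0 := z _ _ _ _ (Or.inl hfe)
  rw [e1, Tr_add C ?_ ?_ ?_ ?_ ((com_sw e).add (com_sw f)) (com_sw2 e f),
    Tr_add C i3 i4 o1 o2 (com_sw e) (com_sw f), Tr_sw_mixed C he hf hef hfe, add_zero]
  · rw [Matrix.mul_add, Matrix.add_mul, Matrix.add_mul, i3, i4, o1, o2, add_zero, zero_add]
  · rw [Matrix.mul_add, Matrix.add_mul, Matrix.add_mul, i1, i2, z e f f e (Or.inl hef),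
      z f e e f (Or.inl hfe), add_zero, zero_add]
  · rw [Matrix.mul_add, Matrix.add_mul, Matrix.add_mul, z e e e f (Or.inr hef),
      z f f e f (Or.inl hfe), z e e f e (Or.inl hef), z f f f e (Or.inr hfe)]
    simp
  · rw [Matrix.mul_add, Matrix.add_mul, Matrix.add_mul, z e f e e (Or.inr hfe),
      z f e e e (Or.inl hfe), z e f f f (Or.inl hef), z f e f f (Or.inr hef)]
    simp

lemma p2_sim {e : Matrix ι ι A} {f : Matrix κ κ A} (u : Matrix ι κ A) (v : Matrix κ ι A)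
    (he : e * e = e) (hf : f * f = f) (huv : u * v = e) (hvu : v * u = f) :
    C.p2 e = C.p2 f := by
  have hv : ∀ k, (v ⊗ₖ v) * (sw ι A).ρ k = (sw κ A).ρ k * (v ⊗ₖ v) := by
    intro k
    rcases Nat.mod_two_eq_zero_or_one k.val with h | h
    · rw [sw_even h, sw_even h, Matrix.mul_one, Matrix.one_mul]
    · rw [sw_odd h, sw_odd h, pm_mul_mat, mat_mul_pm, sg_symm]
      conv_rhs => rw [← sg_kron v v]
      rw [Matrix.submatrix_submatrix]
      congr 1
  have h1 := fun j => cls_E_sim C (kron_idem he he) (kron_idem hf hf) (com_sw e) (com_sw f)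
    (u ⊗ₖ u) (v ⊗ₖ v) (by rw [← Matrix.mul_kronecker_mul, huv])
    (by rw [← Matrix.mul_kronecker_mul, hvu]) hv j
  unfold KCls.p2
  rw [h1, h1]

/-- the middle-four exchange -/
def mid (ι κ : Type) : (ι × ι) × (κ × κ) ≃ (ι × κ) × (ι × κ) := Equiv.prodProdProdComm ι ι κ κ

lemma mid_kron (M : Matrix ι ι A) (M' : Matrix ι ι A) (N N' : Matrix κ κ A) :
    ((M ⊗ₖ M') ⊗ₖ (N ⊗ₖ N')).submatrix (mid ι κ).symm (mid ι κ).symm =
      (M ⊗ₖ N) ⊗ₖ (M' ⊗ₖ N') := by
  ext ⟨⟨a, b⟩, ⟨c, d⟩⟩ ⟨⟨a', b'⟩, ⟨c', d'⟩⟩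
  simp [mid, Equiv.prodProdProdComm, Matrix.kroneckerMap_apply, mul_mul_mul_comm]

lemma mid_sw : ((sw ι A).kron (sw κ A)).reindex (mid ι κ) = sw (ι × κ) A := by
  apply Act.ext
  funext k
  change ((sw ι A).ρ k ⊗ₖ (sw κ A).ρ k).submatrix (mid ι κ).symm (mid ι κ).symm =
    (sw (ι × κ) A).ρ k
  rcases Nat.mod_two_eq_zero_or_one k.val with h | h
  · rw [sw_even h, sw_even h, sw_even h, Matrix.one_kronecker_one, Matrix.submatrix_one_equiv]
  · rw [sw_odd h, sw_odd h, sw_odd h]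
    ext ⟨⟨a, b⟩, ⟨c, d⟩⟩ ⟨⟨a', b'⟩, ⟨c', d'⟩⟩
    simp only [mid, Equiv.prodProdProdComm, Matrix.kroneckerMap_apply, pm, sg,
      Matrix.submatrix_apply, Matrix.of_apply, Equiv.coe_fn_symm_mk, Equiv.prodComm_apply,
      Prod.swap_prod_mk, Prod.mk.injEq, mul_ite, mul_one, mul_zero, ite_mul, one_mul, zero_mul]
    by_cases h1 : a = c' <;> by_cases h2 : c = a' <;> by_cases h3 : b = d' <;>
      by_cases h4 : d = b' <;> simp [h1, h2, h3, h4]

lemma p2_mul {e : Matrix ι ι A} {f : Matrix κ κ A} (he : e * e = e) (hf : f * f = f) :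
    C.p2 (e ⊗ₖ f) = C.p2 e * C.p2 f := by
  apply smul_one_inj
  rw [← Tr_sw C (kron_idem he hf), ← mid_kron, ← mid_sw,
    Tr_reindex C (kron_idem (kron_idem he he) (kron_idem hf hf))
      ((com_sw e).kron (com_sw f)), Tr_kron C (kron_idem he he) (kron_idem hf hf) (com_sw e)
      (com_sw f), Tr_sw C he, Tr_sw C hf, smul_mul_smul_comm, one_mul]

lemma cls_one_of_equiv {α : Type} [Fintype α] [DecidableEq α] (φ : Unit ≃ α) :
    C.cls (1 : Matrix α α A) = 1 := by
  rw [← C.one]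
  have h := C.reindex φ (1 : Matrix Unit Unit A) (by simp)
  rw [Matrix.submatrix_one_equiv] at h
  exact h

lemma E_triv {r : Act ι A} {e : Matrix ι ι A} (he : e * e = e) (ce : Com r e)
    (h : ∀ k, r.ρ k * e = e) (j : ZMod 6) : E r e j = if j = 0 then e else 0 := by
  by_cases hj : j = 0
  · subst hj
    rw [if_pos rfl]
    have h1 := sum_E r e
    rw [Finset.sum_eq_single (0 : ZMod 6)] at h1
    · exact h1
    · intro b _ hb
      exact E_eq_zero he ce (h 1) (by rwa [mul_one])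
    · simp
  · rw [if_neg hj]
    exact E_eq_zero he ce (h 1) (by rwa [mul_one])

lemma p2_one : C.p2 (1 : Matrix Unit Unit A) = 1 := by
  have h1 : ∀ k, (sw Unit A).ρ k = 1 := by
    intro k
    change pm A (sg Unit ^ k.val) = 1
    rw [← pm_one]
    congr 1
    exact Subsingleton.elim _ _
  unfold KCls.p2
  rw [Matrix.one_kronecker_one, E_triv (by simp) (fun k => by rw [h1]) (fun k => by rw [h1]; simp),
    E_triv (by simp) (fun k => by rw [h1]) (fun k => by rw [h1]; simp), if_pos rfl,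
    if_neg (by decide), C.zero, sub_zero, cls_one_of_equiv C (Equiv.prodPUnit Unit).symm]

/-- **`ψ²`** -/
noncomputable def KCls.psi2 : KCls A S where
  cls := fun e => C.p2 e
  sim := fun _ _ u v he hf huv hvu => p2_sim C u v he hf huv hvu
  add := fun _ _ he hf hef hfe => p2_add C he hf hef hfe
  mul := fun _ _ he hf => p2_mul C he hf
  one := p2_one C

/-- `ψ² ≡ square mod 2` -/
lemma psi2_eq (e : Matrix ι ι A) (he : e * e = e) :
    C.psi2.cls e = C.cls e ^ 2 - 2 * C.cls (E (sw ι A) (e ⊗ₖ e) 3) := by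
  have h1 : C.cls (e ⊗ₖ e) = C.cls (E (sw ι A) (e ⊗ₖ e) 0) + C.cls (E (sw ι A) (e ⊗ₖ e) 3) := by
    have he2 := kron_idem he he
    have hz := fun {j : ZMod 6} (hj : j * 2 ≠ 0) => E_eq_zero (r := sw ι A) he2 (com_sw e)
      (j := j) (k := 2) (by rw [sw_two, Matrix.one_mul]) hj
    conv_lhs => rw [← sum_E (sw ι A) (e ⊗ₖ e)]
    rw [sum6, hz (j := 1) (by decide), hz (j := 2) (by decide), hz (j := 4) (by decide),
      hz (j := 5) (by decide)]
    simp only [add_zero]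
    exact C.add _ _ (E_idem he2 (com_sw e) 0) (E_idem he2 (com_sw e) 3)
      (E_orth he2 (com_sw e) (by decide)) (E_orth he2 (com_sw e) (by decide))
  rw [C.mul e e he he] at h1
  change C.p2 e = _
  unfold KCls.p2
  rw [sq, h1]
  ring

/-- `ψ²` of a rank one idempotent is its square -/
lemma psi2_line (e : Matrix ι ι A) (he : e * e = e)
    (h : ∀ i j k l, e i j * e k l = e i l * e k j) : C.psi2.cls e = C.cls e ^ 2 := by
  have h1 : ∀ k, (sw ι A).ρ k * (e ⊗ₖ e) = e ⊗ₖ e := by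
    intro k
    rcases Nat.mod_two_eq_zero_or_one k.val with hk | hk
    · rw [sw_even hk, Matrix.one_mul]
    · rw [sw_odd hk, pm_mul_mat]
      ext ⟨a, b⟩ ⟨c, d⟩
      simp only [sg, Equiv.prodComm_symm, Matrix.submatrix_apply, Equiv.prodComm_apply,
        Prod.swap_prod_mk, id, Matrix.kroneckerMap_apply]
      rw [h b c a d, mul_comm]
  change C.p2 e = _
  unfold KCls.p2
  rw [E_triv (kron_idem he he) (com_sw e) h1, E_triv (kron_idem he he) (com_sw e) h1,
    if_pos rfl, if_neg (by decide), C.zero, sub_zero, C.mul e e he he, sq]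

end psi2

end Crest.Agent.R204.Psi988
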