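import Crest.Agent.R204.PsiC_988

/-!
# Row 204, block H, Adams operations (helper988), part D

Shift lemma, products of commuting actions, the cyclic action, `ψ³`.
-/

set_option autoImplicit false
set_option linter.unusedSectionVars false
set_option linter.unusedSimpArgs false
set_option linter.unusedVariables false

namespace Crest.Agent.R204.Psi988

open Matrix
open scoped Kronecker

/-! ### induction on `Z/6` -/

lemma zind {p : ZMod 6 → Prop} (h0 : p 0) (h1 : ∀ k, p k → p (k + 1)) : ∀ k, p k := by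
  intro k
  rw [← ZMod.natCast_zmod_val k]
  generalize k.val = n
  induction n with
  | zero => simpa using h0
  | succ n ih => rw [Nat.cast_succ]; exact h1 _ ih

section shift

variable {A S : Type*} [CommRing A] [Algebra ℂ A] [CommRing S] (C : KCls A S)
  {ι κ : Type} [Fintype ι] [DecidableEq ι] [Fintype κ] [DecidableEq κ]

lemma act_ext_one {r r' : Act ι A} (h : r.ρ 1 = r'.ρ 1) : r = r' := by
  apply Act.ext
  funext k
  revert k
  refine zind ?_ ?_
  · rw [r.zero, r'.zero]
  · intro k hk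
    rw [r.add, r'.add, hk, h]

lemma shift_all {r : Act ι A} {s : Matrix ι ι A} {c : ZMod 6}
    (h : r.ρ 1 * s = ch c • (s * r.ρ 1)) : ∀ k, r.ρ k * s = ch (c * k) • (s * r.ρ k) := by
  refine zind ?_ ?_
  · rw [r.zero, mul_zero, ch_zero, one_smul, Matrix.one_mul, Matrix.mul_one]
  · intro k hk
    rw [r.add, Matrix.mul_assoc, h, Matrix.mul_smul, ← Matrix.mul_assoc, hk, Matrix.smul_mul,
      smul_smul, ← ch_add, Matrix.mul_assoc]
    congr 2
    ring

/-- **shift lemma** -/
lemma cls_E_shift {r : Act ι A} {e s s' : Matrix ι ι A} (he : e * e = e) (ce : Com r e)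
    (h1 : s * s' = e) (h2 : s' * s = e) (h3 : e * s = s) (h4 : s * e = s) {c : ZMod 6}
    (h : r.ρ 1 * s = ch c • (s * r.ρ 1)) (j : ZMod 6) :
    C.cls (E r e j) = C.cls (E r e (j - c)) := by
  have hs := shift_all h
  have hE : E r e j * s = s * E r e (j - c) := by
    unfold E
    rw [Matrix.smul_mul, Matrix.mul_smul, Finset.sum_mul, Finset.mul_sum]
    congr 1
    refine Finset.sum_congr rfl fun k _ => ?_
    rw [Matrix.smul_mul, Matrix.mul_smul, Matrix.mul_assoc, h3, hs k, smul_smul, ← ch_add,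
      ← Matrix.mul_assoc s, ce k |> fun t => show s * r.ρ k * e = s * r.ρ k from ?_]
    · congr 2
      ring
    · rw [Matrix.mul_assoc, t, ← Matrix.mul_assoc, h4]
  refine C.sim (E r e j) (E r e (j - c)) (E r e j * s) (s' * E r e j) (E_idem he ce j)
    (E_idem he ce (j - c)) ?_ ?_
  · calc E r e j * s * (s' * E r e j) = E r e j * (s * s') * E r e j := by
          simp only [Matrix.mul_assoc]
      _ = E r e j := by rw [h1, E_mul_self he, E_idem he ce]
  · calc s' * E r e j * (E r e j * s) = s' * (E r e j * E r e j * s) := by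
          simp only [Matrix.mul_assoc]
      _ = (s' * s) * E r e (j - c) := by rw [E_idem he ce, hE, Matrix.mul_assoc]
      _ = E r e (j - c) := by rw [h2, self_mul_E he ce]

lemma zl_add_three (j : ZMod 6) : zl S j + zl S (j + 3) = 0 := by
  rw [zl_add, zl_three, mul_neg, mul_one, add_neg_cancel]

lemma zl_add_two_four (j : ZMod 6) : zl S j + zl S (j + 2) + zl S (j + 4) = 0 := by
  rw [zl_add, zl_add, add_assoc, ← mul_add, zl_two_four, mul_neg, mul_one, add_neg_cancel]

/-- induced actions have trace zero, index two -/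
lemma Tr_shift_two {r : Act ι A} {e s s' : Matrix ι ι A} (he : e * e = e) (ce : Com r e)
    (h1 : s * s' = e) (h2 : s' * s = e) (h3 : e * s = s) (h4 : s * e = s)
    (h : r.ρ 1 * s = ch 3 • (s * r.ρ 1)) : Tr C r e = 0 := by
  have hc := cls_E_shift C he ce h1 h2 h3 h4 h
  have a3 : C.cls (E r e 3) = C.cls (E r e 0) := hc 3
  have a4 : C.cls (E r e 4) = C.cls (E r e 1) := hc 4
  have a5 : C.cls (E r e 5) = C.cls (E r e 2) := hc 5
  have z0 := zl_add_three (S := S) 0
  have z1 := zl_add_three (S := S) 1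
  have z2 := zl_add_three (S := S) 2
  rw [show (0 : ZMod 6) + 3 = 3 by decide] at z0
  rw [show (1 : ZMod 6) + 3 = 4 by decide] at z1
  rw [show (2 : ZMod 6) + 3 = 5 by decide] at z2
  unfold Tr
  rw [sum6, a3, a4, a5]
  calc C.cls (E r e 0) • zl S 0 + C.cls (E r e 1) • zl S 1 + C.cls (E r e 2) • zl S 2 +
        C.cls (E r e 0) • zl S 3 + C.cls (E r e 1) • zl S 4 + C.cls (E r e 2) • zl S 5 =
      C.cls (E r e 0) • (zl S 0 + zl S 3) + C.cls (E r e 1) • (zl S 1 + zl S 4) +
        C.cls (E r e 2) • (zl S 2 + zl S 5) := by simp only [smul_add]; abel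
    _ = 0 := by rw [z0, z1, z2]; simp

/-- induced actions have trace zero, index three -/
lemma Tr_shift_three {r : Act ι A} {e s s' : Matrix ι ι A} (he : e * e = e) (ce : Com r e)
    (h1 : s * s' = e) (h2 : s' * s = e) (h3 : e * s = s) (h4 : s * e = s)
    (h : r.ρ 1 * s = ch 2 • (s * r.ρ 1)) : Tr C r e = 0 := by
  have hc := cls_E_shift C he ce h1 h2 h3 h4 h
  have a2 : C.cls (E r e 2) = C.cls (E r e 0) := hc 2
  have a3 : C.cls (E r e 3) = C.cls (E r e 1) := hc 3
  have a4 : C.cls (E r e 4) = C.cls (E r e 2) := hc 4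
  have a5 : C.cls (E r e 5) = C.cls (E r e 3) := hc 5
  have z0 := zl_add_two_four (S := S) 0
  have z1 := zl_add_two_four (S := S) 1
  rw [show (0 : ZMod 6) + 2 = 2 by decide, show (0 : ZMod 6) + 4 = 4 by decide] at z0
  rw [show (1 : ZMod 6) + 2 = 3 by decide, show (1 : ZMod 6) + 4 = 5 by decide] at z1
  unfold Tr
  rw [sum6, a5, a4, a3, a2]
  calc C.cls (E r e 0) • zl S 0 + C.cls (E r e 1) • zl S 1 + C.cls (E r e 0) • zl S 2 +
        C.cls (E r e 1) • zl S 3 + C.cls (E r e 0) • zl S 4 + C.cls (E r e 1) • zl S 5 =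
      C.cls (E r e 0) • (zl S 0 + zl S 2 + zl S 4) +
        C.cls (E r e 1) • (zl S 1 + zl S 3 + zl S 5) := by simp only [smul_add]; abel
    _ = 0 := by rw [z0, z1]; simp

/-- product of commuting actions -/
def Act.mul (r r' : Act ι A) (h : ∀ k l, r.ρ k * r'.ρ l = r'.ρ l * r.ρ k) : Act ι A where
  ρ k := r.ρ k * r'.ρ k
  zero := by rw [r.zero, r'.zero, Matrix.one_mul]
  add a b := by
    rw [r.add, r'.add]
    calc r.ρ a * r.ρ b * (r'.ρ a * r'.ρ b) = r.ρ a * (r.ρ b * r'.ρ a) * r'.ρ b := by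
          simp only [Matrix.mul_assoc]
      _ = _ := by rw [h b a]; simp only [Matrix.mul_assoc]

lemma Com.mul {r r' : Act ι A} {h : ∀ k l, r.ρ k * r'.ρ l = r'.ρ l * r.ρ k} {e : Matrix ι ι A}
    (h1 : Com r e) (h2 : Com r' e) : Com (r.mul r' h) e := by
  intro k
  change r.ρ k * r'.ρ k * e = e * (r.ρ k * r'.ρ k)
  rw [Matrix.mul_assoc, h2 k, ← Matrix.mul_assoc, h1 k, Matrix.mul_assoc]

/-- conjugation invariance -/
lemma cls_conj {e g g' : Matrix ι ι A} (he : e * e = e) (h : g' * g = 1) :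
    C.cls (g * e * g') = C.cls e := by
  have hi : g * e * g' * (g * e * g') = g * e * g' := by
    calc g * e * g' * (g * e * g') = g * e * (g' * g) * e * g' := by
          simp only [Matrix.mul_assoc]
      _ = _ := by rw [h, Matrix.mul_one, Matrix.mul_assoc g, he]
  refine C.sim _ _ (g * e) (e * g') hi he ?_ ?_
  · calc g * e * (e * g') = g * (e * e) * g' := by simp only [Matrix.mul_assoc]
      _ = _ := by rw [he]
  · calc e * g' * (g * e) = e * (g' * g) * e := by simp only [Matrix.mul_assoc]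
      _ = _ := by rw [h, Matrix.mul_one, he]

end shift

end Crest.Agent.R204.Psi988
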