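import Crest.Agent.R204.PsiD_988

/-!
# Row 204, block H, Adams operations (helper988), part E

`ψ³`.
-/

set_option autoImplicit false
set_option linter.unusedSectionVars false
set_option linter.unusedSimpArgs false
set_option linter.unusedVariables false

namespace Crest.Agent.R204.Psi988

open Matrix
open scoped Kronecker

/-! ### the cyclic permutation -/

/-- the cyclic permutation of three factors -/
def cyc (ι : Type) : Equiv.Perm (ι × (ι × ι)) where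
  toFun x := (x.2.2, (x.1, x.2.1))
  invFun x := (x.2.1, (x.2.2, x.1))
  left_inv _ := rfl
  right_inv _ := rfl

lemma cyc_cube (ι : Type) : cyc ι ^ 3 = 1 := by
  ext x <;> rfl

lemma cyc_six (ι : Type) : cyc ι ^ 6 = 1 := by
  rw [show 6 = 3 * 2 from rfl, pow_mul, cyc_cube, one_pow]

/-- the reflection -/
def rfl3 (ι : Type) : Equiv.Perm (ι × (ι × ι)) where
  toFun x := (x.1, (x.2.2, x.2.1))
  invFun x := (x.1, (x.2.2, x.2.1))
  left_inv _ := rfl
  right_inv _ := rfl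

lemma rfl3_cyc (ι : Type) : rfl3 ι * cyc ι = cyc ι ^ 5 * rfl3 ι := by
  ext x <;> rfl

lemma rfl3_sq (ι : Type) : rfl3 ι * rfl3 ι = 1 := by
  ext x <;> rfl

section psi3

variable {A S : Type*} [CommRing A] [Algebra ℂ A] [CommRing S] (C : KCls A S)
  {ι κ : Type} [Fintype ι] [DecidableEq ι] [Fintype κ] [DecidableEq κ]

/-- the cyclic action -/
noncomputable def cy (ι : Type) [Fintype ι] [DecidableEq ι] (A : Type*) [CommRing A] :
    Act (ι × (ι × ι)) A := actPerm (cyc ι) (cyc_six ι)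

lemma cy_one : (cy ι A).ρ 1 = pm A (cyc ι) := by
  change pm A (cyc ι ^ (1 : ZMod 6).val) = _
  rw [show (1 : ZMod 6).val = 1 from rfl, pow_one]

lemma cy_three : (cy ι A).ρ 3 = 1 := by
  change pm A (cyc ι ^ (3 : ZMod 6).val) = _
  rw [show (3 : ZMod 6).val = 3 from rfl, cyc_cube, pm_one]

/-- the triple tensor product -/
abbrev k3 (M N P : Matrix ι κ A) : Matrix (ι × (ι × ι)) (κ × (κ × κ)) A := M ⊗ₖ (N ⊗ₖ P)

lemma cyc_k3 (M N P : Matrix ι κ A) :
    (k3 M N P).submatrix (cyc ι) (cyc κ) = k3 N P M := by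
  ext ⟨a, b, c⟩ ⟨a', b', c'⟩
  simp only [cyc, Matrix.submatrix_apply, Equiv.coe_fn_mk, Matrix.kroneckerMap_apply]
  ring

lemma cyc_symm_k3 (M N P : Matrix ι κ A) :
    (k3 M N P).submatrix (cyc ι).symm (cyc κ).symm = k3 P M N := by
  ext ⟨a, b, c⟩ ⟨a', b', c'⟩
  simp only [cyc, Matrix.submatrix_apply, Equiv.coe_fn_symm_mk, Matrix.kroneckerMap_apply]
  ring

lemma pm_cyc_k3 (M N P : Matrix ι κ A) :
    pm A (cyc ι) * k3 M N P = k3 P M N * pm A (cyc κ) := by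
  rw [pm_mul_mat, mat_mul_pm]
  ext ⟨a, b, c⟩ ⟨a', b', c'⟩
  simp only [cyc, Matrix.submatrix_apply, Equiv.coe_fn_symm_mk, Equiv.coe_fn_mk,
    Matrix.kroneckerMap_apply, id]
  ring

lemma pm_rfl3_k3 (M N P : Matrix ι κ A) :
    pm A (rfl3 ι) * k3 M N P = k3 M P N * pm A (rfl3 κ) := by
  rw [pm_mul_mat, mat_mul_pm]
  ext ⟨a, b, c⟩ ⟨a', b', c'⟩
  simp only [rfl3, Matrix.submatrix_apply, Equiv.coe_fn_symm_mk, Equiv.coe_fn_mk,
    Matrix.kroneckerMap_apply, id]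
  ring

lemma com_cy (e : Matrix ι ι A) : Com (cy ι A) (k3 e e e) :=
  com_perm (cyc_six ι) (cyc_k3 e e e)

lemma k3_mul (M N P M' N' P' : Matrix ι ι A) :
    k3 M N P * k3 M' N' P' = k3 (M * M') (N * N') (P * P') := by
  rw [← Matrix.mul_kronecker_mul, ← Matrix.mul_kronecker_mul]

lemma k3_idem {e f g : Matrix ι ι A} (he : e * e = e) (hf : f * f = f) (hg : g * g = g) :
    k3 e f g * k3 e f g = k3 e f g := by rw [k3_mul, he, hf, hg]

/-- `cls E₂ = cls E₄` for the cyclic action -/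
lemma cy_two_four {e : Matrix ι ι A} (he : e * e = e) :
    C.cls (E (cy ι A) (k3 e e e) 2) = C.cls (E (cy ι A) (k3 e e e) 4) := by
  have hi := k3_idem he he he
  have hr2 : pm A (rfl3 ι) * pm A (rfl3 ι) = 1 := by rw [← pm_mul, rfl3_sq, pm_one]
  have hk : ∀ k : ZMod 6, pm A (rfl3 ι) * (cy ι A).ρ k = (cy ι A).ρ (-k) * pm A (rfl3 ι) := by
    refine zind ?_ ?_
    · rw [neg_zero, (cy ι A).zero, Matrix.mul_one, Matrix.one_mul]
    · intro k hk
      have h5 : (cy ι A).ρ (-1) = pm A (cyc ι ^ 5) := by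
        change pm A (cyc ι ^ (-1 : ZMod 6).val) = _
        rw [show (-1 : ZMod 6).val = 5 from rfl]
      have h1 : pm A (rfl3 ι) * (cy ι A).ρ 1 = (cy ι A).ρ (-1) * pm A (rfl3 ι) := by
        rw [cy_one, h5, ← pm_mul, ← pm_mul, rfl3_cyc]
      rw [(cy ι A).add, ← Matrix.mul_assoc, hk, Matrix.mul_assoc, h1, ← Matrix.mul_assoc,
        ← (cy ι A).add]
      congr 2
      ring
  have hE : pm A (rfl3 ι) * E (cy ι A) (k3 e e e) 2 * pm A (rfl3 ι) =
      E (cy ι A) (k3 e e e) 4 := by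
    unfold E
    rw [Matrix.mul_smul, Matrix.smul_mul, Finset.mul_sum, Finset.sum_mul]
    congr 1
    rw [← Equiv.sum_comp (Equiv.neg (ZMod 6))]
    refine Finset.sum_congr rfl fun k _ => ?_
    rw [Equiv.neg_apply, Matrix.mul_smul, Matrix.smul_mul, ← Matrix.mul_assoc, hk, neg_neg,
      Matrix.mul_assoc, Matrix.mul_assoc, ← Matrix.mul_assoc (pm A (rfl3 ι)), pm_rfl3_k3,
      Matrix.mul_assoc (k3 e e e), hr2, Matrix.mul_one]
    congr 2
    have h6 : (6 : ZMod 6) = 0 := by decide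
    linear_combination k * h6
  rw [← hE, cls_conj C (E_idem hi (com_cy e) 2) hr2]

/-- `ψ³` of a class function, on matrices -/
noncomputable def KCls.p3 (e : Matrix ι ι A) : S :=
  C.cls (E (cy ι A) (k3 e e e) 0) - C.cls (E (cy ι A) (k3 e e e) 2)

lemma Tr_cy {e : Matrix ι ι A} (he : e * e = e) :
    Tr C (cy ι A) (k3 e e e) = C.p3 e • 1 :=
  Tr_three C (k3_idem he he he) (com_cy e) (by rw [cy_three, Matrix.one_mul]) (cy_two_four C he)

/-! ### tensor powers of actions -/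

lemma sw_comm (M : Matrix ι ι A) (k : ZMod 6) : (sw ι A).ρ k * (M ⊗ₖ M) = (M ⊗ₖ M) * (sw ι A).ρ k :=
  com_sw M k

/-- `sw · (r ⊗ r)` -/
noncomputable def R2 (r : Act ι A) : Act (ι × ι) A :=
  (sw ι A).mul (r.kron r) fun k l => com_sw (r.ρ l) k

/-- `cy · (r ⊗ r ⊗ r)` -/
noncomputable def R3 (r : Act ι A) : Act (ι × (ι × ι)) A :=
  (cy ι A).mul (r.kron (r.kron r)) fun k l => com_cy (r.ρ l) k

lemma com_R2 {r : Act ι A} {e : Matrix ι ι A} (h : Com r e) : Com (R2 r) (e ⊗ₖ e) :=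
  Com.mul (com_sw e) (h.kron h)

lemma com_R3 {r : Act ι A} {e : Matrix ι ι A} (h : Com r e) : Com (R3 r) (k3 e e e) :=
  Com.mul (com_cy e) (h.kron (h.kron h))

lemma Com.sub {r : Act ι A} {e f : Matrix ι ι A} (he : Com r e) (hf : Com r f) :
    Com r (e - f) := fun k => by rw [Matrix.mul_sub, Matrix.sub_mul, he k, hf k]

lemma Com.smul {r : Act ι A} {e : Matrix ι ι A} (he : Com r e) (c : ℂ) :
    Com r (c • e) := fun k => by rw [Matrix.mul_smul, Matrix.smul_mul, he k]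

lemma R2_mul (r : Act ι A) (k : ZMod 6) (M : Matrix (ι × ι) (ι × ι) A)
    (h : Com (r.kron r) M) : (R2 r).ρ k * M = (sw ι A).ρ k * M * (r.kron r).ρ k := by
  change (sw ι A).ρ k * (r.kron r).ρ k * M = _
  rw [Matrix.mul_assoc, h k, Matrix.mul_assoc]

lemma R3_mul (r : Act ι A) (k : ZMod 6) (M : Matrix (ι × (ι × ι)) (ι × (ι × ι)) A)
    (h : Com (r.kron (r.kron r)) M) :
    (R3 r).ρ k * M = (cy ι A).ρ k * M * (r.kron (r.kron r)).ρ k := by
  change (cy ι A).ρ k * (r.kron (r.kron r)).ρ k * M = _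
  rw [Matrix.mul_assoc, h k, Matrix.mul_assoc]

lemma ch_three : ch 3 = -1 := by
  have h1 : ch 3 * ch 3 = 1 := by rw [← ch_add, show (3 : ZMod 6) + 3 = 0 by decide, ch_zero]
  have h2 : ch 3 ≠ 1 := fun h => absurd (ch_eq_one h) (by decide)
  have h3 : (ch 3 - 1) * (ch 3 + 1) = 0 := by ring_nf; rw [sq, h1]; ring
  rcases mul_eq_zero.1 h3 with h | h
  · exact absurd (sub_eq_zero.1 h) h2
  · exact eq_neg_of_add_eq_zero_left h

/-- mixed terms for the swap -/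
lemma Tr_R2_mixed {r : Act ι A} {e f : Matrix ι ι A} (he : e * e = e) (hf : f * f = f)
    (hef : e * f = 0) (hfe : f * e = 0) (ce : Com r e) (cf : Com r f) :
    Tr C (R2 r) (e ⊗ₖ f + f ⊗ₖ e) = 0 := by
  have i1 := kron_idem he hf
  have i2 := kron_idem hf he
  have o1 : (e ⊗ₖ f) * (f ⊗ₖ e) = 0 := by
    rw [← Matrix.mul_kronecker_mul, hef, Matrix.zero_kronecker]
  have o2 : (f ⊗ₖ e) * (e ⊗ₖ f) = 0 := by
    rw [← Matrix.mul_kronecker_mul, hfe, Matrix.zero_kronecker]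
  have ss : (e ⊗ₖ f - f ⊗ₖ e) * (e ⊗ₖ f - f ⊗ₖ e) = e ⊗ₖ f + f ⊗ₖ e := by
    rw [Matrix.mul_sub, Matrix.sub_mul, Matrix.sub_mul, i1, i2, o1, o2]
    abel
  refine Tr_shift_two C (s := e ⊗ₖ f - f ⊗ₖ e) (s' := e ⊗ₖ f - f ⊗ₖ e) ?_
    (Com.mul (com_sw2 e f) ((ce.kron cf).add (cf.kron ce))) ss ss ?_ ?_ ?_
  · rw [Matrix.mul_add, Matrix.add_mul, Matrix.add_mul, i1, i2, o1, o2]
    abel
  · rw [Matrix.mul_sub, Matrix.add_mul, Matrix.add_mul, i1, i2, o1, o2]
    abel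
  · rw [Matrix.sub_mul, Matrix.mul_add, Matrix.mul_add, i1, i2, o1, o2]
    abel
  · have h1 : pm A (sg ι) * (e ⊗ₖ f) = (f ⊗ₖ e) * pm A (sg ι) := by
      rw [pm_mul_mat, mat_mul_pm, sg_symm, ← sg_kron f e, Matrix.submatrix_submatrix]
      congr 1
    have h2 : pm A (sg ι) * (f ⊗ₖ e) = (e ⊗ₖ f) * pm A (sg ι) := by
      rw [pm_mul_mat, mat_mul_pm, sg_symm, ← sg_kron e f, Matrix.submatrix_submatrix]
      congr 1
    rw [R2_mul r 1 _ ((ce.kron cf).sub (cf.kron ce))]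
    change _ = ch 3 • ((e ⊗ₖ f - f ⊗ₖ e) * ((sw ι A).ρ 1 * (r.kron r).ρ 1))
    rw [sw_odd (k := 1) rfl, Matrix.mul_sub, h1, h2, ← Matrix.mul_assoc, Matrix.sub_mul (e ⊗ₖ f),
      ch_three, neg_one_smul, ← Matrix.neg_mul]
    congr 1
    abel

/-- mixed terms for the cyclic action -/
lemma Tr_R3_mixed {r : Act ι A} {e f g : Matrix ι ι A} (he : e * e = e) (hf : f * f = f)
    (hg : g * g = g) (ce : Com r e) (cf : Com r f) (cg : Com r g)
    (o12 : k3 e f g * k3 g e f = 0) (o13 : k3 e f g * k3 f g e = 0)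
    (o21 : k3 g e f * k3 e f g = 0) (o23 : k3 g e f * k3 f g e = 0)
    (o31 : k3 f g e * k3 e f g = 0) (o32 : k3 f g e * k3 g e f = 0) :
    Tr C (R3 r) (k3 e f g + k3 g e f + k3 f g e) = 0 := by
  have i1 := k3_idem he hf hg
  have i2 := k3_idem hg he hf
  have i3 := k3_idem hf hg he
  have c1 : Com (r.kron (r.kron r)) (k3 e f g) := ce.kron (cf.kron cg)
  have c2 : Com (r.kron (r.kron r)) (k3 g e f) := cg.kron (ce.kron cf)
  have c3 : Com (r.kron (r.kron r)) (k3 f g e) := cf.kron (cg.kron ce)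
  have p1 : pm A (cyc ι) * k3 e f g = k3 g e f * pm A (cyc ι) := pm_cyc_k3 e f g
  have p2 : pm A (cyc ι) * k3 g e f = k3 f g e * pm A (cyc ι) := pm_cyc_k3 g e f
  have p3 : pm A (cyc ι) * k3 f g e = k3 e f g * pm A (cyc ι) := pm_cyc_k3 f g e
  have com : Com (R3 r) (k3 e f g + k3 g e f + k3 f g e) := by
    refine Com.mul (com_perm (cyc_six ι) ?_) ((c1.add c2).add c3)
    change (k3 e f g).submatrix (cyc ι) (cyc ι) + (k3 g e f).submatrix (cyc ι) (cyc ι) +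
      (k3 f g e).submatrix (cyc ι) (cyc ι) = _
    rw [cyc_k3, cyc_k3, cyc_k3]
    abel
  generalize k3 e f g = q1 at *
  generalize k3 g e f = q2 at *
  generalize k3 f g e = q3 at *
  have w1 : ch 4 * ch 2 = 1 := by rw [← ch_add, show (4 : ZMod 6) + 2 = 0 by decide, ch_zero]
  have w2 : ch 2 * ch 4 = 1 := by rw [mul_comm, w1]
  refine Tr_shift_three C (s := q1 + ch 4 • q2 + ch 2 • q3) (s' := q1 + ch 2 • q2 + ch 4 • q3)
    ?_ com ?_ ?_ ?_ ?_ ?_
  · simp only [Matrix.mul_add, Matrix.add_mul, i1, i2, i3, o12, o13, o21, o23, o31, o32, add_zero,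
      zero_add]
  · simp only [Matrix.mul_add, Matrix.add_mul, Matrix.mul_smul, Matrix.smul_mul, i1, i2, i3, o12,
      o13, o21, o23, o31, o32, smul_zero, add_zero, zero_add, smul_smul, w1, w2, one_smul]
  · simp only [Matrix.mul_add, Matrix.add_mul, Matrix.mul_smul, Matrix.smul_mul, i1, i2, i3, o12,
      o13, o21, o23, o31, o32, smul_zero, add_zero, zero_add, smul_smul, w1, w2, one_smul]
  · simp only [Matrix.mul_add, Matrix.add_mul, Matrix.mul_smul, Matrix.smul_mul, i1, i2, i3, o12,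
      o13, o21, o23, o31, o32, smul_zero, add_zero, zero_add]
  · simp only [Matrix.mul_add, Matrix.add_mul, Matrix.mul_smul, Matrix.smul_mul, i1, i2, i3, o12,
      o13, o21, o23, o31, o32, smul_zero, add_zero, zero_add]
  · rw [R3_mul r 1 _ ((c1.add (c2.smul _)).add (c3.smul _))]
    change _ = ch 2 • ((q1 + ch 4 • q2 + ch 2 • q3) *
      ((cy ι A).ρ 1 * (r.kron (r.kron r)).ρ 1))
    rw [cy_one, ← Matrix.mul_assoc, ← Matrix.smul_mul]
    congr 1
    rw [Matrix.mul_add, Matrix.mul_add, Matrix.mul_smul, Matrix.mul_smul, p1, p2, p3,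
      Matrix.add_mul, Matrix.add_mul, Matrix.smul_mul, Matrix.smul_mul, smul_add, smul_add,
      smul_smul, smul_smul, w2, one_smul, ← ch_add, show (2 : ZMod 6) + 2 = 4 by decide]
    abel

end psi3

end Crest.Agent.R204.Psi988
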