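import Crest.Agent.R204.PsiE_988

/-!
# Row 204, block H, Adams operations (helper988), part F

`ψ³` as a class function; `ψ²ψ³ = ψ³ψ²`.
-/

set_option autoImplicit false
set_option linter.unusedSectionVars false
set_option linter.unusedSimpArgs false
set_option linter.unusedVariables false

namespace Crest.Agent.R204.Psi988

open Matrix
open scoped Kronecker

section T

variable {A S : Type*} [CommRing A] [Algebra ℂ A] [CommRing S] (C : KCls A S)
  {ι κ : Type} [Fintype ι] [DecidableEq ι] [Fintype κ] [DecidableEq κ]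

lemma idem_add {ι : Type} [Fintype ι] {e f : Matrix ι ι A} (he : e * e = e) (hf : f * f = f)
    (hef : e * f = 0) (hfe : f * e = 0) : (e + f) * (e + f) = e + f := by
  rw [Matrix.mul_add, Matrix.add_mul, Matrix.add_mul, he, hf, hef, hfe, add_zero, zero_add]

lemma kz (a b c d : Matrix ι ι A) (h : a * c = 0 ∨ b * d = 0) : (a ⊗ₖ b) * (c ⊗ₖ d) = 0 := by
  rw [← Matrix.mul_kronecker_mul]
  rcases h with h | h
  · rw [h, Matrix.zero_kronecker]
  · rw [h, Matrix.kronecker_zero]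

lemma k3_z1 (N P : Matrix ι ι A) : k3 0 N P = 0 := Matrix.zero_kronecker _

lemma k3_z2 (N P : Matrix ι ι A) : k3 N 0 P = 0 := by
  unfold k3; rw [Matrix.zero_kronecker, Matrix.kronecker_zero]

lemma k3_z3 (N P : Matrix ι ι A) : k3 N P 0 = 0 := by
  unfold k3; rw [Matrix.kronecker_zero, Matrix.kronecker_zero]

lemma k3z (a b c a' b' c' : Matrix ι ι A) (h : a * a' = 0 ∨ b * b' = 0 ∨ c * c' = 0) :
    k3 a b c * k3 a' b' c' = 0 := by
  rw [k3_mul]
  rcases h with h | h | h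
  · rw [h, k3_z1]
  · rw [h, k3_z2]
  · rw [h, k3_z3]

/-- additivity of the quadratic trace -/
lemma T2_add {r : Act ι A} {e f : Matrix ι ι A} (he : e * e = e) (hf : f * f = f)
    (hef : e * f = 0) (hfe : f * e = 0) (ce : Com r e) (cf : Com r f) :
    Tr C (R2 r) ((e + f) ⊗ₖ (e + f)) = Tr C (R2 r) (e ⊗ₖ e) + Tr C (R2 r) (f ⊗ₖ f) := by
  have e1 : (e + f) ⊗ₖ (e + f) = (e ⊗ₖ e + f ⊗ₖ f) + (e ⊗ₖ f + f ⊗ₖ e) := by
    rw [Matrix.add_kronecker, Matrix.kronecker_add, Matrix.kronecker_add]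
    abel
  have i1 := kron_idem he hf
  have i2 := kron_idem hf he
  have i3 := kron_idem he he
  have i4 := kron_idem hf hf
  have o1 : (e ⊗ₖ e) * (f ⊗ₖ f) = 0 := kz _ _ _ _ (Or.inl hef)
  have o2 : (f ⊗ₖ f) * (e ⊗ₖ e) = 0 := kz _ _ _ _ (Or.inl hfe)
  rw [e1, Tr_add C ?_ ?_ ?_ ?_ ((com_R2 ce).add (com_R2 cf))
      (Com.mul (com_sw2 e f) ((ce.kron cf).add (cf.kron ce))),
    Tr_add C i3 i4 o1 o2 (com_R2 ce) (com_R2 cf), Tr_R2_mixed C he hf hef hfe ce cf, add_zero]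
  · exact idem_add i3 i4 o1 o2
  · exact idem_add i1 i2 (kz e f f e (Or.inl hef)) (kz f e e f (Or.inl hfe))
  · rw [Matrix.mul_add, Matrix.add_mul, Matrix.add_mul, kz e e e f (Or.inr hef),
      kz f f e f (Or.inl hfe), kz e e f e (Or.inl hef), kz f f f e (Or.inr hfe)]
    simp
  · rw [Matrix.mul_add, Matrix.add_mul, Matrix.add_mul, kz e f e e (Or.inr hfe),
      kz f e e e (Or.inl hfe), kz e f f f (Or.inl hef), kz f e f f (Or.inr hef)]
    simp

lemma com_R3_orbit {r : Act ι A} {e f g : Matrix ι ι A} (ce : Com r e) (cf : Com r f)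
    (cg : Com r g) : Com (R3 r) (k3 e f g + k3 g e f + k3 f g e) := by
  have c1 : Com (r.kron (r.kron r)) (k3 e f g) := ce.kron (cf.kron cg)
  have c2 : Com (r.kron (r.kron r)) (k3 g e f) := cg.kron (ce.kron cf)
  have c3 : Com (r.kron (r.kron r)) (k3 f g e) := cf.kron (cg.kron ce)
  refine Com.mul (com_perm (cyc_six ι) ?_) ((c1.add c2).add c3)
  change (k3 e f g).submatrix (cyc ι) (cyc ι) + (k3 g e f).submatrix (cyc ι) (cyc ι) +
    (k3 f g e).submatrix (cyc ι) (cyc ι) = _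
  rw [cyc_k3, cyc_k3, cyc_k3]
  abel

/-- additivity of the cubic trace -/
lemma T3_add {r : Act ι A} {e f : Matrix ι ι A} (he : e * e = e) (hf : f * f = f)
    (hef : e * f = 0) (hfe : f * e = 0) (ce : Com r e) (cf : Com r f) :
    Tr C (R3 r) (k3 (e + f) (e + f) (e + f)) =
      Tr C (R3 r) (k3 e e e) + Tr C (R3 r) (k3 f f f) := by
  have e1 : k3 (e + f) (e + f) (e + f) = (k3 e e e + k3 f f f) +
      ((k3 e e f + k3 f e e + k3 e f e) + (k3 f f e + k3 e f f + k3 f e f)) := by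
    unfold k3
    rw [Matrix.add_kronecker, Matrix.kronecker_add, Matrix.add_kronecker, Matrix.kronecker_add,
      Matrix.add_kronecker]
    simp only [Matrix.kronecker_add]
    abel
  have z1 := idem_add (k3_idem he he he) (k3_idem hf hf hf) (k3z _ _ _ _ _ _ (Or.inl hef))
    (k3z _ _ _ _ _ _ (Or.inl hfe))
  have A1 : (k3 e e f + k3 f e e) * (k3 e e f + k3 f e e) = k3 e e f + k3 f e e :=
    idem_add (k3_idem he he hf) (k3_idem hf he he) (k3z _ _ _ _ _ _ (Or.inl hef))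
      (k3z _ _ _ _ _ _ (Or.inl hfe))
  have A2 : (k3 e e f + k3 f e e + k3 e f e) * (k3 e e f + k3 f e e + k3 e f e) =
      k3 e e f + k3 f e e + k3 e f e := by
    refine idem_add A1 (k3_idem he hf he) ?_ ?_
    · rw [Matrix.add_mul, k3z _ _ _ _ _ _ (Or.inr (Or.inl hef)),
        k3z _ _ _ _ _ _ (Or.inr (Or.inl hef)), add_zero]
    · rw [Matrix.mul_add, k3z _ _ _ _ _ _ (Or.inr (Or.inl hfe)),
        k3z _ _ _ _ _ _ (Or.inr (Or.inl hfe)), add_zero]
  have B1 : (k3 f f e + k3 e f f) * (k3 f f e + k3 e f f) = k3 f f e + k3 e f f :=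
    idem_add (k3_idem hf hf he) (k3_idem he hf hf) (k3z _ _ _ _ _ _ (Or.inl hfe))
      (k3z _ _ _ _ _ _ (Or.inl hef))
  have B2 : (k3 f f e + k3 e f f + k3 f e f) * (k3 f f e + k3 e f f + k3 f e f) =
      k3 f f e + k3 e f f + k3 f e f := by
    refine idem_add B1 (k3_idem hf he hf) ?_ ?_
    · rw [Matrix.add_mul, k3z _ _ _ _ _ _ (Or.inr (Or.inl hfe)),
        k3z _ _ _ _ _ _ (Or.inr (Or.inl hfe)), add_zero]
    · rw [Matrix.mul_add, k3z _ _ _ _ _ _ (Or.inr (Or.inl hef)),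
        k3z _ _ _ _ _ _ (Or.inr (Or.inl hef)), add_zero]
  have AB : (k3 e e f + k3 f e e + k3 e f e) * (k3 f f e + k3 e f f + k3 f e f) = 0 := by
    simp only [Matrix.add_mul, Matrix.mul_add]
    simp only [k3_mul, hef, hfe, k3_z1, k3_z2, k3_z3, add_zero]
  have BA : (k3 f f e + k3 e f f + k3 f e f) * (k3 e e f + k3 f e e + k3 e f e) = 0 := by
    simp only [Matrix.add_mul, Matrix.mul_add]
    simp only [k3_mul, hef, hfe, k3_z1, k3_z2, k3_z3, add_zero]
  have DM : (k3 e e e + k3 f f f) *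
      ((k3 e e f + k3 f e e + k3 e f e) + (k3 f f e + k3 e f f + k3 f e f)) = 0 := by
    simp only [Matrix.add_mul, Matrix.mul_add]
    simp only [k3_mul, hef, hfe, k3_z1, k3_z2, k3_z3, add_zero]
  have MD : ((k3 e e f + k3 f e e + k3 e f e) + (k3 f f e + k3 e f f + k3 f e f)) *
      (k3 e e e + k3 f f f) = 0 := by
    simp only [Matrix.add_mul, Matrix.mul_add]
    simp only [k3_mul, hef, hfe, k3_z1, k3_z2, k3_z3, add_zero]
  have cA := com_R3_orbit ce ce cf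
  have cB := com_R3_orbit cf cf ce
  rw [e1, Tr_add C z1 (idem_add A2 B2 AB BA) DM MD ((com_R3 ce).add (com_R3 cf)) (cA.add cB),
    Tr_add C A2 B2 AB BA cA cB, Tr_add C (k3_idem he he he) (k3_idem hf hf hf)
      (k3z _ _ _ _ _ _ (Or.inl hef)) (k3z _ _ _ _ _ _ (Or.inl hfe)) (com_R3 ce) (com_R3 cf),
    Tr_R3_mixed C he he hf ce ce cf (k3z _ _ _ _ _ _ (Or.inl hef))
      (k3z _ _ _ _ _ _ (Or.inr (Or.inl hef))) (k3z _ _ _ _ _ _ (Or.inl hfe))
      (k3z _ _ _ _ _ _ (Or.inl hfe)) (k3z _ _ _ _ _ _ (Or.inr (Or.inl hfe)))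
      (k3z _ _ _ _ _ _ (Or.inl hef)),
    Tr_R3_mixed C hf hf he cf cf ce (k3z _ _ _ _ _ _ (Or.inl hfe))
      (k3z _ _ _ _ _ _ (Or.inr (Or.inl hfe))) (k3z _ _ _ _ _ _ (Or.inl hef))
      (k3z _ _ _ _ _ _ (Or.inl hef)) (k3z _ _ _ _ _ _ (Or.inr (Or.inl hef)))
      (k3z _ _ _ _ _ _ (Or.inl hfe)), add_zero, add_zero]

/-- scalars, quadratic -/
lemma T2_scalar {r : Act ι A} {e : Matrix ι ι A} (he : e * e = e) {c : ZMod 6}
    (h : ∀ k, r.ρ k * e = ch (c * k) • e) :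
    Tr C (R2 r) (e ⊗ₖ e) = zl S (c + c) * (C.p2 e • 1) := by
  rw [← Tr_sw C he, ← Tr_twist]
  refine Tr_congr C fun k => ?_
  change (sw ι A).ρ k * (r.ρ k ⊗ₖ r.ρ k) * (e ⊗ₖ e) =
    (ch ((c + c) * k) • (sw ι A).ρ k) * (e ⊗ₖ e)
  rw [Matrix.mul_assoc, ← Matrix.mul_kronecker_mul, h k, smul_kron', ← ch_add, Matrix.mul_smul,
    Matrix.smul_mul]
  congr 2
  ring

/-- scalars, cubic -/
lemma T3_scalar {r : Act ι A} {e : Matrix ι ι A} (he : e * e = e) {c : ZMod 6}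
    (h : ∀ k, r.ρ k * e = ch (c * k) • e) :
    Tr C (R3 r) (k3 e e e) = zl S (c + (c + c)) * (C.p3 e • 1) := by
  rw [← Tr_cy C he, ← Tr_twist]
  refine Tr_congr C fun k => ?_
  change (cy ι A).ρ k * (r.ρ k ⊗ₖ (r.ρ k ⊗ₖ r.ρ k)) * k3 e e e =
    (ch ((c + (c + c)) * k) • (cy ι A).ρ k) * k3 e e e
  rw [Matrix.mul_assoc, ← Matrix.mul_kronecker_mul, ← Matrix.mul_kronecker_mul, h k, smul_kron',
    smul_kron', ← ch_add, ← ch_add, Matrix.mul_smul, Matrix.smul_mul]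
  congr 2
  ring

/-- the trivial action -/
def triv (ι : Type) [Fintype ι] [DecidableEq ι] (A : Type*) [CommRing A] : Act ι A where
  ρ _ := 1
  zero := rfl
  add _ _ := by rw [Matrix.one_mul]

lemma triv_smul (e : Matrix ι ι A) (k : ZMod 6) : (triv ι A).ρ k * e = ch (0 * k) • e := by
  rw [zero_mul, ch_zero, one_smul]
  exact Matrix.one_mul e

lemma triv_com (e : Matrix ι ι A) : Com (triv ι A) e := fun k => by
  change 1 * e = e * 1
  rw [Matrix.one_mul, Matrix.mul_one]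

lemma p3_add {e f : Matrix ι ι A} (he : e * e = e) (hf : f * f = f) (hef : e * f = 0)
    (hfe : f * e = 0) : C.p3 (e + f) = C.p3 e + C.p3 f := by
  have h := T3_add C he hf hef hfe (triv_com e) (triv_com f)
  rw [T3_scalar C (idem_add he hf hef hfe) (triv_smul (e + f)), T3_scalar C he (triv_smul e),
    T3_scalar C hf (triv_smul f)] at h
  simp only [add_zero, zl_zero, one_mul] at h
  apply smul_one_inj
  rw [h, add_smul]

lemma pow_pm_k3 (v : Matrix κ ι A) (n : ℕ) :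
    k3 v v v * pm A (cyc ι ^ n) = pm A (cyc κ ^ n) * k3 v v v := by
  induction n with
  | zero => rw [pow_zero, pow_zero, pm_one, pm_one, Matrix.mul_one, Matrix.one_mul]
  | succ n ih =>
    rw [pow_succ, pow_succ, pm_mul, pm_mul, ← Matrix.mul_assoc, ih, Matrix.mul_assoc,
      Matrix.mul_assoc, pm_cyc_k3]

lemma p3_sim {e : Matrix ι ι A} {f : Matrix κ κ A} (u : Matrix ι κ A) (v : Matrix κ ι A)
    (he : e * e = e) (hf : f * f = f) (huv : u * v = e) (hvu : v * u = f) :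
    C.p3 e = C.p3 f := by
  have hv : ∀ k, k3 v v v * (cy ι A).ρ k = (cy κ A).ρ k * k3 v v v := fun k => pow_pm_k3 v k.val
  have h1 := fun j => cls_E_sim C (k3_idem he he he) (k3_idem hf hf hf) (com_cy e) (com_cy f)
    (k3 u u u) (k3 v v v)
    (by rw [← Matrix.mul_kronecker_mul, ← Matrix.mul_kronecker_mul, huv])
    (by rw [← Matrix.mul_kronecker_mul, ← Matrix.mul_kronecker_mul, hvu]) hv j
  unfold KCls.p3
  rw [h1, h1]

/-- the middle exchange for three factors -/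
def mid3 (ι κ : Type) :
    (ι × (ι × ι)) × (κ × (κ × κ)) ≃ (ι × κ) × ((ι × κ) × (ι × κ)) where
  toFun x := ((x.1.1, x.2.1), ((x.1.2.1, x.2.2.1), (x.1.2.2, x.2.2.2)))
  invFun y := ((y.1.1, (y.2.1.1, y.2.2.1)), (y.1.2, (y.2.1.2, y.2.2.2)))
  left_inv _ := rfl
  right_inv _ := rfl

lemma mid3_kron (M M' M'' : Matrix ι ι A) (N N' N'' : Matrix κ κ A) :
    ((k3 M M' M'') ⊗ₖ (k3 N N' N'')).submatrix (mid3 ι κ).symm (mid3 ι κ).symm =
      k3 (M ⊗ₖ N) (M' ⊗ₖ N') (M'' ⊗ₖ N'') := by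
  ext ⟨⟨a, b⟩, ⟨c, d⟩, ⟨x, y⟩⟩ ⟨⟨a', b'⟩, ⟨c', d'⟩, ⟨x', y'⟩⟩
  simp only [mid3, Matrix.submatrix_apply, Equiv.coe_fn_symm_mk, Matrix.kroneckerMap_apply]
  ring

lemma pm_kron (σ : Equiv.Perm ι) (τ : Equiv.Perm κ) :
    pm A σ ⊗ₖ pm A τ = pm A (Equiv.prodCongr σ τ) := by
  ext ⟨a, b⟩ ⟨a', b'⟩
  simp only [pm, Matrix.kroneckerMap_apply, Matrix.of_apply, Equiv.prodCongr_apply, Prod.map_apply,
    Prod.mk.injEq]
  by_cases h1 : a = σ a' <;> by_cases h2 : b = τ b' <;> simp [h1, h2]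

lemma pm_reindex (σ : Equiv.Perm ι) (φ : ι ≃ κ) :
    (pm A σ).submatrix φ.symm φ.symm = pm A (φ.symm.trans (σ.trans φ)) := by
  ext a b
  have hiff : (φ.symm a = σ (φ.symm b)) ↔ (a = (φ.symm.trans (σ.trans φ)) b) := by
    constructor
    · intro h
      change a = φ (σ (φ.symm b))
      rw [← h, Equiv.apply_symm_apply]
    · intro h
      rw [h]
      change φ.symm (φ (σ (φ.symm b))) = _
      rw [Equiv.symm_apply_apply]
  change (if φ.symm a = σ (φ.symm b) then (1 : A) else 0) =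
    if a = (φ.symm.trans (σ.trans φ)) b then 1 else 0
  by_cases h : φ.symm a = σ (φ.symm b)
  · rw [if_pos h, if_pos (hiff.1 h)]
  · rw [if_neg h, if_neg (fun h' => h (hiff.2 h'))]

lemma mid3_cy : ((cy ι A).kron (cy κ A)).reindex (mid3 ι κ) = cy (ι × κ) A := by
  apply act_ext_one
  change ((cy ι A).ρ 1 ⊗ₖ (cy κ A).ρ 1).submatrix (mid3 ι κ).symm (mid3 ι κ).symm =
    (cy (ι × κ) A).ρ 1
  rw [cy_one, cy_one, cy_one, pm_kron, pm_reindex]
  congr 1

lemma p3_mul {e : Matrix ι ι A} {f : Matrix κ κ A} (he : e * e = e) (hf : f * f = f) :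
    C.p3 (e ⊗ₖ f) = C.p3 e * C.p3 f := by
  apply smul_one_inj
  rw [← Tr_cy C (kron_idem he hf), ← mid3_kron, ← mid3_cy,
    Tr_reindex C (kron_idem (k3_idem he he he) (k3_idem hf hf hf))
      ((com_cy e).kron (com_cy f)), Tr_kron C (k3_idem he he he) (k3_idem hf hf hf) (com_cy e)
      (com_cy f), Tr_cy C he, Tr_cy C hf, smul_mul_smul_comm, one_mul]

lemma p3_one : C.p3 (1 : Matrix Unit Unit A) = 1 := by
  have h1 : ∀ k, (cy Unit A).ρ k = 1 := by
    intro k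
    change pm A (cyc Unit ^ k.val) = 1
    rw [← pm_one]
    congr 1
    exact Subsingleton.elim _ _
  unfold KCls.p3 k3
  rw [Matrix.one_kronecker_one, Matrix.one_kronecker_one,
    E_triv (by simp) (fun k => by rw [h1]) (fun k => by rw [h1]; simp),
    E_triv (by simp) (fun k => by rw [h1]) (fun k => by rw [h1]; simp), if_pos rfl,
    if_neg (by decide), C.zero, sub_zero,
    cls_one_of_equiv C ((Equiv.prodPUnit Unit).symm.trans
      (Equiv.prodCongr (Equiv.refl Unit) (Equiv.prodPUnit Unit).symm))]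

/-- **`ψ³`** -/
noncomputable def KCls.psi3 : KCls A S where
  cls := fun e => C.p3 e
  sim := fun _ _ u v he hf huv hvu => p3_sim C u v he hf huv hvu
  add := fun _ _ he hf hef hfe => p3_add C he hf hef hfe
  mul := fun _ _ he hf => p3_mul C he hf
  one := p3_one C

/-- `ψ³` of a rank one idempotent is its cube -/
lemma psi3_line (e : Matrix ι ι A) (he : e * e = e)
    (h : ∀ i j k l, e i j * e k l = e i l * e k j) : C.psi3.cls e = C.cls e ^ 3 := by
  have h0 : pm A (cyc ι) * k3 e e e = k3 e e e := by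
    rw [pm_mul_mat]
    ext ⟨a, b, c⟩ ⟨a', b', c'⟩
    simp only [cyc, Matrix.submatrix_apply, Equiv.coe_fn_symm_mk, Matrix.kroneckerMap_apply, id]
    calc e b a' * (e c b' * e a c') = (e b a' * e a c') * e c b' := by ring
      _ = (e b c' * e a a') * e c b' := by rw [h b a' a c']
      _ = e a a' * (e b c' * e c b') := by ring
      _ = e a a' * (e b b' * e c c') := by rw [h b c' c b']
  have h1 : ∀ k, (cy ι A).ρ k * k3 e e e = k3 e e e := by
    refine zind ?_ ?_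
    · rw [(cy ι A).zero, Matrix.one_mul]
    · intro k hk
      rw [(cy ι A).add, Matrix.mul_assoc, cy_one, h0, hk]
  change C.p3 e = _
  unfold KCls.p3
  rw [E_triv (k3_idem he he he) (com_cy e) h1, E_triv (k3_idem he he he) (com_cy e) h1,
    if_pos rfl, if_neg (by decide), C.zero, sub_zero, C.mul e _ he (kron_idem he he),
    C.mul e e he he]
  ring

/-! ### commutation -/

/-- the two actions on `e^{⊗6}` agree -/
lemma R2_R3 : (R2 (cy ι A)).reindex (mid3 ι ι) = R3 (sw ι A) := by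
  apply act_ext_one
  change ((sw (ι × (ι × ι)) A).ρ 1 * ((cy ι A).ρ 1 ⊗ₖ (cy ι A).ρ 1)).submatrix
      (mid3 ι ι).symm (mid3 ι ι).symm =
    (cy (ι × ι) A).ρ 1 * ((sw ι A).ρ 1 ⊗ₖ ((sw ι A).ρ 1 ⊗ₖ (sw ι A).ρ 1))
  rw [cy_one, cy_one, sw_odd (k := 1) rfl, sw_odd (k := 1) rfl, pm_kron, pm_kron, pm_kron,
    ← pm_mul, ← pm_mul, pm_reindex]
  congr 1

/-- **`ψ²ψ³ = ψ³ψ²`** -/
theorem psi2_psi3 (e : Matrix ι ι A) (he : e * e = e) :
    C.psi2.psi3.cls e = C.psi3.psi2.cls e := by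
  change C.psi2.p3 e = C.psi3.p2 e
  have i3 := k3_idem he he he
  have i2 := kron_idem he he
  -- first computation
  have hA : Tr C (R2 (cy ι A)) (k3 e e e ⊗ₖ k3 e e e) = C.psi2.p3 e • 1 := by
    have c := com_cy e
    have z1 := E_eq_zero (j := 1) i3 c (k := 3) (by rw [cy_three, Matrix.one_mul]) (by decide)
    have z3 := E_eq_zero (j := 3) i3 c (k := 3) (by rw [cy_three, Matrix.one_mul]) (by decide)
    have z5 := E_eq_zero (j := 5) i3 c (k := 3) (by rw [cy_three, Matrix.one_mul]) (by decide)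
    have hs := sum_E (cy ι A) (k3 e e e)
    rw [sum6, z1, z3, z5] at hs
    simp only [add_zero] at hs
    have cE : ∀ j, Com (cy ι A) (E (cy ι A) (k3 e e e) j) := fun j k => by
      rw [rho_mul_E, E_mul_rho c]
    have I := E_idem i3 c
    have O := fun {i j : ZMod 6} (h : i ≠ j) => E_orth i3 c h
    have I24 : (E (cy ι A) (k3 e e e) 0 + E (cy ι A) (k3 e e e) 2) *
        (E (cy ι A) (k3 e e e) 0 + E (cy ι A) (k3 e e e) 2) =
        E (cy ι A) (k3 e e e) 0 + E (cy ι A) (k3 e e e) 2 :=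
      idem_add (I 0) (I 2) (O (by decide)) (O (by decide))
    have p24 : C.p2 (E (cy ι A) (k3 e e e) 4) = C.p2 (E (cy ι A) (k3 e e e) 2) :=
      (cy_two_four C.psi2 he).symm
    conv_lhs => rw [← hs]
    rw [T2_add C I24 (I 4) (by rw [Matrix.add_mul, O (by decide), O (by decide), add_zero])
        (by rw [Matrix.mul_add, O (by decide), O (by decide), add_zero]) ((cE 0).add (cE 2))
        (cE 4),
      T2_add C (I 0) (I 2) (O (by decide)) (O (by decide)) (cE 0) (cE 2),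
      T2_scalar C (I 0) (fun k => rho_mul_E _ _ 0 k),
      T2_scalar C (I 2) (fun k => rho_mul_E _ _ 2 k),
      T2_scalar C (I 4) (fun k => rho_mul_E _ _ 4 k), p24,
      show (0 : ZMod 6) + 0 = 0 by decide, show (2 : ZMod 6) + 2 = 4 by decide,
      show (4 : ZMod 6) + 4 = 2 by decide, zl_zero, one_mul, add_assoc, ← add_mul,
      add_comm (zl S 4), zl_two_four]
    change _ = (C.p2 (E (cy ι A) (k3 e e e) 0) - C.p2 (E (cy ι A) (k3 e e e) 2)) • 1
    rw [sub_smul, neg_one_mul, sub_eq_add_neg]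
  have hB : Tr C (R3 (sw ι A)) (k3 (e ⊗ₖ e) (e ⊗ₖ e) (e ⊗ₖ e)) = C.psi3.p2 e • 1 := by
    have c := com_sw e
    have z1 := E_eq_zero (j := 1) i2 c (k := 2) (by rw [sw_two, Matrix.one_mul]) (by decide)
    have z2 := E_eq_zero (j := 2) i2 c (k := 2) (by rw [sw_two, Matrix.one_mul]) (by decide)
    have z4 := E_eq_zero (j := 4) i2 c (k := 2) (by rw [sw_two, Matrix.one_mul]) (by decide)
    have z5 := E_eq_zero (j := 5) i2 c (k := 2) (by rw [sw_two, Matrix.one_mul]) (by decide)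
    have hs := sum_E (sw ι A) (e ⊗ₖ e)
    rw [sum6, z1, z2, z4, z5] at hs
    simp only [add_zero] at hs
    have cE : ∀ j, Com (sw ι A) (E (sw ι A) (e ⊗ₖ e) j) := fun j k => by
      rw [rho_mul_E, E_mul_rho c]
    have I := E_idem i2 c
    have O := fun {i j : ZMod 6} (h : i ≠ j) => E_orth i2 c h
    conv_lhs => rw [← hs]
    rw [T3_add C (I 0) (I 3) (O (by decide)) (O (by decide)) (cE 0) (cE 3),
      T3_scalar C (I 0) (fun k => rho_mul_E _ _ 0 k),
      T3_scalar C (I 3) (fun k => rho_mul_E _ _ 3 k),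
      show (0 : ZMod 6) + (0 + 0) = 0 by decide, show (3 : ZMod 6) + (3 + 3) = 3 by decide,
      zl_zero, one_mul, zl_three]
    change _ = (C.p3 (E (sw ι A) (e ⊗ₖ e) 0) - C.p3 (E (sw ι A) (e ⊗ₖ e) 3)) • 1
    rw [sub_smul, neg_one_mul, sub_eq_add_neg]
  apply smul_one_inj
  rw [← hA, ← hB, ← R2_R3, ← mid3_kron, Tr_reindex C (kron_idem i3 i3) (com_R2 (com_cy e))]

end T

end Crest.Agent.R204.Psi988
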