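import Crest.Agent.R204.PsiF_988
import Crest.Agent.R204.KDefs_357

/-!
# Row 204, block H, Adams operations (helper988), part G

The ring homomorphisms `ψ²`, `ψ³` on `K0 A`, `A` a commutative `ℂ`-algebra.
-/

set_option autoImplicit false
set_option linter.unusedSectionVars false
set_option linter.unusedSimpArgs false
set_option linter.unusedVariables false

namespace Crest.Agent.R204.Psi988

open Matrix Crest.Agent.R204.K357
open scoped Kronecker

universe u v w

/-! ### universal property -/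

section univ

/-- the universal class function -/
noncomputable def KCls.univ (A : Type u) [CommRing A] : KCls A (K0 A) where
  cls e := K0.cls e
  sim _ _ u v he hf huv hvu := K0.cls_eq he hf ⟨u, v, huv, hvu⟩
  add _ _ he hf hef hfe := K0.cls_add he hf hef hfe
  mul _ _ he hf := K0.cls_kron he hf
  one := K0.cls_one_unit

variable {A : Type u} [CommRing A] {S : Type v} [CommRing S] (C : KCls A S)
  {ι κ : Type} [Fintype ι] [DecidableEq ι] [Fintype κ] [DecidableEq κ]

lemma KCls.block {e : Matrix ι ι A} {f : Matrix κ κ A} (he : e * e = e) (hf : f * f = f) :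
    C.cls (fromBlocks e 0 0 f) = C.cls e + C.cls f := by
  have i1 : (fromBlocks e 0 0 0 : Matrix (ι ⊕ κ) (ι ⊕ κ) A) * fromBlocks e 0 0 0 =
      fromBlocks e 0 0 0 := by simp [fromBlocks_multiply, he]
  have i2 : (fromBlocks 0 0 0 f : Matrix (ι ⊕ κ) (ι ⊕ κ) A) * fromBlocks 0 0 0 f =
      fromBlocks 0 0 0 f := by simp [fromBlocks_multiply, hf]
  have h1 : C.cls (fromBlocks e 0 0 0 : Matrix (ι ⊕ κ) (ι ⊕ κ) A) = C.cls e := by
    refine C.sim _ _ (fromRows e 0) (fromCols e 0) i1 he ?_ ?_
    · rw [fromRows_mul_fromCols, he]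
      simp
    · rw [fromCols_mul_fromRows, he]
      simp
  have h2 : C.cls (fromBlocks 0 0 0 f : Matrix (ι ⊕ κ) (ι ⊕ κ) A) = C.cls f := by
    refine C.sim _ _ (fromRows 0 f) (fromCols 0 f) i2 hf ?_ ?_
    · rw [fromRows_mul_fromCols, hf]
      simp
    · rw [fromCols_mul_fromRows, hf]
      simp
  rw [← h1, ← h2, ← C.add _ _ i1 i2 (by simp [fromBlocks_multiply])
    (by simp [fromBlocks_multiply])]
  congr 1
  simp [fromBlocks_add]

/-- the induced function on isomorphism classes -/
noncomputable def KCls.vfun : V A → S :=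
  Quotient.lift (fun x : Idem A => C.cls x.e) (by
    rintro x y ⟨u, v, huv, hvu⟩
    exact C.sim _ _ u v x.idem y.idem huv hvu)

lemma KCls.vfun_cl {e : Matrix ι ι A} (he : e * e = e) : C.vfun (cl e) = C.cls e := by
  unfold cl
  rw [dif_pos he]
  exact C.reindex (Fintype.equivFin ι) e he

/-- the induced homomorphism of semirings -/
noncomputable def KCls.vhom : V A →+* S where
  toFun := C.vfun
  map_one' := by rw [cl_one_def, C.vfun_cl (by simp), C.one]
  map_zero' := by rw [cl_zero_def, C.vfun_cl (by simp), C.zero]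
  map_add' x y := by
    induction x using V.ind with
    | _ n e he =>
    induction y using V.ind with
    | _ m f hf =>
      rw [← cl_sum he hf, C.vfun_cl (idem_sum he hf), C.vfun_cl he, C.vfun_cl hf, C.block he hf]
  map_mul' x y := by
    induction x using V.ind with
    | _ n e he =>
    induction y using V.ind with
    | _ m f hf =>
      rw [← cl_kron he hf, C.vfun_cl (idem_kron he hf), C.vfun_cl he, C.vfun_cl hf,
        C.mul e f he hf]

/-- **universal property of `K0`** -/
noncomputable def KCls.lift : K0 A →+* S := K0.liftRing C.vhom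

theorem KCls.lift_cls {e : Matrix ι ι A} (he : e * e = e) : C.lift (K0.cls e) = C.cls e := by
  unfold KCls.lift
  rw [K0.cls_def, K0.liftRing_of]
  exact C.vfun_cl he

theorem K0_ringHom_ext {f g : K0 A →+* S}
    (h : ∀ (n : ℕ) (e : Matrix (Fin n) (Fin n) A), e * e = e → f (K0.cls e) = g (K0.cls e)) :
    f = g := by
  have := K0.addHom_ext (f := f.toAddMonoidHom) (g := g.toAddMonoidHom) h
  ext x
  exact DFunLike.congr_fun this x

end univ

/-! ### Adams operations -/

section psi

variable {A : Type u} [CommRing A] [Algebra ℂ A] {B : Type v} [CommRing B] [Algebra ℂ B]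
  {ι : Type} [Fintype ι] [DecidableEq ι]

variable (A) in
/-- **`ψ² : K0 A →+* K0 A`** -/
noncomputable def psi2 : K0 A →+* K0 A := (KCls.univ A).psi2.lift

variable (A) in
/-- **`ψ³ : K0 A →+* K0 A`** -/
noncomputable def psi3 : K0 A →+* K0 A := (KCls.univ A).psi3.lift

lemma psi2_cls {e : Matrix ι ι A} (he : e * e = e) :
    psi2 A (K0.cls e) = K0.cls (E (sw ι A) (e ⊗ₖ e) 0) - K0.cls (E (sw ι A) (e ⊗ₖ e) 3) :=
  KCls.lift_cls _ he

lemma psi3_cls {e : Matrix ι ι A} (he : e * e = e) :
    psi3 A (K0.cls e) = K0.cls (E (cy ι A) (k3 e e e) 0) - K0.cls (E (cy ι A) (k3 e e e) 2) :=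
  KCls.lift_cls _ he

/-- **`ψ²ψ³ = ψ³ψ²`** -/
theorem psi2_psi3_comm (x : K0 A) : psi2 A (psi3 A x) = psi3 A (psi2 A x) := by
  have h : (psi2 A).comp (psi3 A) = (psi3 A).comp (psi2 A) := by
    apply K0_ringHom_ext
    intro n e he
    have h1 : psi2 A (psi3 A (K0.cls e)) = (KCls.univ A).psi2.psi3.cls e := by
      rw [psi3_cls he, map_sub]
      unfold psi2
      rw [KCls.lift_cls _ (E_idem (k3_idem he he he) (com_cy e) 0),
        KCls.lift_cls _ (E_idem (k3_idem he he he) (com_cy e) 2)]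
      rfl
    have h2 : psi3 A (psi2 A (K0.cls e)) = (KCls.univ A).psi3.psi2.cls e := by
      rw [psi2_cls he, map_sub]
      unfold psi3
      rw [KCls.lift_cls _ (E_idem (kron_idem he he) (com_sw e) 0),
        KCls.lift_cls _ (E_idem (kron_idem he he) (com_sw e) 3)]
      rfl
    rw [RingHom.comp_apply, RingHom.comp_apply, h1, h2, psi2_psi3 _ e he]
  exact DFunLike.congr_fun h x

/-- **`ψ² x ≡ x²` mod 2** -/
theorem psi2_mod_two (x : K0 A) : ∃ y : K0 A, psi2 A x = x ^ 2 + 2 * y := by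
  obtain ⟨n, m, e, f, he, hf, rfl⟩ := K0.exists_rep x
  have h1 : psi2 A (K0.cls e) = K0.cls e ^ 2 - 2 * K0.cls (E (sw (Fin n) A) (e ⊗ₖ e) 3) := by
    unfold psi2
    rw [KCls.lift_cls _ he]
    exact psi2_eq (KCls.univ A) e he
  have h2 : psi2 A (K0.cls f) = K0.cls f ^ 2 - 2 * K0.cls (E (sw (Fin m) A) (f ⊗ₖ f) 3) := by
    unfold psi2
    rw [KCls.lift_cls _ hf]
    exact psi2_eq (KCls.univ A) f hf
  refine ⟨-K0.cls (E (sw (Fin n) A) (e ⊗ₖ e) 3) + K0.cls (E (sw (Fin m) A) (f ⊗ₖ f) 3) +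
    K0.cls e * K0.cls f - K0.cls f ^ 2, ?_⟩
  rw [map_sub, h1, h2]
  ring

/-- `ψ²` of a line bundle -/
theorem psi2_cls_line {e : Matrix ι ι A} (he : e * e = e)
    (h : ∀ i j k l, e i j * e k l = e i l * e k j) : psi2 A (K0.cls e) = K0.cls e ^ 2 := by
  unfold psi2
  rw [KCls.lift_cls _ he]
  exact psi2_line (KCls.univ A) e he h

/-- `ψ³` of a line bundle -/
theorem psi3_cls_line {e : Matrix ι ι A} (he : e * e = e)
    (h : ∀ i j k l, e i j * e k l = e i l * e k j) : psi3 A (K0.cls e) = K0.cls e ^ 3 := by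
  unfold psi3
  rw [KCls.lift_cls _ he]
  exact psi3_line (KCls.univ A) e he h

/-! ### naturality -/

/-- transport of an action along a ring homomorphism -/
def Act.map (r : Act ι A) (φ : A →+* B) : Act ι B where
  ρ k := (r.ρ k).map φ
  zero := by rw [r.zero]; simp
  add a b := by rw [r.add, Matrix.map_mul]

lemma E_map (r : Act ι A) (φ : A →ₐ[ℂ] B) (e : Matrix ι ι A) (j : ZMod 6) :
    (E r e j).map φ = E (r.map φ.toRingHom) (e.map φ) j := by
  unfold E
  ext a b
  simp only [Matrix.map_apply, Matrix.smul_apply, Matrix.sum_apply, map_smul, map_sum]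
  congr 1
  refine Finset.sum_congr rfl fun k _ => ?_
  congr 1
  change φ ((r.ρ k * e) a b) = ((r.ρ k).map φ * e.map φ) a b
  rw [Matrix.mul_apply, Matrix.mul_apply, map_sum]
  exact Finset.sum_congr rfl fun c _ => map_mul _ _ _

lemma pm_map (φ : A →+* B) (σ : Equiv.Perm ι) : (pm A σ).map φ = pm B σ := by
  ext a b
  simp only [pm, Matrix.map_apply, Matrix.of_apply]
  split_ifs <;> simp

lemma sw_map (φ : A →+* B) : (sw ι A).map φ = sw ι B := by
  apply Act.ext
  funext k
  exact pm_map φ _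

lemma cy_map (φ : A →+* B) : (cy ι A).map φ = cy ι B := by
  apply Act.ext
  funext k
  exact pm_map φ _

lemma kron_map (φ : A →+* B) {κ : Type} (e : Matrix ι ι A) (f : Matrix κ κ A) :
    (e ⊗ₖ f).map φ = e.map φ ⊗ₖ f.map φ := by
  ext ⟨a, b⟩ ⟨c, d⟩
  simp

/-- **naturality of `ψ²`** -/
theorem psi2_natural (φ : A →ₐ[ℂ] B) (x : K0 A) :
    K0.mapRing φ.toRingHom (psi2 A x) = psi2 B (K0.mapRing φ.toRingHom x) := by
  have h : (K0.mapRing φ.toRingHom).comp (psi2 A) = (psi2 B).comp (K0.mapRing φ.toRingHom) := by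
    apply K0_ringHom_ext
    intro n e he
    rw [RingHom.comp_apply, RingHom.comp_apply, K0.mapRing_cls _ he,
      psi2_cls (idem_map φ.toRingHom he), psi2_cls he, map_sub,
      K0.mapRing_cls _ (E_idem (kron_idem he he) (com_sw e) 0),
      K0.mapRing_cls _ (E_idem (kron_idem he he) (com_sw e) 3)]
    have := fun j => E_map (sw (Fin n) A) φ (e ⊗ₖ e) j
    rw [sw_map] at this
    change K0.cls ((E (sw (Fin n) A) (e ⊗ₖ e) 0).map φ) -
      K0.cls ((E (sw (Fin n) A) (e ⊗ₖ e) 3).map φ) = _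
    rw [this, this, show (e ⊗ₖ e).map φ = e.map φ ⊗ₖ e.map φ from kron_map φ.toRingHom e e]
    rfl
  exact DFunLike.congr_fun h x

/-- **naturality of `ψ³`** -/
theorem psi3_natural (φ : A →ₐ[ℂ] B) (x : K0 A) :
    K0.mapRing φ.toRingHom (psi3 A x) = psi3 B (K0.mapRing φ.toRingHom x) := by
  have h : (K0.mapRing φ.toRingHom).comp (psi3 A) = (psi3 B).comp (K0.mapRing φ.toRingHom) := by
    apply K0_ringHom_ext
    intro n e he
    rw [RingHom.comp_apply, RingHom.comp_apply, K0.mapRing_cls _ he,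
      psi3_cls (idem_map φ.toRingHom he), psi3_cls he, map_sub,
      K0.mapRing_cls _ (E_idem (k3_idem he he he) (com_cy e) 0),
      K0.mapRing_cls _ (E_idem (k3_idem he he he) (com_cy e) 2)]
    have := fun j => E_map (cy (Fin n) A) φ (k3 e e e) j
    rw [cy_map] at this
    change K0.cls ((E (cy (Fin n) A) (k3 e e e) 0).map φ) -
      K0.cls ((E (cy (Fin n) A) (k3 e e e) 2).map φ) = _
    rw [this, this, show (k3 e e e).map φ = k3 (e.map φ) (e.map φ) (e.map φ) by
      change (e ⊗ₖ (e ⊗ₖ e)).map φ.toRingHom = _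
      rw [kron_map, kron_map]
      rfl]
    rfl
  exact DFunLike.congr_fun h x

end psi

end Crest.Agent.R204.Psi988
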