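import Crest.Agent.R204.AMc_596
import Crest.Agent.R204.EZAW_271
import Crest.Agent.R204.DK_742

set_option autoImplicit false

/-!
# Row 204, leaf S3 / P6: the map `θ : N(E Z/2 × K) → N K ⊗ N K` and the natural `Z/2 × Z/2`-family
`ψ_{ij} : N K → (N K)^{⊗ 4}` built from the equivariant diagonal `Φ_i`.
-/

namespace Crest.Agent.R204.Adem596

open Finsupp TensorProduct
open Crest.Agent.R204.AM596
open Crest.Agent.R204.DK742 (gE alt AltSS)
open Crest.Agent.R204.SS (EG EGmap)

/-- the equivariant diagonal on normalised chains -/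
structure PhiData where
  Phi : ∀ (K : SS), ℕ → N F2 K →ₗ[F2] N F2 K ⊗[F2] N F2 K
  nat : ∀ {K L : SS} (f : SS.Hom K L) (i : ℕ) (x : N F2 K),
    TensorProduct.map (N.map F2 f) (N.map F2 f) (Phi K i x) = Phi L i (N.map F2 f x)
  d_zero : ∀ (K : SS) (x : N F2 K), CT.dT (N.bd F2 K) (N.bd F2 K) (Phi K 0 x) =
    Phi K 0 (N.bd F2 K x)
  d_succ : ∀ (K : SS) (i : ℕ) (x : N F2 K), CT.dT (N.bd F2 K) (N.bd F2 K) (Phi K (i + 1) x) =
    Phi K (i + 1) (N.bd F2 K x) + (Phi K i x + TensorProduct.comm F2 _ _ (Phi K i x))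
  aug_zero : ∀ (K : SS) (x : N F2 K),
    CT.augT (EZ271.aug F2) (EZ271.aug F2) (Phi K 0 x) = EZ271.aug F2 x
  aug_succ : ∀ (K : SS) (i : ℕ) (x : N F2 K),
    CT.augT (EZ271.aug F2) (EZ271.aug F2) (Phi K (i + 1) x) = 0

/-! ## chains of `E Z/2` -/

/-- generator `g^b e_n` -/
noncomputable def ee (n : ℕ) (b : ZMod 2) : N F2 (EG (ZMod 2)) := N.sx F2 (alt n b)

theorem sx_eq_zero {n : ℕ} (x : (EG (ZMod 2)).S n) (h : x ≠ alt n (x 0)) : N.sx F2 x = 0 :=
  AltSS.full.sx_eq_zero' x h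

/-- linear maps out of `N(E Z/2)` agree if they agree on `g^b e_n` -/
theorem E_ext {M : Type*} [AddCommGroup M] [Module F2 M] {f g : N F2 (EG (ZMod 2)) →ₗ[F2] M}
    (h : ∀ (n : ℕ) (b : ZMod 2), f (ee n b) = g (ee n b)) : f = g := by
  refine EZ271.hom_ext fun n x => ?_
  by_cases hx : x = alt n (x 0)
  · rw [hx]; exact h n _
  · rw [sx_eq_zero x hx, map_zero, map_zero]

theorem full_e (n : ℕ) (b : ZMod 2) : AltSS.full.e n le_top b = alt n b :=
  AltSS.full.j_e n le_top b

theorem bd_ee_zero (b : ZMod 2) : N.bd F2 _ (ee 0 b) = 0 := EZ271.bd_sx_zero F2 _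

theorem bd_ee_succ (n : ℕ) (b : ZMod 2) : N.bd F2 _ (ee (n + 1) b) = ee n (b + 1) + ee n b := by
  have := AltSS.full.bd_e_succ n le_top b
  rw [full_e, full_e, full_e] at this
  exact this

theorem g_ee (n : ℕ) (b : ZMod 2) : N.map F2 gE.g (ee n b) = ee n (b + 1) := by
  rw [ee, N.map_sx, DK742.alt_g]; rfl

theorem aug_ee_zero (b : ZMod 2) : EZ271.aug F2 (ee 0 b) = 1 := EZ271.aug_sx_zero F2 _
theorem aug_ee_succ (n : ℕ) (b : ZMod 2) : EZ271.aug F2 (ee (n + 1) b) = 0 := EZ271.aug_sx_succ F2 _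

/-! ## `κ : N E → Hom(N K, N K ⊗ N K)` -/

section kap

variable {A : Type*} [AddCommGroup A] [Module F2 A]

/-- swap to the power `b` -/
noncomputable def tw (A : Type*) [AddCommGroup A] [Module F2 A] (b : ZMod 2) :
    A ⊗[F2] A →ₗ[F2] A ⊗[F2] A :=
  if b = 0 then LinearMap.id else (TensorProduct.comm F2 A A).toLinearMap

@[simp] theorem tw_zero : tw A 0 = LinearMap.id := by simp [tw]
@[simp] theorem tw_one : tw A 1 = (TensorProduct.comm F2 A A).toLinearMap := by simp [tw]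

theorem comm_comm (x : A ⊗[F2] A) : TensorProduct.comm F2 A A (TensorProduct.comm F2 A A x) = x := by
  have := CT.tens_ext (f := (TensorProduct.comm F2 A A).toLinearMap ∘ₗ
    (TensorProduct.comm F2 A A).toLinearMap) (g := LinearMap.id) (fun a b => by simp) x
  exact this

theorem comm_tw (b : ZMod 2) (x : A ⊗[F2] A) :
    TensorProduct.comm F2 A A (tw A b x) = tw A (b + 1) x := by
  rcases DK742.zmod2_cases b with rfl | rfl
  · rw [zero_add]; simp
  · have : (1 + 1 : ZMod 2) = 0 := by decide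
    rw [this, tw_one, tw_zero]
    exact comm_comm x

theorem comm_dT (d : A →ₗ[F2] A) (x : A ⊗[F2] A) : TensorProduct.comm F2 A A (CT.dT d d x) =
    CT.dT d d (TensorProduct.comm F2 A A x) := by
  have := CT.tens_ext (f := (TensorProduct.comm F2 A A).toLinearMap ∘ₗ CT.dT d d)
    (g := CT.dT d d ∘ₗ (TensorProduct.comm F2 A A).toLinearMap) (fun a b => by
      simp [add_comm]) x
  exact this

theorem comm_map {B : Type*} [AddCommGroup B] [Module F2 B] (f : A →ₗ[F2] B) (x : A ⊗[F2] A) :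
    TensorProduct.comm F2 B B (TensorProduct.map f f x) =
      TensorProduct.map f f (TensorProduct.comm F2 A A x) := by
  have := CT.tens_ext (f := (TensorProduct.comm F2 B B).toLinearMap ∘ₗ TensorProduct.map f f)
    (g := TensorProduct.map f f ∘ₗ (TensorProduct.comm F2 A A).toLinearMap) (fun a b => by
      simp) x
  exact this

theorem augT_comm (f : A →ₗ[F2] F2) (x : A ⊗[F2] A) :
    CT.augT f f (TensorProduct.comm F2 A A x) = CT.augT f f x := by
  have := CT.tens_ext (f := CT.augT f f ∘ₗ (TensorProduct.comm F2 A A).toLinearMap)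
    (g := CT.augT f f) (fun a b => by simp [mul_comm]) x
  exact this

theorem tw_dT (d : A →ₗ[F2] A) (b : ZMod 2) (x : A ⊗[F2] A) :
    tw A b (CT.dT d d x) = CT.dT d d (tw A b x) := by
  rcases DK742.zmod2_cases b with rfl | rfl
  · simp
  · rw [tw_one]; exact comm_dT d x

theorem tw_map {B : Type*} [AddCommGroup B] [Module F2 B] (f : A →ₗ[F2] B) (b : ZMod 2)
    (x : A ⊗[F2] A) : tw B b (TensorProduct.map f f x) = TensorProduct.map f f (tw A b x) := by
  rcases DK742.zmod2_cases b with rfl | rfl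
  · simp
  · rw [tw_one, tw_one]; exact comm_map f x

theorem augT_tw (f : A →ₗ[F2] F2) (b : ZMod 2) (x : A ⊗[F2] A) :
    CT.augT f f (tw A b x) = CT.augT f f x := by
  rcases DK742.zmod2_cases b with rfl | rfl
  · simp
  · rw [tw_one]; exact augT_comm f x

end kap

variable (D : PhiData)

section

variable (K : SS)

open Classical in
/-- `κ` on simplices -/
noncomputable def kapS (n : ℕ) (x : (EG (ZMod 2)).S n) : N F2 K →ₗ[F2] N F2 K ⊗[F2] N F2 K :=
  if x = alt n (x 0) then tw (N F2 K) (x 0) ∘ₗ D.Phi K n else 0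

/-- `κ : N(E) → Hom(N K, N K ⊗ N K)`, `g^b e_n ↦ t^b Φ_n` -/
noncomputable def kap : N F2 (EG (ZMod 2)) →ₗ[F2] N F2 K →ₗ[F2] N F2 K ⊗[F2] N F2 K :=
  EZ271.liftN (kapS D K) (fun n j y => by
    rw [kapS, if_neg]
    exact DK742.dgn_ne_alt j _ _)

theorem kap_ee (n : ℕ) (b : ZMod 2) (x : N F2 K) :
    kap D K (ee n b) x = tw (N F2 K) b (D.Phi K n x) := by
  have h1 : alt n b = alt n (alt n b 0) := by rw [DK742.alt_zero]
  rw [kap, ee, EZ271.liftN_sx, kapS, if_pos h1, DK742.alt_zero]; rfl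

theorem kap_g (a : N F2 (EG (ZMod 2))) (x : N F2 K) :
    kap D K (N.map F2 gE.g a) x = TensorProduct.comm F2 _ _ (kap D K a x) := by
  have : kap D K ∘ₗ N.map F2 gE.g =
      (kap D K).compr₂ (TensorProduct.comm F2 (N F2 K) (N F2 K)).toLinearMap := by
    refine E_ext (M := N F2 K →ₗ[F2] N F2 K ⊗[F2] N F2 K) ?_
    intro n b
    apply LinearMap.ext
    intro x
    simp only [LinearMap.comp_apply, LinearMap.compr₂_apply, g_ee, kap_ee, LinearEquiv.coe_coe,
      comm_tw]
  exact LinearMap.congr_fun (LinearMap.congr_fun this a) x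

theorem kap_bd (a : N F2 (EG (ZMod 2))) (x : N F2 K) :
    CT.dT (N.bd F2 K) (N.bd F2 K) (kap D K a x) =
      kap D K (N.bd F2 _ a) x + kap D K a (N.bd F2 K x) := by
  have : (kap D K).compr₂ (CT.dT (N.bd F2 K) (N.bd F2 K)) =
      kap D K ∘ₗ N.bd F2 _ + (kap D K).compl₂ (N.bd F2 K) := by
    refine E_ext (M := N F2 K →ₗ[F2] N F2 K ⊗[F2] N F2 K) ?_
    intro n b
    apply LinearMap.ext
    intro x
    simp only [LinearMap.comp_apply, LinearMap.compr₂_apply, LinearMap.add_apply,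
      LinearMap.compl₂_apply, kap_ee, ← tw_dT]
    rcases n with _ | n
    · rw [bd_ee_zero, map_zero, LinearMap.zero_apply, zero_add, D.d_zero]
    · rw [bd_ee_succ, map_add, LinearMap.add_apply, kap_ee, kap_ee, D.d_succ, map_add, map_add]
      have : tw (N F2 K) b (TensorProduct.comm F2 _ _ (D.Phi K n x)) =
          tw (N F2 K) (b + 1) (D.Phi K n x) := by
        rcases DK742.zmod2_cases b with rfl | rfl
        · rw [zero_add]; simp
        · have : (1 + 1 : ZMod 2) = 0 := by decide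
          rw [this, tw_one, tw_zero]
          exact comm_comm _
      rw [this]
      abel
  exact LinearMap.congr_fun (LinearMap.congr_fun this a) x

theorem kap_nat {K L : SS} (f : SS.Hom K L) (a : N F2 (EG (ZMod 2))) (x : N F2 K) :
    TensorProduct.map (N.map F2 f) (N.map F2 f) (kap D K a x) = kap D L a (N.map F2 f x) := by
  have : (kap D K).compr₂ (TensorProduct.map (N.map F2 f) (N.map F2 f)) =
      (kap D L).compl₂ (N.map F2 f) := by
    refine E_ext (M := N F2 K →ₗ[F2] N F2 L ⊗[F2] N F2 L) ?_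
    intro n b
    apply LinearMap.ext
    intro x
    simp only [LinearMap.compr₂_apply, LinearMap.compl₂_apply, kap_ee, ← tw_map, D.nat]
  exact LinearMap.congr_fun (LinearMap.congr_fun this a) x

theorem kap_aug (a : N F2 (EG (ZMod 2))) (x : N F2 K) :
    CT.augT (EZ271.aug F2) (EZ271.aug F2) (kap D K a x) = EZ271.aug F2 a * EZ271.aug F2 x := by
  have : (kap D K).compr₂ (CT.augT (EZ271.aug F2) (EZ271.aug F2)) =
      ((LinearMap.mul F2 F2) ∘ₗ (EZ271.aug F2 (K := EG (ZMod 2)))).compl₂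
        (EZ271.aug F2 (K := K)) := by
    apply E_ext
    intro n b
    apply LinearMap.ext
    intro x
    simp only [LinearMap.comp_apply, LinearMap.compr₂_apply, LinearMap.compl₂_apply, kap_ee,
      augT_tw, LinearMap.mul_apply']
    rcases n with _ | n
    · rw [D.aug_zero, aug_ee_zero, one_mul]
    · rw [D.aug_succ, aug_ee_succ, zero_mul]
  exact LinearMap.congr_fun (LinearMap.congr_fun this a) x

/-! ## `θ` -/

/-- `θ : N(E × K) → N K ⊗ N K` -/
noncomputable def th : N F2 ((EG (ZMod 2)).prod K) →ₗ[F2] N F2 K ⊗[F2] N F2 K :=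
  TensorProduct.lift (kap D K) ∘ₗ EZ271.aw F2

theorem th_cross (a : N F2 (EG (ZMod 2))) (x : N F2 K) :
    th D K (EZ271.cross F2 a x) = kap D K a x := by
  rw [th, LinearMap.comp_apply, EZ271.aw_cross, TensorProduct.lift.tmul]

theorem sg_F2 {L : SS} : (EZ271.sg F2 : N F2 L →ₗ[F2] N F2 L) = LinearMap.id := by
  refine EZ271.hom_ext fun n x => ?_
  rw [EZ271.sg_sx, neg_one_pow_F2, one_smul]; rfl

theorem tbd_F2 (K L : SS) : EZ271.tbd F2 K L = CT.dT (N.bd F2 K) (N.bd F2 L) := by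
  refine TensorProduct.ext' fun a b => ?_
  rw [EZ271.tbd_tmul, CT.dT_tmul, sg_F2]; rfl

theorem th_bd (z : N F2 ((EG (ZMod 2)).prod K)) :
    CT.dT (N.bd F2 K) (N.bd F2 K) (th D K z) = th D K (N.bd F2 _ z) := by
  rw [th, LinearMap.comp_apply, LinearMap.comp_apply, ← EZ271.bd_aw, tbd_F2]
  refine CT.tens_ext (f := CT.dT (N.bd F2 K) (N.bd F2 K) ∘ₗ TensorProduct.lift (kap D K))
    (g := TensorProduct.lift (kap D K) ∘ₗ CT.dT (N.bd F2 _) (N.bd F2 _)) (fun a b => ?_) _
  simp only [LinearMap.comp_apply, TensorProduct.lift.tmul, CT.dT_tmul, map_add, kap_bd]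

theorem th_nat {K L : SS} (f : SS.Hom K L) (z : N F2 ((EG (ZMod 2)).prod K)) :
    TensorProduct.map (N.map F2 f) (N.map F2 f) (th D K z) =
      th D L (N.map F2 (SS.prodMap (SS.Hom.id _) f) z) := by
  rw [th, th, LinearMap.comp_apply, LinearMap.comp_apply, EZ271.aw_map]
  refine CT.tens_ext (f := TensorProduct.map (N.map F2 f) (N.map F2 f) ∘ₗ
    TensorProduct.lift (kap D K))
    (g := TensorProduct.lift (kap D L) ∘ₗ TensorProduct.map (N.map F2 (SS.Hom.id _)) (N.map F2 f))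
    (fun a b => ?_) _
  simp only [LinearMap.comp_apply, TensorProduct.lift.tmul, TensorProduct.map_tmul, kap_nat,
    EZ271.map_idHom]

/-- the involution of `E × K` -/
def gK (K : SS) : SS.Hom ((EG (ZMod 2)).prod K) ((EG (ZMod 2)).prod K) :=
  SS.prodMap gE.g (SS.Hom.id K)

theorem th_g (z : N F2 ((EG (ZMod 2)).prod K)) :
    th D K (N.map F2 (gK K) z) = TensorProduct.comm F2 _ _ (th D K z) := by
  rw [th, LinearMap.comp_apply, LinearMap.comp_apply, gK, EZ271.aw_map]
  refine CT.tens_ext (f := TensorProduct.lift (kap D K) ∘ₗ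
      TensorProduct.map (N.map F2 gE.g) (N.map F2 (SS.Hom.id K)))
    (g := (TensorProduct.comm F2 _ _).toLinearMap ∘ₗ TensorProduct.lift (kap D K))
    (fun a b => ?_) _
  simp only [LinearMap.comp_apply, TensorProduct.lift.tmul, TensorProduct.map_tmul, kap_g,
    EZ271.map_idHom, LinearEquiv.coe_coe]

theorem aug_aw {K L : SS} (z : N F2 (K.prod L)) :
    CT.augT (EZ271.aug F2) (EZ271.aug F2) (EZ271.aw F2 z) = EZ271.aug F2 z := by
  have : CT.augT (EZ271.aug F2) (EZ271.aug F2) ∘ₗ EZ271.aw F2 =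
      (EZ271.aug F2 : N F2 (K.prod L) →ₗ[F2] F2) := by
    refine EZ271.hom_ext ?_
    rintro n ⟨x, y⟩
    rw [LinearMap.comp_apply, EZ271.aw_sx, map_sum]
    rcases n with _ | n
    · rw [EZ271.aug_sx_zero]; simp
    · rw [EZ271.aug_sx_succ]
      refine Finset.sum_eq_zero fun a ha => ?_
      rw [Finset.mem_range] at ha
      rw [CT.augT_tmul]
      rcases a with _ | a
      · obtain ⟨k, hk⟩ : ∃ k, n + 1 - 0 = k + 1 := ⟨n, by omega⟩
        rw [EZ271.aug_sx_zero, one_mul]
        exact (EZ271.aug_sx_succ F2 (n := n) _)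
      · rw [EZ271.aug_sx_succ, zero_mul]
  exact LinearMap.congr_fun this z

theorem th_aug (z : N F2 ((EG (ZMod 2)).prod K)) :
    CT.augT (EZ271.aug F2) (EZ271.aug F2) (th D K z) = EZ271.aug F2 z := by
  rw [← aug_aw, th, LinearMap.comp_apply]
  refine CT.tens_ext (f := CT.augT (EZ271.aug F2) (EZ271.aug F2) ∘ₗ TensorProduct.lift (kap D K))
    (g := CT.augT (EZ271.aug F2) (EZ271.aug F2)) (fun a b => ?_) _
  simp only [LinearMap.comp_apply, TensorProduct.lift.tmul, CT.augT_tmul, kap_aug]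

end

end Crest.Agent.R204.Adem596
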