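import Crest.Agent.R204.Bis3_343
import Crest.Agent.R204.PFib_170
import Crest.Agent.R204.EZHtp_271

/-!
# Row 204, block B (leaf P3, helper755): product of a column-1 chain with a column-`p` chain
-/

set_option autoImplicit false

namespace Crest.Agent.R204.Psi755

open Crest.Agent.R204 Crest.Agent.R204.Bis343 Crest.Agent.R204.EZ271 Crest.Agent.R204.Bar170
open Finsupp

/-! ## the universal chain `E(1,p)` -/

/-- `[m] → [1]`, `a ↦ 0` iff `a ≤ j` -/
def Op.step (m : ℕ) (j : ℕ) : Op m 1 where
  toFun a := if (a : ℕ) ≤ j then 0 else 1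
  monotone' a b h := by
    have h' : (a : ℕ) ≤ b := h
    dsimp only
    split_ifs with h1 h2 h2
    · exact le_rfl
    · exact Fin.zero_le _
    · omega
    · exact le_rfl

theorem Op.step_val (m j : ℕ) (a : Fin (m + 1)) :
    ((Op.step m j a : Fin 2) : ℕ) = if (a : ℕ) ≤ j then 0 else 1 := by
  show ((if (a : ℕ) ≤ j then (0 : Fin 2) else 1 : Fin 2) : ℕ) = _
  split_ifs <;> rfl

/-- `[m] → [0]` -/
def Op.bang (m : ℕ) : Op m 0 := ⟨fun _ => 0, fun _ _ _ => le_rfl⟩

theorem op_zero_ext {m : ℕ} (f g : Op m 0) : f = g :=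
  OrderHom.ext _ _ (funext fun a => Fin.ext (by omega))

/-- a pair of operators as a simplex of a product of standard simplices -/
def prS {m p q : ℕ} (f : Op m p) (g : Op m q) : ((SS.std p).prod (SS.std q)).S m := (f, g)

theorem E_zero_left (q : ℕ) : EZ271.E F2 0 q = N.sx F2 (prS (Op.bang q) (OrderHom.id : Op q q)) := by
  induction q with
  | zero =>
    rw [E_zero_zero]
    congr 1
    exact Prod.ext (op_zero_ext _ _) (op_zero_ext _ _)
  | succ q ih =>
    rw [E_zero_succ, ih, N.map_sx, Cone.c_sx]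
    congr 1
    refine Prod.ext (op_zero_ext _ _) ?_
    refine OrderHom.ext _ _ (funext fun a => ?_)
    induction a using Fin.cases with
    | zero => rfl
    | succ a => rfl

theorem E_one (p : ℕ) : EZ271.E F2 1 p =
    ∑ j : Fin (p + 1), N.sx F2 (prS (Op.step (p + 1) j) (Op.dgn j)) := by
  induction p with
  | zero =>
    rw [E_succ_zero, E_zero_left, N.map_sx, Cone.c_sx, Fin.sum_univ_one]
    congr 1
    refine Prod.ext ?_ (op_zero_ext _ _)
    refine OrderHom.ext _ _ (funext fun a => ?_)
    induction a using Fin.cases with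
    | zero => rfl
    | succ a => rfl
  | succ p ih =>
    rw [E_succ_succ, neg_one_pow_F2, one_smul, ih, E_zero_left, N.map_sx, map_add, map_sum, map_sum,
      Cone.c_sx, Fin.sum_univ_succ (n := p + 1)]
    congr 1
    · congr 1
      refine Prod.ext ?_ ?_
      · refine OrderHom.ext _ _ (funext fun a => ?_)
        induction a using Fin.cases with
        | zero => rfl
        | succ a => rfl
      · refine OrderHom.ext _ _ (funext fun a => Fin.ext ?_)
        show _ = ((Op.dgn (0 : Fin (p + 1 + 1)) a : Fin _) : ℕ)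
        rw [Ch.dgn_val]
        induction a using Fin.cases with
        | zero => rfl
        | succ a =>
          show (a : ℕ) = _
          simp
    · refine Finset.sum_congr rfl fun j _ => ?_
      rw [N.map_sx, Cone.c_sx]
      congr 1
      refine Prod.ext ?_ ?_
      · refine OrderHom.ext _ _ (funext fun a => Fin.ext ?_)
        show _ = ((Op.step (p + 1 + 1) ((j.succ : Fin (p + 2)) : ℕ) a : Fin 2) : ℕ)
        rw [Op.step_val]
        induction a using Fin.cases with
        | zero => simp; rfl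
        | succ a =>
          show ((Op.step (p + 1) (j : ℕ) a : Fin 2) : ℕ) = _
          rw [Op.step_val]
          simp
      · refine OrderHom.ext _ _ (funext fun a => Fin.ext ?_)
        show _ = ((Op.dgn (j.succ : Fin (p + 1 + 1)) a : Fin _) : ℕ)
        rw [Ch.dgn_val]
        induction a using Fin.cases with
        | zero => simp; rfl
        | succ a =>
          show (((Op.face 0 : Op p (p + 1)) (Op.dgn j a) : Fin _) : ℕ) = _
          rw [Ch.face_val, Ch.dgn_val]
          simp only [Fin.val_succ, Fin.val_zero]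
          split_ifs <;> omega

/-! ## product of columns -/

open BSS BSS.Tot

/-- the slice of `yoP x y` at a simplex of `Δ^p × Δ^{p'}` -/
def slice {E E' : BSS} {p q p' q' m : ℕ} (x : E.S p q) (y : E'.S p' q') (f : Op m p) (g : Op m p') :
    SS.Hom ((SS.std q).prod (SS.std q')) ((E.prod E').col m) :=
  (SS.prodMap (K' := E.col m) (L' := E'.col m) ((E.col m).yo (E.hact f x)) ((E'.col m).yo (E'.hact g y)))

theorem map_yoP_box {E E' : BSS} {p q p' q' m : ℕ} (x : E.S p q) (y : E'.S p' q') (f : Op m p)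
    (g : Op m p') (β : N F2 ((SS.std q).prod (SS.std q'))) :
    evP x y (N.sx F2 (prS f g)) β = ofCol _ m (N.map F2 (slice x y f g) β) := by
  have : (Tot.map (yoP x y)) ∘ₗ (box _ _ (N.sx F2 (prS f g))) =
      ofCol (E.prod E') m ∘ₗ N.map F2 (slice x y f g) := by
    refine EZ271.hom_ext fun n z => ?_
    simp only [LinearMap.comp_apply]
    rw [box_sx, map_bx, N.map_sx]
    refine (congrArg bx ?_).trans (ofCol_sx _ _ _).symm
    refine Prod.ext ?_ ?_
    · exact E.comm _ _ _
    · exact E'.comm _ _ _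
  exact LinearMap.congr_fun this β

theorem xT_col_sx {E E' : BSS} {p q q' : ℕ} (x : (E.col 1).S q) (y : (E'.col p).S q') :
    xT (ofCol E 1 (N.sx F2 x)) (ofCol E' p (N.sx F2 y)) =
      ∑ j : Fin (p + 1), ofCol (E.prod E') (p + 1)
        (cross F2 (K := E.col (p + 1)) (L := E'.col (p + 1))
          (N.map F2 (E.colMap (Op.step (p + 1) j)) (N.sx F2 x))
          (N.map F2 (E'.colMap (Op.dgn j)) (N.sx F2 y))) := by
  rw [ofCol_sx, ofCol_sx, xT_bx, E_one, evP_sum_left]
  refine Finset.sum_congr rfl fun j _ => ?_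
  rw [map_yoP_box, N.map_sx, N.map_sx, cross_sx]
  rfl

/-- one term of the leading term formula -/
noncomputable def insX (E E' : BSS) (p j : ℕ) (hj : j < p + 1) :
    N F2 (E.col 1) →ₗ[F2] N F2 (E'.col p) →ₗ[F2] N F2 ((E.prod E').col (p + 1)) :=
  ((cross F2 (K := E.col (p + 1)) (L := E'.col (p + 1))).comp
    (N.map F2 (E.colMap (Op.step (p + 1) j)))).compl₂ (N.map F2 (E'.colMap (Op.dgn ⟨j, hj⟩)))

theorem insX_apply {E E' : BSS} (p j : ℕ) (hj : j < p + 1) (a : N F2 (E.col 1)) (c : N F2 (E'.col p)) :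
    insX E E' p j hj a c = cross F2 (K := E.col (p + 1)) (L := E'.col (p + 1))
          (N.map F2 (E.colMap (Op.step (p + 1) j)) a)
          (N.map F2 (E'.colMap (Op.dgn ⟨j, hj⟩)) c) := rfl

/-- **leading term formula** -/
theorem xT_col {E E' : BSS} (p : ℕ) (a : N F2 (E.col 1)) (c : N F2 (E'.col p)) :
    xT (ofCol E 1 a) (ofCol E' p c) =
      ∑ j : Fin (p + 1), ofCol (E.prod E') (p + 1) (insX E E' p j j.2 a c) := by
  have : ((xT (E := E) (E' := E')).comp (ofCol E 1)).compl₂ (ofCol E' p) =
      ∑ j : Fin (p + 1), (insX E E' p j j.2).compr₂ (ofCol (E.prod E') (p + 1)) := by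
    refine bilin_ext F2 fun m x n y => ?_
    simp only [LinearMap.compl₂_apply, LinearMap.comp_apply, LinearMap.sum_apply,
      LinearMap.compr₂_apply]
    rw [xT_col_sx]
    rfl
  have h := LinearMap.congr_fun₂ this a c
  simpa only [LinearMap.compl₂_apply, LinearMap.comp_apply, LinearMap.sum_apply,
      LinearMap.compr₂_apply] using h

/-! ## multiplication on the total complex of the Cech nerve -/

section mult

variable {X : PFib} (M : PMul X)

/-- levelwise product on the Cech nerve -/
def mT : BSS.Hom ((cech X.π).prod (cech X.π)) (cech X.π) where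
  app p q z := ⟨fun i => M.M.app q (z.1.1 i, z.2.1 i), fun i j => by
    rw [M.π_M, M.π_M, z.1.2 i j, z.2.2 i j]⟩
  hnat _ _ := rfl
  vnat f z := Subtype.ext (funext fun i => M.M.nat f (z.1.1 i, z.2.1 i))

/-- the product of `Tot (cech π)` -/
noncomputable def mulT : (cech X.π).Tot →ₗ[F2] (cech X.π).Tot →ₗ[F2] (cech X.π).Tot :=
  xT.compr₂ (Tot.map (mT M))

theorem mulT_apply (a b : (cech X.π).Tot) : mulT M a b = Tot.map (mT M) (xT a b) := rfl

theorem D_mulT (a b : (cech X.π).Tot) :
    D _ (mulT M a b) = mulT M (D _ a) b + mulT M a (D _ b) := by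
  rw [mulT_apply, mulT_apply, mulT_apply, D_map, D_xT, map_add]

theorem map_ofCol {E E' : BSS} (φ : BSS.Hom E E') (p : ℕ) (c : N F2 (E.col p)) :
    Tot.map φ (ofCol E p c) = ofCol E' p (N.map F2 (φ.col p) c) := by
  have : (Tot.map φ) ∘ₗ (ofCol E p) = (ofCol E' p) ∘ₗ (N.map F2 (φ.col p)) := by
    refine EZ271.hom_ext fun n x => ?_
    simp only [LinearMap.comp_apply]
    rw [ofCol_sx, map_bx, N.map_sx]
    exact (ofCol_sx _ _ _).symm
  exact LinearMap.congr_fun this c

/-- levelwise product on `E_p` -/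
def mE (p : ℕ) : SS.Hom ((X.E p).prod (X.E p)) (X.E p) where
  app q z := (mT M).app p q z
  nat f z := (mT M).vnat f z

/-- one term of the product of a column-`1` chain with a column-`p` chain -/
noncomputable def insE (p j : ℕ) (hj : j < p + 1) :
    N F2 (X.E 1) →ₗ[F2] N F2 (X.E p) →ₗ[F2] N F2 (X.E (p + 1)) :=
  (((cross F2 (K := X.E (p + 1)) (L := X.E (p + 1))).comp
    (N.map F2 ((cech X.π).colMap (Op.step (p + 1) j)))).compl₂
      (N.map F2 ((cech X.π).colMap (Op.dgn ⟨j, hj⟩)))).compr₂ (N.map F2 (mE M (p + 1)))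

theorem insE_apply (p j : ℕ) (hj : j < p + 1) (a : N F2 (X.E 1)) (c : N F2 (X.E p)) :
    insE M p j hj a c = N.map F2 (mE M (p + 1)) (cross F2 (K := X.E (p + 1)) (L := X.E (p + 1))
          (N.map F2 ((cech X.π).colMap (Op.step (p + 1) j)) a)
          (N.map F2 ((cech X.π).colMap (Op.dgn ⟨j, hj⟩)) c)) := rfl

/-- **leading term formula** for the product -/
theorem mulT_col (p : ℕ) (a : N F2 (X.E 1)) (c : N F2 (X.E p)) :
    mulT M (ofCol _ 1 a) (ofCol _ p c) =
      ∑ j : Fin (p + 1), ofCol (cech X.π) (p + 1) (insE M p j j.2 a c) := by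
  rw [mulT_apply, xT_col, map_sum]
  refine Finset.sum_congr rfl fun j _ => ?_
  rw [map_ofCol]
  rfl

theorem bd_insE (p j : ℕ) (hj : j < p + 1) (a : N F2 (X.E 1)) (c : N F2 (X.E p)) :
    N.bd F2 _ (insE M p j hj a c) = insE M p j hj (N.bd F2 _ a) c + insE M p j hj a (N.bd F2 _ c) := by
  rw [insE_apply, insE_apply, insE_apply, ← map_bd', bd_cross, sg_F2, map_add, map_bd', map_bd']

/-! ## the augmentation is multiplicative -/

theorem aug_box_c {K L : SS} (A : Cone K) {P B : SS} (f : SS.Hom P B)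
    (φ : BSS.Hom (boxP K L) (cech f)) (α : N F2 K) (β : N F2 L) :
    Cech.aug f (Tot.map φ (box K L (A.c F2 α) β)) = 0 := by
  have : ((box K L).comp (A.c F2)).compr₂ ((Cech.aug f).comp (Tot.map φ)) = 0 := by
    refine bilin_ext F2 fun p x q y => ?_
    simp only [LinearMap.compr₂_apply, LinearMap.comp_apply, Cone.c_sx, LinearMap.zero_apply]
    rw [box_sx, map_bx, Cech.aug_bx_succ]
  exact LinearMap.congr_fun₂ this α β

theorem aug_ofCol_zero {P B : SS} (f : SS.Hom P B) (c : N F2 ((cech f).col 0)) :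
    Cech.aug f (ofCol (cech f) 0 c) = N.map F2 (Cech.col0 f) c := by
  have : (Cech.aug f) ∘ₗ (ofCol (cech f) 0) = N.map F2 (Cech.col0 f) := by
    refine EZ271.hom_ext fun n x => ?_
    simp only [LinearMap.comp_apply]
    rw [ofCol_sx, N.map_sx, Cech.aug_bx_zero]
    rfl
  exact LinearMap.congr_fun this c

theorem aug_ofCol_succ {P B : SS} (f : SS.Hom P B) (p : ℕ) (c : N F2 ((cech f).col (p + 1))) :
    Cech.aug f (ofCol (cech f) (p + 1) c) = 0 := by
  have : (Cech.aug f) ∘ₗ (ofCol (cech f) (p + 1)) = 0 := by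
    refine EZ271.hom_ext fun n x => ?_
    simp only [LinearMap.comp_apply, LinearMap.zero_apply]
    rw [ofCol_sx, Cech.aug_bx_succ]
  exact LinearMap.congr_fun this c

/-- the augmentation is multiplicative -/
theorem aug_mulT (a b : (cech X.π).Tot) :
    Cech.aug X.π (mulT M a b) = N.map F2 M.MK (cross F2 (Cech.aug X.π a) (Cech.aug X.π b)) := by
  have : (mulT M).compr₂ (Cech.aug X.π) =
      (((cross F2 (K := X.K) (L := X.K)).comp (Cech.aug X.π)).compl₂ (Cech.aug X.π)).compr₂
        (N.map F2 M.MK) := by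
    refine Tot.hom_ext fun p q x => Tot.hom_ext fun p' q' y => ?_
    simp only [LinearMap.compr₂_apply, LinearMap.compl₂_apply, LinearMap.comp_apply]
    rw [mulT_apply, xT_bx]
    rcases p with _ | p
    · rcases p' with _ | p'
      · rw [E_zero_left, map_yoP_box, map_ofCol, aug_ofCol_zero, Cech.aug_bx_zero, Cech.aug_bx_zero,
          cross_sx, EZ271.map_map, EZ271.map_map, EZ271.map_map]
        congr 2
        refine SS.Hom.ext (funext fun n => funext fun z => ?_)
        have h1 := M.π_M n (X.P.act z.1 (x.1 0)) (X.P.act z.2 (y.1 0))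
        exact h1.trans (congrArg (M.MK.app n) (Prod.ext (X.π.nat z.1 (x.1 0)) (X.π.nat z.2 (y.1 0))))
      · rw [E_zero_succ, evP, Tot.map_map, aug_box_c, Cech.aug_bx_succ, map_zero, map_zero]
    · rcases p' with _ | p'
      · rw [E_succ_zero, evP, Tot.map_map, aug_box_c, Cech.aug_bx_succ, map_zero,
          LinearMap.zero_apply, map_zero]
      · rw [E_succ_succ, evP, Tot.map_map, aug_box_c, Cech.aug_bx_succ, map_zero,
          LinearMap.zero_apply, map_zero]
  exact LinearMap.congr_fun₂ this a b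

end mult

end Crest.Agent.R204.Psi755
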