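import Crest.Agent.R204.Defs

/-!
# Row 204, leaf A-QC (helper134): quasi-isomorphisms of differential `F2`-modules,
Künneth, and the homology of the quadratic construction
`W ⊗_{Z/2} (C ⊗ C)`, `W` the standard free resolution (generators `e_i`, `d e_i = (1+τ) e_{i-1}`).
-/

set_option autoImplicit false
set_option linter.unusedSectionVars false
set_option linter.unusedSimpArgs false

namespace Crest.Agent.R204.QC134

open Finsupp TensorProduct

variable {M M' M'' L L' : Type*}
  [AddCommGroup M] [Module F2 M] [AddCommGroup M'] [Module F2 M'] [AddCommGroup M''] [Module F2 M'']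
  [AddCommGroup L] [Module F2 L] [AddCommGroup L'] [Module F2 L']

/-- characteristic two -/
theorem add_self' (x : M) : x + x = 0 := by
  have h : (1 + 1 : F2) = 0 := by decide
  have := congrArg (fun r : F2 => r • x) h
  simpa [add_smul] using this

theorem neg_eq' (x : M) : -x = x := by
  rw [neg_eq_iff_add_eq_zero]; exact add_self' x

theorem sub_eq' (x y : M) : x - y = x + y := by rw [sub_eq_add_neg, neg_eq']

theorem add_add_self (x y : M) : x + y + y = x := by rw [add_assoc, add_self', add_zero]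

theorem eq_of_add_eq_zero {x y : M} (h : x + y = 0) : x = y := by
  rw [← sub_eq'] at h; exact sub_eq_zero.1 h

/-- `f` is a quasi-isomorphism `(M,d) → (M',d')` (elementwise form) -/
structure QI (d : M →ₗ[F2] M) (d' : M' →ₗ[F2] M') (f : M →ₗ[F2] M') : Prop where
  comm : ∀ x, f (d x) = d' (f x)
  surj : ∀ z', d' z' = 0 → ∃ z w', d z = 0 ∧ z' = f z + d' w'
  inj : ∀ z, d z = 0 → (∃ w', d' w' = f z) → ∃ w, d w = z

/-- acyclicity of the mapping cone, elementwise -/
def Acy (d : M →ₗ[F2] M) (d' : M' →ₗ[F2] M') (f : M →ₗ[F2] M') : Prop :=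
  ∀ c c', d c = 0 → f c = d' c' → ∃ w w', c = d w ∧ c' = f w + d' w'

theorem QI.acy {d : M →ₗ[F2] M} {d' : M' →ₗ[F2] M'} {f : M →ₗ[F2] M'} (h : QI d d' f) :
    Acy d d' f := by
  intro c c' hc hcc
  obtain ⟨w0, hw0⟩ := h.inj c hc ⟨c', hcc.symm⟩
  obtain ⟨z, w', hz, hzw⟩ := h.surj (c' + f w0) (by
    rw [map_add, ← h.comm, hw0, hcc, add_self'])
  refine ⟨w0 + z, w', ?_, ?_⟩
  · rw [map_add, hw0, hz, add_zero]
  · rw [map_add, add_assoc, ← hzw, add_comm c', ← add_assoc, add_self', zero_add]

theorem QI.of_acy {d : M →ₗ[F2] M} {d' : M' →ₗ[F2] M'} {f : M →ₗ[F2] M'}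
    (hf : ∀ x, f (d x) = d' (f x)) (h : Acy d d' f) : QI d d' f := by
  refine ⟨hf, ?_, ?_⟩
  · intro z' hz'
    obtain ⟨w, w', h1, h2⟩ := h 0 z' (map_zero _) (by rw [hz', map_zero])
    exact ⟨w, w', h1.symm, h2⟩
  · rintro z hz ⟨w', hw'⟩
    obtain ⟨w, _, h1, _⟩ := h z w' hz hw'.symm
    exact ⟨w, h1.symm⟩

theorem QI.comp {d : M →ₗ[F2] M} {d' : M' →ₗ[F2] M'} {d'' : M'' →ₗ[F2] M''} {f : M →ₗ[F2] M'}
    {g : M' →ₗ[F2] M''} (hg : QI d' d'' g) (hf : QI d d' f) : QI d d'' (g ∘ₗ f) := by
  refine ⟨fun x => by simp [hf.comm, hg.comm], ?_, ?_⟩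
  · intro z'' hz''
    obtain ⟨z', w'', h1, rfl⟩ := hg.surj z'' hz''
    obtain ⟨z, w', h2, rfl⟩ := hf.surj z' h1
    refine ⟨z, g w' + w'', h2, ?_⟩
    simp only [LinearMap.comp_apply, map_add, hg.comm, add_assoc]
  · rintro z hz ⟨w'', hw''⟩
    exact hf.inj z hz (hg.inj (f z) (by rw [← hf.comm, hz, map_zero]) ⟨w'', hw''⟩)

theorem QI.id (d : M →ₗ[F2] M) : QI d d LinearMap.id :=
  ⟨fun _ => rfl, fun z' hz' => ⟨z', 0, hz', by simp⟩, fun _ _ ⟨w, hw⟩ => ⟨w, hw⟩⟩

/-- two out of three -/
theorem QI.of_comp_left {d : M →ₗ[F2] M} {d' : M' →ₗ[F2] M'} {d'' : M'' →ₗ[F2] M''}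
    {f : M →ₗ[F2] M'} {g : M' →ₗ[F2] M''} (hfc : ∀ x, f (d x) = d' (f x))
    (hg : QI d' d'' g) (h : QI d d'' (g ∘ₗ f)) : QI d d' f := by
  refine ⟨hfc, ?_, ?_⟩
  · intro z' hz'
    obtain ⟨z, w'', h1, h2⟩ := h.surj (g z') (by rw [← hg.comm, hz', map_zero])
    obtain ⟨w, hw⟩ := hg.inj (z' + f z) (by rw [map_add, hz', ← hfc, h1, map_zero, add_zero])
      ⟨w'', by rw [map_add, h2, LinearMap.comp_apply, add_comm (g (f z)), add_add_self]⟩
    exact ⟨z, w, h1, by rw [hw, add_comm z', ← add_assoc, add_self', zero_add]⟩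
  · rintro z hz ⟨w', hw'⟩
    exact h.inj z hz ⟨g w', by rw [← hg.comm, hw']; rfl⟩

/-- two out of three -/
theorem QI.of_comp_right {d : M →ₗ[F2] M} {d' : M' →ₗ[F2] M'} {d'' : M'' →ₗ[F2] M''}
    {f : M →ₗ[F2] M'} {g : M' →ₗ[F2] M''} (hgc : ∀ x, g (d' x) = d'' (g x))
    (hf : QI d d' f) (h : QI d d'' (g ∘ₗ f)) : QI d' d'' g := by
  refine ⟨hgc, ?_, ?_⟩
  · intro z'' hz''
    obtain ⟨z, w'', h1, h2⟩ := h.surj z'' hz''
    exact ⟨f z, w'', by rw [← hf.comm, h1, map_zero], h2⟩
  · rintro z' hz' ⟨w'', hw''⟩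
    obtain ⟨z, w', h1, rfl⟩ := hf.surj z' hz'
    obtain ⟨w, hw⟩ := h.inj z h1 ⟨w'' + g w', by
      rw [map_add, hw'', map_add, ← hgc, LinearMap.comp_apply, add_add_self]⟩
    exact ⟨f w + w', by rw [map_add, ← hf.comm, hw]⟩

/-- quasi-isomorphisms are the maps inducing bijections on `Hd` -/
theorem QI.bijective {d : M →ₗ[F2] M} {d' : M' →ₗ[F2] M'} {f : M →ₗ[F2] M'} (h : QI d d' f)
    (hc : f ∘ₗ d = d' ∘ₗ f) : Function.Bijective (Hd.map f hc) := by
  constructor
  · rw [injective_iff_map_eq_zero]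
    intro x hx
    obtain ⟨z, hz, rfl⟩ := Hd.mk_surj d x
    rw [Hd.map_mk, Hd.mk_eq_zero] at hx
    exact Hd.mk_eq_zero.2 (h.inj z hz hx)
  · intro y
    obtain ⟨z', hz', rfl⟩ := Hd.mk_surj d' y
    obtain ⟨z, w', hz, hzw⟩ := h.surj z' hz'
    refine ⟨Hd.mk d z hz, ?_⟩
    rw [Hd.map_mk, Hd.mk_eq_mk]
    exact ⟨w', by rw [hzw, sub_eq', ← add_assoc, add_self', zero_add]⟩

theorem QI.of_bijective {d : M →ₗ[F2] M} {d' : M' →ₗ[F2] M'} {f : M →ₗ[F2] M'}
    (hc : f ∘ₗ d = d' ∘ₗ f) (hb : Function.Bijective (Hd.map f hc)) : QI d d' f := by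
  refine ⟨fun x => LinearMap.congr_fun hc x, ?_, ?_⟩
  · intro z' hz'
    obtain ⟨x, hx⟩ := hb.2 (Hd.mk d' z' hz')
    obtain ⟨z, hz, rfl⟩ := Hd.mk_surj d x
    rw [Hd.map_mk, Hd.mk_eq_mk] at hx
    obtain ⟨w, hw⟩ := hx
    exact ⟨z, w, hz, by rw [hw, sub_eq', ← add_assoc, add_self', zero_add]⟩
  · rintro z hz hw
    have h1 : Hd.map f hc (Hd.mk d z hz) = 0 := by rw [Hd.map_mk, Hd.mk_eq_zero]; exact hw
    have h2 := hb.1 (h1.trans (map_zero _).symm)
    exact Hd.mk_eq_zero.1 h2

/-! ## homotopy equivalences -/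

/-- homotopy inverse data (over a field every quasi-isomorphism has one) -/
theorem exists_contraction (d : M →ₗ[F2] M) (hdd : ∀ x, d (d x) = 0)
    (h : ∀ z, d z = 0 → ∃ w, d w = z) : ∃ s : M →ₗ[F2] M, ∀ x, d (s x) + s (d x) = x := by
  obtain ⟨σ, hσ⟩ := d.rangeRestrict.exists_rightInverse_of_surjective d.range_rangeRestrict
  have hσ' : ∀ y : LinearMap.range d, d (σ y) = y := by
    intro y
    have := LinearMap.congr_fun hσ y
    simpa using congrArg Subtype.val this
  have hmem : ∀ x, x + σ (d.rangeRestrict x) ∈ LinearMap.range d := by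
    intro x
    obtain ⟨w, hw⟩ := h (x + σ (d.rangeRestrict x)) (by
      rw [map_add, hσ']; exact add_self' _)
    exact ⟨w, hw⟩
  refine ⟨σ ∘ₗ ((LinearMap.id + σ ∘ₗ d.rangeRestrict).codRestrict (LinearMap.range d) hmem), ?_⟩
  intro x
  simp only [LinearMap.comp_apply]
  rw [hσ']
  have h0 : d.rangeRestrict (d x) = 0 := by
    ext; simp [hdd]
  have h1 : (LinearMap.codRestrict (LinearMap.range d) (LinearMap.id + σ ∘ₗ d.rangeRestrict) hmem)
      (d x) = d.rangeRestrict x := by
    ext
    simp [h0]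
  rw [h1]
  simp only [LinearMap.codRestrict_apply, LinearMap.add_apply, LinearMap.id_apply,
    LinearMap.comp_apply]
  rw [add_assoc, add_self', add_zero]

/-- cone differential -/
def coneD (d : M →ₗ[F2] M) (d' : M' →ₗ[F2] M') (f : M →ₗ[F2] M') : (M' × M) →ₗ[F2] (M' × M) :=
  LinearMap.prod (d' ∘ₗ LinearMap.fst _ _ _ + f ∘ₗ LinearMap.snd _ _ _) (d ∘ₗ LinearMap.snd _ _ _)

theorem coneD_apply (d : M →ₗ[F2] M) (d' : M' →ₗ[F2] M') (f : M →ₗ[F2] M') (x : M' × M) :
    coneD d d' f x = (d' x.1 + f x.2, d x.2) := rfl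

/-- over a field a quasi-isomorphism is a homotopy equivalence -/
theorem QI.homotopyEquiv {d : M →ₗ[F2] M} {d' : M' →ₗ[F2] M'} {f : M →ₗ[F2] M'}
    (hdd : ∀ x, d (d x) = 0) (hdd' : ∀ x, d' (d' x) = 0) (h : QI d d' f) :
    ∃ (g : M' →ₗ[F2] M) (s : M →ₗ[F2] M) (s' : M' →ₗ[F2] M'),
      (∀ x, g (d' x) = d (g x)) ∧ (∀ x, d (s x) + g (f x) + s (d x) = x) ∧
      (∀ x, d' (s' x) + f (g x) + s' (d' x) = x) := by
  have hD : ∀ x, coneD d d' f (coneD d d' f x) = 0 := by
    rintro ⟨a, b⟩
    simp [coneD, hdd, hdd', h.comm, add_self']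
  obtain ⟨S, hS⟩ := exists_contraction (coneD d d' f) hD (by
    rintro ⟨c', c⟩ hc
    simp only [coneD_apply, Prod.mk_eq_zero] at hc
    obtain ⟨w, w', h1, h2⟩ := h.acy c c' hc.2 (eq_of_add_eq_zero hc.1).symm
    exact ⟨(w', w), by simp [coneD_apply, h1, h2, add_comm]⟩)
  refine ⟨LinearMap.snd F2 M' M ∘ₗ S ∘ₗ LinearMap.inl F2 M' M,
    LinearMap.snd F2 M' M ∘ₗ S ∘ₗ LinearMap.inr F2 M' M,
    LinearMap.fst F2 M' M ∘ₗ S ∘ₗ LinearMap.inl F2 M' M, ?_, ?_, ?_⟩
  · intro x
    have := congrArg Prod.snd (hS (x, 0))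
    simp only [coneD_apply, Prod.snd_add, map_zero, add_zero] at this
    exact (eq_of_add_eq_zero this).symm
  · intro x
    have := congrArg Prod.snd (hS (0, x))
    simp only [coneD_apply, Prod.snd_add, map_zero, zero_add] at this
    have e : S (f x, d x) = S (f x, 0) + S (0, d x) := by rw [← map_add]; simp
    rw [e, Prod.snd_add, ← add_assoc] at this
    exact this
  · intro x
    have := congrArg Prod.fst (hS (x, 0))
    simp only [coneD_apply, Prod.fst_add, map_zero, add_zero] at this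
    exact this

theorem QI.of_homotopyEquiv {d : M →ₗ[F2] M} {d' : M' →ₗ[F2] M'} {f : M →ₗ[F2] M'}
    {g : M' →ₗ[F2] M} {s : M →ₗ[F2] M} {s' : M' →ₗ[F2] M'} (hf : ∀ x, f (d x) = d' (f x))
    (hg : ∀ x, g (d' x) = d (g x)) (hs : ∀ x, d (s x) + g (f x) + s (d x) = x)
    (hs' : ∀ x, d' (s' x) + f (g x) + s' (d' x) = x) : QI d d' f := by
  refine ⟨hf, ?_, ?_⟩
  · intro z' hz'
    refine ⟨g z', s' z', by rw [← hg, hz', map_zero], ?_⟩
    have := hs' z'
    rw [hz', map_zero, add_zero, add_comm] at this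
    exact this.symm
  · rintro z hz ⟨w', hw'⟩
    refine ⟨s z + g w', ?_⟩
    have := hs z
    rw [hz, map_zero, add_zero, ← hw', hg, ← map_add] at this
    exact this

/-! ## tensor products -/

/-- the tensor differential (characteristic 2) -/
noncomputable def dT (d : M →ₗ[F2] M) (d' : M' →ₗ[F2] M') : (M ⊗[F2] M') →ₗ[F2] (M ⊗[F2] M') :=
  TensorProduct.map d LinearMap.id + TensorProduct.map LinearMap.id d'

@[simp] theorem dT_tmul (d : M →ₗ[F2] M) (d' : M' →ₗ[F2] M') (x : M) (y : M') :
    dT d d' (x ⊗ₜ y) = d x ⊗ₜ y + x ⊗ₜ d' y := by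
  simp [dT]

theorem dT_dT {d : M →ₗ[F2] M} {d' : M' →ₗ[F2] M'} (h : ∀ x, d (d x) = 0)
    (h' : ∀ x, d' (d' x) = 0) (x : M ⊗[F2] M') : dT d d' (dT d d' x) = 0 := by
  induction x using TensorProduct.induction_on with
  | zero => simp
  | add x y hx hy => rw [map_add, map_add, hx, hy, add_zero]
  | tmul x y =>
    simp only [dT_tmul, map_add, h, h', TensorProduct.zero_tmul, TensorProduct.tmul_zero, zero_add,
      add_zero]
    exact add_self' _

theorem QI.tensor_left {d : M →ₗ[F2] M} {d' : M' →ₗ[F2] M'} {f : M →ₗ[F2] M'}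
    (hdd : ∀ x, d (d x) = 0) (hdd' : ∀ x, d' (d' x) = 0) (h : QI d d' f) (e : L →ₗ[F2] L) :
    QI (dT d e) (dT d' e) (TensorProduct.map f LinearMap.id) := by
  obtain ⟨g, s, s', hg, hs, hs'⟩ := h.homotopyEquiv hdd hdd'
  refine QI.of_homotopyEquiv (g := TensorProduct.map g LinearMap.id)
    (s := TensorProduct.map s LinearMap.id) (s' := TensorProduct.map s' LinearMap.id) ?_ ?_ ?_ ?_
  · intro x
    induction x using TensorProduct.induction_on with
    | zero => simp
    | add x y hx hy => simp only [map_add, hx, hy]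
    | tmul x y => simp [h.comm]
  · intro x
    induction x using TensorProduct.induction_on with
    | zero => simp
    | add x y hx hy => simp only [map_add, hx, hy]
    | tmul x y => simp [hg]
  · intro x
    induction x using TensorProduct.induction_on with
    | zero => simp
    | add x y hx hy =>
      have : dT d e ((TensorProduct.map s LinearMap.id) (x + y)) +
          (TensorProduct.map g LinearMap.id) ((TensorProduct.map f LinearMap.id) (x + y)) +
          (TensorProduct.map s LinearMap.id) (dT d e (x + y)) =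
          (dT d e ((TensorProduct.map s LinearMap.id) x) +
          (TensorProduct.map g LinearMap.id) ((TensorProduct.map f LinearMap.id) x) +
          (TensorProduct.map s LinearMap.id) (dT d e x)) +
          (dT d e ((TensorProduct.map s LinearMap.id) y) +
          (TensorProduct.map g LinearMap.id) ((TensorProduct.map f LinearMap.id) y) +
          (TensorProduct.map s LinearMap.id) (dT d e y)) := by
        simp only [map_add]; abel
      rw [this, hx, hy]
    | tmul x y =>
      simp only [dT_tmul, TensorProduct.map_tmul, LinearMap.id_apply, map_add]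
      have e1 : d (s x) ⊗ₜ[F2] y + s x ⊗ₜ[F2] e y + g (f x) ⊗ₜ[F2] y + (s (d x) ⊗ₜ[F2] y +
          s x ⊗ₜ[F2] e y) = (d (s x) + g (f x) + s (d x)) ⊗ₜ[F2] y + (s x ⊗ₜ[F2] e y +
          s x ⊗ₜ[F2] e y) := by
        simp only [TensorProduct.add_tmul]; abel
      rw [e1, hs, add_self', add_zero]
  · intro x
    induction x using TensorProduct.induction_on with
    | zero => simp
    | add x y hx hy =>
      have : dT d' e ((TensorProduct.map s' LinearMap.id) (x + y)) +
          (TensorProduct.map f LinearMap.id) ((TensorProduct.map g LinearMap.id) (x + y)) +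
          (TensorProduct.map s' LinearMap.id) (dT d' e (x + y)) =
          (dT d' e ((TensorProduct.map s' LinearMap.id) x) +
          (TensorProduct.map f LinearMap.id) ((TensorProduct.map g LinearMap.id) x) +
          (TensorProduct.map s' LinearMap.id) (dT d' e x)) +
          (dT d' e ((TensorProduct.map s' LinearMap.id) y) +
          (TensorProduct.map f LinearMap.id) ((TensorProduct.map g LinearMap.id) y) +
          (TensorProduct.map s' LinearMap.id) (dT d' e y)) := by
        simp only [map_add]; abel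
      rw [this, hx, hy]
    | tmul x y =>
      simp only [dT_tmul, TensorProduct.map_tmul, LinearMap.id_apply, map_add]
      have e1 : d' (s' x) ⊗ₜ[F2] y + s' x ⊗ₜ[F2] e y + f (g x) ⊗ₜ[F2] y + (s' (d' x) ⊗ₜ[F2] y +
          s' x ⊗ₜ[F2] e y) = (d' (s' x) + f (g x) + s' (d' x)) ⊗ₜ[F2] y + (s' x ⊗ₜ[F2] e y +
          s' x ⊗ₜ[F2] e y) := by
        simp only [TensorProduct.add_tmul]; abel
      rw [e1, hs', add_self', add_zero]

/-- the swap is an isomorphism of differential modules -/
theorem comm_dT (d : M →ₗ[F2] M) (d' : M' →ₗ[F2] M') (x : M ⊗[F2] M') :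
    (TensorProduct.comm F2 M M') (dT d d' x) = dT d' d ((TensorProduct.comm F2 M M') x) := by
  induction x using TensorProduct.induction_on with
  | zero => simp
  | add x y hx hy => simp only [map_add, hx, hy]
  | tmul x y => simp [add_comm]

theorem QI.of_equiv {d : M →ₗ[F2] M} {d' : M' →ₗ[F2] M'} (e : M ≃ₗ[F2] M')
    (h : ∀ x, e (d x) = d' (e x)) : QI d d' (e : M →ₗ[F2] M') := by
  have h' : ∀ y, e.symm (d' y) = d (e.symm y) := by
    intro y
    apply e.injective
    rw [h]; simp
  refine ⟨h, ?_, ?_⟩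
  · intro z' hz'
    exact ⟨e.symm z', 0, by rw [← h', hz', map_zero], by simp⟩
  · rintro z hz ⟨w', hw'⟩
    refine ⟨e.symm w', ?_⟩
    rw [← h', hw']; simp

theorem QI.tensor_right {d : M →ₗ[F2] M} {d' : M' →ₗ[F2] M'} {f : M →ₗ[F2] M'}
    (hdd : ∀ x, d (d x) = 0) (hdd' : ∀ x, d' (d' x) = 0) (h : QI d d' f) (e : L →ₗ[F2] L) :
    QI (dT e d) (dT e d') (TensorProduct.map LinearMap.id f) := by
  have h1 := h.tensor_left hdd hdd' e
  have h2 := QI.of_equiv (d := dT e d) (d' := dT d e) (TensorProduct.comm F2 L M) (comm_dT e d)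
  have h3 := QI.of_equiv (d := dT d' e) (d' := dT e d') (TensorProduct.comm F2 M' L) (comm_dT d' e)
  have h4 := h3.comp (h1.comp h2)
  convert h4 using 1
  ext x y
  simp

/-- Künneth: tensor product of quasi-isomorphisms -/
theorem QI.tensor {d : M →ₗ[F2] M} {d' : M' →ₗ[F2] M'} {f : M →ₗ[F2] M'}
    (hdd : ∀ x, d (d x) = 0) (hdd' : ∀ x, d' (d' x) = 0) (h : QI d d' f)
    {e : L →ₗ[F2] L} {e' : L' →ₗ[F2] L'} {g : L →ₗ[F2] L'}
    (hee : ∀ x, e (e x) = 0) (hee' : ∀ x, e' (e' x) = 0) (hg : QI e e' g) :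
    QI (dT d e) (dT d' e') (TensorProduct.map f g) := by
  have h1 := h.tensor_left hdd hdd' e
  have h2 := hg.tensor_right hee hee' d'
  have h3 := h2.comp h1
  convert h3 using 1
  rw [← TensorProduct.map_comp]; simp

/-! ## the quadratic construction `W ⊗_{Z/2} M` -/

/-- the differential of `W ⊗_{Z/2} M = ⊕_i e_i ⊗ M`:
`D (e_i ⊗ m) = e_{i-1} ⊗ (m + τ m) + e_i ⊗ d m`. -/
noncomputable def QD (d τ : M →ₗ[F2] M) : (ℕ →₀ M) →ₗ[F2] (ℕ →₀ M) :=
  Finsupp.lsum F2 (fun i => Finsupp.lsingle i ∘ₗ d +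
    (match i with
      | 0 => 0
      | j + 1 => Finsupp.lsingle j ∘ₗ (LinearMap.id + τ)))

@[simp] theorem QD_single_zero (d τ : M →ₗ[F2] M) (m : M) :
    QD d τ (single 0 m) = single 0 (d m) := by
  simp [QD]

@[simp] theorem QD_single_succ (d τ : M →ₗ[F2] M) (i : ℕ) (m : M) :
    QD d τ (single (i + 1) m) = single (i + 1) (d m) + single i (m + τ m) := by
  simp [QD]

theorem QD_apply (d τ : M →ₗ[F2] M) (x : ℕ →₀ M) (i : ℕ) :
    QD d τ x i = d (x i) + (x (i + 1) + τ (x (i + 1))) := by
  induction x using Finsupp.induction_linear with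
  | zero => simp
  | add f g hf hg => simp only [map_add, Finsupp.add_apply, hf, hg]; abel
  | single j m =>
    rcases j with _ | j
    · rw [QD_single_zero]
      rcases i with _ | i
      · simp
      · simp
    · rw [QD_single_succ]
      simp only [Finsupp.add_apply, Finsupp.single_apply]
      by_cases h : j = i
      · subst h
        simp
      · by_cases h2 : j + 1 = i
        · subst h2
          simp
        · have : ¬ (j + 1 = i + 1) := by omega
          simp [h, h2, this]

theorem QD_QD {d τ : M →ₗ[F2] M} (hdd : ∀ x, d (d x) = 0) (hτ : ∀ x, τ (τ x) = x)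
    (hc : ∀ x, τ (d x) = d (τ x)) (x : ℕ →₀ M) : QD d τ (QD d τ x) = 0 := by
  ext i
  rw [QD_apply, QD_apply, QD_apply]
  simp only [map_add, hdd, hτ, hc, zero_add, Finsupp.coe_zero, Pi.zero_apply]
  have : ∀ a b c e : M, a + b + (a + (c + e) + (b + (e + c))) = (a + a) + (b + b) + (c + c) + (e + e) := by
    intros; abel
  rw [this]
  simp [add_self']

/-- functoriality of `W ⊗_{Z/2} -` -/
noncomputable def Qmap (f : M →ₗ[F2] M') : (ℕ →₀ M) →ₗ[F2] (ℕ →₀ M') :=
  Finsupp.mapRange.linearMap f

@[simp] theorem Qmap_single (f : M →ₗ[F2] M') (i : ℕ) (m : M) :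
    Qmap f (single i m) = single i (f m) := by
  simp [Qmap]

@[simp] theorem Qmap_apply (f : M →ₗ[F2] M') (x : ℕ →₀ M) (i : ℕ) : Qmap f x i = f (x i) := by
  simp [Qmap]

theorem Qmap_comp (g : M' →ₗ[F2] M'') (f : M →ₗ[F2] M') : Qmap (g ∘ₗ f) = Qmap g ∘ₗ Qmap f := by
  ext; simp [Qmap]

theorem Qmap_QD {d τ : M →ₗ[F2] M} {d' τ' : M' →ₗ[F2] M'} {f : M →ₗ[F2] M'}
    (hf : ∀ x, f (d x) = d' (f x)) (hτ : ∀ x, f (τ x) = τ' (f x)) (x : ℕ →₀ M) :
    Qmap f (QD d τ x) = QD d' τ' (Qmap f x) := by
  ext i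
  simp only [Qmap_apply, QD_apply, map_add, hf, hτ]

/-- comparison theorem: an equivariant map which is a quasi-isomorphism induces a
quasi-isomorphism after `W ⊗_{Z/2} -` -/
theorem QI.Q {d τ : M →ₗ[F2] M} {d' τ' : M' →ₗ[F2] M'} {f : M →ₗ[F2] M'}
    (hdd : ∀ x, d (d x) = 0) (hdd' : ∀ x, d' (d' x) = 0)
    (hττ : ∀ x, τ (τ x) = x) (hττ' : ∀ x, τ' (τ' x) = x)
    (hc : ∀ x, τ (d x) = d (τ x)) (hc' : ∀ x, τ' (d' x) = d' (τ' x))
    (hfτ : ∀ x, f (τ x) = τ' (f x)) (h : QI d d' f) :
    QI (QD d τ) (QD d' τ') (Qmap f) := by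
  refine QI.of_acy (Qmap_QD h.comm hfτ) ?_
  have key : ∀ (n : ℕ) (c : ℕ →₀ M) (c' : ℕ →₀ M'), (∀ i, n ≤ i → c i = 0) →
      (∀ i, n ≤ i → c' i = 0) → QD d τ c = 0 → Qmap f c = QD d' τ' c' →
      ∃ w w', c = QD d τ w ∧ c' = Qmap f w + QD d' τ' w' := by
    intro n
    induction n with
    | zero =>
      intro c c' h1 h2 _ _
      refine ⟨0, 0, ?_, ?_⟩
      · ext i; simp [h1 i (Nat.zero_le _)]
      · ext i; simp [h2 i (Nat.zero_le _)]
    | succ n ih =>
      intro c c' h1 h2 h3 h4
      have e1 : d (c n) = 0 := by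
        have := DFunLike.congr_fun h3 n
        rw [QD_apply, h1 (n + 1) le_rfl] at this
        simpa using this
      have e2 : f (c n) = d' (c' n) := by
        have := DFunLike.congr_fun h4 n
        rw [QD_apply, h2 (n + 1) le_rfl] at this
        simpa using this
      obtain ⟨w, w', hw, hw'⟩ := h.acy _ _ e1 e2
      obtain ⟨v, v', hv, hv'⟩ := ih (c + QD d τ (single n w))
        (c' + (Qmap f (single n w) + QD d' τ' (single n w')))
        (by
          intro i hi
          rw [Finsupp.add_apply, QD_apply]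
          rcases hi.eq_or_lt with rfl | hi
          · simp [Finsupp.single_apply, hw, add_self']
          · rw [h1 i hi]
            have a1 : n ≠ i := by omega
            have a2 : n ≠ i + 1 := by omega
            simp [Finsupp.single_apply, a1, a2])
        (by
          intro i hi
          rw [Finsupp.add_apply, Finsupp.add_apply, QD_apply]
          rcases hi.eq_or_lt with rfl | hi
          · simp [Finsupp.single_apply, hw', add_self']
          · rw [h2 i hi]
            have a1 : n ≠ i := by omega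
            have a2 : n ≠ i + 1 := by omega
            simp [Finsupp.single_apply, a1, a2])
        (by rw [map_add, h3, QD_QD hdd hττ hc, add_zero])
        (by
          rw [map_add, map_add, map_add, h4, QD_QD hdd' hττ' hc', add_zero,
            Qmap_QD h.comm hfτ])
      refine ⟨v + single n w, v' + single n w', ?_, ?_⟩
      · rw [map_add, ← hv, add_add_self]
      · have := congrArg (fun y => y + (Qmap f (single n w) + QD d' τ' (single n w'))) hv'
        simp only [add_add_self] at this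
        rw [this, map_add, map_add]; abel
  intro c c' h1 h2
  obtain ⟨n, hn⟩ : ∃ n, ∀ i, n ≤ i → c i = 0 ∧ c' i = 0 := by
    refine ⟨(c.support ∪ c'.support).sup (fun n => n) + 1, fun i hi => ?_⟩
    by_contra hcon
    have : i ∈ c.support ∪ c'.support := by
      rw [Finset.mem_union, Finsupp.mem_support_iff, Finsupp.mem_support_iff]
      tauto
    have := Finset.le_sup (f := fun n : ℕ => n) this
    omega
  exact key n c c' (fun i hi => (hn i hi).1) (fun i hi => (hn i hi).2) h1 h2

/-! ## the quadratic construction on a module with zero differential -/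

section Basis

variable {J : Type*} [LinearOrder J]

/-- index set of the basis of the homology of `W ⊗_{Z/2} (V ⊗ V)` -/
abbrev QIdx (J : Type*) [LinearOrder J] : Type _ := (ℕ × J) ⊕ {p : J × J // p.1 < p.2}

/-- swap on `F2[J × J]` -/
noncomputable def swapJ : ((J × J) →₀ F2) →ₗ[F2] ((J × J) →₀ F2) :=
  Finsupp.lmapDomain F2 F2 Prod.swap

theorem swapJ_apply (x : (J × J) →₀ F2) (p : J × J) : swapJ x p = x p.swap := by
  have h : Function.Injective (Prod.swap : J × J → J × J) := Prod.swap_injective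
  have := Finsupp.mapDomain_apply h x p.swap
  rw [Prod.swap_swap] at this
  exact this

/-- the standard cycles in `W ⊗_{Z/2} F2[J × J]` -/
noncomputable def qcyc : QIdx J → (ℕ →₀ ((J × J) →₀ F2))
  | Sum.inl (i, j) => single i (single (j, j) 1)
  | Sum.inr p => single 0 (single p.1 1)

/-- the part of `x` over the diagonal, strictly upper, strictly lower -/
theorem split3 (x : (J × J) →₀ F2) :
    x = x.filter (fun p => p.1 = p.2) + x.filter (fun p => p.1 < p.2) +
      x.filter (fun p => p.2 < p.1) := by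
  ext p
  simp only [Finsupp.add_apply, Finsupp.filter_apply]
  rcases lt_trichotomy p.1 p.2 with h | h | h
  · simp [h, h.ne, h.le, not_lt.2 h.le]
  · simp [h]
  · simp [h, h.ne', not_lt.2 h.le]

theorem diag_mem (x : (J × J) →₀ F2) (i : ℕ) :
    single i (x.filter (fun p => p.1 = p.2)) ∈ LinearMap.range
      (Finsupp.linearCombination F2 (qcyc (J := J))) := by
  induction x using Finsupp.induction_linear with
  | zero => rw [Finsupp.filter_zero, Finsupp.single_zero]; exact Submodule.zero_mem _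
  | add f g hf hg =>
    rw [Finsupp.filter_add, Finsupp.single_add]; exact Submodule.add_mem _ hf hg
  | single p r =>
    obtain ⟨j, k⟩ := p
    by_cases h : j = k
    · subst h
      rw [Finsupp.filter_single_of_pos (p := fun p : J × J => p.1 = p.2) rfl]
      refine ⟨single (Sum.inl (i, j)) r, ?_⟩
      simp [qcyc]
    · rw [Finsupp.filter_single_of_neg (p := fun p : J × J => p.1 = p.2) h,
        Finsupp.single_zero]
      exact Submodule.zero_mem _

theorem upper_mem (x : (J × J) →₀ F2) :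
    single 0 (x.filter (fun p => p.1 < p.2)) ∈ LinearMap.range
      (Finsupp.linearCombination F2 (qcyc (J := J))) := by
  induction x using Finsupp.induction_linear with
  | zero => rw [Finsupp.filter_zero, Finsupp.single_zero]; exact Submodule.zero_mem _
  | add f g hf hg =>
    rw [Finsupp.filter_add, Finsupp.single_add]; exact Submodule.add_mem _ hf hg
  | single p r =>
    by_cases h : p.1 < p.2
    · rw [Finsupp.filter_single_of_pos (p := fun p : J × J => p.1 < p.2) h]
      refine ⟨single (Sum.inr ⟨p, h⟩) r, ?_⟩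
      simp [qcyc]
    · rw [Finsupp.filter_single_of_neg (p := fun p : J × J => p.1 < p.2) h,
        Finsupp.single_zero]
      exact Submodule.zero_mem _

theorem swap_lower (x : (J × J) →₀ F2) :
    swapJ (x.filter (fun p => p.2 < p.1)) = (swapJ x).filter (fun p => p.1 < p.2) := by
  ext p
  simp only [swapJ_apply, Finsupp.filter_apply]
  rfl

/-- coefficients of a combination of the standard cycles -/
theorem lc_apply (c : QIdx J →₀ F2) (i : ℕ) (p : J × J) :
    Finsupp.linearCombination F2 (qcyc (J := J)) c i p =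
      (if p.1 = p.2 then c (Sum.inl (i, p.1)) else 0) +
      (if h : i = 0 ∧ p.1 < p.2 then c (Sum.inr ⟨p, h.2⟩) else 0) := by
  induction c using Finsupp.induction_linear with
  | zero => simp
  | add f g hf hg =>
    rw [map_add, Finsupp.add_apply, Finsupp.add_apply, hf, hg]
    split_ifs <;> simp [add_assoc, add_comm, add_left_comm]
  | single a r =>
    obtain ⟨j, k⟩ := p
    rcases a with ⟨i', j'⟩ | ⟨⟨j', k'⟩, h'⟩
    · simp only [Finsupp.linearCombination_single, qcyc, Finsupp.smul_single, smul_eq_mul, mul_one]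
      by_cases hi : i' = i
      · subst hi
        by_cases hj : j' = j
        · subst hj
          by_cases hk : j' = k
          · subst hk; simp
          · simp [hk]
        · by_cases hjk : j = k
          · subst hjk; simp [hj]
          · simp [hj, hjk]
      · simp [hi]
    · simp only [Finsupp.linearCombination_single, qcyc, Finsupp.smul_single, smul_eq_mul, mul_one]
      by_cases hi : i = 0
      · subst hi
        by_cases hp : j < k
        · have : ¬ j = k := hp.ne
          simp only [Finsupp.single_apply, this, hp]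
          by_cases e : (j', k') = (j, k)
          · simp only [Prod.mk.injEq] at e
            obtain ⟨rfl, rfl⟩ := e
            simp
          · have e' : ¬ (j' = j ∧ k' = k) := by simpa using e
            simp [e']
        · have e' : ¬ (j' = j ∧ k' = k) := by
            rintro ⟨rfl, rfl⟩; exact hp h'
          simp [hp, e']
      · have : ¬ (0 = i) := fun h => hi h.symm
        simp [hi, this]

theorem qcyc_QI : QI (0 : (QIdx J →₀ F2) →ₗ[F2] (QIdx J →₀ F2))
    (QD (0 : ((J × J) →₀ F2) →ₗ[F2] ((J × J) →₀ F2)) swapJ)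
    (Finsupp.linearCombination F2 (qcyc (J := J))) := by
  refine ⟨?_, ?_, ?_⟩
  · intro x
    ext i p
    rw [LinearMap.zero_apply, map_zero, QD_apply]
    simp only [Finsupp.coe_zero, Pi.zero_apply, LinearMap.zero_apply, zero_add, Finsupp.add_apply,
      swapJ_apply, lc_apply, Prod.fst_swap, Prod.snd_swap]
    obtain ⟨j, k⟩ := p
    by_cases h : j = k
    · subst h
      simp only [if_true, lt_irrefl, and_false, dite_false, add_zero]
      exact (add_self' _).symm
    · have h' : ¬ k = j := fun e => h e.symm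
      simp [h, h']
  · intro z hz
    -- each `z (i+1)` is symmetric
    have hsym : ∀ i, swapJ (z (i + 1)) = z (i + 1) := by
      intro i
      have := DFunLike.congr_fun hz i
      rw [QD_apply] at this
      simp only [LinearMap.zero_apply, zero_add, Finsupp.coe_zero, Pi.zero_apply] at this
      exact (eq_of_add_eq_zero this).symm
    -- the decomposition of `single i (z i)`
    have hdec : ∀ i, ∃ a w, single i (z i) =
        Finsupp.linearCombination F2 (qcyc (J := J)) a +
          QD (0 : ((J × J) →₀ F2) →ₗ[F2] ((J × J) →₀ F2)) swapJ w := by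
      intro i
      rcases i with _ | i
      · obtain ⟨a1, ha1⟩ := diag_mem (z 0) 0
        obtain ⟨a2, ha2⟩ := upper_mem (z 0)
        obtain ⟨a3, ha3⟩ := upper_mem (swapJ (z 0))
        refine ⟨a1 + a2 + a3, single 1 ((z 0).filter (fun p => p.2 < p.1)), ?_⟩
        rw [map_add, map_add, ha1, ha2, ha3]
        conv_lhs => rw [split3 (z 0)]
        rw [← swap_lower, show (1 : ℕ) = 0 + 1 from rfl, QD_single_succ]
        simp only [LinearMap.zero_apply, Finsupp.single_zero, zero_add, Finsupp.single_add]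
        have : ∀ a b c e : (ℕ →₀ ((J × J) →₀ F2)), a + b + c + (e + c) = a + b + e + (c + c) := by
          intros; abel
        rw [this, show ∀ c : ℕ →₀ ((J × J) →₀ F2), c + c = 0 from fun c => add_self' c, add_zero]
      · obtain ⟨a1, ha1⟩ := diag_mem (z (i + 1)) (i + 1)
        refine ⟨a1, single (i + 2) ((z (i + 1)).filter (fun p => p.2 < p.1)), ?_⟩
        rw [ha1]
        conv_lhs => rw [split3 (z (i + 1))]
        rw [QD_single_succ, swap_lower, hsym]
        simp only [LinearMap.zero_apply, Finsupp.single_zero, zero_add, Finsupp.single_add]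
        abel
    -- sum up
    have : z = ∑ i ∈ z.support, single i (z i) := by
      conv_lhs => rw [← Finsupp.sum_single z]
      rfl
    choose a w haw using hdec
    refine ⟨∑ i ∈ z.support, a i, ∑ i ∈ z.support, w i, rfl, ?_⟩
    rw [map_sum, map_sum, ← Finset.sum_add_distrib]
    conv_lhs => rw [this]
    exact Finset.sum_congr rfl fun i _ => haw i
  · rintro z - ⟨w, hw⟩
    refine ⟨0, ?_⟩
    rw [map_zero]
    symm
    ext a
    have key : ∀ (i : ℕ) (p : J × J), w (i + 1) p + w (i + 1) p.swap =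
        (if p.1 = p.2 then z (Sum.inl (i, p.1)) else 0) +
      (if h : i = 0 ∧ p.1 < p.2 then z (Sum.inr ⟨p, h.2⟩) else 0) := by
      intro i p
      have := DFunLike.congr_fun (DFunLike.congr_fun hw i) p
      rw [lc_apply, QD_apply] at this
      simpa [swapJ_apply] using this
    rcases a with ⟨i, j⟩ | ⟨⟨j, k⟩, h⟩
    · have := key i (j, j)
      simp only [Prod.swap_prod_mk, add_self', if_true, lt_irrefl, and_false, dite_false,
        add_zero] at this
      simpa using this.symm
    · dsimp only at h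
      have h1 := key 0 (j, k)
      have h2 := key 0 (k, j)
      simp only [Prod.swap_prod_mk, h.ne, h.ne', if_false, h, and_self, dite_true, zero_add,
        not_lt.2 h.le, and_false, dite_false, add_zero] at h1 h2
      rw [add_comm] at h2
      rw [h2] at h1
      simpa using h1.symm

end Basis

end Crest.Agent.R204.QC134
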