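import Crest.Agent.R204.QCb_134
import Crest.Agent.R204.DK_742

/-!
# Row 204, leaf A-QC part 3 (helper134): the truncated quadratic construction `Q M C` of helper742
(`M : ℕ∞`; `e_0, …, e_M`): comparison theorem and homology of `Q M (C ⊗ C)`.
-/

set_option autoImplicit false
set_option linter.unusedSectionVars false
set_option linter.unusedSimpArgs false

namespace Crest.Agent.R204.QC134

open Finsupp TensorProduct DK742

variable {C C' C'' : Type*} [AddCommGroup C] [Module F2 C] [AddCommGroup C'] [Module F2 C']
  [AddCommGroup C''] [Module F2 C''] {M : ℕ∞}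

theorem QM_apply (d τ : C →ₗ[F2] C) (x : Q M C) (i : Idx M) :
    Q.D M d τ x i = (if h : (((i : ℕ) + 1 : ℕ) : ℕ∞) ≤ M then
      (x ⟨i + 1, h⟩ + τ (x ⟨i + 1, h⟩)) else 0) + d (x i) := by
  induction x using Finsupp.induction_linear with
  | zero => simp
  | add f g hf hg =>
    rw [map_add, Finsupp.add_apply, hf, hg]
    split_ifs
    · simp only [Finsupp.add_apply, map_add]; abel
    · simp only [Finsupp.add_apply, map_add]; abel
  | single j m =>
    obtain ⟨j, hj⟩ := j
    obtain ⟨i, hi⟩ := i
    rcases j with _ | j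
    · rw [Q.D_single_zero]
      have : ∀ h : ((i + 1 : ℕ) : ℕ∞) ≤ M, ¬ ((⟨0, hj⟩ : Idx M) = ⟨i + 1, h⟩) := by
        intro h h'
        have := congrArg Subtype.val h'
        simp at this
      by_cases h0 : i = 0
      · subst h0
        simp [Finsupp.single_apply, this]
      · have h0' : ¬ ((⟨0, hj⟩ : Idx M) = ⟨i, hi⟩) := by
          intro h'
          exact h0 (congrArg Subtype.val h').symm
        simp [Finsupp.single_apply, this, h0']
    · have hj' : (j : ℕ∞) ≤ M := le_trans (by exact_mod_cast Nat.le_succ j) hj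
      rw [Q.D_single_succ d τ j hj hj']
      simp only [Finsupp.add_apply, Finsupp.single_apply]
      by_cases h1 : j = i
      · subst h1
        have e1 : ¬ ((⟨j + 1, hj⟩ : Idx M) = ⟨j, hi⟩) := by
          intro h'
          have := congrArg Subtype.val h'
          simp at this
        rw [dif_pos hj]
        simp [e1]
      · have e1 : ¬ ((⟨j, hj'⟩ : Idx M) = ⟨i, hi⟩) := fun h' => h1 (congrArg Subtype.val h')
        have e2 : ∀ h : ((i + 1 : ℕ) : ℕ∞) ≤ M, ¬ ((⟨j + 1, hj⟩ : Idx M) = ⟨i + 1, h⟩) := by
          intro h h'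
          have := congrArg Subtype.val h'
          simp at this
          exact h1 this
        by_cases h2 : j + 1 = i
        · subst h2
          simp [e1, e2]
        · have e3 : ¬ ((⟨j + 1, hj⟩ : Idx M) = ⟨i, hi⟩) := fun h' => h2 (congrArg Subtype.val h')
          simp [e1, e2, e3]

theorem QMD_QMD {d τ : C →ₗ[F2] C} (hdd : ∀ x, d (d x) = 0) (hτ : ∀ x, τ (τ x) = x)
    (hc : ∀ x, τ (d x) = d (τ x)) (x : Q M C) : Q.D M d τ (Q.D M d τ x) = 0 := by
  ext i
  rw [QM_apply, QM_apply]
  by_cases h : (((i : ℕ) + 1 : ℕ) : ℕ∞) ≤ M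
  · rw [dif_pos h, dif_pos h, QM_apply]
    dsimp only
    by_cases h2 : (((i : ℕ) + 1 + 1 : ℕ) : ℕ∞) ≤ M
    · rw [dif_pos h2]
      simp only [map_add, hdd, hτ, hc, add_zero, Finsupp.coe_zero, Pi.zero_apply]
      have : ∀ a b c e : C, a + b + c + (b + a + e) + (c + e) =
        (a + a) + (b + b) + (c + c) + (e + e) := by
        intros; abel
      rw [this]
      simp [add_self']
    · rw [dif_neg h2]
      simp only [map_add, hdd, hτ, hc, add_zero, zero_add, Finsupp.coe_zero, Pi.zero_apply]
      exact add_self' _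
  · rw [dif_neg h, dif_neg h]
    simp [hdd]

/-- functoriality of `Q M` -/
noncomputable def QMmap (f : C →ₗ[F2] C') : Q M C →ₗ[F2] Q M C' :=
  Finsupp.mapRange.linearMap f

@[simp] theorem QMmap_single (f : C →ₗ[F2] C') (i : Idx M) (m : C) :
    QMmap f (single i m) = single i (f m) := by
  simp [QMmap]

@[simp] theorem QMmap_apply (f : C →ₗ[F2] C') (x : Q M C) (i : Idx M) :
    QMmap f x i = f (x i) := by
  simp [QMmap]

theorem QMmap_D {d τ : C →ₗ[F2] C} {d' τ' : C' →ₗ[F2] C'} {f : C →ₗ[F2] C'}
    (hf : ∀ x, f (d x) = d' (f x)) (hτ : ∀ x, f (τ x) = τ' (f x)) (x : Q M C) :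
    QMmap f (Q.D M d τ x) = Q.D M d' τ' (QMmap f x) := by
  ext i
  simp only [QMmap_apply, QM_apply, map_add, hf, hτ]
  split_ifs
  · simp only [map_add, hτ]
  · simp

theorem finset_bound (s : Finset (Idx M)) : ∃ n : ℕ, ∀ i ∈ s, (i : ℕ) < n := by
  refine ⟨s.sup (fun i => (i : ℕ)) + 1, fun i hi => ?_⟩
  have := Finset.le_sup (f := fun i : Idx M => (i : ℕ)) hi
  omega

/-- comparison theorem for `Q M` -/
theorem qi_QM {d τ : C →ₗ[F2] C} {d' τ' : C' →ₗ[F2] C'} {f : C →ₗ[F2] C'}
    (hdd : ∀ x, d (d x) = 0) (hdd' : ∀ x, d' (d' x) = 0)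
    (hττ : ∀ x, τ (τ x) = x) (hττ' : ∀ x, τ' (τ' x) = x)
    (hc : ∀ x, τ (d x) = d (τ x)) (hc' : ∀ x, τ' (d' x) = d' (τ' x))
    (hfτ : ∀ x, f (τ x) = τ' (f x)) (h : QI d d' f) :
    QI (Q.D M d τ) (Q.D M d' τ') (QMmap f) := by
  refine QI.of_acy (QMmap_D h.comm hfτ) ?_
  have key : ∀ (n : ℕ) (c : Q M C) (c' : Q M C'), (∀ i : Idx M, n ≤ (i : ℕ) → c i = 0) →
      (∀ i : Idx M, n ≤ (i : ℕ) → c' i = 0) → Q.D M d τ c = 0 → QMmap f c = Q.D M d' τ' c' →
      ∃ w w', c = Q.D M d τ w ∧ c' = QMmap f w + Q.D M d' τ' w' := by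
    intro n
    induction n with
    | zero =>
      intro c c' h1 h2 _ _
      refine ⟨0, 0, ?_, ?_⟩
      · ext i; simp [h1 i (Nat.zero_le _)]
      · ext i; simp [h2 i (Nat.zero_le _)]
    | succ n ih =>
      intro c c' h1 h2 h3 h4
      by_cases hn : (n : ℕ∞) ≤ M
      · set I : Idx M := ⟨n, hn⟩ with hI
        have hz : ∀ h : (((I : ℕ) + 1 : ℕ) : ℕ∞) ≤ M, c ⟨(I : ℕ) + 1, h⟩ = 0 :=
          fun h => h1 _ le_rfl
        have hz' : ∀ h : (((I : ℕ) + 1 : ℕ) : ℕ∞) ≤ M, c' ⟨(I : ℕ) + 1, h⟩ = 0 :=
          fun h => h2 _ le_rfl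
        have e1 : d (c I) = 0 := by
          have := DFunLike.congr_fun h3 I
          rw [QM_apply] at this
          split_ifs at this with h
          · rw [hz h] at this; simpa using this
          · simpa using this
        have e2 : f (c I) = d' (c' I) := by
          have := DFunLike.congr_fun h4 I
          rw [QM_apply] at this
          split_ifs at this with h
          · rw [hz' h] at this; simpa using this
          · simpa using this
        obtain ⟨w, w', hw, hw'⟩ := h.acy _ _ e1 e2
        obtain ⟨v, v', hv, hv'⟩ := ih (c + Q.D M d τ (single I w))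
          (c' + (QMmap f (single I w) + Q.D M d' τ' (single I w')))
          (by
            intro i hi
            rw [Finsupp.add_apply, QM_apply]
            have a2 : ∀ h : (((i : ℕ) + 1 : ℕ) : ℕ∞) ≤ M, ¬ (I = ⟨(i : ℕ) + 1, h⟩) := by
              intro h h'
              have := congrArg Subtype.val h'
              simp only [hI] at this
              omega
            by_cases hiI : I = i
            · subst hiI
              simp [Finsupp.single_apply, a2, hw, add_self']
            · have : n + 1 ≤ (i : ℕ) := by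
                rcases hi.eq_or_lt with h | h
                · exact (hiI (Subtype.ext h)).elim
                · exact h
              simp [Finsupp.single_apply, a2, hiI, h1 i this])
          (by
            intro i hi
            rw [Finsupp.add_apply, Finsupp.add_apply, QM_apply]
            have a2 : ∀ h : (((i : ℕ) + 1 : ℕ) : ℕ∞) ≤ M, ¬ (I = ⟨(i : ℕ) + 1, h⟩) := by
              intro h h'
              have := congrArg Subtype.val h'
              simp only [hI] at this
              omega
            by_cases hiI : I = i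
            · subst hiI
              simp [Finsupp.single_apply, a2, hw', add_self']
            · have : n + 1 ≤ (i : ℕ) := by
                rcases hi.eq_or_lt with h | h
                · exact (hiI (Subtype.ext h)).elim
                · exact h
              simp [Finsupp.single_apply, a2, hiI, h2 i this])
          (by rw [map_add, h3, QMD_QMD hdd hττ hc, add_zero])
          (by
            rw [map_add, map_add, map_add, h4, QMD_QMD hdd' hττ' hc', add_zero,
              QMmap_D h.comm hfτ])
        refine ⟨v + single I w, v' + single I w', ?_, ?_⟩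
        · rw [map_add, ← hv, add_add_self]
        · have := congrArg (fun y => y + (QMmap f (single I w) + Q.D M d' τ' (single I w'))) hv'
          simp only [add_add_self] at this
          rw [this, map_add, map_add]; abel
      · refine ih c c' ?_ ?_ h3 h4
        · intro i hi
          apply h1
          rcases hi.eq_or_lt with h | h
          · exact (hn (by rw [h]; exact i.2)).elim
          · exact h
        · intro i hi
          apply h2
          rcases hi.eq_or_lt with h | h
          · exact (hn (by rw [h]; exact i.2)).elim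
          · exact h
  intro c c' h1 h2
  obtain ⟨n, hn⟩ := finset_bound c.support
  obtain ⟨n', hn'⟩ := finset_bound c'.support
  refine key (n + n') c c' ?_ ?_ h1 h2
  · intro i hi
    by_contra hcon
    have := hn i (Finsupp.mem_support_iff.2 hcon)
    omega
  · intro i hi
    by_contra hcon
    have := hn' i (Finsupp.mem_support_iff.2 hcon)
    omega

/-! ## homology of `Q M (C ⊗ C)` -/

section Basis

variable {J : Type*} [LinearOrder J]

/-- index set of the basis of the homology of `Q M (V ⊗ V)` -/
abbrev QMIdx (M : ℕ∞) (J : Type*) [LinearOrder J] : Type _ :=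
  (Idx M × J) ⊕ ({p : J × J // p.1 < p.2} ⊕ {p : J × J // p.1 < p.2 ∧ M ≠ ⊤})

/-- bottom cell -/
def zIdx (M : ℕ∞) : Idx M := ⟨0, by simp⟩

/-- top cell -/
noncomputable def tIdx {M : ℕ∞} (h : M ≠ ⊤) : Idx M := ⟨M.toNat, (ENat.natCast_toNat h).le⟩

theorem eq_tIdx {i : Idx M} (h : ¬ (((i : ℕ) + 1 : ℕ) : ℕ∞) ≤ M) :
    ∃ hM : M ≠ ⊤, i = tIdx hM := by
  have hM : M ≠ ⊤ := by
    rintro rfl
    exact h le_top
  refine ⟨hM, Subtype.ext ?_⟩
  obtain ⟨i, hi⟩ := i
  show i = M.toNat
  have h1 : ((M.toNat : ℕ) : ℕ∞) = M := ENat.natCast_toNat hM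
  have hi' : i ≤ M.toNat := by exact_mod_cast hi.trans_eq h1.symm
  have h' : ¬ (i + 1 ≤ M.toNat) := fun h2 =>
    h (le_trans (by exact_mod_cast h2 : (((i : ℕ) + 1 : ℕ) : ℕ∞) ≤ (M.toNat : ℕ∞)) h1.le)
  omega

theorem tIdx_not {hM : M ≠ ⊤} : ¬ ((((tIdx hM : Idx M) : ℕ) + 1 : ℕ) : ℕ∞) ≤ M := by
  intro h
  have h1 : ((M.toNat : ℕ) : ℕ∞) = M := ENat.natCast_toNat hM
  have : M.toNat + 1 ≤ M.toNat := by
    have h2 := h.trans_eq h1.symm
    exact_mod_cast h2
  omega

/-- the standard cycles in `Q M (F2[J × J])` -/
noncomputable def qcycM : QMIdx M J → Q M ((J × J) →₀ F2)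
  | Sum.inl (i, j) => single i (single (j, j) 1)
  | Sum.inr (Sum.inl p) => single (zIdx M) (single p.1 1)
  | Sum.inr (Sum.inr p) => single (tIdx p.2.2) (single p.1 1 + single p.1.swap 1)

theorem diagM_mem (x : (J × J) →₀ F2) (i : Idx M) :
    single i (x.filter (fun p => p.1 = p.2)) ∈ LinearMap.range
      (Finsupp.linearCombination F2 (qcycM (J := J) (M := M))) := by
  induction x using Finsupp.induction_linear with
  | zero => rw [Finsupp.filter_zero, Finsupp.single_zero]; exact Submodule.zero_mem _
  | add f g hf hg =>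
    rw [Finsupp.filter_add, Finsupp.single_add]; exact Submodule.add_mem _ hf hg
  | single p r =>
    obtain ⟨j, k⟩ := p
    by_cases h : j = k
    · subst h
      rw [Finsupp.filter_single_of_pos (p := fun p : J × J => p.1 = p.2) rfl]
      refine ⟨single (Sum.inl (i, j)) r, ?_⟩
      simp [qcycM]
    · rw [Finsupp.filter_single_of_neg (p := fun p : J × J => p.1 = p.2) h,
        Finsupp.single_zero]
      exact Submodule.zero_mem _

theorem upperM_mem (x : (J × J) →₀ F2) :
    single (zIdx M) (x.filter (fun p => p.1 < p.2)) ∈ LinearMap.range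
      (Finsupp.linearCombination F2 (qcycM (J := J) (M := M))) := by
  induction x using Finsupp.induction_linear with
  | zero => rw [Finsupp.filter_zero, Finsupp.single_zero]; exact Submodule.zero_mem _
  | add f g hf hg =>
    rw [Finsupp.filter_add, Finsupp.single_add]; exact Submodule.add_mem _ hf hg
  | single p r =>
    by_cases h : p.1 < p.2
    · rw [Finsupp.filter_single_of_pos (p := fun p : J × J => p.1 < p.2) h]
      refine ⟨single (Sum.inr (Sum.inl ⟨p, h⟩)) r, ?_⟩
      simp [qcycM]
    · rw [Finsupp.filter_single_of_neg (p := fun p : J × J => p.1 < p.2) h,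
        Finsupp.single_zero]
      exact Submodule.zero_mem _

theorem topM_mem (hM : M ≠ ⊤) (x : (J × J) →₀ F2) :
    single (tIdx hM) (x.filter (fun p => p.1 < p.2) + swapJ (x.filter (fun p => p.1 < p.2))) ∈
      LinearMap.range (Finsupp.linearCombination F2 (qcycM (J := J) (M := M))) := by
  induction x using Finsupp.induction_linear with
  | zero =>
    rw [Finsupp.filter_zero, map_zero, add_zero, Finsupp.single_zero]; exact Submodule.zero_mem _
  | add f g hf hg =>
    have : (single (tIdx hM) ((f + g).filter (fun p => p.1 < p.2) +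
        swapJ ((f + g).filter (fun p => p.1 < p.2))) : Q M ((J × J) →₀ F2)) =
        single (tIdx hM) (f.filter (fun p => p.1 < p.2) + swapJ (f.filter (fun p => p.1 < p.2))) +
        single (tIdx hM) (g.filter (fun p => p.1 < p.2) + swapJ (g.filter (fun p => p.1 < p.2))) := by
      rw [← Finsupp.single_add, Finsupp.filter_add, map_add]
      congr 1; abel
    rw [this]; exact Submodule.add_mem _ hf hg
  | single p r =>
    by_cases h : p.1 < p.2
    · rw [Finsupp.filter_single_of_pos (p := fun p : J × J => p.1 < p.2) h]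
      refine ⟨single (Sum.inr (Sum.inr ⟨p, h, hM⟩)) r, ?_⟩
      simp [qcycM, swapJ, Finsupp.mapDomain_single]
    · rw [Finsupp.filter_single_of_neg (p := fun p : J × J => p.1 < p.2) h, map_zero, add_zero,
        Finsupp.single_zero]
      exact Submodule.zero_mem _

/-- coefficients of a combination of the standard cycles -/
theorem lcM_apply (c : QMIdx M J →₀ F2) (i : Idx M) (p : J × J) :
    Finsupp.linearCombination F2 (qcycM (J := J) (M := M)) c i p =
      (if p.1 = p.2 then c (Sum.inl (i, p.1)) else 0) +
      (if h : i = zIdx M ∧ p.1 < p.2 then c (Sum.inr (Sum.inl ⟨p, h.2⟩)) else 0) +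
      (if h : p.1 < p.2 ∧ ∃ hM : M ≠ ⊤, i = tIdx hM then
        c (Sum.inr (Sum.inr ⟨p, h.1, h.2.1⟩)) else 0) +
      (if h : p.2 < p.1 ∧ ∃ hM : M ≠ ⊤, i = tIdx hM then
        c (Sum.inr (Sum.inr ⟨p.swap, h.1, h.2.1⟩)) else 0) := by
  classical
  induction c using Finsupp.induction_linear with
  | zero => simp
  | add f g hf hg =>
    rw [map_add, Finsupp.add_apply, Finsupp.add_apply, hf, hg]
    split_ifs <;> simp only [Finsupp.add_apply, add_zero, zero_add] <;> abel
  | single a r =>
    obtain ⟨j, k⟩ := p
    rcases a with ⟨i', j'⟩ | ⟨⟨j', k'⟩, h'⟩ | ⟨⟨j', k'⟩, h', hM⟩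
    · simp only [Finsupp.linearCombination_single, qcycM, Finsupp.smul_single, smul_eq_mul, mul_one]
      by_cases hi : i' = i
      · subst hi
        by_cases hj : j' = j
        · subst hj
          by_cases hk : j' = k
          · subst hk; simp
          · simp [hk]
        · by_cases hjk : j = k
          · subst hjk; simp [hj]
          · simp [hj, hjk]
      · simp [hi, Finsupp.single_apply]
    · simp only [Finsupp.linearCombination_single, qcycM, Finsupp.smul_single, smul_eq_mul, mul_one]
      by_cases hi : i = zIdx M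
      · subst hi
        by_cases hp : j < k
        · have : ¬ j = k := hp.ne
          have hp' : ¬ k < j := not_lt.2 hp.le
          by_cases e : j' = j ∧ k' = k
          · obtain ⟨rfl, rfl⟩ := e
            simp [hp, this, hp']
          · simp [Finsupp.single_apply, e, hp, this, hp']
        · have e' : ¬ (j' = j ∧ k' = k) := by
            rintro ⟨rfl, rfl⟩; exact hp h'
          simp [Finsupp.single_apply, hp, e']
      · have : ¬ (zIdx M = i) := fun h => hi h.symm
        simp [Finsupp.single_apply, hi, this]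
    · simp only [Finsupp.linearCombination_single, qcycM, Finsupp.smul_single, smul_eq_mul, mul_one]
      dsimp only at h'
      by_cases hi : tIdx hM = i
      · have hex : ∃ hM : M ≠ ⊤, i = tIdx hM := ⟨hM, hi.symm⟩
        rw [Finsupp.single_apply, if_pos hi]
        by_cases hp : j < k
        · have e1 : ¬ j = k := hp.ne
          have hp' : ¬ k < j := not_lt.2 hp.le
          have e2 : ¬ (k' = j ∧ j' = k) := by
            rintro ⟨rfl, rfl⟩; exact absurd h' (not_lt.2 hp.le)
          by_cases e : j' = j ∧ k' = k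
          · obtain ⟨rfl, rfl⟩ := e
            simp [hp, hp', e1, e2, hex, Finsupp.single_apply]
          · simp [Finsupp.single_apply, e, hp, hp', e1, e2, hex]
        · by_cases hp' : k < j
          · have e1 : ¬ j = k := hp'.ne'
            have e3 : ¬ (j' = j ∧ k' = k) := by
              rintro ⟨rfl, rfl⟩; exact hp h'
            by_cases e : j' = k ∧ k' = j
            · obtain ⟨rfl, rfl⟩ := e
              simp [hp, hp', e1, e3, hex, Finsupp.single_apply]
            · have e4 : ¬ (k' = j ∧ j' = k) := fun h => e ⟨h.2, h.1⟩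
              simp [Finsupp.single_apply, e, hp, hp', e1, e3, e4, hex]
          · have e1 : j = k := le_antisymm (not_lt.1 hp') (not_lt.1 hp)
            subst e1
            have e3 : ¬ (j' = j ∧ k' = j) := by
              rintro ⟨rfl, rfl⟩; exact lt_irrefl _ h'
            have e4 : ¬ (k' = j ∧ j' = j) := by
              rintro ⟨rfl, rfl⟩; exact lt_irrefl _ h'
            simp [Finsupp.single_apply, e3, e4]
      · have hex : ¬ ∃ hM : M ≠ ⊤, i = tIdx hM := by
          rintro ⟨hM', h⟩; exact hi h.symm
        rw [Finsupp.single_apply, if_neg hi]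
        simp [hex]

theorem qcycM_QI : QI (0 : (QMIdx M J →₀ F2) →ₗ[F2] (QMIdx M J →₀ F2))
    (Q.D M (0 : ((J × J) →₀ F2) →ₗ[F2] ((J × J) →₀ F2)) swapJ)
    (Finsupp.linearCombination F2 (qcycM (J := J) (M := M))) := by
  classical
  refine ⟨?_, ?_, ?_⟩
  · intro x
    rw [LinearMap.zero_apply, map_zero]
    symm
    ext i p
    rw [QM_apply]
    split_ifs with hi
    · have hnt : ∀ hM : M ≠ ⊤, (⟨(i : ℕ) + 1, hi⟩ : Idx M) = tIdx hM → True := fun _ _ => trivial
      obtain ⟨j, k⟩ := p
      have hz : ¬ ((⟨(i : ℕ) + 1, hi⟩ : Idx M) = zIdx M) := by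
        intro h
        have := congrArg Subtype.val h
        simp [zIdx] at this
      simp only [Finsupp.coe_zero, Pi.zero_apply, LinearMap.zero_apply, add_zero, Finsupp.add_apply,
        swapJ_apply, lcM_apply, Prod.swap_prod_mk, hz, false_and, dite_false]
      rcases lt_trichotomy j k with h | h | h
      · have h1 := h.ne; have h2 := h.ne'; have h3 := not_lt.2 h.le
        simp only [h1, h2, h3, h, if_false, false_and, dite_false, add_zero, true_and, zero_add]
        exact add_self' _
      · subst h
        simp only [if_true, lt_irrefl, false_and, dite_false, add_zero]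
        exact add_self' _
      · have h1 := h.ne; have h2 := h.ne'; have h3 := not_lt.2 h.le
        simp only [h1, h2, h3, h, if_false, false_and, dite_false, add_zero, true_and, zero_add]
        exact add_self' _
    · simp
  · intro z hz
    have hsym : ∀ (i : ℕ) (hi : ((i + 1 : ℕ) : ℕ∞) ≤ M), swapJ (z ⟨i + 1, hi⟩) = z ⟨i + 1, hi⟩ := by
      intro i hi
      have hi' : (i : ℕ∞) ≤ M := le_trans (by exact_mod_cast Nat.le_succ i) hi
      have := DFunLike.congr_fun hz ⟨i, hi'⟩
      rw [QM_apply, dif_pos hi] at this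
      simp only [LinearMap.zero_apply, add_zero, Finsupp.coe_zero, Pi.zero_apply] at this
      exact (eq_of_add_eq_zero this).symm
    -- folding the off-diagonal part
    have hfold : ∀ (i : Idx M) (x : (J × J) →₀ F2), ∃ a w,
        (single i (x.filter (fun p => p.1 < p.2) + swapJ (x.filter (fun p => p.1 < p.2))) :
          Q M ((J × J) →₀ F2)) = Finsupp.linearCombination F2 (qcycM (J := J) (M := M)) a +
          Q.D M (0 : ((J × J) →₀ F2) →ₗ[F2] ((J × J) →₀ F2)) swapJ w := by
      intro i x
      by_cases hi : (((i : ℕ) + 1 : ℕ) : ℕ∞) ≤ M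
      · refine ⟨0, single ⟨(i : ℕ) + 1, hi⟩ (x.filter (fun p => p.1 < p.2)), ?_⟩
        rw [map_zero, zero_add, Q.D_single_succ _ _ (i : ℕ) hi i.2]
        simp
      · obtain ⟨hM, rfl⟩ := eq_tIdx hi
        obtain ⟨a, ha⟩ := topM_mem hM x
        exact ⟨a, 0, by rw [ha, map_zero, add_zero]⟩
    have hdec : ∀ i : Idx M, ∃ a w, single i (z i) =
        Finsupp.linearCombination F2 (qcycM (J := J) (M := M)) a +
          Q.D M (0 : ((J × J) →₀ F2) →ₗ[F2] ((J × J) →₀ F2)) swapJ w := by
      intro i
      obtain ⟨i, hi⟩ := i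
      rcases i with _ | i
      · obtain ⟨a1, ha1⟩ := diagM_mem (M := M) (z (zIdx M)) (zIdx M)
        obtain ⟨a2, ha2⟩ := upperM_mem (M := M) (z (zIdx M))
        obtain ⟨a3, ha3⟩ := upperM_mem (M := M) (swapJ (z (zIdx M)))
        obtain ⟨a4, w, ha4⟩ := hfold (zIdx M) (swapJ (z (zIdx M)))
        refine ⟨a1 + a2 + a3 + a4, w, ?_⟩
        rw [map_add, map_add, map_add, ha1, ha2, ha3, add_assoc, ← ha4]
        have e0 : (⟨0, hi⟩ : Idx M) = zIdx M := rfl
        rw [e0]
        conv_lhs => rw [split3 (z (zIdx M))]
        have e1 : swapJ ((swapJ (z (zIdx M))).filter (fun p => p.1 < p.2)) =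
            (z (zIdx M)).filter (fun p => p.2 < p.1) := by
          rw [← swap_lower]
          ext p; simp [swapJ_apply]
        rw [e1]
        simp only [Finsupp.single_add]
        have : ∀ a b c e : Q M ((J × J) →₀ F2), a + b + e + (e + c) = a + b + c + (e + e) := by
          intros; abel
        rw [this, show ∀ c : Q M ((J × J) →₀ F2), c + c = 0 from fun c => add_self' c, add_zero]
      · obtain ⟨a1, ha1⟩ := diagM_mem (M := M) (z ⟨i + 1, hi⟩) ⟨i + 1, hi⟩
        obtain ⟨a4, w, ha4⟩ := hfold ⟨i + 1, hi⟩ (z ⟨i + 1, hi⟩)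
        refine ⟨a1 + a4, w, ?_⟩
        rw [map_add, ha1, add_assoc, ← ha4]
        conv_lhs => rw [split3 (z ⟨i + 1, hi⟩)]
        have e1 : swapJ ((z ⟨i + 1, hi⟩).filter (fun p => p.1 < p.2)) =
            (z ⟨i + 1, hi⟩).filter (fun p => p.2 < p.1) := by
          have h2 := congrArg swapJ (swap_lower (z ⟨i + 1, hi⟩))
          rw [hsym] at h2
          rw [← h2]
          ext p; simp [swapJ_apply]
        rw [e1]
        simp only [Finsupp.single_add]
        abel
    have : z = ∑ i ∈ z.support, single i (z i) := by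
      conv_lhs => rw [← Finsupp.sum_single z]
      rfl
    choose a w haw using hdec
    refine ⟨∑ i ∈ z.support, a i, ∑ i ∈ z.support, w i, rfl, ?_⟩
    rw [map_sum, map_sum, ← Finset.sum_add_distrib]
    conv_lhs => rw [this]
    exact Finset.sum_congr rfl fun i _ => haw i
  · rintro z - ⟨w, hw⟩
    refine ⟨0, ?_⟩
    rw [map_zero]
    symm
    -- symmetric differences
    have key : ∀ (i : Idx M) (p : J × J),
        Finsupp.linearCombination F2 (qcycM (J := J) (M := M)) z i p =
        Finsupp.linearCombination F2 (qcycM (J := J) (M := M)) z i p.swap := by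
      intro i p
      rw [← hw, QM_apply]
      split_ifs
      · simp only [LinearMap.zero_apply, add_zero, Finsupp.add_apply, swapJ_apply, Prod.swap_swap]
        exact add_comm _ _
      · simp
    have kdiag : ∀ (i : Idx M) (j : J),
        Finsupp.linearCombination F2 (qcycM (J := J) (M := M)) z i (j, j) = 0 := by
      intro i j
      rw [← hw, QM_apply]
      split_ifs
      · simp only [LinearMap.zero_apply, add_zero, Finsupp.add_apply, swapJ_apply,
          Prod.swap_prod_mk]
        exact add_self' _
      · simp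
    have ktop : ∀ (hM : M ≠ ⊤) (p : J × J),
        Finsupp.linearCombination F2 (qcycM (J := J) (M := M)) z (tIdx hM) p = 0 := by
      intro hM p
      rw [← hw, QM_apply, dif_neg tIdx_not]
      simp
    have hthird : ∀ (p : {p : J × J // p.1 < p.2 ∧ M ≠ ⊤}), z (Sum.inr (Sum.inr p)) = 0 := by
      rintro ⟨⟨j, k⟩, h, hM⟩
      dsimp only at h
      have h1 := ktop hM (k, j)
      rw [lcM_apply] at h1
      have e1 := h.ne'; have e2 := not_lt.2 h.le
      simp only [e1, e2, if_false, and_false, dite_false, false_and, zero_add, add_zero] at h1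
      rw [dif_pos ⟨h, hM, trivial⟩] at h1
      exact h1
    ext a
    rcases a with ⟨i, j⟩ | ⟨⟨j, k⟩, h⟩ | p
    · have := kdiag i j
      rw [lcM_apply] at this
      simpa using this
    · dsimp only at h
      have h1 := key (zIdx M) (j, k)
      rw [lcM_apply, lcM_apply] at h1
      have e1 := h.ne'; have e2 := not_lt.2 h.le; have e3 := h.ne
      simp only [hthird, Prod.swap_prod_mk, e1, e2, e3, h, if_false, and_false, dite_false,
        false_and, zero_add, add_zero, and_self, and_true, dite_true, dite_eq_ite, ite_self] at h1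
      simpa using h1
    · simpa using hthird p

end Basis

end Crest.Agent.R204.QC134
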