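import Crest.Agent.R204.E2_803

/-!
# Reduction theorems (row 204, leaf G5; helper803)
-/

set_option autoImplicit false
set_option linter.unusedSectionVars false

namespace Crest.Agent.R204.SQ803

open Co

section J
variable {J X Y : Type*} [Group X] [Group Y] [MulAction (X × Y) J] {n : ℕ}

/-- homogeneous elements of `S` -/
def HmS (M : ℕ) (s : Co X (Co Y (ZMod n))) : Prop :=
  ∀ x y, x.length + y.length ≠ M → (s.f x).f y = 0

/-- invariant normalised elements of `S`, total length `M` -/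
def SA (X Y : Type*) [Group X] [Group Y] (n M : ℕ) : AddSubgroup (Co X (Co Y (ZMod n))) where
  carrier := {s | NzS s ∧ HmS M s ∧ ∀ g : X × Y, aS g s = s}
  zero_mem' := ⟨NzS.zero, fun _ _ _ => rfl, fun g => map_zero _⟩
  add_mem' {F G} hF hG := ⟨hF.1.add hG.1, fun x y h => by
    rw [add_f, add_f, hF.2.1 x y h, hG.2.1 x y h, add_zero], fun g => by
    rw [map_add, hF.2.2, hG.2.2]⟩
  neg_mem' {F} hF := ⟨hF.1.neg, fun x y h => by
    rw [neg_f, neg_f, hF.2.1 x y h, neg_zero], fun g => by rw [map_neg, hF.2.2]⟩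

theorem mem_SA {M : ℕ} {s : Co X (Co Y (ZMod n))} :
    s ∈ SA X Y n M ↔ NzS s ∧ HmS M s ∧ ∀ g : X × Y, aS g s = s := Iff.rfl

theorem NzE.kap {s : Co X (Co Y (ZMod n))} (hs : NzS s) : NzE (J := J) (kap s) :=
  ⟨rfl, fun l => by rw [kap_f]; split_ifs; exacts [hs, NzS.zero]⟩

theorem kap_mem_PA {M : ℕ} {s : Co X (Co Y (ZMod n))} (hs : s ∈ SA X Y n M) :
    kap s ∈ PA J X Y n (M + 1) := by
  refine ⟨NzE.kap hs.1, fun l x y h => ?_, fun g => ?_⟩
  · rw [kap_f]; split_ifs with hl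
    · exact hs.2.1 x y (by omega)
    · rfl
  · unfold aA
    rw [pull_kap, hs.2.2]

/-- differential in the `J` direction -/
def d1J : Co J (Co X (Co Y (ZMod n))) →+ Co J (Co X (Co Y (ZMod n))) where
  toFun F := ⟨fun l => dl l (nz F.f)⟩
  map_zero' := Co.ext fun l => by
    have h : nz (0 : Co J (Co X (Co Y (ZMod n)))).f = fun _ => 0 := by funext l; cases l <;> rfl
    show dl l (nz (0 : Co J (Co X (Co Y (ZMod n)))).f) = 0
    rw [h, dl_zero]
  map_add' F G := Co.ext fun l => by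
    show dl l (nz (F + G).f) = _
    rw [nz_add, dl_add]; rfl

theorem d1J_f (F : Co J (Co X (Co Y (ZMod n)))) (l : List J) : (d1J F).f l = dl l (nz F.f) := rfl

theorem htopJ (F : Co J (Co X (Co Y (ZMod n)))) (hF : F.f [] = 0) (K : ℕ)
    (h : ∀ k > K, cJ k F = 0) : cJ (K + 1) (Cx.δ F) = d1J (cJ K F) := by
  refine Co.ext fun l => ?_
  rw [cJ_f, d1J_f]
  split_ifs with hl
  · have h1 : F.f l = 0 := by
      have := congrArg (fun G => G.f l) (h (K + 1) (by omega))
      simpa [cJ_f, hl] using this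
    rw [δ_of hF, h1, map_zero, smul_zero, add_zero]
    refine dl_congr fun l' hl' => ?_
    rcases l' with _ | ⟨a, l'⟩
    · rw [hF]; rfl
    · rw [nz_cons, cJ_f, if_pos (by omega)]
  · refine (dl_eq_zero fun l' hl' => ?_).symm
    rcases l' with _ | ⟨a, l'⟩
    · rfl
    · rw [nz_cons, cJ_f, if_neg (by omega)]

theorem cJ_cJ (k : ℕ) (F : Co J (Co X (Co Y (ZMod n)))) : cJ k (cJ k F) = cJ k F := by
  refine Co.ext fun l => ?_
  rw [cJ_f, cJ_f]; split_ifs <;> rfl

theorem cJ_cJ' (j k : ℕ) (F : Co J (Co X (Co Y (ZMod n)))) (h : j ≠ k) : cJ j (cJ k F) = 0 := by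
  refine Co.ext fun l => ?_
  rw [cJ_f, cJ_f]
  split_ifs with h1 h2
  · exact absurd (h1.symm.trans h2) h
  · rfl
  · rfl

/-- contraction in the `J` direction -/
def hJ (j0 : J) (G : Co J (Co X (Co Y (ZMod n)))) : Co J (Co X (Co Y (ZMod n))) :=
  ⟨fun l => ⟨fun x => ⟨fun y => ((G.f ((((x.headD 1), (y.headD 1)) : X × Y) • j0 :: l)).f x).f y⟩⟩⟩

theorem hJ_f (j0 : J) (G : Co J (Co X (Co Y (ZMod n)))) (l : List J) (x : List X) (y : List Y) :
    (((hJ j0 G).f l).f x).f y =
      ((G.f ((((x.headD 1), (y.headD 1)) : X × Y) • j0 :: l)).f x).f y := rfl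

theorem hexJ (j0 : J) {M k : ℕ} (hk : 1 < k) {G : Co J (Co X (Co Y (ZMod n)))}
    (hG : G ∈ PA J X Y n (M + 1)) (hc : cJ k G = G) (hd : d1J G = 0) :
    ∃ H ∈ PA J X Y n M, cJ (k - 1) H = H ∧ d1J H = G := by
  have hG0 : ∀ l : List J, l.length ≠ k → G.f l = 0 := fun l hl => by
    rw [← hc, cJ_f, if_neg hl]
  refine ⟨hJ j0 G, ⟨⟨?_, fun l => ⟨?_, fun x => ?_⟩⟩, fun l x y h => ?_, fun g => ?_⟩, ?_, ?_⟩
  · refine Co.ext fun x => Co.ext fun y => ?_
    rw [hJ_f, hG0 _ (by simp; omega)]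
  · refine Co.ext fun y => ?_
    rw [hJ_f, (hG.1.2 _).1]
  · rw [hJ_f, (hG.1.2 _).2]
  · rw [hJ_f]
    exact hG.2.1 _ _ _ (by simp only [List.length_cons]; omega)
  · refine Co.ext fun l => Co.ext fun x => Co.ext fun y => ?_
    rw [aA_f, aS_f, hJ_f, hJ_f]
    rcases x with _ | ⟨a, x⟩
    · rw [List.map_nil, (hG.1.2 _).1, (hG.1.2 _).1]; rfl
    · rcases y with _ | ⟨b, y⟩
      · rw [List.map_nil, (hG.1.2 _).2, (hG.1.2 _).2]
      · have e : (((List.map (fun a => g.1 * a) (a :: x)).headD 1,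
            (List.map (fun b => g.2 * b) (b :: y)).headD 1) : X × Y) = g * (a, b) := rfl
        have h := congrArg (fun F => ((F.f (((a, b) : X × Y) • j0 :: l)).f (a :: x)).f (b :: y)) (hG.2.2 g)
        simp only [aA_f, aS_f, List.map_cons] at h
        rw [e, mul_smul]
        simp only [List.map_cons, List.headD_cons]
        exact h
  · refine Co.ext fun l => ?_
    rw [cJ_f]
    split_ifs with hl
    · rfl
    · refine Co.ext fun x => Co.ext fun y => ?_
      rw [hJ_f, hG0 _ (by simp; omega)]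
  · refine Co.ext fun l => Co.ext fun x => Co.ext fun y => ?_
    rw [d1J_f, dl_f, dl_f]
    have h0 : nz (hJ j0 G).f = (hJ j0 G).f := nz_of (by
      refine Co.ext fun x => Co.ext fun y => ?_
      rw [hJ_f, hG0 _ (by simp; omega)])
    rw [h0]
    have hc := contr ((((x.headD 1), (y.headD 1)) : X × Y) • j0) l (fun l' => ((G.f l').f x).f y)
    have hd' := congrArg (fun F => ((F.f ((((x.headD 1), (y.headD 1)) : X × Y) • j0 :: l)).f x).f y) hd
    simp only [d1J_f, dl_f, nz_of hG.1.1] at hd'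
    rw [hd'] at hc
    rw [hc]
    simp [hJ_f]

theorem redJ (j0 : J) {M : ℕ} {F : Co J (Co X (Co Y (ZMod n)))} (hF : F ∈ PA J X Y n (M + 1))
    (h : ∀ k > 1, cJ k (Cx.δ F) = 0) :
    ∃ z ∈ SA X Y n M, ∃ H ∈ PA J X Y n M, F = kap z + Cx.δ H := by
  obtain ⟨F', hF', H, hH, e, h0⟩ := dc (Cx.δ) d1J Cx.δδ cJ (PA J X Y n (M + 1)) (PA J X Y n M) 1
    (fun H hH => δ_mem_PA hH) (fun k F hF => cJ_mem_PA hF k)
    (fun F K hF h => htopJ F (by rcases hF with h | h <;> exact h.1.1) K h)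
    cJ_cJ cJ_cJ' (fun k hk G hG hc hd => hexJ j0 hk hG hc hd) (M + 1) F hF
    (fun k hk => by
      refine Co.ext fun l => ?_
      rw [cJ_f]
      split_ifs with hl
      · refine Co.ext fun x => Co.ext fun y => hF.2.1 _ _ _ (by omega)
      · rfl)
    (fun k hk => h k (by omega))
  have hF0 : ∀ l : List J, l.length ≠ 1 → F'.f l = 0 := fun l hl => by
    rcases l with _ | ⟨a, l⟩
    · exact hF'.1.1
    · have := congrArg (fun G => G.f (a :: l)) (h0 (a :: l).length (by
        simp only [List.length_cons] at hl ⊢; omega))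
      simpa [cJ_f] using this
  have hconst : ∀ a b : J, F'.f [a] = F'.f [b] := fun a b => by
    have h2 : cJ 2 (Cx.δ F') = 0 := by
      have : F' = F - Cx.δ H := by rw [e]; abel
      rw [this, map_sub, Cx.δδ, sub_zero]; exact h 2 (by omega)
    have := congrArg (fun G => G.f [a, b]) h2
    simp only [cJ_f, zero_f] at this
    rw [if_pos (by simp), δ_of hF'.1.1, hF0 [a, b] (by simp), map_zero, smul_zero, add_zero,
      dl_cons, dl_cons, dl_nil, sub_zero, sub_eq_zero] at this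
    exact this.symm
  refine ⟨F'.f [j0], ⟨hF'.1.2 _, fun x y hxy => hF'.2.1 _ _ _ (by simp; omega), fun g => ?_⟩, H, hH, ?_⟩
  · have := congrArg (fun G => G.f [j0]) (hF'.2.2 g)
    simp only [aA_f, List.map_cons, List.map_nil] at this
    rw [hconst (g • j0) j0] at this
    exact this
  · rw [e]
    congr 1
    refine Co.ext fun l => ?_
    rw [kap_f]
    split_ifs with hl
    · obtain ⟨a, rfl⟩ := List.length_eq_one_iff.1 hl
      exact hconst a j0
    · exact hF0 l hl

/-- differential in the `S` direction -/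
def d1S : Co J (Co X (Co Y (ZMod n))) →+ Co J (Co X (Co Y (ZMod n))) where
  toFun F := ⟨fun l => sg l.length • Cx.δ (F.f l)⟩
  map_zero' := Co.ext fun l => by
    show sg l.length • Cx.δ ((0 : Co J (Co X (Co Y (ZMod n)))).f l) = 0
    rw [zero_f, map_zero, smul_zero]
  map_add' F G := Co.ext fun l => by
    show sg l.length • Cx.δ ((F + G).f l) = _
    rw [add_f, map_add, smul_add]; rfl

theorem d1S_f (F : Co J (Co X (Co Y (ZMod n)))) (l : List J) :
    (d1S F).f l = sg l.length • Cx.δ (F.f l) := rfl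

theorem htopS (F : Co J (Co X (Co Y (ZMod n)))) (hF : NzE F) (K : ℕ)
    (h : ∀ k > K, cS k F = 0) : cS (K + 1) (Cx.δ F) = d1S (cS K F) := by
  have h0 : ∀ l x y, K < x.length + y.length → ((F.f l).f x).f y = 0 := fun l x y hxy => by
    have := congrArg (fun G => ((G.f l).f x).f y) (h _ hxy)
    simpa [cS_f, cSS_f] using this
  refine Co.ext fun l => Co.ext fun x => Co.ext fun y => ?_
  rw [cS_f, cSS_f, d1S_f, zsmul_f, zsmul_f, ((hF.cS K).2 l).δ_fz, hF.δ_f]
  simp only [cS_f, cSS_f]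
  split_ifs with hxy
  · rw [dl_eq_zero fun l' _ => h0 l' x y (by omega), zero_add]
    congr 2
    · refine dl_congr fun x' hx' => ?_
      rw [if_pos (by omega)]
    · congr 1
      refine dl_congr fun y' hy' => ?_
      rw [cSS_f, if_pos (by omega)]
  · rw [dl_eq_zero fun x' hx' => if_neg (by omega), dl_eq_zero fun y' hy' => by
      rw [cSS_f, if_neg (by omega)]]
    simp

theorem cS_cS (k : ℕ) (F : Co J (Co X (Co Y (ZMod n)))) : cS k (cS k F) = cS k F := by
  refine Co.ext fun l => Co.ext fun x => Co.ext fun y => ?_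
  rw [cS_f, cS_f, cSS_f, cSS_f]; split_ifs <;> rfl

theorem cS_cS' (j k : ℕ) (F : Co J (Co X (Co Y (ZMod n)))) (h : j ≠ k) : cS j (cS k F) = 0 := by
  refine Co.ext fun l => Co.ext fun x => Co.ext fun y => ?_
  rw [cS_f, cS_f, cSS_f, cSS_f]
  split_ifs with h1 h2
  · exact absurd (h1.symm.trans h2) h
  · rfl
  · rfl

theorem hA_aS (g : X × Y) (c1 : X) (c2 : Y) (s : Co X (Co Y (ZMod n))) :
    aS g (hA (g.1 * c1) (g.2 * c2) s) = hA c1 c2 (aS g s) := by
  refine Co.ext fun x => Co.ext fun y => ?_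
  rw [aS_f]
  simp [hA]

/-- equivariant maps to the groups -/
structure EqM (J X Y : Type*) [Group X] [Group Y] [MulAction (X × Y) J] where
  c1 : J → X
  c2 : J → Y
  c1_smul : ∀ (g : X × Y) (j : J), c1 (g • j) = g.1 * c1 j
  c2_smul : ∀ (g : X × Y) (j : J), c2 (g • j) = g.2 * c2 j

/-- contraction in the `S` direction -/
def hS (C : EqM J X Y) (G : Co J (Co X (Co Y (ZMod n)))) : Co J (Co X (Co Y (ZMod n))) :=
  ⟨fun l => match l with
    | [] => 0
    | j :: l => sg (j :: l).length • hA (C.c1 j) (C.c2 j) (G.f (j :: l))⟩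

theorem hexS (C : EqM J X Y) {k : ℕ} (hk : 2 < k) {G : Co J (Co X (Co Y (ZMod n)))}
    (hG : G ∈ QA J X Y n) (hc : cS k G = G) (hd : d1S G = 0) :
    ∃ H ∈ QA J X Y n, cS (k - 1) H = H ∧ d1S H = G := by
  have hG0 : ∀ l x y, x.length + y.length ≠ k → ((G.f l).f x).f y = 0 := fun l x y h => by
    rw [← hc, cS_f, cSS_f, if_neg h]
  have hH0 : ∀ l x y, x.length + y.length ≠ k - 1 → (((hS C G).f l).f x).f y = 0 := fun l x y h => by
    rcases l with _ | ⟨j, l⟩
    · rfl
    · show ((sg (j :: l).length • hA (C.c1 j) (C.c2 j) (G.f (j :: l))).f x).f y = 0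
      rw [zsmul_f, zsmul_f]
      rcases x with _ | ⟨a, x⟩
      · rw [(hA_nz _ _ _).1]; simp
      · rcases y with _ | ⟨b, y⟩
        · rw [(hA_nz _ _ _).2]; simp
        · simp only [List.length_cons] at h
          rw [hA_cons, hG0 _ _ _ (by simp only [List.length_cons]; omega)]
          split_ifs with hx
          · subst hx
            simp only [List.length_nil] at h
            rw [hG0 _ _ _ (by simp only [List.length_cons, List.length_nil]; omega)]; simp
          · simp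
  refine ⟨hS C G, ⟨⟨rfl, fun l => ?_⟩, ⟨k - 1, fun l x y h => hH0 l x y (by omega)⟩, fun g => ?_⟩,
    ?_, ?_⟩
  · rcases l with _ | ⟨j, l⟩
    · exact NzS.zero
    · exact (hA_nz _ _ _).zsmul _
  · refine Co.ext fun l => ?_
    rcases l with _ | ⟨j, l⟩
    · exact map_zero _
    · show aS g (sg (g • j :: l.map fun j => g • j).length • hA (C.c1 (g • j)) (C.c2 (g • j))
        (G.f (g • j :: l.map fun j => g • j))) = sg (j :: l).length • hA (C.c1 j) (C.c2 j) (G.f (j :: l))
      rw [map_zsmul, C.c1_smul, C.c2_smul, hA_aS]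
      have h := congrArg (fun F => F.f (j :: l)) (hG.2.2 g)
      simp only [aA_f, List.map_cons] at h
      rw [h]
      simp
  · refine Co.ext fun l => Co.ext fun x => Co.ext fun y => ?_
    rw [cS_f, cSS_f]
    split_ifs with h
    · rfl
    · exact (hH0 l x y h).symm
  · refine Co.ext fun l => ?_
    rcases l with _ | ⟨j, l⟩
    · rw [hG.1.1, d1S_f]
      show _ • Cx.δ (0 : Co X (Co Y (ZMod n))) = 0
      rw [map_zero, smul_zero]
    · rw [d1S_f]
      show sg (j :: l).length • Cx.δ (sg (j :: l).length • hA (C.c1 j) (C.c2 j) (G.f (j :: l))) = _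
      have hd' := congrArg (fun F => F.f (j :: l)) hd
      simp only [d1S_f, zero_f] at hd'
      have hd2 : Cx.δ (G.f (j :: l)) = 0 := by
        have := congrArg (fun s => sg (j :: l).length • s) hd'
        simpa only [smul_smul, sg_mul_self, one_smul, smul_zero] using this
      rw [map_zsmul, smul_smul, sg_mul_self, one_smul]
      exact hA_spec _ _ (hG.1.2 _) hd2 (hG0 _ _ _ (by simp; omega))

/-- inclusion of cochains on `J` -/
def io : Co J (ZMod n) →+ Co J (Co X (Co Y (ZMod n))) := pull (fun j => j) (kap.comp kap)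

theorem io_f (f : Co J (ZMod n)) (l : List J) : (io (X := X) (Y := Y) f).f l = kap (kap (f.f l)) := by
  show kap (kap (f.f (l.map fun j => j))) = _
  rw [List.map_id']

theorem δ_io (f : Co J (ZMod n)) : Cx.δ (io (X := X) (Y := Y) f) = io (Cx.δ f) :=
  δ_pull _ _ (fun b => by
    show Cx.δ (kap (kap b)) = kap (kap (Cx.δ b))
    rw [δ_kap, δ_kap]) f

theorem io_mul (f g : Co J (ZMod n)) : io (X := X) (Y := Y) (f * g) = io f * io g :=
  pull_mul _ _ (fun a b => by
    show kap (kap (a * b)) = kap (kap a) * kap (kap b)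
    rw [kap_mul_kap, kap_mul_kap]) f g

theorem io_inj {f g : Co J (ZMod n)} (h : io (X := X) (Y := Y) f = io g) : f = g := by
  refine Co.ext fun l => ?_
  have := congrArg (fun F => ((F.f l).f [1]).f [1]) h
  simpa [io_f] using this

/-- invariant cochains on `J` -/
def FA (J X Y : Type*) [Group X] [Group Y] [MulAction (X × Y) J] (n : ℕ) : AddSubgroup (Co J (ZMod n)) where
  carrier := {f | f.f [] = 0 ∧ ∀ (g : X × Y) (l : List J), f.f (l.map fun j => g • j) = f.f l}
  zero_mem' := ⟨rfl, fun _ _ => rfl⟩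
  add_mem' {F G} hF hG := ⟨by rw [add_f, hF.1, hG.1, add_zero], fun g l => by
    rw [add_f, add_f, hF.2, hG.2]⟩
  neg_mem' {F} hF := ⟨by rw [neg_f, hF.1, neg_zero], fun g l => by rw [neg_f, neg_f, hF.2]⟩

theorem io_mem_QA {f : Co J (ZMod n)} (hf : f ∈ FA J X Y n) : io f ∈ QA J X Y n := by
  refine ⟨⟨?_, fun l => ⟨?_, fun x => ?_⟩⟩, ⟨2, fun l x y h => ?_⟩, fun g => ?_⟩
  · rw [io_f, hf.1, map_zero, map_zero]
  · rw [io_f]; rfl
  · rw [io_f, kap_f]; split_ifs <;> rfl
  · rw [io_f, kap_f]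
    split_ifs with hx
    · rw [kap_f, if_neg (by omega)]
    · rfl
  · refine Co.ext fun l => Co.ext fun x => Co.ext fun y => ?_
    rw [aA_f, aS_f, io_f, io_f, kap_f, kap_f, List.length_map]
    split_ifs
    · rw [kap_f, kap_f, List.length_map, hf.2]
    · rfl

theorem lowS {F : Co J (Co X (Co Y (ZMod n)))} (hF : F ∈ QA J X Y n) (h0 : ∀ k > 2, cS k F = 0)
    (h3 : cS 3 (Cx.δ F) = 0) : ∃ f ∈ FA J X Y n, F = io f ∧ ∀ l, f.f l = ((F.f l).f [1]).f [1] := by
  have hF0 : ∀ l x y, 2 < x.length + y.length → ((F.f l).f x).f y = 0 := fun l x y hxy => by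
    have := congrArg (fun G => ((G.f l).f x).f y) (h0 _ hxy)
    simpa [cS_f, cSS_f] using this
  have h3' : ∀ l x y, x.length + y.length = 3 → (((Cx.δ F).f l).f x).f y = 0 := fun l x y hxy => by
    have := congrArg (fun G => ((G.f l).f x).f y) h3
    simpa [cS_f, cSS_f, hxy] using this
  have hx : ∀ l a a' b, ((F.f l).f [a]).f [b] = ((F.f l).f [a']).f [b] := fun l a a' b => by
    have h := h3' l [a', a] [b] rfl
    rw [hF.1.δ_f, dl_eq_zero fun l' _ => hF0 l' _ _ (by simp), dl_cons b, dl_nil, (hF.1.2 l).2] at h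
    simp only [dl_cons, dl_nil, sub_zero, smul_zero, add_zero, zero_add] at h
    have := congrArg (fun s => sg l.length • s) h
    simp only [smul_smul, sg_mul_self, one_smul, smul_zero, sub_eq_zero] at this
    exact this
  have hy : ∀ l a b b', ((F.f l).f [a]).f [b] = ((F.f l).f [a]).f [b'] := fun l a b b' => by
    have h := h3' l [a] [b', b] rfl
    rw [hF.1.δ_f, dl_eq_zero fun l' _ => hF0 l' _ _ (by simp), dl_cons a] at h
    simp only [dl_cons, dl_nil, sub_zero, zero_add, (hF.1.2 l).1, zero_f] at h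
    have := congrArg (fun s => sg [a].length • sg l.length • s) h
    simp only [smul_smul] at this
    rw [show sg [a].length * (sg l.length * (sg l.length * sg [a].length)) =
      (sg [a].length * sg [a].length) * (sg l.length * sg l.length) by ring, sg_mul_self,
      sg_mul_self] at this
    simp only [one_smul, mul_one, smul_zero, sub_eq_zero] at this
    exact this
  have hxy : ∀ l a b, ((F.f l).f [a]).f [b] = ((F.f l).f [1]).f [1] := fun l a b =>
    (hx l a 1 b).trans (hy l 1 b 1)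
  refine ⟨⟨fun l => ((F.f l).f [1]).f [1]⟩, ⟨?_, fun g l => ?_⟩, ?_, fun l => rfl⟩
  · show ((F.f []).f [1]).f [1] = 0
    rw [hF.1.1]; rfl
  · show ((F.f (l.map fun j => g • j)).f [1]).f [1] = ((F.f l).f [1]).f [1]
    have h := congrArg (fun F => ((F.f l).f [1]).f [1]) (hF.2.2 g)
    simp only [aA_f, aS_f, List.map_cons, List.map_nil] at h
    rw [hxy] at h
    exact h
  · refine Co.ext fun l => ?_
    refine (hF.1.2 l).ext (by rw [io_f]; exact ⟨rfl, fun x => by rw [kap_f]; split_ifs <;> rfl⟩) ?_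
    intro a x b y
    rw [io_f, kap_f]
    split_ifs with h1
    · rw [kap_f]
      split_ifs with h2
      · have e1 : x = [] := by simpa using h1
        have e2 : y = [] := by simpa using h2
        subst e1; subst e2
        exact hxy l a b
      · exact hF0 _ _ _ (by simp only [List.length_cons] at h1 h2 ⊢; omega)
    · exact hF0 _ _ _ (by simp only [List.length_cons] at h1 ⊢; omega)

theorem redS_A (C : EqM J X Y) {F : Co J (Co X (Co Y (ZMod n)))} (hF : F ∈ QA J X Y n)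
    (h : ∀ k > 2, cS k (Cx.δ F) = 0) : ∃ f ∈ FA J X Y n, ∃ H ∈ QA J X Y n, F = io f + Cx.δ H := by
  obtain ⟨K, hK⟩ := hF.2.1
  obtain ⟨F', hF', H, hH, e, h0⟩ := dc (Cx.δ) d1S Cx.δδ cS (QA J X Y n) (QA J X Y n) 2
    (fun H hH => δ_mem_QA hH) (fun k F hF => cS_mem_QA hF k)
    (fun F K hF h => htopS F (by rcases hF with h | h <;> exact h.1) K h)
    cS_cS cS_cS' (fun k hk G hG hc hd => hexS C hk hG hc hd) K F hF
    (fun k hk => by
      refine Co.ext fun l => Co.ext fun x => Co.ext fun y => ?_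
      rw [cS_f, cSS_f]
      split_ifs with hl
      · exact hK _ _ _ (by omega)
      · rfl)
    (fun k hk => h k (by omega))
  have h3 : cS 3 (Cx.δ F') = 0 := by
    have : F' = F - Cx.δ H := by rw [e]; abel
    rw [this, map_sub, Cx.δδ, sub_zero]; exact h 3 (by omega)
  obtain ⟨f, hf, ef, -⟩ := lowS hF' h0 h3
  exact ⟨f, hf, H, hH, by rw [e, ef]⟩

end J

section B
variable {J X : Type*} [Group X] [MulAction (X × X) J] {n : ℕ}

/-- equivariant maps of a swap situation -/
def Sig.eqM (W : Sig J X) : EqM J X X := ⟨W.c1, W.c2, W.c1_smul, W.c2_smul⟩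

/-- value of `ε` at the head -/
def Sig.hd (W : Sig J X) : List J → Bool
  | [] => false
  | j :: _ => W.ε j

/-- restriction to `ε = false` -/
def Sig.e (W : Sig J X) (n : ℕ) : Co J (Co X (Co X (ZMod n))) →+ Co J (Co X (Co X (ZMod n))) where
  toFun F := ⟨fun l => if W.hd l then 0 else F.f l⟩
  map_zero' := Co.ext fun l => by simp
  map_add' F G := Co.ext fun l => by simp only [add_f]; split_ifs <;> simp

theorem Sig.e_f (W : Sig J X) (F : Co J (Co X (Co X (ZMod n)))) (l : List J) :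
    (W.e n F).f l = if W.hd l then 0 else F.f l := rfl

theorem Sig.hd_smul (W : Sig J X) (g : X × X) (l : List J) : W.hd (l.map fun j => g • j) = W.hd l := by
  cases l with
  | nil => rfl
  | cons j l => exact W.ε_smul g j

theorem Sig.hd_σ (W : Sig J X) (j : J) (l : List J) : W.hd ((j :: l).map W.σ) = !W.hd (j :: l) :=
  W.ε_σ j

theorem e_mem_QA (W : Sig J X) {F : Co J (Co X (Co X (ZMod n)))} (hF : F ∈ QA J X X n) :
    W.e n F ∈ QA J X X n := by
  refine ⟨⟨hF.1.1, fun l => ?_⟩, ?_, fun g => ?_⟩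
  · rw [W.e_f]; split_ifs; exacts [NzS.zero, hF.1.2 l]
  · obtain ⟨K, hK⟩ := hF.2.1
    refine ⟨K, fun l x y h => ?_⟩
    rw [W.e_f]; split_ifs
    · rfl
    · exact hK _ _ _ h
  · refine Co.ext fun l => ?_
    rw [aA_f, W.e_f, W.e_f, W.hd_smul]
    split_ifs
    · exact map_zero _
    · rw [← aA_f, hF.2.2]

/-- symmetrisation -/
theorem e_sym (W : Sig J X) {F : Co J (Co X (Co X (ZMod n)))} (hF : aT W.σ F = F) (h0 : F.f [] = 0) :
    W.e n F + aT W.σ (W.e n F) = F := by
  refine Co.ext fun l => ?_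
  rcases l with _ | ⟨j, l⟩
  · rw [add_f, W.e_f, aT_f, List.map_nil, W.e_f, h0]; simp
  · rw [add_f, aT_f, W.e_f, W.e_f, W.hd_σ]
    have h := congrArg (fun F => F.f (j :: l)) hF
    simp only [aT_f] at h
    cases W.hd (j :: l)
    · simp
    · simpa using h

theorem d1S_e (W : Sig J X) (F : Co J (Co X (Co X (ZMod n)))) : d1S (W.e n F) = W.e n (d1S F) := by
  refine Co.ext fun l => ?_
  rw [d1S_f, W.e_f, W.e_f, d1S_f]
  split_ifs
  · rw [map_zero, smul_zero]
  · rfl

theorem d1S_aT (W : Sig J X) (F : Co J (Co X (Co X (ZMod n)))) :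
    d1S (aT W.σ F) = aT W.σ (d1S F) := by
  refine Co.ext fun l => ?_
  rw [d1S_f, aT_f, aT_f, d1S_f, List.length_map, map_zsmul, Tn_δ]

theorem cS_e (W : Sig J X) (k : ℕ) (F : Co J (Co X (Co X (ZMod n)))) :
    cS k (W.e n F) = W.e n (cS k F) := by
  refine Co.ext fun l => ?_
  rw [cS_f, W.e_f, W.e_f, cS_f]
  split_ifs
  · exact map_zero _
  · rfl

theorem cS_aT (W : Sig J X) (k : ℕ) (F : Co J (Co X (Co X (ZMod n)))) :
    cS k (aT W.σ F) = aT W.σ (cS k F) := by
  refine Co.ext fun l => ?_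
  rw [cS_f, aT_f, aT_f, cS_f, Tn_cSS]

/-- transfer -/
theorem tr_mem_QB (W : Sig J X) {F : Co J (Co X (Co X (ZMod n)))} (hF : F ∈ QA J X X n) :
    F + aT W.σ F ∈ QB W n :=
  ⟨AddSubgroup.add_mem _ hF (aT_mem_QA W hF), by rw [map_add, aT_aT W.inv hF.1, add_comm]⟩

/-- swap-invariant cochains on `J` -/
def FB (W : Sig J X) (n : ℕ) : AddSubgroup (Co J (ZMod n)) where
  carrier := {f | f ∈ FA J X X n ∧ ∀ l : List J, f.f (l.map W.σ) = f.f l}
  zero_mem' := ⟨AddSubgroup.zero_mem _, fun _ => rfl⟩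
  add_mem' {F G} hF hG := ⟨AddSubgroup.add_mem _ hF.1 hG.1, fun l => by
    rw [add_f, add_f, hF.2, hG.2]⟩
  neg_mem' {F} hF := ⟨AddSubgroup.neg_mem _ hF.1, fun l => by rw [neg_f, neg_f, hF.2]⟩

theorem sw_one_one : sw 1 1 = 1 := by decide

theorem io_mem_QB {W : Sig J X} {f : Co J (ZMod n)} (hf : f ∈ FB W n) : io f ∈ QB W n := by
  refine ⟨io_mem_QA hf.1, Co.ext fun l => Co.ext fun x => Co.ext fun y => ?_⟩
  rw [aT_f, Tn_f, ((io_mem_QA hf.1).1.2 _).vv, io_f, io_f, hf.2]
  simp only [kap_f]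
  by_cases hx : x.length = 1
  · by_cases hy : y.length = 1
    · simp [hx, hy, kap_f, sw_one_one]
    · simp [hx, hy, kap_f]
  · by_cases hy : y.length = 1
    · simp [hx, hy, kap_f]
    · simp [hx, hy]

theorem redS_B (W : Sig J X) {F : Co J (Co X (Co X (ZMod n)))} (hF : F ∈ QB W n)
    (h : ∀ k > 2, cS k (Cx.δ F) = 0) : ∃ f ∈ FB W n, ∃ H ∈ QB W n, F = io f + Cx.δ H := by
  obtain ⟨K, hK⟩ := hF.1.2.1
  obtain ⟨F', hF', H, hH, e, h0⟩ := dc (Cx.δ) d1S Cx.δδ cS (QB W n) (QB W n) 2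
    (fun H hH => δ_mem_QB hH) (fun k F hF => cS_mem_QB hF k)
    (fun F K hF h => htopS F (by rcases hF with h | h <;> exact h.1.1) K h)
    cS_cS cS_cS' (fun k hk G hG hc hd => by
      obtain ⟨H, hH, e1, e2⟩ := hexS W.eqM hk hG.1 hc hd
      refine ⟨W.e n H + aT W.σ (W.e n H), tr_mem_QB W (e_mem_QA W hH), ?_, ?_⟩
      · rw [map_add, cS_aT, cS_e, e1]
      · rw [map_add, d1S_aT, d1S_e, e2, e_sym W hG.2 hG.1.1.1]) K F hF
    (fun k hk => by
      refine Co.ext fun l => Co.ext fun x => Co.ext fun y => ?_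
      rw [cS_f, cSS_f]
      split_ifs with hl
      · exact hK _ _ _ (by omega)
      · rfl)
    (fun k hk => h k (by omega))
  have h3 : cS 3 (Cx.δ F') = 0 := by
    have : F' = F - Cx.δ H := by rw [e]; abel
    rw [this, map_sub, Cx.δδ, sub_zero]; exact h 3 (by omega)
  obtain ⟨f, hf, ef, ef'⟩ := lowS hF'.1 h0 h3
  refine ⟨f, ⟨hf, fun l => ?_⟩, H, hH, by rw [e, ef]⟩
  rw [ef', ef']
  conv_rhs => rw [← hF'.2]
  rw [aT_f, Tn_f, vv_cons, List.length_singleton, sw_one_one, one_smul]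

end B

end Crest.Agent.R204.SQ803
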