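import Crest.Agent.R204.Defs

/-!
# Row 204, block A5: the algebraic quadratic construction `Q(C) = ⊕ e_i ⊗ C` (helper888)

`C` an `F₂`-module with differential `d` and involution `τ`; `Q(C) = ℕ →₀ C` with
`D (e_i ⊗ c) = e_i ⊗ d c + e_{i-1} ⊗ (c + τ c)`.
Here: functoriality, the shift (cap product), the coproduct `ψ : Q(A ⊗ B) → Q(A) ⊗ Q(B)`,
-/

set_option autoImplicit false

noncomputable section

namespace Crest.Agent.R204.Q888

open Finsupp TensorProduct

variable {A B C : Type} [AddCommGroup A] [Module F2 A] [AddCommGroup B] [Module F2 B]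
  [AddCommGroup C] [Module F2 C]

theorem add_self2 {M : Type} [AddCommGroup M] [Module F2 M] (x : M) : x + x = 0 := by
  have h : (1 + 1 : F2) • x = x + x := by rw [add_smul, one_smul]
  rw [← h]
  have : (1 + 1 : F2) = 0 := by decide
  rw [this, zero_smul]

theorem neg_eq2 {M : Type} [AddCommGroup M] [Module F2 M] (x : M) : -x = x :=
  neg_eq_of_add_eq_zero_left (add_self2 x)

/-- differential of `Q(C)` -/
def QD (d τ : C →ₗ[F2] C) : (ℕ →₀ C) →ₗ[F2] (ℕ →₀ C) :=
  Finsupp.lsum F2 (fun i => match i with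
    | 0 => lsingle 0 ∘ₗ d
    | i + 1 => lsingle (i + 1) ∘ₗ d + lsingle i ∘ₗ (LinearMap.id + τ))

@[simp] theorem QD_zero (d τ : C →ₗ[F2] C) (c : C) : QD d τ (single 0 c) = single 0 (d c) := by
  simp [QD]

@[simp] theorem QD_succ (d τ : C →ₗ[F2] C) (i : ℕ) (c : C) :
    QD d τ (single (i + 1) c) = single (i + 1) (d c) + single i (c + τ c) := by
  simp [QD]

theorem QD_QD (d τ : C →ₗ[F2] C) (hd : ∀ c, d (d c) = 0) (hdτ : ∀ c, d (τ c) = τ (d c))
    (hτ : ∀ c, τ (τ c) = c) (z : ℕ →₀ C) : QD d τ (QD d τ z) = 0 := by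
  induction z using Finsupp.induction_linear with
  | zero => simp
  | add f g hf hg => rw [map_add, map_add, hf, hg, add_zero]
  | single i c =>
    rcases i with _ | _ | i
    · simp [hd]
    · simp only [zero_add, QD_succ, map_add, QD_zero, hd, hdτ, single_zero]
      rw [← single_add]
      have : (d c + τ (d c) + (d c + τ (d c)) : C) = 0 := add_self2 _
      simp [this]
    · simp only [QD_succ, map_add, hd, hdτ, single_zero, hτ]
      rw [zero_add, ← add_assoc, ← single_add, add_self2, single_zero, zero_add, ← single_zero i]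
      congr 1
      rw [add_comm (τ c) c, add_self2]

/-- functoriality of `Q` -/
def Qmap (f : A →ₗ[F2] B) : (ℕ →₀ A) →ₗ[F2] (ℕ →₀ B) := Finsupp.mapRange.linearMap f

@[simp] theorem Qmap_single (f : A →ₗ[F2] B) (i : ℕ) (a : A) :
    Qmap f (single i a) = single i (f a) := by
  simp [Qmap]

theorem Qmap_QD (f : A →ₗ[F2] B) (dA τA : A →ₗ[F2] A) (dB τB : B →ₗ[F2] B)
    (hd : ∀ a, f (dA a) = dB (f a)) (hτ : ∀ a, f (τA a) = τB (f a)) :
    Qmap f ∘ₗ QD dA τA = QD dB τB ∘ₗ Qmap f := by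
  ext i a : 2
  rcases i with _ | i
  · simp [hd]
  · simp [hd, hτ]

/-- the shift `e_{i+1} ⊗ c ↦ e_i ⊗ c`, `e_0 ⊗ c ↦ 0` -/
def sh : (ℕ →₀ C) →ₗ[F2] (ℕ →₀ C) :=
  Finsupp.lsum F2 (fun i => match i with
    | 0 => 0
    | i + 1 => lsingle i)

@[simp] theorem sh_zero (c : C) : sh (single 0 c) = (0 : ℕ →₀ C) := by simp [sh]
@[simp] theorem sh_succ (i : ℕ) (c : C) : sh (single (i + 1) c) = (single i c : ℕ →₀ C) := by simp [sh]

theorem sh_QD (d τ : C →ₗ[F2] C) : sh ∘ₗ QD d τ = QD d τ ∘ₗ sh := by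
  ext i c : 2
  rcases i with _ | _ | i
  · simp
  · simp
  · simp

/-- tensor product differential -/
def dT (dA : A →ₗ[F2] A) (dB : B →ₗ[F2] B) : A ⊗[F2] B →ₗ[F2] A ⊗[F2] B :=
  TensorProduct.map dA LinearMap.id + TensorProduct.map LinearMap.id dB

@[simp] theorem dT_tmul (dA : A →ₗ[F2] A) (dB : B →ₗ[F2] B) (a : A) (b : B) :
    dT dA dB (a ⊗ₜ b) = dA a ⊗ₜ b + a ⊗ₜ dB b := by
  simp [dT]

theorem dT_dT (dA : A →ₗ[F2] A) (dB : B →ₗ[F2] B) (hA : ∀ a, dA (dA a) = 0) (hB : ∀ b, dB (dB b) = 0)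
    (z : A ⊗[F2] B) : dT dA dB (dT dA dB z) = 0 := by
  induction z using TensorProduct.induction_on with
  | zero => simp
  | add x y hx hy => rw [map_add, map_add, hx, hy, add_zero]
  | tmul a b =>
    simp only [dT_tmul, map_add, hA, hB, TensorProduct.zero_tmul, TensorProduct.tmul_zero, zero_add,
      add_zero]
    exact add_self2 _

/-- the coproduct `ψ : Q(A ⊗ B) → Q(A) ⊗ Q(B)`,
`e_m ⊗ a ⊗ b ↦ ∑_{j ≤ m} (e_j ⊗ a) ⊗ (e_{m-j} ⊗ τ^j b)` -/
def psi (τB : B →ₗ[F2] B) : (ℕ →₀ (A ⊗[F2] B)) →ₗ[F2] ((ℕ →₀ A) ⊗[F2] (ℕ →₀ B)) :=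
  Finsupp.lsum F2 (fun m => ∑ j ∈ Finset.range (m + 1),
    TensorProduct.map (lsingle j) (lsingle (m - j) ∘ₗ (τB ^ j)))

theorem psi_single (τB : B →ₗ[F2] B) (m : ℕ) (a : A) (b : B) :
    psi τB (single m (a ⊗ₜ[F2] b)) = ∑ j ∈ Finset.range (m + 1),
      (single j a) ⊗ₜ[F2] (single (m - j) ((τB ^ j) b)) := by
  simp [psi]

theorem tau_pow_comm (dB τB : B →ₗ[F2] B) (h : ∀ b, dB (τB b) = τB (dB b)) (j : ℕ) (b : B) :
    dB ((τB ^ j) b) = (τB ^ j) (dB b) := by
  induction j generalizing b with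
  | zero => simp
  | succ j ih => rw [pow_succ, Module.End.mul_apply, ih, h, ← Module.End.mul_apply, ← pow_succ]

theorem tau_pow_succ' (τB : B →ₗ[F2] B) (j : ℕ) (b : B) : τB ((τB ^ j) b) = (τB ^ (j + 1)) b := by
  rw [pow_succ', Module.End.mul_apply]

theorem psi_chain (dA τA : A →ₗ[F2] A) (dB τB : B →ₗ[F2] B) (hdτ : ∀ b, dB (τB b) = τB (dB b)) :
    psi τB ∘ₗ QD (dT dA dB) (TensorProduct.map τA τB) =
      dT (QD dA τA) (QD dB τB) ∘ₗ psi τB := by
  refine Finsupp.lhom_ext' fun m => ?_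
  refine TensorProduct.ext' fun a b => ?_
  simp only [LinearMap.comp_apply, lsingle_apply]
  rcases m with _ | m
  · simp [psi_single, single_add]
  · rw [QD_succ, dT_tmul, TensorProduct.map_tmul, single_add, single_add, map_add, map_add, map_add,
      psi_single, psi_single, psi_single, psi_single, psi_single, map_sum]
    simp only [dT_tmul]
    rw [Finset.sum_add_distrib]
    -- expand the `A` part
    have hA : ∑ j ∈ Finset.range (m + 1 + 1), (QD dA τA (single j a)) ⊗ₜ[F2] (single (m + 1 - j) ((τB ^ j) b))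
        = ∑ j ∈ Finset.range (m + 1 + 1), (single j (dA a)) ⊗ₜ[F2] (single (m + 1 - j) ((τB ^ j) b))
        + ∑ j ∈ Finset.range (m + 1), (single j (a + τA a)) ⊗ₜ[F2] (single (m - j) ((τB ^ (j + 1)) b)) := by
      rw [Finset.sum_range_succ' (fun j => (QD dA τA (single j a)) ⊗ₜ[F2] (single (m + 1 - j) ((τB ^ j) b))),
        Finset.sum_range_succ' (fun j => (single j (dA a)) ⊗ₜ[F2] (single (m + 1 - j) ((τB ^ j) b)))]
      simp only [QD_zero, QD_succ, TensorProduct.add_tmul, Finset.sum_add_distrib,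
        Nat.add_sub_add_right]
      abel
    have hB : ∑ j ∈ Finset.range (m + 1 + 1), (single j a) ⊗ₜ[F2] (QD dB τB (single (m + 1 - j) ((τB ^ j) b)))
        = ∑ j ∈ Finset.range (m + 1 + 1), (single j a) ⊗ₜ[F2] (single (m + 1 - j) ((τB ^ j) (dB b)))
        + ∑ j ∈ Finset.range (m + 1), (single j a) ⊗ₜ[F2]
          (single (m - j) ((τB ^ j) b + (τB ^ (j + 1)) b)) := by
      rw [Finset.sum_range_succ (fun j => (single j a) ⊗ₜ[F2] (QD dB τB (single (m + 1 - j) ((τB ^ j) b)))),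
        Finset.sum_range_succ (fun j => (single j a) ⊗ₜ[F2] (single (m + 1 - j) ((τB ^ j) (dB b))))]
      have : ∀ j ∈ Finset.range (m + 1),
          (single j a : ℕ →₀ A) ⊗ₜ[F2] (QD dB τB (single (m + 1 - j) ((τB ^ j) b))) =
          (single j a) ⊗ₜ[F2] (single (m + 1 - j) ((τB ^ j) (dB b))) + (single j a) ⊗ₜ[F2]
          (single (m - j) ((τB ^ j) b + (τB ^ (j + 1)) b)) := by
        intro j hj
        have hj' : m + 1 - j = (m - j) + 1 := by
          have := Finset.mem_range.1 hj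
          omega
        rw [hj', QD_succ, tau_pow_comm dB τB hdτ, tau_pow_succ', TensorProduct.tmul_add]
      rw [Finset.sum_congr rfl this, Finset.sum_add_distrib]
      simp only [Nat.sub_self, QD_zero, tau_pow_comm dB τB hdτ]
      abel
    rw [hA, hB]
    have hC : ∑ j ∈ Finset.range (m + 1), (single j (a + τA a)) ⊗ₜ[F2] (single (m - j) ((τB ^ (j + 1)) b))
        + ∑ j ∈ Finset.range (m + 1), (single j a) ⊗ₜ[F2]
          (single (m - j) ((τB ^ j) b + (τB ^ (j + 1)) b))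
        = ∑ j ∈ Finset.range (m + 1), (single j a) ⊗ₜ[F2] (single (m - j) ((τB ^ j) b))
        + ∑ j ∈ Finset.range (m + 1), (single j (τA a)) ⊗ₜ[F2] (single (m - j) ((τB ^ j) (τB b))) := by
      rw [← Finset.sum_add_distrib, ← Finset.sum_add_distrib]
      apply Finset.sum_congr rfl
      intro j _
      have e : (τB ^ j) (τB b) = (τB ^ (j + 1)) b := by rw [pow_succ, Module.End.mul_apply]
      rw [e, single_add, single_add, TensorProduct.add_tmul, TensorProduct.tmul_add]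
      have := add_self2 ((single j a : ℕ →₀ A) ⊗ₜ[F2] (single (m - j) ((τB ^ (j + 1)) b) : ℕ →₀ B))
      calc _ = (single j a : ℕ →₀ A) ⊗ₜ[F2] (single (m - j) ((τB ^ j) b) : ℕ →₀ B)
            + (single j (τA a) : ℕ →₀ A) ⊗ₜ[F2] (single (m - j) ((τB ^ (j + 1)) b) : ℕ →₀ B)
            + ((single j a : ℕ →₀ A) ⊗ₜ[F2] (single (m - j) ((τB ^ (j + 1)) b) : ℕ →₀ B)
            + (single j a : ℕ →₀ A) ⊗ₜ[F2] (single (m - j) ((τB ^ (j + 1)) b) : ℕ →₀ B)) := by abel
        _ = _ := by rw [this, add_zero]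
    calc _ = (∑ j ∈ Finset.range (m + 1 + 1), (single j (dA a)) ⊗ₜ[F2] (single (m + 1 - j) ((τB ^ j) b))
          + ∑ j ∈ Finset.range (m + 1 + 1), (single j a) ⊗ₜ[F2] (single (m + 1 - j) ((τB ^ j) (dB b))))
          + (∑ j ∈ Finset.range (m + 1), (single j a) ⊗ₜ[F2] (single (m - j) ((τB ^ j) b))
        + ∑ j ∈ Finset.range (m + 1), (single j (τA a)) ⊗ₜ[F2] (single (m - j) ((τB ^ j) (τB b)))) := by
          abel
      _ = _ := by rw [← hC]; abel

end Crest.Agent.R204.Q888
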