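import Mathlib

/-!
# Row 204, block G, lemma SQ: group theory half (helper334)

`perm_of_closure`: a property of finite groups that is closed under isomorphism, products, wreath product with
`Z/2` and passes from subgroups of odd index to the group holds for every symmetric group.
-/

set_option autoImplicit false

namespace Crest.Agent.R204.SQG334

open scoped RegularWreathProduct

theorem odd_choose_two_pow (r : ℕ) : ∀ s : ℕ, s < 2 ^ r → Odd ((2 ^ r + s).choose (2 ^ r)) := by
  induction r with
  | zero =>
    intro s hs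
    have : s = 0 := by simpa using hs
    subst this
    simp
  | succ r ih =>
    intro s hs
    haveI : Fact (Nat.Prime 2) := ⟨Nat.prime_two⟩
    have key := Choose.choose_modEq_choose_mod_mul_choose_div_nat (n := 2 ^ (r + 1) + s)
      (k := 2 ^ (r + 1)) (p := 2)
    have e1 : 2 ^ (r + 1) % 2 = 0 := by rw [pow_succ]; omega
    have e2 : 2 ^ (r + 1) / 2 = 2 ^ r := by rw [pow_succ]; omega
    have e3 : (2 ^ (r + 1) + s) / 2 = 2 ^ r + s / 2 := by rw [pow_succ]; omega
    rw [e1, e2, e3, Nat.choose_zero_right, one_mul] at key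
    have h := ih (s / 2) (by rw [pow_succ] at hs; omega)
    rw [Nat.odd_iff] at h ⊢
    unfold Nat.ModEq at key
    rw [key, h]

theorem card_range_sumCongr (a b : ℕ) :
    Nat.card (Equiv.Perm.sumCongrHom (Fin a) (Fin b)).range = a.factorial * b.factorial := by
  have e := MonoidHom.ofInjective (Equiv.Perm.sumCongrHom_injective (α := Fin a) (β := Fin b))
  rw [← Nat.card_congr e.toEquiv, Nat.card_prod, Nat.card_perm, Nat.card_perm, Nat.card_fin, Nat.card_fin]

theorem index_range_sumCongr (a b : ℕ) :
    (Equiv.Perm.sumCongrHom (Fin a) (Fin b)).range.index = (a + b).choose a := by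
  have h := Subgroup.card_mul_index (Equiv.Perm.sumCongrHom (Fin a) (Fin b)).range
  rw [card_range_sumCongr, Nat.card_perm, Nat.card_sum, Nat.card_fin, Nat.card_fin] at h
  have h2 := Nat.choose_mul_factorial_mul_factorial (Nat.le_add_right a b)
  rw [Nat.add_sub_cancel_left] at h2
  have hpos : 0 < a.factorial * b.factorial := by positivity
  apply Nat.eq_of_mul_eq_mul_left hpos
  rw [h, ← h2]
  ring

theorem perm_of_closure (P : ∀ (G : Type) [Group G], Prop)
    (hiso : ∀ (G H : Type) [Group G] [Group H], (G ≃* H) → P G → P H)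
    (h1 : P PUnit)
    (hprod : ∀ (G H : Type) [Group G] [Group H] [Finite G] [Finite H], P G → P H → P (G × H))
    (hwr : ∀ (G : Type) [Group G] [Finite G], P G → P (G ≀ᵣ (Multiplicative (ZMod 2))))
    (hodd : ∀ (G : Type) [Group G] [Finite G] (H : Subgroup G), Odd H.index → P H → P G) :
    ∀ w : ℕ, P (Equiv.Perm (Fin w)) := by
  haveI : Fact (Nat.Prime 2) := ⟨Nat.prime_two⟩
  have hit : ∀ n : ℕ, P (IteratedWreathProduct (Multiplicative (ZMod 2)) n) := by
    intro n
    induction n with
    | zero => exact h1
    | succ n ih => exact hwr _ ih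
  have hpow : ∀ r : ℕ, P (Equiv.Perm (Fin (2 ^ r))) := by
    intro r
    let S : Sylow 2 (Equiv.Perm (Fin (2 ^ r))) := default
    refine hodd _ (S : Subgroup _) ?_ ?_
    · have := Sylow.not_dvd_index S
      rw [← Nat.not_even_iff_odd, even_iff_two_dvd]
      exact this
    · refine hiso _ _ (Sylow.mulEquivIteratedWreathProduct 2 r (Fin (2 ^ r)) (by simp)
        (Multiplicative (ZMod 2)) (by simp) S).symm ?_
      exact hit r
  intro w
  induction w using Nat.strong_induction_on with
  | _ w ih =>
    rcases Nat.eq_zero_or_pos w with rfl | hw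
    · refine hiso PUnit _ ?_ h1
      exact MulEquiv.ofUnique
    · have hle : 2 ^ Nat.log 2 w ≤ w := Nat.pow_log_le_self 2 hw.ne'
      have hlt : w < 2 ^ (Nat.log 2 w + 1) := Nat.lt_pow_succ_log_self (by norm_num) w
      obtain ⟨s, hs⟩ := Nat.exists_eq_add_of_le hle
      have hs2 : s < 2 ^ Nat.log 2 w := by rw [pow_succ] at hlt; omega
      have hsw : s < w := by
        have : 0 < 2 ^ Nat.log 2 w := by positivity
        omega
      generalize Nat.log 2 w = r at *
      subst hs
      have hpr : P (Equiv.Perm (Fin (2 ^ r)) × Equiv.Perm (Fin s)) := hprod _ _ (hpow r) (ih s hsw)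
      have hrg : P (Equiv.Perm.sumCongrHom (Fin (2 ^ r)) (Fin s)).range :=
        hiso _ _ (MonoidHom.ofInjective
          (Equiv.Perm.sumCongrHom_injective (α := Fin (2 ^ r)) (β := Fin s))) hpr
      have hsum : P (Equiv.Perm (Fin (2 ^ r) ⊕ Fin s)) := by
        refine hodd _ _ ?_ hrg
        rw [index_range_sumCongr]
        exact odd_choose_two_pow r s hs2
      exact hiso _ _ (finSumFinEquiv.permCongrHom) hsum

end Crest.Agent.R204.SQG334
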