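import Crest.Agent.R204.SQJ_761

/-!
# Row 204, block G, leaf G5: `SQ G` can be checked on one nonempty free `G`-set (helper761)
-/

set_option autoImplicit false

namespace Crest.Agent.R204.SQ803

section prism
variable {J J' M : Type*} [AddCommGroup M]

/-- prism operator between two maps of vertex sets -/
def prsm (a b : J → J') : List J → (List J' → M) → M
  | [], _ => 0
  | x :: l, f => f (a x :: b x :: l.map b) - prsm a b l (fun l' => f (a x :: l'))

@[simp] theorem prsm_nil (a b : J → J') (f : List J' → M) : prsm a b [] f = 0 := rfl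
theorem prsm_cons (a b : J → J') (x : J) (l : List J) (f : List J' → M) :
    prsm a b (x :: l) f = f (a x :: b x :: l.map b) - prsm a b l (fun l' => f (a x :: l')) := rfl

theorem prsm_add (a b : J → J') (l : List J) (f g : List J' → M) :
    prsm a b l (fun l' => f l' + g l') = prsm a b l f + prsm a b l g := by
  induction l generalizing f g with
  | nil => simp
  | cons x l ih => rw [prsm_cons, prsm_cons, prsm_cons, ih]; abel

theorem prsm_neg (a b : J → J') (l : List J) (f : List J' → M) :
    prsm a b l (fun l' => - f l') = - prsm a b l f := by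
  induction l generalizing f with
  | nil => simp
  | cons x l ih => rw [prsm_cons, prsm_cons, ih]; abel

theorem prsm_sub (a b : J → J') (l : List J) (f g : List J' → M) :
    prsm a b l (fun l' => f l' - g l') = prsm a b l f - prsm a b l g := by
  simp only [sub_eq_add_neg, prsm_add, prsm_neg]

@[simp] theorem prsm_zero (a b : J → J') (l : List J) : prsm a b l (fun _ => (0 : M)) = 0 := by
  induction l with
  | nil => simp
  | cons x l ih => rw [prsm_cons, ih]; simp

/-- homotopy formula -/
theorem dl_prsm (a b : J → J') (l : List J) (f : List J' → M) :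
    dl l (fun l' => prsm a b l' f) + prsm a b l (fun l' => dl l' f) = f (l.map b) - f (l.map a) := by
  induction l generalizing f with
  | nil => simp
  | cons x l ih =>
    have h1 : (fun l' => prsm a b (x :: l') f) =
        fun l' => f (a x :: b x :: l'.map b) - prsm a b l' (fun l'' => f (a x :: l'')) := by
      funext l'; rw [prsm_cons]
    have h2 : (fun l' => dl (a x :: l') f) = fun l' => f l' - dl l' (fun l'' => f (a x :: l'')) := by
      funext l'; rw [dl_cons]
    have h3 := dl_map b l (fun l' => f (a x :: b x :: l'))
    have h4 := ih (fun l' => f (a x :: l'))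
    rw [dl_cons, h1, dl_sub, h3, prsm_cons, dl_cons, dl_cons, h2, prsm_sub, List.map_cons, List.map_cons]
    have h5 : dl l (fun l' => prsm a b l' (fun l'' => f (a x :: l''))) =
        f (a x :: l.map b) - f (a x :: l.map a) - prsm a b l (fun l' => dl l' (fun l'' => f (a x :: l''))) :=
      eq_sub_of_add_eq h4
    rw [h5]
    abel

theorem prsm_deg (a b : J → J') {k : ℕ} (l : List J) (f : List J' → M)
    (hf : ∀ l, f l ≠ 0 → l.length = k + 1) (h : prsm a b l f ≠ 0) : l.length = k := by
  induction l generalizing f k with
  | nil => exact absurd rfl h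
  | cons x l ih =>
    rw [prsm_cons] at h
    by_cases h1 : f (a x :: b x :: l.map b) = 0
    · rw [h1, zero_sub, neg_ne_zero] at h
      rcases k with _ | k
      · exfalso
        apply h
        have : ∀ l : List J, prsm a b l (fun l' => f (a x :: l')) = 0 := by
          intro l
          rcases l with _ | ⟨y, l⟩
          · rfl
          · rw [prsm_cons]
            have e : ∀ z l', f (a x :: z :: l') = 0 := by
              intro z l'
              by_contra hne
              have := hf _ hne
              simp at this
            rw [e]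
            have e2 : (fun l' => f (a x :: a y :: l')) = fun _ => 0 := funext fun l' => e _ _
            rw [e2, prsm_zero, sub_zero]
        exact this l
      · have := ih (k := k) (fun l' => f (a x :: l')) (fun l' hl' => by
          have := hf _ hl'
          simpa using this) h
        rw [List.length_cons, this]
    · have := hf _ h1
      simpa using this

theorem prsm_map {K : Type*} (a b : J → J') (g : K → J) (g' : J' → J') (a' b' : K → J')
    (ha : ∀ x, a (g x) = g' (a' x)) (hb : ∀ x, b (g x) = g' (b' x)) (l : List K) (f : List J' → M) :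
    prsm a b (l.map g) f = prsm a' b' l (fun l' => f (l'.map g')) := by
  induction l generalizing f with
  | nil => rfl
  | cons x l ih =>
    rw [List.map_cons, prsm_cons, prsm_cons, ih, ha, hb, List.map_map]
    simp only [List.map_cons, List.map_map]
    have e : l.map (b ∘ g) = l.map (g' ∘ b') := List.map_congr_left fun y _ => hb y
    rw [e]

theorem dl_deg761 {k : ℕ} (l : List J) (f : List J → M)
    (hf : ∀ l, f l ≠ 0 → l.length = k) (h : dl l f ≠ 0) : l.length = k + 1 := by
  by_contra hne
  apply h
  refine dl_eq_zero fun l' hl' => ?_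
  by_contra h0
  exact hne (by rw [← hl', hf _ h0])

end prism

/-- `SQ` for one `G`-set -/
def SQon (G : Type) [Group G] (J : Type) [MulAction G J] : Prop :=
  ∀ (N : ℕ), 0 < N → ∀ (m : ℕ) (u : List J → ZMod 2),
    (∀ l, u l ≠ 0 → l.length = m + 1) → (∀ (g : G) (l : List J), u (l.map (g • ·)) = u l) →
    (∀ l, dl l u = 0) →
    ∃ (Y : List J → ZMod (2 ^ N)) (v : List J → ZMod 2),
      (∀ l, Y l ≠ 0 → l.length = 2 * m + 1) ∧ (∀ (g : G) (l : List J), Y (l.map (g • ·)) = Y l) ∧
      (∀ l, dl l Y = 0) ∧
      (∀ l, v l ≠ 0 → l.length = 2 * m) ∧ v [] = 0 ∧ (∀ (g : G) (l : List J), v (l.map (g • ·)) = v l) ∧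
      ∀ l, cupl l u u = (Y l).cast + dl l v

theorem SQ_iff_SQon (G : Type) [Group G] :
    SQ G ↔ ∀ (J : Type) [MulAction G J], (∀ (g : G) (j : J), g • j = j → g = 1) → SQon G J := Iff.rfl

section transfer
variable {G : Type} [Group G] {J K : Type} [MulAction G J] [MulAction G K]

/-- `SQ` passes along a pair of equivariant maps -/
theorem SQon_of_maps (a : J → K) (b : K → J) (ha : ∀ (g : G) x, a (g • x) = g • a x)
    (hb : ∀ (g : G) x, b (g • x) = g • b x) (h : SQon G K) : SQon G J := by
  intro N hN m u hum hu hdu
  have two : ∀ z : ZMod 2, z + z = 0 := fun z => CharTwo.add_self_eq_zero z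
  obtain ⟨Y, v, hYm, hY, hdY, hvm, hv0, hv, huu⟩ := h N hN m (fun l => u (l.map b))
    (fun l hl => by simpa using hum _ hl)
    (fun g l => by
      have e : (l.map (g • ·)).map b = (l.map b).map (g • ·) := by
        rw [List.map_map, List.map_map]
        exact List.map_congr_left fun x _ => hb g x
      rw [e, hu])
    (fun l => by rw [dl_map b l u, hdu])
  have hu0 : u [] = 0 := by
    by_contra hne
    have := hum _ hne
    simp at this
  -- the homotopy
  let c : J → J := fun x => b (a x)
  have hc : ∀ (g : G) x, c (g • x) = g • c x := fun g x => by show b (a _) = _; rw [ha, hb]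
  let k : List J → ZMod 2 := fun l => prsm id c l u
  have hk0 : k [] = 0 := rfl
  have hkm : ∀ l, k l ≠ 0 → l.length = m := fun l hl => prsm_deg id c l u hum hl
  have hkg : ∀ (g : G) (l : List J), k (l.map (g • ·)) = k l := by
    intro g l
    show prsm id c (l.map (g • ·)) u = prsm id c l u
    rw [prsm_map id c (g • ·) (g • ·) id c (fun _ => rfl) (fun x => hc g x) l u]
    congr 1
    funext l'
    exact hu g l'
  have hdk : ∀ l, dl l k = u (l.map c) + u l := by
    intro l
    have := dl_prsm id c l u
    have e : (fun l' => dl l' u) = fun _ => (0 : ZMod 2) := funext hdu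
    rw [e, prsm_zero, add_zero, List.map_id] at this
    show dl l (fun l' => prsm id c l' u) = _
    rw [this, CharTwo.sub_eq_add]
  have hdkm : ∀ l, dl l k ≠ 0 → l.length = m + 1 := fun l hl => dl_deg761 l k hkm hl
  let V : List J → ZMod 2 := fun l => v (l.map a) + (cupl l k u + (cupl l u k +
    cupl l k (fun l' => dl l' k)))
  have hmapa : ∀ (g : G) (l : List J), (l.map (g • ·)).map a = (l.map a).map (g • ·) := fun g l => by
    rw [List.map_map, List.map_map]
    exact List.map_congr_left fun x _ => ha g x
  have inv : ∀ (f f' : List J → ZMod 2), (∀ (g : G) l, f (l.map (g • ·)) = f l) →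
      (∀ (g : G) l, f' (l.map (g • ·)) = f' l) → ∀ (g : G) l, cupl (l.map (g • ·)) f f' = cupl l f f' := by
    intro f f' hf hf' g l
    rw [← cupl_map]
    have e1 : (fun l' : List J => f (l'.map (g • ·))) = f := funext fun l' => hf g l'
    have e2 : (fun l' : List J => f' (l'.map (g • ·))) = f' := funext fun l' => hf' g l'
    rw [e1, e2]
  have hdkg : ∀ (g : G) (l : List J), dl (l.map (g • ·)) k = dl l k := fun g l => by
    rw [← dl_map]
    exact congrArg _ (funext fun l' => hkg g l')
  refine ⟨fun l => Y (l.map a), V, fun l hl => by simpa using hYm _ hl, fun g l => ?_,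
    fun l => by rw [dl_map a l Y, hdY], fun l hl => ?_, ?_, fun g l => ?_, fun l => ?_⟩
  · show Y _ = Y _
    rw [hmapa, hY]
  · by_contra hne
    apply hl
    show v (l.map a) + (cupl l k u + (cupl l u k + cupl l k (fun l' => dl l' k))) = 0
    have h1 : v (l.map a) = 0 := by
      by_contra h0
      exact hne (by simpa using hvm _ h0)
    have h2 : cupl l k u = 0 := by
      by_contra h0
      have := cupl_deg761 l k u hkm hum h0
      omega
    have h3 : cupl l u k = 0 := by
      by_contra h0
      have := cupl_deg761 l u k hum hkm h0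
      omega
    have h4 : cupl l k (fun l' => dl l' k) = 0 := by
      by_contra h0
      have := cupl_deg761 l k _ hkm hdkm h0
      omega
    rw [h1, h2, h3, h4]; ring
  · show v ([].map a) + (cupl [] k u + (cupl [] u k + cupl [] k (fun l' => dl l' k))) = 0
    rw [List.map_nil, hv0]; simp
  · show v _ + (cupl _ k u + (cupl _ u k + cupl _ k (fun l' => dl l' k))) =
      v _ + (cupl _ k u + (cupl _ u k + cupl _ k (fun l' => dl l' k)))
    rw [hmapa, hv, inv k u hkg hu, inv u k hu hkg, inv k _ hkg hdkg]
  · -- the formula
    have e0 : (fun l' => dl l' u) = fun _ => (0 : ZMod 2) := funext hdu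
    have e1 : dl l (fun l' => cupl l' k u) = cupl l (fun l' => dl l' k) u := by
      rw [dl_cup two, e0, cupl_zero_right, hk0, hu0]; ring
    have e2 : dl l (fun l' => cupl l' u k) = cupl l u (fun l' => dl l' k) := by
      rw [dl_cup two, e0, cupl_zero_left, hk0, hu0]; ring
    have e3 : dl l (fun l' => cupl l' k (fun l'' => dl l'' k)) =
        cupl l (fun l' => dl l' k) (fun l' => dl l' k) := by
      have e4 : (fun l' => dl l' (fun l'' => dl l'' k)) = fun _ => (0 : ZMod 2) :=
        funext fun l' => dl_dl l' k
      rw [dl_cup two, e4, cupl_zero_right, hk0, dl_nil]; ring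
    have hV : dl l V = dl l (fun l' => v (l'.map a)) + (cupl l (fun l' => dl l' k) u +
        (cupl l u (fun l' => dl l' k) + cupl l (fun l' => dl l' k) (fun l' => dl l' k))) := by
      show dl l (fun l' => v (l'.map a) + (cupl l' k u + (cupl l' u k +
        cupl l' k (fun l'' => dl l'' k)))) = _
      rw [dl_add, dl_add, dl_add, e1, e2, e3]
    have hc2 := huu (l.map a)
    have e5 : cupl (l.map a) (fun l => u (l.map b)) (fun l => u (l.map b)) =
        cupl l (fun l' => u (l'.map c)) (fun l' => u (l'.map c)) := by
      rw [← cupl_map]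
      simp only [List.map_map]
      rfl
    have e6 : (fun l' => u (l'.map c)) = fun l' => u l' + dl l' k := by
      funext l'
      rw [hdk, add_comm (u (l'.map c)), ← add_assoc, two, zero_add]
    rw [e5, e6, cupl_add_left, cupl_add_right, cupl_add_right] at hc2
    rw [hV, dl_map a l v]
    have h7 : ((Y (l.map a)).cast : ZMod 2) + dl (l.map a) v = _ := hc2.symm
    rw [← add_assoc, h7]
    generalize cupl l u u = A
    generalize cupl l u (fun l' => dl l' k) = B
    generalize cupl l (fun l' => dl l' k) u = C
    generalize cupl l (fun l' => dl l' k) (fun l' => dl l' k) = D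
    revert A B C D
    decide

/-- equivariant maps out of a free `G`-set -/
theorem exists_eqv761 (hfree : ∀ (g : G) (j : J), g • j = j → g = 1) (c : K) :
    ∃ a : J → K, ∀ (g : G) (j : J), a (g • j) = g • a j := by
  classical
  let r : J → J := fun j => Quotient.out (s := MulAction.orbitRel G J) (Quotient.mk _ j)
  have hr : ∀ j, ∃ g : G, g • r j = j := fun j => by
    have h : (MulAction.orbitRel G J).r (r j) j := Quotient.exact (Quotient.out_eq _)
    have h2 : r j ∈ MulAction.orbit G j := h
    have h3 : j ∈ MulAction.orbit G (r j) := MulAction.mem_orbit_symm.1 h2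
    exact h3
  choose γ hγ using hr
  have hrg : ∀ (g : G) j, r (g • j) = r j := fun g j => by
    show Quotient.out (s := MulAction.orbitRel G J) _ = Quotient.out (s := MulAction.orbitRel G J) _
    congr 1
    exact Quotient.sound (s := MulAction.orbitRel G J) (MulAction.mem_orbit j g)
  refine ⟨fun j => γ j • c, fun g j => ?_⟩
  have h1 : γ (g • j) = g * γ j := by
    have h2 : γ (g • j) • r j = (g * γ j) • r j := by
      rw [mul_smul, hγ j]
      have := hγ (g • j)
      rw [hrg] at this
      exact this
    have h3 : ((g * γ j)⁻¹ * γ (g • j)) • r j = r j := by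
      rw [mul_smul, h2, inv_smul_smul]
    have := hfree _ _ h3
    rw [inv_mul_eq_one] at this
    exact this.symm
  show γ (g • j) • c = g • γ j • c
  rw [h1, mul_smul]

end transfer

/-- **independence of the `G`-set**: it suffices to know `SQ` for one nonempty `G`-set `K` (not even free is
needed if there is an equivariant map `K → J` for every nonempty free `J`; for free `K` there is) -/
theorem SQ_of_free (G : Type) [Group G] (K : Type) [MulAction G K] (k : K)
    (hK : ∀ (g : G) (j : K), g • j = j → g = 1) (h : SQon G K) : SQ G := by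
  intro J _ hfree
  rcases isEmpty_or_nonempty J with hJ | ⟨⟨c⟩⟩
  · intro N hN m u _ _ _
    have hl : ∀ l : List J, l = [] := fun l => by
      rcases l with _ | ⟨x, l⟩
      · rfl
      · exact (hJ.false x).elim
    refine ⟨fun _ => 0, fun _ => 0, fun l h => absurd rfl h, fun _ _ => rfl, fun l => dl_zero l,
      fun l h => absurd rfl h, rfl, fun _ _ => rfl, fun l => ?_⟩
    rw [hl l]
    simp
  · obtain ⟨a, ha⟩ := exists_eqv761 (K := K) hfree k
    obtain ⟨b, hb⟩ := exists_eqv761 (K := J) hK c
    exact SQon_of_maps a b ha hb h

/-- `SQ G` can be checked on `G` itself -/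
theorem SQ_of_self (G : Type) [Group G] (h : SQon G G) : SQ G :=
  SQ_of_free G G 1 (fun g j hg => by simpa using hg) h

/-- **transfer between free sets** for a fixed `G`: from any `SQ`-set to `SQ G` and back -/
theorem SQ_iff_self (G : Type) [Group G] : SQ G ↔ SQon G G :=
  ⟨fun h => h G (fun g j hg => by simpa using hg), SQ_of_self G⟩

end Crest.Agent.R204.SQ803
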