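import Crest.Agent.R204.Tors_947
import Crest.Agent.R204.Deg_718
import Crest.Agent.R204.Norm_76
import Crest.Agent.R204.SQG_334

/-!
# Row 204, block G, lemma SQ: cochains on lists (helper334)

Cochains on the simplex `E J` as functions `List J → A` (augmented, not normalised), with coboundary `dL` and
cup product `cupL` given by recursion; the action of a group; transfer; comparison with `Fs U w`.
-/

set_option autoImplicit false
set_option linter.unusedSectionVars false

namespace Crest.Agent.R204.SQG334

open Finsupp Pont718

variable {J A : Type}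

/-- coboundary on functions of lists -/
def dL [AddCommGroup A] : (List J → A) → List J → A
  | _, [] => 0
  | f, x :: l => f l - dL (fun l' => f (x :: l')) l

/-- cup product on functions of lists -/
def cupL [CommRing A] : (List J → A) → (List J → A) → List J → A
  | _, _, [] => 0
  | f, g, x :: l => f [x] * g (x :: l) + cupL (fun l' => f (x :: l')) g l

section basic
variable [AddCommGroup A]

@[simp] theorem dL_nil (f : List J → A) : dL f [] = 0 := rfl

@[simp] theorem dL_cons (f : List J → A) (x : J) (l : List J) :
    dL f (x :: l) = f l - dL (fun l' => f (x :: l')) l := rfl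

theorem dL_add (f g : List J → A) (l : List J) : dL (f + g) l = dL f l + dL g l := by
  induction l generalizing f g with
  | nil => simp
  | cons x l ih =>
    rw [dL_cons, dL_cons, dL_cons, show (fun l' => (f + g) (x :: l')) =
      (fun l' => f (x :: l')) + (fun l' => g (x :: l')) from rfl, ih, Pi.add_apply]
    abel

theorem dL_zero (l : List J) : dL (0 : List J → A) l = 0 := by
  induction l with
  | nil => rfl
  | cons x l ih => rw [dL_cons, show (fun l' => (0 : List J → A) (x :: l')) = 0 from rfl, ih]; simp

theorem dL_hom {B : Type} [AddCommGroup B] (φ : A →+ B) (f : List J → A) (l : List J) :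
    dL (fun l => φ (f l)) l = φ (dL f l) := by
  induction l generalizing f with
  | nil => simp
  | cons x l ih => rw [dL_cons, dL_cons, ih (fun l' => f (x :: l')), map_sub]

theorem dL_neg (f : List J → A) (l : List J) : dL (-f) l = -dL f l :=
  dL_hom (-(AddMonoidHom.id A)) f l

theorem dL_sub (f g : List J → A) (l : List J) : dL (f - g) l = dL f l - dL g l := by
  rw [sub_eq_add_neg, dL_add, dL_neg, sub_eq_add_neg]

theorem dL_nsmul (n : ℕ) (f : List J → A) (l : List J) : dL (n • f) l = n • dL f l :=
  dL_hom (nsmulAddMonoidHom n) f l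

theorem dL_sum {ι : Type*} (s : Finset ι) (f : ι → List J → A) (l : List J) :
    dL (fun l => ∑ i ∈ s, f i l) l = ∑ i ∈ s, dL (f i) l := by
  classical
  induction s using Finset.induction_on with
  | empty => simp only [Finset.sum_empty]; exact dL_zero l
  | insert a s ha ih =>
    rw [Finset.sum_insert ha, ← ih, ← dL_add]
    congr 1
    funext l'
    rw [Finset.sum_insert ha]; rfl

theorem dL_map {J' : Type} (φ : J → J') (f : List J' → A) (l : List J) :
    dL (fun l => f (l.map φ)) l = dL f (l.map φ) := by
  induction l generalizing f with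
  | nil => rfl
  | cons x l ih => rw [dL_cons, List.map_cons, dL_cons, ← ih (fun l' => f (φ x :: l'))]; rfl

theorem dL_dL (f : List J → A) (l : List J) : dL (dL f) l = 0 := by
  induction l generalizing f with
  | nil => rfl
  | cons x l ih =>
    rw [dL_cons, show (fun l' => dL f (x :: l')) = f - dL (fun l' => f (x :: l')) from rfl, dL_sub, ih]
    abel

end basic

section cup
variable [CommRing A]

@[simp] theorem cupL_nil (f g : List J → A) : cupL f g [] = 0 := rfl

@[simp] theorem cupL_cons (f g : List J → A) (x : J) (l : List J) :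
    cupL f g (x :: l) = f [x] * g (x :: l) + cupL (fun l' => f (x :: l')) g l := rfl

theorem cupL_map {J' : Type} (φ : J → J') (f g : List J' → A) (l : List J) :
    cupL (fun l => f (l.map φ)) (fun l => g (l.map φ)) l = cupL f g (l.map φ) := by
  induction l generalizing f with
  | nil => rfl
  | cons x l ih =>
    change f [φ x] * g (φ x :: l.map φ) + cupL (fun l' => f (φ x :: l'.map φ)) (fun l => g (l.map φ)) l =
      f [φ x] * g (φ x :: l.map φ) + cupL (fun l' => f (φ x :: l')) g (l.map φ)
    rw [ih (fun l' => f (φ x :: l'))]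

end cup

/-! ## degrees -/

/-- `f` lives on lists of length `n` -/
def DgL [Zero A] (n : ℕ) (f : List J → A) : Prop := ∀ l : List J, l.length ≠ n → f l = 0

/-! ## group actions -/

section action
variable (G : Type) [Group G] [MulAction G J]

/-- `f` is invariant -/
def InvL (f : List J → A) : Prop := ∀ (g : G) (l : List J), f (l.map (g • ·)) = f l

end action

/-- **SQ(G)** for the coefficient homomorphism `ρ : R → F2`: the square of every invariant cocycle lifts. -/
def SQ {R : Type} [CommRing R] (ρ : R →+* F2) (G : Type) [Group G] : Prop :=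
  ∀ (J : Type) [MulAction G J], (∀ (g : G) (j : J), g • j = j → g = 1) → ∀ (m : ℕ) (u : List J → F2),
    InvL G u → DgL (m + 1) u → (∀ l, dL u l = 0) →
    ∃ (Y : List J → R) (v : List J → F2), InvL G Y ∧ InvL G v ∧ DgL (2 * m + 1) Y ∧ DgL (2 * m) v ∧
      (∀ l, dL Y l = 0) ∧ ∀ l, cupL u u l = ρ (Y l) + dL v l

/-! ## transfer -/

section transfer
variable {G : Type} [Group G] [MulAction G J] [AddCommGroup A]

/-- translate -/
def tL (g : G) (f : List J → A) : List J → A := fun l => f (l.map (g⁻¹ • ·))

theorem tL_mul_mem {H : Subgroup G} {f : List J → A} (hf : InvL H f) (g : G) (h : H) (l : List J) :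
    tL (g * (h : G)) f l = tL g f l := by
  unfold tL
  have := hf h⁻¹ (l.map (g⁻¹ • ·))
  rw [← this, List.map_map]
  congr 1
  refine List.map_congr_left fun x _ => ?_
  simp [mul_smul, Subgroup.smul_def]

theorem tL_out {H : Subgroup G} {f : List J → A} (hf : InvL H f) (g : G) (l : List J) :
    tL ((QuotientGroup.mk g : G ⧸ H).out) f l = tL g f l := by
  obtain ⟨h, hh⟩ := QuotientGroup.mk_out_eq_mul H g
  rw [hh]; exact tL_mul_mem hf g h l

theorem tL_smul {f : List J → A} (s g : G) (l : List J) : tL g f (l.map (s • ·)) = tL (s⁻¹ * g) f l := by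
  unfold tL
  rw [List.map_map]
  congr 1
  refine List.map_congr_left fun x _ => ?_
  simp [mul_smul]

variable (H : Subgroup G) [Fintype (G ⧸ H)]

/-- transfer -/
noncomputable def trL (f : List J → A) : List J → A := fun l => ∑ q : G ⧸ H, tL q.out f l

theorem trL_inv {f : List J → A} (hf : InvL H f) : InvL G (trL H f) := by
  intro s l
  unfold trL
  have h1 : ∀ q : G ⧸ H, tL q.out f (l.map (s • ·)) = tL ((s⁻¹ • q).out) f l := by
    intro q
    rw [tL_smul]
    conv_rhs => rw [← QuotientGroup.out_eq' q]
    exact (tL_out hf (s⁻¹ * q.out) l).symm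
  rw [Finset.sum_congr rfl fun q _ => h1 q]
  exact Fintype.sum_equiv (MulAction.toPerm s⁻¹) _ _ fun q => rfl

theorem trL_dL (f : List J → A) (l : List J) : dL (trL H f) l = trL H (dL f) l := by
  unfold trL
  rw [dL_sum]
  refine Finset.sum_congr rfl fun q _ => ?_
  exact dL_map _ f l

theorem trL_of_inv {f : List J → A} (hf : InvL G f) (l : List J) : trL H f l = H.index • f l := by
  unfold trL
  have h1 : ∀ q : G ⧸ H, tL q.out f l = f l := fun q => hf _ l
  rw [Finset.sum_congr rfl fun q _ => h1 q, Finset.sum_const, Finset.card_univ, Subgroup.index,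
    Nat.card_eq_fintype_card]

theorem trL_dg {n : ℕ} {f : List J → A} (hf : DgL n f) : DgL n (trL H f) := by
  intro l hl
  unfold trL tL
  refine Finset.sum_eq_zero fun q _ => ?_
  exact hf _ (by rw [List.length_map]; exact hl)

end transfer

theorem sq_odd {R : Type} [CommRing R] (ρ : R →+* F2) (G : Type) [Group G] (H : Subgroup G) (hH : Odd H.index)
    (h : SQ ρ H) : SQ ρ G := by
  classical
  intro J _ hfree m u hu hum hdu
  have : Finite (G ⧸ H) := by
    refine Nat.finite_of_card_ne_zero ?_
    have := hH.pos.ne'
    exact this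
  let _ : Fintype (G ⧸ H) := Fintype.ofFinite _
  obtain ⟨Y, v, hY, hv, hYm, hvm, hdY, huu⟩ := h J (fun g j hg => by
    have := hfree (g : G) j hg
    exact Subtype.ext this) m u (fun g l => hu (g : G) l) hum hdu
  refine ⟨trL H Y, trL H v, trL_inv H hY, trL_inv H hv, trL_dg H hYm, trL_dg H hvm, fun l => ?_, fun l => ?_⟩
  · rw [trL_dL, show dL Y = 0 from funext hdY]
    unfold trL tL
    exact Finset.sum_eq_zero fun q _ => rfl
  · rw [trL_dL]
    have h1 : trL H (cupL u u) l = cupL u u l := by
      rw [trL_of_inv H (fun g l => ?_) l]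
      · obtain ⟨k, hk⟩ := hH
        rw [hk, add_smul, one_smul, mul_smul, two_nsmul, CharTwo.add_self_eq_zero, zero_add]
      · rw [← cupL_map]
        have : (fun l : List J => u (l.map (g • ·))) = u := funext fun l => hu g l
        rw [this]
    rw [← h1]
    unfold trL tL
    rw [map_sum, ← Finset.sum_add_distrib]
    exact Finset.sum_congr rfl fun q _ => huu _

theorem sq_iso {R : Type} [CommRing R] (ρ : R →+* F2) (G H : Type) [Group G] [Group H] (e : G ≃* H)
    (h : SQ ρ G) : SQ ρ H := by
  intro J _ hfree m u hu hum hdu
  let _ : MulAction G J := MulAction.compHom J (e : G →* H)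
  have hs : ∀ (g : G) (j : J), g • j = e g • j := fun _ _ => rfl
  obtain ⟨Y, v, hY, hv, hYm, hvm, hdY, huu⟩ := h J (fun g j hg => by
    rw [hs] at hg
    have := hfree _ _ hg
    exact (map_eq_one_iff e e.injective).1 this) m u (fun g l => hu (e g) l) hum hdu
  refine ⟨Y, v, fun g l => ?_, fun g l => ?_, hYm, hvm, hdY, huu⟩
  · have := hY (e.symm g) l
    simpa only [hs, e.apply_symm_apply] using this
  · have := hv (e.symm g) l
    simpa only [hs, e.apply_symm_apply] using this

end Crest.Agent.R204.SQG334
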