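import Crest.Agent.R204.SQP_334

/-!
# Row 204, block G, lemma SQ: the product step, part 2 (helper334): `ι` and `κ`
-/

set_option autoImplicit false
set_option linter.unusedSectionVars false

namespace Crest.Agent.R204.SQP334

open SQ803 SQ803.Co

section plain
variable {J X Y : Type} {n : ℕ}

/-- constant in the last two variables -/
def io : (List J → ZMod n) →+ F3L J X Y n where
  toFun u := fun j x y => if x.length = 1 ∧ y.length = 1 then u j else 0
  map_zero' := by funext j x y; simp
  map_add' u v := by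
    funext j x y
    simp only [Pi.add_apply]
    split_ifs <;> simp

theorem io_apply (u : List J → ZMod n) (j : List J) (x : List X) (y : List Y) :
    io u j x y = if x.length = 1 ∧ y.length = 1 then u j else 0 := rfl

/-- constant in the first variable -/
def ka : F2L X Y n →+ F3L J X Y n where
  toFun f := fun j x y => if j.length = 1 then f x y else 0
  map_zero' := by funext j x y; simp
  map_add' u v := by
    funext j x y
    simp only [Pi.add_apply]
    split_ifs <;> simp

theorem ka_apply (f : F2L X Y n) (j : List J) (x : List X) (y : List Y) :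
    ka f j x y = if j.length = 1 then f x y else 0 := rfl

/-- differential of one-variable functions -/
def D1 : (List J → ZMod n) →+ (List J → ZMod n) where
  toFun u := fun j => dl j u
  map_zero' := by funext j; exact dl_zero j
  map_add' u v := by funext j; exact dl_add j u v

theorem D1_apply (u : List J → ZMod n) (j : List J) : D1 u j = dl j u := rfl

theorem dl_ind (M : Type) [AddCommGroup M] (u : List J → M) (j : List J) (c : M) :
    dl j (fun j' => if j'.length = 1 then c else 0) = 0 := dl_kap c j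

theorem D3_io (u : List J → ZMod n) : D3 (io u : F3L J X Y n) = io (D1 u) := by
  funext j x y
  rw [D3_apply, D2_apply]
  have h1 : dl x (fun x' => io u j x' y) = 0 := by
    have : (fun x' : List X => (io u j x' y : ZMod n)) =
        fun x' => if x'.length = 1 then (if y.length = 1 then u j else 0) else 0 := by
      funext x'
      rw [io_apply]
      by_cases h : x'.length = 1 <;> by_cases h' : y.length = 1 <;> simp [h, h']
    rw [this]
    exact dl_ind (J := X) (ZMod n) (fun _ => 0) x _
  have h2 : dl y (fun y' => io u j x y') = 0 := by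
    have : (fun y' : List Y => (io u j x y' : ZMod n)) =
        fun y' => if y'.length = 1 then (if x.length = 1 then u j else 0) else 0 := by
      funext y'
      rw [io_apply]
      by_cases h : x.length = 1 <;> by_cases h' : y'.length = 1 <;> simp [h, h']
    rw [this]
    exact dl_ind (J := Y) (ZMod n) (fun _ => 0) y _
  rw [h1, h2, smul_zero, add_zero, smul_zero, add_zero, io_apply, D1_apply]
  simp only [io_apply]
  split_ifs
  · rfl
  · exact dl_zero j

theorem D3_ka (f : F2L X Y n) : D3 (ka f : F3L J X Y n) = ka (D2 f) := by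
  funext j x y
  rw [D3_apply]
  have h1 : dl j (fun j' => ka f j' x y) = 0 := dl_ind (J := J) (ZMod n) (fun _ => 0) j (f x y)
  rw [h1, zero_add, ka_apply]
  split_ifs with h
  · have : ka f j = f := by funext x y; rw [ka_apply, if_pos h]
    rw [this, h]
    simp [sg]
  · have : ka f j = 0 := by funext x y; rw [ka_apply, if_neg h]; rfl
    rw [this, map_zero]; simp

/-- normalised: `u [] = 0` -/
theorem D1_nil (u : List J → ZMod n) : D1 u [] = 0 := rfl

/-- bounded -/
def Bd1 (u : List J → ZMod n) : Prop := ∃ N : ℕ, ∀ j, N < j.length → u j = 0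
/-- bounded -/
def Bd2 (f : F2L X Y n) : Prop := ∃ N : ℕ, ∀ x y, N < x.length + y.length → f x y = 0

end plain

section grp
variable {J D E : Type} [Group D] [Group E] [MulAction (D × E) J] {n : ℕ}

variable (J D E n) in
/-- normalised bounded invariant one-variable cochains -/
def P1 : AddSubgroup (List J → ZMod n) where
  carrier := {u | u [] = 0 ∧ (∀ (g : D × E) (j : List J), u (j.map (g • ·)) = u j) ∧ Bd1 u}
  zero_mem' := ⟨rfl, fun _ _ => rfl, 0, fun _ _ => rfl⟩
  add_mem' := by
    rintro u v ⟨h1, h2, N, h3⟩ ⟨h1', h2', N', h3'⟩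
    refine ⟨?_, fun g j => ?_, max N N', fun j hj => ?_⟩
    · show u [] + v [] = 0
      rw [h1, h1', add_zero]
    · show u _ + v _ = u j + v j
      rw [h2, h2']
    · show u j + v j = 0
      rw [h3 _ (lt_of_le_of_lt (le_max_left _ _) hj), h3' _ (lt_of_le_of_lt (le_max_right _ _) hj), add_zero]
  neg_mem' := by
    rintro u ⟨h1, h2, N, h3⟩
    refine ⟨?_, fun g j => ?_, N, fun j hj => ?_⟩
    · show -(u []) = 0
      rw [h1, neg_zero]
    · show -(u _) = -(u j)
      rw [h2]
    · show -(u j) = 0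
      rw [h3 _ hj, neg_zero]

theorem mem_P1 {u : List J → ZMod n} : u ∈ P1 J D E n ↔
    u [] = 0 ∧ (∀ (g : D × E) (j : List J), u (j.map (g • ·)) = u j) ∧ Bd1 u := Iff.rfl

variable (D E n) in
/-- normalised bounded invariant two-variable cochains -/
def P2 : AddSubgroup (F2L D E n) where
  carrier := {f | Nz2 f ∧ Inv2 f ∧ Bd2 f}
  zero_mem' := ⟨⟨fun _ => rfl, fun _ => rfl⟩, fun _ _ _ _ => rfl, 0, fun _ _ _ => rfl⟩
  add_mem' := by
    rintro u v ⟨h1, h2, N, h3⟩ ⟨h1', h2', N', h3'⟩
    refine ⟨⟨fun y => ?_, fun x => ?_⟩, fun a b x y => ?_, max N N', fun x y hj => ?_⟩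
    · show u _ _ + v _ _ = 0
      rw [h1.1, h1'.1, add_zero]
    · show u _ _ + v _ _ = 0
      rw [h1.2, h1'.2, add_zero]
    · show u _ _ + v _ _ = u x y + v x y
      rw [h2, h2']
    · show u x y + v x y = 0
      rw [h3 _ _ (lt_of_le_of_lt (le_max_left _ _) hj), h3' _ _ (lt_of_le_of_lt (le_max_right _ _) hj), add_zero]
  neg_mem' := by
    rintro u ⟨h1, h2, N, h3⟩
    refine ⟨⟨fun y => ?_, fun x => ?_⟩, fun a b x y => ?_, N, fun x y hj => ?_⟩
    · show -(u _ _) = 0
      rw [h1.1, neg_zero]
    · show -(u _ _) = 0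
      rw [h1.2, neg_zero]
    · show -(u _ _) = -(u x y)
      rw [h2]
    · show -(u x y) = 0
      rw [h3 _ _ hj, neg_zero]

theorem mem_P2 {f : F2L D E n} : f ∈ P2 D E n ↔ Nz2 f ∧ Inv2 f ∧ Bd2 f := Iff.rfl

theorem D1_mem {u : List J → ZMod n} (h : u ∈ P1 J D E n) : D1 u ∈ P1 J D E n := by
  obtain ⟨h1, h2, N, h3⟩ := h
  refine ⟨rfl, fun g j => ?_, N + 1, fun j hj => ?_⟩
  · rw [D1_apply, ← dl_map]
    simp only [h2]
    rfl
  · rw [D1_apply]
    exact dl_eq_zero fun j' hj' => h3 _ (by omega)

theorem D2_mem {f : F2L D E n} (h : f ∈ P2 D E n) : D2 f ∈ P2 D E n := by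
  obtain ⟨h1, h2, N, h3⟩ := h
  refine ⟨h1.D2, fun a b x y => ?_, N + 1, fun x y hj => ?_⟩
  · exact inv_D2 (g := (a, b)) (fun x y => h2 a b x y) x y
  · rw [D2_apply, dl_eq_zero fun x' hx' => h3 _ _ (by omega), dl_eq_zero fun y' hy' => h3 _ _ (by omega)]
    simp

theorem io_mem {u : List J → ZMod n} (h : u ∈ P1 J D E n) : (io u : F3L J D E n) ∈ P3 J D E n := by
  obtain ⟨h1, h2, N, h3⟩ := h
  refine ⟨⟨fun x y => ?_, fun j => ⟨fun y => ?_, fun x => ?_⟩⟩, fun g j x y => ?_, N + 2, fun j x y hj => ?_⟩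
  · rw [io_apply, h1]; simp
  · rw [io_apply]; simp
  · rw [io_apply]; simp
  · rw [io_apply, io_apply, h2, List.length_map, List.length_map]
  · rw [io_apply]
    split_ifs with h
    · exact h3 _ (by omega)
    · rfl

theorem ka_mem {f : F2L D E n} (h : f ∈ P2 D E n) : (ka f : F3L J D E n) ∈ P3 J D E n := by
  obtain ⟨h1, h2, N, h3⟩ := h
  refine ⟨⟨fun x y => ?_, fun j => ⟨fun y => ?_, fun x => ?_⟩⟩, fun g j x y => ?_, N + 1, fun j x y hj => ?_⟩
  · rw [ka_apply]; simp
  · rw [ka_apply, h1.1]; simp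
  · rw [ka_apply, h1.2]; simp
  · rw [ka_apply, ka_apply, h2, List.length_map]
  · rw [ka_apply]
    split_ifs with h
    · exact h3 _ _ (by omega)
    · rfl

/-- pushing down the `S`-level -/
theorem downS (φ : J → D × E) (hφ : ∀ g j, φ (g • j) = g * φ j) {F : F3L J D E n} (hF : F ∈ P3 J D E n)
    (h : ∀ k > 3, cS k (D3 F) = 0) :
    ∃ F' ∈ P3 J D E n, ∃ H ∈ P3 J D E n, F = F' + D3 H ∧ ∀ k > 2, cS k F' = 0 := by
  obtain ⟨N, hN⟩ := hF.2.2
  refine dc D3 DS D3_D3 cS (P3 J D E n) (P3 J D E n) 2 (fun H hH => D3_mem hH)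
    (fun k F hF => cS_mem k F hF) (fun F K _ h => cS_top F K h) cS_idem (fun j k F hjk => cS_ne j k F hjk)
    (fun k hk G hG hc hd => exS φ hφ k hk G hG hc hd) N F hF ?_ h
  intro k hk
  funext j x y
  rw [cS_apply]
  split_ifs with hl
  · exact hN _ _ _ (by omega)
  · rfl

/-- pushing down the `J`-level -/
theorem downJ (j0 : J) {F : F3L J D E n} (hF : F ∈ P3 J D E n)
    (h : ∀ k > 2, cJ k (D3 F) = 0) :
    ∃ F' ∈ P3 J D E n, ∃ H ∈ P3 J D E n, F = F' + D3 H ∧ ∀ k > 1, cJ k F' = 0 := by
  obtain ⟨N, hN⟩ := hF.2.2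
  refine dc D3 DJ D3_D3 cJ (P3 J D E n) (P3 J D E n) 1 (fun H hH => D3_mem hH)
    (fun k F hF => cJ_mem k F hF) (fun F K _ h => cJ_top F K h) cJ_idem (fun j k F hjk => cJ_ne j k F hjk)
    (fun k hk G hG hc hd => exJ j0 k hk G hG hc hd) N F hF ?_ h
  intro k hk
  funext j x y
  rw [cJ_apply]
  split_ifs with hl
  · exact hN _ _ _ (by omega)
  · rfl

/-- a cochain of `S`-level `≤ 2` whose differential has no level 3 part is in the image of `ι` -/
theorem exists_io {F : F3L J D E n} (hF : F ∈ P3 J D E n) (h2 : ∀ k > 2, cS k F = 0)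
    (h3 : cS 3 (D3 F) = 0) : ∃ u ∈ P1 J D E n, F = io u := by
  obtain ⟨h1, hi, N, hN⟩ := hF
  have hlev : ∀ j x y, ¬ (x.length = 1 ∧ y.length = 1) → F j x y = 0 := by
    intro j x y hxy
    by_cases hk : x.length + y.length > 2
    · have := congrFun (congrFun (congrFun (h2 _ hk) j) x) y
      rw [cS_apply, if_pos rfl] at this
      exact this
    · rcases x with _ | ⟨a, x⟩
      · exact (h1.2 j).1 y
      · rcases y with _ | ⟨b, y⟩
        · exact (h1.2 j).2 _
        · exfalso
          simp only [List.length_cons] at hk hxy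
          omega
  have hlev3 : ∀ j x y, x.length + y.length = 3 → sg j.length • D2 (F j) x y = 0 := by
    intro j x y hxy
    have := congrFun (congrFun (congrFun h3 j) x) y
    rw [cS_apply, if_pos hxy, D3_apply] at this
    have e : dl j (fun j' => F j' x y) = 0 := by
      refine dl_eq_zero fun j' _ => hlev _ _ _ (by omega)
    rw [e, zero_add] at this
    exact this
  have hD2 : ∀ j x y, x.length + y.length = 3 → D2 (F j) x y = 0 := by
    intro j x y hxy
    have h4 : sg j.length • (sg j.length • D2 (F j) x y) = 0 := by rw [hlev3 j x y hxy]; simp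
    rwa [smul_smul, sg_mul_self, one_smul] at h4
  have hx : ∀ j (a a' : D) (b : E), F j [a] [b] = F j [a'] [b] := by
    intro j a a' b
    have := hD2 j [a, a'] [b] rfl
    rw [D2_apply] at this
    simp only [dl_cons, dl_nil, sub_zero] at this
    rw [(h1.2 j).2] at this
    simp only [smul_zero, add_zero] at this
    rw [sub_eq_zero] at this
    exact this.symm
  have hy : ∀ j (a : D) (b b' : E), F j [a] [b] = F j [a] [b'] := by
    intro j a b b'
    have := hD2 j [a] [b, b'] rfl
    rw [D2_apply] at this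
    simp only [dl_cons, dl_nil, sub_zero] at this
    rw [(h1.2 j).1] at this
    simp only [zero_add] at this
    have hs : sg ([a] : List D).length = 1 := by simp [sg]
    rw [hs, one_smul, sub_eq_zero] at this
    exact this.symm
  refine ⟨fun j => F j [1] [1], ⟨h1.1 _ _, fun g j => ?_, N, fun j hj => ?_⟩, ?_⟩
  · have := hi g j [1] [1]
    simp only [List.map_cons, List.map_nil, mul_one] at this
    show F (j.map (g • ·)) [1] [1] = F j [1] [1]
    rw [← this, hx _ 1 g.1, hy _ _ 1 g.2]
  · exact hN _ _ _ (by omega)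
  · funext j x y
    rw [io_apply]
    split_ifs with h
    · obtain ⟨a, rfl⟩ := List.length_eq_one_iff.1 h.1
      obtain ⟨b, rfl⟩ := List.length_eq_one_iff.1 h.2
      rw [hx j a 1 b, hy j 1 b 1]
    · exact hlev _ _ _ h

theorem io_injective {u v : List J → ZMod n} (h : (io u : F3L J D E n) = io v) : u = v := by
  funext j
  have := congrFun (congrFun (congrFun h j) [1]) [1]
  rw [io_apply, io_apply, if_pos ⟨rfl, rfl⟩, if_pos ⟨rfl, rfl⟩] at this
  exact this

/-- **F1, surjectivity** -/
theorem io_surj (φ : J → D × E) (hφ : ∀ g j, φ (g • j) = g * φ j) {F : F3L J D E n} (hF : F ∈ P3 J D E n)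
    (h : D3 F = 0) : ∃ u ∈ P1 J D E n, D1 u = 0 ∧ ∃ H ∈ P3 J D E n, F = io u + D3 H := by
  obtain ⟨F', hF', H, hH, e, h2⟩ := downS φ hφ hF (fun k _ => by rw [h, map_zero])
  have hF0 : D3 F' = 0 := by
    have := congrArg (D3 (n := n)) e
    rw [h, map_add, D3_D3, add_zero] at this
    exact this.symm
  obtain ⟨u, hu, rfl⟩ := exists_io hF' h2 (by rw [hF0, map_zero])
  refine ⟨u, hu, ?_, H, hH, e⟩
  rw [D3_io] at hF0
  apply io_injective (D := D) (E := E)
  rw [hF0, map_zero]

/-- **F1, injectivity** -/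
theorem io_inj (φ : J → D × E) (hφ : ∀ g j, φ (g • j) = g * φ j) {u : List J → ZMod n}
    {H : F3L J D E n} (hH : H ∈ P3 J D E n) (h : D3 H = io u) : ∃ v ∈ P1 J D E n, D1 v = u := by
  have hio : ∀ k > 2, cS k (io u : F3L J D E n) = 0 := by
    intro k hk
    funext j x y
    rw [cS_apply, io_apply]
    split_ifs with h1 h2
    · omega
    · rfl
    · rfl
  obtain ⟨F', hF', H', hH', e, h2⟩ := downS φ hφ hH (fun k hk => by rw [h]; exact hio k (by omega))
  have h3 : D3 F' = io u := by
    rw [← h, e, map_add, D3_D3, add_zero]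
  obtain ⟨v, hv, rfl⟩ := exists_io hF' h2 (by rw [h3]; exact hio 3 (by omega))
  refine ⟨v, hv, ?_⟩
  rw [D3_io] at h3
  exact io_injective (D := D) (E := E) h3

/-- **F2** -/
theorem ka_surj (j0 : J) {F : F3L J D E n} (hF : F ∈ P3 J D E n)
    (h : D3 F = 0) : ∃ f ∈ P2 D E n, D2 f = 0 ∧ ∃ H ∈ P3 J D E n, F = ka f + D3 H := by
  obtain ⟨F', hF', H, hH, e, h2⟩ := downJ j0 hF (fun k _ => by rw [h, map_zero])
  have hF0 : D3 F' = 0 := by
    have := congrArg (D3 (n := n)) e
    rw [h, map_add, D3_D3, add_zero] at this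
    exact this.symm
  obtain ⟨h1, hi, N, hN⟩ := hF'
  have hlev : ∀ j x y, j.length ≠ 1 → F' j x y = 0 := by
    intro j x y hj
    rcases j with _ | ⟨a, j⟩
    · exact h1.1 x y
    · have hj2 : (a :: j).length > 1 := by
        rw [List.length_cons] at hj ⊢; omega
      have := congrFun (congrFun (congrFun (h2 (a :: j).length hj2) (a :: j)) x) y
      rw [cJ_apply, if_pos rfl] at this
      exact this
  have hc : ∀ a b x y, F' [a] x y = F' [b] x y := by
    intro a b x y
    have := congrFun (congrFun (congrFun hF0 [a, b]) x) y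
    rw [D3_apply] at this
    have e2 : F' [a, b] = 0 := by funext x y; exact hlev _ _ _ (by simp)
    rw [e2, map_zero] at this
    simp only [dl_cons, dl_nil, sub_zero, Pi.zero_apply, smul_zero, add_zero] at this
    rw [sub_eq_zero] at this
    exact this.symm
  have e3 : F' = ka (F' [j0]) := by
    funext j x y
    rw [ka_apply]
    split_ifs with h
    · obtain ⟨a, rfl⟩ := List.length_eq_one_iff.1 h
      exact hc _ _ _ _
    · exact hlev _ _ _ h
  refine ⟨F' [j0], ⟨h1.2 _, fun a b x y => ?_, N, fun x y hxy => hN _ _ _ (by simp; omega)⟩, ?_, H, hH, ?_⟩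
  · have := hi (a, b) [j0] x y
    simp only [List.map_cons, List.map_nil] at this
    rw [← this]
    exact hc _ _ _ _
  · rw [e3, D3_ka] at hF0
    funext x y
    have := congrFun (congrFun (congrFun hF0 [j0]) x) y
    rw [ka_apply, if_pos (show [j0].length = 1 from rfl)] at this
    exact this
  · rw [← e3]; exact e

end grp

end Crest.Agent.R204.SQP334
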