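import Crest.Agent.R204.SQP2_334

/-!
# Row 204, block G, lemma SQ: the product step, part 3 (helper334): Kuenneth decomposition
-/

set_option autoImplicit false
set_option linter.unusedSectionVars false

namespace Crest.Agent.R204.SQP334

open SQ803 SQ803.Co

section kun
variable {D E : Type} [Group D] [Group E]

/-- invariant homogeneous cocycles of length `p` (degree `p - 1`) -/
structure IsC (G : Type) [Group G] (p : ℕ) (a : List G → ZMod 2) : Prop where
  nil : a [] = 0
  len : ∀ l, a l ≠ 0 → l.length = p
  inv : ∀ (g : G) (l : List G), a (l.map (g * ·)) = a l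
  cyc : ∀ l, dl l a = 0

/-- external product -/
def ten {n : ℕ} (a : List D → ZMod n) (b : List E → ZMod n) : F2L D E n := fun x y => a x * b y

theorem D2_ten {n : ℕ} (a : List D → ZMod n) (b : List E → ZMod n) (x : List D) (y : List E) :
    D2 (ten a b) x y = dl x a * b y + sg x.length • (a x * dl y b) := by
  rw [D2_apply]
  have h1 : dl x (fun x' => ten a b x' y) = dl x a * b y :=
    dl_hom (AddMonoidHom.mulRight (b y)) x a
  have h2 : dl y (fun y' => ten a b x y') = a x * dl y b :=
    dl_hom (AddMonoidHom.mulLeft (a x)) y b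
  rw [h1, h2]

/-- the space of invariant functions on lists of length `q` -/
def VV (E : Type) [Group E] (q : ℕ) : Submodule (ZMod 2) (List E → ZMod 2) where
  carrier := {b | (∀ l, l.length ≠ q → b l = 0) ∧ b [] = 0 ∧ ∀ (g : E) (l : List E), b (l.map (g * ·)) = b l}
  zero_mem' := ⟨fun _ _ => rfl, rfl, fun _ _ => rfl⟩
  add_mem' := by
    rintro a b ⟨h1, h2, h3⟩ ⟨h1', h2', h3'⟩
    refine ⟨fun l hl => ?_, ?_, fun g l => ?_⟩
    · show a l + b l = 0
      rw [h1 l hl, h1' l hl, add_zero]
    · show a [] + b [] = 0
      rw [h2, h2', add_zero]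
    · show a _ + b _ = a l + b l
      rw [h3, h3']
  smul_mem' := by
    rintro r a ⟨h1, h2, h3⟩
    refine ⟨fun l hl => ?_, ?_, fun g l => ?_⟩
    · show r * a l = 0
      rw [h1 l hl, mul_zero]
    · show r * a [] = 0
      rw [h2, mul_zero]
    · show r * a _ = r * a l
      rw [h3]

theorem VV_finite [Finite E] (q : ℕ) : Module.Finite (ZMod 2) (VV E q) := by
  have : Finite {l : List E // l.length = q} := by
    have : Fintype E := Fintype.ofFinite E
    exact inferInstanceAs (Finite (List.Vector E q))
  let res : VV E q →ₗ[ZMod 2] ({l : List E // l.length = q} → ZMod 2) :=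
    { toFun := fun b l => b.1 l.1
      map_add' := fun _ _ => rfl
      map_smul' := fun _ _ => rfl }
  refine Module.Finite.of_injective res ?_
  intro a b h
  apply Subtype.ext
  funext l
  by_cases hl : l.length = q
  · exact congrFun h ⟨l, hl⟩
  · rw [a.2.1 l hl, b.2.1 l hl]

/-- the differential on the spaces `VV` -/
def dV (q : ℕ) : VV E q →ₗ[ZMod 2] VV E (q + 1) where
  toFun b := ⟨fun l => dl l b.1, by
    refine ⟨fun l hl => ?_, rfl, fun g l => ?_⟩
    · exact dl_eq_zero fun l' hl' => b.2.1 l' (by omega)
    · show dl (l.map (g * ·)) b.1 = dl l b.1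
      rw [← dl_map]
      simp only [b.2.2.2]⟩
  map_add' a b := Subtype.ext (funext fun l => dl_add l a.1 b.1)
  map_smul' r a := Subtype.ext (funext fun l => dl_hom (AddMonoidHom.mulLeft r) l a.1)

theorem dV_apply (q : ℕ) (b : VV E q) (l : List E) : (dV q b).1 l = dl l b.1 := rfl

theorem dV_dV (q : ℕ) (b : VV E q) : dV (q + 1) (dV q b) = 0 :=
  Subtype.ext (funext fun l => dl_dl l b.1)

/-- a section `T` of the differential: `dV (T b) = b` for boundaries `b` -/
theorem exists_section (q : ℕ) : ∃ T : VV E (q + 1) →ₗ[ZMod 2] VV E q, ∀ b, dV q (T (dV q b)) = dV q b := by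
  obtain ⟨s, hs⟩ := LinearMap.exists_rightInverse_of_surjective (dV (E := E) q).rangeRestrict
    (LinearMap.range_rangeRestrict _)
  obtain ⟨T, hT⟩ := LinearMap.exists_extend s
  refine ⟨T, fun b => ?_⟩
  have h1 : T (dV q b) = s ⟨dV q b, b, rfl⟩ := by
    rw [← hT]; rfl
  rw [h1]
  have h2 := LinearMap.congr_fun hs ⟨dV q b, b, rfl⟩
  exact congrArg Subtype.val h2

/-- decomposition of a cocycle -/
def Dec (f : F2L D E 2) : Prop :=
  ∃ (s : ℕ) (p q : Fin s → ℕ) (a : Fin s → List D → ZMod 2) (b : Fin s → List E → ZMod 2),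
    (∀ i, IsC D (p i) (a i) ∧ IsC E (q i) (b i)) ∧ ∃ h ∈ P2 D E 2, f = (∑ i, ten (a i) (b i)) + D2 h

theorem Dec.zero : Dec (0 : F2L D E 2) :=
  ⟨0, Fin.elim0, Fin.elim0, Fin.elim0, Fin.elim0, fun i => i.elim0, 0, (P2 D E 2).zero_mem, by simp⟩

theorem Dec.add {f g : F2L D E 2} (hf : Dec f) (hg : Dec g) : Dec (f + g) := by
  obtain ⟨s, p, q, a, b, hab, h, hh, e⟩ := hf
  obtain ⟨s', p', q', a', b', hab', h', hh', e'⟩ := hg
  refine ⟨s + s', Fin.append p p', Fin.append q q', Fin.append a a', Fin.append b b', fun i => ?_,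
    h + h', (P2 D E 2).add_mem hh hh', ?_⟩
  · refine Fin.addCases (fun i => ?_) (fun i => ?_) i
    · rw [Fin.append_left, Fin.append_left, Fin.append_left, Fin.append_left]; exact hab i
    · rw [Fin.append_right, Fin.append_right, Fin.append_right, Fin.append_right]; exact hab' i
  · rw [Fin.sum_univ_add, e, e', map_add]
    simp only [Fin.append_left, Fin.append_right]
    abel

theorem Dec.D2 {h : F2L D E 2} (hh : h ∈ P2 D E 2) : Dec (D2 h) :=
  ⟨0, Fin.elim0, Fin.elim0, Fin.elim0, Fin.elim0, fun i => i.elim0, h, hh, by simp⟩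

theorem Dec.sum {ι : Type*} (S : Finset ι) (f : ι → F2L D E 2) (h : ∀ i ∈ S, Dec (f i)) :
    Dec (∑ i ∈ S, f i) := by
  classical
  induction S using Finset.induction_on with
  | empty => exact Dec.zero
  | insert a S ha ih =>
    rw [Finset.sum_insert ha]
    exact (h a (Finset.mem_insert_self _ _)).add (ih fun i hi => h i (Finset.mem_insert_of_mem hi))

theorem Dec.single {p q : ℕ} {a : List D → ZMod 2} {b : List E → ZMod 2} (ha : IsC D p a) (hb : IsC E q b) :
    Dec (ten a b) :=
  ⟨1, fun _ => p, fun _ => q, fun _ => a, fun _ => b, fun _ => ⟨ha, hb⟩, 0, (P2 D E 2).zero_mem, by simp⟩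

/-- the external product with a not necessarily homogeneous bounded cocycle -/
theorem Dec.ten {q : ℕ} {a : List D → ZMod 2} {b : List E → ZMod 2} (h0 : a [] = 0)
    (hinv : ∀ (g : D) (l : List D), a (l.map (g * ·)) = a l) (hcyc : ∀ l, dl l a = 0)
    (N : ℕ) (hN : ∀ l : List D, N < l.length → a l = 0) (hb : IsC E q b) : Dec (SQP334.ten a b) := by
  have e : SQP334.ten a b = ∑ p ∈ Finset.range (N + 1),
      SQP334.ten (fun l => if l.length = p then a l else 0) b := by
    funext x y
    rw [Finset.sum_apply, Finset.sum_apply]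
    have hv : ∀ p, SQP334.ten (fun l => if l.length = p then a l else 0) b x y =
        (if x.length = p then a x else 0) * b y := fun _ => rfl
    have hv' : SQP334.ten a b x y = a x * b y := rfl
    simp only [hv, hv']
    by_cases hx : x.length ≤ N
    · rw [Finset.sum_eq_single x.length]
      · rw [if_pos rfl]
      · intro p _ hp
        rw [if_neg (Ne.symm hp), zero_mul]
      · intro h; exact absurd (Finset.mem_range.2 (by omega)) h
    · rw [Finset.sum_eq_zero]
      · rw [hN x (by omega), zero_mul]
      · intro p hp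
        split_ifs
        · rw [hN x (by omega), zero_mul]
        · rw [zero_mul]
  rw [e]
  refine Dec.sum _ _ fun p _ => Dec.single (p := p) ⟨?_, ?_, ?_, ?_⟩ hb
  · split_ifs
    · exact h0
    · rfl
  · intro l hl
    by_contra hn
    exact hl (if_neg hn)
  · intro g l
    simp only [List.length_map, hinv]
  · intro l
    by_cases hl : l.length = p + 1
    · rw [dl_congr (g := a), hcyc]
      intro l' hl'
      rw [if_pos (by omega)]
    · exact dl_eq_zero fun l' hl' => by rw [if_neg (by omega)]

theorem sg2 (n : ℕ) (r : ZMod 2) : sg n • r = r := sg_smul_of_two (by decide) n r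

theorem D2_two (f : F2L D E 2) (x : List D) (y : List E) :
    D2 f x y = dl x (fun x' => f x' y) + dl y (fun y' => f x y') := by
  rw [D2_apply, sg2]

/-- **F3**, Kuenneth decomposition -/
theorem kun [Finite E] (q : ℕ) : ∀ f ∈ P2 D E 2, D2 f = 0 → (∀ x y, q < y.length → f x y = 0) → Dec f := by
  classical
  induction q with
  | zero =>
    intro f hf _ hq
    have : f = 0 := by
      funext x y
      rcases y with _ | ⟨b, y⟩
      · exact hf.1.2 x
      · exact hq _ _ (by simp)
    rw [this]; exact Dec.zero
  | succ q ih =>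
    intro f hf hd hq
    obtain ⟨h1, h2, N, h3⟩ := hf
    obtain ⟨T, hT⟩ := exists_section (E := E) q
    -- top part
    let ft : List D → VV E (q + 1) := fun x => ⟨fun y => if y.length = q + 1 then f x y else 0, by
      refine ⟨fun l hl => if_neg hl, if_neg (by simp), fun g l => ?_⟩
      have := h2 1 g x l
      simp only [one_mul, List.map_id'] at this
      show (if (l.map (g * ·)).length = q + 1 then f x (l.map (g * ·)) else 0) = if l.length = q + 1 then f x l else 0
      rw [List.length_map, this]⟩
    have ft_apply : ∀ x y, (ft x).1 y = if y.length = q + 1 then f x y else 0 := fun _ _ => rfl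
    have ft_inv : ∀ (g : D) x, ft (x.map (g * ·)) = ft x := by
      intro g x
      apply Subtype.ext
      funext y
      have := h2 g 1 x y
      simp only [one_mul, List.map_id'] at this
      rw [ft_apply, ft_apply, this]
    have ft_nil : ft [] = 0 := by
      apply Subtype.ext
      funext y
      rw [ft_apply, h1.1]; simp
    have ft_len : ∀ x, N < x.length → ft x = 0 := by
      intro x hx
      apply Subtype.ext
      funext y
      rw [ft_apply, h3 _ _ (by omega)]; simp
    have ft_cyc : ∀ x, dV (q + 1) (ft x) = 0 := by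
      intro x
      apply Subtype.ext
      funext y
      rw [dV_apply]
      by_cases hy : y.length = q + 2
      · have h4 := congrFun (congrFun hd x) y
        rw [D2_two] at h4
        have h5 : dl x (fun x' => f x' y) = 0 := dl_eq_zero fun x' _ => hq _ _ (by omega)
        rw [h5, zero_add] at h4
        refine Eq.trans ?_ h4
        exact dl_congr fun y' hy' => by rw [ft_apply, if_pos (by omega)]
      · exact dl_eq_zero fun y' hy' => by rw [ft_apply, if_neg (by omega)]
    -- correction
    let g : F2L D E 2 := fun x y => (T (ft x)).1 y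
    have g_apply : ∀ x y, g x y = (T (ft x)).1 y := fun _ _ => rfl
    have hgP : g ∈ P2 D E 2 := by
      refine ⟨⟨fun y => ?_, fun x => ?_⟩, fun a b x y => ?_, N + q, fun x y hxy => ?_⟩
      · rw [g_apply, ft_nil, map_zero]; rfl
      · rw [g_apply]; exact (T (ft x)).2.2.1
      · rw [g_apply, g_apply, ft_inv]; exact (T (ft x)).2.2.2 b y
      · rw [g_apply]
        by_cases hx : N < x.length
        · rw [ft_len x hx, map_zero]; rfl
        · exact (T (ft x)).2.1 y (by omega)
    let ρ : VV E (q + 1) →ₗ[ZMod 2] VV E (q + 1) := LinearMap.id - (dV q).comp T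
    have ρ_apply : ∀ b, ρ b = b - dV q (T b) := fun _ => rfl
    have ρ_bd : ∀ b, ρ (dV q b) = 0 := fun b => by rw [ρ_apply, hT, sub_self]
    have ρ_ρ : ∀ b, ρ (ρ b) = ρ b := fun b => by
      conv_lhs => rw [ρ_apply b, map_sub, ρ_bd, sub_zero]
    have ρ_cyc : ∀ b, dV (q + 1) b = 0 → dV (q + 1) (ρ b) = 0 := fun b hb => by
      rw [ρ_apply, map_sub, hb, dV_dV, sub_zero]
    -- the finite dimensional space of coefficients
    let W : Submodule (ZMod 2) (VV E (q + 1)) := LinearMap.range ρ ⊓ LinearMap.ker (dV (q + 1))
    have : Module.Finite (ZMod 2) (VV E (q + 1)) := VV_finite (q + 1)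
    let bs := Module.finBasis (ZMod 2) W
    have hW : ∀ x, ρ (ft x) ∈ W := fun x => ⟨⟨_, rfl⟩, ρ_cyc _ (ft_cyc x)⟩
    let wx : List D → W := fun x => ⟨ρ (ft x), hW x⟩
    let ac : Fin (Module.finrank (ZMod 2) W) → List D → ZMod 2 := fun k x => bs.repr (wx x) k
    have hexp : ∀ x, ρ (ft x) = ∑ k, ac k x • (bs k : VV E (q + 1)) := by
      intro x
      have := bs.sum_repr (wx x)
      have h4 := congrArg (Subtype.val) this
      rw [Submodule.coe_sum] at h4
      exact h4.symm
    let f' : F2L D E 2 := f - D2 g
    have hf'P : f' ∈ P2 D E 2 := (P2 D E 2).sub_mem ⟨h1, h2, N, h3⟩ (D2_mem hgP)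
    have hf'd : D2 f' = 0 := by rw [map_sub, hd, D2_D2, sub_zero]
    have hf'top : ∀ x y, y.length = q + 1 → f' x y = (ρ (ft x)).1 y := by
      intro x y hy
      show f x y - D2 g x y = (ft x).1 y - (dV q (T (ft x))).1 y
      rw [D2_two, dV_apply, ft_apply, if_pos hy]
      have h4 : dl x (fun x' => g x' y) = 0 := dl_eq_zero fun x' _ => by
        rw [g_apply]; exact (T (ft x')).2.1 y (by omega)
      rw [h4, zero_add]
    have hf'big : ∀ x y, q + 1 < y.length → f' x y = 0 := by
      intro x y hy
      show f x y - D2 g x y = 0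
      rw [hq _ _ hy, D2_two]
      have h4 : dl x (fun x' => g x' y) = 0 := dl_eq_zero fun x' _ => by
        rw [g_apply]; exact (T (ft x')).2.1 y (by omega)
      have h5 : dl y (fun y' => g x y') = 0 := dl_eq_zero fun y' hy' => by
        rw [g_apply]; exact (T (ft x)).2.1 y' (by omega)
      rw [h4, h5]; simp
    have wx_inv : ∀ (c : D) x, wx (x.map (c * ·)) = wx x := fun c x => Subtype.ext (by
      show ρ (ft _) = ρ (ft _)
      rw [ft_inv])
    have ac_inv : ∀ k (c : D) x, ac k (x.map (c * ·)) = ac k x := fun k c x => by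
      show bs.repr (wx _) k = bs.repr (wx x) k
      rw [wx_inv]
    have wx_zero : ∀ x, ft x = 0 → wx x = 0 := fun x hx => Subtype.ext (by
      show ρ (ft x) = 0
      rw [hx, map_zero])
    have ac_zero : ∀ k x, ft x = 0 → ac k x = 0 := fun k x hx => by
      show bs.repr (wx x) k = 0
      rw [wx_zero x hx, map_zero]; rfl
    have ac_cyc : ∀ k x, dl x (ac k) = 0 := by
      intro k x
      have e1 : dl x wx = 0 := by
        -- value of `dl` on `ρ ∘ ft` is the boundary of the level `q` part of `f'`
        let fq : VV E q := ⟨fun y => if y.length = q then f' x y else 0, by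
          refine ⟨fun l hl => if_neg hl, ?_, fun g l => ?_⟩
          · show (if ([] : List E).length = q then f' x [] else 0) = 0
            rw [hf'P.1.2 x]; simp
          · have := hf'P.2.1 1 g x l
            simp only [one_mul, List.map_id'] at this
            show (if (l.map (g * ·)).length = q then f' x (l.map (g * ·)) else 0) = if l.length = q then f' x l else 0
            rw [List.length_map, this]⟩
        have e2 : dl x (fun x' => ρ (ft x')) = dV q fq := by
          apply Subtype.ext
          funext y
          have h4 : (dl x (fun x' => ρ (ft x'))).1 y = dl x (fun x' => (ρ (ft x')).1 y) := by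
            let evy : VV E (q + 1) →+ ZMod 2 :=
              { toFun := fun b => b.1 y, map_zero' := rfl, map_add' := fun _ _ => rfl }
            exact (dl_hom evy x (fun x' => ρ (ft x'))).symm
          rw [h4, dV_apply]
          by_cases hy : y.length = q + 1
          · have h5 := congrFun (congrFun hf'd x) y
            rw [D2_two] at h5
            have h6 : dl x (fun x' => f' x' y) = dl x (fun x' => (ρ (ft x')).1 y) :=
              dl_congr fun x' _ => hf'top x' y hy
            have h7 : dl y (fun y' => f' x y') = dl y fq.1 := dl_congr fun y' hy' => by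
              show f' x y' = if y'.length = q then f' x y' else 0
              rw [if_pos (by omega)]
            rw [h6, h7] at h5
            have h8 : ∀ a b : ZMod 2, a + b = 0 → a = b := by decide
            exact h8 _ _ h5
          · have h5 : dl x (fun x' => (ρ (ft x')).1 y) = 0 := dl_eq_zero fun x' _ =>
              (ρ (ft x')).2.1 y hy
            have h6 : dl y fq.1 = 0 := dl_eq_zero fun y' hy' => if_neg (by omega)
            rw [h5, h6]
        have e3 : dl x (fun x' => ρ (ft x')) = 0 := by
          have h4 : dl x (fun x' => ρ (ρ (ft x'))) = ρ (dl x (fun x' => ρ (ft x'))) :=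
            dl_hom ρ.toAddMonoidHom x (fun x' => ρ (ft x'))
          have h5 : (fun x' => ρ (ρ (ft x'))) = fun x' => ρ (ft x') := by funext x'; exact ρ_ρ _
          rw [h5] at h4
          rw [h4, e2, ρ_bd]
        apply Subtype.ext
        have h6 : ((dl x wx : W) : VV E (q + 1)) = dl x (fun x' => ((wx x' : W) : VV E (q + 1))) :=
          (dl_hom W.subtype.toAddMonoidHom x wx).symm
        rw [h6]
        exact e3
      have h7 : dl x (ac k) = bs.repr (dl x wx) k := by
        let evk : W →+ ZMod 2 :=
          { toFun := fun b => bs.repr b k, map_zero' := by simp, map_add' := fun _ _ => by simp }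
        exact dl_hom evk x wx
      rw [h7, e1, map_zero]; rfl
    have hbC : ∀ k, IsC E (q + 1) ((bs k : VV E (q + 1)) : List E → ZMod 2) := by
      intro k
      refine ⟨(bs k : VV E (q + 1)).2.2.1, fun l hl => ?_, (bs k : VV E (q + 1)).2.2.2, fun l => ?_⟩
      · by_contra hn
        exact hl ((bs k : VV E (q + 1)).2.1 l hn)
      · have h4 : dV (q + 1) (bs k : VV E (q + 1)) = 0 := (bs k).2.2
        have h5 := congrFun (congrArg Subtype.val h4) l
        exact h5
    let S : F2L D E 2 := ∑ k, ten (ac k) ((bs k : VV E (q + 1)) : List E → ZMod 2)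
    have hSDec : Dec S := Dec.sum _ _ fun k _ => Dec.ten (ac_zero k [] ft_nil) (ac_inv k) (ac_cyc k) N
      (fun x hx => ac_zero k x (ft_len x hx)) (hbC k)
    have hS : ∀ x y, S x y = (ρ (ft x)).1 y := by
      intro x y
      show (∑ k, ten (ac k) ((bs k : VV E (q + 1)) : List E → ZMod 2)) x y = _
      rw [hexp x, Finset.sum_apply, Finset.sum_apply, Submodule.coe_sum, Finset.sum_apply]
      rfl
    have hSP : S ∈ P2 D E 2 := by
      refine ⟨⟨fun y => ?_, fun x => ?_⟩, fun a b x y => ?_, N + (q + 1), fun x y hxy => ?_⟩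
      · rw [hS, ft_nil, map_zero]; rfl
      · rw [hS]; exact (ρ (ft x)).2.2.1
      · rw [hS, hS, ft_inv]; exact (ρ (ft x)).2.2.2 b y
      · rw [hS]
        by_cases hx : N < x.length
        · rw [ft_len x hx, map_zero]; rfl
        · exact (ρ (ft x)).2.1 y (by omega)
    have hSd : D2 S = 0 := by
      rw [map_sum]
      refine Finset.sum_eq_zero fun k _ => ?_
      funext x y
      rw [D2_ten, ac_cyc, (hbC k).cyc]; simp
    have hlow : Dec (f' - S) := by
      refine ih (f' - S) ((P2 D E 2).sub_mem hf'P hSP) (by rw [map_sub, hf'd, hSd, sub_zero]) ?_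
      intro x y hy
      show f' x y - S x y = 0
      rcases Nat.lt_or_ge (q + 1) y.length with h | h
      · rw [hf'big x y h, hS, (ρ (ft x)).2.1 y (by omega), sub_zero]
      · rw [hf'top x y (by omega), hS, sub_self]
    have e : f = (f' - S) + S + D2 g := by
      show f = f - D2 g - S + S + D2 g
      abel
    rw [e]
    exact (hlow.add hSDec).add (Dec.D2 hgP)

/-- **F3** -/
theorem kunneth [Finite E] {f : F2L D E 2} (hf : f ∈ P2 D E 2) (hd : D2 f = 0) : Dec f := by
  obtain ⟨N, hN⟩ := hf.2.2
  exact kun N f hf hd fun x y hy => hN _ _ (by omega)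

end kun

end Crest.Agent.R204.SQP334
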