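import Crest.Agent.R204.SQP3_334

/-!
# Row 204, block G, lemma SQ: the product step, part 4 (helper334): good cochains, `SQ_prod`
-/

set_option autoImplicit false
set_option linter.unusedSectionVars false

namespace Crest.Agent.R204.SQP334

open SQ803 SQ803.Co

/-! ## good cochains (any group) -/

section good
variable {G J : Type} [Group G] [MulAction G J]

/-- invariant cocycles mod 2 -/
structure IsZ (G : Type) {J : Type} [Group G] [MulAction G J] (u : List J → ZMod 2) : Prop where
  nil : u [] = 0
  inv : ∀ (g : G) (l : List J), u (l.map (g • ·)) = u l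
  cyc : ∀ l, dl l u = 0

/-- the square lifts -/
def Good (G : Type) {J : Type} [Group G] [MulAction G J] (N : ℕ) (u : List J → ZMod 2) : Prop :=
  ∃ (Y : List J → ZMod (2 ^ N)) (v : List J → ZMod 2),
    Y [] = 0 ∧ (∀ (g : G) (l : List J), Y (l.map (g • ·)) = Y l) ∧ (∀ l, dl l Y = 0) ∧
    v [] = 0 ∧ (∀ (g : G) (l : List J), v (l.map (g • ·)) = v l) ∧
    ∀ l, cupl l u u = (Y l).cast + dl l v

theorem two2 : ∀ b : ZMod 2, b + b = 0 := by decide

theorem IsZ.add {u v : List J → ZMod 2} (hu : IsZ G u) (hv : IsZ G v) : IsZ G (fun l => u l + v l) :=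
  ⟨by simp [hu.nil, hv.nil], fun g l => by rw [hu.inv, hv.inv], fun l => by
    rw [dl_add, hu.cyc, hv.cyc, add_zero]⟩

theorem IsZ.cob {w : List J → ZMod 2} (hw : ∀ (g : G) (l : List J), w (l.map (g • ·)) = w l) :
    IsZ G (fun l => dl l w) :=
  ⟨rfl, fun g l => by rw [← dl_map]; simp only [hw], fun l => dl_dl l w⟩

theorem inv_cupl {M : Type} [NonUnitalRing M] {u v : List J → M} (hu : ∀ (g : G) (l : List J), u (l.map (g • ·)) = u l)
    (hv : ∀ (g : G) (l : List J), v (l.map (g • ·)) = v l) (g : G) (l : List J) :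
    cupl (l.map (g • ·)) u v = cupl l u v := by
  rw [← cupl_map]
  simp only [hu, hv]

theorem inv_cupo {u v : List J → ZMod 2} (hu : ∀ (g : G) (l : List J), u (l.map (g • ·)) = u l)
    (hv : ∀ (g : G) (l : List J), v (l.map (g • ·)) = v l) (g : G) (l : List J) :
    cupo (l.map (g • ·)) u v = cupo l u v := by
  rw [← cupo_map]
  simp only [hu, hv]

/-- the reduction of `ZMod (2 ^ N)` mod 2, as a ring homomorphism -/
theorem cast_add' {N : ℕ} (hN : 0 < N) (a b : ZMod (2 ^ N)) : ((a + b).cast : ZMod 2) = a.cast + b.cast :=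
  map_add (ZMod.castHom (dvd_pow_self 2 hN.ne') (ZMod 2)) a b

theorem Good.add {N : ℕ} (hN : 0 < N) {u u' : List J → ZMod 2} (hu : IsZ G u) (hu' : IsZ G u')
    (h : Good G N u) (h' : Good G N u') : Good G N (fun l => u l + u' l) := by
  obtain ⟨Y, v, h1, h2, h3, h4, h5, h6⟩ := h
  obtain ⟨Y', v', h1', h2', h3', h4', h5', h6'⟩ := h'
  refine ⟨fun l => Y l + Y' l, fun l => v l + v' l + cupo l u u', by simp [h1, h1'], fun g l => by simp only [h2, h2'],
    fun l => by rw [dl_add, h3, h3', add_zero], by simp [h4, h4', cupo], fun g l => by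
      simp only [h5, h5', inv_cupo hu.inv hu'.inv], fun l => ?_⟩
  have e1 : dl l (fun l' => cupo l' u u') = cupl l u u' + cupl l u' u := by
    rw [dl_cupo two2 l u u' hu'.nil]
    have z1 : (fun l' => dl l' u) = fun _ => 0 := funext hu.cyc
    have z2 : (fun l' => dl l' u') = fun _ => 0 := funext hu'.cyc
    rw [z1, z2]
    have z3 : ∀ (l : List J) (g : List J → ZMod 2), cupo l (fun _ => 0) g = 0 := by
      intro l
      induction l with
      | nil => intro g; rfl
      | cons x l ih => intro g; rw [cupo_cons, ih, cupl_zero_right, add_zero]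
    have z4 : ∀ (l : List J) (g : List J → ZMod 2), cupo l g (fun _ => 0) = 0 := by
      intro l
      induction l with
      | nil => intro g; rfl
      | cons x l ih => intro g; rw [cupo_cons, ih, cupl_zero_left, add_zero]
    rw [z3, z4, zero_add, zero_add]
  rw [cupl_add_left, cupl_add_right, cupl_add_right, h6, h6', cast_add' hN, dl_add, dl_add, e1]
  abel

theorem Good.cob {N : ℕ} {w : List J → ZMod 2} (hw0 : w [] = 0)
    (hw : ∀ (g : G) (l : List J), w (l.map (g • ·)) = w l) : Good G N (fun l => dl l w) := by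
  refine ⟨fun _ => 0, fun l => cupl l w (fun l' => dl l' w), rfl, fun _ _ => rfl, fun l => dl_zero l, rfl,
    fun g l => inv_cupl hw (IsZ.cob hw).inv g l, fun l => ?_⟩
  rw [dl_cup two2]
  have z1 : (fun l' => dl l' (fun l'' => dl l'' w)) = fun _ => 0 := funext fun l' => dl_dl l' w
  rw [z1, cupl_zero_right, hw0, dl_nil]
  simp

theorem Good.zero {N : ℕ} : Good G N (fun _ : List J => 0) :=
  ⟨fun _ => 0, fun _ => 0, rfl, fun _ _ => rfl, fun l => dl_zero l, rfl, fun _ _ => rfl, fun l => by
    rw [cupl_zero_left, dl_zero]; simp⟩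

theorem Good.sum {N : ℕ} (hN : 0 < N) {ι : Type*} (S : Finset ι) (u : ι → List J → ZMod 2)
    (hu : ∀ i ∈ S, IsZ G (u i)) (h : ∀ i ∈ S, Good G N (u i)) :
    IsZ G (fun l => ∑ i ∈ S, u i l) ∧ Good G N (fun l => ∑ i ∈ S, u i l) := by
  classical
  induction S using Finset.induction_on with
  | empty =>
    simp only [Finset.sum_empty]
    exact ⟨⟨rfl, fun _ _ => rfl, fun l => dl_zero l⟩, Good.zero⟩
  | insert a S ha ih =>
    obtain ⟨i1, i2⟩ := ih (fun i hi => hu i (Finset.mem_insert_of_mem hi))
      (fun i hi => h i (Finset.mem_insert_of_mem hi))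
    simp only [Finset.sum_insert ha]
    exact ⟨(hu a (Finset.mem_insert_self _ _)).add i1,
      Good.add hN (hu a (Finset.mem_insert_self _ _)) i1 (h a (Finset.mem_insert_self _ _)) i2⟩

/-- cup products of homogeneous cochains are homogeneous -/
theorem cupl_len {M : Type} [NonUnitalRing M] (l : List J) (f g : List J → M) (p q : ℕ)
    (hf : ∀ l, l.length ≠ p + 1 → f l = 0) (hg : ∀ l, l.length ≠ q + 1 → g l = 0)
    (hl : l.length ≠ p + q + 1) : cupl l f g = 0 := by
  induction l generalizing f p with
  | nil => rfl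
  | cons x l ih =>
    rw [cupl_cons]
    rcases p with _ | p
    · have h1 : (fun l' => f (x :: l')) = fun l' => if l' = [] then f [x] else 0 := by
        funext l'
        split_ifs with h
        · rw [h]
        · refine hf _ ?_
          intro h2
          rw [List.length_cons] at h2
          exact h (List.length_eq_zero_iff.1 (by omega))
      have h2 : cupl l (fun l' => f (x :: l')) g = 0 := by
        rw [h1]
        have : cupl l (fun l' => if l' = [] then f [x] else 0) g = cupl l (fun _ => 0) g :=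
          cupl_congr (fun y l' => by simp) (fun _ _ => rfl)
        rw [this, cupl_zero_left]
      rw [h2, hg (x :: l) (by omega), mul_zero, add_zero]
    · rw [hf [x] (by simp), zero_mul, zero_add]
      refine ih (fun l' => f (x :: l')) p (fun l' h => hf _ ?_) ?_
      · rw [List.length_cons]; omega
      · rw [List.length_cons] at hl; omega

/-- homogenisation: from `Good` to the conclusion of `SQ` -/
theorem Good.homog {N : ℕ} {m : ℕ} {u : List J → ZMod 2}
    (hum : ∀ l, u l ≠ 0 → l.length = m + 1) (h : Good G N u) :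
    ∃ (Y : List J → ZMod (2 ^ N)) (v : List J → ZMod 2),
      (∀ l, Y l ≠ 0 → l.length = 2 * m + 1) ∧ (∀ (g : G) (l : List J), Y (l.map (g • ·)) = Y l) ∧
      (∀ l, dl l Y = 0) ∧
      (∀ l, v l ≠ 0 → l.length = 2 * m) ∧ v [] = 0 ∧ (∀ (g : G) (l : List J), v (l.map (g • ·)) = v l) ∧
      ∀ l, cupl l u u = (Y l).cast + dl l v := by
  obtain ⟨Y, v, h1, h2, h3, h4, h5, h6⟩ := h
  have hu0 : ∀ l, l.length ≠ m + 1 → u l = 0 := by
    intro l hl
    by_contra hn
    exact hl (hum l hn)
  refine ⟨fun l => if l.length = 2 * m + 1 then Y l else 0, fun l => if l.length = 2 * m then v l else 0,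
    fun l hl => ?_, fun g l => ?_, fun l => ?_, fun l hl => ?_, ?_, fun g l => ?_, fun l => ?_⟩
  · by_contra hn
    exact hl (if_neg hn)
  · simp only [List.length_map, h2]
  · by_cases hl : l.length = 2 * m + 2
    · rw [dl_congr (g := Y), h3]
      intro l' hl'
      rw [if_pos (by omega)]
    · exact dl_eq_zero fun l' hl' => if_neg (by omega)
  · by_contra hn
    exact hl (if_neg hn)
  · simp [h4]
  · simp only [List.length_map, h5]
  · beta_reduce
    by_cases hl : l.length = 2 * m + 1
    · rw [if_pos hl, h6]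
      congr 1
      refine dl_congr fun l' hl' => ?_
      rw [if_pos (by omega)]
    · rw [if_neg hl, cupl_len l u u m m hu0 hu0 (by omega)]
      rw [dl_eq_zero fun l' hl' => if_neg (by omega)]
      simp

end good

end Crest.Agent.R204.SQP334
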