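import Crest.Agent.R204.LC_803

/-!
# Definition of the property `SQ G` (row 204, leaf G5; helper803)
-/

set_option autoImplicit false

namespace Crest.Agent.R204.SQ803

/-- `SQ G`: for every free `G`-set `J`, the cup square of an invariant mod 2 cocycle (cochains = functions on
lists of elements of `J`) is, up to the coboundary of an invariant cochain, the reduction of an invariant
cocycle with values in `ZMod (2 ^ N)`, for every `N > 0` -/
def SQ (G : Type) [Group G] : Prop :=
  ∀ (J : Type) [MulAction G J], (∀ (g : G) (j : J), g • j = j → g = 1) →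
    ∀ (N : ℕ), 0 < N → ∀ (m : ℕ) (u : List J → ZMod 2),
      (∀ l, u l ≠ 0 → l.length = m + 1) → (∀ (g : G) (l : List J), u (l.map (g • ·)) = u l) →
      (∀ l, dl l u = 0) →
      ∃ (Y : List J → ZMod (2 ^ N)) (v : List J → ZMod 2),
        (∀ l, Y l ≠ 0 → l.length = 2 * m + 1) ∧ (∀ (g : G) (l : List J), Y (l.map (g • ·)) = Y l) ∧
        (∀ l, dl l Y = 0) ∧
        (∀ l, v l ≠ 0 → l.length = 2 * m) ∧ v [] = 0 ∧ (∀ (g : G) (l : List J), v (l.map (g • ·)) = v l) ∧
        ∀ l, cupl l u u = (Y l).cast + dl l v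

end Crest.Agent.R204.SQ803
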