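import Crest.Agent.R204.E_803
import Crest.Agent.R204.SQdef_803

/-!
# Row 204, block G, lemma SQ: the product step, part 1 (helper334)

Functions of three lists `F : List J → List X → List Y → ZMod n` with the total differential `D3`;
`X = D`, `Y = E` groups, `J` a free `D × E`-set.  `ι` (constant in `X`, `Y`) is a quasi-isomorphism on
invariants, `κ` (constant in `J`) is onto in homology.
-/

set_option autoImplicit false
set_option linter.unusedSectionVars false

namespace Crest.Agent.R204.SQP334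

open SQ803 SQ803.Co

section plain
variable {J X Y : Type} {n : ℕ}

/-- plain functions of two lists -/
abbrev F2L (X Y : Type) (n : ℕ) : Type := List X → List Y → ZMod n
/-- plain functions of three lists -/
abbrev F3L (J X Y : Type) (n : ℕ) : Type := List J → List X → List Y → ZMod n

/-- evaluation -/
def ev2 (x : List X) (y : List Y) : F2L X Y n →+ ZMod n where
  toFun f := f x y
  map_zero' := rfl
  map_add' _ _ := rfl

@[simp] theorem ev2_apply (x : List X) (y : List Y) (f : F2L X Y n) : ev2 x y f = f x y := rfl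

/-- differential in two variables -/
def D2 : F2L X Y n →+ F2L X Y n where
  toFun f := fun x y => dl x (fun x' => f x' y) + sg x.length • dl y (fun y' => f x y')
  map_zero' := by funext x y; simp
  map_add' f g := by
    funext x y
    simp only [Pi.add_apply, dl_add, smul_add]
    abel

theorem D2_apply (f : F2L X Y n) (x : List X) (y : List Y) :
    D2 f x y = dl x (fun x' => f x' y) + sg x.length • dl y (fun y' => f x y') := rfl

/-- differential in the first variable -/
def DJ : F3L J X Y n →+ F3L J X Y n where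
  toFun F := fun j x y => dl j (fun j' => F j' x y)
  map_zero' := by funext j x y; simp
  map_add' f g := by funext j x y; simp only [Pi.add_apply, dl_add]

theorem DJ_apply (F : F3L J X Y n) (j : List J) (x : List X) (y : List Y) :
    DJ F j x y = dl j (fun j' => F j' x y) := rfl

/-- differential in the last two variables -/
def DS : F3L J X Y n →+ F3L J X Y n where
  toFun F := fun j x y => sg j.length • D2 (F j) x y
  map_zero' := by
    funext j x y
    show sg j.length • D2 (0 : F2L X Y n) x y = 0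
    rw [map_zero]; simp
  map_add' f g := by
    funext j x y
    show sg j.length • D2 (f j + g j) x y = _
    rw [map_add]
    show sg j.length • (D2 (f j) x y + D2 (g j) x y) = _
    rw [smul_add]; rfl

theorem DS_apply (F : F3L J X Y n) (j : List J) (x : List X) (y : List Y) :
    DS F j x y = sg j.length • D2 (F j) x y := rfl

/-- total differential -/
def D3 : F3L J X Y n →+ F3L J X Y n := DJ + DS

theorem D3_apply (F : F3L J X Y n) (j : List J) (x : List X) (y : List Y) :
    D3 F j x y = dl j (fun j' => F j' x y) + sg j.length • D2 (F j) x y := rfl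

/-! ### comparison with 803's nested cochains -/

/-- to nested cochains -/
def toS (f : F2L X Y n) : Co X (Co Y (ZMod n)) := ⟨fun x => ⟨fun y => f x y⟩⟩
/-- to nested cochains -/
def toE (F : F3L J X Y n) : Co J (Co X (Co Y (ZMod n))) := ⟨fun j => toS (F j)⟩

@[simp] theorem toS_f (f : F2L X Y n) (x : List X) (y : List Y) : ((toS f).f x).f y = f x y := rfl
@[simp] theorem toE_f (F : F3L J X Y n) (j : List J) : (toE F).f j = toS (F j) := rfl

theorem toS_inj {f g : F2L X Y n} (h : toS f = toS g) : f = g := by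
  funext x y
  rw [← toS_f f, h, toS_f]

theorem toE_inj {f g : F3L J X Y n} (h : toE f = toE g) : f = g := by
  funext j
  apply toS_inj
  rw [← toE_f f, h, toE_f]

/-- normalised: vanishes at empty lists -/
def Nz2 (f : F2L X Y n) : Prop := (∀ y, f [] y = 0) ∧ ∀ x, f x [] = 0
/-- normalised: vanishes at empty lists -/
def Nz3 (F : F3L J X Y n) : Prop := (∀ x y, F [] x y = 0) ∧ ∀ j, Nz2 (F j)

theorem Nz2.nzS {f : F2L X Y n} (h : Nz2 f) : NzS (toS f) :=
  ⟨Co.ext fun y => h.1 y, fun x => h.2 x⟩

theorem toS_D2 {f : F2L X Y n} (h : Nz2 f) : Cx.δ (toS f) = toS (D2 f) := by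
  refine Co.ext fun x => Co.ext fun y => ?_
  rw [h.nzS.δ_fz]; rfl

theorem Nz2.D2 {f : F2L X Y n} (h : Nz2 f) : Nz2 (D2 f) := by
  constructor
  · intro y
    rw [D2_apply]
    simp [h.1]
  · intro x
    rw [D2_apply]
    simp [h.2]

theorem Nz3.D3 {F : F3L J X Y n} (h : Nz3 F) : Nz3 (D3 F) := by
  refine ⟨fun x y => ?_, fun j => ⟨fun y => ?_, fun x => ?_⟩⟩
  · rw [D3_apply, dl_nil, zero_add, show F [] = 0 from funext fun x => funext fun y => h.1 x y, map_zero]
    simp
  · rw [D3_apply, (h.2 j).D2.1]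
    have : (fun j' => F j' [] y) = fun _ => 0 := funext fun j' => (h.2 j').1 y
    rw [this]; simp
  · rw [D3_apply, (h.2 j).D2.2]
    have : (fun j' => F j' x []) = fun _ => 0 := funext fun j' => (h.2 j').2 x
    rw [this]; simp

theorem toE_D3 {F : F3L J X Y n} (h : Nz3 F) : Cx.δ (toE F) = toE (D3 F) := by
  have h0 : (toE F).f [] = 0 := Co.ext fun x => Co.ext fun y => h.1 x y
  refine Co.ext fun j => Co.ext fun x => Co.ext fun y => ?_
  rw [δ_of h0, add_f, add_f, zsmul_f, zsmul_f, dl_f, dl_f, toE_f, toS_D2 (h.2 j)]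
  rfl

theorem D2_D2 (f : F2L X Y n) : D2 (D2 f) = 0 := by
  funext x y
  rw [D2_apply]
  have e1 : dl x (fun x' => D2 f x' y) =
      dl x (fun x' => dl x' (fun x'' => f x'' y)) + dl x (fun x' => sg x'.length • dl y (fun y' => f x' y')) := by
    rw [← dl_add]; rfl
  have e2 : dl y (fun y' => D2 f x y') =
      dl y (fun y' => dl x (fun x' => f x' y')) + dl y (fun y' => sg x.length • dl y' (fun y'' => f x y'')) := by
    rw [← dl_add]; rfl
  have e3 : dl y (fun y' => sg x.length • dl y' (fun y'' => f x y'')) = 0 := by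
    have := dl_hom (zsmulAddGroupHom (sg x.length)) y (fun y' => dl y' (fun y'' => f x y''))
    simp only [zsmulAddGroupHom_apply] at this
    rw [this, dl_dl, smul_zero]
  have e4 : dl x (fun x' => dl y (fun y' => f x' y')) = dl y (fun y' => dl x (fun x' => f x' y')) := by
    generalize x = x at *
    clear e1 e2 e3
    induction x generalizing f with
    | nil => simp
    | cons a x ih =>
      rw [dl_cons, ih (fun x' y' => f (a :: x') y')]
      have : (fun y' => dl (a :: x) (fun x' => f x' y')) =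
          fun y' => f x y' - dl x (fun x' => f (a :: x') y') := by funext y'; rw [dl_cons]
      rw [this, dl_sub]
  rw [e1, e2, e3, dl_dl, zero_add, add_zero, dl_sg, e4, neg_smul, neg_add_cancel]
  rfl

theorem D3_D3 (F : F3L J X Y n) : D3 (D3 F) = 0 := by
  funext j x y
  rw [D3_apply]
  have e1 : dl j (fun j' => D3 F j' x y) =
      dl j (fun j' => dl j' (fun j'' => F j'' x y)) + dl j (fun j' => sg j'.length • D2 (F j') x y) := by
    rw [← dl_add]; rfl
  have e2 : D3 F j = (fun x y => dl j (fun j' => F j' x y)) + sg j.length • D2 (F j) := by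
    funext x y; rfl
  have e3 : D2 (fun x y => dl j (fun j' => F j' x y)) x y = dl j (fun j' => D2 (F j') x y) := by
    have h2 : (fun x y => dl j (fun j' => F j' x y)) = dl j F := by
      funext x y
      exact dl_hom (ev2 x y) j F
    rw [h2]
    exact (dl_hom ((ev2 x y).comp D2) j F).symm
  rw [e1, e2, dl_dl, zero_add, dl_sg, map_add, map_zsmul, D2_D2, smul_zero, add_zero, e3, neg_smul,
    neg_add_cancel]
  rfl

/-! ### bounded functions -/

/-- vanishing for long lists -/
def Bd3 (F : F3L J X Y n) : Prop := ∃ N : ℕ, ∀ j x y, N < j.length + x.length + y.length → F j x y = 0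

theorem Bd3.add {F G : F3L J X Y n} (hF : Bd3 F) (hG : Bd3 G) : Bd3 (F + G) := by
  obtain ⟨N, hN⟩ := hF
  obtain ⟨M, hM⟩ := hG
  refine ⟨max N M, fun j x y h => ?_⟩
  show F j x y + G j x y = 0
  rw [hN _ _ _ (lt_of_le_of_lt (le_max_left _ _) h), hM _ _ _ (lt_of_le_of_lt (le_max_right _ _) h), add_zero]

theorem Bd3.neg {F : F3L J X Y n} (hF : Bd3 F) : Bd3 (-F) := by
  obtain ⟨N, hN⟩ := hF
  refine ⟨N, fun j x y h => ?_⟩
  show -(F j x y) = 0
  rw [hN _ _ _ h, neg_zero]

theorem Bd3.D3 {F : F3L J X Y n} (hF : Bd3 F) : Bd3 (D3 F) := by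
  obtain ⟨N, hN⟩ := hF
  refine ⟨N + 1, fun j x y h => ?_⟩
  rw [D3_apply, D2_apply]
  rw [dl_eq_zero fun j' hj => hN _ _ _ (by omega), dl_eq_zero fun j' hj => hN _ _ _ (by omega),
    dl_eq_zero fun j' hj => hN _ _ _ (by omega)]
  simp

end plain

/-! ## groups -/

/-- a free `G`-set maps equivariantly to `G` -/
theorem exists_equivariant {G J : Type} [Group G] [MulAction G J] (hfree : ∀ (g : G) (j : J), g • j = j → g = 1) :
    ∃ φ : J → G, ∀ g j, φ (g • j) = g * φ j := by
  have h : ∀ j : J, ∃ g : G, g • (Quotient.out (Quotient.mk (MulAction.orbitRel G J) j)) = j := by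
    intro j
    have h1 := Quotient.mk_out (s := MulAction.orbitRel G J) j
    have h2 : MulAction.orbitRel G J j (Quotient.out (Quotient.mk (MulAction.orbitRel G J) j)) :=
      (MulAction.orbitRel G J).symm' h1
    rw [MulAction.orbitRel_apply] at h2
    exact h2
  choose φ hφ using h
  refine ⟨φ, fun g j => ?_⟩
  have e : Quotient.mk (MulAction.orbitRel G J) (g • j) = Quotient.mk (MulAction.orbitRel G J) j :=
    Quotient.sound ⟨g, rfl⟩
  have h1 := hφ (g • j)
  rw [e] at h1
  have h2 : (g * φ j) • (Quotient.out (Quotient.mk (MulAction.orbitRel G J) j)) = g • j := by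
    rw [mul_smul, hφ j]
  have h3 : ((g * φ j)⁻¹ * φ (g • j)) • (Quotient.out (Quotient.mk (MulAction.orbitRel G J) j)) =
      Quotient.out (Quotient.mk (MulAction.orbitRel G J) j) := by
    rw [mul_smul, h1, ← h2, inv_smul_smul]
  have h4 := hfree _ _ h3
  have h5 : φ (g • j) = (g * φ j) * ((g * φ j)⁻¹ * φ (g • j)) := by group
  rw [h5, h4, mul_one]

section grp
variable {J D E : Type} [Group D] [Group E] [MulAction (D × E) J] {n : ℕ}

/-- invariance -/
def Inv3 (F : F3L J D E n) : Prop := ∀ (g : D × E) (j : List J) (x : List D) (y : List E),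
  F (j.map (g • ·)) (x.map (g.1 * ·)) (y.map (g.2 * ·)) = F j x y
/-- invariance -/
def Inv2 (f : F2L D E n) : Prop := ∀ (a : D) (b : E) (x : List D) (y : List E),
  f (x.map (a * ·)) (y.map (b * ·)) = f x y
/-- invariance -/
def Inv1 (u : List J → ZMod n) : Prop := ∀ (g : D × E) (j : List J), u (j.map (g • ·)) = u j

theorem inv_D2 {g : D × E} {f f' : F2L D E n} (h : ∀ x y, f' (x.map (g.1 * ·)) (y.map (g.2 * ·)) = f x y)
    (x : List D) (y : List E) : D2 f' (x.map (g.1 * ·)) (y.map (g.2 * ·)) = D2 f x y := by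
  rw [D2_apply, D2_apply, ← dl_map, ← dl_map, List.length_map]
  simp only [h]

theorem Inv3.D3 {F : F3L J D E n} (h : Inv3 F) : Inv3 (D3 F) := by
  intro g j x y
  rw [D3_apply, D3_apply, ← dl_map, List.length_map, inv_D2 (fun x y => h g j x y)]
  simp only [h g]

variable (J D E n) in
/-- normalised bounded invariant cochains -/
def P3 : AddSubgroup (F3L J D E n) where
  carrier := {F | Nz3 F ∧ Inv3 F ∧ Bd3 F}
  zero_mem' := ⟨⟨fun _ _ => rfl, fun _ => ⟨fun _ => rfl, fun _ => rfl⟩⟩, fun _ _ _ _ => rfl, 0, fun _ _ _ _ => rfl⟩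
  add_mem' := by
    rintro F G ⟨hF, hF', hF''⟩ ⟨hG, hG', hG''⟩
    refine ⟨⟨fun x y => ?_, fun j => ⟨fun y => ?_, fun x => ?_⟩⟩, fun g j x y => ?_, hF''.add hG''⟩
    · show F [] x y + G [] x y = 0
      rw [hF.1, hG.1, add_zero]
    · show F j [] y + G j [] y = 0
      rw [(hF.2 j).1, (hG.2 j).1, add_zero]
    · show F j x [] + G j x [] = 0
      rw [(hF.2 j).2, (hG.2 j).2, add_zero]
    · show F _ _ _ + G _ _ _ = F j x y + G j x y
      rw [hF', hG']
  neg_mem' := by
    rintro F ⟨hF, hF', hF''⟩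
    refine ⟨⟨fun x y => ?_, fun j => ⟨fun y => ?_, fun x => ?_⟩⟩, fun g j x y => ?_, hF''.neg⟩
    · show -(F [] x y) = 0
      rw [hF.1, neg_zero]
    · show -(F j [] y) = 0
      rw [(hF.2 j).1, neg_zero]
    · show -(F j x []) = 0
      rw [(hF.2 j).2, neg_zero]
    · show -(F _ _ _) = -(F j x y)
      rw [hF']

theorem mem_P3 {F : F3L J D E n} : F ∈ P3 J D E n ↔ Nz3 F ∧ Inv3 F ∧ Bd3 F := Iff.rfl

theorem D3_mem {F : F3L J D E n} (h : F ∈ P3 J D E n) : D3 F ∈ P3 J D E n := ⟨h.1.D3, h.2.1.D3, h.2.2.D3⟩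

end grp

section levels
variable {J X Y : Type} {n : ℕ}

/-- part of level `|x| + |y| = k` -/
def cS (k : ℕ) : F3L J X Y n →+ F3L J X Y n where
  toFun F := fun j x y => if x.length + y.length = k then F j x y else 0
  map_zero' := by funext j x y; simp
  map_add' F G := by
    funext j x y
    simp only [Pi.add_apply]
    split_ifs <;> simp

theorem cS_apply (k : ℕ) (F : F3L J X Y n) (j : List J) (x : List X) (y : List Y) :
    cS k F j x y = if x.length + y.length = k then F j x y else 0 := rfl

/-- part of level `|j| = k` -/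
def cJ (k : ℕ) : F3L J X Y n →+ F3L J X Y n where
  toFun F := fun j x y => if j.length = k then F j x y else 0
  map_zero' := by funext j x y; simp
  map_add' F G := by
    funext j x y
    simp only [Pi.add_apply]
    split_ifs <;> simp

theorem cJ_apply (k : ℕ) (F : F3L J X Y n) (j : List J) (x : List X) (y : List Y) :
    cJ k F j x y = if j.length = k then F j x y else 0 := rfl

theorem cS_top (F : F3L J X Y n) (K : ℕ) (h : ∀ k > K, cS k F = 0) : cS (K + 1) (D3 F) = DS (cS K F) := by
  funext j x y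
  rw [cS_apply, DS_apply]
  by_cases hxy : x.length + y.length = K + 1
  · rw [if_pos hxy, D3_apply]
    have h1 : dl j (fun j' => F j' x y) = 0 := by
      refine dl_eq_zero fun j' _ => ?_
      have := congrFun (congrFun (congrFun (h (K + 1) (by omega)) j') x) y
      rw [cS_apply, if_pos hxy] at this
      exact this
    rw [h1, zero_add, D2_apply, D2_apply]
    congr 2
    · refine dl_congr fun x' hx' => ?_
      rw [cS_apply, if_pos (by omega)]
    · congr 1
      refine dl_congr fun y' hy' => ?_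
      rw [cS_apply, if_pos (by omega)]
  · rw [if_neg hxy, D2_apply, dl_eq_zero, dl_eq_zero]
    · simp
    · intro y' hy'
      rw [cS_apply, if_neg (by omega)]
    · intro x' hx'
      rw [cS_apply, if_neg (by omega)]

theorem cJ_top (F : F3L J X Y n) (K : ℕ) (h : ∀ k > K, cJ k F = 0) : cJ (K + 1) (D3 F) = DJ (cJ K F) := by
  funext j x y
  rw [cJ_apply, DJ_apply]
  by_cases hj : j.length = K + 1
  · rw [if_pos hj, D3_apply]
    have h1 : F j = 0 := by
      funext x y
      have := congrFun (congrFun (congrFun (h (K + 1) (by omega)) j) x) y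
      rw [cJ_apply, if_pos hj] at this
      exact this
    rw [h1, map_zero]
    simp only [Pi.zero_apply, smul_zero, add_zero]
    refine dl_congr fun j' hj' => ?_
    rw [cJ_apply, if_pos (by omega)]
  · rw [if_neg hj, dl_eq_zero]
    intro j' hj'
    rw [cJ_apply, if_neg (by omega)]

theorem cS_idem (k : ℕ) (F : F3L J X Y n) : cS k (cS k F) = cS k F := by
  funext j x y
  simp only [cS_apply]
  split_ifs <;> rfl

theorem cS_ne (i k : ℕ) (F : F3L J X Y n) (h : i ≠ k) : cS i (cS k F) = 0 := by
  funext j x y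
  simp only [cS_apply]
  split_ifs with h1 h2
  · omega
  · rfl
  · rfl

theorem cJ_idem (k : ℕ) (F : F3L J X Y n) : cJ k (cJ k F) = cJ k F := by
  funext j x y
  simp only [cJ_apply]
  split_ifs <;> rfl

theorem cJ_ne (i k : ℕ) (F : F3L J X Y n) (h : i ≠ k) : cJ i (cJ k F) = 0 := by
  funext j x y
  simp only [cJ_apply]
  split_ifs with h1 h2
  · omega
  · rfl
  · rfl

end levels

section grp2
variable {J D E : Type} [Group D] [Group E] [MulAction (D × E) J] {n : ℕ}

theorem cS_mem (k : ℕ) (F : F3L J D E n) (h : F ∈ P3 J D E n) : cS k F ∈ P3 J D E n := by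
  obtain ⟨h1, h2, N, h3⟩ := h
  refine ⟨⟨fun x y => ?_, fun j => ⟨fun y => ?_, fun x => ?_⟩⟩, fun g j x y => ?_, N, fun j x y hN => ?_⟩
  · rw [cS_apply, h1.1]; simp
  · rw [cS_apply, (h1.2 j).1]; simp
  · rw [cS_apply, (h1.2 j).2]; simp
  · rw [cS_apply, cS_apply, h2 g j x y, List.length_map, List.length_map]
  · rw [cS_apply, h3 _ _ _ hN]; simp

theorem cJ_mem (k : ℕ) (F : F3L J D E n) (h : F ∈ P3 J D E n) : cJ k F ∈ P3 J D E n := by
  obtain ⟨h1, h2, N, h3⟩ := h
  refine ⟨⟨fun x y => ?_, fun j => ⟨fun y => ?_, fun x => ?_⟩⟩, fun g j x y => ?_, N, fun j x y hN => ?_⟩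
  · rw [cJ_apply, h1.1]; simp
  · rw [cJ_apply, (h1.2 j).1]; simp
  · rw [cJ_apply, (h1.2 j).2]; simp
  · rw [cJ_apply, cJ_apply, h2 g j x y, List.length_map]
  · rw [cJ_apply, h3 _ _ _ hN]; simp

/-- exactness in the `S` direction -/
theorem exS (φ : J → D × E) (hφ : ∀ g j, φ (g • j) = g * φ j) (k : ℕ) (hk : k > 2) (G : F3L J D E n)
    (hG : G ∈ P3 J D E n) (hc : cS k G = G) (hd : DS G = 0) :
    ∃ H ∈ P3 J D E n, cS (k - 1) H = H ∧ DS H = G := by
  obtain ⟨h1, h2, N, h3⟩ := hG
  have hlev : ∀ j x y, x.length + y.length ≠ k → G j x y = 0 := by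
    intro j x y h
    rw [← hc, cS_apply, if_neg h]
  have hD2 : ∀ j, D2 (G j) = 0 := by
    intro j
    funext x y
    have := congrFun (congrFun (congrFun hd j) x) y
    rw [DS_apply] at this
    have h4 : sg j.length • (sg j.length • D2 (G j) x y) = 0 := by rw [this]; simp
    rwa [smul_smul, sg_mul_self, one_smul] at h4
  let hp : J → F2L D E n → F2L D E n := fun a s x y =>
    if x = [] ∨ y = [] then 0 else s ((φ a).1 :: x) y + if x.length = 1 then s [(φ a).1] ((φ a).2 :: y) else 0
  have hp_nz : ∀ a s, Nz2 (hp a s) := fun a s => ⟨fun y => by simp [hp], fun x => by simp [hp]⟩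
  have hp_D2 : ∀ a j, D2 (hp a (G j)) = G j := by
    intro a j
    apply toS_inj
    rw [← toS_D2 (hp_nz a _)]
    have e : toS (hp a (G j)) = hA (φ a).1 (φ a).2 (toS (G j)) := rfl
    rw [e]
    refine hA_spec _ _ (h1.2 j).nzS ?_ ?_
    · rw [toS_D2 (h1.2 j), hD2 j]; rfl
    · rw [toS_f]
      exact hlev _ _ _ (by simp; omega)
  let H : F3L J D E n := fun j x y => match j with
    | [] => 0
    | a :: j' => sg (a :: j').length • hp a (G (a :: j')) x y
  have hH0 : ∀ x y, H [] x y = 0 := fun _ _ => rfl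
  have hHc : ∀ a j x y, H (a :: j) x y = sg (a :: j).length • hp a (G (a :: j)) x y := fun _ _ _ _ => rfl
  refine ⟨H, ⟨⟨hH0, fun j => ?_⟩, fun g j x y => ?_, N, fun j x y hN => ?_⟩, ?_, ?_⟩
  · rcases j with _ | ⟨a, j⟩
    · exact ⟨fun _ => rfl, fun _ => rfl⟩
    · refine ⟨fun y => ?_, fun x => ?_⟩
      · rw [hHc, (hp_nz a _).1, smul_zero]
      · rw [hHc, (hp_nz a _).2, smul_zero]
  · rcases j with _ | ⟨a, j⟩
    · rfl
    · rw [List.map_cons, hHc, hHc]
      have e1 : (g • a :: j.map (g • ·)).length = (a :: j).length := by simp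
      rw [e1]
      congr 1
      show (if x.map (g.1 * ·) = [] ∨ y.map (g.2 * ·) = [] then (0 : ZMod n) else _) = if x = [] ∨ y = [] then 0 else _
      have e2 : ∀ (x : List D) (y : List E), G (g • a :: j.map (g • ·)) (x.map (g.1 * ·)) (y.map (g.2 * ·)) =
          G (a :: j) x y := fun x y => h2 g (a :: j) x y
      have e3 : (φ (g • a)).1 = g.1 * (φ a).1 := by rw [hφ]; rfl
      have e4 : (φ (g • a)).2 = g.2 * (φ a).2 := by rw [hφ]; rfl
      have e5 := e2 ((φ a).1 :: x) y
      have e6 := e2 [(φ a).1] ((φ a).2 :: y)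
      simp only [List.map_cons, List.map_nil] at e5 e6
      rw [e3, e4, e5, e6]
      simp only [List.map_eq_nil_iff, List.length_map]
  · rcases j with _ | ⟨a, j⟩
    · rfl
    · rw [hHc]
      show sg _ • (if x = [] ∨ y = [] then (0 : ZMod n) else _) = 0
      by_cases hxy : x = [] ∨ y = []
      · rw [if_pos hxy, smul_zero]
      · rw [if_neg hxy, h3 _ _ _ (by simp at hN ⊢; omega)]
        by_cases hx1 : x.length = 1
        · rw [if_pos hx1, h3 _ _ _ (by simp at hN ⊢; omega)]; simp
        · rw [if_neg hx1]; simp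
  · funext j x y
    rw [cS_apply]
    split_ifs with hl
    · rfl
    · rcases j with _ | ⟨a, j⟩
      · rfl
      · rw [hHc]
        show 0 = sg _ • (if x = [] ∨ y = [] then (0 : ZMod n) else _)
        split_ifs with hxy hx1
        · simp
        · rw [hlev _ _ _ (by simp; omega), hlev _ _ _ (by simp; omega)]; simp
        · rw [hlev _ _ _ (by simp; omega)]; simp
  · funext j x y
    rw [DS_apply]
    rcases j with _ | ⟨a, j⟩
    · rw [h1.1]
      have : H [] = 0 := rfl
      rw [this, map_zero]; simp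
    · have : H (a :: j) = sg (a :: j).length • hp a (G (a :: j)) := rfl
      rw [this, map_zsmul, hp_D2]
      show sg _ • (sg _ • G (a :: j) x y) = _
      rw [smul_smul, sg_mul_self, one_smul]

/-- exactness in the `J` direction -/
theorem exJ (j0 : J) (k : ℕ) (hk : k > 1) (G : F3L J D E n)
    (hG : G ∈ P3 J D E n) (hc : cJ k G = G) (hd : DJ G = 0) :
    ∃ H ∈ P3 J D E n, cJ (k - 1) H = H ∧ DJ H = G := by
  obtain ⟨h1, h2, N, h3⟩ := hG
  have hlev : ∀ j x y, j.length ≠ k → G j x y = 0 := by
    intro j x y h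
    rw [← hc, cJ_apply, if_neg h]
  let H : F3L J D E n := fun j x y => match x, y with
    | a :: x', b :: y' => G (((a, b) : D × E) • j0 :: j) (a :: x') (b :: y')
    | _, _ => 0
  have hHc : ∀ j a x b y, H j (a :: x) (b :: y) = G (((a, b) : D × E) • j0 :: j) (a :: x) (b :: y) :=
    fun _ _ _ _ _ => rfl
  have hHn : ∀ j y, H j [] y = 0 := fun _ _ => rfl
  have hHn' : ∀ j x, H j x [] = 0 := fun _ x => by cases x <;> rfl
  refine ⟨H, ⟨⟨fun x y => ?_, fun j => ⟨hHn j, hHn' j⟩⟩, fun g j x y => ?_, N, fun j x y hN => ?_⟩, ?_, ?_⟩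
  · rcases x with _ | ⟨a, x⟩
    · rfl
    · rcases y with _ | ⟨b, y⟩
      · rfl
      · rw [hHc]
        exact hlev _ _ _ (by simp; omega)
  · rcases x with _ | ⟨a, x⟩
    · rfl
    · rcases y with _ | ⟨b, y⟩
      · rfl
      · rw [List.map_cons, List.map_cons, hHc, hHc, ← h2 g _ (a :: x) (b :: y)]
        simp only [List.map_cons]
        congr 2
        rw [← mul_smul]; rfl
  · rcases x with _ | ⟨a, x⟩
    · rfl
    · rcases y with _ | ⟨b, y⟩
      · rfl
      · rw [hHc]
        exact h3 _ _ _ (by simp at hN ⊢; omega)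
  · funext j x y
    rw [cJ_apply]
    split_ifs with hl
    · rfl
    · rcases x with _ | ⟨a, x⟩
      · rfl
      · rcases y with _ | ⟨b, y⟩
        · rfl
        · rw [hHc]
          exact (hlev _ _ _ (by simp; omega)).symm
  · funext j x y
    rw [DJ_apply]
    rcases x with _ | ⟨a, x⟩
    · rw [(h1.2 j).1]; simp [hHn]
    · rcases y with _ | ⟨b, y⟩
      · rw [(h1.2 j).2]; simp [hHn']
      · have e : (fun j' => H j' (a :: x) (b :: y)) =
            fun j' => G (((a, b) : D × E) • j0 :: j') (a :: x) (b :: y) := rfl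
        rw [e]
        have h4 := contr (((a, b) : D × E) • j0) j (fun j' => G j' (a :: x) (b :: y))
        have h5 := congrFun (congrFun (congrFun hd (((a, b) : D × E) • j0 :: j)) (a :: x)) (b :: y)
        rw [DJ_apply] at h5
        rw [h5] at h4
        rw [h4]
        simp

end grp2

end Crest.Agent.R204.SQP334
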