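import Crest.Agent.R204.E_803

/-!
# Row 204, block G, lemma SQ: Gysin lemma, the class `t` of an index two subgroup and its integral square
(helper334)
-/

set_option autoImplicit false
set_option linter.unusedSectionVars false

namespace Crest.Agent.R204.SQ803

open Co

variable {J B : Type*}

section ops
variable [AddCommGroup B] (e : J → Bool)

/-- `w1` on lists whose head has `e = false`, `w2` on those with `e = true` -/
def mix (w1 w2 : Co J B) : Co J B :=
  ⟨fun l => match l with
    | [] => 0
    | x :: l => if e x then w2.f (x :: l) else w1.f (x :: l)⟩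

@[simp] theorem mix_nil (w1 w2 : Co J B) : (mix e w1 w2).f [] = 0 := rfl
@[simp] theorem mix_cons (w1 w2 : Co J B) (x : J) (l : List J) :
    (mix e w1 w2).f (x :: l) = if e x then w2.f (x :: l) else w1.f (x :: l) := rfl

/-- multiplication by `t`, `t (x, y) = [e x ≠ e y]` -/
def tm : Co J B →+ Co J B where
  toFun F := ⟨fun l => match l with
    | [] => 0
    | [_] => 0
    | x :: y :: l => if e x = e y then 0 else F.f (y :: l)⟩
  map_zero' := Co.ext fun l => by
    rcases l with _ | ⟨x, _ | ⟨y, l⟩⟩
    · rfl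
    · rfl
    · show (if e x = e y then (0 : B) else 0) = 0
      split_ifs <;> rfl
  map_add' F G := Co.ext fun l => by
    rcases l with _ | ⟨x, _ | ⟨y, l⟩⟩
    · simp
    · simp
    · show (if e x = e y then (0 : B) else F.f (y :: l) + G.f (y :: l)) = _
      rw [add_f]
      show _ = (if e x = e y then (0 : B) else F.f (y :: l)) + (if e x = e y then (0 : B) else G.f (y :: l))
      split_ifs <;> simp

@[simp] theorem tm_nil (F : Co J B) : (tm e F).f [] = 0 := rfl
@[simp] theorem tm_single (F : Co J B) (x : J) : (tm e F).f [x] = 0 := rfl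
@[simp] theorem tm_cons (F : Co J B) (x y : J) (l : List J) :
    (tm e F).f (x :: y :: l) = if e x = e y then 0 else F.f (y :: l) := rfl

theorem dl_mix [Cx B] (w1 w2 : Co J B) (x : J) (l : List J) :
    dl (x :: l) (mix e w1 w2).f =
      (if e x then dl (x :: l) (nz w2.f) else dl (x :: l) (nz w1.f)) +
      (nz (mix e w1 w2).f l - if e x then nz w2.f l else nz w1.f l) := by
  have h : (fun l' => (mix e w1 w2).f (x :: l')) =
      fun l' => if e x then nz w2.f (x :: l') else nz w1.f (x :: l') := by
    funext l'; rw [mix_cons]; rfl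
  have h2 : nz (mix e w1 w2).f l = (mix e w1 w2).f l := by cases l <;> rfl
  rw [dl_cons, h, h2]
  by_cases hx : e x
  · simp only [hx, if_true]
    rw [dl_cons]; abel
  · simp only [hx, if_false, Bool.false_eq_true]
    rw [dl_cons]; abel

theorem δ_mix [Cx B] (w1 w2 : Co J B) (l : List J) :
    (Cx.δ (mix e w1 w2)).f l = (mix e (Cx.δ w1) (Cx.δ w2)).f l +
      (match l with
        | [] => 0
        | [_] => 0
        | x :: y :: l => if e x = e y then 0 else
            if e x then w1.f (y :: l) - w2.f (y :: l) else w2.f (y :: l) - w1.f (y :: l)) := by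
  rcases l with _ | ⟨x, l⟩
  · simp
  · have hn : nz (mix e w1 w2).f = (mix e w1 w2).f := nz_of rfl
    rw [δ_of (mix_nil e w1 w2), dl_mix, mix_cons, mix_cons]
    have hc : (if e x then dl (x :: l) (nz w2.f) else dl (x :: l) (nz w1.f)) +
        sg (x :: l).length • Cx.δ (if e x then w2.f (x :: l) else w1.f (x :: l)) =
        if e x then (Cx.δ w2).f (x :: l) else (Cx.δ w1).f (x :: l) := by
      split_ifs
      · rw [δ_eq, dlt_f]; rfl
      · rw [δ_eq, dlt_f]; rfl
    rw [← hc]
    rcases l with _ | ⟨y, l⟩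
    · simp
    · simp only [nz_cons, mix_cons]
      by_cases hx : e x <;> by_cases hy : e y <;> simp [hx, hy]
      all_goals abel

/-- **Gysin lemma** -/
theorem gysin [Cx B] (two : ∀ b : B, b + b = 0) (w1 w2 : Co J B) :
    Cx.δ (mix e w1 w2) = mix e (Cx.δ w1) (Cx.δ w2) + tm e (w1 + w2) := by
  refine Co.ext fun l => ?_
  rw [δ_mix, add_f]
  congr 1
  rcases l with _ | ⟨x, _ | ⟨y, l⟩⟩
  · rfl
  · rfl
  · simp only [tm_cons, add_f, sub_eq_add_of_two two]
    by_cases hx : e x <;> by_cases hy : e y <;> simp [hx, hy]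
    all_goals rw [add_comm]

theorem mix_self (w : Co J B) (h : w.f [] = 0) : mix e w w = w := by
  refine Co.ext fun l => ?_
  rcases l with _ | ⟨x, l⟩
  · rw [mix_nil, h]
  · rw [mix_cons]; split_ifs <;> rfl

theorem δ_tm [Cx B] (F : Co J B) : Cx.δ (tm e F) = (2 : ℤ) • tm e (tm e F) - tm e (Cx.δ F) := by
  refine Co.ext fun l => ?_
  rw [δ_of (tm_nil e F), sub_f, zsmul_f]
  rcases l with _ | ⟨x, _ | ⟨y, l⟩⟩
  · simp
  · simp [dl_cons]
  · rw [tm_cons, tm_cons, tm_cons, δ_eq, dlt_f]
    have h1 : (fun l' => (tm e F).f (x :: y :: l')) = fun l' => if e x = e y then 0 else nz F.f (y :: l') := rfl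
    have h2 : dl (y :: l) (fun l' => (tm e F).f (x :: l')) = (tm e F).f (x :: l) -
        if e x = e y then 0 else dl l (fun l' => nz F.f (y :: l')) := by
      rw [dl_cons, h1]
      split_ifs
      · rw [dl_zero]
      · rfl
    have h3 : sg (x :: y :: l).length = - sg (y :: l).length := sg_succ _
    rw [dl_cons, h2, h3, dl_cons y l (nz F.f), nz_cons]
    rcases l with _ | ⟨z, l⟩
    · by_cases hxy : e x = e y <;> simp [hxy]
    · rw [tm_cons, tm_cons, nz_cons]
      by_cases hx : e x <;> by_cases hy : e y <;> by_cases hz : e z <;> simp [hx, hy, hz, two_zsmul]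
      all_goals abel

theorem δ_tm_two [Cx B] (two : ∀ b : B, b + b = 0) (F : Co J B) : Cx.δ (tm e F) = tm e (Cx.δ F) := by
  have h2 : ∀ G : Co J B, (2 : ℤ) • G = 0 := fun G => Co.ext fun l => by
    rw [two_zsmul, add_f, two]; rfl
  have hn : ∀ G : Co J B, -G = G := fun G => Co.ext fun l => by
    rw [neg_f, neg_eq_iff_add_eq_zero, two]
  rw [δ_tm, h2, zero_sub, hn]

theorem δ_tm_tm [Cx B] (F : Co J B) : Cx.δ (tm e (tm e F)) = tm e (tm e (Cx.δ F)) := by
  rw [δ_tm, δ_tm, map_sub, map_zsmul]
  abel

/-- the reduction `ψ` commutes with `tm` -/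
theorem tm_pull {B' : Type*} [AddCommGroup B'] (ψ : B →+ B') (F : Co J B) :
    tm e (pull id ψ F) = pull id ψ (tm e F) := by
  refine Co.ext fun l => ?_
  rw [pull_f]
  rcases l with _ | ⟨x, _ | ⟨y, l⟩⟩
  · simp
  · simp
  · rw [List.map_id, tm_cons, tm_cons, pull_f, List.map_id]
    split_ifs
    · rw [map_zero]
    · rfl

end ops

section mul
variable [NonUnitalRing B] (e : J → Bool)

theorem tm_mul (F G : Co J B) : tm e F * G = tm e (F * G) := by
  refine Co.ext fun l => ?_
  rcases l with _ | ⟨x, _ | ⟨y, l⟩⟩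
  · rfl
  · rw [mul_f, cupl_cons]; simp
  · rw [mul_f, cupl_cons, tm_single, zero_mul, zero_add, tm_cons, mul_f, cupl_cons, cupl_cons]
    split_ifs with h
    · have : (fun l' => (tm e F).f (x :: y :: l')) = fun _ => 0 := by
        funext l'; rw [tm_cons, if_pos h]
      rw [this, cupl_zero_left, tm_cons, if_pos h, zero_mul, zero_add]
    · have : (fun l' => (tm e F).f (x :: y :: l')) = fun l' => F.f (y :: l') := by
        funext l'; rw [tm_cons, if_neg h]
      rw [this, tm_cons, if_neg h]

theorem kap_mul_tm (b : B) (G : Co J B) : kap b * tm e G = tm e (kap b * G) := by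
  refine Co.ext fun l => ?_
  rcases l with _ | ⟨x, _ | ⟨y, l⟩⟩
  · rfl
  · rw [kap_mul _ _ (by simp)]; simp
  · rw [kap_mul _ _ (by simp), tm_cons, tm_cons, kap_mul _ _ (by simp)]
    split_ifs
    · rw [mul_zero]
    · rfl

/-- the square of `t ^ i P` -/
theorem sq_tm_kap (i : ℕ) (P : B) : ((tm e)^[i] (kap P) : Co J B) * (tm e)^[i] (kap P) =
    (tm e)^[2 * i] (kap (P * P)) := by
  have h1 : ∀ (i : ℕ) (F G : Co J B), (tm e)^[i] F * G = (tm e)^[i] (F * G) := by
    intro i
    induction i with
    | zero => intro F G; rfl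
    | succ i ih => intro F G; rw [Function.iterate_succ_apply, ih, tm_mul, Function.iterate_succ_apply]
  have h2 : ∀ (i : ℕ) (G : Co J B), kap P * (tm e)^[i] G = (tm e)^[i] (kap P * G) := by
    intro i
    induction i with
    | zero => intro G; rfl
    | succ i ih => intro G; rw [Function.iterate_succ_apply, ih, kap_mul_tm, Function.iterate_succ_apply]
  rw [h1, h2, kap_mul_kap, ← Function.iterate_add_apply, two_mul]

end mul

end Crest.Agent.R204.SQ803
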