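import Crest.Agent.R204.SQwr_803
import Crest.Agent.R204.SQJ_761
import Crest.Agent.R204.SQP5_334
import Crest.Agent.R204.SQT_334

/-!
# Lemma SQ, final form (row 204, leaf G5; helper803, helper334, helper761, helper718)
-/

set_option autoImplicit false

namespace Crest.Agent.R204.SQ803

open Pont718 Coef947 Fs348

/-- `SQ` holds for all symmetric groups -/
theorem SQ_perm_all (w : ℕ) : SQ (Equiv.Perm (Fin w)) :=
  SQG334.SQ_perm SQ_iso SQ_one (fun G H _ _ _ _ hG hH => SQP334.SQ_prod G H hG hH)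
    (fun G _ _ hG => SQ_wr G hG) w

/-- **Lemma SQ**: cup squares of mod 2 cocycles on `Fs U w` vanish on reductions of cycles mod `2 ^ k`,
`2 ^ k ∤ w !` -/
theorem sqFs {w k : ℕ} (hN : 0 < k)
    (hw : ¬ 2 ^ k ∣ w.factorial) (U : Type) {m : ℕ} (hm : 0 < m) (u : Pont718.Co F2 (Fs U w))
    (hu : u ∘ₗ N.bd F2 _ = 0) (hum : IsDeg m u) (z : N (ZMod (2 ^ k)) (Fs U w)) (hz : N.bd _ _ z = 0) :
    cup u u (coN (Coef947.rho (2 ^ k) 2 (dvd_pow_self 2 hN.ne')) _ z) = 0 :=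
  SQG334.sqFs SQ_perm_all hN hw U hm u hu hum z hz

end Crest.Agent.R204.SQ803
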