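import Crest.Agent.R204.W_803
import Crest.Agent.R204.SigEx_718

/-!
# `SQ` for wreath products with `Z/2` (row 204, leaf G5; helper803)
-/

set_option autoImplicit false
set_option linter.unusedSectionVars false

namespace Crest.Agent.R204.SQ803

open Co
open scoped RegularWreathProduct

theorem SQ_wr (D : Type) [Group D] [Finite D] (hD : SQ D) :
    SQ (D ≀ᵣ Multiplicative (ZMod 2)) := by
  intro J _ hfree N hN m u hum huinv hud
  rcases isEmpty_or_nonempty J with hJ | ⟨⟨j0⟩⟩
  · -- `J` empty: only the empty list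
    have h0 : ∀ l : List J, l = [] := fun l => by
      cases l with
      | nil => rfl
      | cons a _ => exact (hJ.false a).elim
    refine ⟨fun _ => 0, fun _ => 0, fun l hl => absurd rfl hl, fun _ _ => rfl, fun l => dl_zero l,
      fun l hl => absurd rfl hl, rfl, fun _ _ => rfl, fun l => ?_⟩
    rw [h0 l]
    simp
  · obtain ⟨I, W, hW⟩ := SigEx718.exists_sig D J hfree
    letI := I
    have huB := (hW (ZMod 2) u).1 huinv
    have hu0 : u [] = 0 := by
      by_contra hc
      have := hum [] hc
      simp at this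
    have huF : (⟨u⟩ : Co J (ZMod 2)) ∈ FB W 2 := ⟨⟨hu0, fun g l => huB.1 g l⟩, huB.2⟩
    have hs := main_wr (u := ⟨u⟩) j0 W hN (fun p a ha => lift_of_SQ hD hN ha) huF hum hud
    obtain ⟨Y, v, Y', v', hY', hv', eY, ev, h1, h2, h3, h4, h5⟩ :=
      hs.out (fun f (hf : f ∈ FB W 2) => hf.1.1) (fun f (hf : f ∈ FB W (2 ^ N)) => hf.1.1) hum
    refine ⟨Y, v, h1, (hW _ Y).2 ⟨fun g l => ?_, fun l => ?_⟩, h2, h3, h4,
      (hW _ v).2 ⟨fun g l => ?_, fun l => ?_⟩, h5⟩
    · rw [eY]
      show (if (l.map fun j => g • j).length = 2 * m + 1 then Y'.f (l.map fun j => g • j) else 0) =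
        if l.length = 2 * m + 1 then Y'.f l else 0
      rw [List.length_map, hY'.1.2]
    · rw [eY]
      show (if (l.map W.σ).length = 2 * m + 1 then Y'.f (l.map W.σ) else 0) =
        if l.length = 2 * m + 1 then Y'.f l else 0
      rw [List.length_map, hY'.2]
    · rw [ev]
      show (if (l.map fun j => g • j).length = 2 * m then v'.f (l.map fun j => g • j) else 0) =
        if l.length = 2 * m then v'.f l else 0
      rw [List.length_map, hv'.1.2]
    · rw [ev]
      show (if (l.map W.σ).length = 2 * m then v'.f (l.map W.σ) else 0) =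
        if l.length = 2 * m then v'.f l else 0
      rw [List.length_map, hv'.2]

end Crest.Agent.R204.SQ803
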