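import Crest.Agent.R204.Thm_348

/-!
# Product maps of the thread model and surjectivity in homology (row 204, block G)
-/

set_option autoImplicit false

namespace Crest.Agent.R204.Fs348

open Finsupp Tr348

open Classical in
/-- union of sets of threads -/
noncomputable def un {U : Type} {n : ℕ} (A B : Finset (Fin (n + 1) → U)) :
    Finset (Fin (n + 1) → U) := A ∪ B

open Classical in
/-- difference of sets of threads -/
noncomputable def df {U : Type} {n : ℕ} (A B : Finset (Fin (n + 1) → U)) :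
    Finset (Fin (n + 1) → U) := A \ B

section

variable {U W : Type} {m n : ℕ}

theorem mem_un {A B : Finset (Fin (n + 1) → U)} {c : Fin (n + 1) → U} :
    c ∈ un A B ↔ c ∈ A ∨ c ∈ B := by simp [un]

theorem mem_df {A B : Finset (Fin (n + 1) → U)} {c : Fin (n + 1) → U} :
    c ∈ df A B ↔ c ∈ A ∧ c ∉ B := by simp [df]

theorem re_un (f : Fin (m + 1) → Fin (n + 1)) (A B : Finset (Fin (n + 1) → U)) :
    re f (un A B) = un (re f A) (re f B) := by
  ext g
  simp only [mem_re, mem_un]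
  constructor
  · rintro ⟨a, h | h, rfl⟩
    · exact Or.inl ⟨a, h, rfl⟩
    · exact Or.inr ⟨a, h, rfl⟩
  · rintro (⟨a, h, rfl⟩ | ⟨a, h, rfl⟩)
    · exact ⟨a, Or.inl h, rfl⟩
    · exact ⟨a, Or.inr h, rfl⟩

theorem mem_re_iff {A T : Finset (Fin (n + 1) → U)} (hA : CI A) (hT : T ⊆ A)
    (f : Fin (m + 1) → Fin (n + 1)) {c : Fin (n + 1) → U} (hc : c ∈ A) :
    c ∘ f ∈ re f T ↔ c ∈ T := by
  constructor
  · intro h
    obtain ⟨b, hb, hbc⟩ := mem_re.1 h
    have : b = c := hA.injOn f (hT hb) hc hbc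
    rwa [← this]
  · intro h; exact mem_re.2 ⟨c, h, rfl⟩

theorem re_df {A T : Finset (Fin (n + 1) → U)} (hA : CI A) (hT : T ⊆ A)
    (f : Fin (m + 1) → Fin (n + 1)) : re f (df A T) = df (re f A) (re f T) := by
  ext g
  simp only [mem_df]
  constructor
  · intro h
    obtain ⟨a, ha, rfl⟩ := mem_re.1 h
    rw [mem_df] at ha
    exact ⟨mem_re.2 ⟨a, ha.1, rfl⟩, fun h' => ha.2 ((mem_re_iff hA hT f ha.1).1 h')⟩
  · rintro ⟨h, h'⟩
    obtain ⟨a, ha, rfl⟩ := mem_re.1 h
    exact mem_re.2 ⟨a, mem_df.2 ⟨ha, fun h'' => h' ((mem_re_iff hA hT f ha).2 h'')⟩, rfl⟩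

theorem card_un {A B : Finset (Fin (n + 1) → U)} (h : ∀ c ∈ A, c ∉ B) :
    (un A B).card = A.card + B.card := by
  classical
  unfold un
  exact Finset.card_union_of_disjoint (Finset.disjoint_left.2 fun c hc => h c hc)

theorem card_df {A B : Finset (Fin (n + 1) → U)} (h : B ⊆ A) :
    (df A B).card = A.card - B.card := by
  classical
  unfold df
  exact Finset.card_sdiff_of_subset h

theorem df_subset (A B : Finset (Fin (n + 1) → U)) : df A B ⊆ A := fun _ h => (mem_df.1 h).1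

theorem un_df {A B : Finset (Fin (n + 1) → U)} (h : B ⊆ A) : un B (df A B) = A := by
  ext c
  rw [mem_un, mem_df]
  constructor
  · rintro (h' | h')
    · exact h h'
    · exact h'.1
  · intro h'
    by_cases h'' : c ∈ B
    · exact Or.inl h''
    · exact Or.inr ⟨h', h''⟩

end

section prod

variable (U W : Type) (a b : ℕ)

/-- threads of the left block -/
noncomputable def L {n : ℕ} {U W : Type} (T : Finset (Fin (n + 1) → U)) :
    Finset (Fin (n + 1) → U ⊕ W) := im (fun c i => Sum.inl (c i)) T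

/-- threads of the right block -/
noncomputable def Rt {n : ℕ} {U W : Type} (T : Finset (Fin (n + 1) → W)) :
    Finset (Fin (n + 1) → U ⊕ W) := im (fun c i => Sum.inr (c i)) T

variable {U W a b}

theorem L_ci {n : ℕ} {T : Finset (Fin (n + 1) → U)} (h : CI T) : CI (L (W := W) T) :=
  (vi_comp h Sum.inl_injective).ci

theorem Rt_ci {n : ℕ} {T : Finset (Fin (n + 1) → W)} (h : CI T) : CI (Rt (U := U) T) :=
  (vi_comp h Sum.inr_injective).ci

theorem mem_L {n : ℕ} {T : Finset (Fin (n + 1) → U)} {c : Fin (n + 1) → U ⊕ W} :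
    c ∈ L T ↔ ∃ t ∈ T, (fun i => Sum.inl (t i)) = c := mem_im

theorem mem_Rt {n : ℕ} {T : Finset (Fin (n + 1) → W)} {c : Fin (n + 1) → U ⊕ W} :
    c ∈ Rt T ↔ ∃ t ∈ T, (fun i => Sum.inr (t i)) = c := mem_im

theorem LR_disj {n : ℕ} {T : Finset (Fin (n + 1) → U)} {S : Finset (Fin (n + 1) → W)}
    {c : Fin (n + 1) → U ⊕ W} (h : c ∈ L T) : c ∉ Rt S := by
  intro h'
  obtain ⟨t, -, rfl⟩ := mem_L.1 h
  obtain ⟨s, -, hs⟩ := mem_Rt.1 h'
  exact absurd (congrFun hs 0) (by simp)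

theorem LR_ci {n : ℕ} {T : Finset (Fin (n + 1) → U)} {S : Finset (Fin (n + 1) → W)}
    (hT : CI T) (hS : CI S) : CI (un (L T) (Rt S)) := by
  intro i c hc c' hc' e
  rcases mem_un.1 hc with h | h <;> rcases mem_un.1 hc' with h' | h'
  · exact L_ci hT i h h' e
  · obtain ⟨t, -, rfl⟩ := mem_L.1 h
    obtain ⟨s, -, rfl⟩ := mem_Rt.1 h'
    exact absurd e (by simp)
  · obtain ⟨t, -, rfl⟩ := mem_L.1 h'
    obtain ⟨s, -, rfl⟩ := mem_Rt.1 h
    exact absurd e (by simp)
  · exact Rt_ci hS i h h' e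

theorem L_card {n : ℕ} {T : Finset (Fin (n + 1) → U)} (h : CI T) :
    (L (W := W) T).card = T.card := (vi_comp h Sum.inl_injective).card

theorem Rt_card {n : ℕ} {T : Finset (Fin (n + 1) → W)} (h : CI T) :
    (Rt (U := U) T).card = T.card := (vi_comp h Sum.inr_injective).card

theorem re_L {m n : ℕ} (f : Fin (m + 1) → Fin (n + 1)) (T : Finset (Fin (n + 1) → U)) :
    re f (L (W := W) T) = L (re f T) := re_im f (fun _ _ => rfl)

theorem re_Rt {m n : ℕ} (f : Fin (m + 1) → Fin (n + 1)) (T : Finset (Fin (n + 1) → W)) :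
    re f (Rt (U := U) T) = Rt (re f T) := re_im f (fun _ _ => rfl)

variable (U W a b)

/-- disjoint union, remembering the left block -/
noncomputable def prodP : SS.Hom ((Fs U a).prod (Fs W b)) (Ps (U ⊕ W) (a + b) a) :=
  ⟨fun n x => ⟨(un (L x.1.1) (Rt x.2.1), L x.1.1), LR_ci x.1.2.1 x.2.2.1,
    by rw [card_un fun c hc => LR_disj hc, L_card x.1.2.1, Rt_card x.2.2.1, x.1.2.2, x.2.2.2],
    fun c hc => mem_un.2 (Or.inl hc), by rw [L_card x.1.2.1, x.1.2.2]⟩,
   fun {m n} f x => by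
    refine Subtype.ext (Prod.ext ?_ ?_)
    · show un (L (re f x.1.1)) (Rt (re f x.2.1)) = re f (un (L x.1.1) (Rt x.2.1))
      rw [re_un, re_L, re_Rt]
    · show L (re f x.1.1) = re f (L x.1.1)
      rw [re_L]⟩

/-- disjoint union -/
noncomputable def prodF : SS.Hom ((Fs U a).prod (Fs W b)) (Fs (U ⊕ W) (a + b)) :=
  SS.Hom.comp (Ps.big (U ⊕ W) (a + b) a) (prodP U W a b)

theorem prodF_val {n : ℕ} (x : ((Fs U a).prod (Fs W b)).S n) :
    ((prodF U W a b).app n x).1 = un (L x.1.1) (Rt x.2.1) := rfl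

/-- the two parts of a pair -/
noncomputable def splitP : SS.Hom (Ps U (a + b) a) ((Fs U a).prod (Fs U b)) :=
  ⟨fun n x => (⟨x.1.2, x.2.1.mono x.2.2.2.1, x.2.2.2.2⟩,
    ⟨df x.1.1 x.1.2, x.2.1.mono (df_subset _ _), by
      rw [card_df x.2.2.2.1, x.2.2.1, x.2.2.2.2]; omega⟩),
   fun {m n} f x => by
    refine Prod.ext (Subtype.ext rfl) (Subtype.ext ?_)
    show df (re f x.1.1) (re f x.1.2) = re f (df x.1.1 x.1.2)
    rw [re_df x.2.1 x.2.2.2.1]⟩

open Classical in
/-- thread map of `prodP ∘ splitP` -/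
noncomputable def gs (n : ℕ) (x : (Ps U (a + b) a).S n) (c : Fin (n + 1) → U) (i : Fin (n + 1)) :
    U ⊕ U := if c ∈ x.1.2 then Sum.inl (c i) else Sum.inr (c i)

theorem gs_vi (n : ℕ) (x : (Ps U (a + b) a).S n) : VI (gs U a b n x) x.1.1 := by
  classical
  intro i c hc c' hc' e
  simp only [gs] at e
  by_cases h : c ∈ x.1.2 <;> by_cases h' : c' ∈ x.1.2
  · rw [if_pos h, if_pos h'] at e
    exact x.2.1 i hc hc' (Sum.inl_injective e)
  · rw [if_pos h, if_neg h'] at e; exact absurd e (by simp)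
  · rw [if_neg h, if_pos h'] at e; exact absurd e (by simp)
  · rw [if_neg h, if_neg h'] at e
    exact x.2.1 i hc hc' (Sum.inr_injective e)

theorem gs_nat (m n : ℕ) (f : Op m n) (x : (Ps U (a + b) a).S n) (c : Fin (n + 1) → U)
    (hc : c ∈ x.1.1) : gs U a b n x c ∘ f = gs U a b m ((Ps U (a + b) a).act f x) (c ∘ f) := by
  classical
  funext i
  have key : c ∘ f ∈ ((Ps U (a + b) a).act f x).1.2 ↔ c ∈ x.1.2 :=
    mem_re_iff x.2.1 x.2.2.2.1 f hc
  simp only [gs, Function.comp_apply]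
  by_cases h : c ∈ x.1.2
  · rw [if_pos h, if_pos (key.2 h)]
  · rw [if_neg h, if_neg (fun h' => h (key.1 h'))]

theorem prod_split : SS.Hom.comp (prodP U U a b) (splitP U a b) =
    Ps.tw (SS.Hom.id _) (gs U a b) (gs_vi U a b) (gs_nat U a b) := by
  classical
  refine SS.Hom.ext (funext fun n => funext fun x => Subtype.ext (Prod.ext ?_ ?_))
  · show un (L x.1.2) (Rt (df x.1.1 x.1.2)) = im (gs U a b n x) x.1.1
    ext g
    rw [mem_un, mem_L, mem_Rt, mem_im]
    constructor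
    · rintro (⟨t, ht, rfl⟩ | ⟨t, ht, rfl⟩)
      · exact ⟨t, x.2.2.2.1 ht, funext fun i => by simp only [gs, if_pos ht]⟩
      · rw [mem_df] at ht
        exact ⟨t, ht.1, funext fun i => by simp only [gs, if_neg ht.2]⟩
    · rintro ⟨t, ht, rfl⟩
      by_cases h : t ∈ x.1.2
      · exact Or.inl ⟨t, h, funext fun i => by simp only [gs, if_pos h]⟩
      · exact Or.inr ⟨t, mem_df.2 ⟨ht, h⟩, funext fun i => by simp only [gs, if_neg h]⟩
  · show L x.1.2 = im (gs U a b n x) x.1.2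
    ext g
    rw [mem_L, mem_im]
    constructor
    · rintro ⟨t, ht, rfl⟩
      exact ⟨t, ht, funext fun i => by simp only [gs, if_pos ht]⟩
    · rintro ⟨t, ht, rfl⟩
      exact ⟨t, ht, funext fun i => by simp only [gs, if_pos ht]⟩

theorem prod_split_htp : Htp (SS.Hom.comp (prodP U U a b) (splitP U a b))
    (Ps.rel (a + b) a (Sum.inl : U → U ⊕ U) Sum.inl_injective) := by
  rw [prod_split]
  exact Ps.tw_htp _ _ _ _ _ _ _

/-- `H (Fs U a × Fs U b) → H (Ps (U ⊕ U) (a+b) a)` is onto -/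
theorem prodP_surj (hI : HInv) (R : Type) [CommRing R] (k : U ⊕ U → U)
    (hk : Function.Injective k) : Function.Surjective (H.map R (prodP U U a b)) := by
  intro y
  obtain ⟨x, rfl⟩ := (Ps.rel_bij hI R (a + b) a (Sum.inl : U → U ⊕ U) Sum.inl_injective k hk).2 y
  refine ⟨H.map R (splitP U a b) x, ?_⟩
  rw [← H.map_comp', hI.eq R (prod_split_htp U a b)]

/-- if `C(a+b,a)` is odd then the product `H (Fs U a × Fs U b; F2) → H (Fs (U ⊕ U) (a+b); F2)` is
onto -/
theorem prodF_surj (hI : HInv) (k : U ⊕ U → U) (hk : Function.Injective k)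
    (ho : Odd ((a + b).choose a)) : Function.Surjective (H.map F2 (prodF U U a b)) := by
  intro y
  obtain ⟨x, rfl⟩ := (Ps.big_cov (U ⊕ U) (a + b) a).map_surjective_odd
    (fun n x => Ps.card_fib (U ⊕ U) (a + b) a x) ho y
  obtain ⟨z, rfl⟩ := prodP_surj U a b hI F2 k hk x
  exact ⟨z, by rw [prodF, H.map_comp']⟩

end prod

end Crest.Agent.R204.Fs348
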