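import Crest.Agent.R204.Span1_348
import Crest.Agent.R204.ThetaSS_265

/-!
# `θ : D(Fs U a) → Fs (Z/2 × U) (2a)` is onto in mod 2 homology (row 204, block G)
-/

set_option autoImplicit false

namespace Crest.Agent.R204.Fs348

open Finsupp Tr348 DK742 ThetaSS265

/-! ### orbits of a covering -/

section orbcov

variable {L K : SS} {p : SS.Hom L K}

theorem orb_cov (hp : Cov p) (τ : Invo L) (hτ : ∀ (n : ℕ) (x : L.S n), p.app n (τ.g.app n x) = p.app n x) :
    Cov (orbLift τ p hτ) where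
  bij := by
    intro m n f x
    refine ⟨?_, ?_, ?_⟩
    · intro y hy
      obtain ⟨u, rfl⟩ := proj_surj τ n y
      have : p.app n u = x := hy
      show (orbLift τ p hτ).app m ((orb L τ).act f ((proj τ).app n u)) = K.act f x
      rw [← (proj τ).nat, orbLift_proj, p.nat, this]
    · intro y hy y' hy' e
      obtain ⟨u, rfl⟩ := proj_surj τ n y
      obtain ⟨u', rfl⟩ := proj_surj τ n y'
      have h1 : p.app n u = x := hy
      have h2 : p.app n u' = x := hy'
      rw [← (proj τ).nat, ← (proj τ).nat, proj_eq_iff] at e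
      rw [proj_eq_iff]
      rcases e with e | e
      · exact Or.inl ((hp.bij f x).injOn h2 h1 e)
      · refine Or.inr ((hp.bij f x).injOn h2 (show p.app n (τ.g.app n u) = x by rw [hτ, h1]) ?_)
        rw [e, τ.g.nat]
    · intro z hz
      obtain ⟨w, rfl⟩ := proj_surj τ m z
      have h1 : p.app m w = K.act f x := hz
      obtain ⟨u, hu, rfl⟩ := (hp.bij f x).surjOn h1
      exact ⟨(proj τ).app n u, hu, ((proj τ).nat f u).symm⟩
  fin := by
    intro n x
    refine Set.Finite.subset ((hp.fin x).image ((proj τ).app n)) ?_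
    intro y hy
    obtain ⟨u, rfl⟩ := proj_surj τ n y
    exact ⟨u, hy, rfl⟩

theorem orb_cov_card (hp : Cov p) (τ : Invo L)
    (hτ : ∀ (n : ℕ) (x : L.S n), p.app n (τ.g.app n x) = p.app n x)
    (hfree : ∀ (n : ℕ) (x : L.S n), τ.g.app n x ≠ x) {n : ℕ} (x : K.S n) :
    (hp.fib x).card = ((orb_cov hp τ hτ).fib x).card * 2 := by
  classical
  rw [Finset.card_eq_sum_card_fiberwise (f := (proj τ).app n) (t := (orb_cov hp τ hτ).fib x)]
  · rw [Finset.sum_const_nat (m := 2)]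
    intro y hy
    obtain ⟨u, rfl⟩ := proj_surj τ n y
    have h1 : p.app n u = x := (orb_cov hp τ hτ).mem_fib.1 hy
    have : (hp.fib x).filter (fun w => (proj τ).app n w = (proj τ).app n u) = {u, τ.g.app n u} := by
      ext w
      rw [Finset.mem_filter, hp.mem_fib, Finset.mem_insert, Finset.mem_singleton]
      constructor
      · rintro ⟨-, h⟩
        rw [eq_comm, proj_eq_iff] at h
        exact h
      · rintro (rfl | rfl)
        · exact ⟨h1, rfl⟩
        · exact ⟨by rw [hτ, h1], proj_g τ n u⟩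
    rw [this, Finset.card_pair (hfree n u).symm]
  · intro w hw
    exact (orb_cov hp τ hτ).mem_fib.2 (hp.mem_fib.1 hw)

/-- maps out of `(K/τ) × J` -/
def orbLift2 {K J M : SS} (τ : Invo K) (h : SS.Hom (K.prod J) M)
    (hh : ∀ (n : ℕ) (x : K.S n) (j : J.S n), h.app n (τ.g.app n x, j) = h.app n (x, j)) :
    SS.Hom ((orb K τ).prod J) M :=
  ⟨fun n y => Quotient.lift (s := τ.rel n) (fun x => h.app n (x, y.2)) (by
      rintro x x' (rfl | rfl)
      · rfl
      · exact (hh n x y.2).symm) y.1,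
   fun {m n} f y => by
    obtain ⟨y1, y2⟩ := y
    obtain ⟨x, rfl⟩ := proj_surj τ n y1
    exact h.nat f (x, y2)⟩

theorem orbLift2_proj {K J M : SS} (τ : Invo K) (h : SS.Hom (K.prod J) M)
    (hh : ∀ (n : ℕ) (x : K.S n) (j : J.S n), h.app n (τ.g.app n x, j) = h.app n (x, j))
    (n : ℕ) (x : K.S n) (j : J.S n) :
    (orbLift2 τ h hh).app n ((proj τ).app n x, j) = h.app n (x, j) := rfl

/-- equivariant homotopies descend to orbits -/
theorem orb_htp {K M : SS} (τ : Invo K) (σ : Invo M) (h : SS.Hom (K.prod (SS.std 1)) M)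
    (hh : ∀ (n : ℕ) (x : K.S n) (j : (SS.std 1).S n),
      h.app n (τ.g.app n x, j) = σ.g.app n (h.app n (x, j)))
    (f g : SS.Hom K M) (hf : Equi τ σ f) (hg : Equi τ σ g)
    (h0 : SS.Hom.comp h (cyl K 0) = f) (h1 : SS.Hom.comp h (cyl K 1) = g) :
    Htp (orbMap τ σ f hf) (orbMap τ σ g hg) := by
  refine ⟨orbLift2 τ (SS.Hom.comp (proj σ) h) (fun n x j => ?_), ?_, ?_⟩
  · show (proj σ).app n (h.app n (τ.g.app n x, j)) = (proj σ).app n (h.app n (x, j))
    rw [hh, proj_g]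
  · subst h0
    refine SS.Hom.ext (funext fun n => funext fun y => ?_)
    obtain ⟨x, rfl⟩ := proj_surj τ n y
    rfl
  · subst h1
    refine SS.Hom.ext (funext fun n => funext fun y => ?_)
    obtain ⟨x, rfl⟩ := proj_surj τ n y
    rfl

end orbcov

/-! ### the complement involution -/

section compl

variable (U : Type) (a : ℕ)

theorem df_df {n : ℕ} {A T : Finset (Fin (n + 1) → U)} (h : T ⊆ A) : df A (df A T) = T := by
  ext c
  simp only [mem_df]
  constructor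
  · rintro ⟨h1, h2⟩
    by_contra h3
    exact h2 ⟨h1, h3⟩
  · intro h1
    exact ⟨h h1, fun h2 => h2.2 h1⟩

/-- exchange the two halves -/
noncomputable def cInv : Invo (Ps U (a + a) a) where
  g := ⟨fun n x => ⟨(x.1.1, df x.1.1 x.1.2), x.2.1, x.2.2.1, df_subset _ _, by
      rw [card_df x.2.2.2.1, x.2.2.1, x.2.2.2.2]; omega⟩,
    fun {m n} f x => Subtype.ext (Prod.ext rfl (re_df x.2.1 x.2.2.2.1 f).symm)⟩
  invol n x := Subtype.ext (Prod.ext rfl (df_df U x.2.2.2.1))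

theorem cInv_val {n : ℕ} (x : (Ps U (a + a) a).S n) :
    ((cInv U a).g.app n x).1 = (x.1.1, df x.1.1 x.1.2) := rfl

theorem cInv_free (ha : 0 < a) (n : ℕ) (x : (Ps U (a + a) a).S n) : (cInv U a).g.app n x ≠ x := by
  intro h
  have h1 : df x.1.1 x.1.2 = x.1.2 := congrArg (fun z => z.1.2) h
  have h2 : 0 < x.1.2.card := by rw [x.2.2.2.2]; exact ha
  obtain ⟨c, hc⟩ := Finset.card_pos.1 h2
  have h3 := hc
  rw [← h1, mem_df] at h3
  exact h3.2 hc

/-- unordered halves -/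
noncomputable abbrev Hs : SS := orb (Ps U (a + a) a) (cInv U a)

/-- forget the halves -/
noncomputable def Hs.big : SS.Hom (Hs U a) (Fs U (a + a)) :=
  orbLift (cInv U a) (Ps.big U (a + a) a) (fun _ _ => rfl)

theorem Hs.big_cov : Cov (Hs.big U a) := orb_cov (Ps.big_cov U (a + a) a) (cInv U a) _

theorem Hs.card_fib (ha : 0 < a) {n : ℕ} (x : (Fs U (a + a)).S n) :
    (a + a).choose a = ((Hs.big_cov U a).fib x).card * 2 := by
  rw [← Ps.card_fib U (a + a) a x]
  exact orb_cov_card (Ps.big_cov U (a + a) a) (cInv U a) _ (cInv_free U a ha) x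

end compl

/-! ### the comparison with `D(Fs U a)` -/

section theta

variable {U : Type}

open Classical in
/-- the set of positions at time `i` -/
noncomputable def vx {n : ℕ} (T : Finset (Fin (n + 1) → U)) (i : Fin (n + 1)) : Finset U :=
  T.image (fun c => c i)

theorem mem_vx {n : ℕ} {T : Finset (Fin (n + 1) → U)} {i : Fin (n + 1)} {u : U} :
    u ∈ vx T i ↔ ∃ c ∈ T, c i = u := by simp [vx]

theorem vx_re {m n : ℕ} (f : Fin (m + 1) → Fin (n + 1)) (T : Finset (Fin (n + 1) → U))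
    (j : Fin (m + 1)) : vx (re f T) j = vx T (f j) := by
  ext u
  simp only [mem_vx, mem_re]
  constructor
  · rintro ⟨_, ⟨c, hc, rfl⟩, rfl⟩; exact ⟨c, hc, rfl⟩
  · rintro ⟨c, hc, rfl⟩; exact ⟨_, ⟨c, hc, rfl⟩, rfl⟩

open Classical in
/-- which of two finite sets comes first -/
noncomputable def sg (S T : Finset U) : ZMod 2 := if WellOrderingRel S T then 0 else 1

theorem sg_swap {S T : Finset U} (h : S ≠ T) : sg T S = sg S T + 1 := by
  classical
  unfold sg
  rcases trichotomous_of WellOrderingRel S T with h1 | h1 | h1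
  · rw [if_pos h1, if_neg (asymm_of WellOrderingRel h1)]; rfl
  · exact absurd h1 h
  · rw [if_pos h1, if_neg (asymm_of WellOrderingRel h1)]; decide

/-- put the threads of `T` on the sheets `e` -/
noncomputable def sh {n : ℕ} (e : Fin (n + 1) → ZMod 2) (T : Finset (Fin (n + 1) → U)) :
    Finset (Fin (n + 1) → ZMod 2 × U) := im (fun c i => (e i, c i)) T

theorem mem_sh {n : ℕ} {e : Fin (n + 1) → ZMod 2} {T : Finset (Fin (n + 1) → U)}
    {g : Fin (n + 1) → ZMod 2 × U} : g ∈ sh e T ↔ ∃ c ∈ T, (fun i => (e i, c i)) = g := mem_im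

theorem re_sh {m n : ℕ} (f : Fin (m + 1) → Fin (n + 1)) (e : Fin (n + 1) → ZMod 2)
    (T : Finset (Fin (n + 1) → U)) : re f (sh e T) = sh (e ∘ f) (re f T) :=
  re_im f (fun _ _ => rfl)

theorem sh_vi {n : ℕ} (e : Fin (n + 1) → ZMod 2) {T : Finset (Fin (n + 1) → U)} (h : CI T) :
    VI (fun c i => (e i, c i)) T := fun i _ ha _ hb E => h i ha hb (Prod.ext_iff.1 E).2

theorem sh_disj {n : ℕ} {e : Fin (n + 1) → ZMod 2} {S T : Finset (Fin (n + 1) → U)}
    {g : Fin (n + 1) → ZMod 2 × U} (h : g ∈ sh e T) : g ∉ sh (fun i => e i + 1) S := by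
  intro h'
  obtain ⟨c, -, rfl⟩ := mem_sh.1 h
  obtain ⟨d, -, hd⟩ := mem_sh.1 h'
  have := (Prod.ext_iff.1 (congrFun hd 0)).1
  simp at this

theorem sh_ci {n : ℕ} {e : Fin (n + 1) → ZMod 2} {S T : Finset (Fin (n + 1) → U)}
    (hT : CI T) (hS : CI S) : CI (un (sh e T) (sh (fun i => e i + 1) S)) := by
  intro i g hg g' hg' E
  rcases mem_un.1 hg with h | h <;> rcases mem_un.1 hg' with h' | h'
  · exact (sh_vi e hT).ci i h h' E
  · obtain ⟨c, -, rfl⟩ := mem_sh.1 h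
    obtain ⟨d, -, rfl⟩ := mem_sh.1 h'
    have := (Prod.ext_iff.1 E).1
    simp at this
  · obtain ⟨c, -, rfl⟩ := mem_sh.1 h
    obtain ⟨d, -, rfl⟩ := mem_sh.1 h'
    have := (Prod.ext_iff.1 E).1
    simp at this
  · exact (sh_vi _ hS).ci i h h' E

variable (U) (a : ℕ)

/-- the source of `θ` before taking orbits -/
abbrev E0 (K : SS) : SS := SS.prod EZ2 (K.prod K)

/-- involution of `E0` -/
def eInv (K : SS) : Invo (E0 K) := invE.prod (Invo.swap K)

/-- `D(K) = EZ/2 ×_{Z/2} K²` -/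
abbrev DD (K : SS) : SS := orb (E0 K) (eInv K)

/-- `(e; T, S) ↦ (T^e ∪ S^{e+1}, T^e)` -/
noncomputable def F0 : SS.Hom (E0 (Fs U a)) (Ps (ZMod 2 × U) (a + a) a) :=
  ⟨fun n x => ⟨(un (sh x.1 x.2.1.1) (sh (fun i => x.1 i + 1) x.2.2.1), sh x.1 x.2.1.1),
    sh_ci x.2.1.2.1 x.2.2.2.1,
    by rw [card_un fun c hc => sh_disj hc, sh, sh, (sh_vi _ x.2.1.2.1).card,
      (sh_vi _ x.2.2.2.1).card, x.2.1.2.2, x.2.2.2.2],
    fun c hc => mem_un.2 (Or.inl hc), by rw [sh, (sh_vi _ x.2.1.2.1).card, x.2.1.2.2]⟩,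
   fun {m n} f x => by
    refine Subtype.ext (Prod.ext ?_ ?_)
    · show un (sh (x.1 ∘ f) (re f x.2.1.1)) (sh (fun i => x.1 (f i) + 1) (re f x.2.2.1)) =
        re f (un (sh x.1 x.2.1.1) (sh (fun i => x.1 i + 1) x.2.2.1))
      rw [re_un, re_sh, re_sh]; rfl
    · show sh (x.1 ∘ f) (re f x.2.1.1) = re f (sh x.1 x.2.1.1)
      rw [re_sh]⟩

theorem F0_equi : Equi (eInv (Fs U a)) (cInv (ZMod 2 × U) a) (F0 U a) := by
  intro n x
  refine Subtype.ext (Prod.ext ?_ ?_)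
  · show un (sh (fun i => x.1 i + 1) x.2.2.1) (sh (fun i => x.1 i + 1 + 1) x.2.1.1) =
      un (sh x.1 x.2.1.1) (sh (fun i => x.1 i + 1) x.2.2.1)
    have : (fun i => x.1 i + 1 + 1) = x.1 := by
      funext i
      have : (1 : ZMod 2) + 1 = 0 := by decide
      rw [add_assoc, this, add_zero]
    rw [this]
    ext g; rw [mem_un, mem_un, or_comm]
  · show sh (fun i => x.1 i + 1) x.2.2.1 =
      df (un (sh x.1 x.2.1.1) (sh (fun i => x.1 i + 1) x.2.2.1)) (sh x.1 x.2.1.1)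
    ext g
    rw [mem_df, mem_un]
    constructor
    · intro h
      refine ⟨Or.inr h, fun h' => sh_disj h' h⟩
    · rintro ⟨h | h, h'⟩
      · exact absurd h h'
      · exact h

/-- `θ : D(Fs U a) → Fs (Z/2 × U) (2a)` -/
noncomputable def theta : SS.Hom (DD (Fs U a)) (Fs (ZMod 2 × U) (a + a)) :=
  SS.Hom.comp (Hs.big (ZMod 2 × U) a) (orbMap (eInv (Fs U a)) (cInv (ZMod 2 × U) a) (F0 U a) (F0_equi U a))

theorem theta_proj_val {n : ℕ} (x : (E0 (Fs U a)).S n) :
    ((theta U a).app n ((proj (eInv (Fs U a))).app n x)).1 =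
      un (sh x.1 x.2.1.1) (sh (fun i => x.1 i + 1) x.2.2.1) := rfl

/-- `(A, T) ↦ (s; T, A \ T)` -/
noncomputable def G0 : SS.Hom (Ps U (a + a) a) (E0 (Fs U a)) :=
  ⟨fun n x => (fun i => sg (vx x.1.2 i) (vx (df x.1.1 x.1.2) i), (splitP U a a).app n x),
   fun {m n} f x => by
    refine Prod.ext ?_ ((splitP U a a).nat f x)
    show (fun j => sg (vx (re f x.1.2) j) (vx (df (re f x.1.1) (re f x.1.2)) j)) =
      fun j => sg (vx x.1.2 (f j)) (vx (df x.1.1 x.1.2) (f j))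
    funext j
    rw [← re_df x.2.1 x.2.2.2.1, vx_re, vx_re]⟩

theorem vx_ne (ha : 0 < a) {n : ℕ} (x : (Ps U (a + a) a).S n) (i : Fin (n + 1)) :
    vx x.1.2 i ≠ vx (df x.1.1 x.1.2) i := by
  intro h
  have h2 : 0 < x.1.2.card := by rw [x.2.2.2.2]; exact ha
  obtain ⟨c, hc⟩ := Finset.card_pos.1 h2
  have h3 : c i ∈ vx (df x.1.1 x.1.2) i := by rw [← h]; exact mem_vx.2 ⟨c, hc, rfl⟩
  obtain ⟨d, hd, hdc⟩ := mem_vx.1 h3
  rw [mem_df] at hd
  have : d = c := x.2.1 i hd.1 (x.2.2.2.1 hc) hdc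
  exact hd.2 (this ▸ hc)

theorem G0_equi (ha : 0 < a) : Equi (cInv U a) (eInv (Fs U a)) (G0 U a) := by
  intro n x
  refine Prod.ext ?_ (Prod.ext (Subtype.ext rfl) (Subtype.ext ?_))
  · show (fun i => sg (vx (df x.1.1 x.1.2) i) (vx (df x.1.1 (df x.1.1 x.1.2)) i)) =
      fun i => sg (vx x.1.2 i) (vx (df x.1.1 x.1.2) i) + 1
    funext i
    rw [df_df U x.2.2.2.1, sg_swap (vx_ne U a ha x i)]
  · show df x.1.1 (df x.1.1 x.1.2) = x.1.2
    rw [df_df U x.2.2.2.1]

open Classical in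
/-- thread map of `F0 ∘ G0` -/
noncomputable def gq (n : ℕ) (x : (Ps U (a + a) a).S n) (c : Fin (n + 1) → U) (i : Fin (n + 1)) :
    ZMod 2 × U :=
  (if c ∈ x.1.2 then sg (vx x.1.2 i) (vx (df x.1.1 x.1.2) i)
    else sg (vx x.1.2 i) (vx (df x.1.1 x.1.2) i) + 1, c i)

theorem gq_vi (n : ℕ) (x : (Ps U (a + a) a).S n) : VI (gq U a n x) x.1.1 :=
  fun i _ hc _ hc' e => x.2.1 i hc hc' (Prod.ext_iff.1 e).2

theorem gq_nat (m n : ℕ) (f : Op m n) (x : (Ps U (a + a) a).S n) (c : Fin (n + 1) → U)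
    (hc : c ∈ x.1.1) : gq U a n x c ∘ f = gq U a m ((Ps U (a + a) a).act f x) (c ∘ f) := by
  classical
  funext i
  have key : c ∘ f ∈ ((Ps U (a + a) a).act f x).1.2 ↔ c ∈ x.1.2 :=
    mem_re_iff x.2.1 x.2.2.2.1 f hc
  have e1 : vx ((Ps U (a + a) a).act f x).1.2 i = vx x.1.2 (f i) := vx_re _ _ _
  have e2 : vx (df ((Ps U (a + a) a).act f x).1.1 ((Ps U (a + a) a).act f x).1.2) i =
      vx (df x.1.1 x.1.2) (f i) := by
    show vx (df (re f x.1.1) (re f x.1.2)) i = _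
    rw [← re_df x.2.1 x.2.2.2.1, vx_re]
  simp only [gq, Function.comp_apply, e1, e2]
  by_cases h : c ∈ x.1.2
  · rw [if_pos h, if_pos (key.2 h)]
  · rw [if_neg h, if_neg (fun h' => h (key.1 h'))]

theorem F0_G0 : SS.Hom.comp (F0 U a) (G0 U a) =
    Ps.tw (SS.Hom.id _) (gq U a) (gq_vi U a) (gq_nat U a) := by
  classical
  refine SS.Hom.ext (funext fun n => funext fun x => Subtype.ext (Prod.ext ?_ ?_))
  · show un (sh (fun i => sg (vx x.1.2 i) (vx (df x.1.1 x.1.2) i)) x.1.2)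
      (sh (fun i => sg (vx x.1.2 i) (vx (df x.1.1 x.1.2) i) + 1) (df x.1.1 x.1.2)) =
      im (gq U a n x) x.1.1
    ext g
    rw [mem_un, mem_sh, mem_sh, mem_im]
    constructor
    · rintro (⟨t, ht, rfl⟩ | ⟨t, ht, rfl⟩)
      · exact ⟨t, x.2.2.2.1 ht, funext fun i => by simp only [gq, if_pos ht]⟩
      · rw [mem_df] at ht
        exact ⟨t, ht.1, funext fun i => by simp only [gq, if_neg ht.2]⟩
    · rintro ⟨t, ht, rfl⟩
      by_cases h : t ∈ x.1.2
      · exact Or.inl ⟨t, h, funext fun i => by simp only [gq, if_pos h]⟩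
      · exact Or.inr ⟨t, mem_df.2 ⟨ht, h⟩, funext fun i => by simp only [gq, if_neg h]⟩
  · show sh (fun i => sg (vx x.1.2 i) (vx (df x.1.1 x.1.2) i)) x.1.2 = im (gq U a n x) x.1.2
    ext g
    rw [mem_sh, mem_im]
    constructor
    · rintro ⟨t, ht, rfl⟩
      exact ⟨t, ht, funext fun i => by simp only [gq, if_pos ht]⟩
    · rintro ⟨t, ht, rfl⟩
      exact ⟨t, ht, funext fun i => by simp only [gq, if_pos ht]⟩

end theta

end Crest.Agent.R204.Fs348
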