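import Crest.Agent.R204.Span2_348

/-!
# `θ : D(Fs U a) → Fs (Z/2 × U) (2a)` is onto in mod 2 homology if `C(2a,a)/2` is odd
-/

set_option autoImplicit false

namespace Crest.Agent.R204.Fs348

open Finsupp Tr348 DK742 ThetaSS265

section

variable {U W X : Type}

theorem im_df {n : ℕ} {G : (Fin (n + 1) → U) → Fin (n + 1) → W} {A T : Finset (Fin (n + 1) → U)}
    (hG : VI G A) (hT : T ⊆ A) : im G (df A T) = df (im G A) (im G T) := by
  ext g
  simp only [mem_im, mem_df]
  constructor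
  · rintro ⟨c, ⟨hc, hc'⟩, rfl⟩
    refine ⟨⟨c, hc, rfl⟩, ?_⟩
    rintro ⟨d, hd, hdc⟩
    have : d = c := hG.injOn (hT hd) hc hdc
    exact hc' (this ▸ hd)
  · rintro ⟨⟨c, hc, rfl⟩, h⟩
    exact ⟨c, ⟨hc, fun h' => h ⟨c, h', rfl⟩⟩, rfl⟩

theorem im_congr {n : ℕ} {G G' : (Fin (n + 1) → U) → Fin (n + 1) → W}
    {A : Finset (Fin (n + 1) → U)} (h : ∀ c ∈ A, G c = G' c) : im G A = im G' A := by
  ext g
  simp only [mem_im]
  constructor
  · rintro ⟨c, hc, rfl⟩; exact ⟨c, hc, (h c hc).symm⟩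
  · rintro ⟨c, hc, rfl⟩; exact ⟨c, hc, h c hc⟩

/-- invariant families of thread maps give equivariant maps -/
theorem tw_equi {a : ℕ} (G : ∀ n, (Ps U (a + a) a).S n → (Fin (n + 1) → U) → Fin (n + 1) → W)
    (hi : ∀ n x, VI (G n x) ((SS.Hom.id (Ps U (a + a) a)).app n x).1.1)
    (hn : ∀ (m n : ℕ) (f : Op m n) (x : (Ps U (a + a) a).S n),
      ∀ c ∈ ((SS.Hom.id (Ps U (a + a) a)).app n x).1.1,
      G n x c ∘ f = G m ((Ps U (a + a) a).act f x) (c ∘ f))
    (hE : ∀ n (x : (Ps U (a + a) a).S n), ∀ c ∈ x.1.1, G n ((cInv U a).g.app n x) c = G n x c) :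
    Equi (cInv U a) (cInv W a) (Ps.tw (SS.Hom.id _) G hi hn) := by
  intro n x
  refine Subtype.ext (Prod.ext ?_ ?_)
  · show im (G n ((cInv U a).g.app n x)) x.1.1 = im (G n x) x.1.1
    exact im_congr (hE n x)
  · show im (G n ((cInv U a).g.app n x)) (df x.1.1 x.1.2) = df (im (G n x) x.1.1) (im (G n x) x.1.2)
    have e := im_df (show VI (G n x) x.1.1 from hi n x) x.2.2.2.1
    rw [← e]
    exact im_congr fun c hc => hE n x c (df_subset _ _ hc)

/-- homotopy on unordered halves -/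
theorem Hs.tw_htp {a : ℕ} (G G' : ∀ n, (Ps U (a + a) a).S n → (Fin (n + 1) → U) → Fin (n + 1) → W)
    (hi : ∀ n x, VI (G n x) ((SS.Hom.id (Ps U (a + a) a)).app n x).1.1)
    (hi' : ∀ n x, VI (G' n x) ((SS.Hom.id (Ps U (a + a) a)).app n x).1.1)
    (hn : ∀ (m n : ℕ) (f : Op m n) (x : (Ps U (a + a) a).S n),
      ∀ c ∈ ((SS.Hom.id (Ps U (a + a) a)).app n x).1.1,
      G n x c ∘ f = G m ((Ps U (a + a) a).act f x) (c ∘ f))
    (hn' : ∀ (m n : ℕ) (f : Op m n) (x : (Ps U (a + a) a).S n),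
      ∀ c ∈ ((SS.Hom.id (Ps U (a + a) a)).app n x).1.1,
      G' n x c ∘ f = G' m ((Ps U (a + a) a).act f x) (c ∘ f))
    (hE : ∀ n (x : (Ps U (a + a) a).S n), ∀ c ∈ x.1.1, G n ((cInv U a).g.app n x) c = G n x c)
    (hE' : ∀ n (x : (Ps U (a + a) a).S n), ∀ c ∈ x.1.1, G' n ((cInv U a).g.app n x) c = G' n x c) :
    Htp (orbMap (cInv U a) (cInv W a) _ (tw_equi G hi hn hE))
      (orbMap (cInv U a) (cInv W a) _ (tw_equi G' hi' hn' hE')) := by
  refine orb_htp (cInv U a) (cInv W a)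
    (Ps.tw (SS.fst (Ps U (a + a) a) (SS.std 1))
    (fun n x c i => if tm x.2 i = 0 then G n x.1 c i else G' n x.1 c i) ?_ ?_) ?_ _ _ _ _ ?_ ?_
  · intro n x i
    by_cases h : tm x.2 i = 0
    · simp only [h, if_true]; exact hi n x.1 i
    · simp only [h, if_false]; exact hi' n x.1 i
  · intro m n f x c hc
    funext i
    have h1 := congrFun (hn m n f x.1 c hc) i
    have h2 := congrFun (hn' m n f x.1 c hc) i
    simp only [Function.comp_apply] at h1 h2 ⊢
    show (if tm x.2 (f i) = 0 then G n x.1 c (f i) else G' n x.1 c (f i)) =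
      (if tm x.2 (f i) = 0 then _ else _)
    rw [h1, h2]; rfl
  · intro n x j
    have hVI : VI (fun c i => if tm j i = 0 then G n x c i else G' n x c i) x.1.1 := by
      intro i
      by_cases h : tm j i = 0
      · simp only [h, if_true]; exact hi n x i
      · simp only [h, if_false]; exact hi' n x i
    have hEE : ∀ c ∈ x.1.1, (fun i => if tm j i = 0 then G n ((cInv U a).g.app n x) c i
        else G' n ((cInv U a).g.app n x) c i) =
        fun i => if tm j i = 0 then G n x c i else G' n x c i := by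
      intro c hc
      funext i
      rw [hE n x c hc, hE' n x c hc]
    refine Subtype.ext (Prod.ext ?_ ?_)
    · show im (fun c i => if tm j i = 0 then G n ((cInv U a).g.app n x) c i
        else G' n ((cInv U a).g.app n x) c i) x.1.1 =
        im (fun c i => if tm j i = 0 then G n x c i else G' n x c i) x.1.1
      exact im_congr hEE
    · show im (fun c i => if tm j i = 0 then G n ((cInv U a).g.app n x) c i
        else G' n ((cInv U a).g.app n x) c i) (df x.1.1 x.1.2) =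
        df (im (fun c i => if tm j i = 0 then G n x c i else G' n x c i) x.1.1)
          (im (fun c i => if tm j i = 0 then G n x c i else G' n x c i) x.1.2)
      rw [← im_df hVI x.2.2.2.1]
      exact im_congr fun c hc => hEE c (df_subset _ _ hc)
  · refine SS.Hom.ext (funext fun n => funext fun x => Subtype.ext (Prod.ext ?_ ?_)) <;>
    · show im _ _ = im _ _
      congr 1
  · refine SS.Hom.ext (funext fun n => funext fun x => Subtype.ext (Prod.ext ?_ ?_)) <;>
    · show im _ _ = im _ _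
      congr 1

theorem rel_equi (a : ℕ) (φ : U → W) (hφ : Function.Injective φ) :
    Equi (cInv U a) (cInv W a) (Ps.rel (a + a) a φ hφ) :=
  tw_equi _ _ _ (fun _ _ _ _ => rfl)

/-- relabelling on unordered halves -/
noncomputable def Hs.rel (a : ℕ) (φ : U → W) (hφ : Function.Injective φ) :
    SS.Hom (Hs U a) (Hs W a) := orbMap _ _ (Ps.rel (a + a) a φ hφ) (rel_equi a φ hφ)

theorem Hs.rel_htp (a : ℕ) (φ ψ : U → W) (hφ : Function.Injective φ) (hψ : Function.Injective ψ) :
    Htp (Hs.rel a φ hφ) (Hs.rel a ψ hψ) :=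
  Hs.tw_htp _ _ _ _ _ _ (fun _ _ _ _ => rfl) (fun _ _ _ _ => rfl)

theorem Hs.rel_comp (a : ℕ) (φ : U → W) (hφ : Function.Injective φ) (ψ : W → X)
    (hψ : Function.Injective ψ) : SS.Hom.comp (Hs.rel a ψ hψ) (Hs.rel a φ hφ) =
      Hs.rel a (ψ ∘ φ) (hψ.comp hφ) := by
  refine SS.Hom.ext (funext fun n => funext fun y => ?_)
  obtain ⟨x, rfl⟩ := proj_surj (cInv U a) n y
  have := congrArg (fun h => SS.Hom.app h n x) (Ps.rel_comp (a + a) a φ hφ ψ hψ)
  exact congrArg ((proj (cInv X a)).app n) this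

theorem Hs.rel_id (a : ℕ) : Hs.rel a (id : U → U) Function.injective_id = SS.Hom.id _ := by
  refine SS.Hom.ext (funext fun n => funext fun y => ?_)
  obtain ⟨x, rfl⟩ := proj_surj (cInv U a) n y
  have := congrArg (fun h => SS.Hom.app h n x) (Ps.rel_id (U := U) (a + a) a)
  exact congrArg ((proj (cInv U a)).app n) this

theorem Hs.rel_bij (hI : HInv) (R : Type) [CommRing R] (a : ℕ) (φ : U → W)
    (hφ : Function.Injective φ) (k : W → U) (hk : Function.Injective k) :
    Function.Bijective (H.map R (Hs.rel a φ hφ)) := by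
  have h1 : ∀ x, H.map R (Hs.rel a k hk) (H.map R (Hs.rel a φ hφ) x) = x := by
    intro x
    rw [← H.map_comp', Hs.rel_comp, hI.eq R (Hs.rel_htp a (k ∘ φ) id _ Function.injective_id),
      Hs.rel_id, H.map_id']
  have h2 : ∀ x, H.map R (Hs.rel a φ hφ) (H.map R (Hs.rel a k hk) x) = x := by
    intro x
    rw [← H.map_comp', Hs.rel_comp, hI.eq R (Hs.rel_htp a (φ ∘ k) id _ Function.injective_id),
      Hs.rel_id, H.map_id']
  exact ⟨Function.LeftInverse.injective h1, Function.RightInverse.surjective h2⟩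

variable (U) (a : ℕ)

theorem gq_inv (ha : 0 < a) (n : ℕ) (x : (Ps U (a + a) a).S n) (c : Fin (n + 1) → U)
    (hc : c ∈ x.1.1) : gq U a n ((cInv U a).g.app n x) c = gq U a n x c := by
  classical
  have two : (1 : ZMod 2) + 1 = 0 := by decide
  funext i
  have e1 : ((cInv U a).g.app n x).1.2 = df x.1.1 x.1.2 := rfl
  have e2 : df ((cInv U a).g.app n x).1.1 (df x.1.1 x.1.2) = x.1.2 := df_df U x.2.2.2.1
  simp only [gq, e1, e2]
  rw [sg_swap (vx_ne U a ha x i)]
  by_cases h : c ∈ x.1.2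
  · rw [if_pos h, if_neg (fun h' => (mem_df.1 h').2 h), add_assoc, two, add_zero]
  · rw [if_neg h, if_pos (mem_df.2 ⟨hc, h⟩)]

theorem inj0 : Function.Injective (fun u : U => ((0 : ZMod 2), u)) :=
  fun _ _ h => (Prod.ext_iff.1 h).2

theorem FG_htp (ha : 0 < a) : Htp
    (SS.Hom.comp (orbMap (eInv (Fs U a)) (cInv (ZMod 2 × U) a) (F0 U a) (F0_equi U a))
      (orbMap (cInv U a) (eInv (Fs U a)) (G0 U a) (G0_equi U a ha)))
    (Hs.rel a (fun u : U => ((0 : ZMod 2), u)) (inj0 U)) := by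
  have h := Hs.tw_htp (gq U a) (fun _ _ c i => ((0 : ZMod 2), c i)) (gq_vi U a)
    (fun _ x => vi_comp x.2.1 (inj0 U)) (gq_nat U a) (fun _ _ _ _ _ _ => rfl)
    (gq_inv U a ha) (fun _ _ _ _ => rfl)
  have e : SS.Hom.comp (orbMap (eInv (Fs U a)) (cInv (ZMod 2 × U) a) (F0 U a) (F0_equi U a))
      (orbMap (cInv U a) (eInv (Fs U a)) (G0 U a) (G0_equi U a ha)) =
      orbMap (cInv U a) (cInv (ZMod 2 × U) a) _ (tw_equi (gq U a) (gq_vi U a) (gq_nat U a)
        (gq_inv U a ha)) := by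
    refine SS.Hom.ext (funext fun n => funext fun y => ?_)
    obtain ⟨x, rfl⟩ := proj_surj (cInv U a) n y
    have := congrArg (fun h => SS.Hom.app h n x) (F0_G0 U a)
    exact congrArg ((proj (cInv (ZMod 2 × U) a)).app n) this
  rw [e]
  exact h

/-- `H (D(Fs U a)) → H (Hs (Z/2 × U) a)` is onto -/
theorem F_surj (hI : HInv) (R : Type) [CommRing R] (ha : 0 < a) (k : ZMod 2 × U → U)
    (hk : Function.Injective k) : Function.Surjective
      (H.map R (orbMap (eInv (Fs U a)) (cInv (ZMod 2 × U) a) (F0 U a) (F0_equi U a))) := by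
  intro y
  obtain ⟨x, rfl⟩ := (Hs.rel_bij hI R a (fun u : U => ((0 : ZMod 2), u)) (inj0 U) k hk).2 y
  refine ⟨H.map R (orbMap (cInv U a) (eInv (Fs U a)) (G0 U a) (G0_equi U a ha)) x, ?_⟩
  rw [← H.map_comp', hI.eq R (FG_htp U a ha)]

/-- if `C(2a,a) = 2m`, `m` odd, then `θ_* : H (D(Fs U a); F2) → H (Fs (Z/2 × U) (2a); F2)` is onto -/
theorem theta_surj (hI : HInv) (ha : 0 < a) (k : ZMod 2 × U → U) (hk : Function.Injective k)
    (m : ℕ) (hm : (a + a).choose a = m * 2) (ho : Odd m) :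
    Function.Surjective (H.map F2 (theta U a)) := by
  intro y
  obtain ⟨x, rfl⟩ := (Hs.big_cov (ZMod 2 × U) a).map_surjective_odd (m := m)
    (fun n x => by
      have := Hs.card_fib (ZMod 2 × U) a ha x
      omega) ho y
  obtain ⟨z, rfl⟩ := F_surj U a hI F2 ha k hk x
  exact ⟨z, by rw [theta, H.map_comp']⟩

end

end Crest.Agent.R204.Fs348
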