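import Crest.Agent.R204.Span3_348
import Crest.Agent.R204.Par_348
import Crest.Agent.R204.Thr_328
import Crest.Agent.R204.Pw_742
import Crest.Agent.R204.Gr_334
import Crest.Agent.R204.HtpInv_334
import Crest.Agent.R204.C5T_557

/-!
# Spanning theorem for the homology of the symmetric groups (row 204, block G)

Bridge to `Thr_328`, and the induction principle: a family of subspaces of `H (Fs U v; F2)` containing
the point classes, closed under products and the operations `e_i ⊗ x ⊗ x`, is everything.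
-/

set_option autoImplicit false

noncomputable section

namespace Crest.Agent.R204.Span348

open Finsupp SS Tr348 Fs348 DK742 EZ271

theorem hInv : HInv := HtpInv334.homotopyInv

section bridge

variable {U W : Type}

theorem im_eq_pu {n : ℕ} (f : U → W) (A : Finset (Fin (n + 1) → U)) :
    im (fun c i => f (c i)) A = Thr328.pu f A := by
  ext g
  rw [mem_im, Thr328.mem_pu]; rfl

theorem rel_eq_map (v : ℕ) (f : U ↪ W) : Fs.rel v f f.injective = Thr328.map v f :=
  SS.Hom.ext (funext fun _ => funext fun _ => Subtype.ext (im_eq_pu f _))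

/-- an injection induces a bijection in homology as soon as the target embeds in the source -/
theorem map_bij (R : Type) [CommRing R] (v : ℕ) (f : U ↪ W) (k : W ↪ U) :
    Function.Bijective (H.map R (Thr328.map v f)) := by
  rw [← rel_eq_map]
  exact Fs.rel_bij hInv R v f f.injective k k.injective

theorem prodF_eq (a b : ℕ) : prodF U W a b = Thr328.djV U W a b := by
  refine SS.Hom.ext (funext fun n => funext fun x => Subtype.ext ?_)
  rw [prodF_val, Thr328.djV_val]
  ext g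
  rw [Fs348.mem_un, Thr328.mem_du]
  simp only [L, Rt, mem_im]
  constructor
  · rintro (⟨c, hc, rfl⟩ | ⟨c, hc, rfl⟩)
    · exact Or.inl ⟨c, hc, rfl⟩
    · exact Or.inr ⟨c, hc, rfl⟩
  · rintro (⟨c, hc, rfl⟩ | ⟨c, hc, rfl⟩)
    · exact Or.inl ⟨c, hc, rfl⟩
    · exact Or.inr ⟨c, hc, rfl⟩

theorem djV_surj (k : U ⊕ U ↪ U) (a b : ℕ) (ho : Odd ((a + b).choose a)) :
    Function.Surjective (H.map F2 (Thr328.djV U U a b)) := by
  rw [← prodF_eq]
  exact prodF_surj U a b hInv k k.injective ho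

/-- relabelling of the two sheets -/
def shf (p : ZMod 2 × U) : U ⊕ U := if p.1 = 0 then Sum.inl p.2 else Sum.inr p.2

theorem shf_inj : Function.Injective (shf (U := U)) := by
  have hz : ∀ z : ZMod 2, z = 0 ∨ z = 1 := by decide
  rintro ⟨a, u⟩ ⟨b, v⟩ h
  unfold shf at h
  rcases hz a with rfl | rfl <;> rcases hz b with rfl | rfl
  · simp at h; rw [h]
  · simp at h
  · simp at h
  · simp at h; rw [h]

theorem theta_rel (a : ℕ) : SS.Hom.comp (Fs.rel (a + a) (shf (U := U)) shf_inj) (theta U a) =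
    Thr328.thtVO U a := by
  refine SS.Hom.ext (funext fun n => funext fun y => ?_)
  obtain ⟨x, rfl⟩ := proj_surj (eInv (Fs U a)) n y
  refine Subtype.ext ?_
  show im (fun c i => shf (c i)) (Fs348.un (sh x.1 x.2.1.1) (sh (fun i => x.1 i + 1) x.2.2.1)) =
    Thr328.th x.1 x.2.1.1 x.2.2.1
  have hz : ∀ z : ZMod 2, z = 0 ∨ z = 1 := by decide
  have h11 : (1 : ZMod 2) + 1 = 0 := by decide
  have e0 : ∀ c : Fin (n + 1) → U, (fun i => shf (x.1 i, c i)) = Thr328.side x.1 0 c := by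
    intro c; funext i; simp [shf, Thr328.side]
  have e1 : ∀ c : Fin (n + 1) → U, (fun i => shf (x.1 i + 1, c i)) = Thr328.side x.1 1 c := by
    intro c; funext i; simp [shf, Thr328.side]
  ext g
  rw [mem_im, Thr328.mem_th]
  constructor
  · rintro ⟨c, hc, rfl⟩
    rcases Fs348.mem_un.1 hc with h | h
    · obtain ⟨d, hd, rfl⟩ := mem_sh.1 h
      exact Or.inl ⟨d, hd, (e0 d).symm⟩
    · obtain ⟨d, hd, rfl⟩ := mem_sh.1 h
      exact Or.inr ⟨d, hd, (e1 d).symm⟩
  · rintro (⟨d, hd, rfl⟩ | ⟨d, hd, rfl⟩)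
    · exact ⟨_, Fs348.mem_un.2 (Or.inl (mem_sh.2 ⟨d, hd, rfl⟩)), e0 d⟩
    · exact ⟨_, Fs348.mem_un.2 (Or.inr (mem_sh.2 ⟨d, hd, rfl⟩)), e1 d⟩

/-- `θ : D(Fs U a) → Fs (U ⊕ U) (2a)` on 742's `D` -/
def thF (U : Type) (a : ℕ) : Hom (DX AltSS.full (Fs U a)) (Fs (U ⊕ U) (a + a)) := Thr328.thtVO U a

/-- `θ` on the skeleta -/
def thM (U : Type) (M a : ℕ) : Hom (DX (AltSS.skel M) (Fs U a)) (Fs (U ⊕ U) (a + a)) :=
  (thF U a).comp (DXX (AltSS.skFull M) (Fs U a))

theorem thF_surj (k : U ⊕ U ↪ U) (a m : ℕ) (ha : 0 < a) (hm : (a + a).choose a = m * 2)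
    (ho : Odd m) : Function.Surjective (H.map F2 (thF U a)) := by
  have hk : Function.Injective (fun p : ZMod 2 × U => k (shf p)) := k.injective.comp shf_inj
  intro y
  let k' : U ⊕ U → ZMod 2 × U := fun s => (0, k s)
  have hk' : Function.Injective k' := fun s t h => k.injective (Prod.ext_iff.1 h).2
  obtain ⟨z, rfl⟩ := (Fs.rel_bij hInv F2 (a + a) (shf (U := U)) shf_inj k' hk').2 y
  obtain ⟨w, rfl⟩ := theta_surj U a hInv ha _ hk m hm ho z
  refine ⟨w, ?_⟩
  rw [← H.map_comp', theta_rel]; rfl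

end bridge

/-! ## cross products in homology and the two spanning inputs -/

section inputs

/-- `H K → H L → H (K × L)` -/
def xH {K L : SS} : H F2 K →ₗ[F2] H F2 L →ₗ[F2] H F2 (K.prod L) := Hd2 (cross F2) bd_cross2

theorem xH_mk {K L : SS} (x : N F2 K) (hx : N.bd F2 K x = 0) (y : N F2 L) (hy : N.bd F2 L y = 0) :
    xH (Hd.mk _ x hx) (Hd.mk _ y hy) = Hd.mk (N.bd F2 _) (cross F2 x y)
      (by rw [bd_cross2, hx, hy]; simp) := rfl

theorem xH_gr {K L : SS} {p q : ℕ} {x : H F2 K} {y : H F2 L} (hx : x ∈ H.gr F2 K p)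
    (hy : y ∈ H.gr F2 L q) : xH x y ∈ H.gr F2 (K.prod L) (p + q) := by
  obtain ⟨a, ha, ha', rfl⟩ := exists_rep_gr hx
  obtain ⟨b, hb, hb', rfl⟩ := exists_rep_gr hy
  rw [xH_mk]
  exact DK742.mk_mem_gr _ (cross_gr ha' hb')

/-- cells exist in all dimensions of the full `E Z/2` -/
theorem le_full (i : ℕ) : (i : ℕ∞) ≤ AltSS.full.M := le_top

/-- Künneth, spanning part -/
def KunSpan : Prop := ∀ K L : SS,
  Submodule.span F2 {z : H F2 (K.prod L) | ∃ x y, z = xH x y} = ⊤

/-- `H (D K)` is spanned by the classes `e_i ⊗ x ⊗ x` and `e_0 ⊗ x ⊗ y` -/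
def DSpan : Prop := ∀ K : SS, Submodule.span F2
  ({z : H F2 (DX AltSS.full K) | ∃ i x, z = pw AltSS.full i (le_full (i + 1)) x} ∪
    {z | ∃ x y, z = pr AltSS.full x y}) = ⊤

/-- homogeneous generation -/
theorem gr_le_of_span {K : SS} {S : Set (H F2 K)} (hS : Submodule.span F2 S = ⊤)
    (hh : ∀ s ∈ S, ∃ n, s ∈ H.gr F2 K n) {t : ℕ} {Q : Submodule F2 (H F2 K)}
    (hQ : ∀ s ∈ S, s ∈ H.gr F2 K t → s ∈ Q) : H.gr F2 K t ≤ Q := by
  intro y hy
  have h1 : y ∈ Submodule.span F2 S := by rw [hS]; trivial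
  have h2 : ∀ z ∈ Submodule.span F2 S, Gr334.prH F2 K t z ∈ Q := by
    intro z hz
    induction hz using Submodule.span_induction with
    | mem s hs =>
      obtain ⟨n, hn⟩ := hh s hs
      by_cases e : n = t
      · subst e
        rw [Gr334.prH_of_mem hn]; exact hQ s hs hn
      · rw [Gr334.prH_of_mem_ne e hn]; exact Q.zero_mem
    | zero => rw [map_zero]; exact Q.zero_mem
    | add a b _ _ ha hb => rw [map_add]; exact Q.add_mem ha hb
    | smul r a _ ha => rw [map_smul]; exact Q.smul_mem r ha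
  rw [← Gr334.prH_of_mem hy]
  exact h2 y h1

/-- homogeneous Künneth spanning -/
theorem KunSpan.gr (hK : KunSpan) {K L : SS} {t : ℕ} {Q : Submodule F2 (H F2 (K.prod L))}
    (hQ : ∀ p q x y, p + q = t → x ∈ H.gr F2 K p → y ∈ H.gr F2 L q → xH x y ∈ Q) :
    H.gr F2 (K.prod L) t ≤ Q := by
  refine gr_le_of_span (S := {z | ∃ p q x y, x ∈ H.gr F2 K p ∧ y ∈ H.gr F2 L q ∧ z = xH x y}) ?_ ?_ ?_
  · rw [eq_top_iff, ← hK K L, Submodule.span_le]
    rintro _ ⟨x, y, rfl⟩
    refine Gr334.H_induction (p := fun x => xH x y ∈ Submodule.span F2 _) x ?_ ?_ ?_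
    · rw [map_zero, LinearMap.zero_apply]; exact Submodule.zero_mem _
    · intro a b ha hb; rw [map_add, LinearMap.add_apply]; exact Submodule.add_mem _ ha hb
    · intro p x hx
      refine Gr334.H_induction (p := fun y => xH x y ∈ Submodule.span F2 _) y ?_ ?_ ?_
      · rw [map_zero]; exact Submodule.zero_mem _
      · intro a b ha hb; rw [map_add]; exact Submodule.add_mem _ ha hb
      · intro q y hy
        exact Submodule.subset_span ⟨p, q, x, y, hx, hy, rfl⟩
  · rintro _ ⟨p, q, x, y, hx, hy, rfl⟩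
    exact ⟨p + q, xH_gr hx hy⟩
  · rintro _ ⟨p, q, x, y, hx, hy, rfl⟩ h
    by_cases e : p + q = t
    · exact hQ p q x y e hx hy
    · have h0 := Gr334.prH_of_mem_ne e (xH_gr hx hy)
      rw [Gr334.prH_of_mem h] at h0
      rw [h0]; exact Q.zero_mem

/-- homogeneous spanning of `H (D K)` -/
theorem DSpan.gr (hD : DSpan) {K : SS} {t : ℕ} {Q : Submodule F2 (H F2 (DX AltSS.full K))}
    (hQ : ∀ i n x, i + 2 * n = t → x ∈ H.gr F2 K n → pw AltSS.full i (le_full (i + 1)) x ∈ Q)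
    (hQ' : ∀ p q x y, p + q = t → x ∈ H.gr F2 K p → y ∈ H.gr F2 K q → pr AltSS.full x y ∈ Q) :
    H.gr F2 (DX AltSS.full K) t ≤ Q := by
  refine gr_le_of_span (S := {z | ∃ i n x, x ∈ H.gr F2 K n ∧ z = pw AltSS.full i (le_full (i + 1)) x} ∪
    {z | ∃ p q x y, x ∈ H.gr F2 K p ∧ y ∈ H.gr F2 K q ∧ z = pr AltSS.full x y}) ?_ ?_ ?_
  · rw [eq_top_iff, ← hD K, Submodule.span_le]
    rintro _ (⟨i, x, rfl⟩ | ⟨x, y, rfl⟩)
    · refine Gr334.H_induction (p := fun x => pw AltSS.full i (le_full (i + 1)) x ∈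
        Submodule.span F2 _) x ?_ ?_ ?_
      · rw [map_zero]; exact Submodule.zero_mem _
      · intro a b ha hb; rw [map_add]; exact Submodule.add_mem _ ha hb
      · intro n x hx
        exact Submodule.subset_span (Or.inl ⟨i, n, x, hx, rfl⟩)
    · refine Gr334.H_induction (p := fun x => pr AltSS.full x y ∈ Submodule.span F2 _) x ?_ ?_ ?_
      · rw [map_zero, LinearMap.zero_apply]; exact Submodule.zero_mem _
      · intro a b ha hb; rw [map_add, LinearMap.add_apply]; exact Submodule.add_mem _ ha hb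
      · intro p x hx
        refine Gr334.H_induction (p := fun y => pr AltSS.full x y ∈ Submodule.span F2 _) y ?_ ?_ ?_
        · rw [map_zero]; exact Submodule.zero_mem _
        · intro a b ha hb; rw [map_add]; exact Submodule.add_mem _ ha hb
        · intro q y hy
          exact Submodule.subset_span (Or.inr ⟨p, q, x, y, hx, hy, rfl⟩)
  · rintro _ (⟨i, n, x, hx, rfl⟩ | ⟨p, q, x, y, hx, hy, rfl⟩)
    · exact ⟨i + 2 * n, pw_gr _ i _ hx⟩
    · exact ⟨p + q, pr_gr _ hx hy⟩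
  · rintro _ (⟨i, n, x, hx, rfl⟩ | ⟨p, q, x, y, hx, hy, rfl⟩) h
    · by_cases e : i + 2 * n = t
      · exact hQ i n x e hx
      · have h0 := Gr334.prH_of_mem_ne e (pw_gr AltSS.full i (le_full (i + 1)) hx)
        rw [Gr334.prH_of_mem h] at h0
        rw [h0]; exact Q.zero_mem
    · by_cases e : p + q = t
      · exact hQ' p q x y e hx hy
      · have h0 := Gr334.prH_of_mem_ne e (pr_gr AltSS.full hx hy)
        rw [Gr334.prH_of_mem h] at h0
        rw [h0]; exact Q.zero_mem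

/-- lifting homogeneous classes -/
theorem exists_gr_lift {K L : SS} {f : Hom K L} (h : Function.Surjective (H.map F2 f)) {t : ℕ}
    {y : H F2 L} (hy : y ∈ H.gr F2 L t) : ∃ x ∈ H.gr F2 K t, H.map F2 f x = y := by
  obtain ⟨x, hx⟩ := h y
  exact ⟨Gr334.prH F2 K t x, Gr334.prH_mem t x, by rw [← Gr334.prH_map, hx, Gr334.prH_of_mem hy]⟩

end inputs

end Crest.Agent.R204.Span348
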