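import Crest.Agent.R204.Span4_348

/-!
# The generation theorem for the homology of the symmetric groups (row 204, block G)
-/

set_option autoImplicit false

noncomputable section

namespace Crest.Agent.R204.Span348

open Finsupp SS Tr348 Fs348 DK742 EZ271

/-! ### `Fs U 0` and `Fs U 1` -/

section small

variable {U : Type}

/-- if the identity is homotopic to a map which factors through a point, the homology is spanned by the
class of a vertex -/
theorem span_of_const {K : SS} (v : K.S 0) {f : Hom K K} (hf : f = SS.constHom K K v)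
    (h : H.map F2 f = H.map F2 (Hom.id K)) (x : H F2 K) : ∃ r : F2, x = r • C5T557.vtx F2 v := by
  have h1 : H.map F2 f x = x := by rw [h, H.map_id']
  obtain ⟨a, ha, rfl⟩ := Hd.mk_surj _ x
  rw [hf, C5T557.mapH_constHom] at h1
  exact ⟨_, h1.symm⟩

theorem Fs_zero_ext {n : ℕ} (x y : (Fs U 0).S n) : x = y := by
  refine Subtype.ext ?_
  have hx := Finset.card_eq_zero.1 x.2.2
  have hy := Finset.card_eq_zero.1 y.2.2
  rw [hx, hy]

theorem span_zero (v : (Fs U 0).S 0) (x : H F2 (Fs U 0)) : ∃ r : F2, x = r • C5T557.vtx F2 v := by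
  refine span_of_const v (f := Hom.id _) ?_ rfl x
  exact SS.Hom.ext (funext fun n => funext fun y => Fs_zero_ext _ _)

theorem CI_card_one {n : ℕ} {A : Finset (Fin (n + 1) → U)} (h : A.card = 1)
    (G : (Fin (n + 1) → U) → Fin (n + 1) → U) : VI G A := by
  intro i c hc d hd _
  obtain ⟨e, rfl⟩ := Finset.card_eq_one.1 h
  rw [Finset.mem_coe, Finset.mem_singleton] at hc hd
  rw [hc, hd]

theorem span_one (v : (Fs U 1).S 0) (x : H F2 (Fs U 1)) : ∃ r : F2, x = r • C5T557.vtx F2 v := by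
  obtain ⟨c, hc⟩ := Finset.card_eq_one.1 v.2.2
  have htp := Fs.tw_htp (Hom.id (Fs U 1)) (fun _ _ d i => c 0) (fun _ _ d i => d i)
    (fun n x => CI_card_one x.2.2 _) (fun n x => CI_card_one x.2.2 _)
    (fun _ _ _ _ _ _ => rfl) (fun _ _ _ _ _ _ => rfl)
  refine span_of_const v (f := Fs.tw (Hom.id (Fs U 1)) (fun _ _ d i => c 0)
    (fun n x => CI_card_one x.2.2 _) (fun _ _ _ _ _ _ => rfl)) ?_ ?_ x
  · refine SS.Hom.ext (funext fun n => funext fun y => Subtype.ext ?_)
    obtain ⟨d, hd⟩ := Finset.card_eq_one.1 y.2.2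
    show im (fun _ _ => c 0) y.1 = re (fun _ => 0) v.1
    rw [hc, hd]
    ext g
    rw [mem_im, mem_re]
    simp only [Finset.mem_singleton, exists_eq_left]
    rfl
  · rw [hInv.eq F2 htp]
    congr 1
    refine SS.Hom.ext (funext fun n => funext fun y => Subtype.ext ?_)
    exact im_id _

end small

/-- the product `Fs U a × Fs U b → Fs U (a+b)` -/
def mulV {U : Type} (k : U ⊕ U ↪ U) (a b : ℕ) : Hom ((Fs U a).prod (Fs U b)) (Fs U (a + b)) :=
  (Thr328.map (a + b) k).comp (Thr328.djV U U a b)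

/-- `Θ : D_M (Fs U a) → Fs U (2a)` -/
def thV {U : Type} (k : U ⊕ U ↪ U) (M a : ℕ) :
    Hom (DX (AltSS.skel M) (Fs U a)) (Fs U (a + a)) :=
  (Thr328.map (a + a) k).comp (thM U M a)

/-- the operation `x ↦ Θ_*(e_i ⊗ x ⊗ x)` -/
def qV {U : Type} (k : U ⊕ U ↪ U) (M a i : ℕ) (h : ((i + 1 : ℕ) : ℕ∞) ≤ (AltSS.skel M).M) :
    H F2 (Fs U a) →ₗ[F2] H F2 (Fs U (a + a)) :=
  H.map F2 (thV k M a) ∘ₗ pw (AltSS.skel M) i h

/-- the product in homology -/
def mV {U : Type} (k : U ⊕ U ↪ U) (a b : ℕ) :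
    H F2 (Fs U a) →ₗ[F2] H F2 (Fs U b) →ₗ[F2] H F2 (Fs U (a + b)) :=
  xH.compr₂ (H.map F2 (mulV k a b))

theorem mV_apply {U : Type} (k : U ⊕ U ↪ U) (a b : ℕ) (x : H F2 (Fs U a)) (y : H F2 (Fs U b)) :
    mV k a b x y = H.map F2 (mulV k a b) (xH x y) := rfl

theorem H_map_comp_apply {K L M : SS} (g : Hom L M) (f : Hom K L) (x : H F2 K) :
    H.map F2 (g.comp f) x = H.map F2 g (H.map F2 f x) := H.map_comp' F2 g f x

/-- the vertex `e_0` of `E Z/2` gives the product -/
theorem thF_pr (U : Type) (a : ℕ) (x y : H F2 (Fs U a)) :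
    H.map F2 (thF U a) (pr AltSS.full x y) = H.map F2 (Thr328.djV U U a a) (xH x y) := by
  obtain ⟨p, hp, rfl⟩ := Hd.mk_surj _ x
  obtain ⟨q, hq, rfl⟩ := Hd.mk_surj _ y
  rw [pr_mk, xH_mk]
  show Hd.mk _ (N.map F2 (thF U a) (prC AltSS.full p q)) _ =
    Hd.mk _ (N.map F2 (Thr328.djV U U a a) (cross F2 p q)) _
  rw [Hd.mk_eq_mk]
  refine ⟨0, ?_⟩
  rw [map_zero, eq_comm, sub_eq_zero, prC_apply, PhiI_apply, C5T557.cross_vertex_left,
    map_map, map_map]
  refine congrArg (fun f => N.map F2 f (cross F2 p q)) ?_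
  refine SS.Hom.ext (funext fun n => funext fun z => Subtype.ext ?_)
  show Thr328.th (fun i => (AltSS.full.e 0 (AltSS.full.zero_le) 0) 0) z.1.1 z.2.1 =
    Thr328.du z.1.1 z.2.1
  have e : (AltSS.full.e 0 (AltSS.full.zero_le) 0) = alt 0 0 := AltSS.full.j_e 0 AltSS.full.zero_le 0
  rw [← Thr328.th_zero]
  congr 1
  funext i
  rw [e]
  simp [alt]

variable {U : Type}

/-- **SPAN**: subspaces `P v` of `H (Fs U v; F2)` which contain the point classes and are closed under
products and the operations `Q_i`, `i < M`, contain everything in degrees `< M`. -/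
theorem span_gr (hK : KunSpan) (hD : DSpan) (k : U ⊕ U ↪ U) (M : ℕ)
    (P : ∀ v, Submodule F2 (H F2 (Fs U v)))
    (h0 : ∃ e : (Fs U 0).S 0, C5T557.vtx F2 e ∈ P 0)
    (h1 : ∃ e : (Fs U 1).S 0, C5T557.vtx F2 e ∈ P 1)
    (hmul : ∀ a b x y, x ∈ P a → y ∈ P b → mV k a b x y ∈ P (a + b))
    (hQ : ∀ a i (h : ((i + 1 : ℕ) : ℕ∞) ≤ (AltSS.skel M).M) x, x ∈ P a → qV k M a i h x ∈ P (a + a)) :
    ∀ v t, t < M → H.gr F2 (Fs U v) t ≤ P v := by
  intro v
  induction v using Nat.strong_induction_on with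
  | _ v ih =>
  intro t ht
  rcases Nat.lt_or_ge v 2 with hv | hv
  · interval_cases v
    · obtain ⟨e, he⟩ := h0
      intro x _
      obtain ⟨r, rfl⟩ := span_zero e x
      exact Submodule.smul_mem _ _ he
    · obtain ⟨e, he⟩ := h1
      intro x _
      obtain ⟨r, rfl⟩ := span_one e x
      exact Submodule.smul_mem _ _ he
  · -- the relabelling is onto
    have hrel : ∀ w, Function.Surjective (H.map F2 (Thr328.map w k)) := fun w =>
      (map_bij F2 w k ⟨Sum.inl, Sum.inl_injective⟩).2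
    rcases split_cases v hv with ⟨a, b, ha, hb, rfl, ho⟩ | ⟨a, m, ha, rfl, hm, ho⟩
    · intro y hy
      have hs : Function.Surjective (H.map F2 (mulV k a b)) := by
        intro y
        obtain ⟨z, rfl⟩ := hrel (a + b) y
        obtain ⟨w, rfl⟩ := djV_surj k a b ho z
        exact ⟨w, H.map_comp' F2 _ _ _⟩
      obtain ⟨x, hx, rfl⟩ := exists_gr_lift hs hy
      refine (hK.gr (Q := (P (a + b)).comap (H.map F2 (mulV k a b))) ?_) hx
      intro p q x y hpq hx hy
      exact hmul a b x y (ih a (by omega) p (by omega) hx) (ih b (by omega) q (by omega) hy)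
    · intro y hy
      have hs : Function.Surjective (H.map F2 ((Thr328.map (a + a) k).comp (thF U a))) := by
        intro y
        obtain ⟨z, rfl⟩ := hrel (a + a) y
        obtain ⟨w, rfl⟩ := thF_surj k a m ha hm ho z
        exact ⟨w, H.map_comp' F2 _ _ _⟩
      obtain ⟨x, hx, rfl⟩ := exists_gr_lift hs hy
      refine (hD.gr (Q := (P (a + a)).comap
        (H.map F2 ((Thr328.map (a + a) k).comp (thF U a)))) ?_ ?_) hx
      · intro i n x hin hx
        have hi : ((i + 1 : ℕ) : ℕ∞) ≤ (AltSS.skel M).M := by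
          show ((i + 1 : ℕ) : ℕ∞) ≤ ((M : ℕ) : ℕ∞)
          exact_mod_cast (by omega : i + 1 ≤ M)
        have := hQ a i hi x (ih a (by omega) n (by omega) hx)
        have e : qV k M a i hi x = H.map F2 ((Thr328.map (a + a) k).comp (thF U a))
            (pw AltSS.full i (le_full (i + 1)) x) := by
          show H.map F2 (((Thr328.map (a + a) k).comp (thF U a)).comp
            (DXX (AltSS.skFull M) (Fs U a))) (pw (AltSS.skel M) i hi x) = _
          rw [H_map_comp_apply, pw_change (AltSS.skFull M) i hi (le_full (i + 1))]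
        rw [e] at this
        exact this
      · intro p q x y hpq hx hy
        have := hmul a a x y (ih a (by omega) p (by omega) hx) (ih a (by omega) q (by omega) hy)
        rw [Submodule.mem_comap, H_map_comp_apply, thF_pr, ← H_map_comp_apply]
        exact this

end Crest.Agent.R204.Span348
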