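import Crest.Agent.R224.T.LocAll
import Crest.Agent.R224.T.Exc
import Crest.Agent.R224.T.Sub
import Crest.Agent.R224.T.Prism
import Crest.Agent.R224.T.Fill

/-!
# Row 204, leaf A8b (helper94): the sphere, in the language of `R224/T` (mod 2 singular chains)
-/

set_option autoImplicit false

noncomputable section

open Topology Set

namespace Crest.Agent.R204.Sph94

open Crest.Agent.R224.T

theorem hPr : NPrism := nPrism
theorem hFi : NFill := nFill nPrism
theorem hSu : NSub := nSub hFi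
theorem hEx : NExc := exc_holds hSu
theorem hLo : NLocAll := nLocAll hPr hSu hFi

abbrev Eu (n : ℕ) : Type := EuclideanSpace ℝ (Fin n)
abbrev Sp (d : ℕ) : Type := Metric.sphere (0 : Eu (d + 1)) 1

/-! ## minimum of the coordinates -/

/-- minimum of coordinates -/
def mn {n : ℕ} (x : Fin (n + 1) → ℝ) : ℝ := Finset.univ.inf' Finset.univ_nonempty x

theorem mn_le {n : ℕ} (x : Fin (n + 1) → ℝ) (i : Fin (n + 1)) : mn x ≤ x i :=
  Finset.inf'_le _ (Finset.mem_univ i)

theorem exists_mn {n : ℕ} (x : Fin (n + 1) → ℝ) : ∃ i, mn x = x i := by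
  obtain ⟨i, -, hi⟩ := Finset.exists_mem_eq_inf' Finset.univ_nonempty x
  exact ⟨i, hi⟩

theorem le_mn {n : ℕ} {x : Fin (n + 1) → ℝ} {a : ℝ} (h : ∀ i, a ≤ x i) : a ≤ mn x := by
  obtain ⟨i, hi⟩ := exists_mn x
  rw [hi]; exact h i

theorem continuous_mn {n : ℕ} : Continuous (mn : (Fin (n + 1) → ℝ) → ℝ) := by
  unfold mn
  exact Continuous.finset_inf'_apply _ (fun i _ => continuous_apply i)

/-! ## the linear map -/

theorem exists_L {d : ℕ} (v : Eu (d + 1)) (hv : ‖v‖ = 1) :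
    ∃ L : (Fin (d + 1) → ℝ) →ₗ[ℝ] (ℝ ∙ v)ᗮ, Function.Surjective L ∧
      ∀ x, L x = 0 ↔ ∃ c : ℝ, x = fun _ => c := by
  have hv0 : v ≠ 0 := by
    intro h; rw [h] at hv; simp at hv
  have : Fact (Module.finrank ℝ (Eu (d + 1)) = d + 1) := ⟨by simp⟩
  have h1 : Module.finrank ℝ (ℝ ∙ v)ᗮ = d := Submodule.finrank_orthogonal_span_singleton hv0
  set W : Submodule ℝ (Fin (d + 1) → ℝ) := Submodule.span ℝ {(fun _ => 1 : Fin (d + 1) → ℝ)} with hW
  have h10 : (fun _ => 1 : Fin (d + 1) → ℝ) ≠ 0 := by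
    intro h; have := congrFun h 0; simp at this
  have h2 : Module.finrank ℝ W = 1 := finrank_span_singleton h10
  have h3 : Module.finrank ℝ ((Fin (d + 1) → ℝ) ⧸ W) = d := by
    have := Submodule.finrank_quotient_add_finrank W
    rw [h2] at this
    simp at this
    exact this
  let e : ((Fin (d + 1) → ℝ) ⧸ W) ≃ₗ[ℝ] (ℝ ∙ v)ᗮ := LinearEquiv.ofFinrankEq _ _ (h3.trans h1.symm)
  refine ⟨e.toLinearMap.comp W.mkQ, e.surjective.comp W.mkQ_surjective, fun x => ?_⟩
  simp only [LinearMap.comp_apply, LinearEquiv.coe_coe, LinearEquiv.map_eq_zero_iff,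
    Submodule.mkQ_apply, Submodule.Quotient.mk_eq_zero]
  rw [hW, Submodule.mem_span_singleton]
  constructor
  · rintro ⟨c, rfl⟩
    exact ⟨c, by ext i; simp⟩
  · rintro ⟨c, rfl⟩
    exact ⟨c, by ext i; simp⟩

variable {d : ℕ}

theorem nrm (v : Sp d) : ‖(v : Eu (d + 1))‖ = 1 := by simp

/-- the hyperplane orthogonal to the base point -/
abbrev Hp (v : Sp d) : Submodule ℝ (Eu (d + 1)) := (ℝ ∙ (v : Eu (d + 1)))ᗮ

def L (v : Sp d) : (Fin (d + 1) → ℝ) →ₗ[ℝ] Hp v := (exists_L (v : Eu (d + 1)) (nrm v)).choose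

theorem L_surj (v : Sp d) : Function.Surjective (L v) := (exists_L (v : Eu (d + 1)) (nrm v)).choose_spec.1

theorem L_eq_zero (v : Sp d) (x : Fin (d + 1) → ℝ) : L v x = 0 ↔ ∃ c : ℝ, x = fun _ => c :=
  (exists_L (v : Eu (d + 1)) (nrm v)).choose_spec.2 x

theorem L_const (v : Sp d) (c : ℝ) : L v (fun _ => c) = 0 := (L_eq_zero v _).2 ⟨c, rfl⟩

theorem continuous_L (v : Sp d) : Continuous (L v) := (L v).continuous_of_finiteDimensional

def sec (v : Sp d) : Hp v →ₗ[ℝ] (Fin (d + 1) → ℝ) :=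
  ((L v).exists_rightInverse_of_surjective (LinearMap.range_eq_top.2 (L_surj v))).choose

theorem L_sec (v : Sp d) (w : Hp v) : L v (sec v w) = w :=
  LinearMap.congr_fun ((L v).exists_rightInverse_of_surjective
    (LinearMap.range_eq_top.2 (L_surj v))).choose_spec w

theorem continuous_sec (v : Sp d) : Continuous (sec v) := (sec v).continuous_of_finiteDimensional

theorem sec_L (v : Sp d) (y : Fin (d + 1) → ℝ) : ∃ c : ℝ, sec v (L v y) = fun i => y i + c := by
  have h : L v (sec v (L v y) - y) = 0 := by rw [map_sub, L_sec, sub_self]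
  obtain ⟨c, hc⟩ := (L_eq_zero v _).1 h
  refine ⟨c, ?_⟩
  funext i
  have := congrFun hc i
  simp only [Pi.sub_apply] at this
  linarith

/-! ## the map to the sphere -/

/-- stereographic type formula -/
def st (v : Sp d) (w : Hp v) (m A : ℝ) : Eu (d + 1) :=
  (A + 4 * m ^ 2)⁻¹ • ((4 * m) • (w : Eu (d + 1)) + (A - 4 * m ^ 2) • (v : Eu (d + 1)))

theorem st_norm (v : Sp d) (w : Hp v) (m A : ℝ) (h : A + 4 * m ^ 2 ≠ 0)
    (h2 : m = 0 ∨ A = ‖(w : Eu (d + 1))‖ ^ 2) : st v w m A ∈ Metric.sphere (0 : Eu (d + 1)) 1 := by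
  rw [mem_sphere_zero_iff_norm]
  rcases h2 with rfl | rfl
  · have hA : A ≠ 0 := by simpa using h
    unfold st
    simp [nrm v, hA]
  · have hw : inner ℝ (w : Eu (d + 1)) (v : Eu (d + 1)) = (0 : ℝ) :=
      Submodule.mem_orthogonal_singleton_iff_inner_left.1 w.2
    have h0 : 0 ≤ ‖(w : Eu (d + 1))‖ ^ 2 + 4 * m ^ 2 := by positivity
    have key : ‖(4 * m) • (w : Eu (d + 1)) + (‖(w : Eu (d + 1))‖ ^ 2 - 4 * m ^ 2) • (v : Eu (d + 1))‖ ^ 2 =
        (‖(w : Eu (d + 1))‖ ^ 2 + 4 * m ^ 2) ^ 2 := by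
      rw [norm_add_sq_real, norm_smul, norm_smul, inner_smul_left, inner_smul_right, hw, nrm v]
      simp only [Real.norm_eq_abs, mul_pow, sq_abs]
      simp
      ring
    have key2 : ‖(4 * m) • (w : Eu (d + 1)) + (‖(w : Eu (d + 1))‖ ^ 2 - 4 * m ^ 2) • (v : Eu (d + 1))‖ =
        ‖(w : Eu (d + 1))‖ ^ 2 + 4 * m ^ 2 := by
      have := (sq_eq_sq₀ (norm_nonneg _) h0).1 key
      exact this
    unfold st
    rw [norm_smul, key2, norm_inv, Real.norm_eq_abs, abs_of_nonneg h0]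
    exact inv_mul_cancel₀ h

theorem st_zero (v : Sp d) (w : Hp v) (A : ℝ) (h : A ≠ 0) : st v w 0 A = v := by
  unfold st
  simp [h]

theorem st_eq_neg (v : Sp d) (w : Hp v) (m A : ℝ) (h : A + 4 * m ^ 2 ≠ 0)
    (h1 : st v w m A = -(v : Eu (d + 1))) : A = 0 := by
  unfold st at h1
  have hw : inner ℝ (w : Eu (d + 1)) (v : Eu (d + 1)) = (0 : ℝ) :=
    Submodule.mem_orthogonal_singleton_iff_inner_left.1 w.2
  have h2 : inner ℝ ((A + 4 * m ^ 2)⁻¹ • ((4 * m) • (w : Eu (d + 1)) + (A - 4 * m ^ 2) • (v : Eu (d + 1))))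
      (v : Eu (d + 1)) = (-1 : ℝ) := by
    rw [h1, inner_neg_left, real_inner_self_eq_norm_sq, nrm v]; norm_num
  rw [inner_smul_left, inner_add_left, inner_smul_left, inner_smul_left, hw,
    real_inner_self_eq_norm_sq, nrm v] at h2
  simp only [conj_trivial] at h2
  field_simp at h2
  linarith


theorem continuous_st {P : Type*} [TopologicalSpace P] (v : Sp d) {w : P → Hp v} {m A : P → ℝ}
    (hw : Continuous w) (hm : Continuous m) (hA : Continuous A)
    (h : ∀ p, A p + 4 * (m p) ^ 2 ≠ 0) : Continuous fun p => st v (w p) (m p) (A p) := by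
  unfold st
  exact ((hA.add (continuous_const.mul (hm.pow 2))).inv₀ h).smul
    (((continuous_const.mul hm).smul (continuous_subtype_val.comp hw)).add
      ((hA.sub (continuous_const.mul (hm.pow 2))).smul continuous_const))

theorem dl_nonneg {n : ℕ} (x : Dl n) (i : Fin (n + 1)) : 0 ≤ x.1 i := x.2.1 i
theorem dl_sum {n : ℕ} (x : Dl n) : ∑ i, x.1 i = 1 := x.2.2

theorem mn_nonneg {n : ℕ} (x : Dl n) : 0 ≤ mn x.1 := le_mn (dl_nonneg x)

theorem mn_pos_of_L {v : Sp d} {x : Dl d} (h : L v x.1 = 0) : 0 < mn x.1 := by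
  obtain ⟨c, hc⟩ := (L_eq_zero v _).1 h
  have h1 := dl_sum x
  rw [hc] at h1
  simp at h1
  have h2 : 0 < c := by
    by_contra h3
    have h4 : c ≤ 0 := not_lt.1 h3
    have h5 : (0 : ℝ) ≤ (d : ℝ) + 1 := by positivity
    nlinarith
  obtain ⟨i, hi⟩ := exists_mn x.1
  rw [hi, hc]; exact h2

theorem den_ne (v : Sp d) (x : Dl d) (t : ℝ) (h0 : 0 ≤ t) (h1 : t ≤ 1) :
    ‖(L v x.1 : Eu (d + 1))‖ ^ 2 + 4 * ((1 - t) * mn x.1 + t) ^ 2 ≠ 0 := by
  intro h
  have h2 : ‖(L v x.1 : Eu (d + 1))‖ ^ 2 = 0 := by nlinarith [sq_nonneg ‖(L v x.1 : Eu (d + 1))‖, sq_nonneg ((1 - t) * mn x.1 + t)]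
  have h3 : ((1 - t) * mn x.1 + t) ^ 2 = 0 := by nlinarith [sq_nonneg ‖(L v x.1 : Eu (d + 1))‖, sq_nonneg ((1 - t) * mn x.1 + t)]
  have h4 : L v x.1 = 0 := by
    have : (L v x.1 : Eu (d + 1)) = 0 := by simpa using h2
    exact Subtype.ext this
  have h5 := mn_pos_of_L h4
  have h6 : (1 - t) * mn x.1 + t = 0 := by simpa using h3
  have h7 : 0 ≤ (1 - t) * mn x.1 := mul_nonneg (by linarith) h5.le
  have h8 : t = 0 := by linarith
  rw [h8] at h6
  linarith

/-- homotopy from `sg v` to the stereographic simplex -/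
def Hh (v : Sp d) : C(Dl d × unitInterval, Sp d) :=
  ⟨fun p => ⟨st v (L v p.1.1) ((1 - (p.2 : ℝ)) * mn p.1.1 + p.2) (‖(L v p.1.1 : Eu (d + 1))‖ ^ 2),
    st_norm v _ _ _ (den_ne v p.1 p.2 p.2.2.1 p.2.2.2) (Or.inr rfl)⟩, by
    refine Continuous.subtype_mk ?_ _
    have h1 : Continuous fun p : Dl d × unitInterval => p.1.1 :=
      continuous_subtype_val.comp continuous_fst
    have h2 : Continuous fun p : Dl d × unitInterval => (p.2 : ℝ) :=
      continuous_subtype_val.comp continuous_snd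
    have h3 : Continuous fun p : Dl d × unitInterval => L v p.1.1 := (continuous_L v).comp h1
    refine continuous_st v h3 (((continuous_const.sub h2).mul (continuous_mn.comp h1)).add h2)
      ((continuous_norm.comp (continuous_subtype_val.comp h3)).pow 2) ?_
    intro p
    exact den_ne v p.1 p.2 p.2.2.1 p.2.2.2⟩

/-- the fundamental simplex -/
def sg (v : Sp d) : C(Dl d, Sp d) := (Hh v).comp ⟨fun x => (x, 0), by fun_prop⟩

theorem sg_coe (v : Sp d) (x : Dl d) : (sg v x : Eu (d + 1)) =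
    st v (L v x.1) (mn x.1) (‖(L v x.1 : Eu (d + 1))‖ ^ 2) := by
  show st v (L v x.1) ((1 - ((0 : unitInterval) : ℝ)) * mn x.1 + ((0 : unitInterval) : ℝ)) _ = _
  simp

theorem Hh_eq_neg (v : Sp d) (p : Dl d × unitInterval) (h : Hh v p = -v) : L v p.1.1 = 0 := by
  have h1 := congrArg (Subtype.val) h
  have h2 : ‖(L v p.1.1 : Eu (d + 1))‖ ^ 2 = 0 :=
    st_eq_neg v _ _ _ (den_ne v p.1 p.2 p.2.2.1 p.2.2.2) h1
  have : (L v p.1.1 : Eu (d + 1)) = 0 := by simpa using h2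
  exact Subtype.ext this

/-- the linear simplex -/
def tau (v : Sp d) : C(Dl d, Hp v) := ⟨fun x => L v x.1, (continuous_L v).comp continuous_subtype_val⟩

/-- inverse stereographic projection -/
def sf (v : Sp d) : C(Hp v, Sp d) :=
  ⟨(stereographic (nrm v)).symm, (isOpenEmbedding_stereographic_symm (nrm v)).continuous⟩

theorem sf_open (v : Sp d) : IsOpenEmbedding (sf v) := isOpenEmbedding_stereographic_symm (nrm v)

theorem sf_coe (v : Sp d) (w : Hp v) : (sf v w : Eu (d + 1)) =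
    (‖(w : Eu (d + 1))‖ ^ 2 + 4)⁻¹ • ((4 : ℝ) • (w : Eu (d + 1)) + (‖(w : Eu (d + 1))‖ ^ 2 - 4) • (v : Eu (d + 1))) :=
  rfl

theorem Hh_one (v : Sp d) : (Hh v).comp ⟨fun x => (x, 1), by fun_prop⟩ = (sf v).comp (tau v) := by
  ext1 x
  apply Subtype.ext
  show st v (L v x.1) ((1 - ((1 : unitInterval) : ℝ)) * mn x.1 + ((1 : unitInterval) : ℝ))
    (‖(L v x.1 : Eu (d + 1))‖ ^ 2) = (sf v (L v x.1) : Eu (d + 1))
  rw [sf_coe]
  unfold st
  simp

theorem sf_zero (v : Sp d) : sf v 0 = -v := by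
  apply Subtype.ext
  rw [sf_coe]
  simp

/-! ## faces -/

theorem face_self {n : ℕ} (i : Fin (n + 2)) (x : Dl n) : (face n i x).1 i = 0 := by
  show (FunOnFinite.linearMap ℝ ℝ i.succAbove x.1) i = 0
  rw [FunOnFinite.linearMap_apply_apply]
  refine Finset.sum_eq_zero fun j hj => ?_
  simp at hj

theorem face_succAbove {n : ℕ} (i : Fin (n + 2)) (x : Dl n) (j : Fin (n + 1)) :
    (face n i x).1 (i.succAbove j) = x.1 j := by
  show (FunOnFinite.linearMap ℝ ℝ i.succAbove x.1) (i.succAbove j) = x.1 j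
  rw [FunOnFinite.linearMap_apply_apply]
  rw [Finset.sum_eq_single j]
  · intro k hk hkj
    simp at hk
    exact absurd hk hkj
  · intro hj
    simp at hj

theorem mn_face {n : ℕ} (i : Fin (n + 2)) (x : Dl n) : mn (face n i x).1 = 0 := by
  apply le_antisymm
  · rw [← face_self i x]; exact mn_le _ i
  · exact mn_nonneg _

theorem L_face_ne {n : ℕ} (v : Sp (n + 1)) (i : Fin (n + 2)) (x : Dl n) : L v (face n i x).1 ≠ 0 := by
  intro h
  have := mn_pos_of_L h
  rw [mn_face] at this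
  exact lt_irrefl _ this

/-- all faces of the fundamental simplex are constant -/
theorem sg_face {n : ℕ} (v : Sp (n + 1)) (i : Fin (n + 2)) :
    (sg v).comp (face n i) = ContinuousMap.const _ v := by
  ext1 x
  apply Subtype.ext
  show (sg v (face n i x) : Eu (n + 2)) = v
  rw [sg_coe, mn_face]
  refine st_zero v _ _ ?_
  have h := L_face_ne v i x
  have h2 : (L v (face n i x).1 : Eu (n + 2)) ≠ 0 := fun h3 => h (Subtype.ext h3)
  positivity

end Crest.Agent.R204.Sph94
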