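import Crest.Agent.R204.Sph_94

/-!
# Row 204, leaf A8b (helper94), part 2: the fundamental simplex does not bound
-/

set_option autoImplicit false

noncomputable section

open Topology Set

namespace Crest.Agent.R204.Sph94

open Crest.Agent.R224.T

/-- constant simplex -/
def cs {X : Type} [TopologicalSpace X] (n : ℕ) (x : X) : C(Dl n, X) := ContinuousMap.const _ x

theorem cs_comp_face {X : Type} [TopologicalSpace X] (n : ℕ) (x : X) (i : Fin (n + 2)) :
    (cs (n + 1) x).comp (face n i) = cs n x := rfl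

/-! ## the collapse -/

/-- subtract the minimum -/
def tl {n : ℕ} (z : Fin (n + 1) → ℝ) : Fin (n + 1) → ℝ := fun i => z i - mn z

theorem tl_nonneg {n : ℕ} (z : Fin (n + 1) → ℝ) (i : Fin (n + 1)) : 0 ≤ tl z i := by
  have := mn_le z i
  simp only [tl]; linarith

theorem exists_tl {n : ℕ} (z : Fin (n + 1) → ℝ) : ∃ i, tl z i = 0 := by
  obtain ⟨i, hi⟩ := exists_mn z
  exact ⟨i, by simp only [tl, hi, sub_self]⟩

theorem continuous_tl {n : ℕ} : Continuous (tl : (Fin (n + 1) → ℝ) → Fin (n + 1) → ℝ) :=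
  continuous_pi fun i => (continuous_apply i).sub continuous_mn

theorem tl_add {n : ℕ} (z : Fin (n + 1) → ℝ) (c : ℝ) (h : mn z = 0) :
    tl (fun i => z i + c) = z := by
  have h1 : mn (fun i => z i + c) = c := by
    apply le_antisymm
    · obtain ⟨i, hi⟩ := exists_mn z
      have h2 : mn (fun i => z i + c) ≤ z i + c := mn_le (fun i => z i + c) i
      rw [← hi, h] at h2
      linarith
    · refine le_mn fun i => ?_
      have := mn_le z i
      rw [h] at this
      linarith
  funext i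
  simp only [tl, h1]
  ring

variable {n : ℕ}

/-- tail -/
def tt (z : Fin (n + 2) → ℝ) : Fin (n + 1) → ℝ := fun j => tl z j.succ

theorem continuous_tt : Continuous (tt : (Fin (n + 2) → ℝ) → Fin (n + 1) → ℝ) :=
  continuous_pi fun j => (continuous_apply j.succ).comp continuous_tl

theorem mn_tt_nonneg (z : Fin (n + 2) → ℝ) : 0 ≤ mn (tt z) := le_mn fun j => tl_nonneg z j.succ

theorem mn_tt_or (z : Fin (n + 2) → ℝ) : mn (tt z) = 0 ∨ tl z 0 = 0 := by
  obtain ⟨i, hi⟩ := exists_tl z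
  rcases Fin.eq_zero_or_eq_succ i with rfl | ⟨j, rfl⟩
  · exact Or.inr hi
  · left
    apply le_antisymm
    · rw [← hi]; exact mn_le (tt z) j
    · exact mn_tt_nonneg z

theorem den2_ne (v' : Sp n) (z : Fin (n + 2) → ℝ) (hz : ∀ c : ℝ, z ≠ fun _ => c) :
    (‖(L v' (tt z) : Eu (n + 1))‖ ^ 2 + tl z 0 ^ 2) + 4 * (mn (tt z)) ^ 2 ≠ 0 := by
  intro h
  have h1 : ‖(L v' (tt z) : Eu (n + 1))‖ ^ 2 = 0 := by
    nlinarith [sq_nonneg ‖(L v' (tt z) : Eu (n + 1))‖, sq_nonneg (tl z 0), sq_nonneg (mn (tt z))]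
  have h2 : tl z 0 ^ 2 = 0 := by
    nlinarith [sq_nonneg ‖(L v' (tt z) : Eu (n + 1))‖, sq_nonneg (tl z 0), sq_nonneg (mn (tt z))]
  have h3 : mn (tt z) ^ 2 = 0 := by
    nlinarith [sq_nonneg ‖(L v' (tt z) : Eu (n + 1))‖, sq_nonneg (tl z 0), sq_nonneg (mn (tt z))]
  have h4 : L v' (tt z) = 0 := by
    have : (L v' (tt z) : Eu (n + 1)) = 0 := by simpa using h1
    exact Subtype.ext this
  obtain ⟨c, hc⟩ := (L_eq_zero v' _).1 h4
  have h5 : tl z 0 = 0 := by simpa using h2
  have h6 : mn (tt z) = 0 := by simpa using h3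
  obtain ⟨i, hi⟩ := exists_mn (tt z)
  rw [h6, hc] at hi
  refine hz (mn z) (funext fun i => ?_)
  rcases Fin.eq_zero_or_eq_succ i with rfl | ⟨j, rfl⟩
  · have : z 0 - mn z = 0 := h5
    linarith
  · have := congrFun hc j
    have h7 : z j.succ - mn z = c := this
    have h8 : (0 : ℝ) = c := hi
    linarith

theorem sec_not_const (v : Sp (n + 1)) (w : Hp v) (hw : w ≠ 0) (c : ℝ) :
    sec v w ≠ fun _ => c := by
  intro h
  apply hw
  rw [← L_sec v w, h, L_const]

/-- the collapse `Hp v ∖ 0 → S^n` -/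
def G (v : Sp (n + 1)) (v' : Sp n) : C(({0}ᶜ : Set (Hp v)), Sp n) :=
  ⟨fun w => ⟨st v' (L v' (tt (sec v w.1))) (mn (tt (sec v w.1)))
      (‖(L v' (tt (sec v w.1)) : Eu (n + 1))‖ ^ 2 + tl (sec v w.1) 0 ^ 2),
    st_norm v' _ _ _ (den2_ne v' _ (sec_not_const v w.1 w.2)) (by
      rcases mn_tt_or (sec v w.1) with h | h
      · exact Or.inl h
      · right; rw [h]; ring)⟩, by
    refine Continuous.subtype_mk ?_ _
    have h1 : Continuous fun w : ({0}ᶜ : Set (Hp v)) => sec v w.1 :=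
      (continuous_sec v).comp continuous_subtype_val
    have h2 : Continuous fun w : ({0}ᶜ : Set (Hp v)) => L v' (tt (sec v w.1)) :=
      (continuous_L v').comp (continuous_tt.comp h1)
    refine continuous_st v' h2 (continuous_mn.comp (continuous_tt.comp h1))
      (((continuous_norm.comp (continuous_subtype_val.comp h2)).pow 2).add
        (((continuous_apply 0).comp (continuous_tl.comp h1)).pow 2)) ?_
    intro w
    exact den2_ne v' _ (sec_not_const v w.1 w.2)⟩

/-- the faces of `tau`, avoiding zero -/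
def tf (v : Sp (n + 1)) (i : Fin (n + 2)) : C(Dl n, ({0}ᶜ : Set (Hp v))) :=
  ⟨fun x => ⟨L v (face n i x).1, L_face_ne v i x⟩,
    Continuous.subtype_mk ((tau v).comp (face n i)).continuous _⟩

theorem incl_tf (v : Sp (n + 1)) (i : Fin (n + 2)) :
    (incl ({0}ᶜ : Set (Hp v))).comp (tf v i) = (tau v).comp (face n i) := rfl

theorem tl_sec (v : Sp (n + 1)) (i : Fin (n + 2)) (x : Dl n) :
    tl (sec v (L v (face n i x).1)) = (face n i x).1 := by
  obtain ⟨c, hc⟩ := sec_L v (face n i x).1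
  rw [hc, tl_add _ _ (mn_face i x)]

theorem G_tf_zero (v : Sp (n + 1)) (v' : Sp n) : (G v v').comp (tf v 0) = sg v' := by
  ext1 x
  apply Subtype.ext
  have h1 : tt (sec v (L v (face n 0 x).1)) = x.1 := by
    funext j
    show tl (sec v (L v (face n 0 x).1)) j.succ = _
    rw [tl_sec]
    have := face_succAbove 0 x j
    simpa using this
  have h2 : tl (sec v (L v (face n 0 x).1)) 0 = 0 := by
    rw [tl_sec]; exact face_self 0 x
  show st v' (L v' (tt (sec v (L v (face n 0 x).1)))) (mn (tt (sec v (L v (face n 0 x).1))))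
      (‖(L v' (tt (sec v (L v (face n 0 x).1))) : Eu (n + 1))‖ ^ 2 + tl (sec v (L v (face n 0 x).1)) 0 ^ 2) = _
  rw [h1, h2, sg_coe]
  congr 1
  ring

theorem G_tf_succ (v : Sp (n + 1)) (v' : Sp n) (i : Fin (n + 1)) :
    (G v v').comp (tf v i.succ) = cs n v' := by
  ext1 x
  apply Subtype.ext
  have h2 : mn (tt (sec v (L v (face n i.succ x).1))) = 0 := by
    apply le_antisymm
    · have h3 := mn_le (tt (sec v (L v (face n i.succ x).1))) i
      have h4 : tt (sec v (L v (face n i.succ x).1)) i = 0 := by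
        show tl (sec v (L v (face n i.succ x).1)) i.succ = 0
        rw [tl_sec]; exact face_self i.succ x
      rw [h4] at h3; exact h3
    · exact mn_tt_nonneg _
  have h5 := den2_ne v' _ (sec_not_const v _ (L_face_ne v i.succ x))
  rw [h2] at h5
  show st v' (L v' (tt (sec v (L v (face n i.succ x).1)))) (mn (tt (sec v (L v (face n i.succ x).1))))
      (‖(L v' (tt (sec v (L v (face n i.succ x).1))) : Eu (n + 1))‖ ^ 2 +
        tl (sec v (L v (face n i.succ x).1)) 0 ^ 2) = v'
  rw [h2]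
  refine st_zero v' _ _ ?_
  simpa using h5

/-! ## the statement -/

/-- the fundamental cycle -/
def fc {d : ℕ} (v : Sp d) : Ch d (Sp d) := Finsupp.single (sg v) 1 + Finsupp.single (cs d v) 1

/-- the fundamental cycle does not bound -/
def NB (d : ℕ) : Prop := ∀ v : Sp d, ¬ ∃ b : Ch (d + 1) (Sp d), bd d b = fc v

/-- in degree zero -/
theorem nb_zero : NB 0 := by
  rintro v ⟨b, hb⟩
  let φ : Ch 0 (Sp 0) →ₗ[ZMod 2] ZMod 2 := Finsupp.linearCombination (ZMod 2)
    (fun σ : C(Dl 0, Sp 0) => if 0 < (inner ℝ (σ (stdSimplex.vertex 0) : Eu 1) (v : Eu 1) : ℝ) then (1 : ZMod 2) else 0)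
  have hne : ∀ p : Sp 0, (inner ℝ (p : Eu 1) (v : Eu 1) : ℝ) ≠ 0 := by
    intro p h
    have h1 : (inner ℝ (p : Eu 1) (v : Eu 1) : ℝ) = (v : Eu 1) 0 * (p : Eu 1) 0 := by
      simp [PiLp.inner_apply]
    rw [h1] at h
    have hz : ∀ q : Sp 0, (q : Eu 1) 0 ≠ 0 := by
      intro q hq
      have h2 := nrm q
      rw [EuclideanSpace.norm_eq] at h2
      simp [hq] at h2
    rcases mul_eq_zero.1 h with h | h
    · exact hz v h
    · exact hz p h
  have hφ : φ ∘ₗ bd 0 = 0 := by
    apply Finsupp.lhom_ext'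
    intro γ
    apply LinearMap.ext_ring
    have hb1 : bd 0 (Finsupp.single γ (1 : ZMod 2)) =
        Finsupp.single (γ.comp (face 0 0)) 1 + Finsupp.single (γ.comp (face 0 1)) 1 := by
      rw [bd_single, Fin.sum_univ_two]
    show φ (bd 0 (Finsupp.single γ (1 : ZMod 2))) = 0
    rw [hb1, map_add]
    have hφs : ∀ σ : C(Dl 0, Sp 0), φ (Finsupp.single σ 1) =
        if 0 < (inner ℝ (σ (stdSimplex.vertex 0) : Eu 1) (v : Eu 1) : ℝ) then (1 : ZMod 2) else 0 := by
      intro σ
      simp only [φ, Finsupp.linearCombination_single, one_smul]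
    rw [hφs, hφs]
    have hconn : IsPreconnected (range fun x : Dl 1 => (inner ℝ (γ x : Eu 1) (v : Eu 1) : ℝ)) :=
      isPreconnected_range (by fun_prop)
    have hs : ∀ a b : Dl 1, 0 < (inner ℝ (γ a : Eu 1) (v : Eu 1) : ℝ) →
        0 < (inner ℝ (γ b : Eu 1) (v : Eu 1) : ℝ) := by
      intro a b ha
      by_contra hb
      have hb' := lt_of_le_of_ne (not_lt.1 hb) (hne (γ b))
      have h0 : (0 : ℝ) ∈ range fun x : Dl 1 => (inner ℝ (γ x : Eu 1) (v : Eu 1) : ℝ) :=
        hconn.ordConnected.out ⟨b, rfl⟩ ⟨a, rfl⟩ ⟨hb'.le, ha.le⟩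
      obtain ⟨c, hc⟩ := h0
      exact hne (γ c) hc
    by_cases h : 0 < (inner ℝ ((γ.comp (face 0 0)) (stdSimplex.vertex 0) : Eu 1) (v : Eu 1) : ℝ)
    · have h' : 0 < (inner ℝ ((γ.comp (face 0 1)) (stdSimplex.vertex 0) : Eu 1) (v : Eu 1) : ℝ) :=
        hs _ _ h
      rw [if_pos h, if_pos h']; rfl
    · have h' : ¬ 0 < (inner ℝ ((γ.comp (face 0 1)) (stdSimplex.vertex 0) : Eu 1) (v : Eu 1) : ℝ) :=
        fun h'' => h (hs _ _ h'')
      rw [if_neg h, if_neg h']; rfl
  have h1 : φ (fc v) = 0 := by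
    rw [← hb]
    exact LinearMap.congr_fun hφ b
  have h2 : φ (fc v) = 1 := by
    simp only [fc, map_add, φ, Finsupp.linearCombination_single, one_smul]
    have e1 : (sg v (stdSimplex.vertex 0) : Eu 1) = -(v : Eu 1) := by
      rw [sg_coe]
      have : L v (stdSimplex.vertex (S := ℝ) (0 : Fin 1)).1 = 0 := by
        rw [L_eq_zero]
        refine ⟨(stdSimplex.vertex (S := ℝ) (0 : Fin 1)).1 0, funext fun i => ?_⟩
        rw [Subsingleton.elim i 0]
      rw [this]
      have hm : mn (stdSimplex.vertex (S := ℝ) (0 : Fin 1)).1 ≠ 0 := by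
        have := mn_pos_of_L this
        exact this.ne'
      unfold st
      simp only [ZeroMemClass.coe_zero, smul_zero, norm_zero, zero_add]
      rw [smul_smul]
      have : ((0 : ℝ) ^ 2 + 4 * mn (stdSimplex.vertex (S := ℝ) (0 : Fin 1)).1 ^ 2)⁻¹ *
        (0 ^ 2 - 4 * mn (stdSimplex.vertex (S := ℝ) (0 : Fin 1)).1 ^ 2) = -1 := by
        field_simp
        ring
      rw [this]; simp
    have e2 : (inner ℝ (sg v (stdSimplex.vertex 0) : Eu 1) (v : Eu 1) : ℝ) = -1 := by
      rw [e1, inner_neg_left, real_inner_self_eq_norm_sq, nrm v]; norm_num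
    have e3 : (inner ℝ (cs 0 v (stdSimplex.vertex 0) : Eu 1) (v : Eu 1) : ℝ) = 1 := by
      show (inner ℝ (v : Eu 1) (v : Eu 1) : ℝ) = 1
      rw [real_inner_self_eq_norm_sq, nrm v]; norm_num
    rw [e2, e3]
    norm_num
  rw [h1] at h2
  exact absurd h2 (by decide)


/-! ## induction step -/

theorem neg_ne (v : Sp n) : v ≠ -v := by
  intro h
  have h1 : (v : Eu (n + 1)) = -(v : Eu (n + 1)) := congrArg Subtype.val h
  have h2 : (v : Eu (n + 1)) = 0 := by
    have : (2 : ℝ) • (v : Eu (n + 1)) = 0 := by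
      rw [two_smul]; nth_rewrite 2 [h1]; simp
    simpa using this
  have := nrm v
  rw [h2] at this
  simp at this

/-- boundary of a constant simplex -/
theorem bd_cs {X : Type} [TopologicalSpace X] (m : ℕ) (x : X) :
    bd m (Finsupp.single (cs (m + 1) x) 1) = ((m : ZMod 2) + 2) • Finsupp.single (cs m x) (1 : ZMod 2) := by
  rw [bd_single]
  simp only [cs_comp_face]
  rw [Finset.sum_const, Finset.card_univ, Fintype.card_fin]
  rw [← Nat.cast_smul_eq_nsmul (ZMod 2)]
  push_cast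
  rfl

/-- if `fc v` bounds then `tau v` is trivial modulo `0` -/
theorem nul_tau (v : Sp (n + 1)) (h : ∃ b : Ch (n + 2) (Sp (n + 1)), bd (n + 1) b = fc v) :
    Nul {0}ᶜ (Finsupp.single (tau v) 1 : Ch (n + 1) (Hp v)) := by
  obtain ⟨b, hb⟩ := h
  -- `sg v` modulo `-v`
  have h1 : Nul {-v}ᶜ (Finsupp.single (sg v) 1 : Ch (n + 1) (Sp (n + 1))) := by
    refine ⟨b, Finsupp.single (cs (n + 1) v) 1, ?_, ?_⟩
    · rw [In_single]
      rintro _ ⟨x, rfl⟩
      exact neg_ne v
    · rw [hb, fc, add_add_cancel']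
  -- the homotopy
  obtain ⟨P, -, hP1, hP2⟩ := hPr (Dl (n + 1)) (Sp (n + 1)) (Hh v)
  have h2 := hP1 n (Finsupp.single (ContinuousMap.id (Dl (n + 1))) 1)
  rw [push_single, push_single] at h2
  have h3 : Nul {-v}ᶜ (Finsupp.single ((sf v).comp (tau v)) 1 : Ch (n + 1) (Sp (n + 1))) := by
    obtain ⟨b1, e1, he1, hbe⟩ := h1
    refine ⟨b1 + P (n + 1) (Finsupp.single (ContinuousMap.id (Dl (n + 1))) 1),
      e1 + P n (bd n (Finsupp.single (ContinuousMap.id (Dl (n + 1))) 1)), ?_, ?_⟩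
    · refine he1.add ?_
      rw [bd_single, map_sum]
      refine In.sum fun i _ => ?_
      intro ρ hρ
      refine (hP2 n _ ρ hρ).trans ?_
      rintro _ ⟨⟨x, t⟩, ⟨⟨y, hy⟩, -⟩, rfl⟩ hneg
      have h7 : L v x.1 = 0 := Hh_eq_neg v _ hneg
      have h8 : face n i y = x := hy
      rw [← h8] at h7
      exact L_face_ne v i y h7
    · rw [map_add, h2]
      have e2 : (Hh v).comp ⟨fun x => (x, 1), by fun_prop⟩ = (sf v).comp (tau v) := Hh_one v
      have e3 : ((Hh v).comp ⟨fun x => (x, 0), by fun_prop⟩) = sg v := rfl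
      rw [ContinuousMap.comp_id, ContinuousMap.comp_id, e2, e3, hbe]
      generalize bd (n + 1) b1 = A
      generalize P n (bd n (Finsupp.single (ContinuousMap.id (Dl (n + 1))) 1)) = B
      generalize (Finsupp.single ((sf v).comp (tau v)) (1 : ZMod 2)) = C
      have : A + (C + (A + e1) + B) + (e1 + B) = C + (A + A) + (e1 + e1) + (B + B) := by abel
      rw [this, add_self, add_self, add_self]
      simp
  -- excision
  have h4 : (sf v) '' {0} = {-v} := by rw [image_singleton, sf_zero]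
  have h5 : IsClosed ((sf v) '' {0}) := by rw [h4]; exact isClosed_singleton
  have h6 := (hEx (Hp v) (Sp (n + 1)) (sf v) (sf_open v) {0} h5 n).2
    (Finsupp.single (tau v) 1) (by
      show In {0}ᶜ (bd n (Finsupp.single (tau v) 1))
      rw [bd_single]
      refine In.sum fun i _ => ?_
      rw [In_single]
      rintro _ ⟨x, rfl⟩
      exact L_face_ne v i x)
  rw [h4, push_single] at h6
  exact h6.1 h3

/-- induction step -/
theorem nb_succ (h : NB n) : NB (n + 1) := by
  intro v hb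
  have h1 := nul_tau v hb
  obtain ⟨b, e, he, hbe⟩ := h1
  obtain ⟨e', he'⟩ := exists_incl_eq he
  have h2 : push (incl ({0}ᶜ : Set (Hp v))) n (bd n e') =
      push (incl ({0}ᶜ : Set (Hp v))) n (∑ i, Finsupp.single (tf v i) 1) := by
    rw [← bd_push, he', map_sum]
    simp only [push_single, incl_tf]
    have h3 := congrArg (bd n) hbe
    rw [map_add, bd_bd, zero_add, bd_single] at h3
    exact h3.symm
  have h3 : bd n e' = ∑ i, Finsupp.single (tf v i) 1 :=
    push_injective (f := incl ({0}ᶜ : Set (Hp v))) Subtype.val_injective n h2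
  -- any base point
  have v' : Sp n := ⟨EuclideanSpace.single 0 1, by simp⟩
  apply h v'
  have h4 := congrArg (push (G v v') n) h3
  rw [← bd_push, map_sum] at h4
  simp only [push_single] at h4
  rw [Fin.sum_univ_succ] at h4
  simp only [G_tf_zero, G_tf_succ] at h4
  rw [Finset.sum_const, Finset.card_univ, Fintype.card_fin, ← Nat.cast_smul_eq_nsmul (ZMod 2)] at h4
  push_cast at h4
  have h5 := bd_cs n v'
  rcases (by decide : ∀ a : ZMod 2, a = 0 ∨ a = 1) (n : ZMod 2) with h6 | h6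
  · rw [h6] at h4
    refine ⟨_, h4.trans ?_⟩
    simp [fc]
  · rw [h6] at h4 h5
    refine ⟨push (G v v') (n + 1) e' + Finsupp.single (cs (n + 1) v') 1, ?_⟩
    rw [map_add, h4, h5, fc]
    have e1 : ((1 : ZMod 2) + 1) = 0 := rfl
    have e2 : ((1 : ZMod 2) + 2) = 1 := rfl
    rw [e1, e2]
    simp

theorem nb (n : ℕ) : NB n := by
  induction n with
  | zero => exact nb_zero
  | succ n ih => exact nb_succ ih

end Crest.Agent.R204.Sph94
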