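import Crest.Agent.R204.Sph_94b

/-!
# Row 204, leaf A8b (helper94), part 3: homology of the sphere, upper bounds (in the language of R224/T)
-/

set_option autoImplicit false

noncomputable section

open Topology Set

namespace Crest.Agent.R204.Sph94

open Crest.Agent.R224.T

variable {d : ℕ}

/-- inclusion of the sphere -/
def inS : C(Sp d, EE (d + 1)) := ⟨Subtype.val, continuous_subtype_val⟩

theorem sp_ne (x : Sp d) : x.1 ∈ ({0}ᶜ : Set (EE (d + 1))) := by
  intro h
  have h1 := nrm x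
  have h2 : (x : Eu (d + 1)) = 0 := h
  rw [h2] at h1
  simp at h1

/-- inclusion of the sphere into the complement of the origin -/
def inS0 : C(Sp d, ({0}ᶜ : Set (EE (d + 1)))) :=
  ⟨fun x => ⟨x.1, sp_ne x⟩, Continuous.subtype_mk continuous_subtype_val _⟩

/-- radial retraction -/
def rad : C(({0}ᶜ : Set (EE (d + 1))), Sp d) :=
  ⟨fun x => ⟨‖x.1‖⁻¹ • x.1, by
    have h : x.1 ≠ 0 := x.2
    have h1 : ‖x.1‖ ≠ 0 := norm_ne_zero_iff.2 h
    rw [mem_sphere_zero_iff_norm, norm_smul, norm_inv, norm_norm, inv_mul_cancel₀ h1]⟩, by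
    refine Continuous.subtype_mk ?_ _
    refine Continuous.smul (Continuous.inv₀ (continuous_norm.comp continuous_subtype_val) ?_) continuous_subtype_val
    intro x
    exact norm_ne_zero_iff.2 x.2⟩

theorem incl_inS0 : (incl ({0}ᶜ : Set (EE (d + 1)))).comp inS0 = inS := rfl

theorem rad_inS0 : (rad (d := d)).comp inS0 = ContinuousMap.id _ := by
  ext1 x
  apply Subtype.ext
  show ‖(x : Eu (d + 1))‖⁻¹ • (x : Eu (d + 1)) = x
  rw [nrm x]; simp

/-- if a filling of a cycle of the sphere is trivial modulo the origin, the cycle bounds -/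
theorem bounds_of_nul {q : ℕ} (c : Ch (q + 1) (Sp d)) (b : Ch (q + 2) (EE (d + 1)))
    (hb : bd (q + 1) b = push inS (q + 1) c) (h : Nul {0}ᶜ b) : ∃ b' : Ch (q + 2) (Sp d), bd (q + 1) b' = c := by
  obtain ⟨b1, e, he, hbe⟩ := h
  obtain ⟨e', he'⟩ := exists_incl_eq he
  have h1 : push (incl ({0}ᶜ : Set (EE (d + 1)))) (q + 1) (bd (q + 1) e') =
      push (incl ({0}ᶜ : Set (EE (d + 1)))) (q + 1) (push inS0 (q + 1) c) := by
    rw [← bd_push, he', push_push, incl_inS0, ← hb, hbe, map_add, bd_bd, zero_add]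
  have h2 : bd (q + 1) e' = push inS0 (q + 1) c :=
    push_injective (f := incl ({0}ᶜ : Set (EE (d + 1)))) Subtype.val_injective _ h1
  refine ⟨push rad (q + 2) e', ?_⟩
  rw [bd_push, h2, push_push, rad_inS0, push_id]

theorem rc_fill {q : ℕ} (c : Ch (q + 1) (Sp d)) (b : Ch (q + 2) (EE (d + 1)))
    (hb : bd (q + 1) b = push inS (q + 1) c) : RC {0}ᶜ b := by
  show In {0}ᶜ (bd (q + 1) b)
  rw [hb]
  refine (In_univ c).push_of_mapsTo ?_
  intro x _
  exact (inS0 x).2

/-- the homology of the sphere vanishes in degrees `≠ 0, d` -/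
theorem sphere_low (q : ℕ) (hq : q + 1 ≠ d) (c : Ch (q + 1) (Sp d)) (hc : bd q c = 0) :
    ∃ b : Ch (q + 2) (Sp d), bd (q + 1) b = c := by
  obtain ⟨b, hb⟩ := hFi (EE (d + 1)) q (push inS (q + 1) c) (by rw [bd_push, hc, map_zero])
  exact bounds_of_nul c b hb ((hLo d).1 (q + 1) b hq (rc_fill c b hb))

/-- two nontrivial cycles of top degree are homologous -/
theorem sphere_top (n : ℕ) (c c' : Ch (n + 1) (Sp (n + 1))) (hc : bd n c = 0) (hc' : bd n c' = 0)
    (h : ¬ ∃ b : Ch (n + 2) (Sp (n + 1)), bd (n + 1) b = c)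
    (h' : ¬ ∃ b : Ch (n + 2) (Sp (n + 1)), bd (n + 1) b = c') :
    ∃ b : Ch (n + 2) (Sp (n + 1)), bd (n + 1) b = c + c' := by
  obtain ⟨b, hb⟩ := hFi (EE (n + 2)) n (push inS (n + 1) c) (by rw [bd_push, hc, map_zero])
  obtain ⟨b', hb'⟩ := hFi (EE (n + 2)) n (push inS (n + 1) c') (by rw [bd_push, hc', map_zero])
  have h1 : ¬ Nul {0}ᶜ b := fun h2 => h (bounds_of_nul c b hb h2)
  have h1' : ¬ Nul {0}ᶜ b' := fun h2 => h' (bounds_of_nul c' b' hb' h2)
  have h2 := (hLo (n + 1)).2.2 b b' (rc_fill c b hb) (rc_fill c' b' hb') h1 h1'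
  exact bounds_of_nul (c + c') (b + b') (by rw [map_add, map_add, hb, hb']) h2

/-- the fundamental cycle is a cycle -/
theorem bd_fc (n : ℕ) (v : Sp (n + 1)) : bd n (fc v) = 0 := by
  unfold fc
  rw [map_add, bd_single, bd_single]
  simp only [sg_face, cs_comp_face]
  rw [← Finset.sum_add_distrib]
  refine Finset.sum_eq_zero fun i _ => ?_
  exact add_self _

/-- every cycle of top degree bounds or is homologous to the fundamental cycle -/
theorem sphere_gen (n : ℕ) (v : Sp (n + 1)) (c : Ch (n + 1) (Sp (n + 1))) (hc : bd n c = 0) :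
    (∃ b : Ch (n + 2) (Sp (n + 1)), bd (n + 1) b = c) ∨
      ∃ b : Ch (n + 2) (Sp (n + 1)), bd (n + 1) b = c + fc v := by
  by_cases h : ∃ b : Ch (n + 2) (Sp (n + 1)), bd (n + 1) b = c
  · exact Or.inl h
  · exact Or.inr (sphere_top n c (fc v) hc (bd_fc n v) h (nb (n + 1) v))

end Crest.Agent.R204.Sph94
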