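import Crest.Agent.R204.SpineA_693

/-!
# Row 204: spine, dual form of the extension (section 05) (helper693)
-/

set_option autoImplicit false

noncomputable section

namespace Crest.Agent.R204.Spine693

open MvPolynomial Crest.Agent.R204

theorem SqM_zero (S : Dick) (r k : ℕ) : S.SqM r k 0 = LinearMap.id := by
  ext g
  simp [Dick.SqM, S.zero, LinearMap.restrict_apply]

theorem SqM_coe (S : Dick) (r k a : ℕ) (g : M r k) :
    ((S.SqM r k a g : M r k) : D (r + 1)) = S.Sq r a g := rfl

theorem SqM_bm (S : Dick) (r k : ℕ) : BM (S.SqM r k) := by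
  intro n i hi
  have h := S.bm r n i hi
  refine LinearMap.ext fun g => ?_
  have hg := LinearMap.congr_fun h (g : D (r + 1))
  simp only [LinearMap.sum_apply, LinearMap.smul_apply, LinearMap.comp_apply] at hg ⊢
  apply Subtype.ext
  rw [AddSubmonoidClass.coe_finsetSum, AddSubmonoidClass.coe_finsetSum]
  simpa [SqM_coe] using hg

theorem extSq_fst (S : Dick) (r e : ℕ) (φ : ℕ → (M r e →ₗ[F2] F2)) (a : ℕ) (x : M r e × F2) :
    (extSq S r e φ a x).1 = S.SqM r e a x.1 := by
  unfold extSq
  split_ifs with h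
  · subst h; rw [SqM_zero]; rfl
  · simp

theorem extSq_snd (S : Dick) (r e : ℕ) (φ : ℕ → (M r e →ₗ[F2] F2)) (a : ℕ) (ha : 1 ≤ a)
    (x : M r e × F2) : (extSq S r e φ a x).2 = φ a x.1 := by
  unfold extSq
  rw [if_neg (by omega)]
  simp

theorem extSq_zero (S : Dick) (r e : ℕ) (φ : ℕ → (M r e →ₗ[F2] F2)) :
    extSq S r e φ 0 = LinearMap.id := by
  simp [extSq]

/-- section 05, dual form: the cofibre module gives a Steenrod module `M_e ⊕ F2 t`. -/
theorem bm_ext (S : Dick) (r e : ℕ) {E PP : Type} [AddCommGroup E] [Module F2 E]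
    [AddCommGroup PP] [Module F2 PP] (SE : ℕ → (E →ₗ[F2] E)) (hco : CoBM SE)
    (h0 : SE 0 = LinearMap.id) (SP : ℕ → (PP →ₗ[F2] PP)) (ι : PP →ₗ[F2] E)
    (hι : Function.Injective ι) (hS : ∀ a x, SE a (ι x) = ι (SP a x)) (τ : E) (T : ℕ → PP)
    (hτ : ∀ a, 1 ≤ a → SE a τ = ι (T a)) (c : PP →ₗ[F2] (M r e →ₗ[F2] F2))
    (hc : ∀ a b, 1 ≤ a → c (SP b (T a)) = c (T a) ∘ₗ S.SqM r e b) :
    BM (extSq S r e (fun a => c (T a))) := by
  intro n i hi
  rcases Nat.eq_zero_or_pos n with rfl | hn
  · have : i = 0 := by omega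
    subst this; rfl
  have hco' := LinearMap.congr_fun (hco n i hi) τ
  simp only [LinearMap.sum_apply, LinearMap.smul_apply, LinearMap.comp_apply] at hco'
  set W : ℕ → PP := fun a => if a = 0 then T n else SP (n - a) (T a) with hW
  have hιW : ∀ a ∈ Finset.range (n + 1), SE (n - a) (SE a τ) = ι (W a) := by
    intro a _
    rcases Nat.eq_zero_or_pos a with rfl | ha
    · simp only [hW, if_true, Nat.sub_zero]
      rw [h0]; exact hτ n hn
    · simp only [hW]
      rw [if_neg (by omega), hτ a ha, hS]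
  have hsum : ∑ a ∈ Finset.range (n + 1), bmc a i • W a =
      ∑ a ∈ Finset.range (n + 1), bmc a (2 * n - i) • W a := by
    apply hι
    rw [map_sum, map_sum]
    simp only [map_smul]
    have e1 : ∀ j, ∑ a ∈ Finset.range (n + 1), bmc a j • ι (W a) =
        ∑ a ∈ Finset.range (n + 1), bmc a j • SE (n - a) (SE a τ) := fun j =>
      Finset.sum_congr rfl (fun a ha => by rw [← hιW a ha])
    rw [e1, e1]
    exact hco'
  refine LinearMap.ext fun x => ?_
  obtain ⟨g, u⟩ := x
  simp only [LinearMap.sum_apply, LinearMap.smul_apply, LinearMap.comp_apply]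
  apply Prod.ext
  · rw [Prod.fst_sum, Prod.fst_sum]
    simp only [Prod.smul_fst, extSq_fst]
    have := LinearMap.congr_fun (SqM_bm S r e n i hi) g
    simpa only [LinearMap.sum_apply, LinearMap.smul_apply, LinearMap.comp_apply] using this
  · rw [Prod.snd_sum, Prod.snd_sum]
    simp only [Prod.smul_snd]
    have key : ∀ a ∈ Finset.range (n + 1),
        (extSq S r e (fun a => c (T a)) a (extSq S r e (fun a => c (T a)) (n - a) (g, u))).2 =
          c (W a) g := by
      intro a _
      rcases Nat.eq_zero_or_pos a with rfl | ha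
      · rw [extSq_zero, LinearMap.id_apply, Nat.sub_zero, extSq_snd _ _ _ _ _ hn]
        simp [hW]
      · rw [extSq_snd _ _ _ _ _ ha, extSq_fst]
        simp only [hW]
        rw [if_neg (by omega), hc a (n - a) ha]
        rfl
    have e1 : ∀ j, ∑ a ∈ Finset.range (n + 1), bmc a j •
        (extSq S r e (fun a => c (T a)) a (extSq S r e (fun a => c (T a)) (n - a) (g, u))).2 =
        ∑ a ∈ Finset.range (n + 1), bmc a j • c (W a) g := fun j =>
      Finset.sum_congr rfl (fun a ha => by rw [key a ha])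
    rw [e1, e1]
    have := congrArg (fun y : PP => c y g) hsum
    simpa only [map_sum, map_smul, LinearMap.sum_apply, LinearMap.smul_apply] using this

end Crest.Agent.R204.Spine693
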