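import Crest.Agent.R204.CartanInst_888
import Crest.Agent.R204.Phi_252
import Crest.Agent.R204.AMU_898
import Crest.Agent.R204.Gr_334

/-!
# Row 204, block A5 (P3, P4): `[e_i ⊗ Δ x] = [∑ e_j ⊗ Φ_{i-j} x]`, Steenrod operations,
functional characterisation, degrees, `Sq_0 = id`, instability, (1.3) in `H(Q)` (helper888)
-/

set_option autoImplicit false

noncomputable section

namespace Crest.Agent.R204.Q888

open Finsupp TensorProduct QC134 EZ271 AMU898

/-- the functor `K ↦ N(K × K)` -/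
def FK2 : MF F2 where
  T := fun K => N F2 (K.prod K)
  map := fun f => N.map F2 (SS.prodMap f f)
  map_id := by
    intro K x
    have h : SS.prodMap (SS.Hom.id K) (SS.Hom.id K) = SS.Hom.id (K.prod K) := rfl
    rw [h, map_idHom]
  map_comp := by
    intro K L M f g x
    rw [map_map]; rfl
  d := fun K => N.bd F2 (K.prod K)
  map_d := by
    intro K L f x
    rw [map_bd']
  T0 := fun K => LinearMap.ker (aug F2 (K := K.prod K))
  T0_map := by
    intro K L f x hx
    rw [LinearMap.mem_ker] at hx ⊢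
    rw [aug_map, hx]
  acyc := by
    intro n z hz hd
    refine ⟨((Cone.std n).prod (Cone.std n)).c F2 z, ?_, ?_⟩
    · rw [LinearMap.mem_ker, Cone.aug_c]
    · rw [Cone.bd_c, hd, map_zero, sub_zero, LinearMap.mem_ker.1 hz, zero_smul, sub_zero]

theorem aug_eq (K : SS) : Phi252.aug K = aug F2 (K := K) := by
  refine hom_ext fun n x => ?_
  rcases n with _ | n <;> simp

theorem aug_crossT_eq {K : SS} (z : N F2 K ⊗[F2] N F2 K) : aug F2 (crossT F2 z) = Phi252.aa K z := by
  induction z using TensorProduct.induction_on with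
  | zero => simp
  | add x y hx hy => simp only [map_add, hx, hy]
  | tmul x y => rw [crossT_tmul, aug_cross, Phi252.aa_tmul, aug_eq]

theorem swap_crossT {K : SS} (z : N F2 K ⊗[F2] N F2 K) :
    crossT F2 (Phi252.tt K z) = N.map F2 (SS.swap K K) (crossT F2 z) := by
  induction z using TensorProduct.induction_on with
  | zero => simp
  | add x y hx hy => simp only [map_add, hx, hy]
  | tmul x y => rw [Phi252.tt_tmul, crossT_tmul, crossT_tmul, swap_cross]

theorem bd_crossT2 {K : SS} (z : N F2 K ⊗[F2] N F2 K) :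
    N.bd F2 _ (crossT F2 z) = crossT F2 (Phi252.dd K z) := by
  induction z using TensorProduct.induction_on with
  | zero => simp
  | add x y hx hy => simp only [map_add, hx, hy]
  | tmul x y => rw [Phi252.dd_tmul, crossT_tmul, map_add, crossT_tmul, crossT_tmul, bd_cross2]

/-- the family `crossT ∘ Φ_i` -/
def th (K : SS) (i : ℕ) : N F2 K →ₗ[F2] N F2 (K.prod K) := crossT F2 ∘ₗ Phi252.Phi K i

/-- the family `Δ, 0, 0, …` -/
def th' (K : SS) : ℕ → (N F2 K →ₗ[F2] N F2 (K.prod K))
  | 0 => N.map F2 (SS.diag K)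
  | _ + 1 => 0

theorem swap_nat {K L : SS} (f : SS.Hom K L) (x : N F2 (K.prod K)) :
    N.map F2 (SS.prodMap f f) (N.map F2 (SS.swap K K) x) =
      N.map F2 (SS.swap L L) (N.map F2 (SS.prodMap f f) x) := by
  rw [EZ271.map_map, EZ271.map_map]; rfl

theorem th_nat {K L : SS} (f : SS.Hom K L) (i : ℕ) (x : N F2 K) :
    N.map F2 (SS.prodMap f f) (th K i x) = th L i (N.map F2 f x) := by
  unfold th
  rw [LinearMap.comp_apply, LinearMap.comp_apply, map_crossT, ← Phi252.nm_Phi]
  rfl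

theorem th'_nat {K L : SS} (f : SS.Hom K L) (i : ℕ) (x : N F2 K) :
    N.map F2 (SS.prodMap f f) (th' K i x) = th' L i (N.map F2 f x) := by
  rcases i with _ | i
  · unfold th'
    rw [EZ271.map_map, EZ271.map_map]; rfl
  · unfold th'
    rw [LinearMap.zero_apply, LinearMap.zero_apply, map_zero]

theorem th_ch (K : SS) (i : ℕ) (x : N F2 K) : N.bd F2 _ (th K i x) + th K i (N.bd F2 K x) =
    prev (fun j => th K j x) i + N.map F2 (SS.swap K K) (prev (fun j => th K j x) i) := by
  unfold th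
  simp only [LinearMap.comp_apply]
  rw [bd_crossT2]
  rcases i with _ | i
  · rw [Phi252.dd_Phi_zero, prev_zero, map_zero, add_zero, QC134.add_self']
  · rw [Phi252.dd_Phi_succ, prev_succ, map_add, map_add, ← swap_crossT,
      add_comm (crossT F2 (Phi252.Phi K (i + 1) (N.bd F2 K x))), QC134.add_add_self]

theorem th'_ch (K : SS) (i : ℕ) (x : N F2 K) : N.bd F2 _ (th' K i x) + th' K i (N.bd F2 K x) =
    prev (fun j => th' K j x) i + N.map F2 (SS.swap K K) (prev (fun j => th' K j x) i) := by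
  rcases i with _ | _ | i
  · rw [prev_zero, map_zero, add_zero]
    unfold th'
    rw [← map_bd', QC134.add_self']
  · rw [prev_succ]
    unfold th'
    rw [EZ271.map_map, LinearMap.zero_apply, LinearMap.zero_apply, map_zero, add_zero]
    exact (QC134.add_self' _).symm
  · rw [prev_succ]
    unfold th'
    simp

theorem th_val (K : SS) (i : ℕ) (x : N F2 K) : aug F2 (th K i x + th' K i x) = 0 := by
  rw [map_add]
  unfold th
  rw [LinearMap.comp_apply, aug_crossT_eq]
  rcases i with _ | i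
  · rw [Phi252.aa_Phi_zero, aug_eq]
    unfold th'
    rw [aug_map, QC134.add_self']
  · rw [Phi252.aa_Phi_succ]
    unfold th'
    simp

theorem swap_ker (K : SS) (x : N F2 (K.prod K)) (hx : aug F2 x = 0) :
    aug F2 (N.map F2 (SS.swap K K) x) = 0 := by
  rw [aug_map, hx]

theorem family_w (K : SS) (x : N F2 K) (hx : N.bd F2 K x = 0) :
    ∃ w : ℕ → N F2 (K.prod K), ∀ i, th K i x + th' K i x = N.bd F2 _ (w i) +
      (prev w i + N.map F2 (SS.swap K K) (prev w i)) :=
  FK2.family (fun K => N.map F2 (SS.swap K K)) swap_nat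
    (fun K x => (map_bd' F2 (SS.swap K K) x).symm) map_invol
    swap_ker
    th th' th_nat th'_nat th_ch th'_ch th_val K x hx

/-- the cycle `∑_{j ≤ i} e_j ⊗ Φ_{i-j} x` -/
def stC (K : SS) (i : ℕ) (x : N F2 K) : ℕ →₀ (N F2 K ⊗[F2] N F2 K) :=
  ∑ j ∈ Finset.range (i + 1), single j (Phi252.Phi K (i - j) x)

theorem stC_apply (K : SS) (i J : ℕ) (x : N F2 K) :
    stC K i x J = if J ≤ i then Phi252.Phi K (i - J) x else 0 := by
  unfold stC
  rw [Finsupp.finsetSum_apply]
  by_cases h : J ≤ i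
  · rw [if_pos h, Finset.sum_eq_single J]
    · simp
    · intro j _ hj
      rw [Finsupp.single_apply, if_neg hj]
    · intro hJ
      exact absurd (Finset.mem_range.2 (by omega)) hJ
  · rw [if_neg h]
    refine Finset.sum_eq_zero fun j hj => ?_
    rw [Finsupp.single_apply, if_neg (by have := Finset.mem_range.1 hj; omega)]

theorem dQ_stC (K : SS) (i : ℕ) (x : N F2 K) (hx : N.bd F2 K x = 0) :
    dQ (N.bd F2 K) (stC K i x) = 0 := by
  ext J : 1
  rw [dQ, QC134.QD_apply, stC_apply, stC_apply]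
  have h1 : ∀ b, QC134.dT (N.bd F2 K) (N.bd F2 K) (Phi252.Phi K (b + 1) x) =
      Phi252.Phi K b x + Phi252.tt K (Phi252.Phi K b x) := by
    intro b
    have := Phi252.dd_Phi_succ (K := K) b x
    rw [hx, map_zero, zero_add] at this
    exact this
  have h0 : QC134.dT (N.bd F2 K) (N.bd F2 K) (Phi252.Phi K 0 x) = 0 := by
    have := Phi252.dd_Phi_zero (K := K) x
    rw [hx, map_zero] at this
    exact this
  rcases lt_trichotomy J i with h | h | h
  · rw [if_pos (by omega), if_pos (by omega)]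
    obtain ⟨b, rfl⟩ : ∃ b, i = J + 1 + b := ⟨i - J - 1, by omega⟩
    rw [show J + 1 + b - J = b + 1 from by omega, show J + 1 + b - (J + 1) = b from by omega, h1]
    exact QC134.add_self' _
  · subst h
    rw [if_pos le_rfl, if_neg (by omega), Nat.sub_self, h0]
    simp
  · rw [if_neg (by omega), if_neg (by omega)]
    simp

theorem eqQ_mk {X Y : Type} [AddCommGroup X] [Module F2 X] [AddCommGroup Y] [Module F2 Y]
    {dX : X →ₗ[F2] X} {dY τ : Y →ₗ[F2] Y} {nab : X →ₗ[F2] X →ₗ[F2] Y} {dg : X →ₗ[F2] Y}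
    (h : IsSq dX dY τ nab dg) (hq : QI (QC134.dT dX dX) dY (TensorProduct.lift nab))
    (z : ℕ →₀ (X ⊗[F2] X)) (hz : dQ dX z = 0) :
    h.eqQ hq (Hd.mk _ z hz) = Hd.mk (QD dY τ) (Qmap (TensorProduct.lift nab) z)
      (by rw [← (h.qiQ hq).comm, hz, map_zero]) := rfl

/-- **`[e_i ⊗ Δ x] = [∑ e_j ⊗ Φ_{i-j} x]`** -/
theorem s_eq_stC (K : SS) (i : ℕ) (x : N F2 K) (hx : N.bd F2 K x = 0) :
    (isSq K).s i (Hd.mk _ x hx) = (isSq K).eqQ (qi_cross K K) (Hd.mk _ (stC K i x) (dQ_stC K i x hx)) := by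
  rw [IsSq.s_mk, eqQ_mk, Hd.mk_eq_mk]
  obtain ⟨w, hw⟩ := family_w K x hx
  refine ⟨∑ j ∈ Finset.range (i + 1), single j (w (i - j)), ?_⟩
  rw [QC134.sub_eq']
  ext J : 1
  rw [← QD_eq, QC134.QD_apply, Finsupp.add_apply]
  have e1 : ∀ J, (∑ j ∈ Finset.range (i + 1), (single j (w (i - j)) : ℕ →₀ N F2 (K.prod K))) J =
      if J ≤ i then w (i - J) else 0 := by
    intro J
    rw [Finsupp.finsetSum_apply]
    by_cases h : J ≤ i
    · rw [if_pos h, Finset.sum_eq_single J]
      · simp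
      · intro j _ hj
        rw [Finsupp.single_apply, if_neg hj]
      · intro hJ
        exact absurd (Finset.mem_range.2 (by omega)) hJ
    · rw [if_neg h]
      refine Finset.sum_eq_zero fun j hj => ?_
      rw [Finsupp.single_apply, if_neg (by have := Finset.mem_range.1 hj; omega)]
  have e2 : Qmap (TensorProduct.lift (cross F2)) (stC K i x) J = if J ≤ i then th K (i - J) x else 0 := by
    show QC134.Qmap _ _ J = _
    rw [QC134.Qmap_apply, stC_apply]
    split_ifs
    · rfl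
    · exact map_zero _
  have e3 : (single i (N.map F2 (SS.diag K) x) : ℕ →₀ N F2 (K.prod K)) J =
      if J ≤ i then th' K (i - J) x else 0 := by
    rw [Finsupp.single_apply]
    by_cases h : i = J
    · subst h
      rw [if_pos rfl, if_pos le_rfl, Nat.sub_self]; rfl
    · rw [if_neg h]
      by_cases h2 : J ≤ i
      · rw [if_pos h2]
        obtain ⟨b, hb⟩ : ∃ b, i - J = b + 1 := ⟨i - J - 1, by omega⟩
        rw [hb]; rfl
      · rw [if_neg h2]
  rw [e1, e1, e2, e3]
  by_cases h : J ≤ i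
  · rw [if_pos h, if_pos h, if_pos h, add_comm (th' K (i - J) x), hw]
    congr 1
    rcases Nat.eq_or_lt_of_le h with rfl | h2
    · rw [if_neg (by omega), Nat.sub_self, prev_zero]
    · rw [if_pos (by omega)]
      obtain ⟨b, rfl⟩ : ∃ b, i = J + 1 + b := ⟨i - J - 1, by omega⟩
      rw [show J + 1 + b - J = b + 1 from by omega, show J + 1 + b - (J + 1) = b from by omega, prev_succ]
  · rw [if_neg h, if_neg h, if_neg h, if_neg (by omega)]
    simp

/-! ## functional characterisation -/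

/-- `u ⊗ u` -/
def sqf {X : Type} [AddCommGroup X] [Module F2 X] (U : X →ₗ[F2] F2) : X ⊗[F2] X →ₗ[F2] F2 :=
  TensorProduct.lift ((LinearMap.mul F2 F2).compl₁₂ U U)

@[simp] theorem sqf_tmul {X : Type} [AddCommGroup X] [Module F2 X] (U : X →ₗ[F2] F2) (x y : X) :
    sqf U (x ⊗ₜ y) = U x * U y := rfl

theorem sq_F2 (a : F2) : a * a = a := by revert a; decide

/-- values of functionals on the coefficients of a class in `H(W ⊗ X ⊗ X)` -/
theorem IsCoef.functional {X Y : Type} [AddCommGroup X] [Module F2 X] [AddCommGroup Y] [Module F2 Y]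
    {dX : X →ₗ[F2] X} {dY τ : Y →ₗ[F2] Y} {nab : X →ₗ[F2] X →ₗ[F2] Y} {dg : X →ₗ[F2] Y}
    {h : IsSq dX dY τ nab dg} {c : ℕ → Hd (QD dY τ) →ₗ[F2] Hd dX} (hc : IsCoef h c)
    (hq : QI (QC134.dT dX dX) dY (TensorProduct.lift nab)) (J : ℕ) (hJ : 1 ≤ J)
    (u : Hd dX →ₗ[F2] F2) (U : X →ₗ[F2] F2) (hU0 : ∀ x, U (dX x) = 0)
    (hU : ∀ z hz, U z = u (Hd.mk dX z hz)) (q : ℕ →₀ (X ⊗[F2] X)) (hz : dQ dX q = 0) :
    u (c J (h.eqQ hq (Hd.mk _ q hz))) = sqf U (q J) := by
  -- the functional on `H(dQ)` induced by `e_J ⊗ c ↦ (u ⊗ u)(c)`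
  have hd : ∀ x : X ⊗[F2] X, sqf U (QC134.dT dX dX x) = 0 := by
    intro x
    induction x using TensorProduct.induction_on with
    | zero => simp
    | add x y hx hy => rw [map_add, map_add, hx, hy, add_zero]
    | tmul x y => rw [QC134.dT_tmul, map_add, sqf_tmul, sqf_tmul, hU0, hU0]; simp
  have ht : ∀ x : X ⊗[F2] X, sqf U (x + tau X x) = 0 := by
    intro x
    induction x using TensorProduct.induction_on with
    | zero => simp
    | add x y hx hy =>
      have : x + y + tau X (x + y) = (x + tau X x) + (y + tau X y) := by rw [map_add]; abel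
      rw [this, map_add, hx, hy, add_zero]
    | tmul x y =>
      rw [tau_tmul, map_add, sqf_tmul, sqf_tmul, mul_comm (U y)]
      exact QC134.add_self' _
  have hL : ∀ w, sqf U ((dQ dX w) J) = 0 := by
    intro w
    rw [dQ, QC134.QD_apply, map_add, hd, ht, add_zero]
  let Λ : Hd (dQ dX) →ₗ[F2] F2 := Submodule.liftQ _
    ((sqf U ∘ₗ Finsupp.lapply J) ∘ₗ (LinearMap.ker (dQ dX)).subtype) (by
      rintro ⟨z, hz⟩ hz'
      simp only [Submodule.mem_comap, Submodule.subtype_apply, LinearMap.mem_range] at hz'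
      obtain ⟨w, rfl⟩ := hz'
      exact hL w)
  have hΛ : ∀ z hz, Λ (Hd.mk _ z hz) = sqf U (z J) := fun z hz => rfl
  rw [← hΛ q hz]
  have hmem : Hd.mk (dQ dX) q hz ∈
      Submodule.span F2 ({y | ∃ i x, y = Eop dX h.dd i x} ∪ {z | ∃ x y, z = Bop dX x y}) := by
    rw [quad_span]; trivial
  refine Submodule.span_induction (p := fun ξ _ => u (c J (h.eqQ hq ξ)) = Λ ξ) ?_ ?_ ?_ ?_ hmem
  · rintro _ (⟨i, x, rfl⟩ | ⟨x, y, rfl⟩)
    · rw [h.eqQ_Eop hq, hc.c_G J hJ]
      obtain ⟨x, hx, rfl⟩ := Hd.mk_surj dX x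
      rw [Eop_mk, hΛ]
      by_cases e : i = J
      · subst e
        rw [if_pos rfl, Finsupp.single_eq_same, sqf_tmul, sq_F2, hU]
      · rw [if_neg e, Finsupp.single_eq_of_ne (by omega), map_zero, map_zero]
    · rw [h.eqQ_Bop hq, hc.c_T0 J hJ]
      obtain ⟨x, hx, rfl⟩ := Hd.mk_surj dX x
      obtain ⟨y, hy, rfl⟩ := Hd.mk_surj dX y
      rw [Bop_mk, hΛ, Finsupp.single_eq_of_ne (by omega), map_zero, map_zero]
  · simp
  · intro x y _ _ hx hy
    rw [map_add, map_add, map_add, map_add, hx, hy]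
  · intro r x _ hx
    rw [map_smul, map_smul, map_smul, map_smul, hx]

/-- **functional characterisation** -/
theorem cf_s_functional (K : SS) (J : ℕ) (hJ : 1 ≤ J) (i : ℕ) (u : H F2 K →ₗ[F2] F2)
    (U : N F2 K →ₗ[F2] F2) (hU0 : ∀ x, U (N.bd F2 K x) = 0)
    (hU : ∀ z hz, U z = u (Hd.mk (N.bd F2 K) z hz)) (x : N F2 K) (hx : N.bd F2 K x = 0) :
    u (cf K J ((isSq K).s i (Hd.mk _ x hx))) =
      if J ≤ i then sqf U (Phi252.Phi K (i - J) x) else 0 := by
  rw [s_eq_stC, (isCoef K).functional (qi_cross K K) J hJ u U hU0 hU, stC_apply]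
  split_ifs
  · rfl
  · exact map_zero _

end Crest.Agent.R204.Q888
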