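import Crest.Agent.R204.Sq2_252
import Crest.Agent.R204.SqPhi_888
import Crest.Agent.R204.CopH_847

/-!
# Row 204, block S: external Cartan formula, Cartan formula for the coproduct, top square
(helper252)

* `cf_s` : `cf K J (s i x) = R_{i-J} x` (`0` for `i < J`)
* `Sq_crH`, `Sq_cross` : external Cartan formula
* `copH_Sq` : Cartan formula for the coproduct
* `topSq` : `u (Sq_n y) = (u ⊗ u) (Δ y)` for `|y| = 2 n`
-/

set_option autoImplicit false

noncomputable section

open TensorProduct Finsupp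

namespace Crest.Agent.R204.Sq252

open SS DK742 Phi252 QC134 Gr334 EZ271 Coalg847

/-- comparison with the coefficients of helper888 -/
theorem cf_s (K : SS) {J : ℕ} (hJ : 1 ≤ J) (i : ℕ) (x : H F2 K) :
    Q888.cf K J ((Q888.isSq K).s i x) = if J ≤ i then Rk K (i - J) x else 0 := by
  obtain ⟨z, hz, rfl⟩ := Hd.mk_surj _ x
  refine Hd_ext (bdd K) fun u hu => ?_
  rw [Q888.cf_s_functional K J hJ i (uH _ u hu) u hu (fun _ _ => rfl) z hz]
  split_ifs with h
  · rw [uH_Rk]; rfl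
  · rw [map_zero]

/-- external Cartan formula for `R_k` -/
theorem Rk_crH {K L : SS} (k : ℕ) (x : H F2 K) (y : H F2 L) :
    Rk (K.prod L) k (Q888.crH x y) =
      ∑ j ∈ Finset.range (k + 1), Q888.crH (Rk K j x) (Rk L (k - j) y) := by
  have h := Q888.cartan_cf K L 1 1 le_rfl le_rfl (k + 2) x y
  rw [cf_s (K.prod L) (by omega), if_pos (by omega)] at h
  rw [show k + 2 - (1 + 1) = k by omega] at h
  rw [h, Finset.sum_range_succ', Finset.sum_range_succ]
  rw [cf_s K le_rfl 0, if_neg (by omega), map_zero, LinearMap.zero_apply, add_zero]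
  rw [cf_s L le_rfl (k + 2 - (k + 1 + 1)), if_neg (by omega), map_zero, add_zero]
  refine Finset.sum_congr rfl fun j hj => ?_
  have hj' := Finset.mem_range.1 hj
  rw [cf_s K le_rfl, if_pos (by omega), cf_s L le_rfl, if_pos (by omega)]
  rw [show j + 1 - 1 = j by omega, show k + 2 - (j + 1) - 1 = k - j by omega]

theorem Sq_crH_gr {K L : SS} {m n : ℕ} (l : ℕ) {x : H F2 K} {y : H F2 L} (hx : x ∈ H.gr F2 K m)
    (hy : y ∈ H.gr F2 L n) (hxy : Q888.crH x y ∈ H.gr F2 (K.prod L) (m + n)) :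
    Sq (K.prod L) l (Q888.crH x y) =
      ∑ a ∈ Finset.range (l + 1), Q888.crH (Sq K a x) (Sq L (l - a) y) := by
  by_cases h : 2 * l ≤ m + n
  · rw [Sq_apply hxy h, Rk_crH]
    have h1 : ∀ j ∈ Finset.range (m + n - 2 * l + 1), ¬ (j ≤ m ∧ (m - j) % 2 = 0 ∧ m + n - 2 * l - j ≤ n) →
        Q888.crH (Rk K j x) (Rk L (m + n - 2 * l - j) y) = 0 := by
      intro j hj hn
      by_cases h2 : m < j
      · rw [Rk_eq_zero_of_lt h2 hx, map_zero, LinearMap.zero_apply]
      · by_cases h3 : (m - j) % 2 = 1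
        · rw [Rk_eq_zero_of_odd (show (m + j) % 2 = 1 by omega) hx, map_zero, LinearMap.zero_apply]
        · rw [Rk_eq_zero_of_lt (show n < m + n - 2 * l - j by omega) hy, map_zero]
    have h2 : ∀ a ∈ Finset.range (l + 1), ¬ (2 * a ≤ m ∧ 2 * (l - a) ≤ n) →
        Q888.crH (Sq K a x) (Sq L (l - a) y) = 0 := by
      intro a ha hn
      by_cases h3 : m < 2 * a
      · rw [Sq_unst hx h3, map_zero, LinearMap.zero_apply]
      · rw [Sq_unst hy (show n < 2 * (l - a) by omega), map_zero]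
    rw [← Finset.sum_filter_add_sum_filter_not (Finset.range (m + n - 2 * l + 1))
      (fun j => j ≤ m ∧ (m - j) % 2 = 0 ∧ m + n - 2 * l - j ≤ n),
      ← Finset.sum_filter_add_sum_filter_not (Finset.range (l + 1))
      (fun a => 2 * a ≤ m ∧ 2 * (l - a) ≤ n)]
    rw [Finset.sum_eq_zero (s := Finset.filter (fun j => ¬ _) _) (fun j hj => h1 j (Finset.mem_filter.1 hj).1
      (Finset.mem_filter.1 hj).2),
      Finset.sum_eq_zero (s := Finset.filter (fun a => ¬ _) (Finset.range (l + 1))) (fun a ha =>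
      h2 a (Finset.mem_filter.1 ha).1 (Finset.mem_filter.1 ha).2), add_zero, add_zero]
    refine Finset.sum_bij' (fun j _ => (m - j) / 2) (fun a _ => m - 2 * a) ?_ ?_ ?_ ?_ ?_
    · intro j hj
      simp only [Finset.mem_filter, Finset.mem_range] at hj ⊢
      omega
    · intro a ha
      simp only [Finset.mem_filter, Finset.mem_range] at ha ⊢
      omega
    · intro j hj
      simp only [Finset.mem_filter, Finset.mem_range] at hj ⊢
      omega
    · intro a ha
      simp only [Finset.mem_filter, Finset.mem_range] at ha ⊢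
      omega
    · intro j hj
      simp only [Finset.mem_filter, Finset.mem_range] at hj
      rw [Rk_eq_Sq (l := (m - j) / 2) hx (by omega), Rk_eq_Sq (l := l - (m - j) / 2) hy (by omega)]
  · rw [Sq_unst hxy (by omega)]
    symm
    refine Finset.sum_eq_zero fun a ha => ?_
    have ha' := Finset.mem_range.1 ha
    by_cases h3 : m < 2 * a
    · rw [Sq_unst hx h3, map_zero, LinearMap.zero_apply]
    · rw [Sq_unst hy (show n < 2 * (l - a) by omega), map_zero]

theorem crH888_eq {K L : SS} (x : H F2 K) (y : H F2 L) : Q888.crH x y = EZ847.crH K L (x ⊗ₜ y) := by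
  obtain ⟨z, hz, rfl⟩ := Hd.mk_surj _ x
  obtain ⟨w, hw, rfl⟩ := Hd.mk_surj _ y
  rw [EZ847.crH_mk]; rfl

/-- **external Cartan formula** -/
theorem Sq_crH {K L : SS} (l : ℕ) (x : H F2 K) (y : H F2 L) :
    Sq (K.prod L) l (Q888.crH x y) =
      ∑ a ∈ Finset.range (l + 1), Q888.crH (Sq K a x) (Sq L (l - a) y) := by
  refine H_induction (p := fun x => Sq (K.prod L) l (Q888.crH x y) =
      ∑ a ∈ Finset.range (l + 1), Q888.crH (Sq K a x) (Sq L (l - a) y)) x ?_ ?_ fun m x hx => ?_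
  · simp
  · intro a b ha hb
    simp only [map_add, LinearMap.add_apply, ha, hb, Finset.sum_add_distrib]
  · refine H_induction (p := fun y => Sq (K.prod L) l (Q888.crH x y) =
      ∑ a ∈ Finset.range (l + 1), Q888.crH (Sq K a x) (Sq L (l - a) y)) y ?_ ?_ fun n y hy => ?_
    · simp
    · intro a b ha hb
      simp only [map_add, ha, hb, Finset.sum_add_distrib]
    · refine Sq_crH_gr l hx hy ?_
      rw [crH888_eq]
      exact EZ847.crH_mem_gr hx hy

open Finset.HasAntidiagonal (antidiagonal)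

/-- **external Cartan formula** in the form of helper847 -/
theorem Sq_cross {K L : SS} (l : ℕ) (x : H F2 K) (y : H F2 L) :
    Sq (K.prod L) l (EZ847.crH K L (x ⊗ₜ y)) =
      ∑ p ∈ antidiagonal l, EZ847.crH K L (Sq K p.1 x ⊗ₜ Sq L p.2 y) := by
  rw [← crH888_eq, Sq_crH, Finset.Nat.sum_antidiagonal_eq_sum_range_succ_mk]
  exact Finset.sum_congr rfl fun a _ => crH888_eq _ _

theorem Sq_cross' {K L : SS} (l : ℕ) (t : H F2 K ⊗[F2] H F2 L) :
    Sq (K.prod L) l (EZ847.crH K L t) =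
      EZ847.crH K L (∑ p ∈ antidiagonal l, TensorProduct.map (Sq K p.1) (Sq L p.2) t) := by
  induction t using TensorProduct.induction_on with
  | zero => simp
  | add a b ha hb => simp only [map_add, ha, hb, Finset.sum_add_distrib]
  | tmul a b =>
    rw [Sq_cross, map_sum]
    rfl

/-- **Cartan formula for the coproduct** -/
theorem copH_Sq {K : SS} (l : ℕ) (x : H F2 K) :
    EZ847.copH K (Sq K l x) =
      ∑ p ∈ antidiagonal l, TensorProduct.map (Sq K p.1) (Sq K p.2) (EZ847.copH K x) := by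
  rw [EZ847.copH_eq_iff, ← Sq_cross', EZ847.crH_copH, ← Sq_map]

/-! ## top square -/

theorem tD_Phi {K : SS} (z : N F2 K) (hz : N.bd F2 K z = 0) :
    tD (N.bd F2 K) (N.bd F2 K) (Phi K 0 z : N F2 K ⊗[F2] N F2 K) = 0 := by
  have h : tD (N.bd F2 K) (N.bd F2 K) (Phi K 0 z : N F2 K ⊗[F2] N F2 K) =
      (dd K (Phi K 0 z) : N F2 K ⊗[F2] N F2 K) := rfl
  have h2 : dd K (Phi K 0 z) = 0 := by rw [dd_Phi_zero, hz, map_zero]
  exact h.trans h2

/-- the class of `Φ_0` is the coproduct -/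
theorem kun_copH_Phi {K : SS} (z : N F2 K) (hz : N.bd F2 K z = 0) :
    kun (N.bd F2 K) (N.bd F2 K) N.bd_bd N.bd_bd (EZ847.copH K (Hd.mk _ z hz)) =
      Hd.mk (tD (N.bd F2 K) (N.bd F2 K)) (Phi K 0 z : N F2 K ⊗[F2] N F2 K) (tD_Phi z hz) := by
  have hb : Function.Injective (Hd.map (crossT F2) (EZ847.crossT_bd (K := K) (L := K))) :=
    (EZ847.ezd.bij K K).1
  apply hb
  have h1 : Hd.map (crossT F2) EZ847.crossT_bd
      (kun (N.bd F2 K) (N.bd F2 K) N.bd_bd N.bd_bd (EZ847.copH K (Hd.mk _ z hz))) =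
      H.map F2 (SS.diag K) (Hd.mk _ z hz) := EZ847.crH_copH _
  obtain ⟨w, hw⟩ := Q888.family_w K z hz
  have h0 := hw 0
  rw [AMU898.prev_zero, map_zero, add_zero, add_zero] at h0
  have h2 : (Hd.map (crossT F2) (EZ847.crossT_bd (K := K) (L := K)))
      (Hd.mk (tD (N.bd F2 K) (N.bd F2 K)) (Phi K 0 z : N F2 K ⊗[F2] N F2 K) (tD_Phi z hz)) =
      Hd.mk _ (crossT F2 (Phi K 0 z : N F2 K ⊗[F2] N F2 K))
        (by rw [← EZ847.crossT_bd', tD_Phi z hz, map_zero]) := rfl
  rw [h1, h2, Coalg847.hMap_mk, Hd.mk_eq_mk]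
  refine ⟨w 0, ?_⟩
  rw [← h0, QC134.sub_eq', add_comm]
  rfl

/-- **top square** -/
theorem topSq {K : SS} (n : ℕ) (y : H F2 K) (hy : y ∈ H.gr F2 K (2 * n)) (u : H F2 K →ₗ[F2] F2) :
    u (Sq K n y) = LinearMap.mul' F2 F2 (TensorProduct.map u u (EZ847.copH K y)) := by
  obtain ⟨U, hU, rfl⟩ := exists_uH (N.bd F2 K) (bdd K) u
  obtain ⟨z, hc, hz, rfl⟩ := mem_H_gr.1 hy
  have e1 := uH_Sq (K := K) (l := n) le_rfl U hU hc hz
  rw [Nat.sub_self] at e1
  rw [e1]
  -- the functional on the homology of the tensor product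
  have hdT : ∀ w, uu U (tD (N.bd F2 K) (N.bd F2 K) w) = 0 := fun w => uu_dT _ U hU w
  have hV : uu U (Phi K 0 z) = uH (tD (N.bd F2 K) (N.bd F2 K)) (uu U) hdT
    (Hd.mk (tD (N.bd F2 K) (N.bd F2 K)) (Phi K 0 z : N F2 K ⊗[F2] N F2 K) (tD_Phi z hz)) := rfl
  rw [hV, ← kun_copH_Phi z hz]
  have key : ∀ t : H F2 K ⊗[F2] H F2 K, uH (tD (N.bd F2 K) (N.bd F2 K)) (uu U) hdT
      (kun (N.bd F2 K) (N.bd F2 K) N.bd_bd N.bd_bd t) =
      LinearMap.mul' F2 F2 (TensorProduct.map (uH _ U hU) (uH _ U hU) t) := by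
    intro t
    induction t using TensorProduct.induction_on with
    | zero => simp
    | add a b ha hb => simp only [map_add, ha, hb]
    | tmul a b =>
      obtain ⟨a, ha, rfl⟩ := Hd.mk_surj _ a
      obtain ⟨b, hb, rfl⟩ := Hd.mk_surj _ b
      rw [kun_mk]
      rfl
  exact key _

end Crest.Agent.R204.Sq252
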