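import Crest.Agent.R204.Sq3_252
import Crest.Agent.R204.BZ2b_498
import Crest.Agent.R204.C6_898
import Crest.Agent.R204.Cofib_670

/-!
# Row 204, block S: the packages of the consumers (helper252)

* `stPkg : Cofib670.StPkg` (block E)
* `sq_aZ` : Steenrod operations of `B Z/2`
* `sqSys : C6898.SqSys` (`FactT`, Nishida relation)
-/

set_option autoImplicit false
set_option maxHeartbeats 400000

noncomputable section

open TensorProduct Finsupp

namespace Crest.Agent.R204.Sq252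

open SS DK742 Phi252 QC134 Gr334 EZ271 Coalg847

theorem Sq_deg {K : SS} (n a : ℕ) (y : H F2 K) (hy : y ∈ H.gr F2 K (n + a)) :
    Sq K a y ∈ H.gr F2 K n := by
  have := Sq_mem_gr (l := a) hy
  rwa [Nat.add_sub_cancel] at this

/-- the package of helper670 -/
def stPkg : Cofib670.StPkg where
  cop := EZ847.copH
  cop_nat f y := EZ847.copH_nat f y
  Sq := Sq
  Sq_nat f a y := (Sq_map f a y).symm
  Sq_zero K y := Sq_zero y
  Sq_deg K n a y hy := Sq_deg n a y hy
  Sq_unst K n a y hy h := Sq_unst hy h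
  cartan K a y := copH_Sq a y
  topSq K n y hy u := topSq n y hy u

/-- Steenrod operations of `B Z/2` -/
theorem sq_aZ (n l : ℕ) :
    Sq BZ498.BZ l (BZ498.aZ n) = ((Nat.choose (n - l) l : ℕ) : F2) • BZ498.aZ (n - l) := by
  refine BZ498.sq_aZ (fun l => Sq BZ498.BZ l) (fun l => Sq (BZ498.BZ.prod BZ498.BZ) l)
    (fun l n => (Sq_map _ l _).symm) (fun l p q => Sq_crH l _ _)
    (fun l n _ => Sq_mem_gr (BZ498.aZ_mem_gr n)) (fun n => Sq_zero _)
    (fun l n h => Sq_unst (BZ498.aZ_mem_gr n) h) ?_ n l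
  -- the top square of `a_2`
  have h3 : Sq BZ498.BZ 1 (BZ498.aZ 2) ∈ H.gr F2 BZ498.BZ 1 := by
    have := Sq_mem_gr (l := 1) (BZ498.aZ_mem_gr 2)
    exact this
  obtain ⟨r, hr⟩ := BZ498.memZ_gr 1 (Sq BZ498.BZ 1 (BZ498.aZ 2)) h3
  have h := topSq 1 (BZ498.aZ 2) (BZ498.aZ_mem_gr 2) (BZ498.xZ 1)
  have h2 : EZ847.copH BZ498.BZ (BZ498.aZ 2) =
      ∑ p ∈ Finset.HasAntidiagonal.antidiagonal 2, BZ498.aZ p.1 ⊗ₜ BZ498.aZ p.2 := C6898.cop_aZ 2
  rw [h2, hr, map_smul, BZ498.xZ_aZ, map_sum, map_sum,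
    Finset.Nat.sum_antidiagonal_eq_sum_range_succ_mk, Finset.sum_range_succ, Finset.sum_range_succ,
    Finset.sum_range_one] at h
  simp only [TensorProduct.map_tmul, LinearMap.mul'_apply, BZ498.xZ_aZ] at h
  norm_num at h
  show Sq BZ498.BZ 1 (BZ498.aZ 2) = _
  rw [hr, h, one_smul]

/-- the package of helper898 -/
def sqSys : C6898.SqSys where
  Sq := Sq
  nat f a x := Sq_map f a x
  cartan K L a x y := Sq_cross a x y
  sqB i b := by
    rw [sq_aZ]
    split_ifs with h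
    · rfl
    · rw [Nat.choose_eq_zero_of_lt (by omega), Nat.cast_zero, zero_smul]

/-- **Nishida type formula** `Sq_a (T_i y) = ∑_{b ≤ a} C(i-b,b) T_{i-b} (Sq_{a-b} y)` -/
theorem Sq_T {M : ℕ} {K : SS} (A : ThAlg265.ThAlg M K) {i : ℕ} (h : i ≤ M) (a : ℕ) (y : H F2 K) :
    Sq K a (Ops265.T A i y) = ∑ b ∈ Finset.range (a + 1),
      (if 2 * b ≤ i then (Nat.choose (i - b) b : F2) else 0) •
        Ops265.T A (i - b) (Sq K (a - b) y) := sqSys.Sq_T A h a y

end Crest.Agent.R204.Sq252
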