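import Crest.Agent.R204.C6_898

/-!
# Row 204, block S (helper898): internal Cartan formulas and the Steenrod operations on `B Z/2`

From `SqPre` (natural operations on `H F2 K`, identity in degree `0`, degrees, instability, external
Cartan formula, `Sq_1 a_2 = a_1`):
* `cop_Sq` : `Δ (Sq_a x) = ∑ (Sq_p ⊗ Sq_q) (Δ x)`
* `mul_Sq` : `Sq_a (x y) = ∑ Sq_p x Sq_q y` for every H-monoid
* `sqB` : `Sq_b a_i = C(i-b,b) a_{i-b}`
* `toSys : SqSys`
-/

set_option autoImplicit false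

noncomputable section

namespace Crest.Agent.R204.C6898

open SS TensorProduct Coalg847 EZ271 ThetaSS265 ThAlg265
open Finset.HasAntidiagonal (antidiagonal mem_antidiagonal)

/-- natural operations with the axioms needed for everything on `H F2 K` -/
structure SqPre where
  Sq : ∀ K : SS, ℕ → H F2 K →ₗ[F2] H F2 K
  nat : ∀ {K L : SS} (f : Hom K L) (a : ℕ) (x : H F2 K),
    H.map F2 f (Sq K a x) = Sq L a (H.map F2 f x)
  cartan : ∀ (K L : SS) (a : ℕ) (x : H F2 K) (y : H F2 L), Sq (K.prod L) a (Ez.cr K L (x ⊗ₜ y)) =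
    ∑ p ∈ antidiagonal a, Ez.cr K L (Sq K p.1 x ⊗ₜ Sq L p.2 y)
  zero : ∀ {K : SS} (x : H F2 K), Sq K 0 x = x
  gr : ∀ {K : SS} (a n : ℕ) (x : H F2 K), x ∈ H.gr F2 K n → Sq K a x ∈ H.gr F2 K (n - a)
  unst : ∀ {K : SS} (a n : ℕ) (x : H F2 K), x ∈ H.gr F2 K n → n < 2 * a → Sq K a x = 0
  top2 : Sq BZ498.BZ 1 (BZ498.aZ 2) = BZ498.aZ 1

namespace SqPre

variable (S : SqPre) {K L : SS}

theorem cartan' (a : ℕ) (t : H F2 K ⊗[F2] H F2 L) : S.Sq (K.prod L) a (Ez.cr K L t) =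
    Ez.cr K L (∑ p ∈ antidiagonal a, TensorProduct.map (S.Sq K p.1) (S.Sq L p.2) t) := by
  induction t with
  | zero => simp
  | add x y hx hy =>
    simp only [map_add, hx, hy, Finset.sum_add_distrib]
  | tmul x y =>
    rw [S.cartan, map_sum]
    rfl

/-- **Cartan formula for the coproduct** -/
theorem cop_Sq (a : ℕ) (x : H F2 K) : Ez.cop K (S.Sq K a x) =
    ∑ p ∈ antidiagonal a, TensorProduct.map (S.Sq K p.1) (S.Sq K p.2) (Ez.cop K x) := by
  apply (Ez.cr K K).injective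
  rw [EZData.cr_cop, S.nat, ← EZData.cr_cop, S.cartan']

/-- **Cartan formula for the Pontryagin product** -/
theorem mul_Sq (mu : Hom (K.prod K) K) (a : ℕ) (x y : H F2 K) :
    S.Sq K a (H.map F2 mu (Ez.cr K K (x ⊗ₜ y))) =
      ∑ p ∈ antidiagonal a, H.map F2 mu (Ez.cr K K (S.Sq K p.1 x ⊗ₜ S.Sq K p.2 y)) := by
  rw [← S.nat, S.cartan, map_sum]

/-! ## the classifying space -/

theorem pair_cop (f g : H F2 BZ498.BZ →ₗ[F2] F2) (i : ℕ) :
    TensorProduct.lid F2 F2 (TensorProduct.map f g (Ez.cop _ (BZ498.aZ i))) =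
      ∑ p ∈ antidiagonal i, f (BZ498.aZ p.1) * g (BZ498.aZ p.2) := by
  rw [cop_aZ, map_sum, map_sum]
  refine Finset.sum_congr rfl fun p _ => ?_
  rw [TensorProduct.map_tmul, TensorProduct.lid_tmul, smul_eq_mul]

theorem pair_aZ (m n i : ℕ) : ∑ p ∈ antidiagonal i,
    BZ498.xZ m (BZ498.aZ p.1) * BZ498.xZ n (BZ498.aZ p.2) = if i = m + n then 1 else 0 := by
  by_cases h : i = m + n
  · rw [if_pos h, Finset.sum_eq_single (m, n)]
    · rw [BZ498.xZ_aZ, BZ498.xZ_aZ, if_pos rfl, if_pos rfl, mul_one]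
    · rintro ⟨p, q⟩ hp hne
      rw [BZ498.xZ_aZ, BZ498.xZ_aZ]
      by_cases h1 : p = m
      · have h2 : q ≠ n := fun h2 => hne (by rw [h1, h2])
        rw [if_neg h2, mul_zero]
      · rw [if_neg h1, zero_mul]
    · intro hn
      exact (hn (mem_antidiagonal.2 h.symm)).elim
  · rw [if_neg h]
    refine Finset.sum_eq_zero ?_
    rintro ⟨p, q⟩ hp
    rw [mem_antidiagonal] at hp
    rw [BZ498.xZ_aZ, BZ498.xZ_aZ]
    by_cases h1 : p = m
    · have h2 : q ≠ n := fun h2 => h (by rw [← hp, h1, h2])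
      rw [if_neg h2, mul_zero]
    · rw [if_neg h1, zero_mul]

theorem xZ_gr {m n : ℕ} (h : n ≠ m) {u : H F2 BZ498.BZ} (hu : u ∈ H.gr F2 BZ498.BZ n) :
    BZ498.xZ m u = 0 := by
  obtain ⟨r, rfl⟩ := BZ498.memZ_gr n u hu
  rw [map_smul, BZ498.xZ_aZ, if_neg h, smul_zero]

/-- `x^1 ∘ Sq_1 = x^2` -/
theorem x1_Sq1 : BZ498.xZ 1 ∘ₗ S.Sq BZ498.BZ 1 = BZ498.xZ 2 :=
  BZ498.homZ_ext fun n => by
    rw [LinearMap.comp_apply, BZ498.xZ_aZ]
    by_cases h : n = 2
    · rw [h, S.top2, BZ498.xZ_aZ, if_pos rfl, if_pos rfl]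
    · rw [if_neg h]
      exact xZ_gr (by omega) (S.gr 1 n _ (BZ498.aZ_mem_gr n))

theorem x1_Sq_ge2 (c : ℕ) (hc : 2 ≤ c) : BZ498.xZ 1 ∘ₗ S.Sq BZ498.BZ c = 0 :=
  BZ498.homZ_ext fun n => by
    rw [LinearMap.comp_apply, LinearMap.zero_apply]
    by_cases h : n < 2 * c
    · rw [S.unst c n _ (BZ498.aZ_mem_gr n) h, map_zero]
    · exact xZ_gr (by omega) (S.gr c n _ (BZ498.aZ_mem_gr n))

/-- recursion for the coefficients -/
theorem rec_sqB (i b n : ℕ) : BZ498.xZ (n + 1) (S.Sq _ (b + 1) (BZ498.aZ (i + 2))) =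
    BZ498.xZ n (S.Sq _ (b + 1) (BZ498.aZ (i + 1))) + BZ498.xZ n (S.Sq _ b (BZ498.aZ i)) := by
  -- `x^(n+1) = (x^1 ⊗ x^n) ∘ Δ`
  have h1 : ∀ u : H F2 BZ498.BZ, BZ498.xZ (n + 1) u =
      TensorProduct.lid F2 F2 (TensorProduct.map (BZ498.xZ 1) (BZ498.xZ n) (Ez.cop _ u)) := by
    have : BZ498.xZ (n + 1) = (TensorProduct.lid F2 F2).toLinearMap ∘ₗ
        TensorProduct.map (BZ498.xZ 1) (BZ498.xZ n) ∘ₗ Ez.cop _ :=
      BZ498.homZ_ext fun i => by
        rw [BZ498.xZ_aZ]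
        show _ = TensorProduct.lid F2 F2 (TensorProduct.map _ _ (Ez.cop _ (BZ498.aZ i)))
        rw [pair_cop, pair_aZ]
        congr 1
        rw [add_comm]
    intro u
    rw [this]
    rfl
  rw [h1, S.cop_Sq, map_sum, map_sum, Finset.Nat.sum_antidiagonal_eq_sum_range_succ_mk,
    Finset.sum_range_succ', Finset.sum_range_succ']
  have h2 : ∀ (c d : ℕ), TensorProduct.lid F2 F2 (TensorProduct.map (BZ498.xZ 1) (BZ498.xZ n)
      (TensorProduct.map (S.Sq _ c) (S.Sq _ d) (Ez.cop _ (BZ498.aZ (i + 2))))) =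
      ∑ p ∈ antidiagonal (i + 2), (BZ498.xZ 1 ∘ₗ S.Sq _ c) (BZ498.aZ p.1) *
        (BZ498.xZ n ∘ₗ S.Sq _ d) (BZ498.aZ p.2) := by
    intro c d
    rw [← pair_cop, TensorProduct.map_comp]
    rfl
  simp only [h2]
  rw [Finset.sum_eq_zero (s := Finset.range b)]
  · rw [zero_add]
    simp only [zero_add, Nat.add_sub_cancel, Nat.sub_zero]
    rw [S.x1_Sq1]
    have h3 : BZ498.xZ 1 ∘ₗ S.Sq BZ498.BZ 0 = BZ498.xZ 1 := LinearMap.ext fun x => by
      rw [LinearMap.comp_apply, S.zero]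
    rw [h3, add_comm]
    congr 1
    · rw [Finset.sum_eq_single (1, i + 1)]
      · rw [BZ498.xZ_aZ, if_pos rfl, one_mul]; rfl
      · rintro ⟨p, q⟩ hp hne
        rw [mem_antidiagonal] at hp
        have h1 : p ≠ 1 := fun h1 => hne (by
          have : q = i + 1 := by simp only at hp; omega
          rw [h1, this])
        rw [BZ498.xZ_aZ, if_neg h1, zero_mul]
      · intro hn
        exact (hn (mem_antidiagonal.2 (by simp only; omega))).elim
    · rw [Finset.sum_eq_single (2, i)]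
      · rw [BZ498.xZ_aZ, if_pos rfl, one_mul]; rfl
      · rintro ⟨p, q⟩ hp hne
        rw [mem_antidiagonal] at hp
        have h1 : p ≠ 2 := fun h1 => hne (by
          have : q = i := by simp only at hp; omega
          rw [h1, this])
        rw [BZ498.xZ_aZ, if_neg h1, zero_mul]
      · intro hn
        exact (hn (mem_antidiagonal.2 (by simp only; omega))).elim
  · intro c _
    rw [S.x1_Sq_ge2 (c + 1 + 1) (by omega)]
    simp

/-- the coefficient of `Sq_b a_i` -/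
theorem coef_sqB : ∀ i b : ℕ, 2 * b ≤ i →
    BZ498.xZ (i - b) (S.Sq _ b (BZ498.aZ i)) = (Nat.choose (i - b) b : F2) := by
  intro i
  induction i using Nat.strong_induction_on with
  | _ i ih =>
    intro b hb
    rcases b with _ | b
    · rw [S.zero, Nat.sub_zero, BZ498.xZ_aZ, if_pos rfl, Nat.choose_zero_right, Nat.cast_one]
    · obtain ⟨j, rfl⟩ : ∃ j, i = j + 2 := ⟨i - 2, by omega⟩
      obtain ⟨n, hn⟩ : ∃ n, j + 2 - (b + 1) = n + 1 := ⟨j - b, by omega⟩
      rw [hn, S.rec_sqB j b n, Nat.choose_succ_succ]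
      have e1 : BZ498.xZ n (S.Sq _ b (BZ498.aZ j)) = (Nat.choose n b : F2) := by
        have := ih j (by omega) b (by omega)
        rwa [show j - b = n by omega] at this
      have e2 : BZ498.xZ n (S.Sq _ (b + 1) (BZ498.aZ (j + 1))) = (Nat.choose n (b + 1) : F2) := by
        by_cases h : 2 * (b + 1) ≤ j + 1
        · have := ih (j + 1) (by omega) (b + 1) h
          rwa [show j + 1 - (b + 1) = n by omega] at this
        · rw [S.unst (b + 1) (j + 1) _ (BZ498.aZ_mem_gr _) (by omega), map_zero,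
            Nat.choose_eq_zero_of_lt (by omega), Nat.cast_zero]
      rw [e1, e2]
      push_cast
      ring

/-- **`Sq_b a_i = C(i-b,b) a_{i-b}`** -/
theorem sqB (i b : ℕ) : S.Sq BZ498.BZ b (BZ498.aZ i) =
    if 2 * b ≤ i then (Nat.choose (i - b) b : F2) • BZ498.aZ (i - b) else 0 := by
  split_ifs with h
  · obtain ⟨r, hr⟩ := BZ498.memZ_gr (i - b) _ (S.gr b i _ (BZ498.aZ_mem_gr i))
    have h1 := S.coef_sqB i b h
    rw [hr, map_smul, BZ498.xZ_aZ, if_pos rfl, smul_eq_mul, mul_one] at h1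
    rw [hr, h1]
  · exact S.unst b i _ (BZ498.aZ_mem_gr i) (by omega)

/-- the system used for the operations `T_i` -/
def toSys : SqSys where
  Sq := S.Sq
  nat := S.nat
  cartan := S.cartan
  sqB := S.sqB

end SqPre

end Crest.Agent.R204.C6898
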