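import Crest.Agent.R204.Q_888

/-!
# Row 204, block A5: quadratic data and the linear maps `[z] ↦ [e_m ⊗ z ∇ z]` (helper888)
-/

set_option autoImplicit false

noncomputable section

namespace Crest.Agent.R204.Q888

open Finsupp TensorProduct

variable {X Y : Type} [AddCommGroup X] [Module F2 X] [AddCommGroup Y] [Module F2 Y]

/-- quadratic data: chains `X` of a space, chains `Y` of its square with the swap `τ`,
the cross product `nab`, the chains of the diagonal `dg`. -/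
structure IsSq (dX : X →ₗ[F2] X) (dY τ : Y →ₗ[F2] Y) (nab : X →ₗ[F2] X →ₗ[F2] Y)
    (dg : X →ₗ[F2] Y) : Prop where
  dd : ∀ x, dX (dX x) = 0
  ddY : ∀ y, dY (dY y) = 0
  tt : ∀ y, τ (τ y) = y
  dt : ∀ y, dY (τ y) = τ (dY y)
  leib : ∀ x y, dY (nab x y) = nab (dX x) y + nab x (dX y)
  symm : ∀ x y, τ (nab x y) = nab y x
  dg_d : ∀ x, dY (dg x) = dg (dX x)
  dg_t : ∀ x, τ (dg x) = dg x

namespace IsSq

variable {dX : X →ₗ[F2] X} {dY τ : Y →ₗ[F2] Y} {nab : X →ₗ[F2] X →ₗ[F2] Y} {dg : X →ₗ[F2] Y}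

theorem cyc_inv (_h : IsSq dX dY τ nab dg) (m : ℕ) (y : Y) (hy : dY y = 0) (ht : τ y = y) :
    QD dY τ (single m y) = 0 := by
  rcases m with _ | m
  · simp [hy]
  · rw [QD_succ, hy, ht, add_self2]; simp

theorem cyc_nab (h : IsSq dX dY τ nab dg) (m : ℕ) (z : X) (hz : dX z = 0) :
    QD dY τ (single m (nab z z)) = 0 :=
  h.cyc_inv m _ (by rw [h.leib, hz]; simp) (h.symm z z)

theorem cyc_dg (h : IsSq dX dY τ nab dg) (m : ℕ) (z : X) (hz : dX z = 0) :
    QD dY τ (single m (dg z)) = 0 :=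
  h.cyc_inv m _ (by rw [h.dg_d, hz, map_zero]) (h.dg_t z)

theorem cyc_zero (h : IsSq dX dY τ nab dg) (z w : X) (hz : dX z = 0) (hw : dX w = 0) :
    QD dY τ (single 0 (nab z w)) = 0 := by
  rw [QD_zero, h.leib, hz, hw]; simp

/-- `(1 + τ) c` is a boundary -/
theorem bdry_symm (m : ℕ) (c : Y) (hc : dY c = 0) :
    QD dY τ (single (m + 1) c) = single m (c + τ c) := by
  rw [QD_succ, hc]; simp

theorem bdry_sq (h : IsSq dX dY τ nab dg) (m : ℕ) (v : X) :
    ∃ w, QD dY τ w = single m (nab (dX v) (dX v)) := by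
  rcases m with _ | m
  · refine ⟨single 0 (nab v (dX v)), ?_⟩
    rw [QD_zero, h.leib, h.dd]; simp
  · refine ⟨single (m + 1) (nab v (dX v)) + single m (nab v v), ?_⟩
    rw [map_add, QD_succ, h.leib, h.dd, h.symm, map_zero, add_zero]
    have key : QD dY τ (single m (nab v v)) = single m (nab v (dX v) + nab (dX v) v) := by
      rcases m with _ | m
      · rw [QD_zero, h.leib, add_comm (nab (dX v) v)]
      · rw [QD_succ, h.leib, h.symm, add_self2, single_zero, add_zero, add_comm (nab (dX v) v)]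
    rw [key, add_assoc, add_self2, add_zero]

/-- additive map on cycles -/
def G0 (h : IsSq dX dY τ nab dg) (m : ℕ) : LinearMap.ker dX →+ Hd (QD dY τ) where
  toFun z := Hd.mk _ (single m (nab z.1 z.1)) (h.cyc_nab m z.1 z.2)
  map_zero' := by
    rw [Hd.mk_eq_zero]
    exact ⟨0, by simp⟩
  map_add' := by
    rintro ⟨z, hz⟩ ⟨w, hw⟩
    have hz' : dX z = 0 := hz
    have hw' : dX w = 0 := hw
    have e : Hd.mk (QD dY τ) (single m (nab z z)) (h.cyc_nab m z hz) +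
        Hd.mk (QD dY τ) (single m (nab w w)) (h.cyc_nab m w hw) =
        Hd.mk (QD dY τ) (single m (nab z z) + single m (nab w w))
          (by rw [map_add, h.cyc_nab m z hz, h.cyc_nab m w hw, add_zero]) := rfl
    rw [e, Hd.mk_eq_mk]
    refine ⟨single (m + 1) (nab z w), ?_⟩
    rw [bdry_symm m _ (by rw [h.leib, hz', hw']; simp), h.symm]
    have h1 := add_self2 (single m (nab z z) : ℕ →₀ Y)
    have h2 := add_self2 (single m (nab w w) : ℕ →₀ Y)
    rw [sub_eq_add_neg, neg_eq2]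
    show single m (nab z w + nab w z) = (single m (nab (z + w) (z + w)) : ℕ →₀ Y) + _
    simp only [map_add, LinearMap.add_apply, single_add]
    calc _ = (single m (nab z w) + single m (nab w z) : ℕ →₀ Y)
          + (single m (nab z z) + single m (nab z z)) + (single m (nab w w) + single m (nab w w)) := by
          rw [h1, h2, add_zero, add_zero]
      _ = _ := by abel

/-- `G m [z] = [e_m ⊗ z ∇ z]`, linear -/
def G (h : IsSq dX dY τ nab dg) (m : ℕ) : Hd dX →ₗ[F2] Hd (QD dY τ) :=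
  Submodule.liftQ _ ((h.G0 m).toZModLinearMap 2) (by
    rintro ⟨z, hz⟩ hz'
    simp only [Submodule.mem_comap, Submodule.subtype_apply, LinearMap.mem_range] at hz'
    obtain ⟨v, rfl⟩ := hz'
    rw [LinearMap.mem_ker, AddMonoidHom.coe_toZModLinearMap]
    show Hd.mk _ _ _ = 0
    rw [Hd.mk_eq_zero]
    exact h.bdry_sq m v)

theorem G_mk (h : IsSq dX dY τ nab dg) (m : ℕ) (z : X) (hz : dX z = 0) :
    h.G m (Hd.mk dX z hz) = Hd.mk _ (single m (nab z z)) (h.cyc_nab m z hz) := rfl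

/-- `s i [x] = [e_i ⊗ Δ x]`, linear -/
def s (h : IsSq dX dY τ nab dg) (i : ℕ) : Hd dX →ₗ[F2] Hd (QD dY τ) :=
  Hd.map (lsingle i ∘ₗ dg) (by
    ext x : 1
    simp only [LinearMap.comp_apply, lsingle_apply]
    rcases i with _ | i
    · simp [h.dg_d]
    · rw [QD_succ, h.dg_d, h.dg_t, add_self2]; simp)

theorem s_mk (h : IsSq dX dY τ nab dg) (i : ℕ) (z : X) (hz : dX z = 0) :
    h.s i (Hd.mk dX z hz) = Hd.mk _ (single i (dg z)) (h.cyc_dg i z hz) := rfl

/-- `T0 [y] [z] = [e_0 ⊗ y ∇ z]`, bilinear -/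
def T0 (h : IsSq dX dY τ nab dg) : Hd dX →ₗ[F2] Hd dX →ₗ[F2] Hd (QD dY τ) :=
  Submodule.liftQ _
    ({ toFun := fun y => Hd.map (lsingle 0 ∘ₗ nab y.1) (by
        have hy : dX y.1 = 0 := y.2
        ext x : 1
        simp only [LinearMap.comp_apply, lsingle_apply]
        rw [QD_zero, h.leib, hy]; simp)
       map_add' := by
        rintro ⟨y, hy⟩ ⟨y', hy'⟩
        refine LinearMap.ext fun x => ?_
        obtain ⟨z, hz, rfl⟩ := Hd.mk_surj dX x
        simp only [LinearMap.add_apply, Hd.map_mk, LinearMap.comp_apply, lsingle_apply]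
        show Hd.mk _ _ _ = Hd.mk _ (_ + _) _
        congr 1
        simp [single_add]
       map_smul' := by
        rintro r ⟨y, hy⟩
        refine LinearMap.ext fun x => ?_
        obtain ⟨z, hz, rfl⟩ := Hd.mk_surj dX x
        simp only [LinearMap.smul_apply, Hd.map_mk, LinearMap.comp_apply, lsingle_apply,
          RingHom.id_apply]
        show Hd.mk _ _ _ = Hd.mk _ (_ • _) _
        congr 1
        simp } : LinearMap.ker dX →ₗ[F2] (Hd dX →ₗ[F2] Hd (QD dY τ)))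
    (by
      rintro ⟨z, hz⟩ hz'
      simp only [Submodule.mem_comap, Submodule.subtype_apply, LinearMap.mem_range] at hz'
      obtain ⟨v, rfl⟩ := hz'
      rw [LinearMap.mem_ker]
      refine LinearMap.ext fun x => ?_
      obtain ⟨w, hw, rfl⟩ := Hd.mk_surj dX x
      refine Hd.mk_eq_zero.2 ⟨single 0 (nab v w), ?_⟩
      rw [QD_zero, h.leib, hw]; simp)

theorem T0_mk (h : IsSq dX dY τ nab dg) (z w : X) (hz : dX z = 0) (hw : dX w = 0) :
    h.T0 (Hd.mk dX z hz) (Hd.mk dX w hw) = Hd.mk _ (single 0 (nab z w)) (h.cyc_zero z w hz hw) := rfl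

/-- the shift on homology -/
def shH (_h : IsSq dX dY τ nab dg) : Hd (QD dY τ) →ₗ[F2] Hd (QD dY τ) := Hd.map sh (sh_QD dY τ)

theorem sh_s (h : IsSq dX dY τ nab dg) (i : ℕ) (x : Hd dX) : h.shH (h.s (i + 1) x) = h.s i x := by
  obtain ⟨z, hz, rfl⟩ := Hd.mk_surj dX x
  rw [s_mk, s_mk]
  show Hd.mk _ (sh (single (i + 1) (dg z))) _ = _
  congr 1
  simp

theorem sh_G (h : IsSq dX dY τ nab dg) (m : ℕ) (x : Hd dX) : h.shH (h.G (m + 1) x) = h.G m x := by
  obtain ⟨z, hz, rfl⟩ := Hd.mk_surj dX x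
  rw [G_mk, G_mk]
  show Hd.mk _ (sh (single (m + 1) (nab z z))) _ = _
  congr 1
  simp

theorem sh_G0 (h : IsSq dX dY τ nab dg) (x : Hd dX) : h.shH (h.G 0 x) = 0 := by
  obtain ⟨z, hz, rfl⟩ := Hd.mk_surj dX x
  rw [G_mk]
  exact Hd.mk_eq_zero.2 ⟨0, by simp⟩

theorem sh_T0 (h : IsSq dX dY τ nab dg) (x y : Hd dX) : h.shH (h.T0 x y) = 0 := by
  obtain ⟨z, hz, rfl⟩ := Hd.mk_surj dX x
  obtain ⟨w, hw, rfl⟩ := Hd.mk_surj dX y
  rw [T0_mk]
  exact Hd.mk_eq_zero.2 ⟨0, by simp⟩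

end IsSq

/-- coefficient functionals `c J` (`J ≥ 1`): `∑ [e_m ⊗ z_m ∇ z_m] + … ↦ [z_J]` -/
structure IsCoef {dX : X →ₗ[F2] X} {dY τ : Y →ₗ[F2] Y} {nab : X →ₗ[F2] X →ₗ[F2] Y}
    {dg : X →ₗ[F2] Y} (h : IsSq dX dY τ nab dg) (c : ℕ → Hd (QD dY τ) →ₗ[F2] Hd dX) : Prop where
  c_G : ∀ J, 1 ≤ J → ∀ m x, c J (h.G m x) = if m = J then x else 0
  c_T0 : ∀ J, 1 ≤ J → ∀ x y, c J (h.T0 x y) = 0
  exp : ∀ ζ : Hd (QD dY τ), ζ ∈ (⨆ m, LinearMap.range (h.G m)) ⊔
    Submodule.span F2 (Set.range fun p : Hd dX × Hd dX => h.T0 p.1 p.2)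

namespace IsCoef

variable {dX : X →ₗ[F2] X} {dY τ : Y →ₗ[F2] Y} {nab : X →ₗ[F2] X →ₗ[F2] Y} {dg : X →ₗ[F2] Y}
  {h : IsSq dX dY τ nab dg} {c : ℕ → Hd (QD dY τ) →ₗ[F2] Hd dX}

/-- induction principle from the expansion -/
theorem ind (hc : IsCoef h c) {P : Hd (QD dY τ) → Prop} (h0 : P 0) (hadd : ∀ x y, P x → P y → P (x + y))
    (hG : ∀ m x, P (h.G m x)) (hT : ∀ x y, P (h.T0 x y)) (ζ : Hd (QD dY τ)) : P ζ := by
  have hsm : ∀ (r : F2) x, P x → P (r • x) := by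
    intro r x hx
    have : r = 0 ∨ r = 1 := by
      revert r; decide
    rcases this with rfl | rfl
    · rwa [zero_smul]
    · rwa [one_smul]
  let S : Submodule F2 (Hd (QD dY τ)) :=
    { carrier := {x | P x}
      add_mem' := fun {a b} ha hb => hadd a b ha hb
      zero_mem' := h0
      smul_mem' := fun r x hx => hsm r x hx }
  have hle : (⨆ m, LinearMap.range (h.G m)) ⊔
      Submodule.span F2 (Set.range fun p : Hd dX × Hd dX => h.T0 p.1 p.2) ≤ S := by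
    refine sup_le (iSup_le fun m => ?_) (Submodule.span_le.2 ?_)
    · rintro _ ⟨x, rfl⟩
      exact hG m x
    · rintro _ ⟨p, rfl⟩
      exact hT p.1 p.2
  exact hle (hc.exp ζ)

/-- `c J ∘ shift = c (J + 1)` -/
theorem c_sh (hc : IsCoef h c) (J : ℕ) (hJ : 1 ≤ J) (ζ : Hd (QD dY τ)) :
    c J (h.shH ζ) = c (J + 1) ζ := by
  refine hc.ind (P := fun ζ => c J (h.shH ζ) = c (J + 1) ζ) (by simp) ?_ ?_ ?_ ζ
  · intro x y hx hy
    simp only [map_add, hx, hy]
  · intro m x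
    rcases m with _ | m
    · rw [h.sh_G0, map_zero, hc.c_G _ (by omega), if_neg (by omega)]
    · rw [h.sh_G, hc.c_G _ hJ, hc.c_G _ (by omega)]
      by_cases e : m = J
      · rw [if_pos e, if_pos (by omega)]
      · rw [if_neg e, if_neg (by omega)]
  · intro x y
    rw [h.sh_T0, map_zero, hc.c_T0 _ (by omega)]

theorem c_s_succ (hc : IsCoef h c) (J i : ℕ) (hJ : 1 ≤ J) (x : Hd dX) :
    c (J + 1) (h.s (i + 1) x) = c J (h.s i x) := by
  rw [← hc.c_sh J hJ, h.sh_s]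

theorem c_s_add (hc : IsCoef h c) (J i k : ℕ) (hJ : 1 ≤ J) (x : Hd dX) :
    c (J + k) (h.s (i + k) x) = c J (h.s i x) := by
  induction k with
  | zero => rfl
  | succ k ih => rw [← add_assoc, ← add_assoc, hc.c_s_succ _ _ (by omega), ih]

/-- `c J ∘ s i` only depends on `J - i` -/
theorem c_s_eq (hc : IsCoef h c) (J i J' i' : ℕ) (hJ : 1 ≤ J) (hJ' : 1 ≤ J') (e : J + i' = J' + i)
    (x : Hd dX) : c J (h.s i x) = c J' (h.s i' x) := by
  rcases le_total J J' with hle | hle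
  · obtain ⟨k, rfl⟩ := Nat.exists_eq_add_of_le hle
    have : i' = i + k := by omega
    subst this
    exact (hc.c_s_add J i k hJ x).symm
  · obtain ⟨k, rfl⟩ := Nat.exists_eq_add_of_le hle
    have : i = i' + k := by omega
    subst this
    exact hc.c_s_add J' i' k hJ' x

/-- a chain level lift of `c J` -/
theorem exists_lift (_hc : IsCoef h c) (J : ℕ) : ∃ l : (ℕ →₀ Y) →ₗ[F2] Hd dX,
    (∀ w, l (QD dY τ w) = 0) ∧ ∀ z hz, l z = c J (Hd.mk _ z hz) := by
  obtain ⟨l, hl⟩ := LinearMap.exists_extend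
    ((c J) ∘ₗ (Submodule.mkQ ((LinearMap.range (QD dY τ)).comap (LinearMap.ker (QD dY τ)).subtype)))
  have h1 : ∀ z hz, l z = c J (Hd.mk _ z hz) := by
    intro z hz
    exact LinearMap.congr_fun hl ⟨z, hz⟩
  refine ⟨l, ?_, h1⟩
  intro w
  rw [h1 _ (QD_QD dY τ h.ddY h.dt h.tt w)]
  have : Hd.mk (QD dY τ) (QD dY τ w) (QD_QD dY τ h.ddY h.dt h.tt w) = 0 := by
    rw [Hd.mk_eq_zero]
    exact ⟨w, rfl⟩
  rw [this, map_zero]

end IsCoef

end Crest.Agent.R204.Q888
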