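import Crest.Agent.R204.TowerOps_85

/-!
# Row 204: spans of words, independence at `k = 0`, and (W0) (helper85)

* `word0_linearIndependent` : at `k = 0`, `1 ≤ t ≤ D`, the words `Q_I[1]*[-2^r]`, `I` nondecreasing with
  entries `≥ 0`, of degree `t` and ALL lengths are linearly independent (from `FactPoly0`);
* `word_linearIndependent0` : `Q_I[1]`, fixed length;
* `tspan_eq` : span of the `T`-words of length `r`, sum `t` = span of the admissible `Q`-words (any `k`,
  given independence);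
* `W0`.
-/

set_option autoImplicit false

noncomputable section

namespace Crest.Agent.R204.TowerOps85

open Thm3 Finset Spec114
open scoped TensorProduct

variable {X : Spec114.Tower} {D : ℕ}

/-! ## leading zeros -/

/-- number of leading zeros -/
def nz : List ℕ → ℕ
  | [] => 0
  | a :: I => if a = 0 then nz I + 1 else 0

/-- drop the leading zeros -/
def dz : List ℕ → List ℕ
  | [] => []
  | a :: I => if a = 0 then dz I else a :: I

theorem eq_zeros_append : ∀ I : List ℕ, I = List.replicate (nz I) 0 ++ dz I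
  | [] => rfl
  | a :: I => by
    rw [nz, dz]
    split_ifs with h
    · rw [List.replicate_succ, List.cons_append, ← eq_zeros_append I, h]
    · rfl

theorem dz_pairwise : ∀ {I : List ℕ}, I.Pairwise (· ≤ ·) → (dz I).Pairwise (· ≤ ·)
  | [], _ => List.Pairwise.nil
  | a :: I, h => by
    rw [dz]
    split_ifs
    · exact dz_pairwise (List.pairwise_cons.1 h).2
    · exact h

theorem dz_pos : ∀ {I : List ℕ}, I.Pairwise (· ≤ ·) → ∀ i ∈ dz I, 1 ≤ i
  | [], _ => by simp [dz]
  | a :: I, h => by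
    rw [dz]
    split_ifs with h0
    · exact dz_pos (List.pairwise_cons.1 h).2
    · intro i hi
      rcases List.mem_cons.1 hi with rfl | hi
      · omega
      · have := (List.pairwise_cons.1 h).1 i hi
        omega

theorem wdeg_zeros (k : ℕ) (J : List ℕ) : ∀ z : ℕ,
    Tower.wdeg k (List.replicate z 0 ++ J) = 2 ^ z * Tower.wdeg k J
  | 0 => by simp
  | z + 1 => by
    rw [List.replicate_succ, List.cons_append]
    change 2 * Tower.wdeg k (List.replicate z 0 ++ J) + 0 = _
    rw [wdeg_zeros k J z, pow_succ]; ring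

theorem word_zeros (hQ : X.FactQ D) {k : ℕ} (hk : k ≤ D + 2) (J : List ℕ) : ∀ z : ℕ,
    X.word k (List.replicate z 0 ++ J) = X.word k J ^ (2 ^ z)
  | 0 => by simp
  | z + 1 => by
    rw [List.replicate_succ, List.cons_append]
    change X.Q k 0 (X.word k (List.replicate z 0 ++ J)) = _
    rw [(hQ k hk).1, word_zeros hQ hk J z, ← pow_add, pow_succ]
    congr 1; ring

theorem wdeg_dz (k : ℕ) (I : List ℕ) : Tower.wdeg k I = 2 ^ nz I * Tower.wdeg k (dz I) := by
  conv_lhs => rw [eq_zeros_append I]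
  rw [wdeg_zeros]

theorem length_dz (I : List ℕ) : I.length = nz I + (dz I).length := by
  conv_lhs => rw [eq_zeros_append I]
  simp

theorem word_dz (hQ : X.FactQ D) {k : ℕ} (hk : k ≤ D + 2) (I : List ℕ) :
    X.word k I = X.word k (dz I) ^ (2 ^ nz I) := by
  conv_lhs => rw [eq_zeros_append I]
  rw [word_zeros hQ hk]

theorem word0_dz (hQ : X.FactQ D) (I : List ℕ) :
    X.word0 I = X.word0 (dz I) ^ (2 ^ nz I) := by
  rw [Tower.word0, Tower.word0, word_dz hQ (Nat.zero_le _), mul_pow, ← pow_mul, ← pow_add,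
    length_dz I, add_comm (nz I)]

/-- nondecreasing words of degree `t` at `k = 0` -/
def AdmZ (t : ℕ) : Type := {I : List ℕ // I.Pairwise (· ≤ ·) ∧ Tower.wdeg 0 I = t}

theorem dz_ne_nil {t : ℕ} (ht : 1 ≤ t) (I : AdmZ t) : dz I.1 ≠ [] := by
  intro h
  have := I.2.2
  rw [wdeg_dz, h] at this
  change 2 ^ _ * 0 = t at this
  omega

/-- generator under a word -/
def gen {t : ℕ} (ht : 1 ≤ t) (I : AdmZ t) : Tower.Wd0 :=
  ⟨⟨dz I.1, dz_pairwise I.2.1, dz_pos I.2.1⟩, dz_ne_nil ht I⟩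

/-- exponent of a word -/
def expZ {t : ℕ} (ht : 1 ≤ t) (I : AdmZ t) : Tower.Wd0 →₀ ℕ := Finsupp.single (gen ht I) (2 ^ nz I.1)

theorem expZ_injective {t : ℕ} (ht : 1 ≤ t) : Function.Injective (expZ ht) := by
  intro I J h
  rw [expZ, expZ, Finsupp.single_eq_single_iff] at h
  rcases h with ⟨h1, h2⟩ | ⟨h1, _⟩
  · have h3 : dz I.1 = dz J.1 := congrArg (fun g : Tower.Wd0 => g.1.1) h1
    have h4 : nz I.1 = nz J.1 := Nat.pow_right_injective (le_refl 2) h2
    apply Subtype.ext
    rw [eq_zeros_append I.1, eq_zeros_append J.1, h3, h4]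
  · exact absurd h1 (by positivity)

/-- **independence of all nondecreasing words at `k = 0`** -/
theorem word0_linearIndependent (hQ : X.FactQ D) (hP : X.FactPoly0 D) {t : ℕ} (h1 : 1 ≤ t) (ht : t ≤ D) :
    LinearIndependent (ZMod 2) (fun I : AdmZ t => X.word0 I.1) := by
  set A := (MvPolynomial.aeval (fun I : Tower.Wd0 => X.word0 I.1.1) :
    MvPolynomial Tower.Wd0 (ZMod 2) →ₐ[ZMod 2] X.H 0) with hA
  have e : (fun I : AdmZ t => X.word0 I.1) =
      A.toLinearMap ∘ fun I : AdmZ t => MvPolynomial.monomial (expZ h1 I) (1 : ZMod 2) := by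
    funext I
    rw [Function.comp_apply, AlgHom.toLinearMap_apply, hA, MvPolynomial.aeval_monomial, map_one,
      one_mul, expZ, Finsupp.prod_single_index (by simp)]
    exact word0_dz hQ I.1
  rw [e]
  have hli : LinearIndependent (ZMod 2)
      (fun I : AdmZ t => (MvPolynomial.monomial (expZ h1 I) (1 : ZMod 2) :
        MvPolynomial Tower.Wd0 (ZMod 2))) := by
    have h2 : (fun I : AdmZ t => (MvPolynomial.monomial (expZ h1 I) (1 : ZMod 2) :
        MvPolynomial Tower.Wd0 (ZMod 2))) =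
        ⇑(MvPolynomial.basisMonomials Tower.Wd0 (ZMod 2)) ∘ (expZ h1) := by
      funext I
      simp [MvPolynomial.coe_basisMonomials]
    rw [h2]
    exact (MvPolynomial.basisMonomials Tower.Wd0 (ZMod 2)).linearIndependent.comp _ (expZ_injective h1)
  refine hli.map_injOn _ ?_
  have hsub : Submodule.span (ZMod 2) (Set.range fun I : AdmZ t =>
      (MvPolynomial.monomial (expZ h1 I) (1 : ZMod 2) : MvPolynomial Tower.Wd0 (ZMod 2))) ≤
      MvPolynomial.weightedHomogeneousSubmodule (ZMod 2) (fun I : Tower.Wd0 => Tower.wdeg 0 I.1.1) t := by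
    refine Submodule.span_le.2 ?_
    rintro _ ⟨I, rfl⟩
    refine (MvPolynomial.mem_weightedHomogeneousSubmodule _ _ _ _).2 ?_
    refine MvPolynomial.isWeightedHomogeneous_monomial _ _ _ ?_
    rw [expZ, Finsupp.weight_single, smul_eq_mul]
    change 2 ^ nz I.1 * Tower.wdeg 0 (dz I.1) = t
    rw [← wdeg_dz, I.2.2]
  intro p hp q hq hpq
  have hp' := hsub hp
  have hq' := hsub hq
  have h2 := hP.1 t ht (p - q) (Submodule.sub_mem _ hp' hq') (by
    change A (p - q) = 0
    rw [map_sub, sub_eq_zero]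
    exact hpq)
  exact sub_eq_zero.1 h2

theorem xinv_mul (hX : X.FactX D) (n : ℕ) : X.x 0 ^ n * X.xinv ^ n = 1 := by
  rw [← mul_pow, hX.2.2.2.2.2, one_pow]

/-- `Q_I[1]`, fixed length -/
theorem word_linearIndependent0 (hQ : X.FactQ D) (hP : X.FactPoly0 D) (r : ℕ) {t : ℕ} (h1 : 1 ≤ t)
    (ht : t ≤ D) : LinearIndependent (ZMod 2) (fun I : AdmL r 0 t => X.word 0 I.1) := by
  have hli := (word0_linearIndependent hQ hP h1 ht).comp
    (fun I : AdmL r 0 t => (⟨I.1, I.2.1, by rw [I.2.2.2, zero_add]⟩ : AdmZ t)) (by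
      intro I J h
      exact Subtype.ext (congrArg (fun a : AdmZ t => a.1) h))
  refine LinearIndependent.of_comp (LinearMap.mulRight (ZMod 2) (X.xinv ^ (2 ^ r))) ?_
  have h2 : (⇑(LinearMap.mulRight (ZMod 2) (X.xinv ^ (2 ^ r))) ∘ fun I : AdmL r 0 t => X.word 0 I.1) =
      (fun I : AdmZ t => X.word0 I.1) ∘
        (fun I : AdmL r 0 t => (⟨I.1, I.2.1, by rw [I.2.2.2, zero_add]⟩ : AdmZ t)) := by
    funext I
    change X.word 0 I.1 * X.xinv ^ (2 ^ r) = X.word0 I.1
    rw [Tower.word0, I.2.2.1]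
  rw [h2]
  exact hli

section

variable (hSq : X.FactSq D) (hT : X.FactT D) (hG : X.FactGL2 D) (hQ : X.FactQ D) (h13 : X.Fact13 D)

include hSq hT hG hQ h13

omit hSq hT hG hQ h13 in
theorem le_of_adm {r k t : ℕ} (m : Adm r k t) (j : Fin r) : m.1 j ≤ t := le_of_qdeg m.2.2 j

/-- transport independence from lists to functions -/
theorem adm_li {k : ℕ} (hk : k ≤ D + 2) {r t : ℕ} (ht : t ≤ D + 1)
    (hli : LinearIndependent (ZMod 2) (fun I : AdmL r k t => X.word k I.1)) :
    LinearIndependent (ZMod 2)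
      (fun m : Adm r k t => (towerOps hSq hT hG hQ h13 hk).qw m.1 (X.x k)) := by
  have := hli.comp _ (admEquiv r k t).injective
  convert this using 1
  funext m
  rw [qw_x hSq hT hG hQ h13 hk m.1 fun j => (le_of_adm m j).trans ht]
  rfl

/-- the image of `φ_r` is the span of the `T`-words -/
theorem map_phi_eq {k : ℕ} (hk : k ≤ D + 2) (r t : ℕ) :
    (homG r t).map ((towerOps hSq hT hG hQ h13 hk).phi (X.x k) r) =
      Submodule.span (ZMod 2) {y | ∃ J : List ℕ, J.length = r ∧ J.sum = t ∧ y = X.tword k J} := by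
  apply le_antisymm
  · rintro _ ⟨γ, hγ, rfl⟩
    refine homG_induction (P := fun γ => (towerOps hSq hT hG hQ h13 hk).phi (X.x k) r γ ∈
      Submodule.span (ZMod 2) {y | ∃ J : List ℕ, J.length = r ∧ J.sum = t ∧ y = X.tword k J})
      (by simp) ?_ ?_ hγ
    · intro a b ha hb; rw [map_add]; exact Submodule.add_mem _ ha hb
    · intro m hm
      rw [Ops.phi_single, tw_x]
      refine Submodule.subset_span ⟨List.ofFn ⇑m, List.length_ofFn, ?_, rfl⟩
      rw [List.sum_ofFn, hm]
  · refine Submodule.span_le.2 ?_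
    rintro _ ⟨J, rfl, hJ, rfl⟩
    refine ⟨Finsupp.single (Finsupp.equivFunOnFinite.symm J.get) 1, single_mem_homG _ _ ?_, ?_⟩
    · simp only [Finsupp.equivFunOnFinite_symm_apply_apply]
      rw [← List.sum_ofFn, List.ofFn_get, hJ]
    · rw [Ops.phi_single, tw_x]
      congr 1
      exact List.ofFn_get J

theorem span_adm_eq {k : ℕ} (hk : k ≤ D + 2) {r t : ℕ} (ht : t ≤ D + 1) :
    Submodule.span (ZMod 2)
      (Set.range fun m : Adm r k t => (towerOps hSq hT hG hQ h13 hk).qw m.1 (X.x k)) =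
    Submodule.span (ZMod 2) {y | ∃ I : List ℕ, I.Pairwise (· ≤ ·) ∧ I.length = r ∧
      Tower.wdeg k I = k + t ∧ y = X.word k I} := by
  congr 1
  ext y
  constructor
  · rintro ⟨m, rfl⟩
    have h := (admEquiv r k t m).2
    exact ⟨(admEquiv r k t m).1, h.1, h.2.1, h.2.2,
      qw_x hSq hT hG hQ h13 hk m.1 fun j => (le_of_adm m j).trans ht⟩
  · rintro ⟨I, h1, h2, h3, rfl⟩
    refine ⟨(admEquiv r k t).symm ⟨I, h1, h2, h3⟩, ?_⟩
    set m := (admEquiv r k t).symm ⟨I, h1, h2, h3⟩ with hm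
    have h := congrArg Subtype.val ((admEquiv r k t).apply_symm_apply ⟨I, h1, h2, h3⟩)
    change (towerOps hSq hT hG hQ h13 hk).qw m.1 (X.x k) = _
    rw [qw_x hSq hT hG hQ h13 hk m.1 fun j => (le_of_adm m j).trans ht]
    exact congrArg (X.word k) h

/-- **span of the `T`-words of length `r` = span of the admissible `Q`-words of length `r`** -/
theorem tspan_eq (hT0 : X.FactT0 D) (hX : X.FactX D) {k : ℕ} (hk : k ≤ D + 2) {r t : ℕ}
    (ht : t ≤ D + 1) (hli : LinearIndependent (ZMod 2) (fun I : AdmL r k t => X.word k I.1)) :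
    Submodule.span (ZMod 2) {y | ∃ J : List ℕ, J.length = r ∧ J.sum = t ∧ y = X.tword k J} =
    Submodule.span (ZMod 2) {y | ∃ I : List ℕ, I.Pairwise (· ≤ ·) ∧ I.length = r ∧
      Tower.wdeg k I = k + t ∧ y = X.word k I} := by
  rw [← map_phi_eq hSq hT hG hQ h13 hk, ← span_adm_eq hSq hT hG hQ h13 hk ht]
  exact Ops.map_eq_span _ (towerBase hSq hT hG hQ h13 hT0 hX hk) ht
    (adm_li hSq hT hG hQ h13 hk ht hli)

omit hSq hT hG hQ h13 in
theorem span_mul_unit {r : ℕ} (P : List ℕ → Prop) (hP : ∀ J, P J → J.length = r)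
    (w w0 : List ℕ → X.H 0) (h : ∀ J, w0 J = w J * X.xinv ^ (2 ^ J.length)) :
    Submodule.span (ZMod 2) {y | ∃ J : List ℕ, P J ∧ y = w0 J} =
      (Submodule.span (ZMod 2) {y | ∃ J : List ℕ, P J ∧ y = w J}).map
        (LinearMap.mulRight (ZMod 2) (X.xinv ^ (2 ^ r))) := by
  rw [Submodule.map_span]
  congr 1
  ext y
  constructor
  · rintro ⟨J, hJ, rfl⟩
    refine ⟨w J, ⟨J, hJ, rfl⟩, ?_⟩
    rw [LinearMap.mulRight_apply, h, hP J hJ]
  · rintro ⟨_, ⟨J, hJ, rfl⟩, rfl⟩
    refine ⟨J, hJ, ?_⟩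
    rw [LinearMap.mulRight_apply, h, hP J hJ]

/-- **(W0)** -/
theorem W0 (hT0 : X.FactT0 D) (hX : X.FactX D) (hP : X.FactPoly0 D) {r t : ℕ} (h1 : 1 ≤ t) (ht : t ≤ D) :
    Submodule.span (ZMod 2) {y | ∃ J : List ℕ, J.length = r ∧ J.sum = t ∧ y = X.tword0 J} =
    Submodule.span (ZMod 2) {y | ∃ I : List ℕ, I.Pairwise (· ≤ ·) ∧ I.length = r ∧
      Tower.wdeg 0 I = t ∧ y = X.word0 I} := by
  have key := tspan_eq hSq hT hG hQ h13 hT0 hX (k := 0) (Nat.zero_le _) (r := r) (t := t) (by omega)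
    (word_linearIndependent0 hQ hP r h1 ht)
  have h2 := span_mul_unit (X := X) (r := r) (fun J => J.length = r ∧ J.sum = t) (fun J hJ => hJ.1)
    (X.tword 0) X.tword0 fun J => rfl
  have h3 := span_mul_unit (X := X) (r := r) (fun I => I.Pairwise (· ≤ ·) ∧ I.length = r ∧
      Tower.wdeg 0 I = t) (fun J hJ => hJ.2.1) (X.word 0) X.word0 fun J => rfl
  simp only [and_assoc, zero_add] at h2 h3 key
  rw [h2, h3, key]

end

end Crest.Agent.R204.TowerOps85
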