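import Crest.Agent.R204.Squ_103
import Crest.Agent.R204.Span5_348
import Crest.Agent.R204.Ops_265
import Crest.Agent.R204.Hopf4_450
import Crest.Agent.R204.TowerZero_85
import Crest.Agent.R204.EZInst_847

/-!
# Row 204, leaf G11 (helper85): the source algebra `Squ103.Src (H F2 (Tot ℕ)) D`, part A

Bigrading `W v t` of `H F2 (Tot ℕ)`, compatibility of the product and of the operations `Q_i` of a
`Θ`-algebra structure on `Tot ℕ` with the fixed weight spaces `Fs ℕ v`.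
-/

set_option autoImplicit false

noncomputable section

namespace Crest.Agent.R204.SrcTot85

open SS Fs348 Thr328 ThAlg265 Ops265 Span348 ThetaSS265 Gr334
open DK742 (AltSS)

variable {M : ℕ}

/-- inclusion in homology -/
def io (v : ℕ) : H F2 (Fs ℕ v) →ₗ[F2] H F2 (Tot ℕ) := H.map F2 (inc ℕ v)

/-- weight `v`, degree `t` -/
def W (v t : ℕ) : Submodule F2 (H F2 (Tot ℕ)) := (H.gr F2 (Fs ℕ v) t).map (io v)

/-- the `Θ`-algebra structure on `Tot ℕ` restricts to the fixed weights -/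
structure Compat (k : ℕ ⊕ ℕ ↪ ℕ) (T : ThAlg M (Tot ℕ)) : Prop where
  mu : ∀ a b, T.mu.comp (prodMap (inc ℕ a) (inc ℕ b)) = (inc ℕ (a + b)).comp (mulV k a b)
  Th : ∀ a, T.Th.comp (DMmap M (inc ℕ a)) = (inc ℕ (a + a)).comp (thV k M a)
  one : ∃ e : (Fs ℕ 0).S 0, T.one = (inc ℕ 0).app 0 e

theorem xH_map {K L K' L' : SS} (f : Hom K K') (g : Hom L L') (x : H F2 K) (y : H F2 L) :
    xH (H.map F2 f x) (H.map F2 g y) = H.map F2 (prodMap f g) (xH x y) := by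
  obtain ⟨a, ha, rfl⟩ := Hd.mk_surj _ x
  obtain ⟨b, hb, rfl⟩ := Hd.mk_surj _ y
  show Hd.mk (N.bd F2 _) (EZ271.cross F2 (N.map F2 f a) (N.map F2 g b)) _ =
    Hd.mk (N.bd F2 _) (N.map F2 (prodMap f g) (EZ271.cross F2 a b)) _
  congr 1
  rw [EZ271.map_cross]

section compat

variable {k : ℕ ⊕ ℕ ↪ ℕ} {T : ThAlg M (Tot ℕ)} (hc : Compat k T)

include hc

theorem mulH_io (a b : ℕ) (x : H F2 (Fs ℕ a)) (y : H F2 (Fs ℕ b)) :
    mulH T.mu (io a x) (io b y) = io (a + b) (mV k a b x y) := by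
  show H.map F2 T.mu (xH (H.map F2 (inc ℕ a) x) (H.map F2 (inc ℕ b) y)) =
    H.map F2 (inc ℕ (a + b)) (H.map F2 (mulV k a b) (xH x y))
  rw [xH_map, ← H_map_comp_apply, ← H_map_comp_apply, hc.mu]

theorem Q_io (a i : ℕ) (h : ((i + 1 : ℕ) : ℕ∞) ≤ (AltSS.skel M).M) (x : H F2 (Fs ℕ a)) :
    Q T i (io a x) = io (a + a) (qV k M a i h x) := by
  have h' : i + 1 ≤ M := by
    have : ((i + 1 : ℕ) : ℕ∞) ≤ (M : ℕ∞) := h
    exact_mod_cast this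
  have h1 := C5265.pw_map (M := M) (inc ℕ a) (i := i) (by omega) x
  show H.map F2 T.Th (C5265.pw M (Tot ℕ) i (H.map F2 (inc ℕ a) x)) =
    H.map F2 (inc ℕ (a + a)) (H.map F2 (thV k M a) (DK742.pw (AltSS.skel M) i h x))
  rw [← h1, ← H_map_comp_apply, hc.Th, ← pw_eq742 h x]
  exact H_map_comp_apply (inc ℕ (a + a)) (thV k M a) _

theorem mul_mem {a s b t : ℕ} {y z : H F2 (Tot ℕ)} (hy : y ∈ W a s) (hz : z ∈ W b t) :
    mulH T.mu y z ∈ W (a + b) (s + t) := by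
  obtain ⟨y, hy, rfl⟩ := hy
  obtain ⟨z, hz, rfl⟩ := hz
  rw [mulH_io hc]
  exact ⟨_, H_map_mem_gr _ (xH_gr hy hz), rfl⟩

theorem Q_mem {i v t : ℕ} (h : i + 1 ≤ M) {y : H F2 (Tot ℕ)} (hy : y ∈ W v t) :
    Q T i y ∈ W (2 * v) (2 * t + i) := by
  obtain ⟨y, hy, rfl⟩ := hy
  have h' : ((i + 1 : ℕ) : ℕ∞) ≤ (AltSS.skel M).M := by
    show ((i + 1 : ℕ) : ℕ∞) ≤ (M : ℕ∞)
    exact_mod_cast h
  rw [Q_io hc v i h', two_mul v, add_comm (2 * t)]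
  exact ⟨_, H_map_mem_gr _ (DK742.pw_gr _ i h' hy), rfl⟩

end compat

/-! ## weights `0` and `1` -/

theorem gr_zero_of_vtx {K : SS} {t : ℕ} (ht : 1 ≤ t) {v : K.S 0} {r : F2}
    (h : r • C5T557.vtx F2 v ∈ H.gr F2 K t) : r • C5T557.vtx F2 v = 0 := by
  have h0 : r • C5T557.vtx F2 v ∈ H.gr F2 K 0 := Submodule.smul_mem _ _ (Coalg847.vtx_mem_gr v)
  have h1 := prH_of_mem h
  rw [prH_of_mem_ne (by omega) h0] at h1
  exact h1.symm

theorem W_zero (e : (Fs ℕ 0).S 0) : W 0 0 ≤ Submodule.span F2 {C5T557.vtx F2 ((inc ℕ 0).app 0 e)} := by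
  rintro _ ⟨y, _, rfl⟩
  obtain ⟨r, rfl⟩ := span_zero e y
  rw [map_smul]
  refine Submodule.smul_mem _ _ (Submodule.mem_span_singleton.2 ⟨1, ?_⟩)
  rw [one_smul]
  exact (C5T557.map_vtx F2 (inc ℕ 0) e).symm

theorem W_zero' {t : ℕ} (ht : 1 ≤ t) : W 0 t = ⊥ := by
  rw [eq_bot_iff]
  rintro _ ⟨y, hy, rfl⟩
  obtain ⟨r, rfl⟩ := span_zero ((emp ℕ).app 0 ()) y
  rw [gr_zero_of_vtx ht hy, map_zero]
  exact Submodule.zero_mem _

theorem W_one (e : (Fs ℕ 1).S 0) : W 1 0 ≤ Submodule.span F2 {C5T557.vtx F2 ((inc ℕ 1).app 0 e)} := by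
  rintro _ ⟨y, _, rfl⟩
  obtain ⟨r, rfl⟩ := span_one e y
  rw [map_smul]
  refine Submodule.smul_mem _ _ (Submodule.mem_span_singleton.2 ⟨1, ?_⟩)
  rw [one_smul]
  exact (C5T557.map_vtx F2 (inc ℕ 1) e).symm

theorem W_one' (e : (Fs ℕ 1).S 0) {t : ℕ} (ht : 1 ≤ t) : W 1 t = ⊥ := by
  rw [eq_bot_iff]
  rintro _ ⟨y, hy, rfl⟩
  obtain ⟨r, rfl⟩ := span_one e y
  rw [gr_zero_of_vtx ht hy, map_zero]
  exact Submodule.zero_mem _

end Crest.Agent.R204.SrcTot85
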