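import Crest.Agent.R204.SrcTotA_85

/-!
# Row 204, leaf G11 (helper85): part B: generation (`span`) and `Q_i 1 = 0`
-/

set_option autoImplicit false

noncomputable section

namespace Crest.Agent.R204.SrcTot85

open SS Fs348 Thr328 ThAlg265 Ops265 Span348 ThetaSS265 Gr334
open DK742 (AltSS)

variable {M : ℕ}

/-! ## `Q_i 1 = 0` -/

theorem act_const_zero {K : SS} (v : K.S 0) :
    K.act (⟨fun _ => 0, fun _ _ _ => le_rfl⟩ : Op 0 0) v = v := by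
  have h : (⟨fun _ => 0, fun _ _ _ => le_rfl⟩ : Op 0 0) = OrderHom.id :=
    OrderHom.ext _ _ (funext fun a => Fin.ext (by omega))
  rw [h]
  exact K.act_id v

theorem Q_one {K : SS} (A : ThAlg M K) (h1 : A.OneLaw) {i : ℕ} (hi0 : 1 ≤ i) (hi : i ≤ M) :
    Q A i (C5T557.vtx F2 A.one) = 0 := by
  have e0 : Q A i (C5T557.vtx F2 A.one) = Q A i (Hd.mk (N.bd F2 K) (N.sx F2 A.one)
    (EZ271.bd_sx_zero F2 A.one)) := rfl
  rw [e0, Q_mk A hi]
  obtain ⟨w, hw⟩ : ∃ w : (K.prod K).S 0, w = (A.one, A.one) := ⟨_, rfl⟩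
  have key : N.map F2 A.Th (C5265.PhiC M K i (EZ271.cross F2 (N.sx F2 A.one) (N.sx F2 A.one))) = 0 := by
    have hh : EZ271.cross F2 (N.sx F2 A.one) (N.sx F2 A.one) = N.sx F2 w := by
      rw [C5T557.cross_vertex_right, N.map_sx, hw]
      congr 1
      exact Prod.ext rfl (act_const_zero A.one)
    rw [hh, C5265.PhiC_apply, C5T557.cross_vertex_right, C5265.ee_of_le hi, N.map_sx, N.map_sx,
      N.map_sx]
    have h3 : A.Th.app i ((DK742.proj (C5265.invD M K)).app i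
        ((SS.pair (Hom.id (EM M)) (constHom (EM M) (K.prod K) w)).app i
          (C5265.eS M i (C5265.le_cast hi) 0))) = A.oneS i := by
      rw [hw]
      exact h1 i (C5265.eS M i (C5265.le_cast hi) 0)
    rw [h3]
    exact sx_act_of_lt (show 0 < i by omega) _ _
  rw [Hd.mk_eq_zero]
  exact ⟨0, by rw [key, map_zero]⟩

/-! ## generation -/

section gen

variable {D : ℕ} (S : ℕ → ℕ → Submodule F2 (H F2 (Tot ℕ)))

/-- classes of `Fs ℕ v` whose components of degree `≤ D` lie in `S v` -/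
def PP (D : ℕ) (v : ℕ) : Submodule F2 (H F2 (Fs ℕ v)) :=
  ⨅ t : ℕ, ⨅ _ : t ≤ D, (S v t).comap (io v ∘ₗ prH F2 (Fs ℕ v) t)

theorem mem_PP {v : ℕ} {y : H F2 (Fs ℕ v)} :
    y ∈ PP S D v ↔ ∀ t ≤ D, io v (prH F2 (Fs ℕ v) t y) ∈ S v t := by
  simp [PP, Submodule.mem_iInf]

theorem mem_PP_of_gr {v n : ℕ} {y : H F2 (Fs ℕ v)} (hy : y ∈ H.gr F2 (Fs ℕ v) n)
    (h : n ≤ D → io v y ∈ S v n) : y ∈ PP S D v := by
  rw [mem_PP]
  intro t ht
  by_cases e : n = t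
  · subst e
    rw [prH_of_mem hy]
    exact h ht
  · rw [prH_of_mem_ne e hy, map_zero]
    exact Submodule.zero_mem _

theorem io_mem_of_PP {v n : ℕ} {y : H F2 (Fs ℕ v)} (hy : y ∈ H.gr F2 (Fs ℕ v) n)
    (h : y ∈ PP S D v) (hn : n ≤ D) : io v y ∈ S v n := by
  have := (mem_PP S).1 h n hn
  rwa [prH_of_mem hy] at this

theorem prH_mem_PP {v n : ℕ} {y : H F2 (Fs ℕ v)} (h : y ∈ PP S D v) :
    prH F2 (Fs ℕ v) n y ∈ PP S D v :=
  mem_PP_of_gr S (prH_mem n y) fun hn => (mem_PP S).1 h n hn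

/-- it is enough to treat homogeneous elements -/
theorem PP_induction {v w : ℕ} (f : H F2 (Fs ℕ v) →ₗ[F2] H F2 (Fs ℕ w))
    (hf : ∀ n, ∀ y ∈ H.gr F2 (Fs ℕ v) n, y ∈ PP S D v → f y ∈ PP S D w)
    {y : H F2 (Fs ℕ v)} (hy : y ∈ PP S D v) : f y ∈ PP S D w := by
  obtain ⟨m, -, h⟩ := exists_sum_prH y
  rw [h, map_sum]
  exact Submodule.sum_mem _ fun n _ => hf n _ (prH_mem n y) (prH_mem_PP S hy)

variable {k : ℕ ⊕ ℕ ↪ ℕ} {T : ThAlg M (Tot ℕ)}

/-- **generation**: the field `span` of `Squ103.Src` -/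
theorem span_field (hc : Compat k T) (hD : D + 2 ≤ M) (hK : KunSpan) (hDS : DSpan)
    (e0 : (Fs ℕ 0).S 0) (e1 : (Fs ℕ 1).S 0)
    (h0 : ∀ t ≤ D, W 0 t ≤ S 0 t) (h1 : ∀ t ≤ D, W 1 t ≤ S 1 t)
    (hmul : ∀ (a s b t : ℕ) (y z : H F2 (Tot ℕ)), s + t ≤ D → y ∈ S a s → z ∈ S b t →
      mulH T.mu y z ∈ S (a + b) (s + t))
    (hQ : ∀ (i v t : ℕ) (y : H F2 (Tot ℕ)), 2 * t + i ≤ D → y ∈ S v t →
      Q T i y ∈ S (2 * v) (2 * t + i)) :
    ∀ v t, t ≤ D → W v t ≤ S v t := by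
  have key := span_gr hK hDS k M (PP S D) ?_ ?_ ?_ ?_
  · rintro v t ht _ ⟨y, hy, rfl⟩
    exact io_mem_of_PP S hy (key v t (by omega) hy) ht
  · exact ⟨e0, mem_PP_of_gr S (Coalg847.vtx_mem_gr e0) fun _ =>
      h0 0 (Nat.zero_le _) ⟨_, Coalg847.vtx_mem_gr e0, rfl⟩⟩
  · exact ⟨e1, mem_PP_of_gr S (Coalg847.vtx_mem_gr e1) fun _ =>
      h1 0 (Nat.zero_le _) ⟨_, Coalg847.vtx_mem_gr e1, rfl⟩⟩
  · intro a b x y hx hy
    refine PP_induction S (mV k a b x) ?_ hy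
    intro n y hyn hy
    have hx' : (mV k a b).flip y x ∈ PP S D (a + b) := by
      refine PP_induction S ((mV k a b).flip y) ?_ hx
      intro m x hxm hx
      have hg : mV k a b x y ∈ H.gr F2 (Fs ℕ (a + b)) (m + n) := H_map_mem_gr _ (xH_gr hxm hyn)
      refine mem_PP_of_gr S hg fun hmn => ?_
      show io (a + b) (mV k a b x y) ∈ _
      rw [← mulH_io hc]
      exact hmul _ _ _ _ _ _ hmn (io_mem_of_PP S hxm hx (by omega)) (io_mem_of_PP S hyn hy (by omega))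
    exact hx'
  · intro a i h x hx
    refine PP_induction S (qV k M a i h) ?_ hx
    intro n x hxn hx
    have hg : qV k M a i h x ∈ H.gr F2 (Fs ℕ (a + a)) (i + 2 * n) :=
      H_map_mem_gr _ (DK742.pw_gr _ i h hxn)
    refine mem_PP_of_gr S hg fun hin => ?_
    rw [← Q_io hc, ← two_mul, add_comm i]
    exact hQ i a n _ (by omega) (io_mem_of_PP S hxn hx (by omega))

end gen

end Crest.Agent.R204.SrcTot85
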