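import Crest.Agent.R204.SrcTotB_85
import Crest.Agent.R204.OpsHopf_557

/-!
# Row 204, leaf G11 (helper85): part C: the operation algebra `Thm3.Ops` of an abstract `Θ`-algebra
and the span of the admissible words

* `ThFacts A D Sq` : the facts `FactSq`, `FactT`, `FactGL2`, `Fact13` for one `Θ`-algebra;
* `thOps : Thm3.Ops (H F2 K)`, `thBase` (fundamental class = class of a vertex, `k = 0`);
* `adm_field` : words in `Q_i` on a vertex lie in the span of the nondecreasing words, as soon as a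
  comparison map to a tower with `FactPoly0` exists.
-/

set_option autoImplicit false

noncomputable section

namespace Crest.Agent.R204.SrcTot85

open SS ThAlg265 Ops265 ThetaSS265 Gr334 Thm3 Spec114 Finset
open DK742 (AltSS)
open OpsHopf557 (Qup)

variable {M D : ℕ} {K : SS}

/-- the facts about the operations of one `Θ`-algebra -/
structure ThFacts (A : ThAlg M K) (D : ℕ) (Sq : ℕ → (H F2 K →ₗ[F2] H F2 K)) : Prop where
  sq0 : ∀ y, Sq 0 y = y
  sqgr : ∀ a t, ∀ y ∈ H.gr F2 K t, Sq a y ∈ H.gr F2 K (t - a)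
  unst : ∀ a t, ∀ y ∈ H.gr F2 K t, t < 2 * a → Sq a y = 0
  sqT : ∀ i ≤ D + 1, ∀ (a : ℕ) (y : H F2 K), Sq a (T A i y) =
    ∑ b ∈ range (a + 1), (if 2 * b ≤ i then (Nat.choose (i - b) b : F2) else 0) •
      T A (i - b) (Sq (a - b) y)
  gl2 : ∀ i j, i + j ≤ D + 1 → ∀ y, T A i (T A j y) = T A j (T A i y) ∧
    T A i (T A j y) = ∑ l ∈ range (i + 1), (Nat.choose (l + j) j : F2) • T A (i - l) (T A (j + l) y)
  f13 : ∀ i, 1 ≤ i → i ≤ D + 1 → ∀ t, ∀ y ∈ H.gr F2 K t,
    T A i y = ∑ l ∈ range (t / 2 + 1), Qup A (i + l) (t - l) (Sq l y)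

/-- `Q_i` as a linear map -/
def qlin (A : ThAlg M K) (hD : D + 2 ≤ M) (i : ℕ) : H F2 K →ₗ[F2] H F2 K :=
  if h : i ≤ D + 1 then
    (AddMonoidHom.mk' (Q A i) (fun y z => Q_add A (by omega) y z)).toZModLinearMap 2
  else 0

theorem qlin_apply (A : ThAlg M K) (hD : D + 2 ≤ M) {i : ℕ} (hi : i ≤ D + 1) (y : H F2 K) :
    qlin A hD i y = Q A i y := by
  rw [qlin, dif_pos hi]
  rfl

/-- the operation algebra of a `Θ`-algebra -/
def thOps (A : ThAlg M K) (hD : D + 2 ≤ M) {Sq : ℕ → (H F2 K →ₗ[F2] H F2 K)}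
    (hA : ThFacts A D Sq) : Ops (H F2 K) where
  gr := H.gr F2 K
  T := T A
  Q := qlin A hD
  Sq := Sq
  M := D + 1
  T_gr := fun i _ d y hy => T_gr A hy
  Q_gr := fun i hi d y hy => by
    rw [qlin_apply A hD hi]
    exact Q_gr A (by omega) hy
  Sq_gr := fun a d y hy _ => hA.sqgr a d y hy
  Sq_zero := hA.sq0
  Sq_unst := fun a d y hy h => hA.unst a d y hy h
  T_eq := fun i h1 hi d y hy => by
    rw [hA.f13 i h1 hi d y hy]
    refine Finset.sum_congr rfl fun l hl => ?_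
    rw [Finset.mem_range] at hl
    rw [Qup]
    by_cases h : d ≤ i + 2 * l
    · rw [if_pos (by omega), if_pos h, qlin_apply A hD (by omega)]
      congr 1
      omega
    · rw [if_neg (by omega), if_neg h]
  Sq_T := fun a i hi y => by
    rw [hA.sqT i hi a y]
    refine Finset.sum_congr rfl fun b _ => ?_
    split_ifs
    · rfl
    · rw [zero_smul]
  T_swap := fun i j h y => (hA.gl2 i j h y).1
  T_trans := fun i j h y => by
    rw [(hA.gl2 i j h y).1, (hA.gl2 j i (by omega) y).2]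
    refine Finset.sum_congr rfl fun s hs => ?_
    rw [Finset.mem_range] at hs
    rw [(hA.gl2 (j - s) (i + s) (by omega) y).1]
    congr 2
    rw [add_comm s i, Nat.choose_symm_add]

section base

variable (A : ThAlg M K) (hD : D + 2 ≤ M) {Sq : ℕ → (H F2 K →ₗ[F2] H F2 K)} (hA : ThFacts A D Sq)

theorem vtx_mem (v : K.S 0) : C5T557.vtx F2 v ∈ H.gr F2 K 0 := Coalg847.vtx_mem_gr v

theorem mulH_vtx (mu : Hom (K.prod K) K) (v w : K.S 0) :
    mulH mu (C5T557.vtx F2 v) (C5T557.vtx F2 w) = C5T557.vtx F2 (mu.app 0 (v, w)) := by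
  show Hd.mk (N.bd F2 K) (N.map F2 mu (EZ271.cross F2 (N.sx F2 v) (N.sx F2 w))) _ =
    Hd.mk (N.bd F2 K) (N.sx F2 (mu.app 0 (v, w))) _
  congr 1
  rw [C5T557.cross_vertex_right, N.map_sx, N.map_sx]
  congr 2
  exact Prod.ext rfl (act_const_zero w)

theorem T_zero_vtx (hV : A.Vertex) (v : K.S 0) :
    T A 0 (C5T557.vtx F2 v) = C5T557.vtx F2 (A.mu.app 0 (v, v)) := by
  rw [T_zero A hV, C5T557.map_vtx, C5T557.map_vtx]
  rfl

theorem Q_zero_vtx (hV : A.Vertex) (v : K.S 0) :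
    Q A 0 (C5T557.vtx F2 v) = C5T557.vtx F2 (A.mu.app 0 (v, v)) := by
  rw [Q_zero A hV, mulH_vtx]

include hD in
/-- the fundamental class is the class of a vertex -/
theorem thBase (hV : A.Vertex) (v : K.S 0) : (thOps A hD hA).Base 0 (C5T557.vtx F2 v) where
  mem := vtx_mem v
  sq := fun a ha => hA.unst a 0 _ (vtx_mem v) (by omega)
  t0 := fun h => absurd h (by omega)
  t00 := fun _ r => by
    have key : ∀ r : ℕ, ∃ w : K.S 0, (thOps A hD hA).tw (fun _ : Fin r => 0) (C5T557.vtx F2 v) =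
        C5T557.vtx F2 w := by
      intro r
      induction r with
      | zero => exact ⟨v, by simp⟩
      | succ r ih =>
        obtain ⟨w, hw⟩ := ih
        refine ⟨A.mu.app 0 (w, w), ?_⟩
        have e : Fin.tail (fun _ : Fin (r + 1) => 0) = fun _ : Fin r => 0 := rfl
        rw [Ops.tw_succ, e, hw]
        exact T_zero_vtx A hV w
    obtain ⟨w, hw⟩ := key r
    rw [hw]
    show T A 0 _ = qlin A hD 0 _
    rw [qlin_apply A hD (Nat.zero_le _), T_zero_vtx A hV, Q_zero_vtx A hV]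

theorem qw_eq_wdA (v : K.S 0) : ∀ {r : ℕ} (m : Fin r → ℕ), (∀ j, m j ≤ D + 1) →
    (thOps A hD hA).qw m (C5T557.vtx F2 v) = Squ103.wdA (Q A) (C5T557.vtx F2 v) (List.ofFn m)
  | 0, m, _ => by simp [Squ103.wdA]
  | r + 1, m, h => by
    rw [Ops.qw_succ, qw_eq_wdA v (Fin.tail m) fun j => h j.succ, List.ofFn_succ, Squ103.wdA_cons]
    exact qlin_apply A hD (h 0) _

theorem all_zero_pairwise {I : List ℕ} (h : Tower.wdeg 0 I = 0) : I.Pairwise (· ≤ ·) := by
  have h0 : ∀ i ∈ I, i = 0 := fun i hi => by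
    have := TowerOps85.mem_le_wdeg' (k := 0) hi
    omega
  clear h
  induction I with
  | nil => exact List.Pairwise.nil
  | cons i I ih =>
    refine List.pairwise_cons.2 ⟨fun j hj => ?_, ih fun j hj => h0 j (List.mem_cons_of_mem _ hj)⟩
    rw [h0 i List.mem_cons_self]
    exact Nat.zero_le _

include hD hA in
/-- **the field `adm` of `Squ103.Src`** -/
theorem adm_field (hV : A.Vertex) (v : K.S 0) {X : Tower} (hQ : X.FactQ D) (hP : X.FactPoly0 D)
    (κ : H F2 K →ₗ[F2] X.H 0) (hκ : ∀ I : List ℕ, Tower.wdeg 0 I ≤ D →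
      κ (Squ103.wdA (Q A) (C5T557.vtx F2 v) I) = X.word 0 I) (I : List ℕ) (hI : Tower.wdeg 0 I ≤ D) :
    Squ103.wdA (Q A) (C5T557.vtx F2 v) I ∈ Submodule.span F2 {y | ∃ J : List ℕ,
      J.length = I.length ∧ Tower.wdeg 0 J = Tower.wdeg 0 I ∧ J.Pairwise (· ≤ ·) ∧
      y = Squ103.wdA (Q A) (C5T557.vtx F2 v) J} := by
  rcases Nat.eq_zero_or_pos (Tower.wdeg 0 I) with h0 | hpos
  · exact Submodule.subset_span ⟨I, rfl, rfl, all_zero_pairwise h0, rfl⟩
  set t := Tower.wdeg 0 I with ht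
  set r := I.length with hr
  have hbase := thBase A hD hA hV v
  have htM : t ≤ (thOps A hD hA).M := by
    show t ≤ D + 1
    omega
  have hle : ∀ (m : Adm r 0 t) (j : Fin r), m.1 j ≤ D + 1 := fun m j =>
    (TowerOps85.le_of_adm m j).trans (by omega)
  have hF : LinearIndependent F2
      (fun m : Adm r 0 t => κ ((thOps A hD hA).qw m.1 (C5T557.vtx F2 v))) := by
    have h1 := (TowerOps85.word_linearIndependent0 hQ hP r hpos hI).comp _
      (TowerOps85.admEquiv r 0 t).injective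
    have h2 : (fun m : Adm r 0 t => κ ((thOps A hD hA).qw m.1 (C5T557.vtx F2 v))) =
        (fun I : TowerOps85.AdmL r 0 t => X.word 0 I.1) ∘ ⇑(TowerOps85.admEquiv r 0 t) := by
      funext m
      have h3 : Tower.wdeg 0 (List.ofFn m.1) ≤ D := by
        rw [← TowerOps85.qdeg_eq_wdeg, m.2.2]
        omega
      rw [qw_eq_wdA A hD hA v m.1 (hle m), hκ _ h3]
      rfl
    rw [h2]
    exact h1
  have hlin := ((thOps A hD hA).comparison hbase htM κ hF).1
  have hqd : qdeg 0 I.get = 0 + t := by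
    rw [TowerOps85.qdeg_get, zero_add]
  have hmem := ((thOps A hD hA).wspan_eq_span hbase htM hlin).le
    (Submodule.subset_span ⟨I.get, hqd, rfl⟩)
  have hIle : ∀ j : Fin I.length, I.get j ≤ D + 1 := fun j => by
    have := TowerOps85.mem_le_wdeg' (k := 0) (List.get_mem I j)
    simp only [List.get_eq_getElem] at this ⊢
    omega
  rw [qw_eq_wdA A hD hA v I.get hIle, List.ofFn_get] at hmem
  refine (Submodule.span_le.2 ?_) hmem
  rintro _ ⟨m, rfl⟩
  refine Submodule.subset_span ⟨List.ofFn m.1, List.length_ofFn, ?_,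
    (TowerOps85.pairwise_ofFn_iff _).2 m.2.1, qw_eq_wdA A hD hA v m.1 (hle m)⟩
  rw [← TowerOps85.qdeg_eq_wdeg, m.2.2, zero_add]

end base

end Crest.Agent.R204.SrcTot85
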