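import Crest.Agent.R204.StMod_85

/-!
# Row 204 (helper85): Steenrod modules, part 2

Halving, transfer along injections/surjections, commutative algebras with a total square
(Cartan formula, Milnor primitives are derivations), polynomial rings.
-/

set_option autoImplicit false
set_option linter.unusedSectionVars false

noncomputable section

namespace Crest.Agent.R204.StMod85

open Finset Polynomial

section basic

variable {R : Type*} [Ring R] [Algebra (ZMod 2) R] {Sq : ℕ → R}

theorem IsBM.sq_one_sq (h : IsBM Sq) : Sq 1 * Sq 1 = 0 := h.P_sq 1 le_rfl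

/-- `Sq^{2n+1} = Sq¹ Sq^{2n}` -/
theorem IsBM.sq_odd (h : IsBM Sq) (n : ℕ) : Sq (2 * n + 1) = Sq 1 * Sq (2 * n) := by
  rw [h.sq_one, ← Nat.cast_smul_eq_nsmul (ZMod 2)]
  have : ((2 * n + 1 : ℕ) : ZMod 2) = 1 := by
    push_cast
    rw [show (2 : ZMod 2) = 0 from rfl, zero_mul, zero_add]
  rw [this, one_smul]

/-- `Sq¹ Sq^{2n+1} = 0` -/
theorem IsBM.sq_one_odd (h : IsBM Sq) (n : ℕ) : Sq 1 * Sq (2 * n + 1) = 0 := by
  rw [h.sq_odd, ← mul_assoc, h.sq_one_sq, zero_mul]

lemma bmc_two_mul (a i : ℕ) : bmc (2 * a) (2 * i) = bmc a i := by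
  unfold bmc
  by_cases h : i < a
  · rw [if_pos h, if_pos (by omega)]
  · rw [if_neg h, if_neg (by omega), cast_choose_lucas, show 2 * a % 2 = 0 by omega,
      show (2 * i - 2 * a) % 2 = 0 by omega, show 2 * a / 2 = a by omega,
      show (2 * i - 2 * a) / 2 = i - a by omega]
    simp

/-- **halving** -/
theorem IsBM.halve (h : IsBM Sq) (h0 : ∀ n, Sq (2 * n + 1) = 0) : IsBM fun n => Sq (2 * n) := by
  have key : ∀ n i, phi (fun n => Sq (2 * n)) n i = phi Sq (2 * n) (2 * i) := by
    intro n i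
    unfold phi
    refine (Finset.sum_bij_ne_zero (fun p _ _ => (2 * p.1, 2 * p.2)) ?_ ?_ ?_ ?_)
    · intro p hp _
      have hp' := Finset.HasAntidiagonal.mem_antidiagonal.1 hp
      exact Finset.HasAntidiagonal.mem_antidiagonal.2 (by show 2 * p.1 + 2 * p.2 = 2 * n; omega)
    · intro p _ _ q _ _ hpq
      have h1 := (Prod.ext_iff.1 hpq).1
      have h2 := (Prod.ext_iff.1 hpq).2
      simp only at h1 h2
      ext <;> omega
    · intro p hp hne
      have hp' := Finset.HasAntidiagonal.mem_antidiagonal.1 hp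
      rcases Nat.even_or_odd' p.1 with ⟨a, ha | ha⟩
      · obtain ⟨b, hb⟩ : ∃ b, p.2 = 2 * b := ⟨n - a, by omega⟩
        refine ⟨(a, b), Finset.HasAntidiagonal.mem_antidiagonal.2 (by show a + b = n; omega), ?_, ?_⟩
        · rw [ha, hb, bmc_two_mul] at hne
          exact hne
        · ext
          · exact ha.symm
          · exact hb.symm
      · exfalso
        apply hne
        rw [ha, h0, zero_mul, smul_zero]
    · intro p _ _
      simp only [bmc_two_mul]
  refine ⟨by simpa using h.zero, fun n i hi => ?_⟩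
  rw [key, key, h.bm (2 * n) (2 * i) (by omega)]
  congr 1
  omega

/-- halving, from `Sq¹ = 0` -/
theorem IsBM.halve' (h : IsBM Sq) (h0 : Sq 1 = 0) : IsBM fun n => Sq (2 * n) :=
  h.halve fun n => by rw [h.sq_odd, h0, zero_mul]

end basic

section modules

variable {E E' : Type*} [AddCommGroup E] [Module (ZMod 2) E] [AddCommGroup E']
  [Module (ZMod 2) E'] {Sq : ℕ → Module.End (ZMod 2) E} {Sq' : ℕ → Module.End (ZMod 2) E'}

lemma phi_apply (n i : ℕ) (x : E) :
    phi Sq n i x = ∑ p ∈ antidiagonal n, bmc p.1 i • (Sq p.1 (Sq p.2 x)) := by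
  unfold phi
  rw [LinearMap.sum_apply]
  rfl

lemma phi_comm (f : E →ₗ[ZMod 2] E') (hc : ∀ n x, f (Sq n x) = Sq' n (f x)) (n i : ℕ) (x : E) :
    f (phi Sq n i x) = phi Sq' n i (f x) := by
  rw [phi_apply, phi_apply, map_sum]
  refine Finset.sum_congr rfl fun p _ => ?_
  rw [map_smul, hc, hc]

/-- elementwise form of `IsBM` -/
theorem isBM_iff : IsBM Sq ↔ (∀ x, Sq 0 x = x) ∧ ∀ n i, i ≤ 2 * n → ∀ x,
    ∑ p ∈ antidiagonal n, bmc p.1 i • (Sq p.1 (Sq p.2 x)) =
      ∑ p ∈ antidiagonal n, bmc p.1 (2 * n - i) • (Sq p.1 (Sq p.2 x)) := by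
  constructor
  · intro h
    refine ⟨fun x => by rw [h.zero]; rfl, fun n i hi x => ?_⟩
    rw [← phi_apply, ← phi_apply, h.bm n i hi]
  · rintro ⟨h1, h2⟩
    refine ⟨LinearMap.ext h1, fun n i hi => LinearMap.ext fun x => ?_⟩
    rw [phi_apply, phi_apply, h2 n i hi]

/-- transfer along an injection -/
theorem IsBM.of_injective (h : IsBM Sq') (f : E →ₗ[ZMod 2] E') (hf : Function.Injective f)
    (hc : ∀ n x, f (Sq n x) = Sq' n (f x)) : IsBM Sq := by
  refine ⟨LinearMap.ext fun x => hf ?_, fun n i hi => LinearMap.ext fun x => hf ?_⟩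
  · rw [hc, h.zero]; rfl
  · rw [phi_comm f hc, phi_comm f hc, h.bm n i hi]

/-- transfer along a surjection -/
theorem IsBM.of_surjective (h : IsBM Sq) (f : E →ₗ[ZMod 2] E') (hf : Function.Surjective f)
    (hc : ∀ n x, f (Sq n x) = Sq' n (f x)) : IsBM Sq' := by
  refine ⟨LinearMap.ext fun x => ?_, fun n i hi => LinearMap.ext fun x => ?_⟩
  · obtain ⟨y, rfl⟩ := hf x
    rw [← hc, h.zero]; rfl
  · obtain ⟨y, rfl⟩ := hf x
    rw [← phi_comm f hc, ← phi_comm f hc, h.bm n i hi]

/-- restriction to a stable submodule -/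
theorem IsBM.restrict (h : IsBM Sq) (N : Submodule (ZMod 2) E)
    (hN : ∀ n, ∀ x ∈ N, Sq n x ∈ N) : IsBM fun n => (Sq n).restrict (hN n) :=
  h.of_injective N.subtype N.injective_subtype fun _ _ => rfl

/-- quotient by a stable submodule -/
theorem IsBM.quotient (h : IsBM Sq) (N : Submodule (ZMod 2) E)
    (hN : ∀ n, N ≤ N.comap (Sq n)) : IsBM fun n => N.mapQ N (Sq n) (hN n) :=
  h.of_surjective N.mkQ N.mkQ_surjective fun _ _ => rfl

/-- the Milnor primitives are compatible with intertwiners -/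
theorem P_map (f : E →ₗ[ZMod 2] E') (hc : ∀ n x, f (Sq n x) = Sq' n (f x)) (j : ℕ) (hj : 1 ≤ j)
    (x : E) : f (P Sq j x) = P Sq' j (f x) := by
  induction j, hj using Nat.le_induction generalizing x with
  | base => exact hc 1 x
  | succ j hj ih =>
    rw [P_succ j hj, P_succ j hj]
    simp only [LinearMap.add_apply, Module.End.mul_apply, map_add, hc, ih]

/-- the sum of the images of all Milnor primitives -/
def sumP (Sq : ℕ → Module.End (ZMod 2) E) : Submodule (ZMod 2) E :=
  ⨆ j : ℕ, LinearMap.range (P Sq (j + 1))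

lemma P_mem_sumP (j : ℕ) (hj : 1 ≤ j) (x : E) : P Sq j x ∈ sumP Sq := by
  obtain ⟨i, rfl⟩ : ∃ i, j = i + 1 := ⟨j - 1, by omega⟩
  exact (le_iSup (fun j : ℕ => LinearMap.range (P Sq (j + 1))) i) ⟨x, rfl⟩

/-- `∑ P_j E` is stable -/
theorem IsBM.sumP_stable (h : IsBM Sq) (n : ℕ) : sumP Sq ≤ (sumP Sq).comap (Sq n) := by
  refine iSup_le fun j => ?_
  rintro _ ⟨x, rfl⟩
  show Sq n (P Sq (j + 1) x) ∈ sumP Sq
  have h1 := LinearMap.congr_fun (h.sq_P n (j + 1) (by omega)) x
  rw [Module.End.mul_apply, LinearMap.add_apply, Module.End.mul_apply] at h1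
  rw [h1]
  refine Submodule.add_mem _ (P_mem_sumP _ (by omega) _) ?_
  split_ifs with h2
  · exact P_mem_sumP (j + 1 + 1) (by omega) (Sq (n - 2 ^ (j + 1)) x)
  · exact Submodule.zero_mem _

/-- the module `E / ∑ P_j E` with `S^a = Sq^{2a}` -/
theorem IsBM.quotient_halve (h : IsBM Sq) :
    IsBM fun n => (sumP Sq).mapQ (sumP Sq) (Sq (2 * n)) (h.sumP_stable (2 * n)) := by
  refine (h.quotient (sumP Sq) h.sumP_stable).halve' ?_
  ext x
  simp only [LinearMap.comp_apply, Submodule.mkQ_apply, Submodule.mapQ_apply, LinearMap.zero_apply]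
  exact (Submodule.Quotient.mk_eq_zero _).2 (P_mem_sumP 1 le_rfl x)

end modules

section algebra

variable {A : Type*} [CommRing A] [Algebra (ZMod 2) A]

/-- coefficients of a total square -/
def sqOf (SQ : A →ₐ[ZMod 2] A[X]) (n : ℕ) : Module.End (ZMod 2) A :=
  ((Polynomial.lcoeff A n).restrictScalars (ZMod 2)).comp SQ.toLinearMap

lemma sqOf_apply (SQ : A →ₐ[ZMod 2] A[X]) (n : ℕ) (x : A) : sqOf SQ n x = (SQ x).coeff n := rfl

/-- Cartan formula -/
theorem cartan (SQ : A →ₐ[ZMod 2] A[X]) (n : ℕ) (x y : A) :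
    sqOf SQ n (x * y) = ∑ p ∈ antidiagonal n, sqOf SQ p.1 x * sqOf SQ p.2 y := by
  rw [sqOf_apply, map_mul, Polynomial.coeff_mul]
  rfl

/-- Milnor primitives are derivations -/
theorem IsBM.P_mul {SQ : A →ₐ[ZMod 2] A[X]} (h : IsBM (sqOf SQ)) (j : ℕ) (hj : 1 ≤ j) (x y : A) :
    P (sqOf SQ) j (x * y) = P (sqOf SQ) j x * y + x * P (sqOf SQ) j y := by
  have h0 : ∀ x, sqOf SQ 0 x = x := fun x => by rw [h.zero]; rfl
  induction j, hj using Nat.le_induction generalizing x y with
  | base =>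
    rw [P_one, cartan]
    rw [Finset.Nat.antidiagonal_succ]
    simp [h0]
    ring
  | succ j hj ih =>
    have h1 := h.sq_P
    rw [P_succ j hj]
    simp only [LinearMap.add_apply, Module.End.mul_apply]
    rw [ih, map_add, cartan, cartan, cartan, map_sum]
    simp only [ih]
    rw [Finset.sum_add_distrib]
    -- regroup
    have h2 : ∀ p ∈ antidiagonal (2 ^ j), ∀ u v : A,
        sqOf SQ p.1 (P (sqOf SQ) j u) * sqOf SQ p.2 v + P (sqOf SQ) j (sqOf SQ p.1 u) * sqOf SQ p.2 v
          = if p = (2 ^ j, 0) then P (sqOf SQ) (j + 1) u * v else 0 := by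
      intro p hp u v
      have hp' := Finset.HasAntidiagonal.mem_antidiagonal.1 hp
      have h3 := LinearMap.congr_fun (h.sq_P p.1 j hj) u
      rw [Module.End.mul_apply, LinearMap.add_apply, Module.End.mul_apply] at h3
      rw [h3]
      by_cases hpe : p = (2 ^ j, 0)
      · rw [if_pos hpe]
        subst hpe
        simp only [le_refl, if_true, Nat.sub_self, h.zero, mul_one, Module.End.one_apply]
        rw [add_mul, add_comm (P (sqOf SQ) j (sqOf SQ (2 ^ j) u) * v), add_assoc, add_self',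
          add_zero]
      · have : p.1 < 2 ^ j := by
          rcases Nat.lt_or_ge p.1 (2 ^ j) with h4 | h4
          · exact h4
          · exfalso
            apply hpe
            ext
            · show p.1 = 2 ^ j
              omega
            · show p.2 = 0
              omega
        rw [if_neg hpe, if_neg (by omega), LinearMap.zero_apply, add_zero, add_self']
    have h4 : ∀ p ∈ antidiagonal (2 ^ j), ∀ u v : A,
        sqOf SQ p.1 u * sqOf SQ p.2 (P (sqOf SQ) j v) + sqOf SQ p.1 u * P (sqOf SQ) j (sqOf SQ p.2 v)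
          = if p = (0, 2 ^ j) then u * P (sqOf SQ) (j + 1) v else 0 := by
      intro p hp u v
      have hp' := Finset.HasAntidiagonal.mem_antidiagonal.1 hp
      have h3 := h2 (p.2, p.1) (Finset.HasAntidiagonal.mem_antidiagonal.2
        (by show p.2 + p.1 = 2 ^ j; omega)) v u
      rw [mul_comm, mul_comm (sqOf SQ p.1 u), h3, mul_comm]
      by_cases hpe : p = (0, 2 ^ j)
      · rw [if_pos hpe, if_pos (by rw [hpe])]
      · rw [if_neg hpe, if_neg]
        intro h5
        apply hpe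
        have h6 := Prod.ext_iff.1 h5
        ext
        · exact h6.2
        · exact h6.1
    have h5 : ∑ p ∈ antidiagonal (2 ^ j), sqOf SQ p.1 (P (sqOf SQ) j x) * sqOf SQ p.2 y +
        ∑ p ∈ antidiagonal (2 ^ j), P (sqOf SQ) j (sqOf SQ p.1 x) * sqOf SQ p.2 y =
          P (sqOf SQ) (j + 1) x * y := by
      rw [← Finset.sum_add_distrib, Finset.sum_congr rfl fun p hp => h2 p hp x y,
        Finset.sum_ite_eq' , if_pos]
      exact Finset.HasAntidiagonal.mem_antidiagonal.2 (by show 2 ^ j + 0 = 2 ^ j; omega)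
    have h6 : ∑ p ∈ antidiagonal (2 ^ j), sqOf SQ p.1 x * sqOf SQ p.2 (P (sqOf SQ) j y) +
        ∑ p ∈ antidiagonal (2 ^ j), sqOf SQ p.1 x * P (sqOf SQ) j (sqOf SQ p.2 y) =
          x * P (sqOf SQ) (j + 1) y := by
      rw [← Finset.sum_add_distrib, Finset.sum_congr rfl fun p hp => h4 p hp x y,
        Finset.sum_ite_eq' , if_pos]
      exact Finset.HasAntidiagonal.mem_antidiagonal.2 (by show 0 + 2 ^ j = 2 ^ j; omega)
    have h7 : ∀ u : A, P (sqOf SQ) (j + 1) u = sqOf SQ (2 ^ j) (P (sqOf SQ) j u) +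
        P (sqOf SQ) j (sqOf SQ (2 ^ j) u) := by
      intro u
      rw [P_succ j hj]; rfl
    rw [h7] at h5 h6
    rw [← h5, ← h6]
    abel

end algebra

end Crest.Agent.R204.StMod85
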