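import Crest.Agent.R204.StMod3_85
import Crest.Agent.R204.Spec_114

/-!
# Row 204 (helper85): Steenrod modules, part 4: dual (right) modules

`Tower.DualBM S` + `S 0 = id` ⟺ `IsBM (op ∘ S)` in the opposite ring; transposed operators on the
dual space form a (left) Steenrod module; dual Adem relations.
-/

set_option autoImplicit false
set_option linter.unusedSectionVars false

noncomputable section

namespace Crest.Agent.R204.StMod85

open Finset Crest.Agent.R204 Crest.Agent.R204.Spec114

variable {E : Type} [AddCommGroup E] [Module F2 E] {S : ℕ → (E →ₗ[F2] E)}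

lemma bmc_eq (a i : ℕ) : bmc a i = if a ≤ i then (Nat.choose a (i - a) : F2) else 0 := by
  rw [bmc]
  by_cases h : a ≤ i
  · rw [if_pos h, if_neg (by omega)]
  · rw [if_neg h, if_pos (by omega)]

lemma sum_antidiagonal_eq {M : Type*} [AddCommMonoid M] (n : ℕ) (f : ℕ → ℕ → M) :
    ∑ p ∈ antidiagonal n, f p.1 p.2 = ∑ a ∈ range (n + 1), f a (n - a) :=
  Finset.Nat.sum_antidiagonal_eq_sum_range_succ f n

/-- `DualBM` in terms of antidiagonals -/
lemma dualBM_iff : Tower.DualBM S ↔ ∀ (n i : ℕ), i ≤ 2 * n → ∀ y : E,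
    ∑ p ∈ antidiagonal n, bmc p.1 i • S p.2 (S p.1 y) =
      ∑ p ∈ antidiagonal n, bmc p.1 (2 * n - i) • S p.2 (S p.1 y) := by
  unfold Tower.DualBM
  simp only [← bmc_eq]
  constructor
  · intro h n i hi y
    rw [sum_antidiagonal_eq n fun a b => bmc a i • S b (S a y),
      sum_antidiagonal_eq n fun a b => bmc a (2 * n - i) • S b (S a y)]
    exact h n i hi y
  · intro h n i hi y
    have := h n i hi y
    rw [sum_antidiagonal_eq n fun a b => bmc a i • S b (S a y),
      sum_antidiagonal_eq n fun a b => bmc a (2 * n - i) • S b (S a y)] at this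
    exact this

/-- the operators in the opposite ring -/
def opS (S : ℕ → (E →ₗ[F2] E)) (n : ℕ) : (Module.End F2 E)ᵐᵒᵖ := MulOpposite.op (S n)

lemma phi_opS (n i : ℕ) : phi (opS S) n i =
    MulOpposite.op (∑ p ∈ antidiagonal n, bmc p.1 i • (S p.2 * S p.1 : Module.End F2 E)) := by
  rw [phi, Finset.op_sum]
  rfl

/-- **a right Steenrod module is an `IsBM` family in the opposite ring** -/
theorem isBM_op_iff : IsBM (opS S) ↔ (∀ y, S 0 y = y) ∧ Tower.DualBM S := by
  rw [dualBM_iff]
  constructor
  · intro h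
    constructor
    · intro y
      have := congrArg MulOpposite.unop h.zero
      exact LinearMap.congr_fun this y
    · intro n i hi y
      have h1 := h.bm n i hi
      rw [phi_opS, phi_opS] at h1
      have h2 := LinearMap.congr_fun (MulOpposite.op_injective h1) y
      simpa only [LinearMap.sum_apply, LinearMap.smul_apply, Module.End.mul_apply] using h2
  · rintro ⟨h0, h⟩
    refine ⟨?_, fun n i hi => ?_⟩
    · exact congrArg MulOpposite.op (LinearMap.ext h0 : S 0 = (1 : Module.End F2 E))
    · rw [phi_opS, phi_opS]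
      congr 1
      ext y
      simpa only [LinearMap.sum_apply, LinearMap.smul_apply, Module.End.mul_apply] using h n i hi y

/-- dual Adem relations -/
theorem dual_adem (h0 : ∀ y, S 0 y = y) (h : Tower.DualBM S) (a b : ℕ) (hab : a < 2 * b) (y : E) :
    S b (S a y) = ∑ j ∈ range (a / 2 + 1),
      ((Nat.choose (b - 1 - j) (a - 2 * j) : ℕ) : F2) • S j (S (a + b - j) y) := by
  have h1 := (isBM_op_iff.2 ⟨h0, h⟩).adem a b hab
  have h2 := congrArg MulOpposite.unop h1
  rw [Finset.unop_sum] at h2
  have h3 := LinearMap.congr_fun h2 y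
  rw [LinearMap.sum_apply] at h3
  exact h3

/-- dual `Sq¹ Sqⁿ = (n+1) Sqⁿ⁺¹` -/
theorem dual_sq_one (h0 : ∀ y, S 0 y = y) (h : Tower.DualBM S) (n : ℕ) (y : E) :
    S n (S 1 y) = ((n + 1 : ℕ) : F2) • S (n + 1) y := by
  have h1 := (isBM_op_iff.2 ⟨h0, h⟩).sq_one n
  have h2 := congrArg MulOpposite.unop h1
  have h3 := LinearMap.congr_fun h2 y
  rw [Nat.cast_smul_eq_nsmul]
  exact h3

/-- **the dual space of a right Steenrod module is a (left) Steenrod module** -/
theorem dual_isBM (h0 : ∀ y, S 0 y = y) (h : Tower.DualBM S) :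
    IsBM (fun n => (S n).dualMap : ℕ → Module.End (ZMod 2) (Module.Dual F2 E)) := by
  rw [isBM_iff]
  rw [dualBM_iff] at h
  constructor
  · intro φ
    ext y
    rw [LinearMap.dualMap_apply, h0]
  · intro n i hi φ
    ext y
    have h1 := congrArg φ (h n i hi y)
    rw [map_sum, map_sum] at h1
    rw [LinearMap.sum_apply, LinearMap.sum_apply]
    simpa only [LinearMap.smul_apply, LinearMap.dualMap_apply, map_smul] using h1

/-- the transposes of a (left) Steenrod module are a right Steenrod module -/
theorem IsBM.dualBM {Sq : ℕ → Module.End (ZMod 2) E} (h : IsBM Sq) :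
    Tower.DualBM (E := Module.Dual F2 E) fun n => (Sq n).dualMap := by
  rw [dualBM_iff]
  rw [isBM_iff] at h
  intro n i hi φ
  ext y
  have h1 := congrArg φ (h.2 n i hi y)
  rw [map_sum, map_sum] at h1
  rw [LinearMap.sum_apply, LinearMap.sum_apply]
  simpa only [LinearMap.smul_apply, LinearMap.dualMap_apply, map_smul] using h1

/-- transfer of `DualBM` along an injection -/
theorem dualBM_of_injective {E' : Type} [AddCommGroup E'] [Module F2 E'] {S' : ℕ → (E' →ₗ[F2] E')}
    (h : Tower.DualBM S') (f : E →ₗ[F2] E') (hf : Function.Injective f)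
    (hc : ∀ n x, f (S n x) = S' n (f x)) : Tower.DualBM S := by
  rw [dualBM_iff] at h ⊢
  intro n i hi y
  apply hf
  rw [map_sum, map_sum]
  simpa only [map_smul, hc] using h n i hi (f y)

/-- transfer of `DualBM` along a surjection -/
theorem dualBM_of_surjective {E' : Type} [AddCommGroup E'] [Module F2 E'] {S' : ℕ → (E' →ₗ[F2] E')}
    (h : Tower.DualBM S) (f : E →ₗ[F2] E') (hf : Function.Surjective f)
    (hc : ∀ n x, f (S n x) = S' n (f x)) : Tower.DualBM S' := by
  rw [dualBM_iff] at h ⊢
  intro n i hi y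
  obtain ⟨x, rfl⟩ := hf y
  have h1 := congrArg f (h n i hi x)
  rw [map_sum, map_sum] at h1
  simpa only [map_smul, hc] using h1

end Crest.Agent.R204.StMod85
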