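import Crest.Agent.R204.Spec_114

/-!
# Row 204: one stage of the tower (helper114)

`Stage` = the data of one `X_k`; `Stage.Gr`, `Eps`, `Delta`, `SqF`, `BM`, `TF`, `T0`, `GL2`, `QF`, `F13` =
the `k`-th components of the facts of `Spec114.Tower` which only involve one stage.
`ofStages` glues stages to a tower; the corresponding facts are componentwise (`fact*_ofStages`).
-/

set_option autoImplicit false

noncomputable section

namespace Crest.Agent.R204.Stage114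

open Spec114 TensorProduct
open scoped TensorProduct

/-- the data of one stage -/
structure Stage where
  H : Type
  [ring : CommRing H]
  [alg : Algebra F2 H]
  gr : ℕ → Submodule F2 H
  Δ : H →ₐ[F2] (H ⊗[F2] H)
  ε : H →ₐ[F2] F2
  Sq : ℕ → (H →ₗ[F2] H)
  T : ℕ → (H →ₗ[F2] H)
  Q : ℕ → H → H

attribute [instance] Stage.ring Stage.alg

namespace Stage

variable (X : Stage)

def Qup (s u : ℕ) (y : X.H) : X.H := if u ≤ s then X.Q (s - u) y else 0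

def Gr : Prop :=
  DirectSum.IsInternal X.gr ∧ (1 : X.H) ∈ X.gr 0 ∧
  ∀ (s t : ℕ) (a b : X.H), a ∈ X.gr s → b ∈ X.gr t → a * b ∈ X.gr (s + t)

def Eps : Prop := ∀ t, 1 ≤ t → ∀ y ∈ X.gr t, X.ε y = 0

def Delta : Prop :=
  (∀ y : X.H, TensorProduct.lid F2 X.H (TensorProduct.map X.ε.toLinearMap LinearMap.id
      (X.Δ y)) = y) ∧
  (∀ y : X.H, TensorProduct.rid F2 X.H (TensorProduct.map LinearMap.id X.ε.toLinearMap
      (X.Δ y)) = y) ∧
  ∀ t, ∀ y ∈ X.gr t, X.Δ y ∈ ⨆ p ∈ Finset.HasAntidiagonal.antidiagonal t,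
    LinearMap.range (TensorProduct.map (X.gr p.1).subtype (X.gr p.2).subtype)

def SqF : Prop :=
  (∀ y : X.H, X.Sq 0 y = y) ∧
  (∀ (a t : ℕ), ∀ y ∈ X.gr t, X.Sq a y ∈ X.gr (t - a)) ∧
  (∀ (a t : ℕ), ∀ y ∈ X.gr t, t < 2 * a → X.Sq a y = 0) ∧
  (∀ (a : ℕ) (y z : X.H), X.Sq a (y * z) =
    ∑ p ∈ Finset.HasAntidiagonal.antidiagonal a, X.Sq p.1 y * X.Sq p.2 z) ∧
  (∀ (a : ℕ) (y : X.H), X.Δ (X.Sq a y) =
    ∑ p ∈ Finset.HasAntidiagonal.antidiagonal a, TensorProduct.map (X.Sq p.1) (X.Sq p.2) (X.Δ y))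

def BM : Prop := Tower.DualBM X.Sq

def TF (D : ℕ) : Prop := ∀ i ≤ D + 1,
  (∀ t, ∀ y ∈ X.gr t, X.T i y ∈ X.gr (t + i)) ∧
  (X.T i 1 = if i = 0 then 1 else 0) ∧
  (∀ y : X.H, X.Δ (X.T i y) =
    ∑ p ∈ Finset.HasAntidiagonal.antidiagonal i, TensorProduct.map (X.T p.1) (X.T p.2) (X.Δ y)) ∧
  (∀ (a : ℕ) (y : X.H), X.Sq a (X.T i y) =
    ∑ b ∈ Finset.range (a + 1), (if 2 * b ≤ i then (Nat.choose (i - b) b : F2) else 0) •
      X.T (i - b) (X.Sq (a - b) y))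

def T0 : Prop := ∀ y : X.H, X.T 0 y = LinearMap.mul' F2 X.H (X.Δ y)

def GL2 (D : ℕ) : Prop := ∀ i j, i + j ≤ D + 1 → ∀ y : X.H,
  X.T i (X.T j y) = X.T j (X.T i y) ∧
  X.T i (X.T j y) = ∑ l ∈ Finset.range (i + 1),
    (Nat.choose (l + j) j : F2) • X.T (i - l) (X.T (j + l) y)

def QF (D : ℕ) : Prop :=
  (∀ y : X.H, X.Q 0 y = y * y) ∧
  (∀ i, 1 ≤ i → i ≤ D + 1 → ∀ y z : X.H, X.Q i (y + z) = X.Q i y + X.Q i z) ∧
  (∀ i ≤ D + 1, ∀ t, ∀ y ∈ X.gr t, X.Q i y ∈ X.gr (2 * t + i))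

def F13 (D : ℕ) : Prop := ∀ i, 1 ≤ i → i ≤ D + 1 → ∀ t, ∀ y ∈ X.gr t,
  X.T i y = ∑ l ∈ Finset.range (t / 2 + 1), X.Qup (i + l) (t - l) (X.Sq l y)

/-- all one-stage facts -/
structure Facts (D : ℕ) : Prop where
  gr : X.Gr
  eps : X.Eps
  delta : X.Delta
  sq : X.SqF
  bm : X.BM
  t : X.TF D
  t0 : X.T0
  gl2 : X.GL2 D
  q : X.QF D
  f13 : X.F13 D

end Stage

/-- a tower from its stages -/
def ofStages (St : ℕ → Stage) (σ : ∀ k, (St k).H →ₗ[F2] (St (k + 1)).H) (x : ∀ k, (St k).H)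
    (xinv : (St 0).H) (base : Subalgebra F2 (St 0).H) : Tower where
  H k := (St k).H
  ring k := (St k).ring
  alg k := (St k).alg
  gr k := (St k).gr
  Δ k := (St k).Δ
  ε k := (St k).ε
  Sq k := (St k).Sq
  T k := (St k).T
  Q k := (St k).Q
  σ := σ
  x := x
  xinv := xinv
  base := base

section

variable {St : ℕ → Stage} {σ : ∀ k, (St k).H →ₗ[F2] (St (k + 1)).H} {x : ∀ k, (St k).H}
  {xinv : (St 0).H} {base : Subalgebra F2 (St 0).H} {D : ℕ}

theorem factGr (h : ∀ k ≤ D + 2, (St k).Facts D) : (ofStages St σ x xinv base).FactGr D :=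
  fun k hk => (h k hk).gr
theorem factEps (h : ∀ k ≤ D + 2, (St k).Facts D) : (ofStages St σ x xinv base).FactEps D :=
  fun k hk => (h k hk).eps
theorem factDelta (h : ∀ k ≤ D + 2, (St k).Facts D) : (ofStages St σ x xinv base).FactDelta D :=
  fun k hk => (h k hk).delta
theorem factSq (h : ∀ k ≤ D + 2, (St k).Facts D) : (ofStages St σ x xinv base).FactSq D :=
  fun k hk => (h k hk).sq
theorem factBM (h : ∀ k ≤ D + 2, (St k).Facts D) : (ofStages St σ x xinv base).FactBM D :=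
  fun k hk => (h k hk).bm
theorem factT (h : ∀ k ≤ D + 2, (St k).Facts D) : (ofStages St σ x xinv base).FactT D :=
  fun k hk => (h k hk).t
theorem factT0 (h : ∀ k ≤ D + 2, (St k).Facts D) : (ofStages St σ x xinv base).FactT0 D :=
  fun k hk => (h k hk).t0
theorem factGL2 (h : ∀ k ≤ D + 2, (St k).Facts D) : (ofStages St σ x xinv base).FactGL2 D :=
  fun k hk => (h k hk).gl2
theorem factQ (h : ∀ k ≤ D + 2, (St k).Facts D) : (ofStages St σ x xinv base).FactQ D :=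
  fun k hk => (h k hk).q
theorem fact13 (h : ∀ k ≤ D + 2, (St k).Facts D) : (ofStages St σ x xinv base).Fact13 D :=
  fun k hk => (h k hk).f13

end

end Crest.Agent.R204.Stage114
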