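import Crest.Agent.R204.StageA_114
import Crest.Agent.R204.OpsHopf_557
import Crest.Agent.R204.Hopf4b_450
import Crest.Agent.R204.EZInst_847

/-!
# Row 204: the stage of a `Θ`-algebra (helper114)

`stage A P Sq` : `H F2 K` with the Pontryagin ring of `P : HMon K`, coproduct of `ezd`, operations of
`A : ThAlg M K`, Steenrod operations `Sq`.
-/

set_option autoImplicit false
set_option linter.style.haveILetI false

noncomputable section

namespace Crest.Agent.R204.Stage114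

open Spec114 TensorProduct Hopf450 Coalg847 EZ847 ThAlg265
open scoped TensorProduct

variable {M : ℕ} {K : SS}

/-- the stage of a `Θ`-algebra -/
def stage (A : ThAlg M K) (P : HMon K) (Sq : ℕ → (Crest.Agent.R204.H F2 K →ₗ[F2] Crest.Agent.R204.H F2 K)) : Stage :=
  letI := P.ring ezd
  letI := P.alg ezd
  { H := Crest.Agent.R204.H F2 K
    ring := P.ring ezd
    alg := P.alg ezd
    gr := Crest.Agent.R204.H.gr F2 K
    Δ := P.copA ezd
    ε := P.epsA ezd
    Sq := Sq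
    T := Ops265.T A
    Q := Ops265.Q A }

variable (A : ThAlg M K) (P : HMon K) (Sq : ℕ → (Crest.Agent.R204.H F2 K →ₗ[F2] Crest.Agent.R204.H F2 K))

theorem stage_gr : (stage A P Sq).Gr :=
  ⟨isInternal K, vtx_mem_gr P.e, fun _ _ _ _ ha hb => P.mulL_mem_gr ezd ha hb⟩

theorem stage_eps : (stage A P Sq).Eps := fun _ ht _ hy => eps_gr (by omega) hy

theorem stage_delta : (stage A P Sq).Delta :=
  ⟨fun y => ezd.eps_cop y, fun y => ezd.cop_eps y, fun _ _ hy => ezd.cop_mem_gr isInternal hy⟩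

theorem ezd_cross : ezd.ez K K = EZ271.cross F2 := rfl

theorem stage_t0 (hV : A.Vertex) (hP : P.mu = A.mu) : (stage A P Sq).T0 :=
  OpsHopf557.factT0 A P ezd hV hP

theorem stage_q (hV : A.Vertex) (hP : P.mu = A.mu) {D : ℕ} (hD : D + 2 ≤ M) :
    (stage A P Sq).QF D :=
  OpsHopf557.factQ A P ezd hV hP ezd_cross hD

theorem stage_f13 {D : ℕ} (hD : D + 1 ≤ M)
    (h : ∀ i (hi : i ≤ M), 1 ≤ i → i ≤ D + 1 → ∀ t, ∀ y ∈ Crest.Agent.R204.H.gr F2 K t,
      OpsHopf557.P4At M K Sq i t hi y) :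
    (stage A P Sq).F13 D :=
  OpsHopf557.fact13 A hD h

theorem stage_t (h1 : A.OneLaw) (hP : P.e = A.one) {D : ℕ} (hD : D + 1 ≤ M)
    (h3 : ∀ i ≤ D + 1, ∀ y : Crest.Agent.R204.H F2 K, ezd.cop K (Ops265.T A i y) =
      ∑ p ∈ Finset.HasAntidiagonal.antidiagonal i,
        TensorProduct.map (Ops265.T A p.1) (Ops265.T A p.2) (ezd.cop K y))
    (h4 : ∀ i ≤ D + 1, ∀ (a : ℕ) (y : Crest.Agent.R204.H F2 K), Sq a (Ops265.T A i y) =
      ∑ b ∈ Finset.range (a + 1), (if 2 * b ≤ i then (Nat.choose (i - b) b : F2) else 0) •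
        Ops265.T A (i - b) (Sq (a - b) y)) :
    (stage A P Sq).TF D := fun i hi =>
  ⟨(OpsHopf557.factT12 A P ezd h1 hP hD i hi).1, (OpsHopf557.factT12 A P ezd h1 hP hD i hi).2,
    h3 i hi, h4 i hi⟩

end Crest.Agent.R204.Stage114
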