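import Crest.Agent.R204.StageB_114
import Crest.Agent.R204.C6_898

/-!
# Row 204: the stage of a `Θ`-algebra, part 2: Steenrod operations (helper114)
-/

set_option autoImplicit false
set_option linter.style.haveILetI false

noncomputable section

namespace Crest.Agent.R204.Stage114

open Spec114 TensorProduct Hopf450 Coalg847 EZ847 ThAlg265
open scoped TensorProduct

/-- the Steenrod package without the Adem relations -/
structure SqMost extends C6898.SqSys where
  zero : ∀ (K : SS) (x : Crest.Agent.R204.H F2 K), Sq K 0 x = x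
  mem_gr : ∀ (K : SS) (a t : ℕ), ∀ x ∈ Crest.Agent.R204.H.gr F2 K t,
    Sq K a x ∈ Crest.Agent.R204.H.gr F2 K (t - a)
  unst : ∀ (K : SS) (a t : ℕ), ∀ x ∈ Crest.Agent.R204.H.gr F2 K t, t < 2 * a → Sq K a x = 0

/-- the complete Steenrod package -/
structure SqAll extends SqMost where
  bm : ∀ K : SS, Tower.DualBM (Sq K)

variable {M : ℕ} {K : SS}

theorem cartan' (S : C6898.SqSys) (K L : SS) (a : ℕ)
    (t : Crest.Agent.R204.H F2 K ⊗[F2] Crest.Agent.R204.H F2 L) :
    S.Sq (K.prod L) a (ezd.cr K L t) =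
      ezd.cr K L (∑ p ∈ Finset.HasAntidiagonal.antidiagonal a,
        TensorProduct.map (S.Sq K p.1) (S.Sq L p.2) t) := by
  induction t with
  | zero => simp
  | add x y hx hy => simp only [map_add, hx, hy, Finset.sum_add_distrib]
  | tmul x y =>
    refine (S.cartan K L a x y).trans ?_
    rw [map_sum]
    rfl

theorem stage_sq (A : ThAlg M K) (P : HMon K) (S : SqMost) : (stage A P (S.Sq K)).SqF := by
  refine ⟨S.zero K, S.mem_gr K, S.unst K, ?_, ?_⟩
  · intro a y z
    show S.Sq K a (Crest.Agent.R204.H.map F2 P.mu (ezd.cr K K (y ⊗ₜ z))) =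
      ∑ p ∈ Finset.HasAntidiagonal.antidiagonal a,
        Crest.Agent.R204.H.map F2 P.mu (ezd.cr K K (S.Sq K p.1 y ⊗ₜ S.Sq K p.2 z))
    rw [← S.nat, cartan', map_sum, map_sum]
    rfl
  · intro a y
    show ezd.cop K (S.Sq K a y) = ∑ p ∈ Finset.HasAntidiagonal.antidiagonal a,
      TensorProduct.map (S.Sq K p.1) (S.Sq K p.2) (ezd.cop K y)
    apply (ezd.cr K K).injective
    rw [ezd.cr_cop, S.nat, ← ezd.cr_cop, cartan']

theorem stage_bm (A : ThAlg M K) (P : HMon K) (S : SqAll) : (stage A P (S.Sq K)).BM := S.bm K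

/-- `FactT`, complete -/
theorem stage_tf (A : ThAlg M K) (P : HMon K) (S : SqMost) (h1 : A.OneLaw) (hP : P.e = A.one)
    {D : ℕ} (hD : D + 1 ≤ M) : (stage A P (S.Sq K)).TF D :=
  stage_t A P _ h1 hP hD (fun i hi y => C6898.cop_T A (by omega) y)
    (fun i hi a y => S.toSqSys.Sq_T A (by omega) a y)

/-- all one-stage facts, from the laws of the algebra, (P4) and (1.5) -/
theorem stageFacts (A : ThAlg M K) (P : HMon K) (S : SqAll) (hmu : P.mu = A.mu) (he : P.e = A.one)
    (h1 : A.OneLaw) (hV : A.Vertex) {D : ℕ} (hD : D + 2 ≤ M)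
    (h4 : ∀ i (hi : i ≤ M), 1 ≤ i → i ≤ D + 1 → ∀ t, ∀ y ∈ Crest.Agent.R204.H.gr F2 K t,
      OpsHopf557.P4At M K (S.Sq K) i t hi y)
    (h5 : (stage A P (S.Sq K)).GL2 D) : (stage A P (S.Sq K)).Facts D where
  gr := stage_gr A P _
  eps := stage_eps A P _
  delta := stage_delta A P _
  sq := stage_sq A P S.toSqMost
  bm := stage_bm A P S
  t := stage_tf A P S.toSqMost h1 he (by omega)
  t0 := stage_t0 A P _ hV hmu
  gl2 := h5
  q := stage_q A P _ hV hmu hD
  f13 := stage_f13 A P _ (by omega) h4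

end Crest.Agent.R204.Stage114
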