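import Crest.Agent.R204.StageC_114
import Crest.Agent.R204.GL2D_735
import Crest.Agent.R204.Hopf4i_450

/-!
# Row 204 (helper735): `(stage A P Sq).GL2 D` and all one-stage facts of `Sing (Ω^J Z)`
-/

set_option autoImplicit false

noncomputable section

namespace Crest.Agent.R204.Stage114

open Spec114 TensorProduct Hopf450 Coalg847 EZ847 ThAlg265 SS SingAct265 Cubes735 HspSS696
open scoped TensorProduct

variable {M : ℕ} {K : SS}

theorem stage_gl2 (A : ThAlg M K) (P : HMon K)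
    (Sq : ℕ → (Crest.Agent.R204.H F2 K →ₗ[F2] Crest.Agent.R204.H F2 K))
    (hs : ∀ i j, A.GLswap i j) (hr : ∀ i j, A.GLshear i j) {D : ℕ} (hD : D + 1 ≤ M) :
    (stage A P Sq).GL2 D := fun i j hij y =>
  GL2735.gl2 A (hs i j) (hr i j) (by omega) y

section om

variable {J Z : Type} [Finite J] [TopologicalSpace Z] {z₀ : Z}

theorem mulS_eq_muSS (c : BoxConf (Fin 2) J) :
    (mulS c : Hom ((Sing (HspSS696.Om J Z z₀)).prod (Sing (HspSS696.Om J Z z₀))) _) =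
      GL2735.muSS c := rfl

/-- vertex law for `omAlg k (mulS c)` -/
theorem omAlg_vertex [Nontrivial J] (k : Fin (M + 1) ↪ J) (c : BoxConf (Fin 2) J) :
    (omAlg k (mulS c) : ThAlg M (Sing (HspSS696.Om J Z z₀))).Vertex :=
  GL2735.omAlg_Vertex k c

theorem omStage_gl2 {k k' : Fin (M + 1) ↪ J} (hd : ∀ x y, k x ≠ k' y)
    (mu : Hom ((Sing (HspSS696.Om J Z z₀)).prod (Sing (HspSS696.Om J Z z₀)))
      (Sing (HspSS696.Om J Z z₀))) (P : HMon (Sing (HspSS696.Om J Z z₀)))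
    (Sq : ℕ → (Crest.Agent.R204.H F2 (Sing (HspSS696.Om J Z z₀)) →ₗ[F2]
      Crest.Agent.R204.H F2 (Sing (HspSS696.Om J Z z₀)))) {D : ℕ} (hD : D + 1 ≤ M) :
    (stage (omAlg k mu) P Sq).GL2 D :=
  stage_gl2 _ _ _ (GL2735.omAlg_GLswap hd mu) (GL2735.omAlg_GLshear hd mu) hD

/-- **all one-stage facts of `Ω^J Z`** (`k`, `k'` disjoint families of `M + 1` coordinates) -/
theorem omStage_facts [Nontrivial J] {k k' : Fin (M + 1) ↪ J} (hd : ∀ x y, k x ≠ k' y)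
    (c : BoxConf (Fin 2) J) (S : SqAll) {D : ℕ} (hD : D + 2 ≤ M)
    (h4 : ∀ i (hi : i ≤ M), 1 ≤ i → i ≤ D + 1 → ∀ t,
      ∀ y ∈ Crest.Agent.R204.H.gr F2 (Sing (HspSS696.Om J Z z₀)) t,
      OpsHopf557.P4At M (Sing (HspSS696.Om J Z z₀)) (S.Sq _) i t hi y) :
    (stage (omAlg k (mulS c) : ThAlg M (Sing (HspSS696.Om J Z z₀))) (omMon c) (S.Sq _)).Facts D :=
  stageFacts _ _ S rfl rfl (omAlg_oneLaw k _) (omAlg_vertex k c) hD h4
    (omStage_gl2 hd _ _ _ (by omega))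

end om

end Crest.Agent.R204.Stage114
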