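import Crest.Agent.R204.Cone_330

/-!
# Row 204, block E (helper330): loop structures, evaluation maps, spherical simplices and adjoints

Topological half (E0, E2).  `LoopStr P Y g0 y0`: `P` is (a model of) the loop space of `(Y, y0)`.
-/

set_option autoImplicit false

noncomputable section

namespace Crest.Agent.R204.Sus330

open Crest.Agent.R204 Crest.Agent.R204.Cone330
open scoped unitInterval

/-- the topological simplex -/
abbrev Dl (n : ℕ) : Type := stdSimplex ℝ (Fin (n + 1))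

theorem map_app {m n : ℕ} (f : Fin (m + 1) → Fin (n + 1)) (u : Dl m) (i : Fin (n + 1)) :
    stdSimplex.map f u i = ∑ a, if f a = i then u a else 0 := by
  rw [stdSimplex.map_coe, FunOnFinite.linearMap_apply_apply, Finset.sum_filter]

/-- a simplex of `Sing Y` as a continuous map -/
abbrev sg {Y : Type} [TopologicalSpace Y] {n : ℕ} (x : (SS.Sing Y).S n) : C(Dl n, Y) := x

/-- a simplex of `std n` as a monotone map -/
abbrev so {m n : ℕ} (θ : (SS.std n).S m) : Op m n := θ

/-! ## families of singular simplices -/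

/-- a continuous family `Δ^n × Z → Y` gives a simplicial map `std n × Sing Z → Sing Y` -/
def fam {n : ℕ} {Z Y : Type} [TopologicalSpace Z] [TopologicalSpace Y] (F : C(Dl n × Z, Y)) :
    SS.Hom ((SS.std n).prod (SS.Sing Z)) (SS.Sing Y) where
  app _ x := F.comp ((⟨stdSimplex.map (so x.1), stdSimplex.continuous_map (so x.1)⟩ :
    C(_, _)).prodMk (sg x.2))
  nat f x := by
    refine ContinuousMap.ext fun u => ?_
    show F (stdSimplex.map ((so x.1).comp f) u, _) =
      F (stdSimplex.map (so x.1) (stdSimplex.map f u), _)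
    rw [stdSimplex.map_comp_apply]
    rfl

theorem fam_apply {n : ℕ} {Z Y : Type} [TopologicalSpace Z] [TopologicalSpace Y]
    (F : C(Dl n × Z, Y)) {q : ℕ} (θ : Op q n) (γ : (SS.Sing Z).S q) (u : Dl q) :
    sg ((fam F).app q (θ, γ)) u = F (stdSimplex.map θ u, sg γ u) := rfl

/-- maps of standard simplices -/
def stdMap {m n : ℕ} (f : Op m n) : SS.Hom (SS.std m) (SS.std n) :=
  ⟨fun _ g => f.comp g, fun _ _ => rfl⟩

/-! ## loop structures -/

/-- `P` is a model of the loop space of `(Y, y0)`, with constant loop `g0` -/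
structure LoopStr (P Y : Type) [TopologicalSpace P] [TopologicalSpace Y] (g0 : P) (y0 : Y) where
  ev : C(I × P, Y)
  ev_zero : ∀ g, ev (0, g) = y0
  ev_one : ∀ g, ev (1, g) = y0
  ev_base : ∀ s, ev (s, g0) = y0
  inj : ∀ g h, (∀ s, ev (s, g) = ev (s, h)) → g = h
  curry : ∀ {T : Type} [TopologicalSpace T] (F : C(I × T, Y)), (∀ t, F (0, t) = y0) →
    (∀ t, F (1, t) = y0) → ∃ G : C(T, P), ∀ s t, ev (s, G t) = F (s, t)

/-- Mathlib's path model -/
def pathLoop (Y : Type) [TopologicalSpace Y] (y0 : Y) : LoopStr (Path y0 y0) Y (Path.refl y0) y0 where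
  ev := ⟨fun p => p.2 p.1, by fun_prop⟩
  ev_zero g := g.source
  ev_one g := g.target
  ev_base s := rfl
  inj g h e := by ext s; exact e s
  curry {T} _ F h0 h1 := by
    refine ⟨⟨fun t => ⟨⟨fun s => F (s, t), by fun_prop⟩, h0 t, h1 t⟩, ?_⟩, fun s t => rfl⟩
    rw [← Path.continuous_uncurry_iff]
    show Continuous fun p : T × I => F (p.2, p.1)
    fun_prop

/-- `s ↦ min (2s) 1` -/
def dblL (s : I) : I := ⟨min (2 * (s : ℝ)) 1, le_min (mul_nonneg zero_le_two s.2.1) zero_le_one,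
  min_le_right _ _⟩

/-- `s ↦ max (2s-1) 0` -/
def dblR (s : I) : I := ⟨max (2 * (s : ℝ) - 1) 0, le_max_right _ _,
  max_le (by have := s.2.2; linarith) zero_le_one⟩

theorem continuous_dblL : Continuous dblL := by unfold dblL; fun_prop
theorem continuous_dblR : Continuous dblR := by unfold dblR; fun_prop

namespace LoopStr

variable {P Y : Type} [TopologicalSpace P] [TopologicalSpace Y] {g0 : P} {y0 : Y}
variable (Λ : LoopStr P Y g0 y0)

/-- the family of concatenated loops -/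
def mulF : C(I × (P × P), Y) where
  toFun p := if (p.1 : ℝ) ≤ 1 / 2 then Λ.ev (dblL p.1, p.2.1) else Λ.ev (dblR p.1, p.2.2)
  continuous_toFun := by
    have hL := continuous_dblL
    have hR := continuous_dblR
    refine Continuous.if_le ?_ ?_ (by fun_prop) continuous_const ?_
    · exact Λ.ev.continuous.comp ((hL.comp continuous_fst).prodMk (by fun_prop))
    · exact Λ.ev.continuous.comp ((hR.comp continuous_fst).prodMk (by fun_prop))
    · intro p hp
      have h1 : dblL p.1 = 1 := Subtype.ext (by show min _ _ = (1 : ℝ); rw [hp]; norm_num)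
      have h2 : dblR p.1 = 0 := Subtype.ext (by show max _ _ = (0 : ℝ); rw [hp]; norm_num)
      rw [h1, h2, Λ.ev_one, Λ.ev_zero]

theorem mulF_zero (t : P × P) : Λ.mulF (0, t) = y0 := by
  have h : dblL (0 : I) = 0 := Subtype.ext (by show min _ _ = (0 : ℝ); simp)
  show (if ((0 : I) : ℝ) ≤ 1 / 2 then Λ.ev (dblL 0, t.1) else Λ.ev (dblR 0, t.2)) = y0
  rw [if_pos (by norm_num), h, Λ.ev_zero]

theorem mulF_one (t : P × P) : Λ.mulF (1, t) = y0 := by
  have h : dblR (1 : I) = 1 := Subtype.ext (by show max _ _ = (1 : ℝ); norm_num)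
  show (if ((1 : I) : ℝ) ≤ 1 / 2 then Λ.ev (dblL 1, t.1) else Λ.ev (dblR 1, t.2)) = y0
  rw [if_neg (by norm_num), h, Λ.ev_one]

/-- concatenation of loops -/
def mul : C(P × P, P) := (Λ.curry Λ.mulF Λ.mulF_zero Λ.mulF_one).choose

theorem ev_mul (s : I) (p : P × P) : Λ.ev (s, Λ.mul p) = Λ.mulF (s, p) :=
  (Λ.curry Λ.mulF Λ.mulF_zero Λ.mulF_one).choose_spec s p

theorem ev_mul_left (g h : P) (s t : I) (e : (t : ℝ) = s / 2) :
    Λ.ev (t, Λ.mul (g, h)) = Λ.ev (s, g) := by
  have hs := s.2.2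
  rw [ev_mul]
  show (if (t : ℝ) ≤ 1 / 2 then Λ.ev (dblL t, g) else Λ.ev (dblR t, h)) = _
  rw [if_pos (by rw [e]; linarith)]
  congr 2
  refine Subtype.ext ?_
  show min (2 * (t : ℝ)) 1 = s
  rw [e, min_eq_left (by linarith)]
  ring

theorem ev_mul_right (g h : P) (s t : I) (e : (t : ℝ) = (1 + s) / 2) :
    Λ.ev (t, Λ.mul (g, h)) = Λ.ev (s, h) := by
  have hs := s.2.1
  rw [ev_mul]
  show (if (t : ℝ) ≤ 1 / 2 then Λ.ev (dblL t, g) else Λ.ev (dblR t, h)) = _
  split_ifs with hle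
  · have hs0 : (s : ℝ) = 0 := by rw [e] at hle; linarith
    have hs1 : s = 0 := Subtype.ext hs0
    have h1 : dblL t = 1 := by
      refine Subtype.ext ?_
      show min (2 * (t : ℝ)) 1 = 1
      rw [e, hs0]; norm_num
    rw [h1, hs1, Λ.ev_one, Λ.ev_zero]
  · congr 2
    refine Subtype.ext ?_
    show max (2 * (t : ℝ) - 1) 0 = s
    rw [e, max_eq_left (by linarith)]
    ring

theorem mul_base : Λ.mul (g0, g0) = g0 := by
  refine Λ.inj _ _ fun s => ?_
  rw [ev_mul, Λ.ev_base]
  show (if (s : ℝ) ≤ 1 / 2 then Λ.ev (dblL s, g0) else Λ.ev (dblR s, g0)) = _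
  split_ifs <;> rw [Λ.ev_base]

end LoopStr

/-- coordinate sum map `Δ^1 → I` -/
def lam1 : C(Dl 1, I) := ⟨fun p => ⟨p 1, stdSimplex.zero_le p 1, stdSimplex.le_one p 1⟩, by
  refine Continuous.subtype_mk ?_ _
  exact (continuous_apply 1).comp continuous_subtype_val⟩

theorem lam1_val (p : Dl 1) : (lam1 p : ℝ) = p 1 := rfl

/-- `p ↦ p₁/2 + p₂` -/
def lam2 : C(Dl 2, I) := ⟨fun p => ⟨p 1 / 2 + p 2, by
    have h1 := stdSimplex.zero_le p 1
    have h2 := stdSimplex.zero_le p 2
    have h0 := stdSimplex.zero_le p 0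
    have h := stdSimplex.sum_eq_one p
    rw [Fin.sum_univ_three] at h
    constructor
    · positivity
    · linarith⟩, by
  refine Continuous.subtype_mk ?_ _
  have h1 : Continuous fun p : Dl 2 => p 1 := (continuous_apply 1).comp continuous_subtype_val
  have h2 : Continuous fun p : Dl 2 => p 2 := (continuous_apply 2).comp continuous_subtype_val
  exact (h1.div_const 2).add h2⟩

theorem lam2_val (p : Dl 2) : (lam2 p : ℝ) = p 1 / 2 + p 2 := rfl

namespace LoopStr

variable {P Y : Type} [TopologicalSpace P] [TopologicalSpace Y] {g0 : P} {y0 : Y}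
variable (Λ : LoopStr P Y g0 y0)

/-- evaluation `std 1 × Sing P → Sing Y` -/
def evH : SS.Hom ((SS.std 1).prod (SS.Sing P)) (SS.Sing Y) :=
  fam (Λ.ev.comp (lam1.prodMap (ContinuousMap.id P)))

/-- multiplication `Sing P × Sing P → Sing P` -/
def muH : SS.Hom ((SS.Sing P).prod (SS.Sing P)) (SS.Sing P) :=
  ⟨fun _ x => Λ.mul.comp (x.1.prodMk x.2), fun _ _ => rfl⟩

/-- the map `std 2 × (Sing P × Sing P) → Sing Y` of the coproduct lemma -/
def sH : SS.Hom ((SS.std 2).prod ((SS.Sing P).prod (SS.Sing P))) (SS.Sing Y) where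
  app q x := (fam (Λ.ev.comp (lam2.prodMap (ContinuousMap.id P)))).app q (x.1, (muH Λ).app q x.2)
  nat f x := (fam (Λ.ev.comp (lam2.prodMap (ContinuousMap.id P)))).nat f (x.1, (muH Λ).app _ x.2)

theorem evH_apply {q : ℕ} (θ : Op q 1) (γ : (SS.Sing P).S q) (u : Dl q) :
    sg (Λ.evH.app q (θ, γ)) u = Λ.ev (lam1 (stdSimplex.map θ u), sg γ u) := rfl

theorem muH_apply {q : ℕ} (γ δ : (SS.Sing P).S q) (u : Dl q) :
    sg (Λ.muH.app q (γ, δ)) u = Λ.mul (sg γ u, sg δ u) := rfl

theorem sH_apply {q : ℕ} (θ : Op q 2) (γ δ : (SS.Sing P).S q) (u : Dl q) :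
    sg (Λ.sH.app q (θ, (γ, δ))) u =
      Λ.ev (lam2 (stdSimplex.map θ u), Λ.mul (sg γ u, sg δ u)) := rfl

theorem map_one_val {q : ℕ} (θ : Op q 1) (u : Dl q) :
    (lam1 (stdSimplex.map θ u) : ℝ) = ∑ a, if θ a = 1 then u a else 0 := map_app _ _ _

theorem map_two_val {q : ℕ} (θ : Op q 2) (u : Dl q) :
    (lam2 (stdSimplex.map θ u) : ℝ) =
      (∑ a, if θ a = 1 then u a else 0) / 2 + ∑ a, if θ a = 2 then u a else 0 := by
  rw [lam2_val, map_app, map_app]

/-- restriction to the face `01` (opposite to `2`) -/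
theorem sH_face_two {q : ℕ} (θ : Op q 1) (γ δ : (SS.Sing P).S q) :
    Λ.sH.app q ((stdMap (Op.face 2)).app q θ, (γ, δ)) = Λ.evH.app q (θ, γ) := by
  refine ContinuousMap.ext fun u => ?_
  refine (sH_apply Λ _ γ δ u).trans (Eq.trans ?_ (evH_apply Λ θ γ u).symm)
  refine Λ.ev_mul_left _ _ _ _ ?_
  rw [map_two_val, map_one_val]
  have h2 : ∀ a, so ((stdMap (Op.face 2)).app q θ) a ≠ 2 := by
    intro a h
    have := congrArg Fin.val h
    change ((Op.face 2 (θ a) : Fin 3) : ℕ) = 2 at this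
    rw [Ch.face_val] at this
    have h3 := (θ a).isLt
    simp at this
    split_ifs at this <;> omega
  have h1 : ∀ a, so ((stdMap (Op.face 2)).app q θ) a = 1 ↔ θ a = 1 := by
    intro a
    rw [Fin.ext_iff, Fin.ext_iff]
    change ((Op.face 2 (θ a) : Fin 3) : ℕ) = 1 ↔ _
    rw [Ch.face_val]
    have h3 := (θ a).isLt
    simp
    split_ifs <;> omega
  simp only [h2, h1, if_false, Finset.sum_const_zero, add_zero]

/-- restriction to the face `12` (opposite to `0`) -/
theorem sH_face_zero {q : ℕ} (θ : Op q 1) (γ δ : (SS.Sing P).S q) :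
    Λ.sH.app q ((stdMap (Op.face 0)).app q θ, (γ, δ)) = Λ.evH.app q (θ, δ) := by
  refine ContinuousMap.ext fun u => ?_
  refine (sH_apply Λ _ γ δ u).trans (Eq.trans ?_ (evH_apply Λ θ δ u).symm)
  refine Λ.ev_mul_right _ _ _ _ ?_
  rw [map_two_val, map_one_val]
  have h1 : ∀ a, so ((stdMap (Op.face 0)).app q θ) a = 1 ↔ θ a = 0 := by
    intro a
    rw [Fin.ext_iff, Fin.ext_iff]
    change ((Op.face 0 (θ a) : Fin 3) : ℕ) = 1 ↔ _
    rw [Ch.face_val]
    simp
  have h2 : ∀ a, so ((stdMap (Op.face 0)).app q θ) a = 2 ↔ θ a = 1 := by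
    intro a
    rw [Fin.ext_iff, Fin.ext_iff]
    change ((Op.face 0 (θ a) : Fin 3) : ℕ) = 2 ↔ _
    rw [Ch.face_val]
    simp
  simp only [h1, h2]
  have h3 : (∑ a, if θ a = 0 then u a else 0) + ∑ a, (if θ a = 1 then u a else 0) = 1 := by
    rw [← Finset.sum_add_distrib, ← stdSimplex.sum_eq_one u]
    refine Finset.sum_congr rfl fun a _ => ?_
    have h4 := (θ a).isLt
    by_cases h : θ a = 0
    · rw [if_pos h, if_neg (by rw [h]; decide), add_zero]
    · have h5 : θ a = 1 := by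
        refine Fin.ext ?_
        have : (θ a : ℕ) ≠ 0 := fun h' => h (Fin.ext h')
        show (θ a : ℕ) = 1
        omega
      rw [if_neg h, if_pos h5, zero_add]
  linarith

/-- restriction to the face `02` (opposite to `1`) -/
theorem sH_face_one {q : ℕ} (θ : Op q 1) (γ δ : (SS.Sing P).S q) :
    Λ.sH.app q ((stdMap (Op.face 1)).app q θ, (γ, δ)) = Λ.evH.app q (θ, Λ.muH.app q (γ, δ)) := by
  refine ContinuousMap.ext fun u => ?_
  refine (sH_apply Λ _ γ δ u).trans (Eq.trans ?_ (evH_apply Λ θ _ u).symm)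
  rw [muH_apply]
  congr 2
  refine Subtype.ext ?_
  rw [map_two_val, map_one_val]
  have h1 : ∀ a, so ((stdMap (Op.face 1)).app q θ) a ≠ 1 := by
    intro a h
    have := congrArg Fin.val h
    change ((Op.face 1 (θ a) : Fin 3) : ℕ) = 1 at this
    rw [Ch.face_val] at this
    simp at this
    split_ifs at this <;> omega
  have h2 : ∀ a, so ((stdMap (Op.face 1)).app q θ) a = 2 ↔ θ a = 1 := by
    intro a
    rw [Fin.ext_iff, Fin.ext_iff]
    change ((Op.face 1 (θ a) : Fin 3) : ℕ) = 2 ↔ _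
    rw [Ch.face_val]
    have h3 := (θ a).isLt
    simp
    split_ifs <;> omega
  simp only [h1, h2, if_false, Finset.sum_const_zero, zero_div, zero_add]

/-- the constant simplex -/
abbrev cY (y0 : Y) (q : ℕ) : (SS.Sing Y).S q := ContinuousMap.const _ y0

theorem base_sing (y0 : Y) (q : ℕ) : base (SS.Sing Y) (cY y0 0) q = cY y0 q := rfl

/-- evaluation at the vertex `0` -/
theorem evH_zero {q : ℕ} (θ : Op q 1) (h : ∀ a, θ a = 0) (γ : (SS.Sing P).S q) :
    Λ.evH.app q (θ, γ) = cY y0 q := by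
  refine ContinuousMap.ext fun u => ?_
  refine (evH_apply Λ θ γ u).trans ?_
  have : lam1 (stdSimplex.map θ u) = 0 := by
    refine Subtype.ext ?_
    rw [map_one_val]
    simp [h]
  rw [this, Λ.ev_zero]
  rfl

/-- evaluation at the vertex `1` -/
theorem evH_one {q : ℕ} (θ : Op q 1) (h : ∀ a, θ a = 1) (γ : (SS.Sing P).S q) :
    Λ.evH.app q (θ, γ) = cY y0 q := by
  refine ContinuousMap.ext fun u => ?_
  refine (evH_apply Λ θ γ u).trans ?_
  have : lam1 (stdSimplex.map θ u) = 1 := by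
    refine Subtype.ext ?_
    rw [map_one_val]
    simp [h]
  rw [this, Λ.ev_one]
  rfl

/-- `sH` at the vertex `0` -/
theorem sH_zero {q : ℕ} (θ : Op q 2) (h : ∀ a, θ a = 0) (γ δ : (SS.Sing P).S q) :
    Λ.sH.app q (θ, (γ, δ)) = cY y0 q := by
  refine ContinuousMap.ext fun u => ?_
  refine (sH_apply Λ θ γ δ u).trans ?_
  have : lam2 (stdSimplex.map θ u) = 0 := by
    refine Subtype.ext ?_
    rw [map_two_val]
    simp [h]
  rw [this, Λ.ev_zero]
  rfl

/-- `sH` at the vertex `2` -/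
theorem sH_two {q : ℕ} (θ : Op q 2) (h : ∀ a, θ a = 2) (γ δ : (SS.Sing P).S q) :
    Λ.sH.app q (θ, (γ, δ)) = cY y0 q := by
  refine ContinuousMap.ext fun u => ?_
  refine (sH_apply Λ θ γ δ u).trans ?_
  have : lam2 (stdSimplex.map θ u) = 1 := by
    refine Subtype.ext ?_
    rw [map_two_val]
    simp [h]
  rw [this, Λ.ev_one]
  rfl

end LoopStr

/-! ## spherical singular simplices -/

/-- boundary points of the simplex -/
def Bdy (n : ℕ) : Set (Dl n) := {v | ∃ i, v i = 0}

theorem map_mem_Bdy {m n : ℕ} (g : Op m n) (hg : ¬ Function.Surjective g) (u : Dl m) :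
    stdSimplex.map g u ∈ Bdy n := by
  rw [Function.Surjective] at hg
  push Not at hg
  obtain ⟨i, hi⟩ := hg
  refine ⟨i, ?_⟩
  rw [map_app]
  simp [hi]

theorem exists_map_face {n : ℕ} (v : Dl (n + 1)) (i : Fin (n + 2)) (hi : v i = 0) :
    ∃ u : Dl n, stdSimplex.map (Op.face i) u = v := by
  have hs := stdSimplex.sum_eq_one v
  rw [Fin.sum_univ_succAbove _ i, hi, zero_add] at hs
  refine ⟨⟨fun j => v (i.succAbove j), fun j => stdSimplex.zero_le v _, hs⟩, ?_⟩
  refine stdSimplex.ext (funext fun k => ?_)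
  rw [map_app]
  show (∑ a, if (i.succAbove a) = k then v (i.succAbove a) else 0) = v k
  by_cases hk : k = i
  · subst hk
    rw [hi]
    refine Finset.sum_eq_zero fun a _ => ?_
    rw [if_neg (Fin.succAbove_ne _ _)]
  · obtain ⟨j, rfl⟩ := Fin.exists_succAbove_eq hk
    rw [Finset.sum_eq_single j]
    · rw [if_pos rfl]
    · intro a _ ha
      rw [if_neg (fun h => ha (Fin.succAbove_right_injective h))]
    · simp

theorem Bdy_zero : Bdy 0 = ∅ := by
  ext v
  simp only [Bdy, Set.mem_setOf_eq, Set.mem_empty_iff_false, iff_false, not_exists]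
  intro i h
  have hs := stdSimplex.sum_eq_one v
  have hi : i = 0 := Subsingleton.elim (α := Fin 1) _ _
  rw [hi] at h
  rw [Fin.sum_univ_succ, Fin.sum_univ_zero, h] at hs
  norm_num at hs

theorem isSph_iff {Y : Type} [TopologicalSpace Y] (y0 : Y) {M : ℕ} (x : (SS.Sing Y).S M) :
    IsSph (K := SS.Sing Y) (LoopStr.cY y0 0) x ↔ ∀ v ∈ Bdy M, sg x v = y0 := by
  constructor
  · intro h v hv
    rcases M with _ | M
    · rw [Bdy_zero] at hv; exact hv.elim
    · obtain ⟨i, hi⟩ := hv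
      obtain ⟨u, rfl⟩ := exists_map_face v i hi
      have := h.face i
      exact congrArg (fun f : C(Dl M, Y) => f u) this
  · intro h p g hg
    refine ContinuousMap.ext fun u => ?_
    exact h _ (map_mem_Bdy g hg u)

end Crest.Agent.R204.Sus330
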