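import Crest.Agent.R204.K_803
import Crest.Agent.R204.SQW_334
import Crest.Agent.R204.SQdef_803

/-!
# Cross products and the group of good classes (row 204, leaf G5; helper803)
-/

set_option autoImplicit false
set_option linter.unusedSectionVars false

namespace Crest.Agent.R204.SQ803

open Co

section crs
variable {X Y : Type*} [Group X] [Group Y] {n : ℕ}

/-- invariant bounded functions on lists vanishing at `[]` -/
def CI (X : Type*) [Group X] (n : ℕ) : AddSubgroup (List X → ZMod n) where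
  carrier := {a | a [] = 0 ∧ (∃ K, ∀ l, K < l.length → a l = 0) ∧
    ∀ (g : X) (l : List X), a (l.map fun b => g * b) = a l}
  zero_mem' := ⟨rfl, ⟨0, fun _ _ => rfl⟩, fun _ _ => rfl⟩
  add_mem' {a b} ha hb := by
    refine ⟨by simp [ha.1, hb.1], ?_, fun g l => by simp [ha.2.2 g l, hb.2.2 g l]⟩
    obtain ⟨K, hK⟩ := ha.2.1
    obtain ⟨K', hK'⟩ := hb.2.1
    refine ⟨max K K', fun l h => ?_⟩
    rw [Pi.add_apply, hK l (lt_of_le_of_lt (le_max_left _ _) h),
      hK' l (lt_of_le_of_lt (le_max_right _ _) h), add_zero]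
  neg_mem' {a} ha := by
    refine ⟨by simp [ha.1], ?_, fun g l => by simp [ha.2.2 g l]⟩
    obtain ⟨K, hK⟩ := ha.2.1
    exact ⟨K, fun l h => by rw [Pi.neg_apply, hK l h, neg_zero]⟩

theorem CM_le_CI {q : ℕ} {a : List X → ZMod 2} (ha : a ∈ CM X q) : a ∈ CI X 2 :=
  ⟨ha.1, ⟨q, fun l hl => ha.2.1 l (by omega)⟩, ha.2.2⟩

theorem dl_mem_CI {a : List X → ZMod n} (ha : a ∈ CI X n) : (fun l => dl l a) ∈ CI X n := by
  refine ⟨rfl, ?_, fun g l => ?_⟩
  · obtain ⟨K, hK⟩ := ha.2.1
    exact ⟨K + 1, fun l hl => dl_eq_zero fun l' hl' => hK _ (by omega)⟩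
  · show dl (l.map fun b => g * b) a = dl l a
    rw [← dl_map]
    exact dl_congr fun l' _ => ha.2.2 g l'

theorem cupl_mem_CI {a b : List X → ZMod n} (ha : a ∈ CI X n) (hb : b ∈ CI X n) :
    (fun l => cupl l a b) ∈ CI X n := by
  refine ⟨rfl, ?_, fun g l => ?_⟩
  · obtain ⟨K, hK⟩ := ha.2.1
    obtain ⟨K', hK'⟩ := hb.2.1
    refine ⟨K + K', fun l hl => cupl_eq_zero (fun x => x) rfl (fun _ _ => rfl) fun c d h => ?_⟩
    by_cases h1 : K < c.length
    · rw [hK c h1, zero_mul]
    · rw [hK' d (by omega), mul_zero]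
  · show cupl (l.map fun b => g * b) a b = cupl l a b
    rw [← cupl_map]
    exact cupl_congr (fun x l => ha.2.2 g (x :: l)) (fun x l => hb.2.2 g (x :: l))

/-- invariant bounded normalised elements of `S` -/
def SF (X Y : Type*) [Group X] [Group Y] (n : ℕ) : AddSubgroup (Co X (Co Y (ZMod n))) where
  carrier := {s | NzS s ∧ (∃ K : ℕ, ∀ x y, K < x.length + y.length → (s.f x).f y = 0) ∧
    ∀ g : X × Y, aS g s = s}
  zero_mem' := ⟨NzS.zero, ⟨0, fun _ _ _ => rfl⟩, fun g => map_zero _⟩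
  add_mem' {s t} hs ht := by
    refine ⟨hs.1.add ht.1, ?_, fun g => by rw [map_add, hs.2.2, ht.2.2]⟩
    obtain ⟨K, hK⟩ := hs.2.1
    obtain ⟨K', hK'⟩ := ht.2.1
    refine ⟨max K K', fun x y h => ?_⟩
    rw [add_f, add_f, hK x y (lt_of_le_of_lt (le_max_left _ _) h),
      hK' x y (lt_of_le_of_lt (le_max_right _ _) h), add_zero]
  neg_mem' {s} hs := by
    refine ⟨hs.1.neg, ?_, fun g => by rw [map_neg, hs.2.2]⟩
    obtain ⟨K, hK⟩ := hs.2.1
    exact ⟨K, fun x y h => by rw [neg_f, neg_f, hK x y h, neg_zero]⟩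

theorem crs_mem {a : List X → ZMod n} {b : List Y → ZMod n} (ha : a ∈ CI X n) (hb : b ∈ CI Y n) :
    crs a b ∈ SF X Y n := by
  refine ⟨⟨Co.ext fun y => ?_, fun x => ?_⟩, ?_, fun g => Co.ext fun x => Co.ext fun y => ?_⟩
  · rw [crs_f, ha.1, zero_mul]; rfl
  · rw [crs_f, hb.1, mul_zero]
  · obtain ⟨K, hK⟩ := ha.2.1
    obtain ⟨K', hK'⟩ := hb.2.1
    refine ⟨K + K', fun x y h => ?_⟩
    rw [crs_f]
    by_cases h1 : K < x.length
    · rw [hK x h1, zero_mul]
    · rw [hK' y (by omega), mul_zero]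
  · rw [aS_f, crs_f, crs_f, ha.2.2, hb.2.2]

theorem crs_add_left (a a' : List X → ZMod n) (b : List Y → ZMod n) :
    crs (a + a') b = crs a b + crs a' b :=
  Co.ext fun x => Co.ext fun y => add_mul _ _ _

theorem crs_add_right (a : List X → ZMod n) (b b' : List Y → ZMod n) :
    crs a (b + b') = crs a b + crs a b' :=
  Co.ext fun x => Co.ext fun y => mul_add _ _ _

theorem crs_nz {a : List X → ZMod n} {b : List Y → ZMod n} (ha : a [] = 0) (hb : b [] = 0) :
    NzS (crs a b) :=
  ⟨Co.ext fun y => by rw [crs_f, ha, zero_mul]; rfl, fun x => by rw [crs_f, hb, mul_zero]⟩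

theorem δ_crs {a : List X → ZMod 2} {b : List Y → ZMod 2} (ha : a [] = 0) (hb : b [] = 0) :
    Cx.δ (crs a b) = crs (fun l => dl l a) b + crs a (fun l => dl l b) := by
  refine Co.ext fun x => Co.ext fun y => ?_
  rw [(crs_nz ha hb).δ_fz, sg_smul_of_two DG2.two, add_f, add_f]
  congr 1
  · have := dl_hom (AddMonoidHom.mulRight (b y)) x a
    exact this
  · have := dl_hom (AddMonoidHom.mulLeft (a x)) y b
    exact this

theorem δ_crs_zero {a : List X → ZMod n} {b : List Y → ZMod n} (ha : a [] = 0) (hb : b [] = 0)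
    (da : ∀ l, dl l a = 0) (db : ∀ l, dl l b = 0) : Cx.δ (crs a b) = 0 := by
  refine Co.ext fun x => Co.ext fun y => ?_
  rw [(crs_nz ha hb).δ_fz]
  have h1 := dl_hom (AddMonoidHom.mulRight (b y)) x a
  have h2 := dl_hom (AddMonoidHom.mulLeft (a x)) y b
  rw [da, map_zero] at h1
  rw [db, map_zero] at h2
  have h1' : dl x (fun x' => ((crs a b).f x').f y) = 0 := h1
  have h2' : dl y ((crs a b).f x).f = 0 := h2
  rw [h1', h2']; simp

theorem cupl_smul_right (c : ZMod n) (y : List Y) (f g : List Y → ZMod n) :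
    cupl y f (fun l => c * g l) = c * cupl y f g := by
  induction y generalizing f with
  | nil => simp
  | cons b y ih => rw [cupl_cons, cupl_cons, ih]; ring

theorem crs_mul (a a' : List X → ZMod n) (b b' : List Y → ZMod n) :
    crs a b * crs a' b' = crs (fun l => cupl l a a') (fun l => cupl l b b') := by
  refine Co.ext fun x => Co.ext fun y => ?_
  rw [mul_f, crs_f]
  have key : ∀ (x : List X) (a : List X → ZMod n),
      (cupl x (crs a b).f (crs a' b').f).f y = cupl x a a' * cupl y b b' := by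
    intro x
    induction x with
    | nil => intro a; simp
    | cons x0 x ih =>
      intro a
      rw [cupl_cons, add_f]
      have h1 : ((crs a b).f [x0] * (crs a' b').f (x0 :: x)).f y =
          a [x0] * (a' (x0 :: x) * cupl y b b') := by
        rw [mul_f]
        show cupl y (fun l => a [x0] * b l) (fun l => a' (x0 :: x) * b' l) = _
        rw [cupl_mul_left, cupl_smul_right]
      have h2 : (cupl x (fun l' => (crs a b).f (x0 :: l')) (crs a' b').f).f y =
          cupl x (fun l' => a (x0 :: l')) a' * cupl y b b' := ih fun l' => a (x0 :: l')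
      rw [h1, h2, cupl_cons]; ring
  exact key x a

theorem Tn_crs {a : List X → ZMod 2} {b : List Y → ZMod 2} (ha : a [] = 0) (hb : b [] = 0) :
    Tn (crs a b) = crs b a := by
  refine Co.ext fun y => Co.ext fun x => ?_
  rw [Tn_f2, (crs_nz ha hb).vv, crs_f, crs_f, mul_comm]

theorem Tn_crs_odd {a : List X → ZMod n} {b : List Y → ZMod n} (ha : a [] = 0) (hb : b [] = 0)
    (oa : ∀ l, a l ≠ 0 → l.length % 2 = 1) : Tn (crs a b) = crs b a := by
  refine Co.ext fun y => Co.ext fun x => ?_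
  rw [Tn_f, (crs_nz ha hb).vv, crs_f, crs_f, mul_comm]
  by_cases h : a x = 0
  · rw [h]; simp
  · have h1 := oa x h
    have : sw x.length y.length = 1 := by
      unfold sw
      rw [pow_mul]
      have : Even (x.length + 1) := by rw [Nat.even_iff]; omega
      rw [this.neg_one_pow, one_pow]
    rw [this, one_smul]

variable {J : Type*} [MulAction (X × Y) J]

theorem kap_mem_QA {s : Co X (Co Y (ZMod n))} (hs : s ∈ SF X Y n) : kap s ∈ QA J X Y n := by
  refine ⟨NzE.kap hs.1, ?_, fun g => ?_⟩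
  · obtain ⟨K, hK⟩ := hs.2.1
    refine ⟨K, fun l x y h => ?_⟩
    rw [kap_f]
    split_ifs with hl
    · exact hK x y h
    · rfl
  · unfold aA
    rw [pull_kap, hs.2.2]

end crs

section crsB
variable {J X : Type*} [Group X] [MulAction (X × X) J] {n : ℕ}

theorem aT_kap (σ : J → J) (s : Co X (Co X (ZMod n))) : aT σ (kap s) = kap (Tn s) := pull_kap _ _ _

theorem kap_mem_QB (W : Sig J X) {s : Co X (Co X (ZMod n))} (hs : s ∈ SF X X n) (ht : Tn s = s) :
    kap s ∈ QB W n := ⟨kap_mem_QA hs, by rw [aT_kap, ht]⟩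

theorem tm_mem_QB (W : Sig J X) {F : Co J (Co X (Co X (ZMod n)))} (hF : F ∈ QB W n) :
    tm W.ε F ∈ QB W n := by
  refine ⟨⟨⟨rfl, fun l => ?_⟩, ?_, fun g => Co.ext fun l => ?_⟩, Co.ext fun l => ?_⟩
  · rcases l with _ | ⟨x, _ | ⟨y, l⟩⟩
    · exact NzS.zero
    · exact NzS.zero
    · rw [tm_cons]; split_ifs
      · exact NzS.zero
      · exact hF.1.1.2 _
  · obtain ⟨K, hK⟩ := hF.1.2.1
    refine ⟨K, fun l x y h => ?_⟩
    rcases l with _ | ⟨a, _ | ⟨b, l⟩⟩
    · rfl
    · rfl
    · rw [tm_cons]; split_ifs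
      · rfl
      · exact hK _ _ _ h
  · rw [aA_f]
    rcases l with _ | ⟨a, _ | ⟨b, l⟩⟩
    · exact map_zero _
    · exact map_zero _
    · rw [List.map_cons, List.map_cons, tm_cons, tm_cons, W.ε_smul, W.ε_smul]
      split_ifs
      · exact map_zero _
      · have := congrArg (fun F => F.f (b :: l)) (hF.1.2.2 g)
        simpa using this
  · rw [aT_f]
    rcases l with _ | ⟨a, _ | ⟨b, l⟩⟩
    · exact map_zero _
    · exact map_zero _
    · rw [List.map_cons, List.map_cons, tm_cons, tm_cons, W.ε_σ, W.ε_σ]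
      have e1 : ((!W.ε a) = !W.ε b) ↔ (W.ε a = W.ε b) := by simp
      by_cases h : W.ε a = W.ε b
      · rw [if_pos h, if_pos (e1.2 h)]; exact map_zero _
      · rw [if_neg h, if_neg (fun h' => h (e1.1 h'))]
        have := congrArg (fun F => F.f (b :: l)) hF.2
        simpa using this

theorem tmi_mem_QB (W : Sig J X) (i : ℕ) {F : Co J (Co X (Co X (ZMod n)))} (hF : F ∈ QB W n) :
    (tm W.ε)^[i] F ∈ QB W n := by
  induction i with
  | zero => exact hF
  | succ i ih => rw [Function.iterate_succ_apply']; exact tm_mem_QB W ih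

theorem tmi_add (e : J → Bool) (i : ℕ) (F G : Co J (Co X (Co X (ZMod n)))) :
    (tm e)^[i] (F + G) = (tm e)^[i] F + (tm e)^[i] G := by
  induction i with
  | zero => rfl
  | succ i ih => rw [Function.iterate_succ_apply', ih, map_add, Function.iterate_succ_apply',
      Function.iterate_succ_apply']

theorem δ_tmi (e : J → Bool) (i : ℕ) (F : Co J (Co X (Co X (ZMod 2)))) :
    Cx.δ ((tm e)^[i] F) = (tm e)^[i] (Cx.δ F) := by
  induction i with
  | zero => rfl
  | succ i ih => rw [Function.iterate_succ_apply', δ_tm_two e DG2.two, ih, Function.iterate_succ_apply']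

theorem δ_tmi_two (e : J → Bool) (i : ℕ) (F : Co J (Co X (Co X (ZMod n)))) (h : Cx.δ F = 0) :
    Cx.δ ((tm e)^[2 * i] F) = 0 := by
  induction i with
  | zero => exact h
  | succ i ih =>
    rw [show 2 * (i + 1) = 2 * i + 1 + 1 by ring, Function.iterate_succ_apply',
      Function.iterate_succ_apply', δ_tm_tm, ih, map_zero, map_zero]

/-- Gysin correction term -/
theorem mix_mem (W : Sig J X) {w : Co J (Co X (Co X (ZMod 2)))} (hw : w ∈ QA J X X 2) :
    mix W.ε w (aT W.σ w) ∈ QB W 2 := by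
  have : mix W.ε w (aT W.σ w) = W.e 2 w + aT W.σ (W.e 2 w) := by
    refine Co.ext fun l => ?_
    rcases l with _ | ⟨j, l⟩
    · rw [mix_nil, add_f, W.e_f, aT_f, List.map_nil, W.e_f, hw.1.1]; simp
    · rw [mix_cons, add_f, aT_f, aT_f, W.e_f, W.e_f, W.hd_σ]
      show _ = (if W.ε j = true then 0 else w.f (j :: l)) +
        Tn (if (!W.ε j) = true then 0 else w.f (List.map W.σ (j :: l)))
      cases W.ε j <;> simp
  rw [this]
  exact tr_mem_QB W (e_mem_QA W hw)

theorem E_two {X Y : Type*} (F : Co J (Co X (Co Y (ZMod 2)))) : F + F = 0 := DG2.two F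

/-- an invariant coboundary of a non-invariant cochain -/
theorem gysinB (W : Sig J X) {w X1 : Co J (Co X (Co X (ZMod 2)))} (hw : w ∈ QA J X X 2)
    (hX : Cx.δ w = X1) (hs : aT W.σ X1 = X1) :
    X1 = Cx.δ (mix W.ε w (aT W.σ w)) + tm W.ε (w + aT W.σ w) := by
  rw [gysin W.ε DG2.two, δ_aT, hX, hs, mix_self, add_assoc, E_two, add_zero]
  rw [← hX]; exact δ_nil _

end crsB

end Crest.Agent.R204.SQ803
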