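import Crest.Agent.R204.Thm3c_737

/-!
# Row 204, Theorem 3: dimension bound without linear independence, and the comparison principle
(helper85)

For any `O : Ops H` with fundamental class `x` of degree `k` (`k ≥ 0`):
* `Ops.finrank_map_le` : the image of `φ_r` in degree `k + t` has dimension `≤ #Adm r k t`;
* `Ops.wspan` : the span of ALL words of length `r` and degree `k + t`, `wspan_le`, `finrank_wspan_le`;
* `Ops.comparison` : a linear map which is injective on admissible words is injective on the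
  image of `φ_r` (in particular on the span of all words), and the admissible words are a basis.
-/

set_option autoImplicit false

namespace Crest.Agent.R204.Thm3

open Finset

variable {H : Type*} [AddCommGroup H] [Module (ZMod 2) H] (O : Ops H)

/-- the squeeze, first half: only an upper bound -/
theorem Ops.finrank_map_le_of (x : H) (r t : ℕ) (V : Submodule (ZMod 2) (MvPolynomial (Fin r) (ZMod 2)))
    [Module.Finite (ZMod 2) V] (hV : ∀ u : H →ₗ[ZMod 2] ZMod 2, O.fpoly x r t u ∈ V) :
    Module.finrank (ZMod 2) ((homG r t).map (O.phi x r)) ≤ Module.finrank (ZMod 2) V := by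
  set f : homG r t →ₗ[ZMod 2] H := (O.phi x r).domRestrict (homG r t) with hf
  set g : homG r t →ₗ[ZMod 2] Module.Dual (ZMod 2) V :=
    ((LinearMap.flip (pr r)).domRestrict (homG r t)).compr₂ LinearMap.id |>.compl₁₂ LinearMap.id V.subtype
    with hg
  have hgapp : ∀ (γ : homG r t) (p : V), g γ p = pr r (p : MvPolynomial (Fin r) (ZMod 2)) (γ : Gam r) :=
    fun γ p => rfl
  have hker : LinearMap.ker g ≤ LinearMap.ker f := by
    intro γ hγ
    rw [LinearMap.mem_ker] at hγ ⊢
    refine (Module.forall_dual_apply_eq_zero_iff (ZMod 2) _).1 fun u => ?_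
    have := O.pr_fpoly x u γ.2
    rw [← hgapp γ ⟨_, hV u⟩, hγ] at this
    exact this.symm
  have h3 : Module.finrank (ZMod 2) (LinearMap.range g) ≤ Module.finrank (ZMod 2) V := by
    refine (Submodule.finrank_le _).trans ?_
    rw [Subspace.dual_finrank_eq]
  have h4 := LinearMap.finrank_range_add_finrank_ker f
  have h5 := LinearMap.finrank_range_add_finrank_ker g
  have h6 : Module.finrank (ZMod 2) (LinearMap.ker g) ≤ Module.finrank (ZMod 2) (LinearMap.ker f) :=
    Submodule.finrank_mono hker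
  have h7 : (homG r t).map (O.phi x r) = LinearMap.range f := by
    rw [hf]
    ext y
    simp only [Submodule.mem_map, LinearMap.mem_range, LinearMap.domRestrict_apply, Subtype.exists,
      exists_prop]
  rw [h7]
  omega

theorem card_adm_zero (k : ℕ) : Nat.card (Adm 0 k 0) = 1 := by
  have : Unique (Adm 0 k 0) := by
    refine ⟨⟨⟨Fin.elim0, fun i => i.elim0, by simp⟩⟩, fun m => Subtype.ext (funext fun i => i.elim0)⟩
  exact Nat.card_unique

/-- **the image of `φ_r` in degree `k + t` has dimension at most the number of admissible words** -/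
theorem Ops.finrank_map_le {k : ℕ} {x : H} (hx : O.Base k x) : ∀ {r t : ℕ} (_ : t ≤ O.M),
    Module.finrank (ZMod 2) ((homG r t).map (O.phi x r)) ≤ Nat.card (Adm r k t)
  | 0, t, ht => by
    rcases Nat.eq_zero_or_pos t with rfl | h0
    · rw [card_adm_zero]
      have h1 : (homG 0 0).map (O.phi x 0) ≤ Submodule.span (ZMod 2) {x} := by
        rintro _ ⟨γ, hγ, rfl⟩
        refine homG_induction (P := fun γ => O.phi x 0 γ ∈ Submodule.span (ZMod 2) {x}) (by simp)
          ?_ ?_ hγ
        · intro a b ha hb; rw [map_add]; exact Submodule.add_mem _ ha hb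
        · intro m _
          rw [phi_single, tw_zero]
          exact Submodule.mem_span_singleton_self x
      refine (Submodule.finrank_mono h1).trans ?_
      refine (finrank_span_le_card (R := ZMod 2) ({x} : Set H)).trans ?_
      simp
    · have h1 : (homG 0 t).map (O.phi x 0) = ⊥ := by
        rw [eq_bot_iff]
        rintro _ ⟨γ, hγ, rfl⟩
        refine homG_induction (P := fun γ => O.phi x 0 γ ∈ (⊥ : Submodule (ZMod 2) H)) (by simp)
          ?_ ?_ hγ
        · intro a b ha hb; rw [map_add]; exact Submodule.add_mem _ ha hb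
        · intro m hm
          simp at hm
          omega
      rw [h1]
      simp
  | r + 1, t, ht =>
    (O.finrank_map_le_of x (r + 1) t (MG r k t) fun u => O.fpoly_mem hx ht u).trans (finrank_MG_le r k t)

/-- the span of ALL words of length `r` and degree `k + t` -/
def Ops.wspan (x : H) (r k t : ℕ) : Submodule (ZMod 2) H :=
  Submodule.span (ZMod 2) {y | ∃ m : Fin r → ℕ, qdeg k m = k + t ∧ y = O.qw m x}

theorem Ops.wspan_le {k : ℕ} {x : H} (hx : O.Base k x) {r t : ℕ} (ht : t ≤ O.M) :
    O.wspan x r k t ≤ (homG r t).map (O.phi x r) := by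
  refine Submodule.span_le.2 ?_
  rintro _ ⟨m, hm, rfl⟩
  obtain ⟨γ, hγ, h⟩ := O.qw_mem hx m hm ht
  exact ⟨γ, hγ, h⟩

theorem Ops.finrank_wspan_le {k : ℕ} {x : H} (hx : O.Base k x) {r t : ℕ} (ht : t ≤ O.M) :
    Module.finrank (ZMod 2) (O.wspan x r k t) ≤ Nat.card (Adm r k t) :=
  (Submodule.finrank_mono (O.wspan_le hx ht)).trans (O.finrank_map_le hx ht)

/-- if the admissible words are linearly independent they are a basis of the image of `φ_r` -/
theorem Ops.map_eq_span {k : ℕ} {x : H} (hx : O.Base k x) {r t : ℕ} (ht : t ≤ O.M)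
    (hlin : LinearIndependent (ZMod 2) (fun m : Adm r k t => O.qw m.1 x)) :
    (homG r t).map (O.phi x r) =
      Submodule.span (ZMod 2) (Set.range fun m : Adm r k t => O.qw m.1 x) := by
  symm
  have := Fintype.ofFinite (Adm r k t)
  refine Submodule.eq_of_le_of_finrank_le (Submodule.span_le.2 ?_) ?_
  · rintro _ ⟨m, rfl⟩
    obtain ⟨γ, hγ, h⟩ := O.qw_mem hx m.1 m.2.2 ht
    exact ⟨γ, hγ, h⟩
  · rw [finrank_span_eq_card hlin, ← Nat.card_eq_fintype_card]
    exact O.finrank_map_le hx ht

theorem Ops.wspan_eq_span {k : ℕ} {x : H} (hx : O.Base k x) {r t : ℕ} (ht : t ≤ O.M)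
    (hlin : LinearIndependent (ZMod 2) (fun m : Adm r k t => O.qw m.1 x)) :
    O.wspan x r k t = Submodule.span (ZMod 2) (Set.range fun m : Adm r k t => O.qw m.1 x) := by
  refine le_antisymm ((O.wspan_le hx ht).trans (O.map_eq_span hx ht hlin).le) (Submodule.span_mono ?_)
  rintro _ ⟨m, rfl⟩
  exact ⟨m.1, m.2.2, rfl⟩

/-- **the comparison principle** -/
theorem Ops.comparison {H' : Type*} [AddCommGroup H'] [Module (ZMod 2) H'] {k : ℕ} {x : H}
    (hx : O.Base k x) {r t : ℕ} (ht : t ≤ O.M) (F : H →ₗ[ZMod 2] H')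
    (hF : LinearIndependent (ZMod 2) (fun m : Adm r k t => F (O.qw m.1 x))) :
    LinearIndependent (ZMod 2) (fun m : Adm r k t => O.qw m.1 x) ∧
    (∀ y ∈ (homG r t).map (O.phi x r), F y = 0 → y = 0) ∧
    (∀ y ∈ O.wspan x r k t, F y = 0 → y = 0) := by
  have hlin : LinearIndependent (ZMod 2) (fun m : Adm r k t => O.qw m.1 x) :=
    LinearIndependent.of_comp F hF
  have h1 : ∀ y ∈ (homG r t).map (O.phi x r), F y = 0 → y = 0 := by
    intro y hy hFy
    rw [O.map_eq_span hx ht hlin] at hy
    have := Fintype.ofFinite (Adm r k t)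
    obtain ⟨c, rfl⟩ := (Submodule.mem_span_range_iff_exists_fun (ZMod 2)).1 hy
    rw [map_sum] at hFy
    simp only [map_smul] at hFy
    have h2 := Fintype.linearIndependent_iff.1 hF c hFy
    exact Finset.sum_eq_zero fun m _ => by rw [h2 m, zero_smul]
  exact ⟨hlin, h1, fun y hy => h1 y (O.wspan_le hx ht hy)⟩

/-- words are carried to words -/
theorem Ops.map_qw {H' : Type*} [AddCommGroup H'] [Module (ZMod 2) H'] (O' : Ops H')
    (F : H →ₗ[ZMod 2] H') {N : ℕ} (hQ : ∀ i ≤ N, ∀ y, F (O.Q i y) = O'.Q i (F y)) (x : H) :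
    ∀ {r : ℕ} (m : Fin r → ℕ), (∀ j, m j ≤ N) → F (O.qw m x) = O'.qw m (F x)
  | 0, m, _ => by simp
  | r + 1, m, h => by
    rw [qw_succ, qw_succ, hQ _ (h 0), Ops.map_qw O' F hQ x (Fin.tail m) fun j => h j.succ]

/-- the comparison principle for a map commuting with the operations -/
theorem Ops.comparison' {H' : Type*} [AddCommGroup H'] [Module (ZMod 2) H'] (O' : Ops H') {k : ℕ} {x : H}
    (hx : O.Base k x) {r t : ℕ} (ht : t ≤ O.M) (F : H →ₗ[ZMod 2] H')
    (hQ : ∀ i ≤ t, ∀ y, F (O.Q i y) = O'.Q i (F y))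
    (hF : LinearIndependent (ZMod 2) (fun m : Adm r k t => O'.qw m.1 (F x))) :
    LinearIndependent (ZMod 2) (fun m : Adm r k t => O.qw m.1 x) ∧
    (∀ y ∈ (homG r t).map (O.phi x r), F y = 0 → y = 0) ∧
    (∀ y ∈ O.wspan x r k t, F y = 0 → y = 0) := by
  refine O.comparison hx ht F ?_
  have h : (fun m : Adm r k t => F (O.qw m.1 x)) = fun m : Adm r k t => O'.qw m.1 (F x) := by
    funext m
    exact O.map_qw O' F hQ x m.1 (le_of_qdeg m.2.2)
  rw [h]
  exact hF

end Crest.Agent.R204.Thm3
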