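import Mathlib

/-!
# Row 204, Theorem 3 (Dickson description): abstract algebraic core  (owner helper737)

Everything here is pure algebra.  `Ops H` lists exactly the facts about the little cube operations
`T_i`, `Q_i` (lower indices), the dual Steenrod operations `Sq a = Sq^a_*` on the total homology `H`
of one space (internally graded by `gr`), valid for operation indices `≤ M`.
-/

set_option autoImplicit false

namespace Crest.Agent.R204.Thm3

open Finset

/-- The structure on the homology of `X = Ω^J Y` coming from little cubes (facts (1.1)-(1.5)). -/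
structure Ops (H : Type*) [AddCommGroup H] [Module (ZMod 2) H] where
  /-- degree `d` part -/
  gr : ℕ → Submodule (ZMod 2) H
  /-- `T_i y = ψ_*(a_i ⊗ y)` -/
  T : ℕ → H →ₗ[ZMod 2] H
  /-- `Q_i y = θ_*(e_i ⊗ y ⊗ y)` (lower index) -/
  Q : ℕ → H →ₗ[ZMod 2] H
  /-- dual Steenrod squares `Sq^a_*` -/
  Sq : ℕ → H →ₗ[ZMod 2] H
  /-- the range of the operations -/
  M : ℕ
  T_gr : ∀ i ≤ M, ∀ d, ∀ y ∈ gr d, T i y ∈ gr (d + i)
  Q_gr : ∀ i ≤ M, ∀ d, ∀ y ∈ gr d, Q i y ∈ gr (2 * d + i)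
  Sq_gr : ∀ a d, ∀ y ∈ gr d, a ≤ d → Sq a y ∈ gr (d - a)
  Sq_zero : ∀ y, Sq 0 y = y
  Sq_unst : ∀ a d, ∀ y ∈ gr d, d < 2 * a → Sq a y = 0
  /-- (1.3) `T_i y = ∑_l Q^{i+l} (Sq^l_* y)`; `Q^{i+l}` on degree `d - l` is `Q_{i+2l-d}` -/
  T_eq : ∀ i, 1 ≤ i → i ≤ M → ∀ d, ∀ y ∈ gr d,
    T i y = ∑ l ∈ range (d / 2 + 1), if d ≤ i + 2 * l then Q (i + 2 * l - d) (Sq l y) else 0
  /-- (1.4) `Sq^a_* ψ_*(a_i ⊗ y) = ∑_b ψ_*(Sq^b_* a_i ⊗ Sq^{a-b}_* y)` -/
  Sq_T : ∀ a, ∀ i ≤ M, ∀ y, Sq a (T i y) =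
    ∑ b ∈ range (a + 1), if 2 * b ≤ i then (((i - b).choose b : ℕ) : ZMod 2) • T (i - b) (Sq (a - b) y) else 0
  /-- (1.5) swap invariance of `Ψ₂` -/
  T_swap : ∀ i j, i + j ≤ M → ∀ y, T i (T j y) = T j (T i y)
  /-- (1.5) invariance of `Ψ₂` under the transvection -/
  T_trans : ∀ i j, i + j ≤ M → ∀ y, T i (T j y) =
    ∑ s ∈ range (j + 1), (((i + s).choose s : ℕ) : ZMod 2) • T (i + s) (T (j - s) y)

variable {H : Type*} [AddCommGroup H] [Module (ZMod 2) H] (O : Ops H)

namespace Ops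

/-- iterated `T`: `tw m y = T_{m 0} (T_{m 1} (... (T_{m (r-1)} y)))` -/
def tw : {r : ℕ} → (Fin r → ℕ) → H →ₗ[ZMod 2] H
  | 0, _ => LinearMap.id
  | _ + 1, m => O.T (m 0) ∘ₗ tw (Fin.tail m)

/-- iterated `Q`: `qw m y = Q_{m 0} (Q_{m 1} (... (Q_{m (r-1)} y)))` -/
def qw : {r : ℕ} → (Fin r → ℕ) → H →ₗ[ZMod 2] H
  | 0, _ => LinearMap.id
  | _ + 1, m => O.Q (m 0) ∘ₗ qw (Fin.tail m)

@[simp] theorem tw_zero (m : Fin 0 → ℕ) (y : H) : O.tw m y = y := rfl
theorem tw_succ {r : ℕ} (m : Fin (r + 1) → ℕ) (y : H) :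
    O.tw m y = O.T (m 0) (O.tw (Fin.tail m) y) := rfl
@[simp] theorem qw_zero (m : Fin 0 → ℕ) (y : H) : O.qw m y = y := rfl
theorem qw_succ {r : ℕ} (m : Fin (r + 1) → ℕ) (y : H) :
    O.qw m y = O.Q (m 0) (O.qw (Fin.tail m) y) := rfl

end Ops

/-- degree of the word `Q_{i 0} ... Q_{i (r-1)} x`, `|x| = k` -/
def qdeg (k : ℕ) : {r : ℕ} → (Fin r → ℕ) → ℕ
  | 0, _ => k
  | _ + 1, m => 2 * qdeg k (Fin.tail m) + m 0

@[simp] theorem qdeg_zero (k : ℕ) (m : Fin 0 → ℕ) : qdeg k m = k := rfl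
theorem qdeg_succ (k : ℕ) {r : ℕ} (m : Fin (r + 1) → ℕ) :
    qdeg k m = 2 * qdeg k (Fin.tail m) + m 0 := rfl

theorem qdeg_eq (k : ℕ) : ∀ {r : ℕ} (m : Fin r → ℕ), qdeg k m = 2 ^ r * k + ∑ j : Fin r, 2 ^ (j : ℕ) * m j
  | 0, m => by simp
  | r + 1, m => by
    rw [qdeg_succ, qdeg_eq k (Fin.tail m), Fin.sum_univ_succ]
    simp only [Fin.val_zero, pow_zero, one_mul, Fin.val_succ, Fin.tail, mul_add, Finset.mul_sum]
    rw [pow_succ, add_assoc, add_comm (m 0)]
    congr 1
    · ring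
    · congr 1
      exact Finset.sum_congr rfl fun j _ => by ring

theorem sum_tail {r : ℕ} (m : Fin (r + 1) → ℕ) : ∑ j, m j = m 0 + ∑ j, Fin.tail m j :=
  Fin.sum_univ_succ _

namespace Ops

theorem tw_gr {k : ℕ} {x : H} (hx : x ∈ O.gr k) : ∀ {r : ℕ} (m : Fin r → ℕ), ∑ j, m j ≤ O.M →
    O.tw m x ∈ O.gr (k + ∑ j, m j)
  | 0, m, _ => by simpa using hx
  | r + 1, m, h => by
    rw [sum_tail] at h ⊢
    have := O.T_gr (m 0) (by omega) _ _ (tw_gr hx (Fin.tail m) (by omega))
    rw [tw_succ]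
    convert this using 2
    omega

theorem T_sub_of_lt {i : ℕ} (hi0 : 1 ≤ i) (hi : i ≤ O.M) {d : ℕ} {y : H} (hy : y ∈ O.gr d)
    (h : ∀ l, d ≤ i + 2 * l → O.Sq l y = 0) : O.T i y = 0 := by
  rw [O.T_eq i hi0 hi d y hy]
  refine Finset.sum_eq_zero fun l _ => ?_
  split_ifs with hl
  · rw [h l hl, map_zero]
  · rfl

/-- the dual Steenrod operations act on iterated `T`'s by the Cartan formula -/
theorem Sq_tw {x : H} (hx : ∀ a, 0 < a → O.Sq a x = 0) : ∀ {r : ℕ} (m : Fin r → ℕ) (a : ℕ),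
    ∑ j, m j ≤ O.M → ∑ j, m j < 2 * a → O.Sq a (O.tw m x) = 0
  | 0, m, a, _, h => by
    simp only [tw_zero]
    exact hx a (by simp at h; omega)
  | r + 1, m, a, hM, h => by
    rw [sum_tail] at hM h
    rw [tw_succ, O.Sq_T a (m 0) (by omega)]
    refine Finset.sum_eq_zero fun b hb => ?_
    rw [Finset.mem_range] at hb
    split_ifs with hb'
    · rw [Sq_tw hx (Fin.tail m) (a - b) (by omega) (by omega), map_zero, smul_zero]
    · rfl

/-- the properties of the fundamental class `x` (`x = x_k`, `k ≥ 1`, or `x = [1]`, `k = 0`) -/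
structure Base (k : ℕ) (x : H) : Prop where
  mem : x ∈ O.gr k
  sq : ∀ a, 0 < a → O.Sq a x = 0
  /-- `T_0` vanishes on primitive elements -/
  t0 : 0 < k → ∀ {r : ℕ} (m : Fin r → ℕ), ∑ j, m j ≤ O.M → O.T 0 (O.tw m x) = 0
  /-- `T_0 [c] = [2c] = Q_0 [c]` -/
  t00 : k = 0 → ∀ r : ℕ, O.T 0 (O.tw (fun _ : Fin r => 0) x) = O.Q 0 (O.tw (fun _ : Fin r => 0) x)

/-- `T_i` vanishes for `i < k` on iterated `T`'s of a class of degree `k` -/
theorem T_tw_eq_zero {k : ℕ} {x : H} (hx : O.Base k x)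
    {r : ℕ} (m : Fin (r + 1) → ℕ) (hM : ∑ j, m j ≤ O.M) (h : m 0 < k) : O.tw m x = 0 := by
  rw [sum_tail] at hM
  rw [tw_succ]
  rcases Nat.eq_zero_or_pos (m 0) with h0 | h0
  · rw [h0]; exact hx.t0 (by omega) _ (by omega)
  refine O.T_sub_of_lt h0 (by omega) (O.tw_gr hx.mem (Fin.tail m) (by omega)) fun l hl => ?_
  exact O.Sq_tw hx.sq (Fin.tail m) l (by omega) (by omega)

theorem tw_swap {x : H} : ∀ {r : ℕ} (m : Fin r → ℕ) (p : ℕ) (hp : p + 1 < r), ∑ j, m j ≤ O.M →
    O.tw (m ∘ Equiv.swap (⟨p, by omega⟩ : Fin r) ⟨p + 1, hp⟩) x = O.tw m x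
  | 0, _, p, hp, _ => by omega
  | 1, _, p, hp, _ => by omega
  | r + 2, m, 0, hp, hM => by
    rw [sum_tail, sum_tail] at hM
    rw [tw_succ, tw_succ, tw_succ, tw_succ]
    have e0 : (m ∘ Equiv.swap (⟨0, by omega⟩ : Fin (r + 2)) ⟨0 + 1, hp⟩) 0 = Fin.tail m 0 := by
      simp only [Function.comp_apply, Fin.tail]
      exact congrArg m (Equiv.swap_apply_left _ _)
    have e1 : Fin.tail (m ∘ Equiv.swap (⟨0, by omega⟩ : Fin (r + 2)) ⟨0 + 1, hp⟩) 0 = m 0 := by
      simp only [Function.comp_apply, Fin.tail]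
      exact congrArg m (Equiv.swap_apply_right _ _)
    have e2 : Fin.tail (Fin.tail (m ∘ Equiv.swap (⟨0, by omega⟩ : Fin (r + 2)) ⟨0 + 1, hp⟩)) =
        Fin.tail (Fin.tail m) := by
      funext j
      simp only [Function.comp_apply, Fin.tail]
      refine congrArg m (Equiv.swap_apply_of_ne_of_ne ?_ ?_) <;> simp [Fin.ext_iff]
    rw [e0, e1, e2]
    exact O.T_swap _ _ (by omega) _
  | r + 2, m, p + 1, hp, hM => by
    rw [sum_tail] at hM
    have ih := tw_swap (x := x) (Fin.tail m) p (by omega) (by omega)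
    rw [tw_succ, tw_succ (m := m), ← ih]
    have e0 : (m ∘ Equiv.swap (⟨p + 1, by omega⟩ : Fin (r + 2)) ⟨p + 1 + 1, hp⟩) 0 = m 0 := by
      simp only [Function.comp_apply]
      refine congrArg m (Equiv.swap_apply_of_ne_of_ne ?_ ?_) <;> simp [Fin.ext_iff]
    have e1 : Fin.tail (m ∘ Equiv.swap (⟨p + 1, by omega⟩ : Fin (r + 2)) ⟨p + 1 + 1, hp⟩) =
        Fin.tail m ∘ Equiv.swap (⟨p, by omega⟩ : Fin (r + 1)) ⟨p + 1, by omega⟩ := by
      funext j
      simp only [Function.comp_apply, Fin.tail]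
      refine congrArg m ?_
      rw [Equiv.swap_apply_def, Equiv.swap_apply_def]
      simp only [Fin.ext_iff, Fin.val_succ]
      split_ifs <;> simp_all
    rw [e0, e1]

/-- move `s` units from place `p + 1` to place `p` -/
def mv {r : ℕ} (m : Fin r → ℕ) (p : ℕ) (s : ℕ) : Fin r → ℕ := fun j =>
  if (j : ℕ) = p then m j + s else if (j : ℕ) = p + 1 then m j - s else m j

theorem tw_trans {x : H} : ∀ {r : ℕ} (m : Fin r → ℕ) (p : ℕ) (hp : p + 1 < r), ∑ j, m j ≤ O.M →
    O.tw m x = ∑ s ∈ range (m ⟨p + 1, hp⟩ + 1),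
      (((m ⟨p, by omega⟩ + s).choose s : ℕ) : ZMod 2) • O.tw (mv m p s) x
  | 0, _, p, hp, _ => by omega
  | 1, _, p, hp, _ => by omega
  | r + 2, m, 0, hp, hM => by
    rw [sum_tail, sum_tail] at hM
    rw [tw_succ, tw_succ, O.T_trans _ _ (by omega)]
    have e : m ⟨0 + 1, hp⟩ = Fin.tail m 0 := rfl
    have e' : m ⟨0, by omega⟩ = m 0 := rfl
    rw [e, e']
    refine Finset.sum_congr rfl fun s _ => ?_
    rw [tw_succ, tw_succ]
    have e0 : mv m 0 s 0 = m 0 + s := by simp [mv]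
    have e1 : Fin.tail (mv m 0 s) 0 = Fin.tail m 0 - s := by simp [mv, Fin.tail]
    have e2 : Fin.tail (Fin.tail (mv m 0 s)) = Fin.tail (Fin.tail m) := by
      funext j; simp [mv, Fin.tail]
    rw [e0, e1, e2]
  | r + 2, m, p + 1, hp, hM => by
    rw [sum_tail] at hM
    have ih := tw_trans (x := x) (Fin.tail m) p (by omega) (by omega)
    rw [tw_succ, ih, map_sum]
    have e : m ⟨p + 1 + 1, hp⟩ = Fin.tail m ⟨p + 1, by omega⟩ := rfl
    have e' : m ⟨p + 1, by omega⟩ = Fin.tail m ⟨p, by omega⟩ := rfl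
    rw [e, e']
    refine Finset.sum_congr rfl fun s _ => ?_
    rw [map_smul, tw_succ (m := mv m (p + 1) s)]
    have e0 : mv m (p + 1) s 0 = m 0 := by simp [mv]
    have e1 : Fin.tail (mv m (p + 1) s) = mv (Fin.tail m) p s := by
      funext j; simp [mv, Fin.tail]
    rw [e0, e1]

end Ops

/-! ## the homology of `BV_r` as finitely supported functions on exponents -/

/-- `H_*(BV_r; F2)`, basis `a_{m 0} ⊗ ... ⊗ a_{m (r-1)}` -/
abbrev Gam (r : ℕ) : Type := (Fin r →₀ ℕ) →₀ ZMod 2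

/-- degree `t` part -/
noncomputable def homG (r t : ℕ) : Submodule (ZMod 2) (Gam r) :=
  Finsupp.supported (ZMod 2) (ZMod 2) {m : Fin r →₀ ℕ | ∑ j, m j = t}

theorem single_mem_homG {r : ℕ} (m : Fin r →₀ ℕ) (c : ZMod 2) {t : ℕ} (h : ∑ j, m j = t) :
    Finsupp.single m c ∈ homG r t := Finsupp.single_mem_supported _ _ h

theorem homG_induction {r t : ℕ} {P : Gam r → Prop} (h0 : P 0)
    (hadd : ∀ a b, P a → P b → P (a + b)) (hs : ∀ m : Fin r →₀ ℕ, ∑ j, m j = t → P (Finsupp.single m 1))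
    {γ : Gam r} (hγ : γ ∈ homG r t) : P γ := by
  have hγ' : γ ∈ Submodule.span (ZMod 2) ((fun m : Fin r →₀ ℕ => (Finsupp.single m 1 : Gam r)) ''
      {m : Fin r →₀ ℕ | ∑ j, m j = t}) := by
    rw [homG, Finsupp.supported_eq_span_single] at hγ
    exact hγ
  refine Submodule.span_induction (p := fun x _ => P x) ?_ h0 (fun a b _ _ => hadd a b) ?_ hγ'
  · rintro _ ⟨m, hm, rfl⟩; exact hs m hm
  · intro c x _ hx
    have : c = 0 ∨ c = 1 := by revert c; decide
    rcases this with rfl | rfl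
    · simpa using h0
    · simpa using hx

/-- prepend a factor `a_j` -/
noncomputable def consG {r : ℕ} (j : ℕ) : Gam r →ₗ[ZMod 2] Gam (r + 1) :=
  Finsupp.lmapDomain _ _ (Finsupp.cons j)

@[simp] theorem consG_single {r : ℕ} (j : ℕ) (m : Fin r →₀ ℕ) (c : ZMod 2) :
    consG j (Finsupp.single m c) = Finsupp.single (Finsupp.cons j m) c := by
  simp [consG, Finsupp.lmapDomain_apply, Finsupp.mapDomain_single]

theorem consG_mem {r : ℕ} (j : ℕ) {t : ℕ} {γ : Gam r} (hγ : γ ∈ homG r t) :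
    consG j γ ∈ homG (r + 1) (j + t) := by
  refine homG_induction (P := fun γ => consG j γ ∈ homG (r + 1) (j + t)) ?_ ?_ ?_ hγ
  · simp
  · intro a b ha hb; rw [map_add]; exact Submodule.add_mem _ ha hb
  · intro m hm
    rw [consG_single]
    refine single_mem_homG _ _ ?_
    rw [Fin.sum_univ_succ]
    simp [hm]

/-- the dual Steenrod square on `Gam r` -/
noncomputable def sqG : (r : ℕ) → ℕ → (Gam r →ₗ[ZMod 2] Gam r)
  | 0, a => if a = 0 then LinearMap.id else 0
  | r + 1, a => Finsupp.linearCombination (ZMod 2) (fun m : Fin (r + 1) →₀ ℕ =>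
      ∑ b ∈ range (a + 1), if 2 * b ≤ m 0 then (((m 0 - b).choose b : ℕ) : ZMod 2) •
        consG (m 0 - b) (sqG r (a - b) (Finsupp.single (Finsupp.tail m) 1)) else 0)

theorem sqG_zero_apply (a : ℕ) (γ : Gam 0) : sqG 0 a γ = if a = 0 then γ else 0 := by
  rw [sqG]; split_ifs <;> rfl

theorem sqG_single_succ {r : ℕ} (a : ℕ) (m : Fin (r + 1) →₀ ℕ) : sqG (r + 1) a (Finsupp.single m 1) =
    ∑ b ∈ range (a + 1), if 2 * b ≤ m 0 then (((m 0 - b).choose b : ℕ) : ZMod 2) •
        consG (m 0 - b) (sqG r (a - b) (Finsupp.single (Finsupp.tail m) 1)) else 0 := by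
  rw [sqG, Finsupp.linearCombination_single, one_smul]

theorem sum_tail' {r : ℕ} (m : Fin (r + 1) →₀ ℕ) : ∑ j, m j = m 0 + ∑ j, Finsupp.tail m j :=
  Fin.sum_univ_succ _

theorem sqG_eq_zero : ∀ {r : ℕ} {a t : ℕ} {γ : Gam r}, γ ∈ homG r t → t < 2 * a → sqG r a γ = 0
  | 0, a, t, γ, _, h => by
    rw [sqG_zero_apply, if_neg (by omega)]
  | r + 1, a, t, γ, hγ, h => by
    refine homG_induction (P := fun γ => sqG (r + 1) a γ = 0) (map_zero _) ?_ ?_ hγ
    · intro x y hx hy; rw [map_add, hx, hy, add_zero]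
    · intro m hm
      rw [sum_tail'] at hm
      rw [sqG_single_succ]
      refine Finset.sum_eq_zero fun b hb => ?_
      rw [Finset.mem_range] at hb
      split_ifs with hb'
      · rw [sqG_eq_zero (t := ∑ j, Finsupp.tail m j) (single_mem_homG _ _ rfl) (by omega),
          LinearMap.map_zero, smul_zero]
      · rfl

theorem sqG_mem : ∀ {r : ℕ} {a t : ℕ} {γ : Gam r}, γ ∈ homG r t → sqG r a γ ∈ homG r (t - a)
  | 0, a, t, γ, hγ => by
    rw [sqG_zero_apply]
    split_ifs with ha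
    · subst ha; exact hγ
    · exact Submodule.zero_mem _
  | r + 1, a, t, γ, hγ => by
    refine homG_induction (P := fun γ => sqG (r + 1) a γ ∈ homG (r + 1) (t - a)) (by simp) ?_ ?_ hγ
    · intro x y hx hy; rw [map_add]; exact Submodule.add_mem _ hx hy
    · intro m hm
      rw [sum_tail'] at hm
      rw [sqG_single_succ]
      refine Submodule.sum_mem _ fun b hb => ?_
      rw [Finset.mem_range] at hb
      split_ifs with hb'
      · refine Submodule.smul_mem _ _ ?_
        by_cases h2 : ∑ j, Finsupp.tail m j < 2 * (a - b)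
        · rw [sqG_eq_zero (t := ∑ j, Finsupp.tail m j) (single_mem_homG _ _ rfl) h2,
            LinearMap.map_zero]
          exact Submodule.zero_mem _
        · have := consG_mem (m 0 - b) (sqG_mem (a := a - b) (single_mem_homG (Finsupp.tail m) 1 rfl))
          convert this using 2
          omega
      · exact Submodule.zero_mem _

namespace Ops

/-- `φ_r : H_*(BV_r) → H_*(X)`, `a_m ↦ T_{m 0} ... T_{m (r-1)} x` -/
noncomputable def phi (x : H) (r : ℕ) : Gam r →ₗ[ZMod 2] H :=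
  Finsupp.linearCombination (ZMod 2) (fun m : Fin r →₀ ℕ => O.tw (⇑m) x)

@[simp] theorem phi_single (x : H) {r : ℕ} (m : Fin r →₀ ℕ) :
    O.phi x r (Finsupp.single m 1) = O.tw (⇑m) x := by
  simp [phi]

theorem phi_consG (x : H) {r : ℕ} (j : ℕ) (γ : Gam r) :
    O.phi x (r + 1) (consG j γ) = O.T j (O.phi x r γ) := by
  induction γ using Finsupp.induction_linear with
  | zero => simp
  | add f g hf hg => rw [map_add, map_add, map_add, map_add, hf, hg]
  | single m c =>
    rw [consG_single, phi, phi, Finsupp.linearCombination_single, Finsupp.linearCombination_single,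
      map_smul, tw_succ]
    rfl

theorem phi_gr {k : ℕ} {x : H} (hx : x ∈ O.gr k) {r t : ℕ} (ht : t ≤ O.M) {γ : Gam r}
    (hγ : γ ∈ homG r t) : O.phi x r γ ∈ O.gr (k + t) := by
  refine homG_induction (P := fun γ => O.phi x r γ ∈ O.gr (k + t)) (by simp) ?_ ?_ hγ
  · intro a b ha hb; rw [map_add]; exact Submodule.add_mem _ ha hb
  · intro m hm
    rw [phi_single]
    have := O.tw_gr hx (⇑m) (by omega)
    rwa [hm] at this

/-- `φ_r` is linear over the dual Steenrod algebra -/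
theorem phi_sqG {x : H} (hx : ∀ a, 0 < a → O.Sq a x = 0) : ∀ {r : ℕ} {t : ℕ} (_ : t ≤ O.M) {γ : Gam r}
    (_ : γ ∈ homG r t) (a : ℕ), O.phi x r (sqG r a γ) = O.Sq a (O.phi x r γ)
  | 0, t, ht, γ, hγ, a => by
    refine homG_induction (P := fun γ => O.phi x 0 (sqG 0 a γ) = O.Sq a (O.phi x 0 γ)) (by simp) ?_ ?_ hγ
    · intro y z hy hz; simp only [map_add, hy, hz]
    · intro m hm
      rw [sqG_zero_apply, phi_single, tw_zero]
      split_ifs with ha
      · subst ha; rw [O.Sq_zero, phi_single, tw_zero]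
      · rw [hx a (by omega), map_zero]
  | r + 1, t, ht, γ, hγ, a => by
    refine homG_induction (P := fun γ => O.phi x (r + 1) (sqG (r + 1) a γ) =
      O.Sq a (O.phi x (r + 1) γ)) (by simp) ?_ ?_ hγ
    · intro y z hy hz; simp only [map_add, hy, hz]
    · intro m hm
      rw [sum_tail'] at hm
      rw [sqG_single_succ, phi_single, tw_succ, O.Sq_T a _ (by omega), map_sum]
      refine Finset.sum_congr rfl fun b _ => ?_
      split_ifs with hb
      · rw [map_smul, phi_consG, phi_sqG hx (t := ∑ j, Finsupp.tail m j) (by omega)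
          (single_mem_homG _ _ rfl), phi_single]
        rfl
      · rw [map_zero]

/-- the conjugate dual squares, `χ(Sq^n)_*` up to order -/
noncomputable def chi (n : ℕ) : H →ₗ[ZMod 2] H :=
  if n = 0 then LinearMap.id
  else ∑ j : Fin n, O.Sq (j + 1) ∘ₗ chi (n - 1 - j)
termination_by n
decreasing_by omega

theorem chi_zero (y : H) : O.chi 0 y = y := by rw [chi]; simp

theorem chi_succ (n : ℕ) (y : H) : O.chi (n + 1) y =
    ∑ j ∈ range (n + 1), O.Sq (j + 1) (O.chi (n - j) y) := by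
  rw [chi, if_neg (by omega), LinearMap.sum_apply, Finset.sum_range]
  refine Finset.sum_congr rfl fun j _ => ?_
  rw [LinearMap.comp_apply]
  congr 3

/-- `∑_{a+b=n} Sq^a χ(Sq^b) = 0` for `n > 0` -/
theorem sum_Sq_chi (n : ℕ) (y : H) : ∑ j ∈ range (n + 1 + 1), O.Sq j (O.chi (n + 1 - j) y) = 0 := by
  rw [Finset.sum_range_succ', O.Sq_zero, Nat.sub_zero, chi_succ]
  have : ∀ j ∈ range (n + 1), O.Sq (j + 1) (O.chi (n + 1 - (j + 1)) y) =
      O.Sq (j + 1) (O.chi (n - j) y) := fun j _ => by rw [Nat.add_sub_add_right]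
  rw [Finset.sum_congr rfl this, ← two_smul (ZMod 2)]
  have h2 : (2 : ZMod 2) = 0 := rfl
  rw [h2, zero_smul]

/-- `χ(Sq^n)_*` preserves the image of `φ_r` -/
theorem chi_phi {x : H} (hx : ∀ a, 0 < a → O.Sq a x = 0) {r : ℕ} : ∀ (n : ℕ) {t : ℕ} (_ : t ≤ O.M)
    {γ : Gam r} (_ : γ ∈ homG r t), ∃ γ' ∈ homG r (t - n), (t < n → γ' = 0) ∧
      O.chi n (O.phi x r γ) = O.phi x r γ' := by
  intro n
  induction n using Nat.strong_induction_on with
  | _ n ih =>
    intro t ht γ hγ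
    rcases n with _ | n
    · exact ⟨γ, hγ, fun h => absurd h (by omega), O.chi_zero _⟩
    · choose g hg hg0 hg' using fun (j : ℕ) (hj : j < n + 1) => ih j hj ht hγ
      refine ⟨∑ j ∈ (range (n + 1)).attach, if n + 1 ≤ t then sqG r (j + 1) (g (n - j) (by omega)) else 0,
        ?_, ?_, ?_⟩
      · refine Submodule.sum_mem _ fun j _ => ?_
        have hj := Finset.mem_range.1 j.2
        split_ifs with h
        · have := sqG_mem (a := (j : ℕ) + 1) (hg (n - j) (by omega))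
          convert this using 2
          omega
        · exact Submodule.zero_mem _
      · intro h
        refine Finset.sum_eq_zero fun j _ => ?_
        rw [if_neg (by omega)]
      · rw [chi_succ, map_sum, ← Finset.sum_attach]
        refine Finset.sum_congr rfl fun j _ => ?_
        have hj := Finset.mem_range.1 j.2
        rw [hg' (n - j) (by omega)]
        split_ifs with h
        · rw [O.phi_sqG hx (t := t - (n - j)) (by omega) (hg _ _)]
        · by_cases h' : t < n - j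
          · rw [hg0 _ _ h', map_zero, map_zero]
          · rw [← O.phi_sqG hx (t := t - (n - j)) (by omega) (hg _ _),
              sqG_eq_zero (hg _ _) (by omega)]

/-- inversion of (1.3): `Q_i y = ∑_l T_{i+d+l} (χ(Sq^l)_* y)` for `|y| = d` -/
theorem Q_eq {i d L : ℕ} {y : H} (hL : i + d + L ≤ O.M) (hgr : ∀ l, O.chi l y ∈ O.gr (d - l))
    (h0 : ∀ l, L < l → O.chi l y = 0) (hLd : L ≤ d) (h00 : i = 0 → d = 0 → O.T 0 y = O.Q 0 y) :
    O.Q i y = ∑ l ∈ range (L + 1), O.T (i + d + l) (O.chi l y) := by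
  have h1 : ∀ l ∈ range (L + 1), O.T (i + d + l) (O.chi l y) =
      ∑ j ∈ range (d + 1), O.Q (i + 2 * (l + j)) (O.Sq j (O.chi l y)) := by
    intro l hl
    rw [Finset.mem_range] at hl
    rcases Nat.eq_zero_or_pos (i + d + l) with hz | hz
    · obtain ⟨⟨rfl, rfl⟩, rfl⟩ : (i = 0 ∧ d = 0) ∧ l = 0 := by omega
      simp only [chi_zero, zero_add, Finset.sum_range_one, Nat.mul_zero, O.Sq_zero]
      exact h00 rfl rfl
    rw [O.T_eq _ hz (by omega) _ _ (hgr l)]
    have hsub : range ((d - l) / 2 + 1) ⊆ range (d + 1) := by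
      intro j hj; rw [Finset.mem_range] at *; omega
    rw [← Finset.sum_subset hsub]
    · refine Finset.sum_congr rfl fun j hj => ?_
      rw [if_pos (by omega)]
      congr 2
      omega
    · intro j hj hj'
      rw [Finset.mem_range] at hj
      rw [Finset.mem_range] at hj'
      rw [O.Sq_unst j _ _ (hgr l) (by omega), map_zero]
  rw [Finset.sum_congr rfl h1]
  have h2 : ∀ l, L < l → l ≤ d → ∑ j ∈ range (d + 1), O.Q (i + 2 * (l + j)) (O.Sq j (O.chi l y)) = 0 := by
    intro l hl _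
    refine Finset.sum_eq_zero fun j _ => ?_
    rw [h0 l hl, map_zero, map_zero]
  have h3 : ∑ l ∈ range (L + 1), ∑ j ∈ range (d + 1), O.Q (i + 2 * (l + j)) (O.Sq j (O.chi l y)) =
      ∑ l ∈ range (d + 1), ∑ j ∈ range (d + 1), O.Q (i + 2 * (l + j)) (O.Sq j (O.chi l y)) := by
    refine Finset.sum_subset (fun j hj => ?_) (fun l hl hl' => ?_)
    · rw [Finset.mem_range] at *; omega
    · rw [Finset.mem_range] at hl
      rw [Finset.mem_range] at hl'
      exact h2 l (by omega) (by omega)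
  rw [h3, Finset.sum_comm]
  -- regroup by n = l + j
  have h4 : ∀ j ∈ range (d + 1), ∀ l ∈ range (d + 1), d < l + j →
      O.Q (i + 2 * (l + j)) (O.Sq j (O.chi l y)) = 0 := by
    intro j hj l hl h
    rw [Finset.mem_range] at hj hl
    rw [O.Sq_unst j _ _ (hgr l) (by omega), map_zero]
  have h5 : ∑ j ∈ range (d + 1), ∑ l ∈ range (d + 1), O.Q (i + 2 * (l + j)) (O.Sq j (O.chi l y)) =
      ∑ n ∈ range (d + 1), ∑ j ∈ range (n + 1), O.Q (i + 2 * n) (O.Sq j (O.chi (n - j) y)) := by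
    rw [Finset.sum_sigma', Finset.sum_sigma']
    rw [← Finset.sum_filter_add_sum_filter_not _ (fun p : (_ : ℕ) × ℕ => p.2 + p.1 ≤ d)]
    have hz : ∑ p ∈ ((range (d + 1)).sigma fun _ => range (d + 1)) with ¬ p.2 + p.1 ≤ d,
        O.Q (i + 2 * (p.2 + p.1)) (O.Sq p.1 (O.chi p.2 y)) = 0 := by
      refine Finset.sum_eq_zero ?_
      rintro ⟨j, l⟩ hp
      simp only [Finset.mem_filter, Finset.mem_sigma] at hp
      exact h4 j hp.1.1 l hp.1.2 (by omega)
    rw [hz, add_zero]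
    · refine Finset.sum_bij' (fun p _ => (⟨p.2 + p.1, p.1⟩ : (_ : ℕ) × ℕ))
        (fun p _ => (⟨p.2, p.1 - p.2⟩ : (_ : ℕ) × ℕ)) ?_ ?_ ?_ ?_ ?_
      · rintro ⟨j, l⟩ hp
        simp only [Finset.mem_filter, Finset.mem_sigma, Finset.mem_range] at *
        omega
      · rintro ⟨n, j⟩ hp
        simp only [Finset.mem_filter, Finset.mem_sigma, Finset.mem_range] at *
        omega
      · rintro ⟨j, l⟩ hp
        simp
      · rintro ⟨n, j⟩ hp
        simp only [Finset.mem_sigma, Finset.mem_range] at hp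
        have : n - j + j = n := by omega
        simp [this]
      · rintro ⟨j, l⟩ hp
        simp
  rw [h5, Finset.sum_range_succ']
  rw [Finset.sum_eq_zero, zero_add]
  · simp [chi_zero, O.Sq_zero]
  · intro n _
    rw [← map_sum, sum_Sq_chi, map_zero]

/-- all words of length `r` on `x` lie in the image of `φ_r` -/
theorem qw_mem {k : ℕ} {x : H} (hx : O.Base k x) :
    ∀ {r : ℕ} (m : Fin r → ℕ) {t : ℕ}, qdeg k m = k + t → t ≤ O.M →
      ∃ γ ∈ homG r t, O.phi x r γ = O.qw m x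
  | 0, m, t, h, _ => by
    have ht : t = 0 := by rw [qdeg_zero] at h; omega
    subst ht
    refine ⟨Finsupp.single 0 1, single_mem_homG _ _ (by simp), ?_⟩
    simp
  | r + 1, m, t, h, ht => by
    have hk : k ≤ qdeg k (Fin.tail m) := by
      rw [qdeg_eq]
      have : k ≤ 2 ^ r * k := Nat.le_mul_of_pos_left _ (by positivity)
      omega
    obtain ⟨t', ht'⟩ := Nat.exists_eq_add_of_le hk
    rw [qdeg_succ, ht'] at h
    obtain ⟨γ, hγ, hγ'⟩ := qw_mem hx (Fin.tail m) ht' (by omega)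
    choose g hg hg0 hg' using fun (l : ℕ) => O.chi_phi hx.sq (r := r) l (t := t') (by omega) hγ
    have hgr : ∀ l, O.chi l (O.phi x r γ) ∈ O.gr (k + t' - l) := by
      intro l
      rw [hg' l]
      by_cases hl : t' < l
      · rw [hg0 l hl, map_zero]; exact Submodule.zero_mem _
      · have := O.phi_gr hx.mem (t := t' - l) (by omega) (hg l)
        convert this using 2
        omega
    have key := O.Q_eq (i := m 0) (d := k + t') (L := t') (y := O.phi x r γ) (by omega) hgr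
      (fun l hl => by rw [hg' l, hg0 l hl, map_zero]) (by omega) (fun _ hd => by
        obtain ⟨rfl, rfl⟩ : k = 0 ∧ t' = 0 := by omega
        refine homG_induction (P := fun γ => O.T 0 (O.phi x r γ) = O.Q 0 (O.phi x r γ)) (by simp)
          ?_ ?_ hγ
        · intro a b ha hb; simp only [map_add, ha, hb]
        · intro m' hm'
          rw [phi_single]
          have : (⇑m' : Fin r → ℕ) = fun _ => 0 := by
            funext j
            have := Finset.single_le_sum (f := fun j => m' j) (fun _ _ => Nat.zero_le _)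
              (Finset.mem_univ j)
            omega
          rw [this]
          exact hx.t00 rfl r)
    refine ⟨∑ l ∈ range (t' + 1), consG (m 0 + (k + t') + l) (g l), ?_, ?_⟩
    · refine Submodule.sum_mem _ fun l hl => ?_
      rw [Finset.mem_range] at hl
      have := consG_mem (m 0 + (k + t') + l) (hg l)
      convert this using 2
      omega
    · rw [qw_succ, ← hγ', key, map_sum]
      refine Finset.sum_congr rfl fun l _ => ?_
      rw [phi_consG, hg' l]

end Ops

/-! ## the pairing with polynomials and the squeeze -/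

open MvPolynomial in
/-- the pairing of `F2[x_1..x_r]` with `Gam r` -/
noncomputable def pr (r : ℕ) : MvPolynomial (Fin r) (ZMod 2) →ₗ[ZMod 2] Gam r →ₗ[ZMod 2] ZMod 2 :=
  LinearMap.flip (Finsupp.linearCombination (ZMod 2)
    (fun m : Fin r →₀ ℕ => (MvPolynomial.lcoeff (ZMod 2) m : MvPolynomial (Fin r) (ZMod 2) →ₗ[ZMod 2] ZMod 2)))

@[simp] theorem pr_single {r : ℕ} (p : MvPolynomial (Fin r) (ZMod 2)) (m : Fin r →₀ ℕ) (c : ZMod 2) :
    pr r p (Finsupp.single m c) = c * p.coeff m := by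
  simp [pr]

/-- the degree-`t` exponents -/
noncomputable def expo (r t : ℕ) : Finset (Fin r →₀ ℕ) := Finset.finsuppAntidiag Finset.univ t

theorem mem_expo {r t : ℕ} {m : Fin r →₀ ℕ} : m ∈ expo r t ↔ ∑ j, m j = t := by
  simp [expo, Finset.mem_finsuppAntidiag]

namespace Ops

/-- the polynomial `φ_r^*(u)` for a functional `u` on degree `k + t` -/
noncomputable def fpoly (x : H) (r t : ℕ) (u : H →ₗ[ZMod 2] ZMod 2) : MvPolynomial (Fin r) (ZMod 2) :=
  ∑ m ∈ expo r t, MvPolynomial.monomial m (u (O.tw (⇑m) x))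

theorem coeff_fpoly (x : H) (r t : ℕ) (u : H →ₗ[ZMod 2] ZMod 2) (m : Fin r →₀ ℕ) :
    (O.fpoly x r t u).coeff m = if ∑ j, m j = t then u (O.tw (⇑m) x) else 0 := by
  classical
  rw [fpoly, MvPolynomial.coeff_sum]
  simp only [MvPolynomial.coeff_monomial]
  split_ifs with h
  · rw [Finset.sum_eq_single m]
    · simp
    · intro b _ hb; rw [if_neg hb]
    · intro h'; exact absurd (mem_expo.2 h) h'
  · refine Finset.sum_eq_zero fun b hb => ?_
    rw [if_neg]
    rintro rfl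
    exact h (mem_expo.1 hb)

theorem pr_fpoly (x : H) {r t : ℕ} (u : H →ₗ[ZMod 2] ZMod 2) {γ : Gam r} (hγ : γ ∈ homG r t) :
    pr r (O.fpoly x r t u) γ = u (O.phi x r γ) := by
  refine homG_induction (P := fun γ => pr r (O.fpoly x r t u) γ = u (O.phi x r γ)) (by simp) ?_ ?_ hγ
  · intro a b ha hb; simp only [map_add, ha, hb]
  · intro m hm
    rw [pr_single, coeff_fpoly, if_pos hm, phi_single, one_mul]

end Ops

instance homG_finite (r t : ℕ) : Module.Finite (ZMod 2) (homG r t) := by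
  have hfin : ({m : Fin r →₀ ℕ | ∑ j, m j = t} : Set (Fin r →₀ ℕ)).Finite :=
    (expo r t).finite_toSet.subset fun m hm => mem_expo.2 hm
  have : Finite ({m : Fin r →₀ ℕ | ∑ j, m j = t} : Set (Fin r →₀ ℕ)) := hfin
  exact Module.Finite.equiv (Finsupp.supportedEquivFinsupp (M := ZMod 2) (R := ZMod 2)
    {m : Fin r →₀ ℕ | ∑ j, m j = t}).symm

/-- admissible words (entries `0 ≤ i_1 ≤ ... ≤ i_r`) of degree `k + t` on a class of degree `k` -/
def Adm (r k t : ℕ) : Type := {m : Fin r → ℕ // Monotone m ∧ qdeg k m = k + t}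

/-- THE SQUEEZE -/
theorem Ops.squeeze (x : H) (r t k : ℕ) (V : Submodule (ZMod 2) (MvPolynomial (Fin r) (ZMod 2)))
    [Module.Finite (ZMod 2) V] (hV : ∀ u : H →ₗ[ZMod 2] ZMod 2, O.fpoly x r t u ∈ V)
    (hcard : Module.finrank (ZMod 2) V ≤ Nat.card (Adm r k t))
    (hlin : LinearIndependent (ZMod 2) (fun m : Adm r k t => O.qw m.1 x))
    (hmem : ∀ m : Adm r k t, ∃ γ ∈ homG r t, O.phi x r γ = O.qw m.1 x) :
    (∀ γ ∈ homG r t, O.phi x r γ = 0 ↔ ∀ p ∈ V, pr r p γ = 0) ∧
    (homG r t).map (O.phi x r) = Submodule.span (ZMod 2) (Set.range fun m : Adm r k t => O.qw m.1 x) := by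
  set f : homG r t →ₗ[ZMod 2] H := (O.phi x r).domRestrict (homG r t) with hf
  set g : homG r t →ₗ[ZMod 2] Module.Dual (ZMod 2) V :=
    ((LinearMap.flip (pr r)).domRestrict (homG r t)).compr₂ LinearMap.id |>.compl₁₂ LinearMap.id V.subtype
    with hg
  have hgapp : ∀ (γ : homG r t) (p : V), g γ p = pr r (p : MvPolynomial (Fin r) (ZMod 2)) (γ : Gam r) :=
    fun γ p => rfl
  have hker : LinearMap.ker g ≤ LinearMap.ker f := by
    intro γ hγ
    rw [LinearMap.mem_ker] at hγ ⊢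
    refine (Module.forall_dual_apply_eq_zero_iff (ZMod 2) _).1 fun u => ?_
    have := O.pr_fpoly x u γ.2
    rw [← hgapp γ ⟨_, hV u⟩, hγ] at this
    exact this.symm
  have hrange : ∀ m : Adm r k t, O.qw m.1 x ∈ LinearMap.range f := by
    intro m
    obtain ⟨γ, hγ, h⟩ := hmem m
    exact ⟨⟨γ, hγ⟩, h⟩
  have hspan : Submodule.span (ZMod 2) (Set.range fun m : Adm r k t => O.qw m.1 x) ≤ LinearMap.range f :=
    Submodule.span_le.2 (by rintro _ ⟨m, rfl⟩; exact hrange m)
  have hfinA : Finite (Adm r k t) := by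
    have hl : LinearIndependent (ZMod 2) (fun m : Adm r k t => (⟨O.qw m.1 x, hrange m⟩ : LinearMap.range f)) :=
      LinearIndependent.of_comp (LinearMap.range f).subtype hlin
    exact hl.finite
  have := Fintype.ofFinite (Adm r k t)
  have h1 : Module.finrank (ZMod 2) (Submodule.span (ZMod 2) (Set.range fun m : Adm r k t => O.qw m.1 x))
      = Nat.card (Adm r k t) := by
    rw [finrank_span_eq_card hlin, Nat.card_eq_fintype_card]
  have h2 : Nat.card (Adm r k t) ≤ Module.finrank (ZMod 2) (LinearMap.range f) := by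
    rw [← h1]; exact Submodule.finrank_mono hspan
  have h3 : Module.finrank (ZMod 2) (LinearMap.range g) ≤ Module.finrank (ZMod 2) V := by
    refine (Submodule.finrank_le _).trans ?_
    rw [Subspace.dual_finrank_eq]
  have h4 := LinearMap.finrank_range_add_finrank_ker f
  have h5 := LinearMap.finrank_range_add_finrank_ker g
  have h6 : LinearMap.ker g = LinearMap.ker f :=
    Submodule.eq_of_le_of_finrank_le hker (by omega)
  have h7 : Submodule.span (ZMod 2) (Set.range fun m : Adm r k t => O.qw m.1 x) = LinearMap.range f := by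
    refine Submodule.eq_of_le_of_finrank_le hspan ?_
    rw [h1]
    have : Module.finrank (ZMod 2) (LinearMap.ker g) ≤ Module.finrank (ZMod 2) (LinearMap.ker f) := by
      rw [h6]
    omega
  refine ⟨fun γ hγ => ?_, ?_⟩
  · have h8 : (⟨γ, hγ⟩ : homG r t) ∈ LinearMap.ker g ↔ (⟨γ, hγ⟩ : homG r t) ∈ LinearMap.ker f := by rw [h6]
    rw [LinearMap.mem_ker, LinearMap.mem_ker] at h8
    constructor
    · intro h p hp
      have : g ⟨γ, hγ⟩ = 0 := h8.2 h
      rw [← hgapp ⟨γ, hγ⟩ ⟨p, hp⟩, this]; rfl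
    · intro h
      exact h8.1 (LinearMap.ext fun p => h p.1 p.2)
  · rw [h7, hf]
    ext y
    simp only [Submodule.mem_map, LinearMap.mem_range, LinearMap.domRestrict_apply, Subtype.exists,
      exists_prop]

end Crest.Agent.R204.Thm3
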