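import Crest.Agent.R204.Thm3_737
import Crest.Agent.R204.DicksonC_91

/-!
# Row 204, Theorem 3, part b: counting, and the image of `φ_r^*` (owner helper737)
-/

set_option autoImplicit false

namespace Crest.Agent.R204.Thm3

open Finset Crest.Agent.R204.Dickson91

theorem le_of_qdeg {k t : ℕ} : ∀ {r : ℕ} {m : Fin r → ℕ}, qdeg k m = k + t → ∀ j, m j ≤ t := by
  intro r m h j
  rw [qdeg_eq] at h
  have h1 : m j ≤ 2 ^ (j : ℕ) * m j := Nat.le_mul_of_pos_left _ (by positivity)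
  have h2 := Finset.single_le_sum (f := fun j : Fin r => 2 ^ (j : ℕ) * m j)
    (fun _ _ => Nat.zero_le _) (Finset.mem_univ j)
  have h3 : k ≤ 2 ^ r * k := Nat.le_mul_of_pos_left _ (by positivity)
  omega

instance adm_finite (r k t : ℕ) : Finite (Adm r k t) := by
  have h : ({m : Fin r → ℕ | Monotone m ∧ qdeg k m = k + t} : Set (Fin r → ℕ)).Finite :=
    (Set.finite_Iic (fun _ : Fin r => t)).subset fun m hm j => le_of_qdeg hm.2 j
  exact h

theorem geo (a : ℕ → ℕ) (r : ℕ) : ∑ j ∈ range r, 2 ^ j * ∑ l ∈ range (j + 1), a l =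
    ∑ l ∈ range r, a l * (2 ^ r - 2 ^ l) := by
  induction r with
  | zero => simp
  | succ r ih =>
    rw [Finset.sum_range_succ, ih, Finset.sum_range_succ _ r, Finset.sum_range_succ _ r]
    have h : ∀ l ∈ range r, a l * (2 ^ (r + 1) - 2 ^ l) = a l * (2 ^ r - 2 ^ l) + 2 ^ r * a l := by
      intro l hl
      rw [Finset.mem_range] at hl
      have : 2 ^ l ≤ 2 ^ r := Nat.pow_le_pow_right (by norm_num) hl.le
      have h2 : 2 ^ (r + 1) - 2 ^ l = (2 ^ r - 2 ^ l) + 2 ^ r := by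
        rw [pow_succ]; omega
      rw [h2]; ring
    rw [Finset.sum_congr rfl h, Finset.sum_add_distrib, ← Finset.mul_sum]
    have h2 : 2 ^ (r + 1) - 2 ^ r = 2 ^ r := by rw [pow_succ]; omega
    rw [h2]; ring

/-- extension by zero -/
def ext0 {r : ℕ} (a : Fin r → ℕ) (l : ℕ) : ℕ := if h : l < r then a ⟨l, h⟩ else 0

theorem ext0_coe {r : ℕ} (a : Fin r → ℕ) (j : Fin r) : ext0 a j = a j := by
  simp [ext0]

/-- partial sums minus `k` -/
def wordOf (k : ℕ) {r : ℕ} (a : Fin r → ℕ) (j : Fin r) : ℕ := (∑ l ∈ range ((j : ℕ) + 1), ext0 a l) - k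

theorem wordOf_add {k r : ℕ} {a : Fin (r + 1) → ℕ} (h : k ≤ a 0) (j : Fin (r + 1)) :
    wordOf k a j + k = ∑ l ∈ range ((j : ℕ) + 1), ext0 a l := by
  have : a 0 ≤ ∑ l ∈ range ((j : ℕ) + 1), ext0 a l := by
    have : ext0 a 0 ≤ ∑ l ∈ range ((j : ℕ) + 1), ext0 a l :=
      Finset.single_le_sum (f := fun l => ext0 a l) (fun _ _ => Nat.zero_le _)
      (Finset.mem_range.2 (Nat.succ_pos (j : ℕ)))
    have h0 : ext0 a 0 = a 0 := ext0_coe a 0
    omega
  rw [wordOf]
  omega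

theorem wordOf_monotone (k : ℕ) {r : ℕ} (a : Fin r → ℕ) : Monotone (wordOf k a) := by
  intro i j hij
  rw [wordOf, wordOf]
  refine Nat.sub_le_sub_right (Finset.sum_le_sum_of_subset ?_) _
  intro l hl
  rw [Finset.mem_range] at *
  have : (i : ℕ) ≤ j := hij
  omega

theorem qdeg_wordOf {k r : ℕ} {a : Fin (r + 1) → ℕ} (h : k ≤ a 0) :
    qdeg k (wordOf k a) = k + wt a := by
  have h1 : ∑ j : Fin (r + 1), 2 ^ (j : ℕ) * (wordOf k a j + k) = wt a := by
    simp only [wordOf_add h]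
    rw [Fin.sum_univ_eq_sum_range (fun j => 2 ^ j * ∑ l ∈ range (j + 1), ext0 a l) (r + 1), geo,
      ← Fin.sum_univ_eq_sum_range (fun l => ext0 a l * (2 ^ (r + 1) - 2 ^ l)) (r + 1), wt]
    exact Finset.sum_congr rfl fun j _ => by rw [ext0_coe]
  have h2 : ∑ j : Fin (r + 1), 2 ^ (j : ℕ) * (wordOf k a j + k) =
      ∑ j : Fin (r + 1), 2 ^ (j : ℕ) * wordOf k a j + (2 ^ (r + 1) - 1) * k := by
    simp only [mul_add]
    rw [Finset.sum_add_distrib, ← Finset.sum_mul]
    congr 2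
    rw [Fin.sum_univ_eq_sum_range (fun j => 2 ^ j) (r + 1), Nat.geomSum_eq (le_refl 2)]
    simp
  rw [qdeg_eq]
  have h3 : 1 ≤ 2 ^ (r + 1) := Nat.one_le_two_pow
  have h4 : 2 ^ (r + 1) * k = (2 ^ (r + 1) - 1) * k + k := by
    obtain ⟨c, hc⟩ := Nat.exists_eq_add_of_le h3
    rw [hc, Nat.add_sub_cancel_left]; ring
  omega

theorem wordOf_injective {k r : ℕ} {a b : Fin (r + 1) → ℕ} (ha : k ≤ a 0) (hb : k ≤ b 0)
    (h : wordOf k a = wordOf k b) : a = b := by
  have h1 : ∀ n : ℕ, n ≤ r + 1 → ∑ l ∈ range n, ext0 a l = ∑ l ∈ range n, ext0 b l := by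
    intro n hn
    rcases n with _ | n
    · simp
    · have h2 := wordOf_add ha ⟨n, by omega⟩
      have h3 := wordOf_add hb ⟨n, by omega⟩
      rw [h] at h2
      simp only at h2 h3
      omega
  funext j
  have h2 := h1 ((j : ℕ) + 1) (by omega)
  have h3 := h1 (j : ℕ) (by omega)
  rw [Finset.sum_range_succ, Finset.sum_range_succ, h3, ext0_coe, ext0_coe] at h2
  omega

/-- exponents of the degree `t` monomials of `Q_0^k D_{r+1}` -/
def MExp (r k t : ℕ) : Type := {a : Fin (r + 1) → ℕ // k ≤ a 0 ∧ wt a = t}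

def MExp.toAdm {r k t : ℕ} (a : MExp r k t) : Adm (r + 1) k t :=
  ⟨wordOf k a.1, wordOf_monotone _ _, by rw [qdeg_wordOf a.2.1, a.2.2]⟩

theorem MExp.toAdm_injective (r k t : ℕ) : Function.Injective (MExp.toAdm : MExp r k t → Adm (r + 1) k t) := by
  intro a b h
  exact Subtype.ext (wordOf_injective a.2.1 b.2.1 (congrArg Subtype.val h))

instance mexp_finite (r k t : ℕ) : Finite (MExp r k t) :=
  Finite.of_injective _ (MExp.toAdm_injective r k t)

theorem card_mexp_le (r k t : ℕ) : Nat.card (MExp r k t) ≤ Nat.card (Adm (r + 1) k t) :=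
  Nat.card_le_card_of_injective _ (MExp.toAdm_injective r k t)

/-- degree `t` part of `Q_0^k D_{r+1}` inside `F2[x_0..x_r]` -/
noncomputable def MG (r k t : ℕ) : Submodule (ZMod 2) (S (r + 1)) :=
  Submodule.span (ZMod 2) (Set.range fun a : MExp r k t => Qmon a.1)

instance MG_finite (r k t : ℕ) : Module.Finite (ZMod 2) (MG r k t) :=
  Module.Finite.span_of_finite _ (Set.finite_range _)

theorem finrank_MG_le (r k t : ℕ) : Module.finrank (ZMod 2) (MG r k t) ≤ Nat.card (Adm (r + 1) k t) := by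
  have := Fintype.ofFinite (MExp r k t)
  refine (finrank_range_le_card (fun a : MExp r k t => Qmon a.1)).trans ?_
  rw [← Nat.card_eq_fintype_card]
  exact card_mexp_le r k t

end Crest.Agent.R204.Thm3
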