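import Crest.Agent.R204.Thm3b_737
import Crest.Agent.R204.DicksonE_91

/-!
# Row 204, Theorem 3, part c: the image of `φ_r^*` lies in `Q_0^k D_r` (owner helper737)
-/

set_option autoImplicit false

namespace Crest.Agent.R204.Thm3

open Finset MvPolynomial Crest.Agent.R204.Dickson91

theorem coeff_rename_swap {r : ℕ} (i j : Fin r) (f : S r) (m : Fin r →₀ ℕ) :
    coeff m (rename (Equiv.swap i j) f) = coeff (m.mapDomain (Equiv.swap i j)) f := by
  have h : m = (m.mapDomain (Equiv.swap i j)).mapDomain (Equiv.swap i j) := by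
    rw [← Finsupp.mapDomain_comp]
    have : (⇑(Equiv.swap i j) ∘ ⇑(Equiv.swap i j) : Fin r → Fin r) = id := by
      funext a; simp
    rw [this, Finsupp.mapDomain_id]
  conv_lhs => rw [h]
  rw [coeff_rename_mapDomain _ (Equiv.swap i j).injective]

theorem coe_mapDomain_swap {r : ℕ} (i j : Fin r) (m : Fin r →₀ ℕ) :
    (⇑(m.mapDomain (Equiv.swap i j)) : Fin r → ℕ) = ⇑m ∘ Equiv.swap i j := by
  funext a
  have : a = Equiv.swap i j (Equiv.swap i j a) := by simp
  conv_lhs => rw [this]
  rw [Finsupp.mapDomain_apply (Equiv.swap i j).injective]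
  rfl

/-- exponent `m` with `s` units moved from `q` to `p` -/
noncomputable def mvF {r : ℕ} (m : Fin r →₀ ℕ) (p : ℕ) (s : ℕ) : Fin r →₀ ℕ :=
  Finsupp.equivFunOnFinite.symm (Ops.mv (⇑m) p s)

@[simp] theorem coe_mvF {r : ℕ} (m : Fin r →₀ ℕ) (p s : ℕ) : (⇑(mvF m p s) : Fin r → ℕ) = Ops.mv (⇑m) p s := rfl

theorem mv_apply {r : ℕ} (m : Fin r → ℕ) {P Q : Fin r} (h : (Q : ℕ) = P + 1) (s : ℕ) (j : Fin r) :
    Ops.mv m P s j = if j = P then m P + s else if j = Q then m Q - s else m j := by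
  unfold Ops.mv
  by_cases h1 : j = P
  · subst h1; simp
  · have h1' : (j : ℕ) ≠ P := fun h => h1 (Fin.ext h)
    by_cases h2 : j = Q
    · subst h2; rw [if_neg h1', if_neg h1, if_pos h, if_pos rfl]
    · have h2' : (j : ℕ) ≠ P + 1 := fun h' => h2 (Fin.ext (h'.trans h.symm))
      rw [if_neg h1', if_neg h1, if_neg h2', if_neg h2]

theorem sum_mv {r : ℕ} (m : Fin r → ℕ) {P Q : Fin r} (h : (Q : ℕ) = P + 1) (s : ℕ) (hs : s ≤ m Q) :
    ∑ j, Ops.mv m P s j = ∑ j, m j := by
  have hne : P ≠ Q := by rintro rfl; omega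
  have hQ : Q ∈ univ.erase P := Finset.mem_erase.2 ⟨hne.symm, Finset.mem_univ Q⟩
  rw [← Finset.add_sum_erase _ _ (Finset.mem_univ P),
    ← Finset.add_sum_erase _ (fun j => m j) (Finset.mem_univ P),
    ← Finset.add_sum_erase (univ.erase P) _ hQ,
    ← Finset.add_sum_erase (univ.erase P) (fun j => m j) hQ]
  have h1 : ∀ j ∈ (univ.erase P).erase Q, Ops.mv m P s j = m j := by
    intro j hj
    simp only [Finset.mem_erase, Finset.mem_univ, and_true] at hj
    rw [mv_apply m h, if_neg hj.2, if_neg hj.1]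
  rw [Finset.sum_congr rfl h1, mv_apply m h, mv_apply m h, if_pos rfl, if_neg hne.symm, if_pos rfl]
  change m P + s + (m Q - s + ∑ x ∈ (univ.erase P).erase Q, m x) =
    m P + (m Q + ∑ x ∈ (univ.erase P).erase Q, m x)
  omega

theorem tv_monomial {r : ℕ} (p q : Fin r) (a : Fin r →₀ ℕ) :
    tv p q (monomial a (1 : ZMod 2)) = ∑ s ∈ range (a p + 1),
      monomial (Finsupp.single p (a p - s) + Finsupp.single q s + a.erase p)
        (((a p).choose s : ℕ) : ZMod 2) := by
  have h1 : tv p q (monomial a (1 : ZMod 2)) =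
      (X p + X q : S r) ^ (a p) * monomial (a.erase p) 1 := by
    rw [tv, aeval_monomial, map_one, one_mul,
      ← Finsupp.mul_prod_erase' a p _ (fun i => pow_zero _), if_pos rfl, monomial_eq, C_1, one_mul]
    congr 1
    refine Finsupp.prod_congr fun j hj => ?_
    rw [Finsupp.support_erase, Finset.mem_erase] at hj
    rw [if_neg hj.1]
  rw [h1, add_comm (X p), add_pow, Finset.sum_mul]
  refine Finset.sum_congr rfl fun s _ => ?_
  rw [X_pow_eq_monomial, X_pow_eq_monomial, monomial_mul, mul_comm (monomial _ _) (_ : S r),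
    ← map_natCast (C : ZMod 2 →+* S r), C_mul_monomial, monomial_mul, mul_one, mul_one, mul_one,
    add_comm (Finsupp.single q s)]

theorem exp_apply {r : ℕ} (a : Fin r →₀ ℕ) {P Q : Fin r} (hne : P ≠ Q) (s : ℕ) (j : Fin r) :
    (Finsupp.single P (a P - s) + Finsupp.single Q s + a.erase P : Fin r →₀ ℕ) j =
      if j = P then a P - s else if j = Q then s + a Q else a j := by
  rw [Finsupp.add_apply, Finsupp.add_apply]
  by_cases h1 : j = P
  · subst h1
    rw [Finsupp.single_eq_same, Finsupp.single_apply, if_neg hne.symm, Finsupp.erase_same, if_pos rfl]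
    omega
  · rw [Finsupp.single_apply, if_neg (Ne.symm h1), if_neg h1, Finsupp.erase_ne h1]
    by_cases h2 : j = Q
    · subst h2; rw [Finsupp.single_eq_same, if_pos rfl]; omega
    · rw [Finsupp.single_apply, if_neg (Ne.symm h2), if_neg h2]; omega

theorem exp_iff {r : ℕ} (a m : Fin r →₀ ℕ) {P Q : Fin r} (h : (Q : ℕ) = P + 1) (s : ℕ) :
    (Finsupp.single P (a P - s) + Finsupp.single Q s + a.erase P = m ∧ s ≤ a P) ↔
      (a = mvF m P s ∧ s ≤ m Q) := by
  have hne : P ≠ Q := by rintro rfl; omega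
  constructor
  · rintro ⟨h1, hs⟩
    have h2 : ∀ j, m j = if j = P then a P - s else if j = Q then s + a Q else a j := fun j => by
      rw [← h1, exp_apply a hne]
    have hP := h2 P
    have hQ := h2 Q
    rw [if_pos rfl] at hP
    rw [if_neg hne.symm, if_pos rfl] at hQ
    refine ⟨?_, by omega⟩
    ext j
    rw [coe_mvF, mv_apply _ h]
    split_ifs with h3 h4
    · rw [h3]; omega
    · rw [h4]; omega
    · rw [h2 j, if_neg h3, if_neg h4]
  · rintro ⟨h1, hs⟩
    have h2 : ∀ j, a j = if j = P then m P + s else if j = Q then m Q - s else m j := fun j => by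
      rw [h1, coe_mvF, mv_apply _ h]
    have hP := h2 P
    have hQ := h2 Q
    rw [if_pos rfl] at hP
    rw [if_neg hne.symm, if_pos rfl] at hQ
    refine ⟨?_, by omega⟩
    ext j
    rw [exp_apply a hne]
    split_ifs with h3 h4
    · rw [h3]; omega
    · rw [h4]; omega
    · rw [h2 j, if_neg h3, if_neg h4]

theorem coeff_tv {r : ℕ} {P Q : Fin r} (h : (Q : ℕ) = P + 1) (f : S r) (m : Fin r →₀ ℕ) :
    coeff m (tv P Q f) = ∑ s ∈ range (m Q + 1),
      (((m P + s).choose s : ℕ) : ZMod 2) * coeff (mvF m P s) f := by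
  induction f using MvPolynomial.induction_on' with
  | add f g hf hg => rw [map_add, coeff_add, hf, hg, ← Finset.sum_add_distrib]
                     exact Finset.sum_congr rfl fun s _ => by rw [coeff_add, mul_add]
  | monomial a c =>
    have hc : (monomial a c : S r) = c • monomial a 1 := by
      rw [smul_monomial, smul_eq_mul, mul_one]
    rw [hc, map_smul, coeff_smul, tv_monomial, coeff_sum, smul_eq_mul, Finset.mul_sum]
    simp only [coeff_monomial, coeff_smul, smul_eq_mul]
    set N := max (a P + 1) (m Q + 1) with hN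
    have e1 : ∀ s, (if Finsupp.single P (a P - s) + Finsupp.single Q s + a.erase P = m ∧ s ≤ a P then
          (((a P).choose s : ℕ) : ZMod 2) else 0) =
        if a = mvF m P s ∧ s ≤ m Q then (((m P + s).choose s : ℕ) : ZMod 2) else 0 := by
      intro s
      by_cases h1 : a = mvF m P s ∧ s ≤ m Q
      · rw [if_pos h1, if_pos ((exp_iff a m h s).2 h1)]
        have : a P = m P + s := by
          rw [h1.1, coe_mvF, mv_apply _ h, if_pos rfl]
        rw [this]
      · rw [if_neg h1, if_neg (fun h' => h1 ((exp_iff a m h s).1 h'))]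
    have e2 : ∑ s ∈ range (a P + 1), c * (if Finsupp.single P (a P - s) + Finsupp.single Q s +
        a.erase P = m then (((a P).choose s : ℕ) : ZMod 2) else 0) =
        ∑ s ∈ range N, c * (if Finsupp.single P (a P - s) + Finsupp.single Q s + a.erase P = m ∧
          s ≤ a P then (((a P).choose s : ℕ) : ZMod 2) else 0) := by
      refine Finset.sum_subset_zero_on_sdiff (fun s hs => ?_) (fun s hs => ?_) (fun s hs => ?_)
      · rw [Finset.mem_range] at *; omega
      · rw [Finset.mem_sdiff, Finset.mem_range, Finset.mem_range] at hs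
        rw [if_neg (by omega), mul_zero]
      · rw [Finset.mem_range] at hs
        have : s ≤ a P := by omega
        simp only [this, and_true]
    have e3 : ∑ s ∈ range (m Q + 1), (((m P + s).choose s : ℕ) : ZMod 2) *
        (c * if a = mvF m P s then 1 else 0) = ∑ s ∈ range N, c *
        (if a = mvF m P s ∧ s ≤ m Q then (((m P + s).choose s : ℕ) : ZMod 2) else 0) := by
      refine Finset.sum_subset_zero_on_sdiff (fun s hs => ?_) (fun s hs => ?_) (fun s hs => ?_)
      · rw [Finset.mem_range] at *; omega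
      · rw [Finset.mem_sdiff, Finset.mem_range, Finset.mem_range] at hs
        rw [if_neg (by omega), mul_zero]
      · rw [Finset.mem_range] at hs
        have : s ≤ m Q := by omega
        simp only [this, and_true]
        split_ifs <;> ring
    rw [e2, e3]
    exact Finset.sum_congr rfl fun s _ => by rw [e1 s]

variable {H : Type*} [AddCommGroup H] [Module (ZMod 2) H] (O : Ops H)

/-- the polynomial `φ_r^*(u)` is invariant -/
theorem Ops.fpoly_inv (x : H) {r t : ℕ} (ht : t ≤ O.M) (u : H →ₗ[ZMod 2] ZMod 2) :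
    Inv (O.fpoly x r t u) := by
  refine inv_of_adjacent (fun i h => ?_) (fun i h => ?_)
  · ext m
    rw [coeff_rename_swap, O.coeff_fpoly, O.coeff_fpoly, coe_mapDomain_swap]
    have h1 : ∑ j, (⇑m ∘ Equiv.swap i ⟨i + 1, h⟩) j = ∑ j, m j :=
      Equiv.sum_comp (Equiv.swap i ⟨i + 1, h⟩) (⇑m)
    rw [h1]
    split_ifs with h2
    · rw [O.tw_swap (⇑m) (i : ℕ) h (by omega)]
    · rfl
  · ext m
    rw [coeff_tv (P := i) (Q := ⟨i + 1, h⟩) rfl, O.coeff_fpoly]
    have h1 : ∀ s ∈ range (m ⟨i + 1, h⟩ + 1), (((m i + s).choose s : ℕ) : ZMod 2) *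
        coeff (mvF m i s) (O.fpoly x r t u) = if ∑ j, m j = t then
          (((m i + s).choose s : ℕ) : ZMod 2) * u (O.tw (Ops.mv (⇑m) i s) x) else 0 := by
      intro s hs
      rw [Finset.mem_range] at hs
      rw [O.coeff_fpoly, coe_mvF, sum_mv (⇑m) (P := i) (Q := ⟨i + 1, h⟩) rfl s (by omega)]
      split_ifs <;> simp
    rw [Finset.sum_congr rfl h1]
    split_ifs with h2
    · rw [O.tw_trans (⇑m) (i : ℕ) h (by omega), map_sum]
      refine Finset.sum_congr rfl fun s _ => ?_
      rw [map_smul, smul_eq_mul]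
    · simp

theorem Ops.fpoly_homog (x : H) (r t : ℕ) (u : H →ₗ[ZMod 2] ZMod 2) :
    (O.fpoly x r t u).IsHomogeneous t := by
  intro m hm
  rw [O.coeff_fpoly] at hm
  by_contra h
  apply hm
  rw [if_neg]
  intro h'
  apply h
  rw [Finsupp.weight_apply, Finsupp.sum_fintype _ _ (by simp)]
  simpa using h'

theorem X_pow_dvd_of_coeff {r k : ℕ} {f : S (r + 1)} (h : ∀ m, coeff m f ≠ 0 → k ≤ m 0) :
    (X 0 : S (r + 1)) ^ k ∣ f := by
  rw [X_pow_eq_monomial, monomial_one_dvd_iff_modMonomial_eq_zero]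
  ext m
  rw [coeff_zero]
  by_cases hm : Finsupp.single 0 k ≤ m
  · rw [coeff_modMonomial_of_le _ hm]
  · rw [coeff_modMonomial_of_not_le _ hm]
    by_contra h'
    refine hm ?_
    rw [Finsupp.single_le_iff]
    exact h m h'

/-- the polynomial `φ_r^*(u)` lies in the degree `t` part of `Q_0^k D_r` -/
theorem Ops.fpoly_mem {k : ℕ} {x : H} (hx : O.Base k x) {r t : ℕ} (ht : t ≤ O.M)
    (u : H →ₗ[ZMod 2] ZMod 2) : O.fpoly x (r + 1) t u ∈ MG r k t := by
  have h1 : O.fpoly x (r + 1) t u ∈ Mk r k := by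
    rw [mem_Mk_iff_inv]
    refine ⟨O.fpoly_inv x ht u, X_pow_dvd_of_coeff fun m hm => ?_⟩
    rw [O.coeff_fpoly] at hm
    by_contra h
    apply hm
    split_ifs with h2
    · rw [O.T_tw_eq_zero hx (⇑m) (by omega) (by omega), map_zero]
    · rfl
  have h2 := Mk_homog h1 (O.fpoly_homog x (r + 1) t u)
  refine Submodule.span_mono ?_ h2
  rintro _ ⟨a, ha, hw, rfl⟩
  exact ⟨⟨a, ha, hw⟩, rfl⟩

/-- **Theorem 3, one length at a time.** -/
theorem Ops.main {k : ℕ} {x : H} (hx : O.Base k x) {r t : ℕ} (ht : t ≤ O.M)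
    (hlin : LinearIndependent (ZMod 2) (fun m : Adm (r + 1) k t => O.qw m.1 x)) :
    (∀ γ ∈ homG (r + 1) t, O.phi x (r + 1) γ = 0 ↔ ∀ p ∈ MG r k t, pr (r + 1) p γ = 0) ∧
    (homG (r + 1) t).map (O.phi x (r + 1)) =
      Submodule.span (ZMod 2) (Set.range fun m : Adm (r + 1) k t => O.qw m.1 x) :=
  O.squeeze x (r + 1) t k (MG r k t) (fun u => O.fpoly_mem hx ht u) (finrank_MG_le r k t) hlin
    (fun m => O.qw_mem hx m.1 m.2.2 ht)

end Crest.Agent.R204.Thm3
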