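import Crest.Agent.R204.Thm3c_737

/-!
# Row 204, Theorem 3, part d: `Sq^a` on `F2[x_1..x_r]` is adjoint to `sqG a` (owner helper737)
-/

set_option autoImplicit false

namespace Crest.Agent.R204.Thm3

open Finset MvPolynomial Crest.Agent.R204.Dickson91

theorem pr_single_one {r : ℕ} (p : S r) (m : Fin r →₀ ℕ) :
    pr r p (Finsupp.single m 1) = coeff m p := by rw [pr_single, one_mul]

/-- `X_0^i * p'` -/
noncomputable def cm {r : ℕ} (i : ℕ) (p : S r) : S (r + 1) := X 0 ^ i * rename Fin.succ p

theorem cm_monomial {r : ℕ} (i : ℕ) (a : Fin r →₀ ℕ) (c : ZMod 2) :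
    cm i (monomial a c) = monomial (Finsupp.cons i a) c := by
  have h : Finsupp.single (0 : Fin (r + 1)) i + Finsupp.mapDomain Fin.succ a = Finsupp.cons i a := by
    ext j
    refine Fin.cases ?_ (fun j => ?_) j
    · rw [Finsupp.add_apply, Finsupp.single_eq_same, Finsupp.cons_zero,
        Finsupp.mapDomain_notin_range _ _ (by simp [Fin.succ_ne_zero])]
      rfl
    · rw [Finsupp.add_apply, Finsupp.single_apply, if_neg (Fin.succ_ne_zero j).symm,
        Finsupp.mapDomain_apply (Fin.succ_injective r), Finsupp.cons_succ, zero_add]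
  rw [cm, rename_monomial, X_pow_eq_monomial, monomial_mul, one_mul, h]

theorem coeff_cm {r : ℕ} (i j : ℕ) (p : S r) (m : Fin r →₀ ℕ) :
    coeff (Finsupp.cons j m) (cm i p) = if i = j then coeff m p else 0 := by
  induction p using MvPolynomial.induction_on' with
  | add f g hf hg =>
    have : cm i (f + g) = cm i f + cm i g := by simp [cm, mul_add]
    rw [this, coeff_add, hf, hg, coeff_add]
    split_ifs <;> simp
  | monomial a c =>
    rw [cm_monomial, coeff_monomial, coeff_monomial]
    by_cases h : i = j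
    · subst h
      simp only [if_true]
      by_cases h2 : a = m
      · subst h2; simp
      · rw [if_neg h2, if_neg]
        intro h3
        apply h2
        rw [← Finsupp.tail_cons i a, h3, Finsupp.tail_cons]
    · rw [if_neg h, if_neg]
      intro h3
      apply h
      rw [← Finsupp.cons_zero i a, h3, Finsupp.cons_zero]

theorem pr_cm_consG {r : ℕ} (i j : ℕ) (p : S r) (γ : Gam r) :
    pr (r + 1) (cm i p) (consG j γ) = if i = j then pr r p γ else 0 := by
  induction γ using Finsupp.induction_linear with
  | zero => simp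
  | add f g hf hg =>
    rw [map_add, map_add, hf, hg, map_add]
    split_ifs <;> simp
  | single m c =>
    rw [consG_single, pr_single, pr_single, coeff_cm]
    split_ifs <;> simp

theorem sqT_rename {σ τ : Type*} (f : σ → τ) (p : MvPolynomial σ (ZMod 2)) :
    sqT (rename f p) = Polynomial.mapAlgHom (rename f : MvPolynomial σ (ZMod 2) →ₐ[ZMod 2]
      MvPolynomial τ (ZMod 2)) (sqT p) := by
  have h : sqT.comp (rename f : MvPolynomial σ (ZMod 2) →ₐ[ZMod 2] MvPolynomial τ (ZMod 2)) =
      (Polynomial.mapAlgHom (rename f)).comp sqT := by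
    apply MvPolynomial.algHom_ext
    intro i
    simp [sqT_X]
  exact DFunLike.congr_fun h p

theorem Sq_rename {σ τ : Type*} (f : σ → τ) (a : ℕ) (p : MvPolynomial σ (ZMod 2)) :
    Sq a (rename f p) = rename f (Sq a p) := by
  rw [Sq_apply, Sq_apply, sqT_rename, Polynomial.coe_mapAlgHom, Polynomial.coeff_map]
  rfl

theorem Sq_X_pow {σ : Type*} (i : σ) (n b : ℕ) :
    Sq b ((X i : MvPolynomial σ (ZMod 2)) ^ n) = ((n.choose b : ℕ) : ZMod 2) • X i ^ (n + b) := by
  rw [Sq_apply, map_pow, sqT_X]
  have h : (Polynomial.C (X i : MvPolynomial σ (ZMod 2)) + Polynomial.X * Polynomial.C (X i) ^ 2) =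
      Polynomial.C (X i) * (1 + Polynomial.C (X i) * Polynomial.X) := by ring
  rw [h, mul_pow, ← Polynomial.C_pow, Polynomial.coeff_C_mul, add_comm (1 : Polynomial _), add_pow,
    Polynomial.finsetSum_coeff]
  have h2 : ∀ j ∈ range (n + 1), ((Polynomial.C (X i : MvPolynomial σ (ZMod 2)) * Polynomial.X) ^ j *
      1 ^ (n - j) * ((n.choose j : ℕ) : Polynomial (MvPolynomial σ (ZMod 2)))).coeff b =
      if j = b then (X i : MvPolynomial σ (ZMod 2)) ^ b * ((n.choose b : ℕ) : MvPolynomial σ (ZMod 2))
        else 0 := by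
    intro j _
    rw [one_pow, mul_one, mul_pow, ← Polynomial.C_pow, ← Polynomial.C_eq_natCast, mul_assoc,
      Polynomial.coeff_C_mul, Polynomial.coeff_mul_C, Polynomial.coeff_X_pow]
    by_cases h : j = b
    · subst h; simp
    · rw [if_neg h, if_neg (Ne.symm h)]; simp
  rw [Finset.sum_congr rfl h2]
  by_cases hb : b ≤ n
  · rw [Finset.sum_ite_eq' , if_pos (Finset.mem_range.2 (by omega)), Algebra.smul_def, map_natCast]
    ring
  · rw [Finset.sum_eq_zero, mul_zero, Nat.choose_eq_zero_of_lt (by omega)]
    · simp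
    intro j hj
    rw [Finset.mem_range] at hj
    rw [if_neg (by omega)]

theorem Sq_cm {r : ℕ} (a i : ℕ) (p : S r) : Sq a (cm i p) = ∑ b ∈ range (a + 1),
    ((i.choose b : ℕ) : ZMod 2) • cm (i + b) (Sq (a - b) p) := by
  rw [cm, Sq_mul, Finset.Nat.sum_antidiagonal_eq_sum_range_succ (fun b c => Sq b ((X 0 : S (r + 1)) ^ i) *
    Sq c (rename Fin.succ p))]
  refine Finset.sum_congr rfl fun b _ => ?_
  rw [Sq_X_pow, Sq_rename, cm, smul_mul_assoc]

/-- `⟨p, Sq^a_* γ⟩ = ⟨Sq^a p, γ⟩` -/
theorem pr_sqG : ∀ {r : ℕ} (a : ℕ) (p : S r) (γ : Gam r), pr r p (sqG r a γ) = pr r (Sq a p) γ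
  | 0, a, p, γ => by
    have hp : ∃ c : ZMod 2, p = C c := ⟨coeff 0 p, MvPolynomial.eq_C_of_isEmpty p⟩
    obtain ⟨c, rfl⟩ := hp
    rw [sqG_zero_apply]
    have h1 : sqT (C c : S 0) = Polynomial.C (C c) := by
      have h1 : (C c : S 0) = algebraMap (ZMod 2) _ c := rfl
      rw [h1, AlgHom.commutes]
      rfl
    rw [Sq_apply, h1, Polynomial.coeff_C]
    split_ifs <;> simp
  | r + 1, a, p, γ => by
    induction p using MvPolynomial.induction_on' with
    | add f g hf hg => simp only [map_add, LinearMap.add_apply, hf, hg]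
    | monomial e c =>
      have he : (monomial e c : S (r + 1)) = cm (e 0) (monomial (Finsupp.tail e) c) := by
        rw [cm_monomial, Finsupp.cons_tail]
      rw [he]
      generalize (monomial (Finsupp.tail e) c : S r) = q
      generalize e 0 = i
      induction γ using Finsupp.induction_linear with
      | zero => simp
      | add f g hf hg => simp only [map_add, hf, hg]
      | single m c' =>
        have hc : (Finsupp.single m c' : Gam (r + 1)) = c' • Finsupp.single m 1 := by
          rw [Finsupp.smul_single, smul_eq_mul, mul_one]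
        rw [hc, map_smul, map_smul, map_smul]
        congr 1
        rw [sqG_single_succ, map_sum, Sq_cm, map_sum, LinearMap.sum_apply]
        refine Finset.sum_congr rfl fun b hb => ?_
        rw [Finset.mem_range] at hb
        have hm : (Finsupp.single m 1 : Gam (r + 1)) = consG (m 0) (Finsupp.single (Finsupp.tail m) 1) := by
          rw [consG_single, Finsupp.cons_tail]
        rw [hm, map_smul, LinearMap.smul_apply, pr_cm_consG]
        by_cases h2 : 2 * b ≤ m 0
        · rw [if_pos h2, map_smul, pr_cm_consG, pr_sqG]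
          by_cases h3 : i + b = m 0
          · have h4 : i = m 0 - b := by omega
            rw [if_pos h3, if_pos h4, ← h4]
          · rw [if_neg h3, if_neg (by omega), smul_zero, smul_zero]
        · rw [if_neg h2, map_zero]
          by_cases h3 : i + b = m 0
          · rw [Nat.choose_eq_zero_of_lt (by omega : i < b), Nat.cast_zero, zero_smul]
          · rw [if_neg h3, smul_zero]

end Crest.Agent.R204.Thm3
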