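import Crest.Agent.R204.Thm3d_737
import Crest.Agent.R204.DickInst_91

/-!
# Row 204, Theorem 3, part e: the component maps `comp k r`, `c0` of the spine (owner helper737)
-/

set_option autoImplicit false

namespace Crest.Agent.R204.Thm3

open Finset MvPolynomial Crest.Agent.R204.Dickson91 Crest.Agent.R204.DickInst91

/-- the functional `g ↦ ⟨g, γ⟩` on `M r k` -/
noncomputable def Psi (r k : ℕ) : Gam (r + 1) →ₗ[ZMod 2] (Spine693.M r k →ₗ[ZMod 2] ZMod 2) :=
  LinearMap.flip ((pr (r + 1)) ∘ₗ (real (r + 1)).toLinearMap ∘ₗ (Spine693.M r k).subtype)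

theorem Psi_apply {r k : ℕ} (γ : Gam (r + 1)) (g : Spine693.M r k) :
    Psi r k γ g = pr (r + 1) (real (r + 1) (g : Spine693.D (r + 1))) γ := rfl

theorem Psi_inc {r k : ℕ} (γ : Gam (r + 1)) : Psi r (k + 1) γ = Psi r k γ ∘ₗ Spine693.inc r k := rfl

theorem pr_homog {r t j : ℕ} {p : S r} (hp : p.IsHomogeneous j) (hj : j ≠ t) {γ : Gam r}
    (hγ : γ ∈ homG r t) : pr r p γ = 0 := by
  refine homG_induction (P := fun γ => pr r p γ = 0) (by simp) ?_ ?_ hγ
  · intro a b ha hb; rw [map_add, ha, hb, add_zero]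
  · intro m hm
    rw [pr_single_one]
    by_contra h
    apply hj
    rw [← hp h, ← hm, Finsupp.weight_apply, Finsupp.sum_fintype _ _ (by simp)]
    simp

theorem Psi_conc {r k t j : ℕ} {γ : Gam (r + 1)} (hγ : γ ∈ homG (r + 1) t) (g : Spine693.M r k)
    (hg : IsWeightedHomogeneous (Spine693.wt r) (g : Spine693.D (r + 1)) j) (hj : j ≠ t) :
    Psi r k γ g = 0 := by
  rw [Psi_apply]
  exact pr_homog (real_homog hg) hj hγ

theorem Psi_sqG {r k : ℕ} (a : ℕ) (γ : Gam (r + 1)) :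
    Psi r k (sqG (r + 1) a γ) = Psi r k γ ∘ₗ dick.SqM r k a := by
  ext g
  rw [LinearMap.comp_apply, Psi_apply, Psi_apply, pr_sqG]
  have : (((dick.SqM r k a) g : Spine693.M r k) : Spine693.D (r + 1)) =
      FA550.Sq (r + 1) a (g : Spine693.D (r + 1)) := rfl
  rw [this, real_Sq]

theorem Psi_eq_zero_iff {r k t : ℕ} {γ : Gam (r + 1)} (hγ : γ ∈ homG (r + 1) t) :
    Psi r k γ = 0 ↔ ∀ p ∈ MG r k t, pr (r + 1) p γ = 0 := by
  constructor
  · intro h p hp
    induction hp using Submodule.span_induction with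
    | mem x hx =>
      obtain ⟨a, rfl⟩ := hx
      have hm : (monomial (Finsupp.equivFunOnFinite.symm a.1) 1 : Spine693.D (r + 1)) ∈ Spine693.M r k := by
        rw [M_eq_span]
        exact Submodule.subset_span ⟨_, a.2.1, rfl⟩
      have h2 : Psi r k γ ⟨_, hm⟩ = 0 := by rw [h]; rfl
      rw [Psi_apply] at h2
      have h3 : real (r + 1) (monomial (Finsupp.equivFunOnFinite.symm a.1) 1) = Qmon a.1 :=
        real_monomial _
      simp only [h3] at h2
      exact h2
    | zero => simp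
    | add x y _ _ hx hy => rw [map_add, LinearMap.add_apply, hx, hy, add_zero]
    | smul c x _ hx => rw [map_smul, LinearMap.smul_apply, hx, smul_zero]
  · intro h
    ext g
    rw [Psi_apply, LinearMap.zero_apply]
    have hg : real (r + 1) (g : Spine693.D (r + 1)) ∈ Mk r k := (mem_M_iff _).1 g.2
    rw [Mk] at hg
    generalize real (r + 1) (g : Spine693.D (r + 1)) = f at hg ⊢
    induction hg using Submodule.span_induction with
    | mem x hx =>
      obtain ⟨a, ha, rfl⟩ := hx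
      by_cases hw : wt a = t
      · exact h _ (Submodule.subset_span ⟨⟨a, ha, hw⟩, rfl⟩)
      · exact pr_homog (Qmon_homog a) hw hγ
    | zero => simp
    | add x y _ _ hx hy => rw [map_add, LinearMap.add_apply, hx, hy, add_zero]
    | smul c x _ hx => rw [map_smul, LinearMap.smul_apply, hx, smul_zero]

/-- prescribing a linear map on a linearly independent family -/
theorem exists_ext {ι H V : Type*} [AddCommGroup H] [Module (ZMod 2) H] [AddCommGroup V]
    [Module (ZMod 2) V] {v : ι → H} (hv : LinearIndependent (ZMod 2) v) (f : ι → V) :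
    ∃ g : H →ₗ[ZMod 2] V, ∀ i, g (v i) = f i := by
  obtain ⟨g, hg⟩ := LinearMap.exists_extend ((Finsupp.linearCombination (ZMod 2) f) ∘ₗ
    (hv.repr : Submodule.span (ZMod 2) (Set.range v) →ₗ[ZMod 2] (ι →₀ ZMod 2)))
  refine ⟨g, fun i => ?_⟩
  have h1 := LinearMap.congr_fun hg ⟨v i, Submodule.subset_span ⟨i, rfl⟩⟩
  rw [LinearMap.comp_apply, Submodule.subtype_apply] at h1
  rw [h1, LinearMap.comp_apply]
  have h2 : hv.repr ⟨v i, Submodule.subset_span ⟨i, rfl⟩⟩ = Finsupp.single i 1 := hv.repr_eq_single i _ rfl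
  have h3 : (hv.repr : Submodule.span (ZMod 2) (Set.range v) →ₗ[ZMod 2] (ι →₀ ZMod 2))
    ⟨v i, Submodule.subset_span ⟨i, rfl⟩⟩ = Finsupp.single i 1 := h2
  rw [h3, Finsupp.linearCombination_single, one_smul]

/-- all admissible words (entries `≥ 0`, all lengths) of degree `≤ k + D` on a class of degree `k` -/
abbrev WI (k D : ℕ) : Type := {w : Σ r : ℕ, (Fin r → ℕ) // Monotone w.2 ∧ qdeg k w.2 ≤ k + D}

variable {H : Type*} [AddCommGroup H] [Module (ZMod 2) H]

/-- the input for Theorem 3 at one stage `k` -/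
structure Stage (O : Ops H) (k : ℕ) (x : H) (D : ℕ) : Prop where
  base : O.Base k x
  hD : D ≤ O.M
  lin : LinearIndependent (ZMod 2) (fun w : WI k D => O.qw w.1.2 x)

/-- span of the admissible words of degree `k + t` -/
def Wsp (O : Ops H) (k : ℕ) (x : H) (t : ℕ) : Submodule (ZMod 2) H :=
  Submodule.span (ZMod 2) {y | ∃ (r : ℕ) (m : Fin r → ℕ), Monotone m ∧ qdeg k m = k + t ∧ y = O.qw m x}

theorem qw_len_zero {O : Ops H} {x : H} (w : Σ r : ℕ, (Fin r → ℕ)) (h : w.1 = 0) : O.qw w.2 x = x := by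
  obtain ⟨r, m⟩ := w
  obtain rfl : r = 0 := h
  rfl

namespace Stage

variable {O : Ops H} {k : ℕ} {x : H} {D : ℕ} (S : Stage O k x D)

include S

theorem lin' (r t : ℕ) (ht : t ≤ D) : LinearIndependent (ZMod 2) (fun m : Adm r k t => O.qw m.1 x) := by
  have h := S.lin.comp (fun m : Adm r k t => (⟨⟨r, m.1⟩, m.2.1, by rw [m.2.2]; omega⟩ : WI k D)) (by
    intro a b hab
    have h1 := congrArg Subtype.val hab
    simp only [Sigma.mk.injEq, heq_eq_eq, true_and] at h1
    exact Subtype.ext h1)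
  exact h

theorem main (r t : ℕ) (ht : t ≤ D) :
    (∀ γ ∈ homG (r + 1) t, O.phi x (r + 1) γ = 0 ↔ Psi r k γ = 0) ∧
    (homG (r + 1) t).map (O.phi x (r + 1)) =
      Submodule.span (ZMod 2) (Set.range fun m : Adm (r + 1) k t => O.qw m.1 x) := by
  have h := O.main S.base (r := r) (t := t) (ht.trans S.hD) (S.lin' (r + 1) t ht)
  refine ⟨fun γ hγ => ?_, h.2⟩
  rw [h.1 γ hγ, Psi_eq_zero_iff hγ]

/-- a chosen representative in `Gam r` of an admissible word of length `r` -/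
theorem exists_gam {r : ℕ} (m : Fin r → ℕ) (hm : qdeg k m ≤ k + D) :
    ∃ γ ∈ homG r (qdeg k m - k), O.phi x r γ = O.qw m x := by
  have hk : k ≤ qdeg k m := by
    rw [qdeg_eq]
    have : k ≤ 2 ^ r * k := Nat.le_mul_of_pos_left _ (by positivity)
    omega
  exact O.qw_mem S.base m (by omega) (by have := S.hD; omega)

omit S in
/-- the value of `comp r` on a word -/
noncomputable def sec (O : Ops H) (k : ℕ) (x : H) (r : ℕ) (w : Σ r : ℕ, (Fin r → ℕ)) : Gam r :=
  open Classical in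
  if h : w.1 = r ∧ ∃ γ ∈ homG w.1 (qdeg k w.2 - k), O.phi x w.1 γ = O.qw w.2 x then
    h.1 ▸ h.2.choose else 0

omit S in
theorem sec_of_ne {r r' : ℕ} (h : r' ≠ r) (m : Fin r' → ℕ) : sec O k x r ⟨r', m⟩ = 0 := by
  rw [sec, dif_neg]
  exact fun h' => h h'.1

theorem sec_spec {r : ℕ} (m : Fin r → ℕ) (hm : qdeg k m ≤ k + D) :
    sec O k x r ⟨r, m⟩ ∈ homG r (qdeg k m - k) ∧ O.phi x r (sec O k x r ⟨r, m⟩) = O.qw m x := by
  have h : ∃ γ ∈ homG r (qdeg k m - k), O.phi x r γ = O.qw m x := S.exists_gam m hm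
  have h2 : sec O k x r ⟨r, m⟩ = h.choose := by
    rw [sec, dif_pos ⟨rfl, h⟩]
  rw [h2]
  exact h.choose_spec

theorem exists_comp (r : ℕ) : ∃ g : H →ₗ[ZMod 2] (Spine693.M r k →ₗ[ZMod 2] ZMod 2),
    ∀ w : WI k D, g (O.qw w.1.2 x) = Psi r k (sec O k x (r + 1) w.1) :=
  exists_ext S.lin _

theorem exists_c0 : ∃ g : H →ₗ[ZMod 2] ZMod 2, ∀ w : WI k D, g (O.qw w.1.2 x) =
    if w.1.1 = 0 then 1 else 0 :=
  exists_ext S.lin _

/-- the length `r + 1` component as a functional on `Q_0^k D_{r+1}` -/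
noncomputable def comp (r : ℕ) : H →ₗ[ZMod 2] (Spine693.M r k →ₗ[ZMod 2] ZMod 2) :=
  (S.exists_comp r).choose

/-- the coefficient of `x` -/
noncomputable def c0 : H →ₗ[ZMod 2] ZMod 2 := S.exists_c0.choose

theorem comp_word (r : ℕ) {r' : ℕ} (m : Fin r' → ℕ) (hm : Monotone m) (hd : qdeg k m ≤ k + D) :
    S.comp r (O.qw m x) = Psi r k (sec O k x (r + 1) ⟨r', m⟩) :=
  (S.exists_comp r).choose_spec ⟨⟨r', m⟩, hm, hd⟩

theorem c0_word {r' : ℕ} (m : Fin r' → ℕ) (hm : Monotone m) (hd : qdeg k m ≤ k + D) :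
    S.c0 (O.qw m x) = if r' = 0 then 1 else 0 :=
  S.exists_c0.choose_spec ⟨⟨r', m⟩, hm, hd⟩

theorem comp_x (r : ℕ) : S.comp r x = 0 := by
  have h := S.comp_word r (r' := 0) (fun i => i.elim0) (fun i => i.elim0) (by simp)
  rw [sec_of_ne (by omega), map_zero] at h
  exact h

theorem c0_x : S.c0 x = 1 := S.c0_word (r' := 0) (fun i => i.elim0) (fun i => i.elim0) (by simp)

/-- the fundamental property of the component maps -/
theorem comp_phi {r t : ℕ} (ht : t ≤ D) {γ : Gam (r + 1)} (hγ : γ ∈ homG (r + 1) t) :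
    S.comp r (O.phi x (r + 1) γ) = Psi r k γ ∧ (∀ r', r' ≠ r → S.comp r' (O.phi x (r + 1) γ) = 0) ∧
      S.c0 (O.phi x (r + 1) γ) = 0 := by
  have hm := S.main r t ht
  have key : ∀ y ∈ Submodule.span (ZMod 2) (Set.range fun m : Adm (r + 1) k t => O.qw m.1 x),
      ∃ γ' ∈ homG (r + 1) t, O.phi x (r + 1) γ' = y ∧ S.comp r y = Psi r k γ' ∧
        (∀ r', r' ≠ r → S.comp r' y = 0) ∧ S.c0 y = 0 := by
    intro y hy
    induction hy using Submodule.span_induction with
    | mem y hy =>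
      obtain ⟨m, rfl⟩ := hy
      have hd : qdeg k m.1 ≤ k + D := by rw [m.2.2]; omega
      obtain ⟨h1, h2⟩ := S.sec_spec m.1 hd
      have h3 : qdeg k m.1 - k = t := by rw [m.2.2]; omega
      rw [h3] at h1
      refine ⟨_, h1, h2, S.comp_word r m.1 m.2.1 hd, fun r' hr' => ?_, ?_⟩
      · rw [S.comp_word r' m.1 m.2.1 hd, sec_of_ne (by omega), map_zero]
      · rw [S.c0_word m.1 m.2.1 hd, if_neg (by omega)]
    | zero => exact ⟨0, Submodule.zero_mem _, by simp, by simp, by simp, by simp⟩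
    | add y z _ _ hy hz =>
      obtain ⟨g1, a1, b1, c1, d1, e1⟩ := hy
      obtain ⟨g2, a2, b2, c2, d2, e2⟩ := hz
      exact ⟨g1 + g2, Submodule.add_mem _ a1 a2, by rw [map_add, b1, b2], by rw [map_add, map_add, c1, c2],
        fun r' hr' => by rw [map_add, d1 r' hr', d2 r' hr', add_zero], by rw [map_add, e1, e2, add_zero]⟩
    | smul c y _ hy =>
      obtain ⟨g1, a1, b1, c1, d1, e1⟩ := hy
      exact ⟨c • g1, Submodule.smul_mem _ _ a1, by rw [map_smul, b1], by rw [map_smul, map_smul, c1],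
        fun r' hr' => by rw [map_smul, d1 r' hr', smul_zero], by rw [map_smul, e1, smul_zero]⟩
  obtain ⟨γ', h1, h2, h3, h4, h5⟩ := key (O.phi x (r + 1) γ) (by
    rw [← hm.2]; exact Submodule.mem_map_of_mem hγ)
  refine ⟨?_, h4, h5⟩
  rw [h3]
  have h6 : Psi r k (γ' - γ) = 0 := by
    rw [← hm.1 _ (Submodule.sub_mem _ h1 hγ), map_sub, h2, sub_self]
  rw [map_sub, sub_eq_zero] at h6
  exact h6

/-- every word in degree `≤ k + D` is `x` or some `φ_{r+1} γ` -/
theorem word_cases {r t : ℕ} (m : Fin r → ℕ) (hd : qdeg k m = k + t) (ht : t ≤ D) :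
    (t = 0 ∧ O.qw m x = x ∧ r = 0) ∨ ∃ r', r = r' + 1 ∧ ∃ γ ∈ homG (r' + 1) t,
      O.qw m x = O.phi x (r' + 1) γ := by
  rcases r with _ | r
  · left
    rw [qdeg_zero] at hd
    exact ⟨by omega, rfl, rfl⟩
  · right
    refine ⟨r, rfl, ?_⟩
    obtain ⟨γ, h1, h2⟩ := O.qw_mem S.base m hd (ht.trans S.hD)
    exact ⟨γ, h1, h2.symm⟩

/-- induction principle for `Wsp` -/
theorem wsp_induction {t : ℕ} (ht : t ≤ D) {P : H → Prop} (h0 : P 0) (hadd : ∀ a b, P a → P b → P (a + b))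
    (hx : t = 0 → P x) (hphi : ∀ r, ∀ γ ∈ homG (r + 1) t, P (O.phi x (r + 1) γ))
    {y : H} (hy : y ∈ Wsp O k x t) : P y := by
  rw [Wsp] at hy
  induction hy using Submodule.span_induction with
  | mem y hy =>
    obtain ⟨r, m, hm, hd, rfl⟩ := hy
    rcases S.word_cases m hd ht with ⟨h1, h2, _⟩ | ⟨r', rfl, γ, hγ, h⟩
    · rw [h2]; exact hx h1
    · rw [h]; exact hphi r' γ hγ
  | zero => exact h0
  | add a b _ _ ha hb => exact hadd a b ha hb
  | smul c a _ ha =>
    have : c = 0 ∨ c = 1 := by revert c; decide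
    rcases this with rfl | rfl
    · simpa using h0
    · simpa using ha

/-- (T3) `comp_Sq` -/
theorem comp_Sq {t : ℕ} (ht : t ≤ D) {y : H} (hy : y ∈ Wsp O k x t) (r a : ℕ) :
    S.comp r (O.Sq a y) = S.comp r y ∘ₗ dick.SqM r k a := by
  refine S.wsp_induction ht (P := fun y => S.comp r (O.Sq a y) = S.comp r y ∘ₗ dick.SqM r k a)
    (by simp) ?_ ?_ ?_ hy
  · intro y z hy hz; rw [map_add, map_add, map_add, hy, hz, LinearMap.add_comp]
  · intro _
    rcases Nat.eq_zero_or_pos a with rfl | ha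
    · rw [O.Sq_zero, S.comp_x]; simp
    · rw [S.base.sq a ha, map_zero, S.comp_x]; simp
  · intro r' γ hγ
    rw [← O.phi_sqG S.base.sq (ht.trans S.hD) hγ]
    have h1 := S.comp_phi (t := t - a) (by omega) (sqG_mem (a := a) hγ)
    have h2 := S.comp_phi ht hγ
    by_cases h : r = r'
    · subst h
      rw [h1.1, h2.1, Psi_sqG]
    · rw [h1.2.1 r h, h2.2.1 r h, LinearMap.zero_comp]

/-- (T3) `c0_Sq` -/
theorem c0_Sq {t : ℕ} (ht : t ≤ D) {y : H} (hy : y ∈ Wsp O k x t) {a : ℕ} (ha : 1 ≤ a) :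
    S.c0 (O.Sq a y) = 0 := by
  refine S.wsp_induction ht (P := fun y => S.c0 (O.Sq a y) = 0) (by simp) ?_ ?_ ?_ hy
  · intro y z hy hz; rw [map_add, map_add, hy, hz, add_zero]
  · intro _
    rw [S.base.sq a ha, map_zero]
  · intro r' γ hγ
    rw [← O.phi_sqG S.base.sq (ht.trans S.hD) hγ]
    exact (S.comp_phi (t := t - a) (by omega) (sqG_mem (a := a) hγ)).2.2

/-- (T3) `comp_deg` -/
theorem comp_deg {t : ℕ} (ht : t ≤ D) {y : H} (hy : y ∈ Wsp O k x t) {r j : ℕ} (g : Spine693.M r k)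
    (hg : IsWeightedHomogeneous (Spine693.wt r) (g : Spine693.D (r + 1)) j) (hj : j ≠ t) :
    S.comp r y g = 0 := by
  refine S.wsp_induction ht (P := fun y => S.comp r y g = 0) (by simp) ?_ ?_ ?_ hy
  · intro y z hy hz; rw [map_add, LinearMap.add_apply, hy, hz, add_zero]
  · intro _
    rw [S.comp_x]; rfl
  · intro r' γ hγ
    have h2 := S.comp_phi ht hγ
    by_cases h : r = r'
    · subst h
      rw [h2.1]
      exact Psi_conc hγ g hg hj
    · rw [h2.2.1 r h]; rfl

/-- (T3) `c0_deg` -/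
theorem c0_deg {t : ℕ} (ht : t ≤ D) {y : H} (hy : y ∈ Wsp O k x t) (h0 : t ≠ 0) : S.c0 y = 0 := by
  refine S.wsp_induction ht (P := fun y => S.c0 y = 0) (by simp) ?_ ?_ ?_ hy
  · intro y z hy hz; rw [map_add, hy, hz, add_zero]
  · intro h; exact absurd h h0
  · intro r' γ hγ
    exact (S.comp_phi ht hγ).2.2

/-- (T3) `comp_inj` -/
theorem comp_inj {t : ℕ} (ht : t ≤ D) {y : H} (hy : y ∈ Wsp O k x t) (h0 : S.c0 y = 0)
    (hr : ∀ r, S.comp r y = 0) : y = 0 := by
  classical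
  have hy' : y ∈ Submodule.span (ZMod 2) (Set.range fun w : {w : WI k D // qdeg k w.1.2 = k + t} =>
      O.qw w.1.1.2 x) := by
    refine Submodule.span_mono ?_ hy
    rintro _ ⟨r, m, hm, hd, rfl⟩
    exact ⟨⟨⟨⟨r, m⟩, hm, by rw [hd]; omega⟩, hd⟩, rfl⟩
  rw [Finsupp.mem_span_range_iff_exists_finsupp] at hy'
  obtain ⟨c, hc⟩ := hy'
  have hlin : LinearIndependent (ZMod 2) (fun w : {w : WI k D // qdeg k w.1.2 = k + t} =>
      O.qw w.1.1.2 x) := S.lin.comp Subtype.val Subtype.val_injective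
  suffices hc0 : c = 0 by rw [← hc, hc0]; simp
  ext w0
  rw [Finsupp.zero_apply]
  obtain ⟨⟨⟨r0, m0⟩, hm0, hd0⟩, he0⟩ := w0
  -- the part of length `r0`
  have hfilt : ∑ w ∈ c.support.filter (fun w => w.1.1.1 = r0), c w • O.qw w.1.1.2 x = 0 := by
    rcases r0 with _ | r
    · -- length zero
      have h1 : ∑ w ∈ c.support.filter (fun w => w.1.1.1 = 0), c w • O.qw w.1.1.2 x =
          (∑ w ∈ c.support.filter (fun w => w.1.1.1 = 0), c w) • x := by
        rw [Finset.sum_smul]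
        refine Finset.sum_congr rfl fun w hw => ?_
        rw [qw_len_zero _ (Finset.mem_filter.1 hw).2]
      have h2 : S.c0 y = ∑ w ∈ c.support.filter (fun w => w.1.1.1 = 0), c w := by
        rw [← hc, Finsupp.sum, map_sum, Finset.sum_filter]
        refine Finset.sum_congr rfl fun w _ => ?_
        rw [map_smul, S.c0_word w.1.1.2 w.1.2.1 w.1.2.2, smul_eq_mul, mul_ite, mul_one, mul_zero]
      rw [h1, ← h2, h0, zero_smul]
    · set γ : Gam (r + 1) := ∑ w ∈ c.support.filter (fun w => w.1.1.1 = r + 1),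
        c w • sec O k x (r + 1) w.1.1 with hγ
      have hs : ∀ w : {w : WI k D // qdeg k w.1.2 = k + t}, w.1.1.1 = r + 1 →
          sec O k x (r + 1) w.1.1 ∈ homG (r + 1) t ∧
            O.phi x (r + 1) (sec O k x (r + 1) w.1.1) = O.qw w.1.1.2 x := by
        rintro ⟨⟨⟨r', m⟩, hm, hd⟩, he⟩ h
        obtain rfl : r' = r + 1 := h
        have h1 := S.sec_spec m hd
        have h3 : qdeg k m - k = t := by
          have : qdeg k m = k + t := he
          omega
        rw [h3] at h1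
        exact h1
      have hmem : γ ∈ homG (r + 1) t :=
        Submodule.sum_mem _ fun w hw => Submodule.smul_mem _ _ (hs w (Finset.mem_filter.1 hw).2).1
      have hphi : O.phi x (r + 1) γ =
          ∑ w ∈ c.support.filter (fun w => w.1.1.1 = r + 1), c w • O.qw w.1.1.2 x := by
        rw [hγ, map_sum]
        refine Finset.sum_congr rfl fun w hw => ?_
        rw [map_smul, (hs w (Finset.mem_filter.1 hw).2).2]
      have hcomp : S.comp r y = Psi r k γ := by
        rw [← hc, Finsupp.sum, map_sum, hγ, map_sum, Finset.sum_filter]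
        refine Finset.sum_congr rfl fun w _ => ?_
        rw [map_smul, S.comp_word r w.1.1.2 w.1.2.1 w.1.2.2]
        split_ifs with h
        · rw [map_smul]
        · have : sec O k x (r + 1) ⟨w.1.1.1, w.1.1.2⟩ = 0 := sec_of_ne h _
          rw [this, map_zero, smul_zero]
      rw [← hphi, (S.main r t ht).1 γ hmem, ← hcomp, hr r]
  have hsum : Finsupp.linearCombination (ZMod 2)
      (fun w : {w : WI k D // qdeg k w.1.2 = k + t} => O.qw w.1.1.2 x)
      (c.filter (fun w => w.1.1.1 = r0)) = 0 := by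
    rw [Finsupp.linearCombination_apply, Finsupp.sum, Finsupp.support_filter, ← hfilt]
    refine Finset.sum_congr rfl fun w hw => ?_
    rw [Finsupp.filter_apply, if_pos (Finset.mem_filter.1 hw).2]
  have h := linearIndependent_iff.1 hlin _ hsum
  have h2 := DFunLike.congr_fun h (⟨⟨⟨r0, m0⟩, hm0, hd0⟩, he0⟩ : {w : WI k D // qdeg k w.1.2 = k + t})
  rw [Finsupp.filter_apply] at h2
  simpa using h2

end Stage

/-! ## suspension -/

section sigma

variable {H' : Type*} [AddCommGroup H'] [Module (ZMod 2) H'] {O : Ops H} {O' : Ops H'} {x : H} {x' : H'}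
  (σ : H →ₗ[ZMod 2] H') {N : ℕ} (hT : ∀ i ≤ N, ∀ y, σ (O.T i y) = O'.T i (σ y)) (hx : σ x = x')

include hT hx

theorem sigma_tw : ∀ {r : ℕ} (m : Fin r → ℕ), (∀ j, m j ≤ N) → σ (O.tw m x) = O'.tw m x'
  | 0, _, _ => hx
  | r + 1, m, h => by
    rw [Ops.tw_succ, Ops.tw_succ, hT _ (h 0), sigma_tw (Fin.tail m) fun j => h j.succ]

theorem sigma_phi {r t : ℕ} (ht : t ≤ N) {γ : Gam r} (hγ : γ ∈ homG r t) :
    σ (O.phi x r γ) = O'.phi x' r γ := by
  refine homG_induction (P := fun γ => σ (O.phi x r γ) = O'.phi x' r γ) (by simp) ?_ ?_ hγ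
  · intro a b ha hb; rw [map_add, map_add, map_add, ha, hb]
  · intro m hm
    rw [Ops.phi_single, Ops.phi_single]
    refine sigma_tw σ hT hx _ fun j => ?_
    have : m j ≤ ∑ j, m j := Finset.single_le_sum (fun _ _ => Nat.zero_le _) (Finset.mem_univ j)
    omega

/-- (T3) `comp_sig`, also for `c0` -/
theorem Stage.comp_sig {k D D' : ℕ} (S : Stage O k x D) (S' : Stage O' (k + 1) x' D') {t : ℕ}
    (ht : t ≤ D) (ht' : t ≤ D') (htN : t ≤ N) {y : H} (hy : y ∈ Wsp O k x t) (r : ℕ) :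
    S'.comp r (σ y) = S.comp r y ∘ₗ Spine693.inc r k := by
  refine S.wsp_induction ht (P := fun y => S'.comp r (σ y) = S.comp r y ∘ₗ Spine693.inc r k)
    (by simp) ?_ ?_ ?_ hy
  · intro y z hy hz; rw [map_add, map_add, map_add, hy, hz, LinearMap.add_comp]
  · intro _
    rw [hx, S'.comp_x, S.comp_x, LinearMap.zero_comp]
  · intro r' γ hγ
    rw [sigma_phi σ hT hx htN hγ]
    have h1 := S'.comp_phi ht' hγ
    have h2 := S.comp_phi ht hγ
    by_cases h : r = r'
    · subst h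
      rw [h1.1, h2.1, Psi_inc]
    · rw [h1.2.1 r h, h2.2.1 r h, LinearMap.zero_comp]

end sigma

/-! ## words of the wrong length are killed by `comp` -/

/-- `comp r` kills the admissible words of length `≠ r + 1` -/
theorem Stage.comp_word_of_ne {O : Ops H} {k : ℕ} {x : H} {D : ℕ} (S : Stage O k x D) {r r' : ℕ}
    (m : Fin r' → ℕ) (hm : Monotone m) (hd : qdeg k m ≤ k + D) (h : r' ≠ r + 1) :
    S.comp r (O.qw m x) = 0 := by
  rw [S.comp_word r m hm hd, Stage.sec_of_ne h, map_zero]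

/-! ## stage `k = 0` (only fixed length) -/

section zero

variable {O : Ops H} {x : H} {D : ℕ} (hb : O.Base 0 x) (hD : D ≤ O.M) {r : ℕ}
  (hlin : ∀ t ≤ D, LinearIndependent (ZMod 2) (fun m : Adm (r + 1) 0 t => O.qw m.1 x))

include hb hD hlin

theorem zero_main {t : ℕ} (ht : t ≤ D) :
    (∀ γ ∈ homG (r + 1) t, O.phi x (r + 1) γ = 0 ↔ Psi r 0 γ = 0) ∧
    (homG (r + 1) t).map (O.phi x (r + 1)) =
      Submodule.span (ZMod 2) (Set.range fun m : Adm (r + 1) 0 t => O.qw m.1 x) := by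
  have h := O.main hb (r := r) (t := t) (ht.trans hD) (hlin t ht)
  refine ⟨fun γ hγ => ?_, h.2⟩
  rw [h.1 γ hγ, Psi_eq_zero_iff hγ]

/-- the functional of an element `y` of the span of the words of length `r + 1` on `[1]` -/
theorem zero_functional {t : ℕ} (ht : t ≤ D) {y : H}
    (hy : y ∈ Submodule.span (ZMod 2) (Set.range fun m : Adm (r + 1) 0 t => O.qw m.1 x)) :
    ∃ γ ∈ homG (r + 1) t, O.phi x (r + 1) γ = y ∧ (y ≠ 0 → Psi r 0 γ ≠ 0) ∧
      Spine693.Conc (Psi r 0 γ) t ∧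
      ((∀ a, 1 ≤ a → O.Sq a y = 0) → ∀ a, 1 ≤ a → Psi r 0 γ ∘ₗ dick.SqM r 0 a = 0) := by
  rw [← (zero_main hb hD hlin ht).2] at hy
  obtain ⟨γ, hγ, rfl⟩ := hy
  refine ⟨γ, hγ, rfl, ?_, ?_, ?_⟩
  · intro h h'
    exact h (((zero_main hb hD hlin ht).1 γ hγ).2 h')
  · intro g i hg hi
    exact Psi_conc hγ g hg hi
  · intro h a ha
    have h1 : O.phi x (r + 1) (sqG (r + 1) a γ) = 0 := by
      rw [O.phi_sqG hb.sq (ht.trans hD) hγ, h a ha]
    rw [← Psi_sqG]
    exact ((zero_main hb hD hlin (t := t - a) (by omega)).1 _ (sqG_mem (a := a) hγ)).1 h1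

/-- stage `0`: compatibility with the suspension -/
theorem zero_sigma {H' : Type*} [AddCommGroup H'] [Module (ZMod 2) H'] {O' : Ops H'} {x' : H'}
    {D' : ℕ} (S' : Stage O' 1 x' D') (σ : H →ₗ[ZMod 2] H')
    {N : ℕ} (hT : ∀ i ≤ N, ∀ y, σ (O.T i y) = O'.T i (σ y)) (hx : σ x = x')
    {t : ℕ} (ht : t ≤ D) (ht' : t ≤ D') (htN : t ≤ N) {y : H}
    (hy : y ∈ Submodule.span (ZMod 2) (Set.range fun m : Adm (r + 1) 0 t => O.qw m.1 x)) :
    ∃ f : Spine693.M r 0 →ₗ[ZMod 2] ZMod 2, (y ≠ 0 → f ≠ 0) ∧ Spine693.Conc f t ∧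
      ((∀ a, 1 ≤ a → O.Sq a y = 0) → ∀ a, 1 ≤ a → f ∘ₗ dick.SqM r 0 a = 0) ∧
      S'.comp r (σ y) = f ∘ₗ Spine693.inc r 0 ∧ (∀ r', r' ≠ r → S'.comp r' (σ y) = 0) ∧
      S'.c0 (σ y) = 0 := by
  obtain ⟨γ, hγ, h1, h2, h3, h4⟩ := zero_functional hb hD hlin ht hy
  refine ⟨Psi r 0 γ, h2, h3, h4, ?_⟩
  rw [← h1, sigma_phi σ hT hx htN hγ]
  have h5 := S'.comp_phi ht' hγ
  exact ⟨by rw [h5.1, ← Psi_inc], h5.2.1, h5.2.2⟩

end zero

/-! ## rank one: extending functionals from `M_1` to `M_0` -/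

/-- `M 0 0 → M 0 1`, the projection killing the constants -/
noncomputable def prj : Spine693.M 0 0 →ₗ[ZMod 2] Spine693.M 0 1 where
  toFun g := ⟨(g : Spine693.D 1) - C (coeff 0 (g : Spine693.D 1)), by
    intro s hs
    by_contra h
    have hs0 : s = 0 := by
      ext j
      have : j = 0 := by
        apply Fin.ext
        have := j.2
        simp only [Fin.val_zero]
        omega
      subst this
      simp only [Finsupp.coe_zero, Pi.zero_apply]
      omega
    subst hs0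
    simp at hs⟩
  map_add' g h := by
    apply Subtype.ext
    simp only [Submodule.coe_add, coeff_add, map_add]
    ring
  map_smul' c g := by
    apply Subtype.ext
    simp only [Submodule.coe_smul, coeff_smul, smul_eq_mul, map_mul, RingHom.id_apply, smul_sub]
    congr 1
    rw [smul_eq_C_mul]

theorem prj_inc (g : Spine693.M 0 1) : prj (Spine693.inc 0 0 g) = g := by
  apply Subtype.ext
  change (g : Spine693.D (0 + 1)) - C (coeff 0 (g : Spine693.D (0 + 1))) = (g : Spine693.D (0 + 1))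
  have : coeff 0 (g : Spine693.D (0 + 1)) = 0 := by
    by_contra h
    have := g.2 0 h
    simp at this
  rw [this, map_zero, sub_zero]

/-- a functional on `M 0 0` concentrated in positive degree is determined on `M 0 1` -/
theorem eq_comp_prj {f : Spine693.M 0 0 →ₗ[ZMod 2] ZMod 2} {t : ℕ} (ht : 1 ≤ t)
    (hf : Spine693.Conc f t) : f = (f ∘ₗ Spine693.inc 0 0) ∘ₗ prj := by
  ext g
  have h1 : g = Spine693.inc 0 0 (prj g) + ⟨C (coeff 0 (g : Spine693.D 1)), fun s _ => Nat.zero_le _⟩ := by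
    apply Subtype.ext
    change (g : Spine693.D 1) = ((g : Spine693.D 1) - C (coeff 0 (g : Spine693.D 1))) + C (coeff 0 (g : Spine693.D 1))
    rw [sub_add_cancel]
  have h2 : f ⟨C (coeff 0 (g : Spine693.D 1)), fun s _ => Nat.zero_le _⟩ = 0 :=
    hf _ 0 (isWeightedHomogeneous_C _ _) (by omega)
  conv_lhs => rw [h1, map_add, h2, add_zero]
  rfl

end Crest.Agent.R204.Thm3
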