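import Crest.Agent.R204.Thm3e_737
import Crest.Agent.R204.TowerZero_85
import Crest.Agent.R204.GlueC_114

/-!
# Row 204, Theorem 3, part f: the fields (T3) and (T4) of `Spine693.Tower` from `Spec114.Facts`
(owner helper737)
-/

set_option autoImplicit false

noncomputable section

namespace Crest.Agent.R204.Thm3Glue

open Thm3 Finset Spec114 TowerOps85 Glue114 MvPolynomial
open Crest.Agent.R204.DickInst91 (dick)

/-! ## linear independence across degrees -/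

theorem li_of_graded {H ι : Type*} [AddCommGroup H] [Module (ZMod 2) H]
    (gr : ℕ → Submodule (ZMod 2) H) (hind : iSupIndep gr) (dg : ι → ℕ) (v : ι → H)
    (hv : ∀ i, v i ∈ gr (dg i))
    (h : ∀ t, LinearIndependent (ZMod 2) (fun i : {i // dg i = t} => v i.1)) :
    LinearIndependent (ZMod 2) v := by
  classical
  rw [linearIndependent_iff']
  intro s g hg i hi
  have h1 : ∑ t ∈ s.image dg, ∑ i ∈ s.filter (fun i => dg i = t), g i • v i = 0 := by
    rw [Finset.sum_fiberwise_of_maps_to (fun i hi => Finset.mem_image_of_mem dg hi)]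
    exact hg
  have h2 := (iSupIndep_iff_finsetSum_eq_zero_imp_eq_zero gr).1 hind (s.image dg)
    (fun t => ∑ i ∈ s.filter (fun i => dg i = t), g i • v i) (fun t _ =>
      Submodule.sum_mem _ fun j hj => Submodule.smul_mem _ _ (by
        have := hv j
        rwa [(Finset.mem_filter.1 hj).2] at this)) h1 (dg i) (Finset.mem_image_of_mem dg hi)
  have h3 := linearIndependent_iff'.1 (h (dg i)) (s.subtype (fun j => dg j = dg i)) (fun j => g j.1) (by
    rw [Finset.sum_subtype_eq_sum_filter (f := fun j => g j • v j)]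
    exact h2) ⟨i, rfl⟩ (by rw [Finset.mem_subtype]; exact hi)
  exact h3

variable {Y : Spec114.Tower} {S : Sph Y} {D d : ℕ}

/-- the operation algebra of stage `k` -/
abbrev op (hF : Facts Y S D d) {k : ℕ} (hk : k ≤ D + 2) : Ops (Y.H k) :=
  towerOps hF.sq hF.t hF.gl2 hF.q hF.f13 hk

theorem base_op (hF : Facts Y S D d) {k : ℕ} (hk : k ≤ D + 2) : (op hF hk).Base k (Y.x k) :=
  towerBase hF.sq hF.t hF.gl2 hF.q hF.f13 hF.t0 hF.x hk

theorem le_of_WI {k D : ℕ} (w : WI k D) (j : Fin w.1.1) : w.1.2 j ≤ D + 1 := by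
  have h0 : k ≤ qdeg k w.1.2 := by
    rw [qdeg_eq]
    have : k ≤ 2 ^ w.1.1 * k := Nat.le_mul_of_pos_left _ (by positivity)
    omega
  have h1 : qdeg k w.1.2 = k + (qdeg k w.1.2 - k) := by omega
  have h2 := le_of_qdeg h1 j
  have h3 := w.2.2
  omega

theorem stage (hF : Facts Y S D d) {k : ℕ} (h1 : 1 ≤ k) (hk : k ≤ D + 2) :
    Stage (op hF hk) k (Y.x k) D where
  base := base_op hF hk
  hD := Nat.le_succ D
  lin := by
    have hw : ∀ w : WI k D, (op hF hk).qw w.1.2 (Y.x k) = Y.word k (List.ofFn w.1.2) := fun w =>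
      qw_x hF.sq hF.t hF.gl2 hF.q hF.f13 hk _ (le_of_WI w)
    refine li_of_graded (Y.gr k) (ind hF hk) (fun w : WI k D => qdeg k w.1.2) _ ?_ ?_
    · intro w
      rw [hw w, qdeg_eq_wdeg]
      refine word_mem_gr hF hk _ fun i hi => ?_
      obtain ⟨j, rfl⟩ := (List.mem_ofFn' _ _).1 hi
      exact le_of_WI w j
    · intro t
      by_cases ht : t ≤ k + D
      · have h2 := (Glue114.adm_li hF h1 hk ht).comp
          (fun w : {w : WI k D // qdeg k w.1.2 = t} =>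
            (⟨List.ofFn w.1.1.2, (pairwise_ofFn_iff _).2 w.1.2.1, by
              rw [← qdeg_eq_wdeg]; exact w.2⟩ : Glue114.Adm k t)) (by
          intro a b hab
          have h3 : List.ofFn a.1.1.2 = List.ofFn b.1.1.2 := congrArg Subtype.val hab
          have h4 := (List.equivSigmaTuple (α := ℕ)).symm.injective
            (a₁ := a.1.1) (a₂ := b.1.1) h3
          exact Subtype.ext (Subtype.ext h4))
        have e : (fun w : {w : WI k D // qdeg k w.1.2 = t} => (op hF hk).qw w.1.1.2 (Y.x k)) =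
            fun w => Y.word k (List.ofFn w.1.1.2) := funext fun w => hw w.1
        rw [e]
        exact h2
      · have : IsEmpty {w : WI k D // qdeg k w.1.2 = t} :=
          ⟨fun w => ht (by rw [← w.2]; exact w.1.2.2)⟩
        exact linearIndependent_empty_type

/-- homogeneous primitives lie in `Wsp` -/
theorem mem_Wsp (hF : Facts Y S D d) {k : ℕ} (h1 : 1 ≤ k) (hk : k ≤ D + 2) {t : ℕ} (ht : t ≤ D)
    {y : Y.H k} (hy : y ∈ Y.gr k (k + t)) (hp : y ∈ Y.prim k) : y ∈ Wsp (op hF hk) k (Y.x k) t := by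
  have h2 : y ∈ Y.gr k (k + t) ⊓ Y.prim k := ⟨hy, hp⟩
  rw [prim_eq_span hF h1 hk (by omega)] at h2
  refine Submodule.span_mono ?_ h2
  rintro _ ⟨J, rfl⟩
  refine ⟨J.1.length, J.1.get, ?_, ?_, ?_⟩
  · rw [← pairwise_ofFn_iff, List.ofFn_get]; exact J.2.1
  · rw [qdeg_get]; exact J.2.2
  · have hle : ∀ j, J.1.get j ≤ D + 1 := by
      intro j
      have := mem_le_wdeg (k := k) (List.get_mem J.1 j)
      have h3 := J.2.2
      omega
    rw [qw_x hF.sq hF.t hF.gl2 hF.q hF.f13 hk _ hle, List.ofFn_get]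

/-- homogeneous primitives of degree `< k` vanish -/
theorem eq_zero_of_lt (hF : Facts Y S D d) {k : ℕ} (h1 : 1 ≤ k) (hk : k ≤ D + 2) {i : ℕ} (hi : i < k)
    {y : Y.H k} (hy : y ∈ Y.gr k i) (hp : y ∈ Y.prim k) : y = 0 := by
  have h2 : y ∈ Y.gr k i ⊓ Y.prim k := ⟨hy, hp⟩
  rw [prim_eq_span hF h1 hk (by omega)] at h2
  have : IsEmpty (Glue114.Adm k i) := ⟨fun J => by
    have h3 := le_wdeg k J.1
    have h4 := J.2.2
    omega⟩
  rw [Set.range_eq_empty, Submodule.span_empty] at h2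
  exact (Submodule.mem_bot _).1 h2

/-- case distinction for homogeneous primitives in the range -/
theorem cases_deg (hF : Facts Y S D d) {k : ℕ} (h1 : 1 ≤ k) (hk : k ≤ D + 2) {i : ℕ} (hi : i ≤ k + D)
    {x : P Y k} (hx : x ∈ deg Y k i) : (x : Y.H k) = 0 ∨
      ∃ t, i = k + t ∧ t ≤ D ∧ (x : Y.H k) ∈ Wsp (op hF hk) k (Y.x k) t := by
  have hx' : (x : Y.H k) ∈ Y.gr k i := by
    have := (mem_deg Y).1 hx
    rwa [grB_pos Y h1] at this
  rcases Nat.lt_or_ge i k with h | h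
  · exact Or.inl (eq_zero_of_lt hF h1 hk h hx' x.2)
  · obtain ⟨t, rfl⟩ := Nat.exists_eq_add_of_le h
    exact Or.inr ⟨t, rfl, by omega, mem_Wsp hF h1 hk (by omega) hx' x.2⟩

/-! ## the maps -/

/-- length `r + 1` component -/
def comp (hF : Facts Y S D d) (k r : ℕ) : P Y k →ₗ[F2] (Spine693.M r k →ₗ[F2] F2) :=
  if h : 1 ≤ k ∧ k ≤ D + 2 then (stage hF h.1 h.2).comp r ∘ₗ (Y.prim k).subtype else 0

/-- coefficient of the fundamental class -/
def c0 (hF : Facts Y S D d) (k : ℕ) : P Y k →ₗ[F2] F2 :=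
  if h : 1 ≤ k ∧ k ≤ D + 2 then (stage hF h.1 h.2).c0 ∘ₗ (Y.prim k).subtype else 0

theorem comp_apply (hF : Facts Y S D d) {k : ℕ} (h1 : 1 ≤ k) (hk : k ≤ D + 2) (r : ℕ) (x : P Y k) :
    comp hF k r x = (stage hF h1 hk).comp r (x : Y.H k) := by
  rw [comp, dif_pos ⟨h1, hk⟩]; rfl

theorem c0_apply (hF : Facts Y S D d) {k : ℕ} (h1 : 1 ≤ k) (hk : k ≤ D + 2) (x : P Y k) :
    c0 hF k x = (stage hF h1 hk).c0 (x : Y.H k) := by
  rw [c0, dif_pos ⟨h1, hk⟩]; rfl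

/-! ## (T3) -/

theorem comp_Sq (hF : Facts Y S D d) {k : ℕ} (h1 : 1 ≤ k) (hk : k ≤ D + 2) {i : ℕ} (hi : i ≤ k + D)
    (x : P Y k) (hx : x ∈ deg Y k i) (r a : ℕ) :
    comp hF k r (Sq Y k a x) = comp hF k r x ∘ₗ dick.SqM r k a := by
  rw [comp_apply hF h1 hk, comp_apply hF h1 hk, coe_Sq hF.sq hk]
  rcases cases_deg hF h1 hk hi hx with h | ⟨t, rfl, ht, h⟩
  · rw [h]; simp
  · exact (stage hF h1 hk).comp_Sq ht h r a

theorem comp_deg (hF : Facts Y S D d) {k : ℕ} (h1 : 1 ≤ k) (hk : k ≤ D + 2) {i : ℕ} (hi : i ≤ k + D)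
    (x : P Y k) (hx : x ∈ deg Y k i) (r : ℕ) (g : Spine693.M r k) (j : ℕ)
    (hg : IsWeightedHomogeneous (Spine693.wt r) (g : Spine693.D (r + 1)) j) (hj : j + k ≠ i) :
    comp hF k r x g = 0 := by
  rw [comp_apply hF h1 hk]
  rcases cases_deg hF h1 hk hi hx with h | ⟨t, rfl, ht, h⟩
  · rw [h]; simp
  · exact (stage hF h1 hk).comp_deg ht h g hg (by omega)

theorem c0_deg (hF : Facts Y S D d) {k : ℕ} (h1 : 1 ≤ k) (hk : k ≤ D + 2) {i : ℕ} (hi : i ≤ k + D)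
    (x : P Y k) (hx : x ∈ deg Y k i) (hne : i ≠ k) : c0 hF k x = 0 := by
  rw [c0_apply hF h1 hk]
  rcases cases_deg hF h1 hk hi hx with h | ⟨t, rfl, ht, h⟩
  · rw [h]; simp
  · exact (stage hF h1 hk).c0_deg ht h (by omega)

theorem c0_Sq (hF : Facts Y S D d) {k : ℕ} (h1 : 1 ≤ k) (hk : k ≤ D + 2) {i : ℕ} (hi : i ≤ k + D)
    (x : P Y k) (hx : x ∈ deg Y k i) (a : ℕ) (ha : 1 ≤ a) : c0 hF k (Sq Y k a x) = 0 := by
  rw [c0_apply hF h1 hk, coe_Sq hF.sq hk]
  rcases cases_deg hF h1 hk hi hx with h | ⟨t, rfl, ht, h⟩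
  · rw [h]; simp
  · exact (stage hF h1 hk).c0_Sq ht h ha

theorem comp_inj (hF : Facts Y S D d) {k : ℕ} (h1 : 1 ≤ k) (hk : k ≤ D + 2) {i : ℕ} (hi : i ≤ k + D)
    (x : P Y k) (hx : x ∈ deg Y k i) (h0 : c0 hF k x = 0) (hr : ∀ r, comp hF k r x = 0) : x = 0 := by
  rw [c0_apply hF h1 hk] at h0
  simp only [comp_apply hF h1 hk] at hr
  apply Subtype.ext
  rcases cases_deg hF h1 hk hi hx with h | ⟨t, rfl, ht, h⟩
  · exact h
  · exact (stage hF h1 hk).comp_inj ht h h0 hr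

theorem comp_sig (hF : Facts Y S D d) {k : ℕ} (h1 : 1 ≤ k) (hk : k ≤ D + 1) {i : ℕ} (hi : i ≤ k + D)
    (x : P Y k) (hx : x ∈ deg Y k i) (r : ℕ) :
    comp hF (k + 1) r (sig Y k x) = comp hF k r x ∘ₗ Spine693.inc r k := by
  rw [comp_apply hF (by omega) (by omega), comp_apply hF h1 (by omega), coe_sig hF.sigma hk]
  rcases cases_deg hF h1 (by omega) hi hx with h | ⟨t, rfl, ht, h⟩
  · rw [h]; simp
  · exact Stage.comp_sig (Y.σ k) (N := D + 1)
      (fun i hi y => (hF.sigma k hk).2.2.2.2.1 i hi y) (hF.sigma k hk).2.2.2.2.2.2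
      (stage hF h1 (by omega)) (stage hF (by omega) (by omega)) ht ht (by omega) h r

/-! ## (T4) stage zero -/

/-- section (4.2), output of helper407: the lowest weight component of a primitive at `k = 0` -/
def LowL (Y : Spec114.Tower) (D : ℕ) : Prop :=
  ∀ i, 1 ≤ i → i ≤ D → ∀ x ∈ Y.gr 0 i, x ∈ Y.base → x ∈ Y.prim 0 → x ≠ 0 →
    ∃ r, 1 ≤ r ∧ ∃ xr ∈ Submodule.span F2 {y | ∃ I : List ℕ, I.Pairwise (· ≤ ·) ∧ I.length = r ∧
        Tower.wdeg 0 I = i ∧ y = Y.word0 I},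
      xr ≠ 0 ∧ ((∀ a, 1 ≤ a → Y.Sq 0 a x = 0) → ∀ a, 1 ≤ a → Y.Sq 0 a xr = 0) ∧
      Y.σ 0 x - Y.σ 0 xr ∈ Submodule.span F2 {y | ∃ J : List ℕ, J.Pairwise (· ≤ ·) ∧ r < J.length ∧
        Tower.wdeg 1 J = i + 1 ∧ y = Y.word 1 J}

theorem eps_x0 (hF : Facts Y S D d) : Y.ε 0 (Y.x 0) = 1 := by
  have h1 := (hF.delta 0 (Nat.zero_le _)).1 (Y.x 0)
  rw [hF.x.2.2.1, TensorProduct.map_tmul] at h1
  simp only [AlgHom.toLinearMap_apply, LinearMap.id_coe, id_eq, TensorProduct.lid_tmul] at h1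
  have h2 := congrArg (fun z => Y.ε 0 (z * Y.xinv)) h1
  simp only [smul_mul_assoc, hF.x.2.2.2.2.2, map_smul, map_one, smul_eq_mul, mul_one] at h2
  exact h2

theorem x0_pow_ne (hF : Facts Y S D d) (n : ℕ) : Y.x 0 ^ n ≠ 0 := by
  intro h
  have := congrArg (Y.ε 0) h
  rw [map_pow, eps_x0 hF, one_pow, map_zero] at this
  exact one_ne_zero this

theorem x0_pow_gr (hF : Facts Y S D d) (n : ℕ) : Y.x 0 ^ n ∈ Y.gr 0 0 := by
  induction n with
  | zero => rw [pow_zero]; exact (hF.gr 0 (Nat.zero_le _)).2.1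
  | succ n ih =>
    rw [pow_succ]
    exact (hF.gr 0 (Nat.zero_le _)).2.2 0 0 _ _ ih (hF.x.1 0 (Nat.zero_le _)).1

theorem xinv_pow_gr (hF : Facts Y S D d) (n : ℕ) : Y.xinv ^ n ∈ Y.gr 0 0 := by
  induction n with
  | zero => rw [pow_zero]; exact (hF.gr 0 (Nat.zero_le _)).2.1
  | succ n ih =>
    rw [pow_succ]
    exact (hF.gr 0 (Nat.zero_le _)).2.2 0 0 _ _ ih hF.x.2.2.2.1

theorem word0_gr (hF : Facts Y S D d) {I : List ℕ} {i : ℕ} (hi : i ≤ D + 1)
    (hI : Tower.wdeg 0 I = i) : Y.word0 I ∈ Y.gr 0 i := by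
  have h1 : Y.word 0 I ∈ Y.gr 0 i := by
    have := word_mem_gr hF (Nat.zero_le _) I (fun j hj => by
      have := mem_le_wdeg (k := 0) hj
      omega)
    rwa [hI] at this
  have := (hF.gr 0 (Nat.zero_le _)).2.2 i 0 _ _ h1 (xinv_pow_gr hF (2 ^ I.length))
  rwa [add_zero] at this

theorem lin0 (hF : Facts Y S D d) (r : ℕ) {t : ℕ} (ht : t ≤ D) :
    LinearIndependent (ZMod 2) (fun m : Thm3.Adm r 0 t => (op hF (Nat.zero_le _)).qw m.1 (Y.x 0)) := by
  rcases Nat.eq_zero_or_pos t with rfl | h1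
  · have hs : Subsingleton (Thm3.Adm r 0 0) := by
      refine ⟨fun a b => Subtype.ext (funext fun j => ?_)⟩
      have h1 := le_of_qdeg a.2.2 j
      have h2 := le_of_qdeg b.2.2 j
      omega
    have h0 : ∀ m : Thm3.Adm r 0 0, (op hF (Nat.zero_le _)).qw m.1 (Y.x 0) ≠ 0 := by
      intro m
      have hm : m.1 = fun _ => 0 := by
        funext j
        have := le_of_qdeg m.2.2 j
        omega
      rw [qw_x hF.sq hF.t hF.gl2 hF.q hF.f13 (Nat.zero_le _) _ (fun j => by rw [hm]; exact Nat.zero_le _), hm]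
      have : List.ofFn (fun _ : Fin r => 0) = List.replicate r 0 ++ [] := by simp
      rw [this, word_replicate_zero hF (Nat.zero_le _)]
      exact x0_pow_ne hF _
    rw [linearIndependent_iff']
    intro s g hg m hm
    have : s = {m} := by
      ext m'
      rw [Finset.mem_singleton]
      constructor
      · intro _; exact Subsingleton.elim _ _
      · rintro rfl; exact hm
    rw [this, Finset.sum_singleton] at hg
    have hc : g m = 0 ∨ g m = 1 := by generalize g m = c; revert c; decide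
    rcases hc with h | h
    · exact h
    · rw [h, one_smul] at hg
      exact absurd hg (h0 m)
  · exact adm_li hF.sq hF.t hF.gl2 hF.q hF.f13 (Nat.zero_le _) (by omega)
      (word_linearIndependent0 hF.q hF.poly0 r h1 ht)

/-- moving back to component `2^r` -/
theorem mul_x0_mem (hF : Facts Y S D d) {r i : ℕ} (hi : i ≤ D) {xr : Y.H 0}
    (h : xr ∈ Submodule.span F2 {y | ∃ I : List ℕ, I.Pairwise (· ≤ ·) ∧ I.length = r ∧
        Tower.wdeg 0 I = i ∧ y = Y.word0 I}) :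
    xr * Y.x 0 ^ (2 ^ r) ∈ Submodule.span (ZMod 2)
      (Set.range fun m : Thm3.Adm r 0 i => (op hF (Nat.zero_le _)).qw m.1 (Y.x 0)) := by
  rw [span_adm_eq hF.sq hF.t hF.gl2 hF.q hF.f13 (Nat.zero_le _) (by omega)]
  induction h using Submodule.span_induction with
  | mem y hy =>
    obtain ⟨I, h1, h2, h3, rfl⟩ := hy
    refine Submodule.subset_span ⟨I, h1, h2, by rw [h3, zero_add], ?_⟩
    rw [Tower.word0, h2, mul_assoc, ← mul_pow, mul_comm Y.xinv, hF.x.2.2.2.2.2, one_pow, mul_one]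
  | zero => rw [zero_mul]; exact Submodule.zero_mem _
  | add a b _ _ ha hb => rw [add_mul]; exact Submodule.add_mem _ ha hb
  | smul c a _ ha => rw [smul_mul_assoc]; exact Submodule.smul_mem _ _ ha

/-- weight two component on `X_0` -/
def c1 (hF : Facts Y S D d) : P Y 0 →ₗ[F2] (Spine693.M 0 0 →ₗ[F2] F2) :=
  (LinearMap.lcomp F2 F2 prj) ∘ₗ (comp hF 1 0) ∘ₗ (sig Y 0)

theorem c1_apply (hF : Facts Y S D d) (x : P Y 0) : c1 hF x = comp hF 1 0 (sig Y 0 x) ∘ₗ prj := rfl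

theorem lowest (hF : Facts Y S D d) (hL : LowL Y D) {i : ℕ} (hi1 : 1 ≤ i) (hi : i ≤ D)
    (x : P Y 0) (hx : x ∈ deg Y 0 i) (hx0 : x ≠ 0) :
    (c1 hF x ≠ 0 ∧ Spine693.Conc (c1 hF x) i ∧
      ((∀ a, 1 ≤ a → Sq Y 0 a x = 0) → ∀ a, 1 ≤ a → c1 hF x ∘ₗ dick.SqM 0 0 a = 0) ∧
      comp hF 1 0 (sig Y 0 x) = c1 hF x ∘ₗ Spine693.inc 0 0) ∨
    (c1 hF x = 0 ∧ ∃ (r : ℕ) (f : Spine693.M r 0 →ₗ[F2] F2), 1 ≤ r ∧ f ≠ 0 ∧ Spine693.Conc f i ∧
      ((∀ a, 1 ≤ a → Sq Y 0 a x = 0) → ∀ a, 1 ≤ a → f ∘ₗ dick.SqM r 0 a = 0) ∧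
      comp hF 1 r (sig Y 0 x) = f ∘ₗ Spine693.inc r 0) := by
  have hD : 1 ≤ D := by have := hF.dD; omega
  have hx' : (x : Y.H 0) ∈ Y.gr 0 i ∧ (x : Y.H 0) ∈ Y.base := hx
  obtain ⟨r, hr1, xr, hxr, hne, hsq, hσ⟩ := hL i hi1 hi _ hx'.1 hx'.2 x.2
    (fun h => hx0 (Subtype.ext h))
  obtain ⟨r, rfl⟩ : ∃ r', r = r' + 1 := ⟨r - 1, by omega⟩
  set z := Y.x 0 ^ (2 ^ (r + 1)) with hz
  set y := xr * z with hy
  have hxrgr : xr ∈ Y.gr 0 i := by
    refine Submodule.span_le.2 ?_ hxr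
    rintro _ ⟨I, _, _, h3, rfl⟩
    exact word0_gr hF (by omega) h3
  have hymem := mul_x0_mem hF hi hxr
  have hy0 : y ≠ 0 := by
    intro h
    apply hne
    have h2 : y * Y.xinv ^ (2 ^ (r + 1)) = xr := by
      rw [hy, hz, mul_assoc, ← mul_pow, hF.x.2.2.2.2.2, one_pow, mul_one]
    rw [← h2, h, zero_mul]
  have hysq : (∀ a, 1 ≤ a → Sq Y 0 a x = 0) → ∀ a, 1 ≤ a → Y.Sq 0 a y = 0 := by
    intro h a ha
    have h1 : ∀ a, 1 ≤ a → Y.Sq 0 a (x : Y.H 0) = 0 := fun a ha => by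
      rw [← coe_Sq hF.sq (Nat.zero_le _), h a ha]; rfl
    have h2 := hsq h1
    rw [hy, (hF.sq 0 (Nat.zero_le _)).2.2.2.1]
    refine Finset.sum_eq_zero fun p hp => ?_
    rw [Finset.HasAntidiagonal.mem_antidiagonal] at hp
    rcases Nat.eq_zero_or_pos p.1 with h0 | h0
    · have : Y.Sq 0 p.2 z = 0 :=
        (hF.sq 0 (Nat.zero_le _)).2.2.1 p.2 0 z (x0_pow_gr hF _) (by omega)
      rw [this, mul_zero]
    · rw [h2 p.1 h0, zero_mul]
  have hyσ : Y.σ 0 y = Y.σ 0 xr := by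
    have hez : Y.ε 0 z = 1 := by rw [hz, map_pow, eps_x0 hF, one_pow]
    rw [hy, (hF.sigma 0 (Nat.zero_le _)).2.2.1, hF.eps 0 (Nat.zero_le _) i hi1 xr hxrgr, zero_smul,
      hez, one_smul]
    exact zero_add _
  obtain ⟨f, hf0, hfc, hfs, hfr, hfr', -⟩ := zero_sigma (r := r) (base_op hF (Nat.zero_le _))
    (Nat.le_succ D) (fun t ht => lin0 hF (r + 1) ht) (stage hF (k := 1) le_rfl (by omega)) (Y.σ 0)
    (N := D + 1) (fun i hi y => (hF.sigma 0 (Nat.zero_le _)).2.2.2.2.1 i hi y)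
    (hF.sigma 0 (Nat.zero_le _)).2.2.2.2.2.2 hi hi (by omega) hymem
  rw [← hy] at hf0 hfs hfr hfr'
  rw [hyσ] at hfr hfr'
  -- the higher words
  have hhigh : ∀ r' ≤ r, comp hF 1 r' (sig Y 0 x) =
      (stage hF (k := 1) le_rfl (by omega)).comp r' (Y.σ 0 xr) := by
    intro r' hr'
    rw [comp_apply hF le_rfl (by omega), coe_sig hF.sigma (Nat.zero_le _), ← sub_eq_zero, ← map_sub]
    clear hfr hfr'
    generalize Y.σ 0 (x : Y.H 0) - Y.σ 0 xr = w at hσ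
    induction hσ using Submodule.span_induction with
    | mem w hw =>
      obtain ⟨J, h1, h2, h3, rfl⟩ := hw
      have hle : ∀ j, J.get j ≤ D + 1 := by
        intro j
        have := mem_le_wdeg (k := 1) (List.get_mem J j)
        omega
      have h4 : Y.word 1 J = (op hF (k := 1) (by omega)).qw J.get (Y.x 1) := by
        rw [qw_x hF.sq hF.t hF.gl2 hF.q hF.f13 (by omega) _ hle, List.ofFn_get]
      rw [h4]
      refine Stage.comp_word_of_ne _ _ ?_ ?_ (by omega)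
      · rw [← pairwise_ofFn_iff, List.ofFn_get]; exact h1
      · rw [qdeg_get, h3]; omega
    | zero => rw [map_zero]
    | add a b _ _ ha hb => rw [map_add, ha, hb, add_zero]
    | smul c a _ ha => rw [map_smul, ha, smul_zero]
  rcases Nat.eq_zero_or_pos r with rfl | hr
  · left
    have hc : comp hF 1 0 (sig Y 0 x) = f ∘ₗ Spine693.inc 0 0 := by rw [hhigh 0 le_rfl, hfr]
    have hc1 : c1 hF x = f := by
      rw [c1_apply, hc]
      exact (eq_comp_prj hi1 hfc).symm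
    rw [hc1]
    exact ⟨hf0 hy0, hfc, fun h => hfs (hysq h), hc⟩
  · right
    refine ⟨?_, r, f, hr, hf0 hy0, hfc, fun h => hfs (hysq h), ?_⟩
    · rw [c1_apply, hhigh 0 (Nat.zero_le _), hfr' 0 (by omega), LinearMap.zero_comp]
    · rw [hhigh r le_rfl, hfr]

end Crest.Agent.R204.Thm3Glue
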