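import Crest.Agent.R204.Fs_348

/-!
# Maps into the thread model (row 204, block G)

`Ps.tw`, `Fs.tw` : transport of threads along a vertexwise injective, natural family of maps of threads.
Relabelling homotopies, and: `H (Fs U a × Fs U b) → H (Fs (U ⊕ U) (a+b))` is onto when `C(a+b,a)` is odd.
-/

set_option autoImplicit false

namespace Crest.Agent.R204.Fs348

open Finsupp Tr348

section img

variable {U W : Type} {m n : ℕ}

open Classical in
/-- image of a set of threads -/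
noncomputable def im (G : (Fin (n + 1) → U) → Fin (n + 1) → W) (A : Finset (Fin (n + 1) → U)) :
    Finset (Fin (n + 1) → W) := A.image G

theorem mem_im {G : (Fin (n + 1) → U) → Fin (n + 1) → W} {A : Finset (Fin (n + 1) → U)}
    {g : Fin (n + 1) → W} : g ∈ im G A ↔ ∃ a ∈ A, G a = g := by
  simp [im]

theorem im_mono {G : (Fin (n + 1) → U) → Fin (n + 1) → W} {A B : Finset (Fin (n + 1) → U)}
    (h : A ⊆ B) : im G A ⊆ im G B := by
  intro g hg
  obtain ⟨a, ha, rfl⟩ := mem_im.1 hg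
  exact mem_im.2 ⟨a, h ha, rfl⟩

/-- vertexwise injective on `A` -/
def VI (G : (Fin (n + 1) → U) → Fin (n + 1) → W) (A : Finset (Fin (n + 1) → U)) : Prop :=
  ∀ i, Set.InjOn (fun c => G c i) (A : Set (Fin (n + 1) → U))

theorem VI.ci {G : (Fin (n + 1) → U) → Fin (n + 1) → W} {A : Finset (Fin (n + 1) → U)}
    (h : VI G A) : CI (im G A) := by
  intro i x hx y hy e
  obtain ⟨a, ha, rfl⟩ := mem_im.1 hx
  obtain ⟨b, hb, rfl⟩ := mem_im.1 hy
  rw [h i ha hb e]

theorem VI.injOn {G : (Fin (n + 1) → U) → Fin (n + 1) → W} {A : Finset (Fin (n + 1) → U)}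
    (h : VI G A) : Set.InjOn G (A : Set (Fin (n + 1) → U)) :=
  fun _ ha _ hb e => h 0 ha hb (congrFun e 0)

theorem VI.card {G : (Fin (n + 1) → U) → Fin (n + 1) → W} {A : Finset (Fin (n + 1) → U)}
    (h : VI G A) : (im G A).card = A.card := by
  classical
  unfold im
  exact Finset.card_image_of_injOn h.injOn

theorem VI.mono {G : (Fin (n + 1) → U) → Fin (n + 1) → W} {A B : Finset (Fin (n + 1) → U)}
    (h : VI G B) (hAB : A ⊆ B) : VI G A := fun i => (h i).mono (by exact_mod_cast hAB)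

theorem re_im {G : (Fin (n + 1) → U) → Fin (n + 1) → W} {G' : (Fin (m + 1) → U) → Fin (m + 1) → W}
    {A : Finset (Fin (n + 1) → U)} (f : Fin (m + 1) → Fin (n + 1))
    (h : ∀ c ∈ A, G c ∘ f = G' (c ∘ f)) : re f (im G A) = im G' (re f A) := by
  ext g
  simp only [mem_re, mem_im]
  constructor
  · rintro ⟨_, ⟨a, ha, rfl⟩, rfl⟩
    exact ⟨a ∘ f, ⟨a, ha, rfl⟩, (h a ha).symm⟩
  · rintro ⟨_, ⟨a, ha, rfl⟩, rfl⟩
    exact ⟨G a, ⟨a, ha, rfl⟩, h a ha⟩

end img

/-- twist a map to `Ps U v a` by maps of threads -/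
noncomputable def Ps.tw {K : SS} {U W : Type} {v a : ℕ} (p : SS.Hom K (Ps U v a))
    (G : ∀ n, K.S n → (Fin (n + 1) → U) → Fin (n + 1) → W)
    (hi : ∀ n x, VI (G n x) (p.app n x).1.1)
    (hn : ∀ (m n : ℕ) (f : Op m n) (x : K.S n), ∀ c ∈ (p.app n x).1.1,
      G n x c ∘ f = G m (K.act f x) (c ∘ f)) : SS.Hom K (Ps W v a) :=
  ⟨fun n x => ⟨(im (G n x) (p.app n x).1.1, im (G n x) (p.app n x).1.2),
    (hi n x).ci, by rw [(hi n x).card, (p.app n x).2.2.1], im_mono (p.app n x).2.2.2.1,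
    by rw [((hi n x).mono (p.app n x).2.2.2.1).card, (p.app n x).2.2.2.2]⟩,
   fun {m n} f x => by
    refine Subtype.ext (Prod.ext ?_ ?_)
    · show im (G m (K.act f x)) (p.app m (K.act f x)).1.1 = re f (im (G n x) (p.app n x).1.1)
      rw [re_im f (hn m n f x), p.nat]; rfl
    · show im (G m (K.act f x)) (p.app m (K.act f x)).1.2 = re f (im (G n x) (p.app n x).1.2)
      rw [re_im f (fun c hc => hn m n f x c ((p.app n x).2.2.2.1 hc)), p.nat]; rfl⟩

/-- twist a map to `Fs U v` by maps of threads -/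
noncomputable def Fs.tw {K : SS} {U W : Type} {v : ℕ} (p : SS.Hom K (Fs U v))
    (G : ∀ n, K.S n → (Fin (n + 1) → U) → Fin (n + 1) → W)
    (hi : ∀ n x, VI (G n x) (p.app n x).1)
    (hn : ∀ (m n : ℕ) (f : Op m n) (x : K.S n), ∀ c ∈ (p.app n x).1,
      G n x c ∘ f = G m (K.act f x) (c ∘ f)) : SS.Hom K (Fs W v) :=
  ⟨fun n x => ⟨im (G n x) (p.app n x).1,
    (hi n x).ci, by rw [(hi n x).card, (p.app n x).2.2]⟩,
   fun {m n} f x => by
    refine Subtype.ext ?_
    show im (G m (K.act f x)) (p.app m (K.act f x)).1 = re f (im (G n x) (p.app n x).1)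
    rw [re_im f (hn m n f x), p.nat]; rfl⟩

/-! ### homotopies -/

/-- `i`-end of the cylinder -/
def cyl (K : SS) (i : Fin 2) : SS.Hom K (K.prod (SS.std 1)) :=
  SS.pair (SS.Hom.id K) ⟨fun _ _ => ⟨fun _ => i, fun _ _ _ => le_rfl⟩, fun _ _ => rfl⟩

/-- colour of a vertex of a simplex of `Δ¹` -/
def tm {n : ℕ} (θ : (SS.std 1).S n) : Fin (n + 1) → Fin 2 :=
  let g : Op n 1 := θ
  g

theorem tm_act {m n : ℕ} (f : Op m n) (θ : (SS.std 1).S n) (i : Fin (m + 1)) :
    tm ((SS.std 1).act f θ) i = tm θ (f i) := rfl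

theorem tm_cyl {K : SS} {n : ℕ} (x : K.S n) (j : Fin 2) (i : Fin (n + 1)) :
    tm ((cyl K j).app n x).2 i = j := rfl

/-- homotopy invariance (block A6a, same as `SpecA.HomotopyInv`) -/
def HInv : Prop := ∀ (R : Type) [CommRing R] (K L : SS) (h : SS.Hom (K.prod (SS.std 1)) L),
  H.map R (SS.Hom.comp h (cyl K 0)) = H.map R (SS.Hom.comp h (cyl K 1))

/-- simplicially homotopic (one step) -/
def Htp {K L : SS} (f g : SS.Hom K L) : Prop := ∃ h : SS.Hom (K.prod (SS.std 1)) L,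
  SS.Hom.comp h (cyl K 0) = f ∧ SS.Hom.comp h (cyl K 1) = g

theorem HInv.eq (hI : HInv) (R : Type) [CommRing R] {K L : SS} {f g : SS.Hom K L} (h : Htp f g) :
    H.map R f = H.map R g := by
  obtain ⟨h, rfl, rfl⟩ := h
  exact hI R K L h

theorem Ch.map_comp' (R : Type) [CommRing R] {K L M : SS} (g : SS.Hom L M) (f : SS.Hom K L)
    (c : Ch R K) : Ch.map R (SS.Hom.comp g f) c = Ch.map R g (Ch.map R f c) := by
  induction c using Finsupp.induction_linear with
  | zero => simp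
  | add f g hf hg => simp only [map_add, hf, hg]
  | single t r => obtain ⟨n, x⟩ := t; simp [SS.Hom.comp]

theorem Ch.map_id' (R : Type) [CommRing R] {K : SS} (c : Ch R K) :
    Ch.map R (SS.Hom.id K) c = c := by
  induction c using Finsupp.induction_linear with
  | zero => simp
  | add f g hf hg => simp only [map_add, hf, hg]
  | single t r => obtain ⟨n, x⟩ := t; simp [SS.Hom.id]

theorem H.map_comp' (R : Type) [CommRing R] {K L M : SS} (g : SS.Hom L M) (f : SS.Hom K L)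
    (x : H R K) : H.map R (SS.Hom.comp g f) x = H.map R g (H.map R f x) := by
  obtain ⟨z, hz, rfl⟩ := Hd.mk_surj _ x
  rw [H.map, H.map, H.map, Hd.map_mk, Hd.map_mk, Hd.map_mk, Hd.mk_eq_mk]
  refine ⟨0, ?_⟩
  rw [map_zero, eq_comm, sub_eq_zero]
  obtain ⟨c, rfl⟩ := Submodule.Quotient.mk_surjective _ z
  rw [N.map_mk, N.map_mk, N.map_mk, Ch.map_comp']

theorem H.map_id' (R : Type) [CommRing R] {K : SS} (x : H R K) : H.map R (SS.Hom.id K) x = x := by
  obtain ⟨z, hz, rfl⟩ := Hd.mk_surj _ x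
  rw [H.map, Hd.map_mk, Hd.mk_eq_mk]
  refine ⟨0, ?_⟩
  rw [map_zero, eq_comm, sub_eq_zero]
  obtain ⟨c, rfl⟩ := Submodule.Quotient.mk_surjective _ z
  rw [N.map_mk, Ch.map_id']

/-- homotopy between twists: threads moved by `G`, resp. `G'`, at the vertices of colour `0`, resp. `1` -/
theorem Ps.tw_htp {K : SS} {U W : Type} {v a : ℕ} (p : SS.Hom K (Ps U v a))
    (G G' : ∀ n, K.S n → (Fin (n + 1) → U) → Fin (n + 1) → W)
    (hi : ∀ n x, VI (G n x) (p.app n x).1.1) (hi' : ∀ n x, VI (G' n x) (p.app n x).1.1)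
    (hn : ∀ (m n : ℕ) (f : Op m n) (x : K.S n), ∀ c ∈ (p.app n x).1.1,
      G n x c ∘ f = G m (K.act f x) (c ∘ f))
    (hn' : ∀ (m n : ℕ) (f : Op m n) (x : K.S n), ∀ c ∈ (p.app n x).1.1,
      G' n x c ∘ f = G' m (K.act f x) (c ∘ f)) :
    Htp (Ps.tw p G hi hn) (Ps.tw p G' hi' hn') := by
  refine ⟨Ps.tw (SS.Hom.comp p (SS.fst K (SS.std 1)))
    (fun n x c i => if tm x.2 i = 0 then G n x.1 c i else G' n x.1 c i) ?_ ?_, ?_, ?_⟩
  · intro n x i
    by_cases h : tm x.2 i = 0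
    · simp only [h, if_true]; exact hi n x.1 i
    · simp only [h, if_false]; exact hi' n x.1 i
  · intro m n f x c hc
    funext i
    have h1 := congrFun (hn m n f x.1 c hc) i
    have h2 := congrFun (hn' m n f x.1 c hc) i
    simp only [Function.comp_apply] at h1 h2 ⊢
    show (if tm x.2 (f i) = 0 then G n x.1 c (f i) else G' n x.1 c (f i)) =
      (if tm x.2 (f i) = 0 then _ else _)
    rw [h1, h2]; rfl
  · refine SS.Hom.ext (funext fun n => funext fun x => Subtype.ext (Prod.ext ?_ ?_)) <;>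
    · show im _ _ = im _ _
      congr 1
  · refine SS.Hom.ext (funext fun n => funext fun x => Subtype.ext (Prod.ext ?_ ?_)) <;>
    · show im _ _ = im _ _
      congr 1

/-- homotopy between twists, `Fs` version -/
theorem Fs.tw_htp {K : SS} {U W : Type} {v : ℕ} (p : SS.Hom K (Fs U v))
    (G G' : ∀ n, K.S n → (Fin (n + 1) → U) → Fin (n + 1) → W)
    (hi : ∀ n x, VI (G n x) (p.app n x).1) (hi' : ∀ n x, VI (G' n x) (p.app n x).1)
    (hn : ∀ (m n : ℕ) (f : Op m n) (x : K.S n), ∀ c ∈ (p.app n x).1,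
      G n x c ∘ f = G m (K.act f x) (c ∘ f))
    (hn' : ∀ (m n : ℕ) (f : Op m n) (x : K.S n), ∀ c ∈ (p.app n x).1,
      G' n x c ∘ f = G' m (K.act f x) (c ∘ f)) :
    Htp (Fs.tw p G hi hn) (Fs.tw p G' hi' hn') := by
  refine ⟨Fs.tw (SS.Hom.comp p (SS.fst K (SS.std 1)))
    (fun n x c i => if tm x.2 i = 0 then G n x.1 c i else G' n x.1 c i) ?_ ?_, ?_, ?_⟩
  · intro n x i
    by_cases h : tm x.2 i = 0
    · simp only [h, if_true]; exact hi n x.1 i
    · simp only [h, if_false]; exact hi' n x.1 i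
  · intro m n f x c hc
    funext i
    have h1 := congrFun (hn m n f x.1 c hc) i
    have h2 := congrFun (hn' m n f x.1 c hc) i
    simp only [Function.comp_apply] at h1 h2 ⊢
    show (if tm x.2 (f i) = 0 then G n x.1 c (f i) else G' n x.1 c (f i)) =
      (if tm x.2 (f i) = 0 then _ else _)
    rw [h1, h2]; rfl
  · refine SS.Hom.ext (funext fun n => funext fun x => Subtype.ext ?_)
    show im _ _ = im _ _
    congr 1
  · refine SS.Hom.ext (funext fun n => funext fun x => Subtype.ext ?_)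
    show im _ _ = im _ _
    congr 1

/-! ### relabelling -/

variable {U W X : Type}

theorem vi_comp {n : ℕ} {A : Finset (Fin (n + 1) → U)} (hA : CI A) {φ : U → W}
    (hφ : Function.Injective φ) : VI (fun c i => φ (c i)) A :=
  fun i _ ha _ hb e => hA i ha hb (hφ e)

/-- relabelling along an injection -/
noncomputable def Fs.rel (v : ℕ) (φ : U → W) (hφ : Function.Injective φ) :
    SS.Hom (Fs U v) (Fs W v) :=
  Fs.tw (SS.Hom.id _) (fun _ _ c i => φ (c i)) (fun _ x => vi_comp x.2.1 hφ)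
    (fun _ _ _ _ _ _ => rfl)

/-- relabelling along an injection -/
noncomputable def Ps.rel (v a : ℕ) (φ : U → W) (hφ : Function.Injective φ) :
    SS.Hom (Ps U v a) (Ps W v a) :=
  Ps.tw (SS.Hom.id _) (fun _ _ c i => φ (c i)) (fun _ x => vi_comp x.2.1 hφ)
    (fun _ _ _ _ _ _ => rfl)

theorem Fs.rel_htp (v : ℕ) (φ ψ : U → W) (hφ : Function.Injective φ) (hψ : Function.Injective ψ) :
    Htp (Fs.rel v φ hφ) (Fs.rel v ψ hψ) := Fs.tw_htp _ _ _ _ _ _ _

theorem Ps.rel_htp (v a : ℕ) (φ ψ : U → W) (hφ : Function.Injective φ)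
    (hψ : Function.Injective ψ) : Htp (Ps.rel v a φ hφ) (Ps.rel v a ψ hψ) :=
  Ps.tw_htp _ _ _ _ _ _ _

theorem im_im {n : ℕ} (G : (Fin (n + 1) → U) → Fin (n + 1) → W)
    (G' : (Fin (n + 1) → W) → Fin (n + 1) → X) (A : Finset (Fin (n + 1) → U)) :
    im G' (im G A) = im (fun c => G' (G c)) A := by
  ext g
  simp only [mem_im]
  constructor
  · rintro ⟨_, ⟨a, ha, rfl⟩, rfl⟩; exact ⟨a, ha, rfl⟩
  · rintro ⟨a, ha, rfl⟩; exact ⟨_, ⟨a, ha, rfl⟩, rfl⟩

theorem im_id {n : ℕ} (A : Finset (Fin (n + 1) → U)) : im (fun c => c) A = A := by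
  ext g; simp [mem_im]

theorem Fs.rel_comp (v : ℕ) (φ : U → W) (hφ : Function.Injective φ) (ψ : W → X)
    (hψ : Function.Injective ψ) : SS.Hom.comp (Fs.rel v ψ hψ) (Fs.rel v φ hφ) =
      Fs.rel v (ψ ∘ φ) (hψ.comp hφ) :=
  SS.Hom.ext (funext fun _ => funext fun _ => Subtype.ext (im_im _ _ _))

theorem Ps.rel_comp (v a : ℕ) (φ : U → W) (hφ : Function.Injective φ) (ψ : W → X)
    (hψ : Function.Injective ψ) : SS.Hom.comp (Ps.rel v a ψ hψ) (Ps.rel v a φ hφ) =
      Ps.rel v a (ψ ∘ φ) (hψ.comp hφ) :=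
  SS.Hom.ext (funext fun _ => funext fun _ => Subtype.ext (Prod.ext (im_im _ _ _) (im_im _ _ _)))

theorem Fs.rel_id (v : ℕ) : Fs.rel v (id : U → U) Function.injective_id = SS.Hom.id _ :=
  SS.Hom.ext (funext fun _ => funext fun _ => Subtype.ext (im_id _))

theorem Ps.rel_id (v a : ℕ) : Ps.rel v a (id : U → U) Function.injective_id = SS.Hom.id _ :=
  SS.Hom.ext (funext fun _ => funext fun _ => Subtype.ext (Prod.ext (im_id _) (im_id _)))

/-- relabellings are bijective in homology as soon as the bigger set embeds in the smaller one -/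
theorem Fs.rel_bij (hI : HInv) (R : Type) [CommRing R] (v : ℕ) (φ : U → W)
    (hφ : Function.Injective φ) (k : W → U) (hk : Function.Injective k) :
    Function.Bijective (H.map R (Fs.rel v φ hφ)) := by
  have h1 : ∀ x, H.map R (Fs.rel v k hk) (H.map R (Fs.rel v φ hφ) x) = x := by
    intro x
    rw [← H.map_comp', Fs.rel_comp, hI.eq R (Fs.rel_htp v (k ∘ φ) id _ Function.injective_id),
      Fs.rel_id, H.map_id']
  have h2 : ∀ x, H.map R (Fs.rel v φ hφ) (H.map R (Fs.rel v k hk) x) = x := by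
    intro x
    rw [← H.map_comp', Fs.rel_comp, hI.eq R (Fs.rel_htp v (φ ∘ k) id _ Function.injective_id),
      Fs.rel_id, H.map_id']
  exact ⟨Function.LeftInverse.injective h1, Function.RightInverse.surjective h2⟩

theorem Ps.rel_bij (hI : HInv) (R : Type) [CommRing R] (v a : ℕ) (φ : U → W)
    (hφ : Function.Injective φ) (k : W → U) (hk : Function.Injective k) :
    Function.Bijective (H.map R (Ps.rel v a φ hφ)) := by
  have h1 : ∀ x, H.map R (Ps.rel v a k hk) (H.map R (Ps.rel v a φ hφ) x) = x := by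
    intro x
    rw [← H.map_comp', Ps.rel_comp, hI.eq R (Ps.rel_htp v a (k ∘ φ) id _ Function.injective_id),
      Ps.rel_id, H.map_id']
  have h2 : ∀ x, H.map R (Ps.rel v a φ hφ) (H.map R (Ps.rel v a k hk) x) = x := by
    intro x
    rw [← H.map_comp', Ps.rel_comp, hI.eq R (Ps.rel_htp v a (φ ∘ k) id _ Function.injective_id),
      Ps.rel_id, H.map_id']
  exact ⟨Function.LeftInverse.injective h1, Function.RightInverse.surjective h2⟩

end Crest.Agent.R204.Fs348
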