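import Crest.Agent.R204.SqInt_898
import Crest.Agent.R204.SqPhi_888
import Crest.Agent.R204.Sq2_252
import Crest.Agent.R204.CopH_847

/-!
# Row 204, block S (helper898): the top square

`<u, R_0 x> = <u ⊗ u, Δ x>`, hence `<u, Sq_n y> = <u ⊗ u, Δ y>` for `y` of degree `2n`;
`Sq_1 a_2 = a_1` in `H(B Z/2)`.
-/

set_option autoImplicit false

noncomputable section

namespace Crest.Agent.R204.C6898

open SS TensorProduct Coalg847 EZ271 EZ847 Sq252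

theorem uu_tD {K : SS} (u : N F2 K →ₗ[F2] F2) (hu : ∀ x, u (N.bd F2 K x) = 0)
    (z : N F2 K ⊗[F2] N F2 K) : uu u (tD (N.bd F2 K) (N.bd F2 K) z) = 0 := uu_dT (N.bd F2 K) u hu z

theorem uu_Phi_zero {K : SS} (u : N F2 K →ₗ[F2] F2) (hu : ∀ x, u (N.bd F2 K x) = 0)
    (z : N F2 K) (hz : N.bd F2 K z = 0) : uu u (Phi252.Phi K 0 z) = uu u (EZ271.cop F2 z) := by
  obtain ⟨w, hw⟩ := Q888.family_w K z hz
  have h := congrArg (fun t => uu u (aw F2 t)) (hw 0)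
  simp only [AMU898.prev_zero, map_zero, add_zero, map_add] at h
  have h1 : aw F2 (Q888.th K 0 z) = Phi252.Phi K 0 z := aw_crossT F2 _
  have h2 : aw F2 (Q888.th' K 0 z) = EZ271.cop F2 z := EZ847.aw_diag z
  have h3 : uu u (aw F2 (N.bd F2 (K.prod K) (w 0))) = 0 := by
    rw [EZ847.aw_bd]
    exact uu_dT (N.bd F2 K) u hu _
  rw [h1, h2, h3] at h
  have := QC134.add_self' (uu u (EZ271.cop F2 z))
  calc uu u (Phi252.Phi K 0 z) = uu u (Phi252.Phi K 0 z) +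
        (uu u (EZ271.cop F2 z) + uu u (EZ271.cop F2 z)) := by rw [this, add_zero]
    _ = uu u (EZ271.cop F2 z) := by rw [← add_assoc, h, zero_add]

/-- functional on the homology of a tensor square -/
theorem lid_eq_uH {K : SS} (u : N F2 K →ₗ[F2] F2) (hu : ∀ x, u (N.bd F2 K x) = 0)
    (t : H F2 K ⊗[F2] H F2 K) : TensorProduct.lid F2 F2 (TensorProduct.map (uH _ u hu) (uH _ u hu) t) =
      uH (tD (N.bd F2 K) (N.bd F2 K)) (uu u) (uu_tD u hu)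
        (kun (N.bd F2 K) (N.bd F2 K) N.bd_bd N.bd_bd t) := by
  induction t with
  | zero => simp
  | add a b ha hb => simp only [map_add, ha, hb]
  | tmul a b =>
    obtain ⟨a, ha, rfl⟩ := Hd.mk_surj _ a
    obtain ⟨b, hb, rfl⟩ := Hd.mk_surj _ b
    rw [kun_mk, uH_mk, TensorProduct.map_tmul, TensorProduct.lid_tmul, uH_mk, uH_mk, uu_tmul,
      smul_eq_mul]

/-- **top square, total form**: `<f, R_0 x> = <f ⊗ f, Δ x>` -/
theorem top_Rk {K : SS} (f : H F2 K →ₗ[F2] F2) (x : H F2 K) :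
    f (Rk K 0 x) = TensorProduct.lid F2 F2 (TensorProduct.map f f (Ez.cop K x)) := by
  obtain ⟨u, hu, rfl⟩ := exists_uH (N.bd F2 K) (fun x => N.bd_bd x) f
  obtain ⟨z, hz, rfl⟩ := Hd.mk_surj _ x
  rw [uH_Rk, lid_eq_uH, uu_Phi_zero u hu z hz]
  have h := kun_copH z hz
  have e : kun (N.bd F2 K) (N.bd F2 K) N.bd_bd N.bd_bd (Ez.cop K (Hd.mk _ z hz)) =
      Hd.mk _ (EZ271.cop F2 z) (cop_cyc hz) := h
  rw [e, uH_mk]

/-- **top square**: `<f, Sq_n y> = <f ⊗ f, Δ y>` for `y` of degree `2n` -/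
theorem top_Sq {K : SS} (f : H F2 K →ₗ[F2] F2) {n : ℕ} {y : H F2 K} (hy : y ∈ H.gr F2 K (2 * n)) :
    f (Sq252.Sq K n y) = TensorProduct.lid F2 F2 (TensorProduct.map f f (Ez.cop K y)) := by
  rw [← top_Rk, Rk_eq_Sq hy (by omega : 2 * n = 2 * n + 0)]

/-- `Sq_1 a_2 = a_1` -/
theorem top2 : Sq252.Sq BZ498.BZ 1 (BZ498.aZ 2) = BZ498.aZ 1 := by
  have h2 : BZ498.aZ 2 ∈ H.gr F2 BZ498.BZ (2 * 1) := BZ498.aZ_mem_gr 2
  obtain ⟨r, hr⟩ := BZ498.memZ_gr 1 _ (Sq_mem_gr h2 : _ ∈ H.gr F2 BZ498.BZ (2 * 1 - 1))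
  have h := top_Sq (BZ498.xZ 1) h2
  rw [SqPre.pair_cop, SqPre.pair_aZ, if_pos rfl, hr, map_smul, BZ498.xZ_aZ, if_pos rfl, smul_eq_mul,
    mul_one] at h
  rw [hr, h, one_smul]

end Crest.Agent.R204.C6898
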