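import Crest.Agent.R204.Thm3D_85
import Crest.Agent.R204.Spec_114

/-!
# Row 204: the operation algebra `Ops` of one stage of `Spec_114.Tower` (helper85)

* `linQ` : the Araki–Kudo operations as linear maps;
* `mkOps` : `Thm3.Ops` from the facts about ONE space (ring `H`, degrees, `T`, `Q`, `Sq`);
* `towerOps` : the instance for stage `k` of a `Spec114.Tower`;
* `towerBase` (`k ≥ 1`), `towerBase0` (`k = 0`);
* `tw_eq`, `qw_eq`, `qdeg_eq_wdeg` : words as lists.
-/

set_option autoImplicit false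

noncomputable section

namespace Crest.Agent.R204.TowerOps85

open Thm3 Finset
open scoped TensorProduct

theorem add_self_eq {H : Type*} [AddCommGroup H] [Module (ZMod 2) H] (y : H) : y + y = 0 := by
  have : y + y = (2 : ZMod 2) • y := by rw [two_smul]
  rw [this, show (2 : ZMod 2) = 0 from rfl, zero_smul]

section one

variable {H : Type*} [CommRing H] [Algebra (ZMod 2) H]

theorem add_mul_self' (y z : H) : (y + z) * (y + z) = y * y + z * z := by
  have : (y + z) * (y + z) = y * y + z * z + (y * z + y * z) := by ring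
  rw [this, add_self_eq, add_zero]

/-- the operation `Q_i` as a linear map (`0` for `i > D + 1`) -/
def linQ (D : ℕ) (Q : ℕ → H → H) (h0 : ∀ y, Q 0 y = y * y)
    (hadd : ∀ i, 1 ≤ i → i ≤ D + 1 → ∀ y z, Q i (y + z) = Q i y + Q i z) (i : ℕ) : H →ₗ[ZMod 2] H :=
  if h : i ≤ D + 1 then
    (AddMonoidHom.mk' (Q i) (fun y z => by
      rcases Nat.eq_zero_or_pos i with rfl | hi
      · rw [h0, h0, h0, add_mul_self']
      · exact hadd i hi h y z)).toZModLinearMap 2
  else 0

theorem linQ_apply (D : ℕ) (Q : ℕ → H → H) (h0 : ∀ y, Q 0 y = y * y)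
    (hadd : ∀ i, 1 ≤ i → i ≤ D + 1 → ∀ y z, Q i (y + z) = Q i y + Q i z) {i : ℕ} (hi : i ≤ D + 1) (y : H) :
    linQ D Q h0 hadd i y = Q i y := by
  rw [linQ, dif_pos hi]
  rfl

/-- `Q^s` on a class of degree `u` -/
def qup (Q : ℕ → H → H) (s u : ℕ) (y : H) : H := if u ≤ s then Q (s - u) y else 0

/-- **`Ops` from the facts about one space** (`M = D + 1`) -/
def mkOps (D : ℕ) (gr : ℕ → Submodule (ZMod 2) H) (Sq T : ℕ → (H →ₗ[ZMod 2] H)) (Q : ℕ → H → H)
    (hsq0 : ∀ y, Sq 0 y = y)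
    (hsqgr : ∀ a t, ∀ y ∈ gr t, Sq a y ∈ gr (t - a))
    (hunst : ∀ a t, ∀ y ∈ gr t, t < 2 * a → Sq a y = 0)
    (hTgr : ∀ i ≤ D + 1, ∀ t, ∀ y ∈ gr t, T i y ∈ gr (t + i))
    (hSqT : ∀ i ≤ D + 1, ∀ (a : ℕ) (y : H), Sq a (T i y) =
      ∑ b ∈ range (a + 1), (if 2 * b ≤ i then (Nat.choose (i - b) b : ZMod 2) else 0) •
        T (i - b) (Sq (a - b) y))
    (hgl2 : ∀ i j, i + j ≤ D + 1 → ∀ y, T i (T j y) = T j (T i y) ∧
      T i (T j y) = ∑ l ∈ range (i + 1), (Nat.choose (l + j) j : ZMod 2) • T (i - l) (T (j + l) y))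
    (h0 : ∀ y, Q 0 y = y * y)
    (hadd : ∀ i, 1 ≤ i → i ≤ D + 1 → ∀ y z, Q i (y + z) = Q i y + Q i z)
    (hQgr : ∀ i ≤ D + 1, ∀ t, ∀ y ∈ gr t, Q i y ∈ gr (2 * t + i))
    (h13 : ∀ i, 1 ≤ i → i ≤ D + 1 → ∀ t, ∀ y ∈ gr t,
      T i y = ∑ l ∈ range (t / 2 + 1), qup Q (i + l) (t - l) (Sq l y)) : Ops H where
  gr := gr
  T := T
  Q := linQ D Q h0 hadd
  Sq := Sq
  M := D + 1
  T_gr := fun i hi d y hy => hTgr i hi d y hy
  Q_gr := fun i hi d y hy => by
    rw [linQ_apply D Q h0 hadd hi]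
    exact hQgr i hi d y hy
  Sq_gr := fun a d y hy _ => hsqgr a d y hy
  Sq_zero := hsq0
  Sq_unst := fun a d y hy h => hunst a d y hy h
  T_eq := fun i h1 hi d y hy => by
    rw [h13 i h1 hi d y hy]
    refine Finset.sum_congr rfl fun l hl => ?_
    rw [Finset.mem_range] at hl
    rw [qup]
    by_cases h : d ≤ i + 2 * l
    · rw [if_pos (by omega), if_pos h, linQ_apply D Q h0 hadd (by omega)]
      congr 1
      omega
    · rw [if_neg (by omega), if_neg h]
  Sq_T := fun a i hi y => by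
    rw [hSqT i hi a y]
    refine Finset.sum_congr rfl fun b _ => ?_
    split_ifs
    · rfl
    · rw [zero_smul]
  T_swap := fun i j h y => (hgl2 i j h y).1
  T_trans := fun i j h y => by
    rw [(hgl2 i j h y).1, (hgl2 j i (by omega) y).2]
    refine Finset.sum_congr rfl fun s hs => ?_
    rw [Finset.mem_range] at hs
    rw [(hgl2 (j - s) (i + s) (by omega) y).1]
    congr 2
    rw [add_comm s i, Nat.choose_symm_add]

end one

/-! ## stage `k` of a tower -/

variable {X : Spec114.Tower} {D : ℕ}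

open Spec114

/-- the operation algebra of stage `k` -/
def towerOps (hSq : X.FactSq D) (hT : X.FactT D) (hG : X.FactGL2 D) (hQ : X.FactQ D) (h13 : X.Fact13 D)
    {k : ℕ} (hk : k ≤ D + 2) : Ops (X.H k) :=
  mkOps D (X.gr k) (X.Sq k) (X.T k) (X.Q k)
    (hSq k hk).1 (hSq k hk).2.1 (hSq k hk).2.2.1
    (fun i hi => (hT k hk i hi).1)
    (fun i hi => (hT k hk i hi).2.2.2)
    (fun i j h y => hG k hk i j h y)
    (hQ k hk).1 (hQ k hk).2.1 (hQ k hk).2.2
    (fun i h1 hi t y hy => h13 k hk i h1 hi t y hy)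

section

variable (hSq : X.FactSq D) (hT : X.FactT D) (hG : X.FactGL2 D) (hQ : X.FactQ D) (h13 : X.Fact13 D)
  {k : ℕ} (hk : k ≤ D + 2)

@[simp] theorem towerOps_M : (towerOps hSq hT hG hQ h13 hk).M = D + 1 := rfl
@[simp] theorem towerOps_gr : (towerOps hSq hT hG hQ h13 hk).gr = X.gr k := rfl
@[simp] theorem towerOps_T : (towerOps hSq hT hG hQ h13 hk).T = X.T k := rfl
@[simp] theorem towerOps_Sq : (towerOps hSq hT hG hQ h13 hk).Sq = X.Sq k := rfl
theorem towerOps_Q {i : ℕ} (hi : i ≤ D + 1) (y : X.H k) :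
    (towerOps hSq hT hG hQ h13 hk).Q i y = X.Q k i y :=
  linQ_apply D (X.Q k) (hQ k hk).1 (hQ k hk).2.1 hi y

/-! ### words as lists -/

theorem tw_eq (y : X.H k) : ∀ {r : ℕ} (m : Fin r → ℕ),
    (towerOps hSq hT hG hQ h13 hk).tw m y = (List.ofFn m).foldr (fun i z => X.T k i z) y
  | 0, m => by simp
  | r + 1, m => by
    rw [Ops.tw_succ, tw_eq y (Fin.tail m), List.ofFn_succ, List.foldr_cons]
    rfl

theorem tw_x {r : ℕ} (m : Fin r → ℕ) :
    (towerOps hSq hT hG hQ h13 hk).tw m (X.x k) = X.tword k (List.ofFn m) := tw_eq ..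

theorem qw_eq (y : X.H k) : ∀ {r : ℕ} (m : Fin r → ℕ), (∀ j, m j ≤ D + 1) →
    (towerOps hSq hT hG hQ h13 hk).qw m y = (List.ofFn m).foldr (fun i z => X.Q k i z) y
  | 0, m, _ => by simp
  | r + 1, m, h => by
    rw [Ops.qw_succ, qw_eq y (Fin.tail m) (fun j => h j.succ), List.ofFn_succ, List.foldr_cons,
      towerOps_Q hSq hT hG hQ h13 hk (h 0)]
    rfl

theorem qw_x {r : ℕ} (m : Fin r → ℕ) (h : ∀ j, m j ≤ D + 1) :
    (towerOps hSq hT hG hQ h13 hk).qw m (X.x k) = X.word k (List.ofFn m) := qw_eq _ _ _ _ _ _ _ _ h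

end

theorem qdeg_eq_wdeg (k : ℕ) : ∀ {r : ℕ} (m : Fin r → ℕ), qdeg k m = Tower.wdeg k (List.ofFn m)
  | 0, m => by simp [Tower.wdeg]
  | r + 1, m => by
    rw [qdeg_succ, qdeg_eq_wdeg k (Fin.tail m), List.ofFn_succ]
    rfl

theorem qdeg_get (k : ℕ) (I : List ℕ) : qdeg k I.get = Tower.wdeg k I := by
  rw [qdeg_eq_wdeg, List.ofFn_get]

/-- admissible lists -/
def AdmL (r k t : ℕ) : Type := {I : List ℕ // I.Pairwise (· ≤ ·) ∧ I.length = r ∧ Tower.wdeg k I = k + t}

theorem pairwise_ofFn_iff {r : ℕ} (m : Fin r → ℕ) : (List.ofFn m).Pairwise (· ≤ ·) ↔ Monotone m := by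
  rw [List.pairwise_ofFn]
  constructor
  · intro h i j hij
    rcases hij.eq_or_lt with rfl | h'
    · exact le_rfl
    · exact h h'
  · intro h i j hij
    exact h hij.le

/-- admissible words as functions or lists -/
def admEquiv (r k t : ℕ) : Adm r k t ≃ AdmL r k t where
  toFun m := ⟨List.ofFn m.1, (pairwise_ofFn_iff _).2 m.2.1, List.length_ofFn, by
    rw [← qdeg_eq_wdeg]; exact m.2.2⟩
  invFun I := ⟨fun j => I.1.get (j.cast I.2.2.1.symm), by
    have h := I.2.1
    intro i j hij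
    rcases hij.eq_or_lt with rfl | h'
    · exact le_rfl
    · exact List.pairwise_iff_get.1 h _ _ (by simpa using h'), by
    obtain ⟨I, h1, h2, h3⟩ := I
    subst h2
    simp only [Fin.cast_eq_self]
    rw [qdeg_get]
    exact h3⟩
  left_inv m := by
    apply Subtype.ext
    funext j
    simp
  right_inv I := by
    obtain ⟨I, h1, h2, h3⟩ := I
    subst h2
    apply Subtype.ext
    simp only [Fin.cast_eq_self]
    exact List.ofFn_get I

theorem mem_le_wdeg' {k i : ℕ} {I : List ℕ} (hi : i ∈ I) : i + k ≤ Tower.wdeg k I := by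
  have hle : ∀ (I : List ℕ), k ≤ Tower.wdeg k I := by
    intro I
    induction I with
    | nil => exact le_rfl
    | cons i I ih =>
      change k ≤ 2 * Tower.wdeg k I + i
      omega
  induction I with
  | nil => simp at hi
  | cons j I ih =>
    change i + k ≤ 2 * Tower.wdeg k I + j
    have := hle I
    rcases List.mem_cons.1 hi with rfl | h
    · omega
    · have := ih h
      omega

/-! ### the fundamental classes -/

section base

variable (hSq : X.FactSq D) (hT : X.FactT D) (hG : X.FactGL2 D) (hQ : X.FactQ D) (h13 : X.Fact13 D)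

theorem T_prim' (hT : X.FactT D) {k : ℕ} (hk : k ≤ D + 2) {i : ℕ} (hi : i ≤ D + 1) {y : X.H k}
    (hy : X.IsPrim k y) : X.IsPrim k (X.T k i y) := by
  rw [Tower.IsPrim] at hy ⊢
  rw [(hT k hk i hi).2.2.1, hy]
  have h1 : ∀ b, b ≤ i → X.T k b 1 = if b = 0 then 1 else 0 :=
    fun b hb => (hT k hk b (hb.trans hi)).2.1
  simp only [map_add, TensorProduct.map_tmul, Finset.sum_add_distrib]
  congr 1
  · rw [Finset.sum_eq_single (i, 0)]
    · rw [h1 0 (Nat.zero_le _), if_pos rfl]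
    · rintro ⟨p, q⟩ hpq hne
      rw [Finset.HasAntidiagonal.mem_antidiagonal] at hpq
      simp only at hpq
      have : q ≠ 0 := by
        rintro rfl
        exact hne (by simp; omega)
      simp only [h1 q (by omega), if_neg this, TensorProduct.tmul_zero]
    · intro h
      exact absurd (by rw [Finset.HasAntidiagonal.mem_antidiagonal]; simp) h
  · rw [Finset.sum_eq_single (0, i)]
    · rw [h1 0 (Nat.zero_le _), if_pos rfl]
    · rintro ⟨p, q⟩ hpq hne
      rw [Finset.HasAntidiagonal.mem_antidiagonal] at hpq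
      simp only at hpq
      have : p ≠ 0 := by
        rintro rfl
        exact hne (by simp; omega)
      simp only [h1 p (by omega), if_neg this, TensorProduct.zero_tmul]
    · intro h
      exact absurd (by rw [Finset.HasAntidiagonal.mem_antidiagonal]; simp) h

theorem tw_prim {k : ℕ} (hk : k ≤ D + 2) (y : X.H k) (hy : X.IsPrim k y) : ∀ {r : ℕ} (m : Fin r → ℕ),
    ∑ j, m j ≤ D + 1 → X.IsPrim k ((towerOps hSq hT hG hQ h13 hk).tw m y)
  | 0, m, _ => by simpa using hy
  | r + 1, m, h => by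
    rw [sum_tail] at h
    rw [Ops.tw_succ]
    exact T_prim' hT hk (by omega) (tw_prim hk y hy (Fin.tail m) (by omega))

theorem tw_grouplike {k : ℕ} (hk : k ≤ D + 2) (hT0 : X.FactT0 D) (y : X.H k)
    (hy : X.Δ k y = y ⊗ₜ[ZMod 2] y) : ∀ r : ℕ,
      X.Δ k ((towerOps hSq hT hG hQ h13 hk).tw (fun _ : Fin r => 0) y) =
        ((towerOps hSq hT hG hQ h13 hk).tw (fun _ : Fin r => 0) y) ⊗ₜ[ZMod 2]
          ((towerOps hSq hT hG hQ h13 hk).tw (fun _ : Fin r => 0) y)
  | 0 => by simpa using hy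
  | r + 1 => by
    have ih := tw_grouplike hk hT0 y hy r
    have e : Fin.tail (fun _ : Fin (r + 1) => 0) = fun _ : Fin r => 0 := rfl
    rw [Ops.tw_succ, e]
    generalize (towerOps hSq hT hG hQ h13 hk).tw (fun _ : Fin r => 0) y = z at ih
    change X.Δ k (X.T k 0 z) = (X.T k 0 z) ⊗ₜ[ZMod 2] (X.T k 0 z)
    rw [hT0 k hk z, ih]
    simp only [LinearMap.mul'_apply, map_mul, ih, Algebra.TensorProduct.tmul_mul_tmul]

/-- the fundamental class, all `k` -/
theorem towerBase (hT0 : X.FactT0 D) (hX : X.FactX D) {k : ℕ} (hk : k ≤ D + 2) :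
    (towerOps hSq hT hG hQ h13 hk).Base k (X.x k) where
  mem := (hX.1 k hk).1
  sq := fun a ha => (hX.1 k hk).2 a ha
  t0 := fun hk0 r m hm => by
    have hp := tw_prim hSq hT hG hQ h13 hk (X.x k) (hX.2.1 k hk0 hk) m hm
    change X.T k 0 _ = 0
    rw [hT0 k hk, hp]
    simp only [map_add, LinearMap.mul'_apply, mul_one, one_mul]
    exact add_self_eq _
  t00 := fun hk0 r => by
    subst hk0
    have hp := tw_grouplike hSq hT hG hQ h13 hk hT0 (X.x 0) hX.2.2.1 r
    rw [towerOps_Q hSq hT hG hQ h13 hk (Nat.zero_le _), (hQ 0 hk).1]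
    change X.T 0 0 _ = _
    rw [hT0 0 hk, hp, LinearMap.mul'_apply]

end base

end Crest.Agent.R204.TowerOps85
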