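import Crest.Agent.R204.Defs

/-!
# Transfers for finite coverings of simplicial sets (row 204, block G)

`Cov p` : every simplicial operator induces bijections between fibres and fibres are finite.
`Cov.tr` : transfer on unnormalised chains, `Cov.ntr` on normalised chains, `Cov.htr` on homology.
`map p ∘ tr = m •` if all fibres have `m` elements, naturality for pullback squares,
surjectivity of `H p` if `m` is a unit in `R` (e.g. `m` odd, `R = F2`).
-/

set_option autoImplicit false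

namespace Crest.Agent.R204.Tr348

open Finsupp

/-- finite coverings -/
structure Cov {L K : SS} (p : SS.Hom L K) : Prop where
  bij : ∀ {m n : ℕ} (f : Op m n) (x : K.S n),
    Set.BijOn (L.act f) {y | p.app n y = x} {z | p.app m z = K.act f x}
  fin : ∀ {n : ℕ} (x : K.S n), {y | p.app n y = x}.Finite

namespace Cov

variable {L K : SS} {p : SS.Hom L K}

/-- fibre as a finset -/
noncomputable def fib (hp : Cov p) {n : ℕ} (x : K.S n) : Finset (L.S n) := (hp.fin x).toFinset

@[simp] theorem mem_fib (hp : Cov p) {n : ℕ} {x : K.S n} {y : L.S n} :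
    y ∈ hp.fib x ↔ p.app n y = x := by simp [fib]

/-- sums over fibres are natural -/
theorem sum_fib_act (hp : Cov p) {M : Type*} [AddCommMonoid M] {m n : ℕ} (f : Op m n) (x : K.S n)
    (g : L.S m → M) : ∑ z ∈ hp.fib (K.act f x), g z = ∑ y ∈ hp.fib x, g (L.act f y) := by
  symm
  refine Finset.sum_bij (fun y _ => L.act f y) ?_ ?_ ?_ ?_
  · intro y hy
    rw [mem_fib] at hy ⊢
    exact (hp.bij f x).mapsTo hy
  · intro y hy y' hy' h
    rw [mem_fib] at hy hy'
    exact (hp.bij f x).injOn hy hy' h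
  · intro z hz
    rw [mem_fib] at hz
    obtain ⟨y, hy, rfl⟩ := (hp.bij f x).surjOn hz
    exact ⟨y, hp.mem_fib.2 hy, rfl⟩
  · intro y _; rfl

theorem card_fib_act (hp : Cov p) {m n : ℕ} (f : Op m n) (x : K.S n) :
    (hp.fib (K.act f x)).card = (hp.fib x).card := by
  have := hp.sum_fib_act f x (fun _ => (1 : ℕ))
  simpa using this

variable (R : Type) [CommRing R]

/-- transfer of one simplex -/
noncomputable def trT (hp : Cov p) : K.T → Ch R L := fun t => ∑ y ∈ hp.fib t.2, single ⟨t.1, y⟩ 1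

/-- transfer on unnormalised chains -/
noncomputable def tr (hp : Cov p) : Ch R K →ₗ[R] Ch R L := Finsupp.linearCombination R (hp.trT R)

variable {R}

theorem tr_single (hp : Cov p) {n : ℕ} (x : K.S n) (r : R) :
    hp.tr R (single ⟨n, x⟩ r) = ∑ y ∈ hp.fib x, single (⟨n, y⟩ : L.T) r := by
  simp [tr, trT, Finset.smul_sum]

theorem tr_bd (hp : Cov p) (c : Ch R K) : hp.tr R (Ch.bd R K c) = Ch.bd R L (hp.tr R c) := by
  induction c using Finsupp.induction_linear with
  | zero => simp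
  | add f g hf hg => simp only [map_add, hf, hg]
  | single t r =>
    obtain ⟨n, x⟩ := t
    rcases n with _ | n
    · rw [Ch.bd_single_zero, map_zero, tr_single, map_sum]
      exact (Finset.sum_eq_zero fun y _ => Ch.bd_single_zero y r).symm
    · rw [Ch.bd_single_succ, map_sum, tr_single, map_sum]
      simp only [tr_single, Ch.bd_single_succ]
      rw [Finset.sum_comm]
      refine Finset.sum_congr rfl fun i _ => ?_
      rw [hp.sum_fib_act (Op.face i) x (fun y => single (⟨n, y⟩ : L.T) (r * (-1) ^ (i : ℕ)))]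

theorem tr_mem_Dg (hp : Cov p) {c : Ch R K} (hc : c ∈ Ch.Dg R K) : hp.tr R c ∈ Ch.Dg R L := by
  refine Submodule.span_induction (p := fun c _ => hp.tr R c ∈ Ch.Dg R L) ?_ ?_ ?_ ?_ hc
  · rintro _ ⟨⟨n, x⟩, hx, rfl⟩
    rcases n with _ | n
    · exact hx.elim
    · obtain ⟨j, y, rfl⟩ := hx
      rw [tr_single, hp.sum_fib_act (Op.dgn j) y (fun y => single (⟨n + 1, y⟩ : L.T) (1 : R))]
      exact Submodule.sum_mem _ fun z _ => Submodule.subset_span ⟨_, Ch.isDgn_act _ _ _, rfl⟩
  · simp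
  · intro a b _ _ ha hb; rw [map_add]; exact Submodule.add_mem _ ha hb
  · intro r a _ ha; rw [map_smul]; exact Submodule.smul_mem _ _ ha

theorem map_tr (hp : Cov p) {m : ℕ} (hm : ∀ (n : ℕ) (x : K.S n), (hp.fib x).card = m) (c : Ch R K) :
    Ch.map R p (hp.tr R c) = (m : R) • c := by
  induction c using Finsupp.induction_linear with
  | zero => simp
  | add f g hf hg => simp only [map_add, hf, hg, smul_add]
  | single t r =>
    obtain ⟨n, x⟩ := t
    rw [tr_single, map_sum]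
    rw [Finset.sum_congr rfl (g := fun _ => single (⟨n, x⟩ : K.T) r)]
    · rw [Finset.sum_const, hm n x, Nat.cast_smul_eq_nsmul]
    · intro y hy
      rw [mem_fib] at hy
      rw [Ch.map_single, hy]

/-- the transfer preserves dimension -/
theorem tr_mem_gr (hp : Cov p) {n : ℕ} {c : Ch R K} (hc : c ∈ Ch.gr R K n) :
    hp.tr R c ∈ Ch.gr R L n := by
  refine Submodule.span_induction (p := fun c _ => hp.tr R c ∈ Ch.gr R L n) ?_ ?_ ?_ ?_ hc
  · rintro _ ⟨x, rfl⟩
    rw [tr_single]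
    exact Submodule.sum_mem _ fun z _ => Submodule.subset_span ⟨_, rfl⟩
  · simp
  · intro a b _ _ ha hb; rw [map_add]; exact Submodule.add_mem _ ha hb
  · intro r a _ ha; rw [map_smul]; exact Submodule.smul_mem _ _ ha

/-- naturality of the transfer for pullback squares
`L' → L` over `K' → K`: the fibres correspond bijectively. -/
theorem map_tr_pullback {L' K' : SS} {p' : SS.Hom L' K'} (hp' : Cov p') (hp : Cov p)
    (g' : SS.Hom L' L) (g : SS.Hom K' K)
    (h : ∀ (n : ℕ) (x : K'.S n), Set.BijOn (g'.app n) {y | p'.app n y = x}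
      {z | p.app n z = g.app n x}) (c : Ch R K') :
    Ch.map R g' (hp'.tr R c) = hp.tr R (Ch.map R g c) := by
  induction c using Finsupp.induction_linear with
  | zero => simp
  | add f g hf hg => simp only [map_add, hf, hg]
  | single t r =>
    obtain ⟨n, x⟩ := t
    rw [tr_single, map_sum, Ch.map_single, tr_single]
    refine Finset.sum_bij (fun y _ => g'.app n y) ?_ ?_ ?_ ?_
    · intro y hy
      rw [mem_fib] at hy ⊢
      exact (h n x).mapsTo hy
    · intro y hy y' hy' e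
      rw [mem_fib] at hy hy'
      exact (h n x).injOn hy hy' e
    · intro z hz
      rw [mem_fib] at hz
      obtain ⟨y, hy, rfl⟩ := (h n x).surjOn hz
      exact ⟨y, hp'.mem_fib.2 hy, rfl⟩
    · intro y _; rw [Ch.map_single]

variable (R)

/-- transfer on normalised chains -/
noncomputable def ntr (hp : Cov p) : N R K →ₗ[R] N R L :=
  Submodule.mapQ _ _ (hp.tr R) (fun _ hc => hp.tr_mem_Dg hc)

variable {R}

theorem ntr_mk (hp : Cov p) (c : Ch R K) :
    hp.ntr R (Submodule.Quotient.mk c) = Submodule.Quotient.mk (hp.tr R c) := rfl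

theorem ntr_sx (hp : Cov p) {n : ℕ} (x : K.S n) :
    hp.ntr R (N.sx R x) = ∑ y ∈ hp.fib x, N.sx R y := by
  rw [N.sx, ntr_mk, tr_single]
  exact map_sum (Submodule.mkQ (Ch.Dg R L)) _ _

theorem ntr_bd (hp : Cov p) : hp.ntr R ∘ₗ N.bd R K = N.bd R L ∘ₗ hp.ntr R := by
  ext c
  simp only [LinearMap.comp_apply, Submodule.mkQ_apply]
  rw [N.bd_mk, ntr_mk, ntr_mk, N.bd_mk, tr_bd]

theorem ntr_mem_gr (hp : Cov p) {n : ℕ} {c : N R K} (hc : c ∈ N.gr R K n) :
    hp.ntr R c ∈ N.gr R L n := by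
  obtain ⟨c', hc', rfl⟩ := hc
  exact ⟨hp.tr R c', hp.tr_mem_gr hc', rfl⟩

theorem map_ntr (hp : Cov p) {m : ℕ} (hm : ∀ (n : ℕ) (x : K.S n), (hp.fib x).card = m)
    (c : N R K) : N.map R p (hp.ntr R c) = (m : R) • c := by
  obtain ⟨c, rfl⟩ := Submodule.Quotient.mk_surjective _ c
  rw [ntr_mk, N.map_mk, map_tr hp hm]; rfl

theorem map_ntr_pullback {L' K' : SS} {p' : SS.Hom L' K'} (hp' : Cov p') (hp : Cov p)
    (g' : SS.Hom L' L) (g : SS.Hom K' K)
    (h : ∀ (n : ℕ) (x : K'.S n), Set.BijOn (g'.app n) {y | p'.app n y = x}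
      {z | p.app n z = g.app n x}) (c : N R K') :
    N.map R g' (hp'.ntr R c) = hp.ntr R (N.map R g c) := by
  obtain ⟨c, rfl⟩ := Submodule.Quotient.mk_surjective _ c
  rw [ntr_mk, N.map_mk, N.map_mk, ntr_mk, map_tr_pullback hp' hp g' g h]

variable (R)

/-- transfer on homology -/
noncomputable def htr (hp : Cov p) : H R K →ₗ[R] H R L := Hd.map (hp.ntr R) hp.ntr_bd

variable {R}

theorem map_htr (hp : Cov p) {m : ℕ} (hm : ∀ (n : ℕ) (x : K.S n), (hp.fib x).card = m)
    (x : H R K) : H.map R p (hp.htr R x) = (m : R) • x := by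
  obtain ⟨z, hz, rfl⟩ := Hd.mk_surj _ x
  rw [htr, Hd.map_mk, H.map, Hd.map_mk, Hd.mk]
  have e := map_ntr (R := R) hp hm z
  have : (⟨N.map R p (hp.ntr R z), by
      have := LinearMap.congr_fun (N.map_bd (R := R) p) (hp.ntr R z)
      have h2 := LinearMap.congr_fun (hp.ntr_bd (R := R)) z
      simp only [LinearMap.comp_apply] at this h2
      rw [LinearMap.mem_ker, ← this, ← h2, hz, map_zero, map_zero]⟩ : LinearMap.ker (N.bd R K)) =
      (m : R) • ⟨z, hz⟩ := Subtype.ext e
  rw [this]; rfl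

theorem htr_pullback {L' K' : SS} {p' : SS.Hom L' K'} (hp' : Cov p') (hp : Cov p)
    (g' : SS.Hom L' L) (g : SS.Hom K' K)
    (h : ∀ (n : ℕ) (x : K'.S n), Set.BijOn (g'.app n) {y | p'.app n y = x}
      {z | p.app n z = g.app n x}) (x : H R K') :
    H.map R g' (hp'.htr R x) = hp.htr R (H.map R g x) := by
  obtain ⟨z, hz, rfl⟩ := Hd.mk_surj _ x
  rw [htr, Hd.map_mk, H.map, Hd.map_mk, htr, H.map, Hd.map_mk, Hd.map_mk]
  rw [Hd.mk_eq_mk]
  exact ⟨0, by rw [map_zero, map_ntr_pullback hp' hp g' g h, sub_self]⟩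

/-- `H p` is onto when the number of sheets is a unit in `R` -/
theorem map_surjective (hp : Cov p) {m : ℕ} (hm : ∀ (n : ℕ) (x : K.S n), (hp.fib x).card = m)
    (hu : IsUnit (m : R)) : Function.Surjective (H.map R p) := by
  intro x
  obtain ⟨u, hu⟩ := hu
  refine ⟨hp.htr R ((↑u⁻¹ : R) • x), ?_⟩
  rw [map_htr hp hm, ← hu, smul_smul, Units.mul_inv, one_smul]

/-- mod 2: an odd number of sheets gives a surjection in homology -/
theorem map_surjective_odd (hp : Cov p) {m : ℕ} (hm : ∀ (n : ℕ) (x : K.S n), (hp.fib x).card = m)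
    (ho : Odd m) : Function.Surjective (H.map F2 p) := by
  refine map_surjective hp hm ?_
  have : ((m : ℕ) : ZMod 2) = 1 := by
    rw [← Nat.cast_one, ZMod.natCast_eq_natCast_iff']
    rw [Nat.odd_iff.1 ho]
  rw [show ((m : F2)) = 1 from this]
  exact isUnit_one

theorem htr_mem_gr (hp : Cov p) {n : ℕ} {x : H R K} (hx : x ∈ H.gr R K n) :
    hp.htr R x ∈ H.gr R L n := by
  obtain ⟨⟨z, hz⟩, hz', rfl⟩ := hx
  refine ⟨⟨hp.ntr R z, ?_⟩, hp.ntr_mem_gr hz', rfl⟩
  have h2 := LinearMap.congr_fun (hp.ntr_bd (R := R)) z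
  simp only [LinearMap.comp_apply] at h2
  rw [LinearMap.mem_ker, ← h2]
  rw [LinearMap.mem_ker] at hz
  rw [hz, map_zero]

end Cov

/-- criterion: unique lifting of simplices from the `0`-th vertex -/
theorem cov_of_vertex {L K : SS} (p : SS.Hom L K)
    (h : ∀ (n : ℕ) (x : K.S n) (v : Fin (n + 1)) (y0 : L.S 0),
      p.app 0 y0 = K.act (⟨fun _ => v, fun _ _ _ => le_rfl⟩ : Op 0 n) x →
      ∃! y : L.S n, p.app n y = x ∧ L.act (⟨fun _ => v, fun _ _ _ => le_rfl⟩ : Op 0 n) y = y0)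
    (hfin : ∀ x : K.S 0, {y | p.app 0 y = x}.Finite) : Cov p := by
  have key : ∀ {m n : ℕ} (f : Op m n) (x : K.S n),
      Set.BijOn (L.act f) {y | p.app n y = x} {z | p.app m z = K.act f x} := by
    intro m n f x
    refine ⟨?_, ?_, ?_⟩
    · intro y hy
      simp only [Set.mem_ofPred_eq] at hy ⊢
      rw [p.nat, hy]
    · intro y hy y' hy' e
      simp only [Set.mem_ofPred_eq] at hy hy'
      have hv : ∀ w : L.S n, L.act (⟨fun _ => f 0, fun _ _ _ => le_rfl⟩ : Op 0 n) w =
          L.act (⟨fun _ => 0, fun _ _ _ => le_rfl⟩ : Op 0 m) (L.act f w) := by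
        intro w; rw [← L.act_comp]; rfl
      obtain ⟨w, -, hw⟩ := h n x (f 0) (L.act (⟨fun _ => f 0, fun _ _ _ => le_rfl⟩ : Op 0 n) y)
        (by rw [p.nat, hy])
      rw [hw y ⟨hy, rfl⟩, hw y' ⟨hy', by rw [hv, hv, e]⟩]
    · intro z hz
      simp only [Set.mem_ofPred_eq] at hz
      have hv : ∀ w : L.S n, L.act (⟨fun _ => f 0, fun _ _ _ => le_rfl⟩ : Op 0 n) w =
          L.act (⟨fun _ => 0, fun _ _ _ => le_rfl⟩ : Op 0 m) (L.act f w) := by
        intro w; rw [← L.act_comp]; rfl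
      obtain ⟨y, ⟨hy, hy0⟩, -⟩ := h n x (f 0)
        (L.act (⟨fun _ => 0, fun _ _ _ => le_rfl⟩ : Op 0 m) z)
        (by rw [p.nat, hz, ← K.act_comp]; rfl)
      refine ⟨y, hy, ?_⟩
      obtain ⟨w, -, hw⟩ := h m (K.act f x) 0
        (L.act (⟨fun _ => 0, fun _ _ _ => le_rfl⟩ : Op 0 m) z) (by rw [p.nat, hz])
      rw [hw z ⟨hz, rfl⟩, hw (L.act f y) ⟨by rw [p.nat, hy], by rw [← hv, hy0]⟩]
  refine ⟨key, ?_⟩
  intro n x
  have hb := key (⟨fun _ => 0, fun _ _ _ => le_rfl⟩ : Op 0 n) x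
  exact Set.Finite.of_finite_image (by rw [hb.image_eq]; exact hfin _) hb.injOn

end Crest.Agent.R204.Tr348
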