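import Crest.Agent.R204.GG_803

/-!
# The wreath product step (row 204, leaf G5; helper803)
-/

set_option autoImplicit false
set_option linter.unusedSectionVars false

namespace Crest.Agent.R204.SQ803

open Co

section GHinst

theorem dl_inv {J : Type*} {n : ℕ} (φ : J → J) {f : List J → ZMod n} (h : ∀ l, f (l.map φ) = f l)
    (l : List J) : dl (l.map φ) f = dl l f := by
  rw [← dl_map]; exact dl_congr fun l' _ => h l'

theorem cupl_inv {J : Type*} {n : ℕ} (φ : J → J) {f g : List J → ZMod n} (h : ∀ l, f (l.map φ) = f l)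
    (h' : ∀ l, g (l.map φ) = g l) (l : List J) : cupl (l.map φ) f g = cupl l f g := by
  rw [← cupl_map]; exact cupl_congr (fun x l => h _) (fun x l => h' _)

theorem cupo_inv {J : Type*} {n : ℕ} (φ : J → J) {f g : List J → ZMod n} (h : ∀ l, f (l.map φ) = f l)
    (h' : ∀ l, g (l.map φ) = g l) (l : List J) : cupo (l.map φ) f g = cupo l f g := by
  rw [← cupo_map]
  have e1 : (fun l' => f (l'.map φ)) = f := funext h
  have e2 : (fun l' => g (l'.map φ)) = g := funext h'
  rw [e1, e2]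

theorem GH_A {J X Y : Type*} [Group X] [Group Y] [MulAction (X × Y) J] {N : ℕ} (hN : 0 < N)
    (C : EqM J X Y) : GH hN (QA J X Y 2) (FA J X Y 2) (QA J X Y (2 ^ N)) (FA J X Y (2 ^ N)) where
  δQ _ h := δ_mem_QA h
  mulQ _ h _ h' := mul_mem_QA h h'
  ioQ _ h := io_mem_QA h
  red2 _ h h' := redS_A C h h'
  redR _ h h' := redS_A C h h'
  δF f h := ⟨δ_nil f, fun g l => by rw [δ_Co_f _ h.1, δ_Co_f _ h.1]; exact dl_inv _ (h.2 g) l⟩
  mulF f h g h' := ⟨rfl, fun a l => cupl_inv _ (h.2 a) (h'.2 a) l⟩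
  cupoF f h g h' := ⟨rfl, fun a l => cupo_inv _ (h.2 a) (h'.2 a) l⟩
  nzF f h := h.1
  rhoQ _ h := rhoE_QA hN h
  rhoF f h := ⟨by rw [cf_f, h.1, map_zero], fun g l => by rw [cf_f, cf_f, h.2 g l]⟩

theorem GH_B {J X : Type*} [Group X] [MulAction (X × X) J] {N : ℕ} (hN : 0 < N) (W : Sig J X) :
    GH hN (QB W 2) (FB W 2) (QB W (2 ^ N)) (FB W (2 ^ N)) where
  δQ _ h := δ_mem_QB h
  mulQ _ h _ h' := mul_mem_QB h h'
  ioQ _ h := io_mem_QB h
  red2 _ h h' := redS_B W h h'
  redR _ h h' := redS_B W h h'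
  δF f h := ⟨⟨δ_nil f, fun g l => by rw [δ_Co_f _ h.1.1, δ_Co_f _ h.1.1]; exact dl_inv _ (h.1.2 g) l⟩,
    fun l => by rw [δ_Co_f _ h.1.1, δ_Co_f _ h.1.1]; exact dl_inv _ h.2 l⟩
  mulF f h g h' := ⟨⟨rfl, fun a l => cupl_inv _ (h.1.2 a) (h'.1.2 a) l⟩,
    fun l => cupl_inv _ h.2 h'.2 l⟩
  cupoF f h g h' := ⟨⟨rfl, fun a l => cupo_inv _ (h.1.2 a) (h'.1.2 a) l⟩,
    fun l => cupo_inv _ h.2 h'.2 l⟩
  nzF f h := h.1.1
  rhoQ _ h := rhoE_QB hN h
  rhoF f h := ⟨⟨by rw [cf_f, h.1.1, map_zero], fun g l => by rw [cf_f, cf_f, h.1.2 g l]⟩,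
    fun l => by rw [cf_f, cf_f, h.2 l]⟩

end GHinst

section lifts
variable {X : Type*} [Group X] {N : ℕ}

/-- the square of `a` lifts -/
def Lf (X : Type*) [Group X] {N : ℕ} (hN : 0 < N) (a : List X → ZMod 2) : Prop :=
  ∃ A ∈ CI X (2 ^ N), (∀ l, dl l A = 0) ∧ (∀ l, A l ≠ 0 → l.length % 2 = 1) ∧ ∃ c ∈ CI X 2,
    (fun l => cupl l a a) = (fun l => rho hN (A l)) + (fun l => dl l c)

theorem lift_of_SQ {X : Type} [Group X] (h : SQ X) (hN : 0 < N) {p : ℕ} {a : List X → ZMod 2}
    (ha : a ∈ ZC X p) : Lf X hN a := by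
  rcases p with _ | m
  · rw [CM_zero ha.1]
    refine ⟨0, AddSubgroup.zero_mem _, fun l => dl_zero l, fun l hl => absurd rfl hl, 0,
      AddSubgroup.zero_mem _, ?_⟩
    funext l
    show cupl l (fun _ => 0) (fun _ => 0) = rho hN 0 + dl l (fun _ => 0)
    rw [cupl_zero_left, map_zero, dl_zero, add_zero]
  · obtain ⟨Y, v, h1, h2, h3, h4, h5, h6, h7⟩ := h X (fun g j hg => mul_eq_right.1 hg) N hN m a
      (fun l hl => by by_contra hc; exact hl (ha.1.2.1 l hc)) (fun g l => ha.1.2.2 g l)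
      (fun l => congrFun ha.2 l)
    refine ⟨Y, ⟨?_, ⟨2 * m + 1, fun l hl => ?_⟩, h2⟩, h3, fun l hl => ?_, v,
      ⟨h5, ⟨2 * m, fun l hl => ?_⟩, h6⟩, funext h7⟩
    · by_contra hc
      have := h1 [] hc
      simp at this
    · by_contra hc
      have := h1 l hc
      omega
    · have := h1 l hl
      omega
    · by_contra hc
      have := h4 l hc
      omega

theorem rho_CI (hN : 0 < N) {A : List X → ZMod (2 ^ N)} (hA : A ∈ CI X (2 ^ N)) :
    (fun l => rho hN (A l)) ∈ CI X 2 := by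
  refine ⟨?_, ?_, fun g l => ?_⟩
  · show rho hN (A []) = 0
    rw [hA.1, map_zero]
  · obtain ⟨K, hK⟩ := hA.2.1
    exact ⟨K, fun l hl => by show rho hN (A l) = 0; rw [hK l hl, map_zero]⟩
  · show rho hN (A (l.map fun b => g * b)) = rho hN (A l)
    rw [hA.2.2]

theorem dl_rho (hN : 0 < N) {A : List X → ZMod (2 ^ N)} (hA : ∀ l, dl l A = 0) (l : List X) :
    dl l (fun l => rho hN (A l)) = 0 := by
  rw [dl_hom (rho hN), hA, map_zero]

/-- commutativity up to a coboundary -/
theorem comm_ZC {p q : ℕ} {a b : List X → ZMod 2} (ha : a ∈ ZC X p) (hb : b ∈ ZC X q) :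
    ∃ e ∈ CI X 2, (fun l => cupl l b a) = (fun l => cupl l a b) + fun l => dl l e := by
  rcases p with _ | p
  · rw [CM_zero ha.1]
    refine ⟨0, AddSubgroup.zero_mem _, ?_⟩
    funext l
    show cupl l b (fun _ => 0) = cupl l (fun _ => 0) b + dl l (fun _ => 0)
    rw [cupl_zero_left, cupl_zero_right, dl_zero, add_zero]
  rcases q with _ | q
  · rw [CM_zero hb.1]
    refine ⟨0, AddSubgroup.zero_mem _, ?_⟩
    funext l
    show cupl l (fun _ => 0) a = cupl l a (fun _ => 0) + dl l (fun _ => 0)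
    rw [cupl_zero_left, cupl_zero_right, dl_zero, add_zero]
  refine ⟨fun l => if l.length = p + q then cupo l a b else 0, ⟨?_, ⟨p + q, fun l hl => ?_⟩,
    fun g l => ?_⟩, ?_⟩
  · show (if ([] : List X).length = p + q then cupo [] a b else 0) = 0
    split_ifs <;> rfl
  · exact if_neg (by omega)
  · show (if (l.map fun b => g * b).length = p + q then cupo (l.map fun b => g * b) a b else 0) = _
    rw [List.length_map, cupo_inv _ (ha.1.2.2 g) (hb.1.2.2 g)]
  · funext l
    show cupl l b a = cupl l a b + dl l (fun l => if l.length = p + q then cupo l a b else 0)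
    by_cases hl : l.length = p + q + 1
    · have h1 : dl l (fun l => if l.length = p + q then cupo l a b else 0) =
          dl l (fun l => cupo l a b) := dl_congr fun l' hl' => if_pos (by omega)
      have ha' : (fun l' => dl l' a) = fun _ => 0 := ha.2
      have hb' : (fun l' => dl l' b) = fun _ => 0 := hb.2
      have h := dl_cupo (DG2.two (B := ZMod 2)) l a b hb.1.1
      have z1 : ∀ (l : List X) (g : List X → ZMod 2), cupo l (fun _ => 0) g = 0 := by
        intro l
        induction l with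
        | nil => intro g; rfl
        | cons x l ih => intro g; rw [cupo_cons, cupl_zero_right, ih, add_zero]
      have z2 : ∀ (l : List X) (f : List X → ZMod 2), cupo l f (fun _ => 0) = 0 := by
        intro l
        induction l with
        | nil => intro g; rfl
        | cons x l ih => intro g; rw [cupo_cons, cupl_zero_left, ih, add_zero]
      rw [ha', hb', z1, z2, zero_add, zero_add] at h
      rw [h1, h, ← add_assoc, DG2.two (cupl l a b), zero_add]
    · have h1 : dl l (fun l => if l.length = p + q then cupo l a b else 0) = 0 :=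
        dl_eq_zero fun l' hl' => if_neg (by omega)
      have h2 : ∀ {p q : ℕ} {a b : List X → ZMod 2}, a ∈ ZC X (p + 1) → b ∈ ZC X (q + 1) →
          l.length ≠ p + q + 1 → cupl l a b = 0 := by
        intro p q a b ha hb hl
        refine cupl_eq_zero (fun x => x) rfl (fun _ _ => rfl) fun c d hcd => ?_
        by_cases h : c.length = p + 1
        · rw [hb.1.2.1 d (by omega), mul_zero]
        · rw [ha.1.2.1 c h, zero_mul]
      rw [h1, h2 ha hb hl, h2 hb ha (by omega), add_zero]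

theorem cup_ZC {p q : ℕ} {a b : List X → ZMod 2} (ha : a ∈ ZC X p) (hb : b ∈ ZC X q) (l : List X) :
    dl l (fun l => cupl l a b) = 0 := by
  have ha' : (fun l' => dl l' a) = fun _ => 0 := ha.2
  have hb' : (fun l' => dl l' b) = fun _ => 0 := hb.2
  rw [dl_cup (DG2.two (B := ZMod 2)), ha', hb', cupl_zero_left, cupl_zero_right, ha.1.1, hb.1.1]
  simp

end lifts

section wr
variable {J X : Type*} [Group X] [MulAction (X × X) J] {N : ℕ}

theorem kap_add' (s t : Co X (Co X (ZMod 2))) :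
    kap (J := J) (s + t) = kap s + kap t := map_add _ _ _

/-- norm classes of coboundaries -/
theorem normN (W : Sig J X) (hN : 0 < N) {r c : List X → ZMod 2} (hr : r ∈ CI X 2) (hc : c ∈ CI X 2)
    (dr : ∀ l, dl l r = 0) :
    ∃ K ∈ QB W 2, kap (crs (r + fun l => dl l c) (r + fun l => dl l c)) = kap (crs r r) + Cx.δ K := by
  have hdc : (fun l => dl l c) ∈ CI X 2 := dl_mem_CI hc
  have dr' : (fun l => dl l r) = 0 := funext dr
  have ddc : (fun l => dl l (fun l => dl l c)) = 0 := funext fun l => dl_dl l c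
  have z1 : ∀ b : List X → ZMod 2, crs (0 : List X → ZMod 2) b = 0 := fun b =>
    Co.ext fun x => Co.ext fun y => zero_mul _
  have z2 : ∀ b : List X → ZMod 2, crs b (0 : List X → ZMod 2) = 0 := fun b =>
    Co.ext fun x => Co.ext fun y => mul_zero _
  -- mixed terms
  have m1 : crs r (fun l => dl l c) + crs (fun l => dl l c) r = Cx.δ (crs r c + crs c r) := by
    rw [map_add, δ_crs hr.1 hc.1, δ_crs hc.1 hr.1, dr', z1, z2, zero_add, add_zero]
  have m1' : kap (crs r c + crs c r) ∈ QB W 2 :=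
    kap_mem_QB W (AddSubgroup.add_mem _ (crs_mem hr hc) (crs_mem hc hr))
      (by rw [map_add, Tn_crs hr.1 hc.1, Tn_crs hc.1 hr.1, add_comm])
  -- the pure term
  let w : Co J (Co X (Co X (ZMod 2))) := kap (crs c fun l => dl l c)
  have hw : w ∈ QA J X X 2 := kap_mem_QA (crs_mem hc hdc)
  have hw1 : Cx.δ w = kap (crs (fun l => dl l c) fun l => dl l c) := by
    show Cx.δ (kap _) = _
    rw [δ_kap, δ_crs hc.1 hdc.1, ddc, z2, add_zero]
  have hs : aT W.σ (kap (crs (fun l => dl l c) fun l => dl l c)) =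
      kap (crs (fun l => dl l c) fun l => dl l c) := by
    rw [aT_kap, Tn_crs hdc.1 hdc.1]
  have g := gysinB W hw hw1 hs
  have g2 : w + aT W.σ w = Cx.δ (kap (crs c c)) := by
    show kap _ + aT W.σ (kap _) = _
    rw [aT_kap, Tn_crs hc.1 hdc.1, δ_kap, δ_crs hc.1 hc.1, map_add, add_comm]
  rw [g2, ← δ_tm_two W.ε DG2.two, ← map_add] at g
  refine ⟨kap (crs r c + crs c r) + (mix W.ε w (aT W.σ w) + tm W.ε (kap (crs c c))),
    AddSubgroup.add_mem _ m1' (AddSubgroup.add_mem _ (mix_mem W hw) (tm_mem_QB W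
      (kap_mem_QB W (crs_mem hc hc) (Tn_crs hc.1 hc.1)))), ?_⟩
  rw [map_add, ← g, δ_kap, ← m1, crs_add_left, crs_add_right, crs_add_right, ← map_add, ← map_add]
  congr 1
  abel

theorem tmi_rhoE (e : J → Bool) (hN : 0 < N) (i : ℕ) (F : Co J (Co X (Co X (ZMod (2 ^ N))))) :
    (tm e)^[i] (rhoE hN F) = rhoE hN ((tm e)^[i] F) := by
  induction i with
  | zero => rfl
  | succ i ih =>
    rw [Function.iterate_succ_apply', ih, Function.iterate_succ_apply']
    exact tm_cf e _ _

theorem good_N (W : Sig J X) (hN : 0 < N) (i : ℕ) {p : ℕ} {a : List X → ZMod 2} (ha : a ∈ ZC X p)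
    (hL : Lf X hN a) :
    GG hN (QB W 2) (FB W 2) (FB W (2 ^ N)) ((tm W.ε)^[i] (kap (crs a a))) := by
  obtain ⟨A, hA, dA, oA, c, hc, e⟩ := hL
  have ha' := CM_le_CI ha.1
  have da : ∀ l, dl l a = 0 := fun l => congrFun ha.2 l
  obtain ⟨K, hK, eK⟩ := normN W hN (rho_CI hN hA) hc (dl_rho hN dA)
  refine GG.of_sq (GH_B hN W) (F := (tm W.ε)^[i] (kap (crs a a)))
    (tmi_mem_QB W i (kap_mem_QB W (crs_mem ha' ha') (Tn_crs ha'.1 ha'.1))) ?_
    (Z := (tm W.ε)^[2 * i] (kap (crs A A)))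
    (tmi_mem_QB W _ (kap_mem_QB W (crs_mem hA hA) (Tn_crs_odd hA.1 hA.1 oA))) ?_
    (K := (tm W.ε)^[2 * i] K) (tmi_mem_QB W _ hK) ?_
  · rw [δ_tmi, δ_kap, δ_crs_zero ha'.1 ha'.1 da da, map_zero]
    clear eK
    induction i with
    | zero => rfl
    | succ i ih => rw [Function.iterate_succ_apply', ih, map_zero]
  · exact δ_tmi_two _ _ _ (by rw [δ_kap, δ_crs_zero hA.1 hA.1 dA dA, map_zero])
  · rw [sq_tm_kap, crs_mul, e, eK, tmi_add, δ_tmi, ← tmi_rhoE, rhoE_kap, rhoS_crs]

theorem good_tr (W : Sig J X) (hN : 0 < N) {p q : ℕ} {a b : List X → ZMod 2} (ha : a ∈ ZC X p)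
    (hb : b ∈ ZC X q) (hLa : Lf X hN a) (hLb : Lf X hN b) :
    GG hN (QB W 2) (FB W 2) (FB W (2 ^ N)) (kap (crs a b + crs b a)) := by
  obtain ⟨A, hA, dA, oA, c, hc, e⟩ := hLa
  obtain ⟨B, hB, dB, oB, c', hc', e'⟩ := hLb
  obtain ⟨d, hd, ed⟩ := comm_ZC ha hb
  have ha' := CM_le_CI ha.1
  have hb' := CM_le_CI hb.1
  have da : ∀ l, dl l a = 0 := fun l => congrFun ha.2 l
  have db : ∀ l, dl l b = 0 := fun l => congrFun hb.2 l
  have z1 : ∀ b : List X → ZMod 2, crs (0 : List X → ZMod 2) b = 0 := fun b =>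
    Co.ext fun x => Co.ext fun y => zero_mul _
  have z2 : ∀ b : List X → ZMod 2, crs b (0 : List X → ZMod 2) = 0 := fun b =>
    Co.ext fun x => Co.ext fun y => mul_zero _
  have hrA := rho_CI hN hA
  have drA : (fun l => dl l (fun l => rho hN (A l))) = 0 := funext (dl_rho hN dA)
  have hab : (fun l => cupl l a b) ∈ CI X 2 := cupl_mem_CI ha' hb'
  have dab : (fun l => dl l (fun l => cupl l a b)) = 0 := funext (cup_ZC ha hb)
  have hbb : (fun l => cupl l b b) ∈ CI X 2 := cupl_mem_CI hb' hb'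
  have dbb : (fun l => dl l (fun l => cupl l b b)) = 0 := funext (cup_ZC hb hb)
  let k := crs (fun l => rho hN (A l)) c' + crs c' (fun l => rho hN (A l)) +
    (crs c (fun l => cupl l b b) + crs (fun l => cupl l b b) c) +
    (crs (fun l => cupl l a b) d + crs d (fun l => cupl l a b))
  refine GG.of_sq (GH_B hN W) (F := kap (crs a b + crs b a))
    (kap_mem_QB W (AddSubgroup.add_mem _ (crs_mem ha' hb') (crs_mem hb' ha'))
      (by rw [map_add, Tn_crs ha'.1 hb'.1, Tn_crs hb'.1 ha'.1, add_comm])) ?_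
    (Z := kap (crs A B + crs B A))
    (kap_mem_QB W (AddSubgroup.add_mem _ (crs_mem hA hB) (crs_mem hB hA))
      (by rw [map_add, Tn_crs_odd hA.1 hB.1 oA, Tn_crs_odd hB.1 hA.1 oB, add_comm])) ?_
    (K := kap k) ?_ ?_
  · rw [δ_kap, map_add, δ_crs_zero ha'.1 hb'.1 da db, δ_crs_zero hb'.1 ha'.1 db da, add_zero, map_zero]
  · rw [δ_kap, map_add, δ_crs_zero hA.1 hB.1 dA dB, δ_crs_zero hB.1 hA.1 dB dA, add_zero, map_zero]
  · refine kap_mem_QB W (AddSubgroup.add_mem _ (AddSubgroup.add_mem _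
      (AddSubgroup.add_mem _ (crs_mem hrA hc') (crs_mem hc' hrA))
      (AddSubgroup.add_mem _ (crs_mem hc hbb) (crs_mem hbb hc)))
      (AddSubgroup.add_mem _ (crs_mem hab hd) (crs_mem hd hab))) ?_
    simp only [k, map_add]
    rw [Tn_crs hrA.1 hc'.1, Tn_crs hc'.1 hrA.1, Tn_crs hc.1 hbb.1, Tn_crs hbb.1 hc.1,
      Tn_crs hab.1 hd.1, Tn_crs hd.1 hab.1]
    abel
  · rw [kap_mul_kap, rhoE_kap, δ_kap, ← map_add]
    congr 1
    simp only [k, map_add, rhoS_crs]
    rw [δ_crs hrA.1 hc'.1, δ_crs hc'.1 hrA.1, δ_crs hc.1 hbb.1, δ_crs hbb.1 hc.1,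
      δ_crs hab.1 hd.1, δ_crs hd.1 hab.1, drA, dbb, dab]
    simp only [z1, z2, add_zero, zero_add]
    have h1 : crs (fun l => rho hN (A l)) (fun l => cupl l b b) =
        crs (fun l => rho hN (A l)) (fun l => rho hN (B l)) +
        crs (fun l => rho hN (A l)) (fun l => dl l c') := by rw [e', crs_add_right]
    have h2 : crs (fun l => cupl l b b) (fun l => rho hN (A l)) =
        crs (fun l => rho hN (B l)) (fun l => rho hN (A l)) +
        crs (fun l => dl l c') (fun l => rho hN (A l)) := by rw [e', crs_add_left]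
    rw [mul_add, add_mul, add_mul, crs_mul, crs_mul, crs_mul, crs_mul, ed, e,
      crs_add_left _ _ (fun l => cupl l b b), crs_add_right (fun l => cupl l b b),
      crs_add_left _ _ (fun l => cupl l a b), crs_add_right (fun l => cupl l a b), h1, h2]
    have t := two_Co (crs (fun l => cupl l a b) (fun l => cupl l a b))
    generalize crs (fun l => cupl l a b) (fun l => cupl l a b) = u0 at t ⊢
    generalize crs (fun l => rho hN (A l)) (fun l => rho hN (B l)) = u1
    generalize crs (fun l => rho hN (A l)) (fun l => dl l c') = u2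
    generalize crs (fun l => rho hN (B l)) (fun l => rho hN (A l)) = u3
    generalize crs (fun l => dl l c') (fun l => rho hN (A l)) = u4
    generalize crs (fun l => dl l c) (fun l => cupl l b b) = u5
    generalize crs (fun l => cupl l b b) (fun l => dl l c) = u6
    generalize crs (fun l => cupl l a b) (fun l => dl l d) = u7
    generalize crs (fun l => dl l d) (fun l => cupl l a b) = u8
    calc _ = (u0 + u0) + (u1 + u3 + (u2 + u4 + (u5 + u6) + (u7 + u8))) := by abel
      _ = _ := by rw [t, zero_add]; try abel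

/-! ## the structure theorem -/

/-- sums of coboundaries, norm classes and transfers -/
def Sp (W : Sig J X) : AddSubgroup (Co J (Co X (Co X (ZMod 2)))) :=
  AddSubgroup.closure ({F | ∃ H ∈ QB W 2, F = Cx.δ H} ∪
    ({F | ∃ i p, ∃ a ∈ ZC X p, F = (tm W.ε)^[i] (kap (crs a a))} ∪
     {F | ∃ p q, ∃ a ∈ ZC X p, ∃ b ∈ ZC X q, F = kap (crs a b + crs b a)}))

theorem Sp_bd (W : Sig J X) {H : Co J (Co X (Co X (ZMod 2)))} (hH : H ∈ QB W 2) : Cx.δ H ∈ Sp W :=
  AddSubgroup.subset_closure (Or.inl ⟨H, hH, rfl⟩)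

theorem Sp_tm (W : Sig J X) {F : Co J (Co X (Co X (ZMod 2)))} (hF : F ∈ Sp W) : tm W.ε F ∈ Sp W := by
  induction hF using AddSubgroup.closure_induction with
  | mem F h =>
    rcases h with ⟨H, hH, rfl⟩ | ⟨i, p, a, ha, rfl⟩ | ⟨p, q, a, ha, b, hb, rfl⟩
    · rw [← δ_tm_two W.ε DG2.two]
      exact Sp_bd W (tm_mem_QB W hH)
    · rw [← Function.iterate_succ_apply' (tm W.ε)]
      exact AddSubgroup.subset_closure (Or.inr (Or.inl ⟨i + 1, p, a, ha, rfl⟩))
    · have ha' := CM_le_CI ha.1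
      have hb' := CM_le_CI hb.1
      have da : ∀ l, dl l a = 0 := fun l => congrFun ha.2 l
      have db : ∀ l, dl l b = 0 := fun l => congrFun hb.2 l
      have hw : (kap (crs a b) : Co J (Co X (Co X (ZMod 2)))) ∈ QA J X X 2 := kap_mem_QA (crs_mem ha' hb')
      have g := gysinB W hw (X1 := 0)
        (by rw [δ_kap, δ_crs_zero ha'.1 hb'.1 da db, map_zero]) (map_zero _)
      rw [aT_kap, Tn_crs ha'.1 hb'.1] at g
      have g2 : tm W.ε (kap (crs a b + crs b a)) = Cx.δ (mix W.ε (kap (crs a b)) (kap (crs b a))) := by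
        rw [map_add]
        exact (sum_zero2 DG2.two g.symm).symm
      rw [g2]
      have hm := mix_mem W hw
      rw [aT_kap, Tn_crs ha'.1 hb'.1] at hm
      exact Sp_bd W hm
  | zero => rw [map_zero]; exact AddSubgroup.zero_mem _
  | add F G _ _ h h' => rw [map_add]; exact AddSubgroup.add_mem _ h h'
  | neg F _ h => rw [map_neg]; exact AddSubgroup.neg_mem _ h

theorem PA_zero {J X Y : Type*} [Group X] [Group Y] [MulAction (X × Y) J] {n : ℕ}
    {F : Co J (Co X (Co Y (ZMod n)))} (hF : F ∈ PA J X Y n 0) : F = 0 := by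
  refine Co.ext fun l => Co.ext fun x => Co.ext fun y => ?_
  rcases l with _ | ⟨a, l⟩
  · rw [hF.1.1]; rfl
  · exact hF.2.1 _ _ _ (by simp only [List.length_cons]; omega)

theorem SA_zero {X Y : Type*} [Group X] [Group Y] {n : ℕ}
    {s : Co X (Co Y (ZMod n))} (hs : s ∈ SA X Y n 0) : s = 0 := by
  refine Co.ext fun x => Co.ext fun y => ?_
  rcases x with _ | ⟨a, x⟩
  · rw [hs.1.1]; rfl
  · exact hs.2.1 _ _ (by simp only [List.length_cons]; omega)

theorem Tn_eq_tp {s : Co X (Co X (ZMod 2))} (hs : NzS s) : Tn s = tp s := by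
  refine Co.ext fun x => Co.ext fun y => ?_
  rw [Tn_f2, hs.vv, tp_f]

theorem SA_le_SF {X Y : Type*} [Group X] [Group Y] {n M : ℕ} {s : Co X (Co Y (ZMod n))}
    (hs : s ∈ SA X Y n M) : s ∈ SF X Y n :=
  ⟨hs.1, ⟨M, fun x y h => hs.2.1 x y (by omega)⟩, hs.2.2⟩

theorem structure_thm [Finite X] (j0 : J) (W : Sig J X) : ∀ (L : ℕ) (F : Co J (Co X (Co X (ZMod 2)))),
    F ∈ PB W 2 L → Cx.δ F = 0 → F ∈ Sp W := by
  haveI : Nonempty J := ⟨j0⟩
  have two := DG2.two (B := Co J (Co X (Co X (ZMod 2))))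
  intro L
  induction L with
  | zero =>
    intro F hF _
    rw [PA_zero hF.1]; exact AddSubgroup.zero_mem _
  | succ L ih =>
    intro F hF dF
    obtain ⟨z, hz, H0, hH0, e⟩ := redJ j0 hF.1 (fun k _ => by rw [dF, map_zero])
    have dz : Cx.δ z = 0 := by
      refine kap_injective (J := J) ?_
      rw [map_zero, ← δ_kap]
      have : kap z = F - Cx.δ H0 := by rw [e]; abel
      rw [this, map_sub, dF, Cx.δδ, sub_zero]
    rcases L with _ | M
    · rw [SA_zero hz, PA_zero hH0, map_zero, map_zero, add_zero] at e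
      rw [e]; exact AddSubgroup.zero_mem _
    · -- symmetry of `z` up to a coboundary
      have hT : kap (z + tp z) = Cx.δ (H0 + aT W.σ H0) := by
        have h1 := hF.2
        rw [e, map_add, aT_kap, ← δ_aT, Tn_eq_tp hz.1] at h1
        rw [map_add, map_add]
        refine sum_zero2 two ?_
        calc kap z + kap (tp z) + (Cx.δ H0 + Cx.δ (aT W.σ H0))
            = (kap (tp z) + Cx.δ (aT W.σ H0)) + (kap z + Cx.δ H0) := by abel
          _ = 0 := by rw [h1, two]
      obtain ⟨w, hw, H', hH', e'⟩ := redJ j0 (AddSubgroup.add_mem _ hH0 (aT_mem_PA W hH0))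
        (fun k hk => by
          rw [← hT]
          refine Co.ext fun l => ?_
          rw [cJ_f, kap_f]
          split_ifs with h1 h2
          · omega
          · rfl
          · rfl)
      have hsym : z + tp z = Cx.δ w := by
        refine kap_injective (J := J) ?_
        rw [hT, e', map_add, Cx.δδ, add_zero, δ_kap]
      obtain ⟨z', hz', hzS, hzt, w', hw', e2⟩ := kunneth_sym hz dz hw hsym
      -- the part coming from `z'`
      have hX' : kap z' ∈ Sp W := by
        clear hzt hzS e2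
        induction hz' using AddSubgroup.closure_induction with
        | mem s h =>
          rcases h with ⟨p, -, a, ha, rfl⟩ | ⟨p, q, -, a, ha, b, hb, rfl⟩
          · exact AddSubgroup.subset_closure (Or.inr (Or.inl ⟨0, p, a, ha, rfl⟩))
          · exact AddSubgroup.subset_closure (Or.inr (Or.inr ⟨p, q, a, ha, b, hb, rfl⟩))
        | zero => rw [map_zero]; exact AddSubgroup.zero_mem _
        | add s t _ _ h h' => rw [map_add]; exact AddSubgroup.add_mem _ h h'
        | neg s _ h => rw [map_neg]; exact AddSubgroup.neg_mem _ h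
      have hXB : aT W.σ (kap z') = (kap z' : Co J (Co X (Co X (ZMod 2)))) := by
        rw [aT_kap, Tn_eq_tp hzS.1, hzt]
      -- the rest
      let y := kap w' + H0
      have hy : y ∈ PA J X X 2 (M + 1) := AddSubgroup.add_mem _ (kap_mem_PA hw') hH0
      have e3 : F = kap z' + Cx.δ y := by
        show F = kap z' + Cx.δ (kap w' + H0)
        rw [map_add, δ_kap, ← add_assoc, ← map_add, ← e2, e]
      have hs : aT W.σ (Cx.δ y) = Cx.δ y := by
        have : Cx.δ y = F - kap z' := by rw [e3]; abel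
        rw [this, map_sub, hF.2, hXB]
      have g := gysinB W (PA_le_QA _ hy) rfl hs
      have hx' : y + aT W.σ y ∈ PB W 2 (M + 1) :=
        ⟨AddSubgroup.add_mem _ hy (aT_mem_PA W hy), by rw [map_add, aT_aT W.inv hy.1, add_comm]⟩
      have dx' : Cx.δ (y + aT W.σ y) = 0 := by rw [map_add, δ_aT, hs, two]
      rw [e3, g]
      exact AddSubgroup.add_mem _ hX' (AddSubgroup.add_mem _ (Sp_bd W (mix_mem W (PA_le_QA _ hy)))
        (Sp_tm W (ih _ hx' dx')))

theorem good_Sp (W : Sig J X) (hN : 0 < N) (hL : ∀ p, ∀ a ∈ ZC X p, Lf X hN a)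
    {F : Co J (Co X (Co X (ZMod 2)))} (hF : F ∈ Sp W) :
    GG hN (QB W 2) (FB W 2) (FB W (2 ^ N)) F := by
  induction hF using AddSubgroup.closure_induction with
  | mem F h =>
    rcases h with ⟨H, hH, rfl⟩ | ⟨i, p, a, ha, rfl⟩ | ⟨p, q, a, ha, b, hb, rfl⟩
    · exact GG.bd _ hH
    · exact good_N W hN i ha (hL _ _ ha)
    · exact good_tr W hN ha hb (hL _ _ ha) (hL _ _ hb)
  | zero => exact GG.zero
  | add F G _ _ h h' => exact h.add (GH_B hN W) h'
  | neg F _ h => rw [neg_eq_self2 DG2.two]; exact h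

/-- the main statement for a swap situation -/
theorem main_wr [Finite X] (j0 : J) (W : Sig J X) (hN : 0 < N) (hL : ∀ p, ∀ a ∈ ZC X p, Lf X hN a)
    {m : ℕ} {u : Co J (ZMod 2)} (hu : u ∈ FB W 2) (hum : ∀ l, u.f l ≠ 0 → l.length = m + 1)
    (du : ∀ l, dl l u.f = 0) : SqL hN (FB W 2) (FB W (2 ^ N)) u := by
  refine GG.concl (GH_B hN W) hu (good_Sp W hN hL (structure_thm j0 W (m + 3) _ ⟨?_, (io_mem_QB hu).2⟩ ?_))
  · refine ⟨(io_mem_QB hu).1.1, fun l x y h => ?_, (io_mem_QB hu).1.2.2⟩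
    rw [io_f, kap_f]
    split_ifs with h1
    · rw [kap_f]
      split_ifs with h2
      · by_contra hc
        have := hum l hc
        omega
      · rfl
    · rfl
  · rw [δ_io]
    have : Cx.δ u = 0 := Co.ext fun l => by rw [δ_Co_f _ hu.1.1, du]; rfl
    rw [this, map_zero]

end wr

end Crest.Agent.R204.SQ803
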