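import Crest.Agent.R204.Wang2_905
import Crest.Agent.R204.EZCross_271
import Crest.Agent.R204.Coalg_847
import Crest.Agent.R204.Gr_334

/-!
# Row 204, leaf B5: the cap product with a degree 1 class is a derivation (helper905)

* `Coc1 K` : normalised 1-cocycles mod 2, `Coc1.pull`
* `capL c : N F2 K →ₗ N F2 K`, `capG c : H F2 K →ₗ H F2 K`, naturality
* `capL_cross : capL (c.pull fst) (cross a b) = cross (capL c a) b` (strict)
* `cop_capG : cop (capG c x) = (capG c ⊗ id) (cop x)`, `capG_eq : capG c x = lid ((u ⊗ id) (cop x))`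
* `capG_mul` : derivation of the Pontryagin product, `capG_prim`
* `capH C = capG (kapCoc C)`
-/

set_option autoImplicit false

noncomputable section

open Finsupp Function TensorProduct

namespace Crest.Agent.R204.Wang905

open EZ271 (Cone liftN hom_ext N_induction cross stdMap Op.cons Op.star)
open Coalg847 (EZData eps)

/-- normalised 1-cocycles mod 2 -/
structure Coc1 (K : SS) where
  l : K.S 1 → F2
  dgn : ∀ (v : K.S 0) (f : Op 1 0), l (K.act f v) = 0
  coc : ∀ x : K.S 2, l (K.act (Op.face 1) x) = l (K.act (Op.face 2) x) + l (K.act (Op.face 0) x)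

namespace Coc1

/-- pullback -/
def pull {K L : SS} (c : Coc1 L) (f : SS.Hom K L) : Coc1 K where
  l e := c.l (f.app 1 e)
  dgn v g := by rw [f.nat, c.dgn]
  coc x := by rw [f.nat, f.nat, f.nat, c.coc]

end Coc1

variable {K L : SS}

/-- front edge of a degenerate simplex -/
theorem e01_dgn_zero {n : ℕ} : (Op.dgn (0 : Fin (n + 1))).comp (e01 : Op 1 (n + 1)) =
    (vtx (0 : Fin (n + 1))).comp (⟨fun _ => 0, fun _ _ _ => le_rfl⟩ : Op 1 0) := by
  refine OrderHom.ext _ _ (funext fun a => Fin.ext ?_)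
  simp only [OrderHom.comp_coe, Function.comp_apply, Ch.dgn_val, e01_val, vtx_val, Fin.val_zero]
  have ha : (a : ℕ) = 0 ∨ (a : ℕ) = 1 := by omega
  rcases ha with ha | ha <;> simp [ha]

theorem face_zero_dgn_succ {n : ℕ} (j : Fin (n + 1)) :
    (Op.dgn j.succ).comp (Op.face 0) = (Op.face 0).comp (Op.dgn j) := EZ271.dgn_succ_face_zero j

/-- values of the cap product on simplices -/
def capF (c : Coc1 K) : ∀ n : ℕ, K.S n → N F2 K
  | 0, _ => 0
  | _ + 1, x => c.l (K.act e01 x) • N.sx F2 (K.act (Op.face 0) x)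

theorem capF_succ (c : Coc1 K) (n : ℕ) (x : K.S (n + 1)) :
    capF c (n + 1) x = c.l (K.act e01 x) • N.sx F2 (K.act (Op.face 0) x) := rfl

theorem capF_dgn (c : Coc1 K) (n : ℕ) (j : Fin (n + 1)) (y : K.S n) :
    capF c (n + 1) (K.act (Op.dgn j) y) = 0 := by
  rw [capF_succ]
  induction j using Fin.cases with
  | zero =>
    rw [← K.act_comp e01, e01_dgn_zero, K.act_comp, c.dgn, zero_smul]
  | succ j =>
    rcases n with _ | n
    · exact j.elim0
    · rw [← K.act_comp (Op.face 0), face_zero_dgn_succ, K.act_comp, N.sx_dgn, smul_zero]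

/-- cap product with a 1-cocycle on normalised chains -/
def capL (c : Coc1 K) : N F2 K →ₗ[F2] N F2 K := liftN (capF c) (capF_dgn c)

theorem capL_sx_zero (c : Coc1 K) (x : K.S 0) : capL c (N.sx F2 x) = 0 := by
  rw [capL, EZ271.liftN_sx, capF]

theorem capL_sx_succ (c : Coc1 K) {n : ℕ} (x : K.S (n + 1)) :
    capL c (N.sx F2 x) = c.l (K.act e01 x) • N.sx F2 (K.act (Op.face 0) x) := by
  rw [capL, EZ271.liftN_sx, capF]

theorem capL_map (c : Coc1 L) (f : SS.Hom K L) (z : N F2 K) :
    capL c (N.map F2 f z) = N.map F2 f (capL (c.pull f) z) := by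
  have : capL c ∘ₗ N.map F2 f = N.map F2 f ∘ₗ capL (c.pull f) := by
    refine hom_ext fun n x => ?_
    rcases n with _ | n
    · simp only [LinearMap.comp_apply, N.map_sx, capL_sx_zero, map_zero]
    · simp only [LinearMap.comp_apply, N.map_sx, capL_sx_succ, map_smul, Coc1.pull, f.nat]
  exact LinearMap.congr_fun this z

/-- front 2-simplex operator -/
def e012 {n : ℕ} : Op 2 (n + 2) := ⟨fun i => Fin.castLE (by omega) i, fun _ _ h => h⟩

theorem e012_val {n : ℕ} (a : Fin 3) : (((e012 : Op 2 (n + 2)) a : Fin (n + 3)) : ℕ) = a := rfl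

theorem fv_lt {n : ℕ} {i : Fin (n + 2)} {a : Fin (n + 1)} (h : (a : ℕ) < i) :
    ((Op.face i a : Fin (n + 2)) : ℕ) = a := by rw [Ch.face_val, if_pos h]

theorem fv_ge {n : ℕ} {i : Fin (n + 2)} {a : Fin (n + 1)} (h : (i : ℕ) ≤ a) :
    ((Op.face i a : Fin (n + 2)) : ℕ) = a + 1 := by rw [Ch.face_val, if_neg (by omega)]

theorem e012_face_zero {n : ℕ} : (e012 : Op 2 (n + 2)).comp (Op.face 0) = (Op.face 0).comp e01 := by
  refine OrderHom.ext _ _ (funext fun a => Fin.ext ?_)
  rw [OrderHom.comp_coe, Function.comp_apply, OrderHom.comp_coe, Function.comp_apply, e012_val,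
    fv_ge (Nat.zero_le _), fv_ge (Nat.zero_le _), e01_val]

theorem e012_face_one {n : ℕ} : (e012 : Op 2 (n + 2)).comp (Op.face 1) = (Op.face 1).comp e01 := by
  refine OrderHom.ext _ _ (funext fun a => Fin.ext ?_)
  rw [OrderHom.comp_coe, Function.comp_apply, OrderHom.comp_coe, Function.comp_apply, e012_val]
  have ha : (a : ℕ) = 0 ∨ (a : ℕ) = 1 := by omega
  rcases ha with ha | ha
  · rw [fv_lt (by rw [ha]; exact Nat.zero_lt_one), fv_lt (by rw [e01_val, ha]; exact Nat.zero_lt_one),
      e01_val]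
  · rw [fv_ge (by rw [ha]; exact le_rfl), fv_ge (by rw [e01_val, ha]; exact le_rfl), e01_val]

theorem e012_face_two {n : ℕ} : (e012 : Op 2 (n + 2)).comp (Op.face 2) = e01 := by
  refine OrderHom.ext _ _ (funext fun a => Fin.ext ?_)
  rw [OrderHom.comp_coe, Function.comp_apply, e012_val, e01_val]
  exact fv_lt (show (a : ℕ) < 2 from a.2)

theorem face_succ_succ_e01 {n : ℕ} (i : Fin (n + 1)) :
    (Op.face i.succ.succ : Op (n + 1) (n + 2)).comp e01 = e01 := by
  refine OrderHom.ext _ _ (funext fun a => Fin.ext ?_)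
  rw [OrderHom.comp_coe, Function.comp_apply, fv_lt, e01_val, e01_val]
  rw [e01_val, Fin.val_succ, Fin.val_succ]
  have : (a : ℕ) < 2 := a.2
  omega

theorem face_face_zero {n : ℕ} (i : Fin (n + 2)) :
    (Op.face i.succ : Op (n + 1) (n + 2)).comp (Op.face 0) = (Op.face 0).comp (Op.face i) := by
  refine OrderHom.ext _ _ (funext fun a => Fin.ext ?_)
  rw [OrderHom.comp_coe, Function.comp_apply, OrderHom.comp_coe, Function.comp_apply,
    fv_ge (i := (0 : Fin (n + 3))) (Nat.zero_le _)]
  have h0 : ((Op.face (0 : Fin (n + 2)) a : Fin (n + 2)) : ℕ) = a + 1 := fv_ge (Nat.zero_le _)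
  by_cases h : (a : ℕ) < i
  · rw [fv_lt (by rw [h0, Fin.val_succ]; omega), h0, fv_lt h]
  · rw [fv_ge (by rw [h0, Fin.val_succ]; omega), h0, fv_ge (by omega)]

/-- `capL c` commutes with the boundary (mod 2) -/
theorem bd_capL (c : Coc1 K) (z : N F2 K) : N.bd F2 K (capL c z) = capL c (N.bd F2 K z) := by
  have : N.bd F2 K ∘ₗ capL c = capL c ∘ₗ N.bd F2 K := by
    refine hom_ext fun n x => ?_
    simp only [LinearMap.comp_apply]
    have h2 : ∀ (i : ℕ) (m : ℕ) (y : K.S m), ((-1 : F2) ^ i) • N.sx F2 y = N.sx F2 y := by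
      intro i m y
      have : (-1 : F2) = 1 := by decide
      rw [this, one_pow, one_smul]
    rcases n with _ | _ | n
    · rw [capL_sx_zero, map_zero, EZ271.bd_sx_zero, map_zero]
    · rw [capL_sx_succ, map_smul, EZ271.bd_sx_zero, EZ271.bd_sx_succ, smul_zero, map_sum]
      symm
      refine Finset.sum_eq_zero fun i _ => ?_
      rw [h2, capL_sx_zero]
    · rw [capL_sx_succ, map_smul, EZ271.bd_sx_succ, EZ271.bd_sx_succ, map_sum]
      simp only [h2, capL_sx_succ]
      rw [Fin.sum_univ_succ, Fin.sum_univ_succ (n := n + 2), Fin.sum_univ_succ (n := n + 1)]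
      have hc := c.coc (K.act e012 x)
      rw [← K.act_comp, ← K.act_comp, ← K.act_comp, e012_face_zero, e012_face_one,
        e012_face_two] at hc
      have e1 : K.act (Op.face 0) (K.act (Op.face (Fin.succ (0 : Fin (n + 2)))) x) =
          K.act (Op.face 0) (K.act (Op.face 0) x) := by
        rw [← K.act_comp, face_face_zero, K.act_comp]
      have e2 : ∀ i : Fin (n + 1), c.l (K.act e01 (K.act (Op.face i.succ.succ) x)) •
          N.sx F2 (K.act (Op.face 0) (K.act (Op.face i.succ.succ) x)) =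
          c.l (K.act e01 x) • N.sx F2 (K.act (Op.face i.succ) (K.act (Op.face 0) x)) := by
        intro i
        rw [← K.act_comp e01, face_succ_succ_e01, ← K.act_comp (Op.face 0), face_face_zero,
          K.act_comp]
      have e3 : c.l (K.act e01 (K.act (Op.face (Fin.succ (0 : Fin (n + 2)))) x)) =
          c.l (K.act e01 x) + c.l (K.act e01 (K.act (Op.face 0) x)) := by
        rw [← K.act_comp e01, ← K.act_comp e01]
        exact hc
      rw [Finset.sum_congr rfl fun i _ => e2 i, e1, e3, smul_add, ← Finset.smul_sum, add_smul]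
      generalize c.l (K.act e01 (K.act (Op.face 0) x)) • N.sx F2
        (K.act (Op.face 0) (K.act (Op.face 0) x)) = t
      generalize c.l (K.act e01 x) • N.sx F2
        (K.act (Op.face 0) (K.act (Op.face 0) x)) = s
      have ht : t + t = 0 := ZModModule.add_self t
      rw [← add_assoc, add_comm s t, ← add_assoc, ht, zero_add]
  exact LinearMap.congr_fun this z

theorem capL_mem_gr (c : Coc1 K) {n : ℕ} {z : N F2 K} (hz : z ∈ N.gr F2 K (n + 1)) :
    capL c z ∈ N.gr F2 K n := by
  refine Gr334.gr_induction (p := fun z => capL c z ∈ N.gr F2 K n) hz ?_ ?_ ?_ ?_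
  · rw [map_zero]; exact Submodule.zero_mem _
  · intro a b ha hb; rw [map_add]; exact Submodule.add_mem _ ha hb
  · intro r a ha; rw [map_smul]; exact Submodule.smul_mem _ _ ha
  · intro x; rw [capL_sx_succ]; exact Submodule.smul_mem _ _ (Gr334.sx_mem_gr _)

theorem capL_gr_zero (c : Coc1 K) {z : N F2 K} (hz : z ∈ N.gr F2 K 0) : capL c z = 0 := by
  refine Gr334.gr_induction (p := fun z => capL c z = 0) hz ?_ ?_ ?_ ?_
  · rw [map_zero]
  · intro a b ha hb; rw [map_add, ha, hb, add_zero]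
  · intro r a ha; rw [map_smul, ha, smul_zero]
  · intro x; rw [capL_sx_zero]

/-! ## cones and the cross product -/

/-- chains all of whose simplices start at the vertex `v` -/
def startAt (v : K.S 0) : Submodule F2 (N F2 K) :=
  Submodule.span F2 {z | ∃ (n : ℕ) (y : K.S n), K.act (vtx 0) y = v ∧ z = N.sx F2 y}

theorem star_vtx {n : ℕ} : Op.star (vtx 0 : Op 0 n) = (e01 : Op 1 (n + 1)) := by
  refine OrderHom.ext _ _ (funext fun a => ?_)
  induction a using Fin.cases with
  | zero => rfl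
  | succ a =>
    have ha : a = 0 := Fin.ext (by omega)
    subst ha
    rfl

theorem capL_cone (c : Coc1 K) (A : Cone K) {v : K.S 0} {z : N F2 K} (hz : z ∈ startAt v) :
    capL c (A.c F2 z) = c.l (A.k v) • z := by
  refine Submodule.span_induction (p := fun z _ => capL c (A.c F2 z) = c.l (A.k v) • z)
    ?_ ?_ ?_ ?_ hz
  · rintro _ ⟨n, y, hy, rfl⟩
    rw [Cone.c_sx, capL_sx_succ, A.h_face, ← star_vtx, ← A.h_star, hy]
  · simp
  · intro a b _ _ ha hb; rw [map_add, map_add, ha, hb, smul_add]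
  · intro r a _ ha; rw [map_smul, map_smul, ha, smul_comm]

theorem map_startAt (f : SS.Hom K L) {v : K.S 0} {z : N F2 K} (hz : z ∈ startAt v) :
    N.map F2 f z ∈ startAt (f.app 0 v) := by
  refine Submodule.span_induction (p := fun z _ => N.map F2 f z ∈ startAt (f.app 0 v))
    ?_ ?_ ?_ ?_ hz
  · rintro _ ⟨n, y, hy, rfl⟩
    rw [N.map_sx]
    exact Submodule.subset_span ⟨n, _, by rw [← f.nat, hy], rfl⟩
  · rw [map_zero]; exact Submodule.zero_mem _
  · intro a b _ _ ha hb; rw [map_add]; exact Submodule.add_mem _ ha hb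
  · intro r a _ ha; rw [map_smul]; exact Submodule.smul_mem _ _ ha

theorem cone_startAt (A : Cone K) (z : N F2 K) : A.c F2 z ∈ startAt A.bot := by
  refine N_induction (p := fun z => A.c F2 z ∈ startAt A.bot) z ?_ ?_ ?_ ?_
  · rw [map_zero]; exact Submodule.zero_mem _
  · intro a b ha hb; rw [map_add]; exact Submodule.add_mem _ ha hb
  · intro r a ha; rw [map_smul]; exact Submodule.smul_mem _ _ ha
  · intro n y
    rw [Cone.c_sx]
    exact Submodule.subset_span ⟨n + 1, _, A.h_vert _ _ rfl, rfl⟩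

theorem E_startAt (p q : ℕ) : EZ271.E F2 p q ∈ startAt (EZ271.Cpq p q).bot := by
  rcases p with _ | p <;> rcases q with _ | q
  · rw [EZ271.E_zero_zero]
    exact Submodule.subset_span ⟨0, _, by rw [vtx_id, SS.act_id], rfl⟩
  · rw [EZ271.E_zero_succ]; exact cone_startAt _ _
  · rw [EZ271.E_succ_zero]; exact cone_startAt _ _
  · rw [EZ271.E_succ_succ]; exact cone_startAt _ _

theorem capL_E_succ (p q : ℕ) (c : Coc1 (SS.std (p + 1))) :
    capL (c.pull (SS.fst _ _)) (EZ271.E F2 (p + 1) q) =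
      c.l (e01 : Op 1 (p + 1)) • N.map F2 (SS.prodMap (stdMap (Op.face 0)) (SS.Hom.id _))
        (EZ271.E F2 p q) := by
  have h1 : ∀ q : ℕ, (c.pull (SS.fst _ _)).l ((EZ271.Cpq (p + 1) q).k
      ((SS.prodMap (stdMap (Op.face 0)) (SS.Hom.id _)).app 0 (EZ271.Cpq p q).bot)) =
      c.l (e01 : Op 1 (p + 1)) := fun q => by
    show c.l (Op.star (vtx 0 : Op 0 p)) = _
    rw [star_vtx]
  rcases q with _ | q
  · rw [EZ271.E_succ_zero, capL_cone _ _ (map_startAt _ (E_startAt p 0)), h1]
  · have h2 : (c.pull (SS.fst _ _)).l ((EZ271.Cpq (p + 1) (q + 1)).k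
        ((SS.prodMap (SS.Hom.id _) (stdMap (Op.face 0))).app 0 (EZ271.Cpq (p + 1) q).bot)) = 0 := by
      show c.l ((Cone.std (p + 1)).k (Cone.std (p + 1)).bot) = 0
      rw [(Cone.std (p + 1)).h_bot, c.dgn]
    rw [EZ271.E_succ_succ, map_add, map_smul, map_add, map_smul,
      capL_cone _ _ (map_startAt _ (E_startAt p (q + 1))), h1,
      capL_cone _ _ (map_startAt _ (E_startAt (p + 1) q)), h2, zero_smul, smul_zero, add_zero]

theorem capL_E_zero (q : ℕ) (c : Coc1 (SS.std 0)) :
    capL (c.pull (SS.fst _ _)) (EZ271.E F2 0 q) = 0 := by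
  rcases q with _ | q
  · rw [EZ271.E_zero_zero, capL_sx_zero]
  · have h2 : (c.pull (SS.fst _ _)).l ((EZ271.Cpq 0 (q + 1)).k
        ((SS.prodMap (SS.Hom.id _) (stdMap (Op.face 0))).app 0 (EZ271.Cpq 0 q).bot)) = 0 := by
      show c.l ((Cone.std 0).k (Cone.std 0).bot) = 0
      rw [(Cone.std 0).h_bot, c.dgn]
    rw [EZ271.E_zero_succ, capL_cone _ _ (map_startAt _ (E_startAt 0 q)), h2, zero_smul]

/-- **the cap product with a class from the first factor, on a cross product** -/
theorem capL_cross (c : Coc1 K) (a : N F2 K) (b : N F2 L) :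
    capL (c.pull (SS.fst K L)) (cross F2 a b) = cross F2 (capL c a) b := by
  have : (cross F2 (K := K) (L := L)).compr₂ (capL (c.pull (SS.fst K L))) =
      (cross F2).comp (capL c) := by
    refine EZ271.bilin_ext F2 fun p x q y => ?_
    simp only [LinearMap.compr₂_apply, LinearMap.comp_apply]
    rw [EZ271.cross_sx, capL_map]
    have e : (c.pull (SS.fst K L)).pull (SS.prodMap (K.yo x) (L.yo y)) =
      (c.pull (K.yo x)).pull (SS.fst _ _) := rfl
    rw [e]
    rcases p with _ | p
    · rw [capL_E_zero, capL_sx_zero, map_zero, map_zero, LinearMap.zero_apply]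
    · rw [capL_E_succ, capL_sx_succ, map_smul, map_smul, LinearMap.smul_apply, EZ271.cross_sx,
        EZ271.map_map, EZ271.prodMap_comp, ← EZ271.yo_act]
      rfl
  exact LinearMap.congr_fun₂ this a b

/-! ## homology -/

/-- cap product with a 1-cocycle on homology -/
def capG (c : Coc1 K) : H F2 K →ₗ[F2] H F2 K := Hd.map (capL c) (by
  ext z
  simp only [LinearMap.comp_apply, Submodule.mkQ_apply]
  rw [bd_capL])

theorem capL_cyc (c : Coc1 K) {z : N F2 K} (hz : N.bd F2 K z = 0) : N.bd F2 K (capL c z) = 0 := by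
  rw [bd_capL, hz, map_zero]

theorem capG_mk (c : Coc1 K) (z : N F2 K) (hz : N.bd F2 K z = 0) :
    capG c (Hd.mk _ z hz) = Hd.mk _ (capL c z) (capL_cyc c hz) := rfl

theorem capG_map (c : Coc1 L) (f : SS.Hom K L) (x : H F2 K) :
    capG c (H.map F2 f x) = H.map F2 f (capG (c.pull f) x) := by
  obtain ⟨z, hz, rfl⟩ := Hd.mk_surj _ x
  simp only [Coalg847.hMap_mk, capG_mk, capL_map]

theorem capG_mem_gr (c : Coc1 K) {n : ℕ} {x : H F2 K} (hx : x ∈ H.gr F2 K (n + 1)) :
    capG c x ∈ H.gr F2 K n := by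
  obtain ⟨z, hz, hz', rfl⟩ := Coalg847.mem_gr_iff.1 hx
  rw [capG_mk]
  exact Coalg847.mk_mem_gr _ (capL_mem_gr c hz')

theorem capG_gr_zero (c : Coc1 K) {x : H F2 K} (hx : x ∈ H.gr F2 K 0) : capG c x = 0 := by
  obtain ⟨z, hz, hz', rfl⟩ := Coalg847.mem_gr_iff.1 hx
  rw [capG_mk, Hd.mk_eq_zero]
  exact ⟨0, by rw [map_zero, capL_gr_zero c hz']⟩

theorem capG_cr (E : EZData) (hE : ∀ (K L : SS) (x : N F2 K) (y : N F2 L),
    E.ez K L x y = cross F2 x y) (c : Coc1 K) (x : H F2 K) (y : H F2 L) :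
    capG (c.pull (SS.fst K L)) (E.cr K L (x ⊗ₜ y)) = E.cr K L (capG c x ⊗ₜ y) := by
  obtain ⟨z, hz, rfl⟩ := Hd.mk_surj _ x
  obtain ⟨w, hw, rfl⟩ := Hd.mk_surj _ y
  simp only [EZData.cr_mk, capG_mk, hE, capL_cross]

section cop
variable (E : EZData) (hE : ∀ (K L : SS) (x : N F2 K) (y : N F2 L), E.ez K L x y = cross F2 x y)

include hE in
theorem capG_cr' (c : Coc1 K) (t : H F2 K ⊗[F2] H F2 L) :
    capG (c.pull (SS.fst K L)) (E.cr K L t) =
      E.cr K L (TensorProduct.map (capG c) LinearMap.id t) := by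
  induction t with
  | zero => simp
  | add a b ha hb => simp only [map_add, ha, hb]
  | tmul a b => rw [capG_cr E hE, TensorProduct.map_tmul, LinearMap.id_apply]

include hE in
/-- the cap product is a coderivation-like map: `Δ ∘ cap = (cap ⊗ id) ∘ Δ` -/
theorem cop_capG (c : Coc1 K) (x : H F2 K) :
    E.cop K (capG c x) = TensorProduct.map (capG c) LinearMap.id (E.cop K x) := by
  apply (E.cr K K).injective
  rw [EZData.cr_cop, ← capG_cr' E hE, EZData.cr_cop, capG_map]
  rfl

/-- evaluation of the degree 1 class -/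
def uu (c : Coc1 K) : H F2 K →ₗ[F2] F2 := eps K ∘ₗ capG c

theorem uu_apply (c : Coc1 K) (x : H F2 K) : uu c x = eps K (capG c x) := rfl

theorem uu_gr_zero (c : Coc1 K) {x : H F2 K} (hx : x ∈ H.gr F2 K 0) : uu c x = 0 := by
  rw [uu_apply, capG_gr_zero c hx, map_zero]

theorem uu_gr (c : Coc1 K) {n : ℕ} (hn : n ≠ 1) {x : H F2 K} (hx : x ∈ H.gr F2 K n) :
    uu c x = 0 := by
  rcases n with _ | _ | n
  · exact uu_gr_zero c hx
  · exact absurd rfl hn
  · rw [uu_apply]
    exact Coalg847.eps_gr (Nat.succ_ne_zero n) (capG_mem_gr c hx)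

include hE in
/-- **cap product as a slant of the coproduct** -/
theorem capG_eq (c : Coc1 K) (x : H F2 K) :
    capG c x = TensorProduct.lid F2 _ (TensorProduct.map (uu c) LinearMap.id (E.cop K x)) := by
  conv_lhs => rw [← E.eps_cop (capG c x), cop_capG E hE]
  congr 1
  generalize E.cop K x = t
  induction t with
  | zero => simp
  | add a b ha hb => simp only [map_add, ha, hb]
  | tmul a b => rfl

include hE in
/-- primitive elements -/
theorem capG_prim (c : Coc1 K) {v : K.S 0} {x : H F2 K}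
    (hx : E.cop K x = x ⊗ₜ Coalg847.vtx v + Coalg847.vtx v ⊗ₜ x) :
    capG c x = uu c x • Coalg847.vtx v := by
  rw [capG_eq E hE, hx]
  simp only [map_add, TensorProduct.map_tmul, TensorProduct.lid_tmul, LinearMap.id_apply,
    uu_gr_zero c (Coalg847.vtx_mem_gr v), zero_smul, add_zero]

include hE in
theorem capG_prim_zero (c : Coc1 K) {v : K.S 0} {x : H F2 K}
    (hx : E.cop K x = x ⊗ₜ Coalg847.vtx v + Coalg847.vtx v ⊗ₜ x) {n : ℕ} (hn : n ≠ 1)
    (hg : x ∈ H.gr F2 K n) : capG c x = 0 := by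
  rw [capG_prim E hE c hx, uu_gr c hn hg, zero_smul]

/-! ## the product -/

variable (μ : SS.Hom (K.prod K) K)

/-- Pontryagin product (raw form) -/
def pmul (x y : H F2 K) : H F2 K := H.map F2 μ (E.cr K K (x ⊗ₜ y))

theorem pmul_add_left (x x' y : H F2 K) : pmul E μ (x + x') y = pmul E μ x y + pmul E μ x' y := by
  simp only [pmul, TensorProduct.add_tmul, map_add]

theorem pmul_add_right (x y y' : H F2 K) : pmul E μ x (y + y') = pmul E μ x y + pmul E μ x y' := by
  simp only [pmul, TensorProduct.tmul_add, map_add]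

theorem pmul_smul_left (r : F2) (x y : H F2 K) : pmul E μ (r • x) y = r • pmul E μ x y := by
  simp only [pmul, ← TensorProduct.smul_tmul', map_smul]

theorem pmul_smul_right (r : F2) (x y : H F2 K) : pmul E μ x (r • y) = r • pmul E μ x y := by
  simp only [pmul, TensorProduct.tmul_smul, map_smul]

theorem pmul_mem_gr {m n : ℕ} {x y : H F2 K} (hx : x ∈ H.gr F2 K m) (hy : y ∈ H.gr F2 K n) :
    pmul E μ x y ∈ H.gr F2 K (m + n) := Coalg847.hMap_mem_gr _ (E.cr_mem_gr hx hy)

theorem pmul_zero_left (y : H F2 K) : pmul E μ 0 y = 0 := by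
  simp [pmul]

theorem pmul_zero_right (x : H F2 K) : pmul E μ x 0 = 0 := by
  simp [pmul]

/-- homogeneous induction on homology classes -/
theorem H_induction {p : H F2 K → Prop} (x : H F2 K) (h0 : p 0)
    (hadd : ∀ a b, p a → p b → p (a + b)) (hgr : ∀ n, ∀ a ∈ H.gr F2 K n, p a) : p x := by
  have hx : x ∈ ⨆ n, H.gr F2 K n := by
    rw [(Gr334.isInternal_H F2 K).submodule_iSup_eq_top]; trivial
  exact Submodule.iSup_induction _ (motive := p) hx (fun n a ha => hgr n a ha) h0 hadd

/-- the evaluation is a derivation over the augmentation -/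
theorem uu_pmul (c : Coc1 K) {v : K.S 0} (hconn : ∀ x ∈ H.gr F2 K 0, x = eps K x • Coalg847.vtx v)
    (hr : ∀ x, pmul E μ x (Coalg847.vtx v) = x) (hl : ∀ x, pmul E μ (Coalg847.vtx v) x = x)
    (x y : H F2 K) : uu c (pmul E μ x y) = uu c x * eps K y + eps K x * uu c y := by
  refine H_induction (p := fun x => uu c (pmul E μ x y) = uu c x * eps K y + eps K x * uu c y)
    x ?_ ?_ ?_
  · rw [pmul_zero_left]; simp
  · intro a b ha hb
    rw [pmul_add_left, map_add, ha, hb, map_add, map_add]; ring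
  intro m x hx
  refine H_induction (p := fun y => uu c (pmul E μ x y) = uu c x * eps K y + eps K x * uu c y)
    y ?_ ?_ ?_
  · rw [pmul_zero_right]; simp
  · intro a b ha hb
    rw [pmul_add_right, map_add, ha, hb, map_add, map_add]; ring
  intro n y hy
  by_cases h1 : m = 1 ∧ n = 0
  · obtain ⟨rfl, rfl⟩ := h1
    rw [Coalg847.eps_gr one_ne_zero hx, zero_mul, add_zero]
    conv_lhs => rw [hconn y hy, pmul_smul_right, hr, map_smul]
    rw [smul_eq_mul, mul_comm]
  by_cases h2 : m = 0 ∧ n = 1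
  · obtain ⟨rfl, rfl⟩ := h2
    rw [Coalg847.eps_gr one_ne_zero hy, mul_zero, zero_add]
    conv_lhs => rw [hconn x hx, pmul_smul_left, hl, map_smul]
    rw [smul_eq_mul]
  rw [uu_gr c (by omega) (pmul_mem_gr E μ hx hy)]
  have h3 : uu c x * eps K y = 0 := by
    by_cases hm : m = 1
    · rw [Coalg847.eps_gr (fun hn => h1 ⟨hm, hn⟩) hy, mul_zero]
    · rw [uu_gr c hm hx, zero_mul]
  have h4 : eps K x * uu c y = 0 := by
    by_cases hn : n = 1
    · rw [Coalg847.eps_gr (fun hm => h2 ⟨hm, hn⟩) hx, zero_mul]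
    · rw [uu_gr c hn hy, mul_zero]
  rw [h3, h4, add_zero]

/-- coproduct of a product -/
theorem cop_pmul (x y : H F2 K) : E.cop K (pmul E μ x y) =
    TensorProduct.map (H.map F2 μ ∘ₗ (E.cr K K).toLinearMap) (H.map F2 μ ∘ₗ (E.cr K K).toLinearMap)
      (TensorProduct.tensorTensorTensorComm F2 _ _ _ _ (E.cop K x ⊗ₜ E.cop K y)) := by
  rw [pmul, EZData.cop_nat, EZData.cop_cr, TensorProduct.map_comp]
  rfl

include hE in
/-- **(e) the cap product with a degree 1 class is a derivation of the Pontryagin product** -/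
theorem capG_pmul (c : Coc1 K) {v : K.S 0}
    (hconn : ∀ x ∈ H.gr F2 K 0, x = eps K x • Coalg847.vtx v)
    (hr : ∀ x, pmul E μ x (Coalg847.vtx v) = x) (hl : ∀ x, pmul E μ (Coalg847.vtx v) x = x)
    (x y : H F2 K) :
    capG c (pmul E μ x y) = pmul E μ (capG c x) y + pmul E μ x (capG c y) := by
  have key : ∀ s t : H F2 K ⊗[F2] H F2 K,
      TensorProduct.lid F2 _ (TensorProduct.map (uu c) LinearMap.id
        (TensorProduct.map (H.map F2 μ ∘ₗ (E.cr K K).toLinearMap)
          (H.map F2 μ ∘ₗ (E.cr K K).toLinearMap)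
          (TensorProduct.tensorTensorTensorComm F2 _ _ _ _ (s ⊗ₜ t)))) =
      pmul E μ (TensorProduct.lid F2 _ (TensorProduct.map (uu c) LinearMap.id s))
          (TensorProduct.lid F2 _ (TensorProduct.map (eps K) LinearMap.id t)) +
        pmul E μ (TensorProduct.lid F2 _ (TensorProduct.map (eps K) LinearMap.id s))
          (TensorProduct.lid F2 _ (TensorProduct.map (uu c) LinearMap.id t)) := by
    intro s t
    induction s with
    | zero => simp [pmul_zero_left]
    | add a b ha hb =>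
      simp only [map_add, TensorProduct.add_tmul, ha, hb, pmul_add_left]
      abel
    | tmul a b =>
      induction t with
      | zero => simp [pmul_zero_right]
      | add c d hc hd =>
        simp only [map_add, TensorProduct.tmul_add, hc, hd, pmul_add_right]
        abel
      | tmul a' b' =>
        have h := uu_pmul E μ c hconn hr hl a a'
        simp only [TensorProduct.tensorTensorTensorComm_tmul, TensorProduct.map_tmul,
          TensorProduct.lid_tmul, LinearMap.id_apply, LinearMap.comp_apply,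
          LinearEquiv.coe_coe]
        change uu c (pmul E μ a a') • pmul E μ b b' = _
        rw [h, pmul_smul_left, pmul_smul_right, pmul_smul_left, pmul_smul_right, smul_smul,
          smul_smul, ← add_smul]
  rw [capG_eq E hE c (pmul E μ x y), cop_pmul, key, E.eps_cop, E.eps_cop, ← capG_eq E hE,
    ← capG_eq E hE]

end cop

/-! ## back to the Wang sequence -/

section wang
open Cov892

variable {Kt : SS} (C : ZCov Kt K)

/-- the mod 2 cocycle of a `ℤ`-covering -/
def kapCoc : Coc1 K where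
  l e := (kap C e : F2)
  dgn v f := by rw [kap_dgn]; simp
  coc x := by rw [kap_cocycle]; push_cast; ring

theorem capN_eq (z : N F2 K) : capN C F2 z = capL (kapCoc C) z := by
  have : capN C F2 = capL (kapCoc C) := by
    refine hom_ext fun n x => ?_
    rcases n with _ | n
    · rw [capN_sx_zero, capL_sx_zero]
    · rw [capN_sx_succ, capL_sx_succ]; rfl
  rw [this]

theorem capH_eq (x : H F2 K) : capH C x = capG (kapCoc C) x := by
  obtain ⟨z, hz, rfl⟩ := Hd.mk_surj _ x
  have hz' : N.bd F2 K (capN C F2 z) = 0 := by rw [bd_capN, hz, map_zero, neg_zero]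
  rw [capH_mk C z hz hz', capG_mk]
  simp only [capN_eq]

theorem capH_gr_zero {x : H F2 K} (hx : x ∈ H.gr F2 K 0) : capH C x = 0 := by
  rw [capH_eq, capG_gr_zero _ hx]

/-- the class of a vertex is a value of the cap product -/
theorem exists_capH_vtx (hg : ∀ x : H F2 Kt, H.map F2 C.g x = x) (v : K.S 0) :
    ∃ w ∈ H.gr F2 K 1, capH C w = Coalg847.vtx v := by
  obtain ⟨t, ht⟩ := C.surj 0 v
  obtain ⟨w, hw⟩ := ((summary C hg).2.2 (Coalg847.vtx v)).1
    ⟨Coalg847.vtx t, by rw [Coalg847.hMap_vtx, ht]⟩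
  have key : ∀ w : H F2 K, ∃ w' ∈ H.gr F2 K 1, Gr334.prH F2 K 0 (capH C w) = capH C w' := by
    intro w
    refine H_induction (p := fun w => ∃ w' ∈ H.gr F2 K 1, Gr334.prH F2 K 0 (capH C w) = capH C w')
      w ?_ ?_ ?_
    · exact ⟨0, Submodule.zero_mem _, by simp⟩
    · rintro a b ⟨a', ha', ha⟩ ⟨b', hb', hb⟩
      exact ⟨a' + b', Submodule.add_mem _ ha' hb', by simp only [map_add, ha, hb]⟩
    · intro n a ha
      rcases n with _ | _ | n
      · exact ⟨0, Submodule.zero_mem _, by rw [capH_gr_zero C ha, map_zero, map_zero]⟩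
      · exact ⟨a, ha, Gr334.prH_of_mem (capH_mem C ha)⟩
      · exact ⟨0, Submodule.zero_mem _, by
          rw [Gr334.prH_of_mem_ne (Nat.succ_ne_zero n) (capH_mem C ha), map_zero]⟩
  obtain ⟨w', hw', h⟩ := key w
  refine ⟨w', hw', ?_⟩
  rw [← h, hw, Gr334.prH_of_mem (Coalg847.vtx_mem_gr v)]

/-- if `x₁` spans the degree 1 homology, its cap product with the class is the unit -/
theorem capH_x1 (hg : ∀ x : H F2 Kt, H.map F2 C.g x = x) (v : K.S 0) {x₁ : H F2 K}
    (hx : ∀ x ∈ H.gr F2 K 1, ∃ r : F2, x = r • x₁) : capH C x₁ = Coalg847.vtx v := by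
  obtain ⟨w, hw, h⟩ := exists_capH_vtx C hg v
  obtain ⟨r, rfl⟩ := hx w hw
  have hr : r ≠ 0 := by
    rintro rfl
    rw [zero_smul, map_zero] at h
    have := congrArg (eps K) h
    rw [map_zero, Coalg847.eps_vtx] at this
    exact zero_ne_one this
  have h1 : r = 1 := (by decide : ∀ r : F2, r ≠ 0 → r = 1) r hr
  rw [h1, one_smul] at h
  exact h

section cop
variable (E : EZData) (hE : ∀ (K L : SS) (x : N F2 K) (y : N F2 L), E.ez K L x y = cross F2 x y)
include hE

/-- the cap product kills primitives of degree `≠ 1` -/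
theorem capH_prim {v : K.S 0} {x : H F2 K}
    (hx : E.cop K x = x ⊗ₜ Coalg847.vtx v + Coalg847.vtx v ⊗ₜ x) {n : ℕ} (hn : n ≠ 1)
    (hg : x ∈ H.gr F2 K n) : capH C x = 0 := by
  rw [capH_eq]
  exact capG_prim_zero E hE _ hx hn hg

/-- the cap product is a derivation of the Pontryagin product -/
theorem capH_pmul (μ : SS.Hom (K.prod K) K) {v : K.S 0}
    (hconn : ∀ x ∈ H.gr F2 K 0, x = eps K x • Coalg847.vtx v)
    (hr : ∀ x, pmul E μ x (Coalg847.vtx v) = x) (hl : ∀ x, pmul E μ (Coalg847.vtx v) x = x)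
    (x y : H F2 K) :
    capH C (pmul E μ x y) = pmul E μ (capH C x) y + pmul E μ x (capH C y) := by
  simp only [capH_eq]
  exact capG_pmul E hE μ _ hconn hr hl x y

end cop

end wang

end Crest.Agent.R204.Wang905
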