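import Crest.Agent.R204.CovDefs_892
import Crest.Agent.R204.HA_498
import Crest.Agent.R204.Normz_515

/-!
# Row 204, leaf B5 (the k = 0 step): the WANG sequence of an infinite cyclic covering (helper905)

`C : ZCov Kt K`, any commutative ring `R`.

* `om`, `omN` : `1 - g` on chains / normalised chains
* `ses C R` : `0 → N Kt --(1-g)--> N Kt → N K → 0` (as `HA498.SES`)
* `dlt C R : H R K →ₗ H R Kt`, `exact_om_p`, `exact_p_dlt`, `exact_dlt_om`, `dlt_mem`, `dlt_nat`
* `kap C : K.S 1 → ℤ`, `capN C R : N R K →ₗ N R K`, `p_dlt_mk : p_* δ [z] = -[cap z]`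
* `p_inj`, `range_p`, ... when `g` acts as the identity on homology
-/

set_option autoImplicit false

noncomputable section

open Finsupp Function

namespace Crest.Agent.R204.Wang905

open Cov892

/-! ## degenerate chains -/

section Dg
variable {R : Type} [CommRing R] {K : SS}

theorem Dg_eq : Ch.Dg R K = Finsupp.supported R R {t | Ch.IsDgn K t} := by
  rw [Finsupp.supported_eq_span_single]
  unfold Ch.Dg
  congr 1
  ext c
  constructor
  · rintro ⟨t, ht, rfl⟩
    exact ⟨t, ht, rfl⟩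
  · rintro ⟨t, ht, rfl⟩
    exact ⟨t, ht, rfl⟩

theorem mem_Dg_iff (c : Ch R K) : c ∈ Ch.Dg R K ↔ ∀ t, ¬ Ch.IsDgn K t → c t = 0 := by
  rw [Dg_eq, Finsupp.mem_supported']
  rfl

theorem single_mem_gr (n : ℕ) (y : K.S n) (r : R) : (single ⟨n, y⟩ r : Ch R K) ∈ Ch.gr R K n := by
  have : (single ⟨n, y⟩ r : Ch R K) = r • single ⟨n, y⟩ 1 := by simp
  rw [this]
  exact Submodule.smul_mem _ _ (Submodule.subset_span ⟨y, rfl⟩)

theorem map_mem_gr {L : SS} (f : SS.Hom K L) {n : ℕ} {c : Ch R K} (hc : c ∈ Ch.gr R K n) :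
    Ch.map R f c ∈ Ch.gr R L n := by
  refine Submodule.span_induction (p := fun c _ => Ch.map R f c ∈ Ch.gr R L n) ?_ ?_ ?_ ?_ hc
  · rintro _ ⟨x, rfl⟩
    rw [Ch.map_single]
    exact single_mem_gr _ _ _
  · simp
  · intro a b _ _ ha hb; rw [map_add]; exact Submodule.add_mem _ ha hb
  · intro r a _ ha; rw [map_smul]; exact Submodule.smul_mem _ _ ha

theorem bd_mem_gr {n : ℕ} {c : Ch R K} (hc : c ∈ Ch.gr R K (n + 1)) :
    Ch.bd R K c ∈ Ch.gr R K n := by
  refine Submodule.span_induction (p := fun c _ => Ch.bd R K c ∈ Ch.gr R K n) ?_ ?_ ?_ ?_ hc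
  · rintro _ ⟨x, rfl⟩
    rw [Ch.bd_single_succ]
    exact Submodule.sum_mem _ fun i _ => single_mem_gr _ _ _
  · simp
  · intro a b _ _ ha hb; rw [map_add]; exact Submodule.add_mem _ ha hb
  · intro r a _ ha; rw [map_smul]; exact Submodule.smul_mem _ _ ha

theorem bd_gr_zero {c : Ch R K} (hc : c ∈ Ch.gr R K 0) : Ch.bd R K c = 0 := by
  refine Submodule.span_induction (p := fun c _ => Ch.bd R K c = 0) ?_ ?_ ?_ ?_ hc
  · rintro _ ⟨x, rfl⟩
    exact Ch.bd_single_zero _ _
  · simp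
  · intro a b _ _ ha hb; rw [map_add, ha, hb, add_zero]
  · intro r a _ ha; rw [map_smul, ha, smul_zero]

theorem pr_map {L : SS} (f : SS.Hom K L) (n : ℕ) (c : Ch R K) :
    Normz515.pr R L n (Ch.map R f c) = Ch.map R f (Normz515.pr R K n c) := by
  induction c using Finsupp.induction_linear with
  | zero => simp
  | add a b ha hb => simp only [map_add, ha, hb]
  | single t r =>
    obtain ⟨m, x⟩ := t
    rw [Ch.map_single]
    by_cases h : m = n
    · subst h
      rw [Normz515.pr_single_self, Normz515.pr_single_self, Ch.map_single]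
    · rw [Normz515.pr_single_ne h, Normz515.pr_single_ne h, map_zero]

theorem mem_Ngr_iff {n : ℕ} (c : Ch R K) :
    (Submodule.Quotient.mk c : N R K) ∈ N.gr R K n ↔ c - Normz515.pr R K n c ∈ Ch.Dg R K := by
  constructor
  · rintro ⟨c', hc', h⟩
    rw [Submodule.mkQ_apply, Submodule.Quotient.eq] at h
    have h2 := Submodule.sub_mem _ h (Normz515.pr_mem_Dg n h)
    rw [map_sub, Normz515.pr_of_gr hc'] at h2
    have : c - Normz515.pr R K n c = -(c' - c - (c' - Normz515.pr R K n c)) := by abel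
    rw [this]
    exact Submodule.neg_mem _ h2
  · intro h
    refine ⟨Normz515.pr R K n c, Normz515.pr_mem_gr n c, ?_⟩
    rw [Submodule.mkQ_apply, Submodule.Quotient.eq]
    have : Normz515.pr R K n c - c = -(c - Normz515.pr R K n c) := by abel
    rw [this]
    exact Submodule.neg_mem _ h

end Dg

section
variable {Kt K : SS} (C : ZCov Kt K)

theorem isDgn_iff (t : Kt.T) : Ch.IsDgn K ⟨t.1, C.p.app t.1 t.2⟩ ↔ Ch.IsDgn Kt t := by
  obtain ⟨n, x⟩ := t
  rcases n with _ | n
  · exact Iff.rfl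
  · constructor
    · rintro ⟨j, y', hy'⟩
      have e0 : (Op.dgn j).comp (Op.face j.castSucc) = (OrderHom.id : Op n n) :=
        Ch.face_dgn_eq _ _ (Or.inl rfl)
      have hy : C.p.app n (Kt.act (Op.face j.castSucc) x) = y' := by
        rw [C.p.nat]
        rw [hy', ← K.act_comp, e0, K.act_id]
      have : C.p.app (n + 1) (Kt.act (Op.dgn j) (Kt.act (Op.face j.castSucc) x)) =
          C.p.app (n + 1) x := by
        rw [C.p.nat, hy]
        exact hy'.symm
      obtain ⟨k, hk⟩ := C.orb _ _ this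
      refine ⟨j, (C.gE n ^ k) (Kt.act (Op.face j.castSucc) x), ?_⟩
      rw [← C.zpow_nat]
      exact hk
    · rintro ⟨j, y, rfl⟩
      exact ⟨j, C.p.app n y, C.p.nat _ _⟩

section chains
variable (R : Type) [CommRing R]

/-- `1 - g` on chains -/
def om : Ch R Kt →ₗ[R] Ch R Kt := LinearMap.id - Ch.map R C.g

variable {R}

theorem om_apply (c : Ch R Kt) : om C R c = c - Ch.map R C.g c := rfl

theorem map_g_apply (c : Ch R Kt) (n : ℕ) (x : Kt.S n) :
    Ch.map R C.g c ⟨n, C.gE n x⟩ = c ⟨n, x⟩ := by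
  unfold Ch.map
  rw [Finsupp.lmapDomain_apply]
  have hinj : Injective (fun t : Kt.T => (⟨t.1, C.g.app t.1 t.2⟩ : Kt.T)) := by
    rintro ⟨a, x⟩ ⟨b, y⟩ h
    simp only [Sigma.mk.injEq] at h
    obtain ⟨rfl, h⟩ := h
    have := (C.gE a).injective (eq_of_heq h)
    rw [this]
  exact Finsupp.mapDomain_apply hinj c ⟨n, x⟩

/-- support argument: a chain with `om c` vanishing on a `g`-stable set `P` of simplices vanishes on `P` -/
theorem om_vanish {P : Kt.T → Prop} (hP : ∀ (n : ℕ) (x : Kt.S n) (k : ℤ), P ⟨n, x⟩ →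
    P ⟨n, (C.gE n ^ k) x⟩) {c : Ch R Kt} (h : ∀ t, P t → om C R c t = 0) :
    ∀ t, P t → c t = 0 := by
  rintro ⟨n, x⟩ hx
  have step : ∀ k : ℤ, c ⟨n, (C.gE n ^ (k + 1)) x⟩ = c ⟨n, (C.gE n ^ k) x⟩ := by
    intro k
    have := h ⟨n, (C.gE n ^ (k + 1)) x⟩ (hP _ _ _ hx)
    rw [om_apply, Finsupp.sub_apply, sub_eq_zero] at this
    rw [this, add_comm k 1, zpow_add, zpow_one, Equiv.Perm.mul_apply, map_g_apply]
  have all : ∀ k : ℕ, c ⟨n, (C.gE n ^ (k : ℤ)) x⟩ = c ⟨n, x⟩ := by
    intro k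
    induction k with
    | zero => simp
    | succ k ih => push_cast; rw [step, ih]
  by_contra hne
  have hinj : Injective (fun k : ℕ => (⟨n, (C.gE n ^ (k : ℤ)) x⟩ : Kt.T)) := by
    intro a b hab
    simp only [Sigma.mk.injEq, heq_eq_eq, true_and] at hab
    have := C.zpow_inj _ hab
    omega
  have hfin : (Set.range (fun k : ℕ => (⟨n, (C.gE n ^ (k : ℤ)) x⟩ : Kt.T))).Finite := by
    refine (c.support.finite_toSet).subset ?_
    rintro _ ⟨k, rfl⟩
    simp only [Finset.mem_coe, Finsupp.mem_support_iff]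
    rw [all k]
    exact hne
  exact Set.infinite_range_of_injective hinj hfin

theorem om_mem_Dg {c : Ch R Kt} (h : om C R c ∈ Ch.Dg R Kt) : c ∈ Ch.Dg R Kt := by
  rw [mem_Dg_iff] at h ⊢
  refine om_vanish C (P := fun t => ¬ Ch.IsDgn Kt t) ?_ h
  intro n x k hx hk
  apply hx
  rw [← isDgn_iff C] at hk ⊢
  simpa only [C.p_zpow] using hk

theorem om_injective : Injective (om C R) := by
  rw [injective_iff_map_eq_zero]
  intro c hc
  ext t
  exact om_vanish C (P := fun _ => True) (fun _ _ _ _ => trivial)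
    (fun t _ => by rw [hc]; rfl) t trivial

theorem om_single (n : ℕ) (y : Kt.S n) (r : R) :
    om C R (single ⟨n, y⟩ r) = single ⟨n, y⟩ r - single ⟨n, C.gE n y⟩ r := by
  rw [om_apply, Ch.map_single]; rfl

theorem map_p_om (c : Ch R Kt) : Ch.map R C.p (om C R c) = 0 := by
  induction c using Finsupp.induction_linear with
  | zero => simp
  | add a b ha hb => rw [map_add, map_add, ha, hb, add_zero]
  | single t r =>
    obtain ⟨n, x⟩ := t
    rw [om_single, map_sub, Ch.map_single, Ch.map_single, C.p_gE, sub_self]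

/-- telescoping: `g^k x - x = (1 - g) b`, and `p b = - k (p x)` -/
theorem exists_tel (k : ℤ) (n : ℕ) (x : Kt.S n) (r : R) :
    ∃ b ∈ Ch.gr R Kt n, single ⟨n, (C.gE n ^ k) x⟩ r - single ⟨n, x⟩ r = om C R b ∧
      Ch.map R C.p b = -((k : R) • single ⟨n, C.p.app n x⟩ r) := by
  induction k using Int.induction_on with
  | zero => exact ⟨0, Submodule.zero_mem _, by simp, by simp⟩
  | succ i ih =>
    obtain ⟨b, hb, e, e'⟩ := ih
    refine ⟨b - single ⟨n, (C.gE n ^ (i : ℤ)) x⟩ r,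
      Submodule.sub_mem _ hb (single_mem_gr _ _ _), ?_, ?_⟩
    · have h1 : (C.gE n ^ ((i : ℤ) + 1)) x = C.gE n ((C.gE n ^ (i : ℤ)) x) := by
        rw [add_comm (i : ℤ) 1, zpow_add, zpow_one, Equiv.Perm.mul_apply]
      rw [LinearMap.map_sub, om_single, ← e, h1]
      abel
    · rw [LinearMap.map_sub, e', Ch.map_single, C.p_zpow]
      push_cast
      rw [add_smul, one_smul]
      abel
  | pred i ih =>
    obtain ⟨b, hb, e, e'⟩ := ih
    refine ⟨b + single ⟨n, (C.gE n ^ (-(i : ℤ) - 1)) x⟩ r,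
      Submodule.add_mem _ hb (single_mem_gr _ _ _), ?_, ?_⟩
    · have h1 : C.gE n ((C.gE n ^ (-(i : ℤ) - 1)) x) = (C.gE n ^ (-(i : ℤ))) x := by
        rw [← Equiv.Perm.mul_apply, ← zpow_one_add]
        congr 2
        ring
      rw [LinearMap.map_add, om_single, ← e, h1]
      abel
    · rw [LinearMap.map_add, e', Ch.map_single, C.p_zpow]
      push_cast
      rw [sub_smul, one_smul]
      abel

/-- the linear map of chains given by a section on simplices (not a chain map) -/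
def secL (R : Type) [CommRing R] (s : ∀ n, K.S n → Kt.S n) : Ch R K →ₗ[R] Ch R Kt :=
  Finsupp.lmapDomain R R (fun t : K.T => (⟨t.1, s t.1 t.2⟩ : Kt.T))

theorem secL_single (s : ∀ n, K.S n → Kt.S n) (n : ℕ) (y : K.S n) (r : R) :
    secL R s (single ⟨n, y⟩ r) = single ⟨n, s n y⟩ r := by
  unfold secL
  rw [Finsupp.lmapDomain_apply, Finsupp.mapDomain_single]

theorem p_secL (s : ∀ n, K.S n → Kt.S n) (hs : ∀ n y, C.p.app n (s n y) = y) (c : Ch R K) :
    Ch.map R C.p (secL R s c) = c := by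
  induction c using Finsupp.induction_linear with
  | zero => simp
  | add a b ha hb => rw [map_add, map_add, ha, hb]
  | single t r =>
    obtain ⟨n, x⟩ := t
    rw [secL_single, Ch.map_single, hs]

theorem secL_mem_gr (s : ∀ n, K.S n → Kt.S n) {n : ℕ} {c : Ch R K} (hc : c ∈ Ch.gr R K n) :
    secL R s c ∈ Ch.gr R Kt n := by
  refine Submodule.span_induction (p := fun c _ => secL R s c ∈ Ch.gr R Kt n) ?_ ?_ ?_ ?_ hc
  · rintro _ ⟨x, rfl⟩
    rw [secL_single]
    exact single_mem_gr _ _ _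
  · simp
  · intro a b _ _ ha hb; rw [map_add]; exact Submodule.add_mem _ ha hb
  · intro r a _ ha; rw [map_smul]; exact Submodule.smul_mem _ _ ha

theorem exists_om (s : ∀ n, K.S n → Kt.S n) (hs : ∀ n y, C.p.app n (s n y) = y) (c : Ch R Kt) :
    ∃ b : Ch R Kt, c - secL R s (Ch.map R C.p c) = om C R b := by
  induction c using Finsupp.induction_linear with
  | zero => exact ⟨0, by simp⟩
  | add c c' h h' =>
    obtain ⟨b, hb⟩ := h
    obtain ⟨b', hb'⟩ := h'
    refine ⟨b + b', ?_⟩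
    rw [LinearMap.map_add (om C R), ← hb, ← hb', LinearMap.map_add, LinearMap.map_add]
    abel
  | single t r =>
    obtain ⟨n, x⟩ := t
    rw [Ch.map_single, secL_single]
    obtain ⟨k, hk⟩ := C.orb (s n (C.p.app n x)) x (hs _ _)
    obtain ⟨b, -, e, -⟩ := exists_tel C k n (s n (C.p.app n x)) r
    refine ⟨b, ?_⟩
    rw [← e, ← hk]

theorem secL_mem_Dg (s : ∀ n, K.S n → Kt.S n) (hs : ∀ n y, C.p.app n (s n y) = y)
    {c : Ch R K} (hc : c ∈ Ch.Dg R K) : secL R s c ∈ Ch.Dg R Kt := by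
  refine Submodule.span_induction (p := fun c _ => secL R s c ∈ Ch.Dg R Kt) ?_ ?_ ?_ ?_ hc
  · rintro _ ⟨⟨n, x⟩, hx, rfl⟩
    rw [secL_single]
    refine Submodule.subset_span ⟨_, ?_, rfl⟩
    rw [← isDgn_iff C]
    simpa only [hs] using hx
  · simp
  · intro a b _ _ ha hb; rw [map_add]; exact Submodule.add_mem _ ha hb
  · intro r a _ ha; rw [map_smul]; exact Submodule.smul_mem _ _ ha

/-- some section -/
def sec (n : ℕ) (y : K.S n) : Kt.S n := (C.surj n y).choose

theorem p_sec (n : ℕ) (y : K.S n) : C.p.app n (sec C n y) = y := (C.surj n y).choose_spec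

end chains

/-! ## the short exact sequence of normalised chains -/

section norm
variable (R : Type) [CommRing R]

/-- `1 - g` on normalised chains -/
def omN : N R Kt →ₗ[R] N R Kt := LinearMap.id - N.map R C.g

variable {R}

theorem omN_mk (c : Ch R Kt) :
    omN C R (Submodule.Quotient.mk c) = Submodule.Quotient.mk (om C R c) := rfl

theorem omN_bd : omN C R ∘ₗ N.bd R Kt = N.bd R Kt ∘ₗ omN C R := by
  unfold omN
  rw [LinearMap.sub_comp, LinearMap.comp_sub, N.map_bd]
  rfl

theorem omN_injective : Injective (omN C R) := by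
  rw [injective_iff_map_eq_zero]
  intro c hc
  obtain ⟨c, rfl⟩ := Submodule.Quotient.mk_surjective _ c
  rw [omN_mk, Submodule.Quotient.mk_eq_zero] at hc
  exact (Submodule.Quotient.mk_eq_zero _).2 (om_mem_Dg C hc)

theorem exact_omN_p : Exact (omN C R) (N.map R C.p) := by
  intro c
  obtain ⟨c, rfl⟩ := Submodule.Quotient.mk_surjective _ c
  constructor
  · intro h
    rw [N.map_mk, Submodule.Quotient.mk_eq_zero] at h
    obtain ⟨b, hb⟩ := exists_om C (sec C) (p_sec C) c
    refine ⟨Submodule.Quotient.mk b, ?_⟩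
    rw [omN_mk, ← hb, Submodule.Quotient.eq]
    have := secL_mem_Dg C (sec C) (p_sec C) h
    have e : c - secL R (sec C) (Ch.map R C.p c) - c = -secL R (sec C) (Ch.map R C.p c) := by abel
    rw [e]
    exact Submodule.neg_mem _ this
  · rintro ⟨b, hb⟩
    obtain ⟨b, rfl⟩ := Submodule.Quotient.mk_surjective _ b
    rw [← hb, omN_mk, N.map_mk, map_p_om]
    rfl

theorem p_surjective : Surjective (N.map R C.p) := by
  intro c
  obtain ⟨c, rfl⟩ := Submodule.Quotient.mk_surjective _ c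
  exact ⟨Submodule.Quotient.mk (secL R (sec C) c), by rw [N.map_mk, p_secL C _ (p_sec C)]⟩

variable (R) in
/-- `0 → N Kt --(1-g)--> N Kt → N K → 0` -/
theorem ses : HA498.SES (N.bd R Kt) (N.bd R Kt) (N.bd R K) (omN C R) (N.map R C.p) where
  sq' := N.bd_bd
  sq := N.bd_bd
  hf := omN_bd C
  hg := N.map_bd C.p
  inj := omN_injective C
  ex := exact_omN_p C
  surj := p_surjective C

variable (R) in
/-- the connecting map of the Wang sequence -/
def dlt : H R K →ₗ[R] H R Kt := HA498.delta (ses C R)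

theorem map_omN (x : H R Kt) : Hd.map (omN C R) (omN_bd C) x = x - H.map R C.g x := by
  obtain ⟨z, hz, rfl⟩ := Hd.mk_surj _ x
  rfl

/-- Wang sequence, exactness at the upper `H R Kt` (second arrow) -/
theorem exact_om_p : Exact (fun x : H R Kt => x - H.map R C.g x) (H.map R C.p) := by
  have := HA498.exact_fg (ses C R)
  have e : ⇑(Hd.map (omN C R) (ses C R).hf) = fun x : H R Kt => x - H.map R C.g x :=
    funext fun x => map_omN C x
  rw [e] at this
  exact this

theorem exact_p_dlt : Exact (H.map R C.p) (dlt C R) := HA498.exact_gδ (ses C R)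

theorem exact_dlt_om : Exact (dlt C R) (fun x : H R Kt => x - H.map R C.g x) := by
  have := HA498.exact_δf (ses C R)
  have e : ⇑(Hd.map (omN C R) (ses C R).hf) = fun x : H R Kt => x - H.map R C.g x :=
    funext fun x => map_omN C x
  rw [e] at this
  exact this

theorem dlt_mk (m y : N R Kt) (hm : N.bd R K (N.map R C.p m) = 0) (hy : N.bd R Kt y = 0)
    (e : omN C R y = N.bd R Kt m) : dlt C R (Hd.mk _ (N.map R C.p m) hm) = Hd.mk _ y hy :=
  HA498.delta_mk (ses C R) m y hm hy e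

/-- degrees -/
theorem omN_gr {n : ℕ} {y : N R Kt} (h : omN C R y ∈ N.gr R Kt n) : y ∈ N.gr R Kt n := by
  obtain ⟨c, rfl⟩ := Submodule.Quotient.mk_surjective _ y
  rw [omN_mk, mem_Ngr_iff] at h
  rw [mem_Ngr_iff]
  apply om_mem_Dg C
  have : om C R (c - Normz515.pr R Kt n c) = om C R c - Normz515.pr R Kt n (om C R c) := by
    rw [om_apply, om_apply, map_sub, map_sub, pr_map]
    abel
  rw [this]
  exact h

theorem Ngr_lift {n : ℕ} {z : N R K} (hz : z ∈ N.gr R K n) :
    ∃ m ∈ N.gr R Kt n, N.map R C.p m = z := by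
  obtain ⟨c, hc, rfl⟩ := hz
  refine ⟨Submodule.Quotient.mk (secL R (sec C) c), ⟨_, secL_mem_gr _ hc, rfl⟩, ?_⟩
  rw [N.map_mk, p_secL C _ (p_sec C)]
  rfl

theorem Nbd_mem_gr {L : SS} {n : ℕ} {z : N R L} (hz : z ∈ N.gr R L (n + 1)) :
    N.bd R L z ∈ N.gr R L n := by
  obtain ⟨c, hc, rfl⟩ := hz
  exact ⟨_, bd_mem_gr hc, rfl⟩

theorem Nbd_gr_zero {L : SS} {z : N R L} (hz : z ∈ N.gr R L 0) : N.bd R L z = 0 := by
  obtain ⟨c, hc, rfl⟩ := hz
  rw [Submodule.mkQ_apply, N.bd_mk, bd_gr_zero hc]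
  rfl

theorem dlt_mem {n : ℕ} {x : H R K} (hx : x ∈ H.gr R K (n + 1)) : dlt C R x ∈ H.gr R Kt n :=
  HA498.delta_mem (ses C R) (p'' := N.gr R K (n + 1)) (p := N.gr R Kt (n + 1)) (q := N.gr R Kt n)
    (q' := N.gr R Kt n) (fun _ hz => Ngr_lift C hz) (fun _ hm => Nbd_mem_gr hm)
    (fun _ hy => omN_gr C hy) hx

theorem dlt_zero {x : H R K} (hx : x ∈ H.gr R K 0) : dlt C R x = 0 := by
  obtain ⟨z, hz, hz', rfl⟩ := HA498.mem_grHd.1 hx
  obtain ⟨m, hm, rfl⟩ := Ngr_lift C hz
  rw [dlt_mk C m 0 hz' (map_zero _) (by rw [map_zero, Nbd_gr_zero hm])]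
  exact Hd.mk_eq_zero.2 ⟨0, map_zero _⟩

theorem dlt_nat {Lt L : SS} (D : ZCov Lt L) (F : ZCov.Map C D) (x : H R K) :
    dlt D R (H.map R F.f x) = H.map R F.ft (dlt C R x) := by
  refine HA498.delta_nat (ses C R) (ses D R) (N.map_bd F.ft) (N.map_bd F.ft) (N.map_bd F.f) ?_ ?_ x
  · intro y
    obtain ⟨c, rfl⟩ := Submodule.Quotient.mk_surjective _ y
    rw [N.map_mk, omN_mk, omN_mk, N.map_mk]
    congr 1
    rw [om_apply, om_apply, map_sub]
    congr 1
    induction c using Finsupp.induction_linear with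
    | zero => simp
    | add a b ha hb => simp only [map_add, ha, hb]
    | single t r =>
      obtain ⟨n, x⟩ := t
      simp only [Ch.map_single, ZCov.g_app, F.equi]
  · intro y
    obtain ⟨c, rfl⟩ := Submodule.Quotient.mk_surjective _ y
    rw [N.map_mk, N.map_mk, N.map_mk, N.map_mk]
    congr 1
    induction c using Finsupp.induction_linear with
    | zero => simp
    | add a b ha hb => simp only [map_add, ha, hb]
    | single t r =>
      obtain ⟨n, x⟩ := t
      simp only [Ch.map_single, F.comm]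

end norm

end

end Crest.Agent.R204.Wang905
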